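import Vale.Agent.Lib.P154.Chain.D6.L

set_option linter.all false

namespace Vale.Agent.Lib.P154.Chain.D6.S0

noncomputable def pc0 : PT := (PT.nd (nat_lit 548678) (PT.nd (nat_lit 386152) (PT.nd (nat_lit 277770) (PT.nd (nat_lit 223532) (PT.nd (nat_lit 169388) (PT.nd (nat_lit 169294) PT.nil (PT.lf (nat_lit 84) (nat_lit 6) (nat_lit 1) (nat_lit 3) (nat_lit 70) (nat_lit 3) (nat_lit 71))) (PT.lf (nat_lit 84) (nat_lit 6) (nat_lit 1) (nat_lit 1) (nat_lit 71) (nat_lit 3) (nat_lit 70))) (PT.nd (nat_lit 54144) (PT.lf (nat_lit 168) (nat_lit 3) (nat_lit 2) (nat_lit 1) (nat_lit 70) (nat_lit 4) (nat_lit 70)) (PT.lf (nat_lit 252) (nat_lit 6) (nat_lit 3) (nat_lit 3) (nat_lit 69) (nat_lit 5) (nat_lit 70)))) (PT.nd (nat_lit 54144) (PT.nd (nat_lit 54050) (PT.lf (nat_lit 252) (nat_lit 6) (nat_lit 3) (nat_lit 1) (nat_lit 70) (nat_lit 5) (nat_lit 69)) (PT.lf (nat_lit 336) (nat_lit 6) (nat_lit 4) (nat_lit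 3) (nat_lit 68) (nat_lit 6) (nat_lit 70))) (PT.nd (nat_lit 94) (PT.lf (nat_lit 420) (nat_lit 3) (nat_lit 5) (nat_lit 1) (nat_lit 69) (nat_lit 6) (nat_lit 69)) (PT.nd (nat_lit 54050) (PT.lf (nat_lit 336) (nat_lit 6) (nat_lit 4) (nat_lit 1) (nat_lit 70) (nat_lit 6) (nat_lit 68)) (PT.lf (nat_lit 504) (nat_lit 6) (nat_lit 6) (nat_lit 3) (nat_lit 68) (nat_lit 7) (nat_lit 69)))))) (PT.nd (nat_lit 108194) (PT.nd (nat_lit 54144) (PT.nd (nat_lit 54050) (PT.lf (nat_lit 504) (nat_lit 6) (nat_lit 6) (nat_lit 1) (nat_lit 69) (nat_lit 7) (nat_lit 68)) (PT.lf (nat_lit 588) (nat_lit 6) (nat_lit 7) (nat_lit 3) (nat_lit 67) (nat_lit 8) (nat_lit 69))) (PT.nd (nat_lit 94) (PT.lf (nat_lit 672) (nat_lit 3) (nat_lit 8) (nat_lit 1) (nat_lit 68) (nat_lit 8) (nat_lit 68)) (PT.lf (nat_lit 588) (nat_lit 6) (nat_lit 7) (nat_lit 1) (nat_lit 69) (nat_lit 8) (nat_lit 67)))) (PT.nd (nat_lit 188) (PT.nd (nat_lit 94)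 (PT.lf (nat_lit 756) (nat_lit 6) (nat_lit 9) (nat_lit 3) (nat_lit 66) (nat_lit 9) (nat_lit 69)) (PT.lf (nat_lit 840) (nat_lit 6) (nat_lit 10) (nat_lit 3) (nat_lit 67) (nat_lit 9) (nat_lit 68))) (PT.nd (nat_lit 94) (PT.lf (nat_lit 840) (nat_lit 6) (nat_lit 10) (nat_lit 1) (nat_lit 68) (nat_lit 9) (nat_lit 67)) (PT.nd (nat_lit 53956) (PT.lf (nat_lit 756) (nat_lit 6) (nat_lit 9) (nat_lit 1) (nat_lit 69) (nat_lit 9) (nat_lit 66)) (PT.lf (nat_lit 924) (nat_lit 6) (nat_lit 11) (nat_lit 3) (nat_lit 66) (nat_lit 10) (nat_lit 68))))))) (PT.nd (nat_lit 162432) (PT.nd (nat_lit 54238) (PT.nd (nat_lit 54050) (PT.nd (nat_lit 94) (PT.lf (nat_lit 1008) (nat_lit 3) (nat_lit 12) (nat_lit 1) (nat_lit 67) (nat_lit 10) (nat_lit 67)) (PT.lf (nat_lit 924) (nat_lit 6) (nat_lit 11) (nat_lit 1) (nat_lit 68) (nat_lit 10) (nat_lit 66))) (PT.nd (nat_lit 94) (PT.lf (nat_lit 1092) (nat_lit 6) (nat_lit 13) (nat_lit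 3) (nat_lit 65) (nat_lit 11) (nat_lit 68)) (PT.lf (nat_lit 1176) (nat_lit 6) (nat_lit 14) (nat_lit 3) (nat_lit 66) (nat_lit 11) (nat_lit 67)))) (PT.nd (nat_lit 54050) (PT.nd (nat_lit 94) (PT.lf (nat_lit 1176) (nat_lit 6) (nat_lit 14) (nat_lit 1) (nat_lit 67) (nat_lit 11) (nat_lit 66)) (PT.lf (nat_lit 1092) (nat_lit 6) (nat_lit 13) (nat_lit 1) (nat_lit 68) (nat_lit 11) (nat_lit 65))) (PT.nd (nat_lit 94) (PT.lf (nat_lit 1260) (nat_lit 6) (nat_lit 15) (nat_lit 3) (nat_lit 65) (nat_lit 12) (nat_lit 67)) (PT.nd (nat_lit 94) (PT.lf (nat_lit 1344) (nat_lit 3) (nat_lit 16) (nat_lit 1) (nat_lit 66) (nat_lit 12) (nat_lit 66)) (PT.lf (nat_lit 1260) (nat_lit 6) (nat_lit 15) (nat_lit 1) (nat_lit 67) (nat_lit 12) (nat_lit 65)))))) (PT.nd (nat_lit 54144) (PT.nd (nat_lit 188) (PT.nd (nat_lit 94) (PT.lf (nat_lit 1428) (nat_lit 6) (nat_lit 17) (nat_lit 3) (nat_lit 64) (nat_lit 13) (nat_lit 67)) (PT.lf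 (nat_lit 1512) (nat_lit 6) (nat_lit 18) (nat_lit 3) (nat_lit 65) (nat_lit 13) (nat_lit 66))) (PT.nd (nat_lit 94) (PT.lf (nat_lit 1512) (nat_lit 6) (nat_lit 18) (nat_lit 1) (nat_lit 66) (nat_lit 13) (nat_lit 65)) (PT.lf (nat_lit 1428) (nat_lit 6) (nat_lit 17) (nat_lit 1) (nat_lit 67) (nat_lit 13) (nat_lit 64)))) (PT.nd (nat_lit 188) (PT.nd (nat_lit 94) (PT.lf (nat_lit 1596) (nat_lit 6) (nat_lit 19) (nat_lit 3) (nat_lit 63) (nat_lit 14) (nat_lit 67)) (PT.lf (nat_lit 1680) (nat_lit 6) (nat_lit 20) (nat_lit 3) (nat_lit 64) (nat_lit 14) (nat_lit 66))) (PT.nd (nat_lit 94) (PT.lf (nat_lit 1764) (nat_lit 3) (nat_lit 21) (nat_lit 1) (nat_lit 65) (nat_lit 14) (nat_lit 65)) (PT.nd (nat_lit 94) (PT.lf (nat_lit 1680) (nat_lit 6) (nat_lit 20) (nat_lit 1) (nat_lit 66) (nat_lit 14) (nat_lit 64)) (PT.lf (nat_lit 1596) (nat_lit 6) (nat_lit 19) (nat_lit 1) (nat_lit 67) (nat_lit 14) (nat_lit 63))))))))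
noncomputable def pc1 : PT := (PT.nd (nat_lit 162808) (PT.nd (nat_lit 108288) (PT.nd (nat_lit 54144) (PT.nd (nat_lit 188) (PT.nd (nat_lit 94) (PT.lf (nat_lit 1848) (nat_lit 6) (nat_lit 22) (nat_lit 3) (nat_lit 63) (nat_lit 15) (nat_lit 66)) (PT.lf (nat_lit 1932) (nat_lit 6) (nat_lit 23) (nat_lit 3) (nat_lit 64) (nat_lit 15) (nat_lit 65))) (PT.nd (nat_lit 94) (PT.lf (nat_lit 1932) (nat_lit 6) (nat_lit 23) (nat_lit 1) (nat_lit 65) (nat_lit 15) (nat_lit 64)) (PT.lf (nat_lit 1848) (nat_lit 6) (nat_lit 22) (nat_lit 1) (nat_lit 66) (nat_lit 15) (nat_lit 63)))) (PT.nd (nat_lit 188) (PT.nd (nat_lit 94) (PT.lf (nat_lit 2016) (nat_lit 6) (nat_lit 24) (nat_lit 3) (nat_lit 62) (nat_lit 16) (nat_lit 66)) (PT.lf (nat_lit 2100) (nat_lit 6) (nat_lit 25) (nat_lit 3) (nat_lit 63) (nat_lit 16) (nat_lit 65))) (PT.nd (nat_lit 94) (PT.lf (nat_lit 2184) (nat_lit 3) (nat_lit 26) (nat_lit 1) (nat_lit 64) (nat_lit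 16) (nat_lit 64)) (PT.nd (nat_lit 94) (PT.lf (nat_lit 2100) (nat_lit 6) (nat_lit 25) (nat_lit 1) (nat_lit 65) (nat_lit 16) (nat_lit 63)) (PT.lf (nat_lit 2016) (nat_lit 6) (nat_lit 24) (nat_lit 1) (nat_lit 66) (nat_lit 16) (nat_lit 62)))))) (PT.nd (nat_lit 376) (PT.nd (nat_lit 188) (PT.nd (nat_lit 94) (PT.lf (nat_lit 2268) (nat_lit 6) (nat_lit 27) (nat_lit 3) (nat_lit 61) (nat_lit 17) (nat_lit 66)) (PT.lf (nat_lit 2352) (nat_lit 6) (nat_lit 28) (nat_lit 3) (nat_lit 62) (nat_lit 17) (nat_lit 65))) (PT.nd (nat_lit 94) (PT.lf (nat_lit 2436) (nat_lit 6) (nat_lit 29) (nat_lit 3) (nat_lit 63) (nat_lit 17) (nat_lit 64)) (PT.lf (nat_lit 2436) (nat_lit 6) (nat_lit 29) (nat_lit 1) (nat_lit 64) (nat_lit 17) (nat_lit 63)))) (PT.nd (nat_lit 53862) (PT.nd (nat_lit 94) (PT.lf (nat_lit 2352) (nat_lit 6) (nat_lit 28) (nat_lit 1) (nat_lit 65) (nat_lit 17) (nat_lit 62)) (PT.lf (nat_lit 2268) (nat_lit 6)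 (nat_lit 27) (nat_lit 1) (nat_lit 66) (nat_lit 17) (nat_lit 61))) (PT.nd (nat_lit 94) (PT.lf (nat_lit 2520) (nat_lit 6) (nat_lit 30) (nat_lit 3) (nat_lit 61) (nat_lit 18) (nat_lit 65)) (PT.nd (nat_lit 94) (PT.lf (nat_lit 2604) (nat_lit 6) (nat_lit 31) (nat_lit 3) (nat_lit 62) (nat_lit 18) (nat_lit 64)) (PT.lf (nat_lit 2688) (nat_lit 3) (nat_lit 32) (nat_lit 1) (nat_lit 63) (nat_lit 18) (nat_lit 63))))))) (PT.nd (nat_lit 108100) (PT.nd (nat_lit 54050) (PT.nd (nat_lit 53862) (PT.nd (nat_lit 94) (PT.lf (nat_lit 2604) (nat_lit 6) (nat_lit 31) (nat_lit 1) (nat_lit 64) (nat_lit 18) (nat_lit 62)) (PT.lf (nat_lit 2520) (nat_lit 6) (nat_lit 30) (nat_lit 1) (nat_lit 65) (nat_lit 18) (nat_lit 61))) (PT.nd (nat_lit 94) (PT.lf (nat_lit 2772) (nat_lit 6) (nat_lit 33) (nat_lit 3) (nat_lit 60) (nat_lit 19) (nat_lit 65)) (PT.lf (nat_lit 2856) (nat_lit 6) (nat_lit 34) (nat_lit 3) (nat_lit 61) (nat_lit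 19) (nat_lit 64)))) (PT.nd (nat_lit 188) (PT.nd (nat_lit 94) (PT.lf (nat_lit 2940) (nat_lit 6) (nat_lit 35) (nat_lit 3) (nat_lit 62) (nat_lit 19) (nat_lit 63)) (PT.lf (nat_lit 2940) (nat_lit 6) (nat_lit 35) (nat_lit 1) (nat_lit 63) (nat_lit 19) (nat_lit 62))) (PT.nd (nat_lit 94) (PT.lf (nat_lit 2856) (nat_lit 6) (nat_lit 34) (nat_lit 1) (nat_lit 64) (nat_lit 19) (nat_lit 61)) (PT.nd (nat_lit 53674) (PT.lf (nat_lit 2772) (nat_lit 6) (nat_lit 33) (nat_lit 1) (nat_lit 65) (nat_lit 19) (nat_lit 60)) (PT.lf (nat_lit 3024) (nat_lit 6) (nat_lit 36) (nat_lit 3) (nat_lit 59) (nat_lit 20) (nat_lit 65)))))) (PT.nd (nat_lit 470) (PT.nd (nat_lit 188) (PT.nd (nat_lit 94) (PT.lf (nat_lit 3108) (nat_lit 6) (nat_lit 37) (nat_lit 3) (nat_lit 60) (nat_lit 20) (nat_lit 64)) (PT.lf (nat_lit 3192) (nat_lit 6) (nat_lit 38) (nat_lit 3) (nat_lit 61) (nat_lit 20) (nat_lit 63))) (PT.nd (nat_lit 94) (PT.lf (nat_lit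 3276) (nat_lit 3) (nat_lit 39) (nat_lit 1) (nat_lit 62) (nat_lit 20) (nat_lit 62)) (PT.nd (nat_lit 94) (PT.lf (nat_lit 3192) (nat_lit 6) (nat_lit 38) (nat_lit 1) (nat_lit 63) (nat_lit 20) (nat_lit 61)) (PT.lf (nat_lit 3108) (nat_lit 6) (nat_lit 37) (nat_lit 1) (nat_lit 64) (nat_lit 20) (nat_lit 60))))) (PT.nd (nat_lit 53768) (PT.nd (nat_lit 53674) (PT.lf (nat_lit 3024) (nat_lit 6) (nat_lit 36) (nat_lit 1) (nat_lit 65) (nat_lit 20) (nat_lit 59)) (PT.lf (nat_lit 3360) (nat_lit 6) (nat_lit 40) (nat_lit 3) (nat_lit 59) (nat_lit 21) (nat_lit 64))) (PT.nd (nat_lit 94) (PT.lf (nat_lit 3444) (nat_lit 6) (nat_lit 41) (nat_lit 3) (nat_lit 60) (nat_lit 21) (nat_lit 63)) (PT.nd (nat_lit 94) (PT.lf (nat_lit 3528) (nat_lit 6) (nat_lit 42) (nat_lit 3) (nat_lit 61) (nat_lit 21) (nat_lit 62)) (PT.lf (nat_lit 3528) (nat_lit 6) (nat_lit 42) (nat_lit 1) (nat_lit 62) (nat_lit 21) (nat_lit 61))))))))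
noncomputable def pc2 : PT := (PT.nd (nat_lit 162150) (PT.nd (nat_lit 107912) (PT.nd (nat_lit 53956) (PT.nd (nat_lit 53768) (PT.nd (nat_lit 94) (PT.lf (nat_lit 3444) (nat_lit 6) (nat_lit 41) (nat_lit 1) (nat_lit 63) (nat_lit 21) (nat_lit 60)) (PT.lf (nat_lit 3360) (nat_lit 6) (nat_lit 40) (nat_lit 1) (nat_lit 64) (nat_lit 21) (nat_lit 59))) (PT.nd (nat_lit 94) (PT.lf (nat_lit 3612) (nat_lit 6) (nat_lit 43) (nat_lit 3) (nat_lit 58) (nat_lit 22) (nat_lit 64)) (PT.lf (nat_lit 3696) (nat_lit 6) (nat_lit 44) (nat_lit 3) (nat_lit 59) (nat_lit 22) (nat_lit 63)))) (PT.nd (nat_lit 188) (PT.nd (nat_lit 94) (PT.lf (nat_lit 3780) (nat_lit 6) (nat_lit 45) (nat_lit 3) (nat_lit 60) (nat_lit 22) (nat_lit 62)) (PT.lf (nat_lit 3864) (nat_lit 3) (nat_lit 46) (nat_lit 1) (nat_lit 61) (nat_lit 22) (nat_lit 61))) (PT.nd (nat_lit 94) (PT.lf (nat_lit 3780) (nat_lit 6) (nat_lit 45) (nat_lit 1) (nat_lit 62) (nat_lit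 22) (nat_lit 60)) (PT.nd (nat_lit 94) (PT.lf (nat_lit 3696) (nat_lit 6) (nat_lit 44) (nat_lit 1) (nat_lit 63) (nat_lit 22) (nat_lit 59)) (PT.lf (nat_lit 3612) (nat_lit 6) (nat_lit 43) (nat_lit 1) (nat_lit 64) (nat_lit 22) (nat_lit 58)))))) (PT.nd (nat_lit 376) (PT.nd (nat_lit 188) (PT.nd (nat_lit 94) (PT.lf (nat_lit 3948) (nat_lit 6) (nat_lit 47) (nat_lit 3) (nat_lit 57) (nat_lit 23) (nat_lit 64)) (PT.lf (nat_lit 4032) (nat_lit 6) (nat_lit 48) (nat_lit 3) (nat_lit 58) (nat_lit 23) (nat_lit 63))) (PT.nd (nat_lit 94) (PT.lf (nat_lit 4116) (nat_lit 6) (nat_lit 49) (nat_lit 3) (nat_lit 59) (nat_lit 23) (nat_lit 62)) (PT.lf (nat_lit 4200) (nat_lit 6) (nat_lit 50) (nat_lit 3) (nat_lit 60) (nat_lit 23) (nat_lit 61)))) (PT.nd (nat_lit 188) (PT.nd (nat_lit 94) (PT.lf (nat_lit 4200) (nat_lit 6) (nat_lit 50) (nat_lit 1) (nat_lit 61) (nat_lit 23) (nat_lit 60)) (PT.lf (nat_lit 4116) (nat_lit 6) (nat_lit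 49) (nat_lit 1) (nat_lit 62) (nat_lit 23) (nat_lit 59))) (PT.nd (nat_lit 94) (PT.lf (nat_lit 4032) (nat_lit 6) (nat_lit 48) (nat_lit 1) (nat_lit 63) (nat_lit 23) (nat_lit 58)) (PT.nd (nat_lit 53486) (PT.lf (nat_lit 3948) (nat_lit 6) (nat_lit 47) (nat_lit 1) (nat_lit 64) (nat_lit 23) (nat_lit 57)) (PT.lf (nat_lit 4284) (nat_lit 6) (nat_lit 51) (nat_lit 3) (nat_lit 56) (nat_lit 24) (nat_lit 64))))))) (PT.nd (nat_lit 54238) (PT.nd (nat_lit 376) (PT.nd (nat_lit 188) (PT.nd (nat_lit 94) (PT.lf (nat_lit 4368) (nat_lit 6) (nat_lit 52) (nat_lit 3) (nat_lit 57) (nat_lit 24) (nat_lit 63)) (PT.lf (nat_lit 4452) (nat_lit 6) (nat_lit 53) (nat_lit 3) (nat_lit 58) (nat_lit 24) (nat_lit 62))) (PT.nd (nat_lit 94) (PT.lf (nat_lit 4536) (nat_lit 6) (nat_lit 54) (nat_lit 3) (nat_lit 59) (nat_lit 24) (nat_lit 61)) (PT.lf (nat_lit 4620) (nat_lit 3) (nat_lit 55) (nat_lit 1) (nat_lit 60) (nat_lit 24) (nat_lit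 60)))) (PT.nd (nat_lit 188) (PT.nd (nat_lit 94) (PT.lf (nat_lit 4536) (nat_lit 6) (nat_lit 54) (nat_lit 1) (nat_lit 61) (nat_lit 24) (nat_lit 59)) (PT.lf (nat_lit 4452) (nat_lit 6) (nat_lit 53) (nat_lit 1) (nat_lit 62) (nat_lit 24) (nat_lit 58))) (PT.nd (nat_lit 94) (PT.lf (nat_lit 4368) (nat_lit 6) (nat_lit 52) (nat_lit 1) (nat_lit 63) (nat_lit 24) (nat_lit 57)) (PT.nd (nat_lit 53486) (PT.lf (nat_lit 4284) (nat_lit 6) (nat_lit 51) (nat_lit 1) (nat_lit 64) (nat_lit 24) (nat_lit 56)) (PT.lf (nat_lit 4704) (nat_lit 6) (nat_lit 56) (nat_lit 3) (nat_lit 56) (nat_lit 25) (nat_lit 63)))))) (PT.nd (nat_lit 470) (PT.nd (nat_lit 188) (PT.nd (nat_lit 94) (PT.lf (nat_lit 4788) (nat_lit 6) (nat_lit 57) (nat_lit 3) (nat_lit 57) (nat_lit 25) (nat_lit 62)) (PT.lf (nat_lit 4872) (nat_lit 6) (nat_lit 58) (nat_lit 3) (nat_lit 58) (nat_lit 25) (nat_lit 61))) (PT.nd (nat_lit 94) (PT.lf (nat_lit 4956) (nat_lit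 6) (nat_lit 59) (nat_lit 3) (nat_lit 59) (nat_lit 25) (nat_lit 60)) (PT.nd (nat_lit 94) (PT.lf (nat_lit 4956) (nat_lit 6) (nat_lit 59) (nat_lit 1) (nat_lit 60) (nat_lit 25) (nat_lit 59)) (PT.lf (nat_lit 4872) (nat_lit 6) (nat_lit 58) (nat_lit 1) (nat_lit 61) (nat_lit 25) (nat_lit 58))))) (PT.nd (nat_lit 53580) (PT.nd (nat_lit 94) (PT.lf (nat_lit 4788) (nat_lit 6) (nat_lit 57) (nat_lit 1) (nat_lit 62) (nat_lit 25) (nat_lit 57)) (PT.lf (nat_lit 4704) (nat_lit 6) (nat_lit 56) (nat_lit 1) (nat_lit 63) (nat_lit 25) (nat_lit 56))) (PT.nd (nat_lit 94) (PT.lf (nat_lit 5040) (nat_lit 6) (nat_lit 60) (nat_lit 3) (nat_lit 55) (nat_lit 26) (nat_lit 63)) (PT.nd (nat_lit 94) (PT.lf (nat_lit 5124) (nat_lit 6) (nat_lit 61) (nat_lit 3) (nat_lit 56) (nat_lit 26) (nat_lit 62)) (PT.lf (nat_lit 5208) (nat_lit 6) (nat_lit 62) (nat_lit 3) (nat_lit 57) (nat_lit 26) (nat_lit 61))))))))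
noncomputable def pc3 : PT := (PT.nd (nat_lit 108194) (PT.nd (nat_lit 54144) (PT.nd (nat_lit 376) (PT.nd (nat_lit 188) (PT.nd (nat_lit 94) (PT.lf (nat_lit 5292) (nat_lit 6) (nat_lit 63) (nat_lit 3) (nat_lit 58) (nat_lit 26) (nat_lit 60)) (PT.lf (nat_lit 5376) (nat_lit 3) (nat_lit 64) (nat_lit 1) (nat_lit 59) (nat_lit 26) (nat_lit 59))) (PT.nd (nat_lit 94) (PT.lf (nat_lit 5292) (nat_lit 6) (nat_lit 63) (nat_lit 1) (nat_lit 60) (nat_lit 26) (nat_lit 58)) (PT.lf (nat_lit 5208) (nat_lit 6) (nat_lit 62) (nat_lit 1) (nat_lit 61) (nat_lit 26) (nat_lit 57)))) (PT.nd (nat_lit 53486) (PT.nd (nat_lit 94) (PT.lf (nat_lit 5124) (nat_lit 6) (nat_lit 61) (nat_lit 1) (nat_lit 62) (nat_lit 26) (nat_lit 56)) (PT.lf (nat_lit 5040) (nat_lit 6) (nat_lit 60) (nat_lit 1) (nat_lit 63) (nat_lit 26) (nat_lit 55))) (PT.nd (nat_lit 94) (PT.lf (nat_lit 5460) (nat_lit 6) (nat_lit 65) (nat_lit 3) (nat_lit 54) (nat_lit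 27) (nat_lit 63)) (PT.nd (nat_lit 94) (PT.lf (nat_lit 5544) (nat_lit 6) (nat_lit 66) (nat_lit 3) (nat_lit 55) (nat_lit 27) (nat_lit 62)) (PT.lf (nat_lit 5628) (nat_lit 6) (nat_lit 67) (nat_lit 3) (nat_lit 56) (nat_lit 27) (nat_lit 61)))))) (PT.nd (nat_lit 376) (PT.nd (nat_lit 188) (PT.nd (nat_lit 94) (PT.lf (nat_lit 5712) (nat_lit 6) (nat_lit 68) (nat_lit 3) (nat_lit 57) (nat_lit 27) (nat_lit 60)) (PT.lf (nat_lit 5796) (nat_lit 6) (nat_lit 69) (nat_lit 3) (nat_lit 58) (nat_lit 27) (nat_lit 59))) (PT.nd (nat_lit 94) (PT.lf (nat_lit 5796) (nat_lit 6) (nat_lit 69) (nat_lit 1) (nat_lit 59) (nat_lit 27) (nat_lit 58)) (PT.lf (nat_lit 5712) (nat_lit 6) (nat_lit 68) (nat_lit 1) (nat_lit 60) (nat_lit 27) (nat_lit 57)))) (PT.nd (nat_lit 188) (PT.nd (nat_lit 94) (PT.lf (nat_lit 5628) (nat_lit 6) (nat_lit 67) (nat_lit 1) (nat_lit 61) (nat_lit 27) (nat_lit 56)) (PT.lf (nat_lit 5544) (nat_lit 6) (nat_lit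 66) (nat_lit 1) (nat_lit 62) (nat_lit 27) (nat_lit 55))) (PT.nd (nat_lit 53298) (PT.lf (nat_lit 5460) (nat_lit 6) (nat_lit 65) (nat_lit 1) (nat_lit 63) (nat_lit 27) (nat_lit 54)) (PT.nd (nat_lit 94) (PT.lf (nat_lit 5880) (nat_lit 6) (nat_lit 70) (nat_lit 3) (nat_lit 53) (nat_lit 28) (nat_lit 63)) (PT.lf (nat_lit 5964) (nat_lit 6) (nat_lit 71) (nat_lit 3) (nat_lit 54) (nat_lit 28) (nat_lit 62))))))) (PT.nd (nat_lit 54050) (PT.nd (nat_lit 376) (PT.nd (nat_lit 188) (PT.nd (nat_lit 94) (PT.lf (nat_lit 6048) (nat_lit 6) (nat_lit 72) (nat_lit 3) (nat_lit 55) (nat_lit 28) (nat_lit 61)) (PT.lf (nat_lit 6132) (nat_lit 6) (nat_lit 73) (nat_lit 3) (nat_lit 56) (nat_lit 28) (nat_lit 60))) (PT.nd (nat_lit 94) (PT.lf (nat_lit 6216) (nat_lit 6) (nat_lit 74) (nat_lit 3) (nat_lit 57) (nat_lit 28) (nat_lit 59)) (PT.lf (nat_lit 6300) (nat_lit 3) (nat_lit 75) (nat_lit 1) (nat_lit 58) (nat_lit 28) (nat_lit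 58)))) (PT.nd (nat_lit 188) (PT.nd (nat_lit 94) (PT.lf (nat_lit 6216) (nat_lit 6) (nat_lit 74) (nat_lit 1) (nat_lit 59) (nat_lit 28) (nat_lit 57)) (PT.lf (nat_lit 6132) (nat_lit 6) (nat_lit 73) (nat_lit 1) (nat_lit 60) (nat_lit 28) (nat_lit 56))) (PT.nd (nat_lit 94) (PT.lf (nat_lit 6048) (nat_lit 6) (nat_lit 72) (nat_lit 1) (nat_lit 61) (nat_lit 28) (nat_lit 55)) (PT.nd (nat_lit 94) (PT.lf (nat_lit 5964) (nat_lit 6) (nat_lit 71) (nat_lit 1) (nat_lit 62) (nat_lit 28) (nat_lit 54)) (PT.lf (nat_lit 5880) (nat_lit 6) (nat_lit 70) (nat_lit 1) (nat_lit 63) (nat_lit 28) (nat_lit 53)))))) (PT.nd (nat_lit 470) (PT.nd (nat_lit 188) (PT.nd (nat_lit 94) (PT.lf (nat_lit 6384) (nat_lit 6) (nat_lit 76) (nat_lit 3) (nat_lit 53) (nat_lit 29) (nat_lit 62)) (PT.lf (nat_lit 6468) (nat_lit 6) (nat_lit 77) (nat_lit 3) (nat_lit 54) (nat_lit 29) (nat_lit 61))) (PT.nd (nat_lit 94) (PT.lf (nat_lit 6552) (nat_lit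 6) (nat_lit 78) (nat_lit 3) (nat_lit 55) (nat_lit 29) (nat_lit 60)) (PT.nd (nat_lit 94) (PT.lf (nat_lit 6636) (nat_lit 6) (nat_lit 79) (nat_lit 3) (nat_lit 56) (nat_lit 29) (nat_lit 59)) (PT.lf (nat_lit 6720) (nat_lit 6) (nat_lit 80) (nat_lit 3) (nat_lit 57) (nat_lit 29) (nat_lit 58))))) (PT.nd (nat_lit 188) (PT.nd (nat_lit 94) (PT.lf (nat_lit 6720) (nat_lit 6) (nat_lit 80) (nat_lit 1) (nat_lit 58) (nat_lit 29) (nat_lit 57)) (PT.lf (nat_lit 6636) (nat_lit 6) (nat_lit 79) (nat_lit 1) (nat_lit 59) (nat_lit 29) (nat_lit 56))) (PT.nd (nat_lit 94) (PT.lf (nat_lit 6552) (nat_lit 6) (nat_lit 78) (nat_lit 1) (nat_lit 60) (nat_lit 29) (nat_lit 55)) (PT.nd (nat_lit 94) (PT.lf (nat_lit 6468) (nat_lit 6) (nat_lit 77) (nat_lit 1) (nat_lit 61) (nat_lit 29) (nat_lit 54)) (PT.lf (nat_lit 6384) (nat_lit 6) (nat_lit 76) (nat_lit 1) (nat_lit 62) (nat_lit 29) (nat_lit 53))))))))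
noncomputable def pc4 : PT := (PT.nd (nat_lit 54802) (PT.nd (nat_lit 846) (PT.nd (nat_lit 376) (PT.nd (nat_lit 188) (PT.nd (nat_lit 94) (PT.lf (nat_lit 6804) (nat_lit 6) (nat_lit 81) (nat_lit 3) (nat_lit 52) (nat_lit 30) (nat_lit 62)) (PT.lf (nat_lit 6888) (nat_lit 6) (nat_lit 82) (nat_lit 3) (nat_lit 53) (nat_lit 30) (nat_lit 61))) (PT.nd (nat_lit 94) (PT.lf (nat_lit 6972) (nat_lit 6) (nat_lit 83) (nat_lit 3) (nat_lit 54) (nat_lit 30) (nat_lit 60)) (PT.lf (nat_lit 7056) (nat_lit 6) (nat_lit 84) (nat_lit 3) (nat_lit 55) (nat_lit 30) (nat_lit 59)))) (PT.nd (nat_lit 188) (PT.nd (nat_lit 94) (PT.lf (nat_lit 7140) (nat_lit 6) (nat_lit 85) (nat_lit 3) (nat_lit 56) (nat_lit 30) (nat_lit 58)) (PT.lf (nat_lit 7224) (nat_lit 3) (nat_lit 86) (nat_lit 1) (nat_lit 57) (nat_lit 30) (nat_lit 57))) (PT.nd (nat_lit 94) (PT.lf (nat_lit 7140) (nat_lit 6) (nat_lit 85) (nat_lit 1) (nat_lit 58) (nat_lit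 30) (nat_lit 56)) (PT.nd (nat_lit 94) (PT.lf (nat_lit 7056) (nat_lit 6) (nat_lit 84) (nat_lit 1) (nat_lit 59) (nat_lit 30) (nat_lit 55)) (PT.lf (nat_lit 6972) (nat_lit 6) (nat_lit 83) (nat_lit 1) (nat_lit 60) (nat_lit 30) (nat_lit 54)))))) (PT.nd (nat_lit 53486) (PT.nd (nat_lit 53298) (PT.nd (nat_lit 94) (PT.lf (nat_lit 6888) (nat_lit 6) (nat_lit 82) (nat_lit 1) (nat_lit 61) (nat_lit 30) (nat_lit 53)) (PT.lf (nat_lit 6804) (nat_lit 6) (nat_lit 81) (nat_lit 1) (nat_lit 62) (nat_lit 30) (nat_lit 52))) (PT.nd (nat_lit 94) (PT.lf (nat_lit 7308) (nat_lit 6) (nat_lit 87) (nat_lit 3) (nat_lit 51) (nat_lit 31) (nat_lit 62)) (PT.lf (nat_lit 7392) (nat_lit 6) (nat_lit 88) (nat_lit 3) (nat_lit 52) (nat_lit 31) (nat_lit 61)))) (PT.nd (nat_lit 188) (PT.nd (nat_lit 94) (PT.lf (nat_lit 7476) (nat_lit 6) (nat_lit 89) (nat_lit 3) (nat_lit 53) (nat_lit 31) (nat_lit 60)) (PT.lf (nat_lit 7560) (nat_lit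 6) (nat_lit 90) (nat_lit 3) (nat_lit 54) (nat_lit 31) (nat_lit 59))) (PT.nd (nat_lit 94) (PT.lf (nat_lit 7644) (nat_lit 6) (nat_lit 91) (nat_lit 3) (nat_lit 55) (nat_lit 31) (nat_lit 58)) (PT.nd (nat_lit 94) (PT.lf (nat_lit 7728) (nat_lit 6) (nat_lit 92) (nat_lit 3) (nat_lit 56) (nat_lit 31) (nat_lit 57)) (PT.lf (nat_lit 7728) (nat_lit 6) (nat_lit 92) (nat_lit 1) (nat_lit 57) (nat_lit 31) (nat_lit 56))))))) (PT.nd (nat_lit 53862) (PT.nd (nat_lit 376) (PT.nd (nat_lit 188) (PT.nd (nat_lit 94) (PT.lf (nat_lit 7644) (nat_lit 6) (nat_lit 91) (nat_lit 1) (nat_lit 58) (nat_lit 31) (nat_lit 55)) (PT.lf (nat_lit 7560) (nat_lit 6) (nat_lit 90) (nat_lit 1) (nat_lit 59) (nat_lit 31) (nat_lit 54))) (PT.nd (nat_lit 94) (PT.lf (nat_lit 7476) (nat_lit 6) (nat_lit 89) (nat_lit 1) (nat_lit 60) (nat_lit 31) (nat_lit 53)) (PT.lf (nat_lit 7392) (nat_lit 6) (nat_lit 88) (nat_lit 1) (nat_lit 61) (nat_lit 31)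 (nat_lit 52)))) (PT.nd (nat_lit 53204) (PT.nd (nat_lit 53110) (PT.lf (nat_lit 7308) (nat_lit 6) (nat_lit 87) (nat_lit 1) (nat_lit 62) (nat_lit 31) (nat_lit 51)) (PT.lf (nat_lit 7812) (nat_lit 6) (nat_lit 93) (nat_lit 3) (nat_lit 50) (nat_lit 32) (nat_lit 62))) (PT.nd (nat_lit 94) (PT.lf (nat_lit 7896) (nat_lit 6) (nat_lit 94) (nat_lit 3) (nat_lit 51) (nat_lit 32) (nat_lit 61)) (PT.nd (nat_lit 94) (PT.lf (nat_lit 7980) (nat_lit 6) (nat_lit 95) (nat_lit 3) (nat_lit 52) (nat_lit 32) (nat_lit 60)) (PT.lf (nat_lit 8064) (nat_lit 6) (nat_lit 96) (nat_lit 3) (nat_lit 53) (nat_lit 32) (nat_lit 59)))))) (PT.nd (nat_lit 376) (PT.nd (nat_lit 188) (PT.nd (nat_lit 94) (PT.lf (nat_lit 8148) (nat_lit 6) (nat_lit 97) (nat_lit 3) (nat_lit 54) (nat_lit 32) (nat_lit 58)) (PT.lf (nat_lit 8232) (nat_lit 6) (nat_lit 98) (nat_lit 3) (nat_lit 55) (nat_lit 32) (nat_lit 57))) (PT.nd (nat_lit 94) (PT.lf (nat_lit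 8316) (nat_lit 3) (nat_lit 99) (nat_lit 1) (nat_lit 56) (nat_lit 32) (nat_lit 56)) (PT.lf (nat_lit 8232) (nat_lit 6) (nat_lit 98) (nat_lit 1) (nat_lit 57) (nat_lit 32) (nat_lit 55)))) (PT.nd (nat_lit 188) (PT.nd (nat_lit 94) (PT.lf (nat_lit 8148) (nat_lit 6) (nat_lit 97) (nat_lit 1) (nat_lit 58) (nat_lit 32) (nat_lit 54)) (PT.lf (nat_lit 8064) (nat_lit 6) (nat_lit 96) (nat_lit 1) (nat_lit 59) (nat_lit 32) (nat_lit 53))) (PT.nd (nat_lit 94) (PT.lf (nat_lit 7980) (nat_lit 6) (nat_lit 95) (nat_lit 1) (nat_lit 60) (nat_lit 32) (nat_lit 52)) (PT.nd (nat_lit 94) (PT.lf (nat_lit 7896) (nat_lit 6) (nat_lit 94) (nat_lit 1) (nat_lit 61) (nat_lit 32) (nat_lit 51)) (PT.lf (nat_lit 7812) (nat_lit 6) (nat_lit 93) (nat_lit 1) (nat_lit 62) (nat_lit 32) (nat_lit 50))))))))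
noncomputable def pc5 : PT := (PT.nd (nat_lit 54614) (PT.nd (nat_lit 846) (PT.nd (nat_lit 376) (PT.nd (nat_lit 188) (PT.nd (nat_lit 94) (PT.lf (nat_lit 8400) (nat_lit 6) (nat_lit 100) (nat_lit 3) (nat_lit 49) (nat_lit 33) (nat_lit 62)) (PT.lf (nat_lit 8484) (nat_lit 6) (nat_lit 101) (nat_lit 3) (nat_lit 50) (nat_lit 33) (nat_lit 61))) (PT.nd (nat_lit 94) (PT.lf (nat_lit 8568) (nat_lit 6) (nat_lit 102) (nat_lit 3) (nat_lit 51) (nat_lit 33) (nat_lit 60)) (PT.lf (nat_lit 8652) (nat_lit 6) (nat_lit 103) (nat_lit 3) (nat_lit 52) (nat_lit 33) (nat_lit 59)))) (PT.nd (nat_lit 188) (PT.nd (nat_lit 94) (PT.lf (nat_lit 8736) (nat_lit 6) (nat_lit 104) (nat_lit 3) (nat_lit 53) (nat_lit 33) (nat_lit 58)) (PT.lf (nat_lit 8820) (nat_lit 6) (nat_lit 105) (nat_lit 3) (nat_lit 54) (nat_lit 33) (nat_lit 57))) (PT.nd (nat_lit 94) (PT.lf (nat_lit 8904) (nat_lit 6) (nat_lit 106) (nat_lit 3) (nat_lit 55) (nat_lit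 33) (nat_lit 56)) (PT.nd (nat_lit 94) (PT.lf (nat_lit 8904) (nat_lit 6) (nat_lit 106) (nat_lit 1) (nat_lit 56) (nat_lit 33) (nat_lit 55)) (PT.lf (nat_lit 8820) (nat_lit 6) (nat_lit 105) (nat_lit 1) (nat_lit 57) (nat_lit 33) (nat_lit 54)))))) (PT.nd (nat_lit 376) (PT.nd (nat_lit 188) (PT.nd (nat_lit 94) (PT.lf (nat_lit 8736) (nat_lit 6) (nat_lit 104) (nat_lit 1) (nat_lit 58) (nat_lit 33) (nat_lit 53)) (PT.lf (nat_lit 8652) (nat_lit 6) (nat_lit 103) (nat_lit 1) (nat_lit 59) (nat_lit 33) (nat_lit 52))) (PT.nd (nat_lit 94) (PT.lf (nat_lit 8568) (nat_lit 6) (nat_lit 102) (nat_lit 1) (nat_lit 60) (nat_lit 33) (nat_lit 51)) (PT.lf (nat_lit 8484) (nat_lit 6) (nat_lit 101) (nat_lit 1) (nat_lit 61) (nat_lit 33) (nat_lit 50)))) (PT.nd (nat_lit 53110) (PT.nd (nat_lit 53016) (PT.lf (nat_lit 8400) (nat_lit 6) (nat_lit 100) (nat_lit 1) (nat_lit 62) (nat_lit 33) (nat_lit 49)) (PT.lf (nat_lit 8988) (nat_lit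 6) (nat_lit 107) (nat_lit 3) (nat_lit 49) (nat_lit 34) (nat_lit 61))) (PT.nd (nat_lit 94) (PT.lf (nat_lit 9072) (nat_lit 6) (nat_lit 108) (nat_lit 3) (nat_lit 50) (nat_lit 34) (nat_lit 60)) (PT.nd (nat_lit 94) (PT.lf (nat_lit 9156) (nat_lit 6) (nat_lit 109) (nat_lit 3) (nat_lit 51) (nat_lit 34) (nat_lit 59)) (PT.lf (nat_lit 9240) (nat_lit 6) (nat_lit 110) (nat_lit 3) (nat_lit 52) (nat_lit 34) (nat_lit 58))))))) (PT.nd (nat_lit 53768) (PT.nd (nat_lit 376) (PT.nd (nat_lit 188) (PT.nd (nat_lit 94) (PT.lf (nat_lit 9324) (nat_lit 6) (nat_lit 111) (nat_lit 3) (nat_lit 53) (nat_lit 34) (nat_lit 57)) (PT.lf (nat_lit 9408) (nat_lit 6) (nat_lit 112) (nat_lit 3) (nat_lit 54) (nat_lit 34) (nat_lit 56))) (PT.nd (nat_lit 94) (PT.lf (nat_lit 9492) (nat_lit 3) (nat_lit 113) (nat_lit 1) (nat_lit 55) (nat_lit 34) (nat_lit 55)) (PT.lf (nat_lit 9408) (nat_lit 6) (nat_lit 112) (nat_lit 1) (nat_lit 56) (nat_lit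 34) (nat_lit 54)))) (PT.nd (nat_lit 188) (PT.nd (nat_lit 94) (PT.lf (nat_lit 9324) (nat_lit 6) (nat_lit 111) (nat_lit 1) (nat_lit 57) (nat_lit 34) (nat_lit 53)) (PT.lf (nat_lit 9240) (nat_lit 6) (nat_lit 110) (nat_lit 1) (nat_lit 58) (nat_lit 34) (nat_lit 52))) (PT.nd (nat_lit 94) (PT.lf (nat_lit 9156) (nat_lit 6) (nat_lit 109) (nat_lit 1) (nat_lit 59) (nat_lit 34) (nat_lit 51)) (PT.nd (nat_lit 94) (PT.lf (nat_lit 9072) (nat_lit 6) (nat_lit 108) (nat_lit 1) (nat_lit 60) (nat_lit 34) (nat_lit 50)) (PT.lf (nat_lit 8988) (nat_lit 6) (nat_lit 107) (nat_lit 1) (nat_lit 61) (nat_lit 34) (nat_lit 49)))))) (PT.nd (nat_lit 470) (PT.nd (nat_lit 188) (PT.nd (nat_lit 94) (PT.lf (nat_lit 10080) (nat_lit 6) (nat_lit 120) (nat_lit 3) (nat_lit 48) (nat_lit 35) (nat_lit 61)) (PT.lf (nat_lit 10164) (nat_lit 6) (nat_lit 121) (nat_lit 3) (nat_lit 49) (nat_lit 35) (nat_lit 60))) (PT.nd (nat_lit 94) (PT.lf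 (nat_lit 10248) (nat_lit 6) (nat_lit 122) (nat_lit 3) (nat_lit 50) (nat_lit 35) (nat_lit 59)) (PT.nd (nat_lit 94) (PT.lf (nat_lit 10332) (nat_lit 6) (nat_lit 123) (nat_lit 3) (nat_lit 51) (nat_lit 35) (nat_lit 58)) (PT.lf (nat_lit 10416) (nat_lit 6) (nat_lit 124) (nat_lit 3) (nat_lit 52) (nat_lit 35) (nat_lit 57))))) (PT.nd (nat_lit 188) (PT.nd (nat_lit 94) (PT.lf (nat_lit 10500) (nat_lit 6) (nat_lit 125) (nat_lit 3) (nat_lit 53) (nat_lit 35) (nat_lit 56)) (PT.lf (nat_lit 10584) (nat_lit 6) (nat_lit 126) (nat_lit 3) (nat_lit 54) (nat_lit 35) (nat_lit 55))) (PT.nd (nat_lit 94) (PT.lf (nat_lit 10584) (nat_lit 6) (nat_lit 126) (nat_lit 1) (nat_lit 55) (nat_lit 35) (nat_lit 54)) (PT.nd (nat_lit 94) (PT.lf (nat_lit 10500) (nat_lit 6) (nat_lit 125) (nat_lit 1) (nat_lit 56) (nat_lit 35) (nat_lit 53)) (PT.lf (nat_lit 10416) (nat_lit 6) (nat_lit 124) (nat_lit 1) (nat_lit 57) (nat_lit 35) (nat_lit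 52))))))))
noncomputable def pc6 : PT := (PT.nd (nat_lit 54520) (PT.nd (nat_lit 53674) (PT.nd (nat_lit 53204) (PT.nd (nat_lit 188) (PT.nd (nat_lit 94) (PT.lf (nat_lit 10332) (nat_lit 6) (nat_lit 123) (nat_lit 1) (nat_lit 58) (nat_lit 35) (nat_lit 51)) (PT.lf (nat_lit 10248) (nat_lit 6) (nat_lit 122) (nat_lit 1) (nat_lit 59) (nat_lit 35) (nat_lit 50))) (PT.nd (nat_lit 94) (PT.lf (nat_lit 10164) (nat_lit 6) (nat_lit 121) (nat_lit 1) (nat_lit 60) (nat_lit 35) (nat_lit 49)) (PT.lf (nat_lit 10080) (nat_lit 6) (nat_lit 120) (nat_lit 1) (nat_lit 61) (nat_lit 35) (nat_lit 48)))) (PT.nd (nat_lit 188) (PT.nd (nat_lit 94) (PT.lf (nat_lit 9996) (nat_lit 6) (nat_lit 119) (nat_lit 3) (nat_lit 47) (nat_lit 36) (nat_lit 61)) (PT.lf (nat_lit 11172) (nat_lit 6) (nat_lit 133) (nat_lit 3) (nat_lit 48) (nat_lit 36) (nat_lit 60))) (PT.nd (nat_lit 94) (PT.lf (nat_lit 11256) (nat_lit 6) (nat_lit 134) (nat_lit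 3) (nat_lit 49) (nat_lit 36) (nat_lit 59)) (PT.nd (nat_lit 94) (PT.lf (nat_lit 11340) (nat_lit 6) (nat_lit 135) (nat_lit 3) (nat_lit 50) (nat_lit 36) (nat_lit 58)) (PT.lf (nat_lit 11424) (nat_lit 6) (nat_lit 136) (nat_lit 3) (nat_lit 51) (nat_lit 36) (nat_lit 57)))))) (PT.nd (nat_lit 376) (PT.nd (nat_lit 188) (PT.nd (nat_lit 94) (PT.lf (nat_lit 11508) (nat_lit 6) (nat_lit 137) (nat_lit 3) (nat_lit 52) (nat_lit 36) (nat_lit 56)) (PT.lf (nat_lit 11592) (nat_lit 6) (nat_lit 138) (nat_lit 3) (nat_lit 53) (nat_lit 36) (nat_lit 55))) (PT.nd (nat_lit 94) (PT.lf (nat_lit 11676) (nat_lit 3) (nat_lit 139) (nat_lit 1) (nat_lit 54) (nat_lit 36) (nat_lit 54)) (PT.lf (nat_lit 11592) (nat_lit 6) (nat_lit 138) (nat_lit 1) (nat_lit 55) (nat_lit 36) (nat_lit 53)))) (PT.nd (nat_lit 188) (PT.nd (nat_lit 94) (PT.lf (nat_lit 11508) (nat_lit 6) (nat_lit 137) (nat_lit 1) (nat_lit 56) (nat_lit 36) (nat_lit 52))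 (PT.lf (nat_lit 11424) (nat_lit 6) (nat_lit 136) (nat_lit 1) (nat_lit 57) (nat_lit 36) (nat_lit 51))) (PT.nd (nat_lit 94) (PT.lf (nat_lit 11340) (nat_lit 6) (nat_lit 135) (nat_lit 1) (nat_lit 58) (nat_lit 36) (nat_lit 50)) (PT.nd (nat_lit 94) (PT.lf (nat_lit 11256) (nat_lit 6) (nat_lit 134) (nat_lit 1) (nat_lit 59) (nat_lit 36) (nat_lit 49)) (PT.lf (nat_lit 11172) (nat_lit 6) (nat_lit 133) (nat_lit 1) (nat_lit 60) (nat_lit 36) (nat_lit 48))))))) (PT.nd (nat_lit 53580) (PT.nd (nat_lit 53110) (PT.nd (nat_lit 52922) (PT.nd (nat_lit 52828) (PT.lf (nat_lit 9996) (nat_lit 6) (nat_lit 119) (nat_lit 1) (nat_lit 61) (nat_lit 36) (nat_lit 47)) (PT.lf (nat_lit 9912) (nat_lit 6) (nat_lit 118) (nat_lit 3) (nat_lit 46) (nat_lit 37) (nat_lit 61))) (PT.nd (nat_lit 94) (PT.lf (nat_lit 11088) (nat_lit 6) (nat_lit 132) (nat_lit 3) (nat_lit 47) (nat_lit 37) (nat_lit 60)) (PT.lf (nat_lit 12180) (nat_lit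 6) (nat_lit 145) (nat_lit 3) (nat_lit 48) (nat_lit 37) (nat_lit 59)))) (PT.nd (nat_lit 188) (PT.nd (nat_lit 94) (PT.lf (nat_lit 12264) (nat_lit 6) (nat_lit 146) (nat_lit 3) (nat_lit 49) (nat_lit 37) (nat_lit 58)) (PT.lf (nat_lit 12348) (nat_lit 6) (nat_lit 147) (nat_lit 3) (nat_lit 50) (nat_lit 37) (nat_lit 57))) (PT.nd (nat_lit 94) (PT.lf (nat_lit 12432) (nat_lit 6) (nat_lit 148) (nat_lit 3) (nat_lit 51) (nat_lit 37) (nat_lit 56)) (PT.nd (nat_lit 94) (PT.lf (nat_lit 12516) (nat_lit 6) (nat_lit 149) (nat_lit 3) (nat_lit 52) (nat_lit 37) (nat_lit 55)) (PT.lf (nat_lit 12600) (nat_lit 6) (nat_lit 150) (nat_lit 3) (nat_lit 53) (nat_lit 37) (nat_lit 54)))))) (PT.nd (nat_lit 470) (PT.nd (nat_lit 188) (PT.nd (nat_lit 94) (PT.lf (nat_lit 12600) (nat_lit 6) (nat_lit 150) (nat_lit 1) (nat_lit 54) (nat_lit 37) (nat_lit 53)) (PT.lf (nat_lit 12516) (nat_lit 6) (nat_lit 149) (nat_lit 1) (nat_lit 55)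 (nat_lit 37) (nat_lit 52))) (PT.nd (nat_lit 94) (PT.lf (nat_lit 12432) (nat_lit 6) (nat_lit 148) (nat_lit 1) (nat_lit 56) (nat_lit 37) (nat_lit 51)) (PT.nd (nat_lit 94) (PT.lf (nat_lit 12348) (nat_lit 6) (nat_lit 147) (nat_lit 1) (nat_lit 57) (nat_lit 37) (nat_lit 50)) (PT.lf (nat_lit 12264) (nat_lit 6) (nat_lit 146) (nat_lit 1) (nat_lit 58) (nat_lit 37) (nat_lit 49))))) (PT.nd (nat_lit 188) (PT.nd (nat_lit 94) (PT.lf (nat_lit 12180) (nat_lit 6) (nat_lit 145) (nat_lit 1) (nat_lit 59) (nat_lit 37) (nat_lit 48)) (PT.lf (nat_lit 11088) (nat_lit 6) (nat_lit 132) (nat_lit 1) (nat_lit 60) (nat_lit 37) (nat_lit 47))) (PT.nd (nat_lit 52734) (PT.lf (nat_lit 9912) (nat_lit 6) (nat_lit 118) (nat_lit 1) (nat_lit 61) (nat_lit 37) (nat_lit 46)) (PT.nd (nat_lit 94) (PT.lf (nat_lit 9828) (nat_lit 6) (nat_lit 117) (nat_lit 3) (nat_lit 45) (nat_lit 38) (nat_lit 61)) (PT.lf (nat_lit 11004) (nat_lit 6)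 (nat_lit 131) (nat_lit 3) (nat_lit 46) (nat_lit 38) (nat_lit 60))))))))
noncomputable def pc7 : PT := (PT.nd (nat_lit 54238) (PT.nd (nat_lit 846) (PT.nd (nat_lit 376) (PT.nd (nat_lit 188) (PT.nd (nat_lit 94) (PT.lf (nat_lit 12096) (nat_lit 6) (nat_lit 144) (nat_lit 3) (nat_lit 47) (nat_lit 38) (nat_lit 59)) (PT.lf (nat_lit 13104) (nat_lit 6) (nat_lit 156) (nat_lit 3) (nat_lit 48) (nat_lit 38) (nat_lit 58))) (PT.nd (nat_lit 94) (PT.lf (nat_lit 13188) (nat_lit 6) (nat_lit 157) (nat_lit 3) (nat_lit 49) (nat_lit 38) (nat_lit 57)) (PT.lf (nat_lit 13272) (nat_lit 6) (nat_lit 158) (nat_lit 3) (nat_lit 50) (nat_lit 38) (nat_lit 56)))) (PT.nd (nat_lit 188) (PT.nd (nat_lit 94) (PT.lf (nat_lit 13356) (nat_lit 6) (nat_lit 159) (nat_lit 3) (nat_lit 51) (nat_lit 38) (nat_lit 55)) (PT.lf (nat_lit 13440) (nat_lit 6) (nat_lit 160) (nat_lit 3) (nat_lit 52) (nat_lit 38) (nat_lit 54))) (PT.nd (nat_lit 94)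 (PT.lf (nat_lit 13524) (nat_lit 3) (nat_lit 161) (nat_lit 1) (nat_lit 53) (nat_lit 38) (nat_lit 53)) (PT.nd (nat_lit 94) (PT.lf (nat_lit 13440) (nat_lit 6) (nat_lit 160) (nat_lit 1) (nat_lit 54) (nat_lit 38) (nat_lit 52)) (PT.lf (nat_lit 13356) (nat_lit 6) (nat_lit 159) (nat_lit 1) (nat_lit 55) (nat_lit 38) (nat_lit 51)))))) (PT.nd (nat_lit 376) (PT.nd (nat_lit 188) (PT.nd (nat_lit 94) (PT.lf (nat_lit 13272) (nat_lit 6) (nat_lit 158) (nat_lit 1) (nat_lit 56) (nat_lit 38) (nat_lit 50)) (PT.lf (nat_lit 13188) (nat_lit 6) (nat_lit 157) (nat_lit 1) (nat_lit 57) (nat_lit 38) (nat_lit 49))) (PT.nd (nat_lit 94) (PT.lf (nat_lit 13104) (nat_lit 6) (nat_lit 156) (nat_lit 1) (nat_lit 58) (nat_lit 38) (nat_lit 48)) (PT.lf (nat_lit 12096) (nat_lit 6) (nat_lit 144) (nat_lit 1) (nat_lit 59) (nat_lit 38) (nat_lit 47)))) (PT.nd (nat_lit 52734) (PT.nd (nat_lit 94) (PT.lf (nat_lit 11004) (nat_lit 6) (nat_lit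 131) (nat_lit 1) (nat_lit 60) (nat_lit 38) (nat_lit 46)) (PT.lf (nat_lit 9828) (nat_lit 6) (nat_lit 117) (nat_lit 1) (nat_lit 61) (nat_lit 38) (nat_lit 45))) (PT.nd (nat_lit 94) (PT.lf (nat_lit 9744) (nat_lit 6) (nat_lit 116) (nat_lit 3) (nat_lit 44) (nat_lit 39) (nat_lit 61)) (PT.nd (nat_lit 94) (PT.lf (nat_lit 10920) (nat_lit 6) (nat_lit 130) (nat_lit 3) (nat_lit 45) (nat_lit 39) (nat_lit 60)) (PT.lf (nat_lit 12012) (nat_lit 6) (nat_lit 143) (nat_lit 3) (nat_lit 46) (nat_lit 39) (nat_lit 59))))))) (PT.nd (nat_lit 846) (PT.nd (nat_lit 376) (PT.nd (nat_lit 188) (PT.nd (nat_lit 94) (PT.lf (nat_lit 13020) (nat_lit 6) (nat_lit 155) (nat_lit 3) (nat_lit 47) (nat_lit 39) (nat_lit 58)) (PT.lf (nat_lit 13944) (nat_lit 6) (nat_lit 166) (nat_lit 3) (nat_lit 48) (nat_lit 39) (nat_lit 57))) (PT.nd (nat_lit 94) (PT.lf (nat_lit 14028) (nat_lit 6) (nat_lit 167) (nat_lit 3) (nat_lit 49) (nat_lit 39)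 (nat_lit 56)) (PT.lf (nat_lit 14112) (nat_lit 6) (nat_lit 168) (nat_lit 3) (nat_lit 50) (nat_lit 39) (nat_lit 55)))) (PT.nd (nat_lit 188) (PT.nd (nat_lit 94) (PT.lf (nat_lit 14196) (nat_lit 6) (nat_lit 169) (nat_lit 3) (nat_lit 51) (nat_lit 39) (nat_lit 54)) (PT.lf (nat_lit 14280) (nat_lit 6) (nat_lit 170) (nat_lit 3) (nat_lit 52) (nat_lit 39) (nat_lit 53))) (PT.nd (nat_lit 94) (PT.lf (nat_lit 14280) (nat_lit 6) (nat_lit 170) (nat_lit 1) (nat_lit 53) (nat_lit 39) (nat_lit 52)) (PT.nd (nat_lit 94) (PT.lf (nat_lit 14196) (nat_lit 6) (nat_lit 169) (nat_lit 1) (nat_lit 54) (nat_lit 39) (nat_lit 51)) (PT.lf (nat_lit 14112) (nat_lit 6) (nat_lit 168) (nat_lit 1) (nat_lit 55) (nat_lit 39) (nat_lit 50)))))) (PT.nd (nat_lit 470) (PT.nd (nat_lit 188) (PT.nd (nat_lit 94) (PT.lf (nat_lit 14028) (nat_lit 6) (nat_lit 167) (nat_lit 1) (nat_lit 56) (nat_lit 39) (nat_lit 49)) (PT.lf (nat_lit 13944) (nat_lit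 6) (nat_lit 166) (nat_lit 1) (nat_lit 57) (nat_lit 39) (nat_lit 48))) (PT.nd (nat_lit 94) (PT.lf (nat_lit 13020) (nat_lit 6) (nat_lit 155) (nat_lit 1) (nat_lit 58) (nat_lit 39) (nat_lit 47)) (PT.nd (nat_lit 94) (PT.lf (nat_lit 12012) (nat_lit 6) (nat_lit 143) (nat_lit 1) (nat_lit 59) (nat_lit 39) (nat_lit 46)) (PT.lf (nat_lit 10920) (nat_lit 6) (nat_lit 130) (nat_lit 1) (nat_lit 60) (nat_lit 39) (nat_lit 45))))) (PT.nd (nat_lit 52640) (PT.nd (nat_lit 52546) (PT.lf (nat_lit 9744) (nat_lit 6) (nat_lit 116) (nat_lit 1) (nat_lit 61) (nat_lit 39) (nat_lit 44)) (PT.lf (nat_lit 9660) (nat_lit 6) (nat_lit 115) (nat_lit 3) (nat_lit 43) (nat_lit 40) (nat_lit 61))) (PT.nd (nat_lit 94) (PT.lf (nat_lit 10836) (nat_lit 6) (nat_lit 129) (nat_lit 3) (nat_lit 44) (nat_lit 40) (nat_lit 60)) (PT.nd (nat_lit 94) (PT.lf (nat_lit 11928) (nat_lit 6) (nat_lit 142) (nat_lit 3) (nat_lit 45) (nat_lit 40) (nat_lit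 59)) (PT.lf (nat_lit 12936) (nat_lit 6) (nat_lit 154) (nat_lit 3) (nat_lit 46) (nat_lit 40) (nat_lit 58))))))))
noncomputable def pc8 : PT := (PT.nd (nat_lit 54050) (PT.nd (nat_lit 846) (PT.nd (nat_lit 376) (PT.nd (nat_lit 188) (PT.nd (nat_lit 94) (PT.lf (nat_lit 13860) (nat_lit 6) (nat_lit 165) (nat_lit 3) (nat_lit 47) (nat_lit 40) (nat_lit 57)) (PT.lf (nat_lit 14700) (nat_lit 6) (nat_lit 175) (nat_lit 3) (nat_lit 48) (nat_lit 40) (nat_lit 56))) (PT.nd (nat_lit 94) (PT.lf (nat_lit 14784) (nat_lit 6) (nat_lit 176) (nat_lit 3) (nat_lit 49) (nat_lit 40) (nat_lit 55)) (PT.lf (nat_lit 14868) (nat_lit 6) (nat_lit 177) (nat_lit 3) (nat_lit 50) (nat_lit 40) (nat_lit 54)))) (PT.nd (nat_lit 188) (PT.nd (nat_lit 94) (PT.lf (nat_lit 14952) (nat_lit 6) (nat_lit 178) (nat_lit 3) (nat_lit 51) (nat_lit 40) (nat_lit 53)) (PT.lf (nat_lit 15036) (nat_lit 3) (nat_lit 179) (nat_lit 1) (nat_lit 52) (nat_lit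 40) (nat_lit 52))) (PT.nd (nat_lit 94) (PT.lf (nat_lit 14952) (nat_lit 6) (nat_lit 178) (nat_lit 1) (nat_lit 53) (nat_lit 40) (nat_lit 51)) (PT.nd (nat_lit 94) (PT.lf (nat_lit 14868) (nat_lit 6) (nat_lit 177) (nat_lit 1) (nat_lit 54) (nat_lit 40) (nat_lit 50)) (PT.lf (nat_lit 14784) (nat_lit 6) (nat_lit 176) (nat_lit 1) (nat_lit 55) (nat_lit 40) (nat_lit 49)))))) (PT.nd (nat_lit 376) (PT.nd (nat_lit 188) (PT.nd (nat_lit 94) (PT.lf (nat_lit 14700) (nat_lit 6) (nat_lit 175) (nat_lit 1) (nat_lit 56) (nat_lit 40) (nat_lit 48)) (PT.lf (nat_lit 13860) (nat_lit 6) (nat_lit 165) (nat_lit 1) (nat_lit 57) (nat_lit 40) (nat_lit 47))) (PT.nd (nat_lit 94) (PT.lf (nat_lit 12936) (nat_lit 6) (nat_lit 154) (nat_lit 1) (nat_lit 58) (nat_lit 40) (nat_lit 46)) (PT.lf (nat_lit 11928) (nat_lit 6) (nat_lit 142) (nat_lit 1) (nat_lit 59) (nat_lit 40) (nat_lit 45)))) (PT.nd (nat_lit 52546) (PT.nd (nat_lit 94)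 (PT.lf (nat_lit 10836) (nat_lit 6) (nat_lit 129) (nat_lit 1) (nat_lit 60) (nat_lit 40) (nat_lit 44)) (PT.lf (nat_lit 9660) (nat_lit 6) (nat_lit 115) (nat_lit 1) (nat_lit 61) (nat_lit 40) (nat_lit 43))) (PT.nd (nat_lit 94) (PT.lf (nat_lit 9576) (nat_lit 6) (nat_lit 114) (nat_lit 3) (nat_lit 42) (nat_lit 41) (nat_lit 61)) (PT.nd (nat_lit 94) (PT.lf (nat_lit 10752) (nat_lit 6) (nat_lit 128) (nat_lit 3) (nat_lit 43) (nat_lit 41) (nat_lit 60)) (PT.lf (nat_lit 11844) (nat_lit 6) (nat_lit 141) (nat_lit 3) (nat_lit 44) (nat_lit 41) (nat_lit 59))))))) (PT.nd (nat_lit 846) (PT.nd (nat_lit 376) (PT.nd (nat_lit 188) (PT.nd (nat_lit 94) (PT.lf (nat_lit 12852) (nat_lit 6) (nat_lit 153) (nat_lit 3) (nat_lit 45) (nat_lit 41) (nat_lit 58)) (PT.lf (nat_lit 13776) (nat_lit 6) (nat_lit 164) (nat_lit 3) (nat_lit 46) (nat_lit 41) (nat_lit 57))) (PT.nd (nat_lit 94) (PT.lf (nat_lit 14616) (nat_lit 6) (nat_lit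 174) (nat_lit 3) (nat_lit 47) (nat_lit 41) (nat_lit 56)) (PT.lf (nat_lit 15372) (nat_lit 6) (nat_lit 183) (nat_lit 3) (nat_lit 48) (nat_lit 41) (nat_lit 55)))) (PT.nd (nat_lit 188) (PT.nd (nat_lit 94) (PT.lf (nat_lit 15456) (nat_lit 6) (nat_lit 184) (nat_lit 3) (nat_lit 49) (nat_lit 41) (nat_lit 54)) (PT.lf (nat_lit 15540) (nat_lit 6) (nat_lit 185) (nat_lit 3) (nat_lit 50) (nat_lit 41) (nat_lit 53))) (PT.nd (nat_lit 94) (PT.lf (nat_lit 15624) (nat_lit 6) (nat_lit 186) (nat_lit 3) (nat_lit 51) (nat_lit 41) (nat_lit 52)) (PT.nd (nat_lit 94) (PT.lf (nat_lit 15624) (nat_lit 6) (nat_lit 186) (nat_lit 1) (nat_lit 52) (nat_lit 41) (nat_lit 51)) (PT.lf (nat_lit 15540) (nat_lit 6) (nat_lit 185) (nat_lit 1) (nat_lit 53) (nat_lit 41) (nat_lit 50)))))) (PT.nd (nat_lit 376) (PT.nd (nat_lit 188) (PT.nd (nat_lit 94) (PT.lf (nat_lit 15456) (nat_lit 6) (nat_lit 184) (nat_lit 1) (nat_lit 54) (nat_lit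 41) (nat_lit 49)) (PT.lf (nat_lit 15372) (nat_lit 6) (nat_lit 183) (nat_lit 1) (nat_lit 55) (nat_lit 41) (nat_lit 48))) (PT.nd (nat_lit 94) (PT.lf (nat_lit 14616) (nat_lit 6) (nat_lit 174) (nat_lit 1) (nat_lit 56) (nat_lit 41) (nat_lit 47)) (PT.lf (nat_lit 13776) (nat_lit 6) (nat_lit 164) (nat_lit 1) (nat_lit 57) (nat_lit 41) (nat_lit 46)))) (PT.nd (nat_lit 188) (PT.nd (nat_lit 94) (PT.lf (nat_lit 12852) (nat_lit 6) (nat_lit 153) (nat_lit 1) (nat_lit 58) (nat_lit 41) (nat_lit 45)) (PT.lf (nat_lit 11844) (nat_lit 6) (nat_lit 141) (nat_lit 1) (nat_lit 59) (nat_lit 41) (nat_lit 44))) (PT.nd (nat_lit 94) (PT.lf (nat_lit 10752) (nat_lit 6) (nat_lit 128) (nat_lit 1) (nat_lit 60) (nat_lit 41) (nat_lit 43)) (PT.nd (nat_lit 52358) (PT.lf (nat_lit 9576) (nat_lit 6) (nat_lit 114) (nat_lit 1) (nat_lit 61) (nat_lit 41) (nat_lit 42)) (PT.lf (nat_lit 9576) (nat_lit 6) (nat_lit 114) (nat_lit 5) (nat_lit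 41) (nat_lit 42) (nat_lit 61))))))))
noncomputable def pc9 : PT := (PT.nd (nat_lit 1692) (PT.nd (nat_lit 846) (PT.nd (nat_lit 376) (PT.nd (nat_lit 188) (PT.nd (nat_lit 94) (PT.lf (nat_lit 10668) (nat_lit 3) (nat_lit 127) (nat_lit 3) (nat_lit 42) (nat_lit 42) (nat_lit 60)) (PT.lf (nat_lit 11760) (nat_lit 6) (nat_lit 140) (nat_lit 3) (nat_lit 43) (nat_lit 42) (nat_lit 59))) (PT.nd (nat_lit 94) (PT.lf (nat_lit 12768) (nat_lit 6) (nat_lit 152) (nat_lit 3) (nat_lit 44) (nat_lit 42) (nat_lit 58)) (PT.lf (nat_lit 13692) (nat_lit 6) (nat_lit 163) (nat_lit 3) (nat_lit 45) (nat_lit 42) (nat_lit 57)))) (PT.nd (nat_lit 188) (PT.nd (nat_lit 94) (PT.lf (nat_lit 14532) (nat_lit 6) (nat_lit 173) (nat_lit 3) (nat_lit 46) (nat_lit 42) (nat_lit 56)) (PT.lf (nat_lit 15288) (nat_lit 6) (nat_lit 182) (nat_lit 3) (nat_lit 47) (nat_lit 42) (nat_lit 55))) (PT.nd (nat_lit 94) (PT.lf (nat_lit 15960) (nat_lit 6)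 (nat_lit 190) (nat_lit 3) (nat_lit 48) (nat_lit 42) (nat_lit 54)) (PT.nd (nat_lit 94) (PT.lf (nat_lit 16044) (nat_lit 6) (nat_lit 191) (nat_lit 3) (nat_lit 49) (nat_lit 42) (nat_lit 53)) (PT.lf (nat_lit 16128) (nat_lit 6) (nat_lit 192) (nat_lit 3) (nat_lit 50) (nat_lit 42) (nat_lit 52)))))) (PT.nd (nat_lit 376) (PT.nd (nat_lit 188) (PT.nd (nat_lit 94) (PT.lf (nat_lit 16212) (nat_lit 3) (nat_lit 193) (nat_lit 1) (nat_lit 51) (nat_lit 42) (nat_lit 51)) (PT.lf (nat_lit 16128) (nat_lit 6) (nat_lit 192) (nat_lit 1) (nat_lit 52) (nat_lit 42) (nat_lit 50))) (PT.nd (nat_lit 94) (PT.lf (nat_lit 16044) (nat_lit 6) (nat_lit 191) (nat_lit 1) (nat_lit 53) (nat_lit 42) (nat_lit 49)) (PT.lf (nat_lit 15960) (nat_lit 6) (nat_lit 190) (nat_lit 1) (nat_lit 54) (nat_lit 42) (nat_lit 48)))) (PT.nd (nat_lit 188) (PT.nd (nat_lit 94) (PT.lf (nat_lit 15288) (nat_lit 6) (nat_lit 182) (nat_lit 1) (nat_lit 55)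 (nat_lit 42) (nat_lit 47)) (PT.lf (nat_lit 14532) (nat_lit 6) (nat_lit 173) (nat_lit 1) (nat_lit 56) (nat_lit 42) (nat_lit 46))) (PT.nd (nat_lit 94) (PT.lf (nat_lit 13692) (nat_lit 6) (nat_lit 163) (nat_lit 1) (nat_lit 57) (nat_lit 42) (nat_lit 45)) (PT.nd (nat_lit 94) (PT.lf (nat_lit 12768) (nat_lit 6) (nat_lit 152) (nat_lit 1) (nat_lit 58) (nat_lit 42) (nat_lit 44)) (PT.lf (nat_lit 11760) (nat_lit 6) (nat_lit 140) (nat_lit 1) (nat_lit 59) (nat_lit 42) (nat_lit 43))))))) (PT.nd (nat_lit 53016) (PT.nd (nat_lit 52546) (PT.nd (nat_lit 52358) (PT.nd (nat_lit 94) (PT.lf (nat_lit 10668) (nat_lit 3) (nat_lit 127) (nat_lit 0) (nat_lit 60) (nat_lit 42) (nat_lit 42)) (PT.lf (nat_lit 9576) (nat_lit 6) (nat_lit 114) (nat_lit 0) (nat_lit 61) (nat_lit 42) (nat_lit 41))) (PT.nd (nat_lit 94) (PT.lf (nat_lit 9660) (nat_lit 6) (nat_lit 115) (nat_lit 5) (nat_lit 40) (nat_lit 43) (nat_lit 61)) (PT.lf (nat_lit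 10752) (nat_lit 6) (nat_lit 128) (nat_lit 5) (nat_lit 41) (nat_lit 43) (nat_lit 60)))) (PT.nd (nat_lit 188) (PT.nd (nat_lit 94) (PT.lf (nat_lit 11760) (nat_lit 6) (nat_lit 140) (nat_lit 5) (nat_lit 42) (nat_lit 43) (nat_lit 59)) (PT.lf (nat_lit 12684) (nat_lit 3) (nat_lit 151) (nat_lit 3) (nat_lit 43) (nat_lit 43) (nat_lit 58))) (PT.nd (nat_lit 94) (PT.lf (nat_lit 13608) (nat_lit 6) (nat_lit 162) (nat_lit 3) (nat_lit 44) (nat_lit 43) (nat_lit 57)) (PT.nd (nat_lit 94) (PT.lf (nat_lit 14448) (nat_lit 6) (nat_lit 172) (nat_lit 3) (nat_lit 45) (nat_lit 43) (nat_lit 56)) (PT.lf (nat_lit 15204) (nat_lit 6) (nat_lit 181) (nat_lit 3) (nat_lit 46) (nat_lit 43) (nat_lit 55)))))) (PT.nd (nat_lit 470) (PT.nd (nat_lit 188) (PT.nd (nat_lit 94) (PT.lf (nat_lit 15876) (nat_lit 6) (nat_lit 189) (nat_lit 3) (nat_lit 47) (nat_lit 43) (nat_lit 54)) (PT.lf (nat_lit 16464) (nat_lit 6) (nat_lit 196) (nat_lit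 3) (nat_lit 48) (nat_lit 43) (nat_lit 53))) (PT.nd (nat_lit 94) (PT.lf (nat_lit 16548) (nat_lit 6) (nat_lit 197) (nat_lit 3) (nat_lit 49) (nat_lit 43) (nat_lit 52)) (PT.nd (nat_lit 94) (PT.lf (nat_lit 16632) (nat_lit 6) (nat_lit 198) (nat_lit 3) (nat_lit 50) (nat_lit 43) (nat_lit 51)) (PT.lf (nat_lit 16632) (nat_lit 6) (nat_lit 198) (nat_lit 1) (nat_lit 51) (nat_lit 43) (nat_lit 50))))) (PT.nd (nat_lit 188) (PT.nd (nat_lit 94) (PT.lf (nat_lit 16548) (nat_lit 6) (nat_lit 197) (nat_lit 1) (nat_lit 52) (nat_lit 43) (nat_lit 49)) (PT.lf (nat_lit 16464) (nat_lit 6) (nat_lit 196) (nat_lit 1) (nat_lit 53) (nat_lit 43) (nat_lit 48))) (PT.nd (nat_lit 94) (PT.lf (nat_lit 15876) (nat_lit 6) (nat_lit 189) (nat_lit 1) (nat_lit 54) (nat_lit 43) (nat_lit 47)) (PT.nd (nat_lit 94) (PT.lf (nat_lit 15204) (nat_lit 6) (nat_lit 181) (nat_lit 1) (nat_lit 55) (nat_lit 43) (nat_lit 46)) (PT.lf (nat_lit 14448)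 (nat_lit 6) (nat_lit 172) (nat_lit 1) (nat_lit 56) (nat_lit 43) (nat_lit 45))))))))
noncomputable def pc10 : PT := (PT.nd (nat_lit 53768) (PT.nd (nat_lit 52922) (PT.nd (nat_lit 376) (PT.nd (nat_lit 188) (PT.nd (nat_lit 94) (PT.lf (nat_lit 13608) (nat_lit 6) (nat_lit 162) (nat_lit 1) (nat_lit 57) (nat_lit 43) (nat_lit 44)) (PT.lf (nat_lit 12684) (nat_lit 3) (nat_lit 151) (nat_lit 0) (nat_lit 58) (nat_lit 43) (nat_lit 43))) (PT.nd (nat_lit 94) (PT.lf (nat_lit 11760) (nat_lit 6) (nat_lit 140) (nat_lit 0) (nat_lit 59) (nat_lit 43) (nat_lit 42)) (PT.lf (nat_lit 10752) (nat_lit 6) (nat_lit 128) (nat_lit 0) (nat_lit 60) (nat_lit 43) (nat_lit 41)))) (PT.nd (nat_lit 52264) (PT.nd (nat_lit 52170) (PT.lf (nat_lit 9660) (nat_lit 6) (nat_lit 115) (nat_lit 0) (nat_lit 61) (nat_lit 43) (nat_lit 40)) (PT.lf (nat_lit 9744) (nat_lit 6) (nat_lit 116) (nat_lit 5) (nat_lit 39) (nat_lit 44) (nat_lit 61)))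 (PT.nd (nat_lit 94) (PT.lf (nat_lit 10836) (nat_lit 6) (nat_lit 129) (nat_lit 5) (nat_lit 40) (nat_lit 44) (nat_lit 60)) (PT.nd (nat_lit 94) (PT.lf (nat_lit 11844) (nat_lit 6) (nat_lit 141) (nat_lit 5) (nat_lit 41) (nat_lit 44) (nat_lit 59)) (PT.lf (nat_lit 12768) (nat_lit 6) (nat_lit 152) (nat_lit 5) (nat_lit 42) (nat_lit 44) (nat_lit 58)))))) (PT.nd (nat_lit 376) (PT.nd (nat_lit 188) (PT.nd (nat_lit 94) (PT.lf (nat_lit 13608) (nat_lit 6) (nat_lit 162) (nat_lit 5) (nat_lit 43) (nat_lit 44) (nat_lit 57)) (PT.lf (nat_lit 14364) (nat_lit 3) (nat_lit 171) (nat_lit 3) (nat_lit 44) (nat_lit 44) (nat_lit 56))) (PT.nd (nat_lit 94) (PT.lf (nat_lit 15120) (nat_lit 6) (nat_lit 180) (nat_lit 3) (nat_lit 45) (nat_lit 44) (nat_lit 55)) (PT.lf (nat_lit 15792) (nat_lit 6) (nat_lit 188) (nat_lit 3) (nat_lit 46) (nat_lit 44) (nat_lit 54)))) (PT.nd (nat_lit 188) (PT.nd (nat_lit 94) (PT.lf (nat_lit 16380)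 (nat_lit 6) (nat_lit 195) (nat_lit 3) (nat_lit 47) (nat_lit 44) (nat_lit 53)) (PT.lf (nat_lit 16884) (nat_lit 6) (nat_lit 201) (nat_lit 3) (nat_lit 48) (nat_lit 44) (nat_lit 52))) (PT.nd (nat_lit 94) (PT.lf (nat_lit 16968) (nat_lit 6) (nat_lit 202) (nat_lit 3) (nat_lit 49) (nat_lit 44) (nat_lit 51)) (PT.nd (nat_lit 94) (PT.lf (nat_lit 17052) (nat_lit 3) (nat_lit 203) (nat_lit 1) (nat_lit 50) (nat_lit 44) (nat_lit 50)) (PT.lf (nat_lit 16968) (nat_lit 6) (nat_lit 202) (nat_lit 1) (nat_lit 51) (nat_lit 44) (nat_lit 49))))))) (PT.nd (nat_lit 846) (PT.nd (nat_lit 376) (PT.nd (nat_lit 188) (PT.nd (nat_lit 94) (PT.lf (nat_lit 16884) (nat_lit 6) (nat_lit 201) (nat_lit 1) (nat_lit 52) (nat_lit 44) (nat_lit 48)) (PT.lf (nat_lit 16380) (nat_lit 6) (nat_lit 195) (nat_lit 1) (nat_lit 53) (nat_lit 44) (nat_lit 47))) (PT.nd (nat_lit 94) (PT.lf (nat_lit 15792) (nat_lit 6) (nat_lit 188) (nat_lit 1) (nat_lit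 54) (nat_lit 44) (nat_lit 46)) (PT.lf (nat_lit 15120) (nat_lit 6) (nat_lit 180) (nat_lit 1) (nat_lit 55) (nat_lit 44) (nat_lit 45)))) (PT.nd (nat_lit 188) (PT.nd (nat_lit 94) (PT.lf (nat_lit 14364) (nat_lit 3) (nat_lit 171) (nat_lit 0) (nat_lit 56) (nat_lit 44) (nat_lit 44)) (PT.lf (nat_lit 13608) (nat_lit 6) (nat_lit 162) (nat_lit 0) (nat_lit 57) (nat_lit 44) (nat_lit 43))) (PT.nd (nat_lit 94) (PT.lf (nat_lit 12768) (nat_lit 6) (nat_lit 152) (nat_lit 0) (nat_lit 58) (nat_lit 44) (nat_lit 42)) (PT.nd (nat_lit 94) (PT.lf (nat_lit 11844) (nat_lit 6) (nat_lit 141) (nat_lit 0) (nat_lit 59) (nat_lit 44) (nat_lit 41)) (PT.lf (nat_lit 10836) (nat_lit 6) (nat_lit 129) (nat_lit 0) (nat_lit 60) (nat_lit 44) (nat_lit 40)))))) (PT.nd (nat_lit 52452) (PT.nd (nat_lit 52170) (PT.nd (nat_lit 52076) (PT.lf (nat_lit 9744) (nat_lit 6) (nat_lit 116) (nat_lit 0) (nat_lit 61) (nat_lit 44) (nat_lit 39)) (PT.lf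 (nat_lit 9828) (nat_lit 6) (nat_lit 117) (nat_lit 5) (nat_lit 38) (nat_lit 45) (nat_lit 61))) (PT.nd (nat_lit 94) (PT.lf (nat_lit 10920) (nat_lit 6) (nat_lit 130) (nat_lit 5) (nat_lit 39) (nat_lit 45) (nat_lit 60)) (PT.nd (nat_lit 94) (PT.lf (nat_lit 11928) (nat_lit 6) (nat_lit 142) (nat_lit 5) (nat_lit 40) (nat_lit 45) (nat_lit 59)) (PT.lf (nat_lit 12852) (nat_lit 6) (nat_lit 153) (nat_lit 5) (nat_lit 41) (nat_lit 45) (nat_lit 58))))) (PT.nd (nat_lit 188) (PT.nd (nat_lit 94) (PT.lf (nat_lit 13692) (nat_lit 6) (nat_lit 163) (nat_lit 5) (nat_lit 42) (nat_lit 45) (nat_lit 57)) (PT.lf (nat_lit 14448) (nat_lit 6) (nat_lit 172) (nat_lit 5) (nat_lit 43) (nat_lit 45) (nat_lit 56))) (PT.nd (nat_lit 94) (PT.lf (nat_lit 15120) (nat_lit 6) (nat_lit 180) (nat_lit 5) (nat_lit 44) (nat_lit 45) (nat_lit 55)) (PT.nd (nat_lit 94) (PT.lf (nat_lit 15708) (nat_lit 3) (nat_lit 187) (nat_lit 3) (nat_lit 45)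 (nat_lit 45) (nat_lit 54)) (PT.lf (nat_lit 16296) (nat_lit 6) (nat_lit 194) (nat_lit 3) (nat_lit 46) (nat_lit 45) (nat_lit 53))))))))
noncomputable def pc11 : PT := (PT.nd (nat_lit 53580) (PT.nd (nat_lit 846) (PT.nd (nat_lit 376) (PT.nd (nat_lit 188) (PT.nd (nat_lit 94) (PT.lf (nat_lit 16800) (nat_lit 6) (nat_lit 200) (nat_lit 3) (nat_lit 47) (nat_lit 45) (nat_lit 52)) (PT.lf (nat_lit 17220) (nat_lit 6) (nat_lit 205) (nat_lit 3) (nat_lit 48) (nat_lit 45) (nat_lit 51))) (PT.nd (nat_lit 94) (PT.lf (nat_lit 17304) (nat_lit 6) (nat_lit 206) (nat_lit 3) (nat_lit 49) (nat_lit 45) (nat_lit 50)) (PT.lf (nat_lit 17304) (nat_lit 6) (nat_lit 206) (nat_lit 1) (nat_lit 50) (nat_lit 45) (nat_lit 49)))) (PT.nd (nat_lit 188) (PT.nd (nat_lit 94) (PT.lf (nat_lit 17220) (nat_lit 6) (nat_lit 205) (nat_lit 1) (nat_lit 51) (nat_lit 45) (nat_lit 48)) (PT.lf (nat_lit 16800) (nat_lit 6) (nat_lit 200) (nat_lit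 1) (nat_lit 52) (nat_lit 45) (nat_lit 47))) (PT.nd (nat_lit 94) (PT.lf (nat_lit 16296) (nat_lit 6) (nat_lit 194) (nat_lit 1) (nat_lit 53) (nat_lit 45) (nat_lit 46)) (PT.nd (nat_lit 94) (PT.lf (nat_lit 15708) (nat_lit 3) (nat_lit 187) (nat_lit 0) (nat_lit 54) (nat_lit 45) (nat_lit 45)) (PT.lf (nat_lit 15120) (nat_lit 6) (nat_lit 180) (nat_lit 0) (nat_lit 55) (nat_lit 45) (nat_lit 44)))))) (PT.nd (nat_lit 376) (PT.nd (nat_lit 188) (PT.nd (nat_lit 94) (PT.lf (nat_lit 14448) (nat_lit 6) (nat_lit 172) (nat_lit 0) (nat_lit 56) (nat_lit 45) (nat_lit 43)) (PT.lf (nat_lit 13692) (nat_lit 6) (nat_lit 163) (nat_lit 0) (nat_lit 57) (nat_lit 45) (nat_lit 42))) (PT.nd (nat_lit 94) (PT.lf (nat_lit 12852) (nat_lit 6) (nat_lit 153) (nat_lit 0) (nat_lit 58) (nat_lit 45) (nat_lit 41)) (PT.lf (nat_lit 11928) (nat_lit 6) (nat_lit 142) (nat_lit 0) (nat_lit 59) (nat_lit 45) (nat_lit 40)))) (PT.nd (nat_lit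 52076) (PT.nd (nat_lit 94) (PT.lf (nat_lit 10920) (nat_lit 6) (nat_lit 130) (nat_lit 0) (nat_lit 60) (nat_lit 45) (nat_lit 39)) (PT.lf (nat_lit 9828) (nat_lit 6) (nat_lit 117) (nat_lit 0) (nat_lit 61) (nat_lit 45) (nat_lit 38))) (PT.nd (nat_lit 94) (PT.lf (nat_lit 9912) (nat_lit 6) (nat_lit 118) (nat_lit 5) (nat_lit 37) (nat_lit 46) (nat_lit 61)) (PT.nd (nat_lit 94) (PT.lf (nat_lit 11004) (nat_lit 6) (nat_lit 131) (nat_lit 5) (nat_lit 38) (nat_lit 46) (nat_lit 60)) (PT.lf (nat_lit 12012) (nat_lit 6) (nat_lit 143) (nat_lit 5) (nat_lit 39) (nat_lit 46) (nat_lit 59))))))) (PT.nd (nat_lit 846) (PT.nd (nat_lit 376) (PT.nd (nat_lit 188) (PT.nd (nat_lit 94) (PT.lf (nat_lit 12936) (nat_lit 6) (nat_lit 154) (nat_lit 5) (nat_lit 40) (nat_lit 46) (nat_lit 58)) (PT.lf (nat_lit 13776) (nat_lit 6) (nat_lit 164) (nat_lit 5) (nat_lit 41) (nat_lit 46) (nat_lit 57))) (PT.nd (nat_lit 94) (PT.lf (nat_lit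 14532) (nat_lit 6) (nat_lit 173) (nat_lit 5) (nat_lit 42) (nat_lit 46) (nat_lit 56)) (PT.lf (nat_lit 15204) (nat_lit 6) (nat_lit 181) (nat_lit 5) (nat_lit 43) (nat_lit 46) (nat_lit 55)))) (PT.nd (nat_lit 188) (PT.nd (nat_lit 94) (PT.lf (nat_lit 15792) (nat_lit 6) (nat_lit 188) (nat_lit 5) (nat_lit 44) (nat_lit 46) (nat_lit 54)) (PT.lf (nat_lit 16296) (nat_lit 6) (nat_lit 194) (nat_lit 5) (nat_lit 45) (nat_lit 46) (nat_lit 53))) (PT.nd (nat_lit 94) (PT.lf (nat_lit 16716) (nat_lit 3) (nat_lit 199) (nat_lit 3) (nat_lit 46) (nat_lit 46) (nat_lit 52)) (PT.nd (nat_lit 94) (PT.lf (nat_lit 17136) (nat_lit 6) (nat_lit 204) (nat_lit 3) (nat_lit 47) (nat_lit 46) (nat_lit 51)) (PT.lf (nat_lit 17472) (nat_lit 6) (nat_lit 208) (nat_lit 3) (nat_lit 48) (nat_lit 46) (nat_lit 50)))))) (PT.nd (nat_lit 470) (PT.nd (nat_lit 188) (PT.nd (nat_lit 94) (PT.lf (nat_lit 17556) (nat_lit 3) (nat_lit 209) (nat_lit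 1) (nat_lit 49) (nat_lit 46) (nat_lit 49)) (PT.lf (nat_lit 17472) (nat_lit 6) (nat_lit 208) (nat_lit 1) (nat_lit 50) (nat_lit 46) (nat_lit 48))) (PT.nd (nat_lit 94) (PT.lf (nat_lit 17136) (nat_lit 6) (nat_lit 204) (nat_lit 1) (nat_lit 51) (nat_lit 46) (nat_lit 47)) (PT.nd (nat_lit 94) (PT.lf (nat_lit 16716) (nat_lit 3) (nat_lit 199) (nat_lit 0) (nat_lit 52) (nat_lit 46) (nat_lit 46)) (PT.lf (nat_lit 16296) (nat_lit 6) (nat_lit 194) (nat_lit 0) (nat_lit 53) (nat_lit 46) (nat_lit 45))))) (PT.nd (nat_lit 188) (PT.nd (nat_lit 94) (PT.lf (nat_lit 15792) (nat_lit 6) (nat_lit 188) (nat_lit 0) (nat_lit 54) (nat_lit 46) (nat_lit 44)) (PT.lf (nat_lit 15204) (nat_lit 6) (nat_lit 181) (nat_lit 0) (nat_lit 55) (nat_lit 46) (nat_lit 43))) (PT.nd (nat_lit 94) (PT.lf (nat_lit 14532) (nat_lit 6) (nat_lit 173) (nat_lit 0) (nat_lit 56) (nat_lit 46) (nat_lit 42)) (PT.nd (nat_lit 94) (PT.lf (nat_lit 13776)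 (nat_lit 6) (nat_lit 164) (nat_lit 0) (nat_lit 57) (nat_lit 46) (nat_lit 41)) (PT.lf (nat_lit 12936) (nat_lit 6) (nat_lit 154) (nat_lit 0) (nat_lit 58) (nat_lit 46) (nat_lit 40))))))))
noncomputable def pc12 : PT := (PT.nd (nat_lit 53486) (PT.nd (nat_lit 52640) (PT.nd (nat_lit 52170) (PT.nd (nat_lit 188) (PT.nd (nat_lit 94) (PT.lf (nat_lit 12012) (nat_lit 6) (nat_lit 143) (nat_lit 0) (nat_lit 59) (nat_lit 46) (nat_lit 39)) (PT.lf (nat_lit 11004) (nat_lit 6) (nat_lit 131) (nat_lit 0) (nat_lit 60) (nat_lit 46) (nat_lit 38))) (PT.nd (nat_lit 51888) (PT.lf (nat_lit 9912) (nat_lit 6) (nat_lit 118) (nat_lit 0) (nat_lit 61) (nat_lit 46) (nat_lit 37)) (PT.lf (nat_lit 9996) (nat_lit 6) (nat_lit 119) (nat_lit 5) (nat_lit 36) (nat_lit 47) (nat_lit 61)))) (PT.nd (nat_lit 188) (PT.nd (nat_lit 94) (PT.lf (nat_lit 11088) (nat_lit 6) (nat_lit 132) (nat_lit 5) (nat_lit 37) (nat_lit 47) (nat_lit 60))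 (PT.lf (nat_lit 12096) (nat_lit 6) (nat_lit 144) (nat_lit 5) (nat_lit 38) (nat_lit 47) (nat_lit 59))) (PT.nd (nat_lit 94) (PT.lf (nat_lit 13020) (nat_lit 6) (nat_lit 155) (nat_lit 5) (nat_lit 39) (nat_lit 47) (nat_lit 58)) (PT.nd (nat_lit 94) (PT.lf (nat_lit 13860) (nat_lit 6) (nat_lit 165) (nat_lit 5) (nat_lit 40) (nat_lit 47) (nat_lit 57)) (PT.lf (nat_lit 14616) (nat_lit 6) (nat_lit 174) (nat_lit 5) (nat_lit 41) (nat_lit 47) (nat_lit 56)))))) (PT.nd (nat_lit 376) (PT.nd (nat_lit 188) (PT.nd (nat_lit 94) (PT.lf (nat_lit 15288) (nat_lit 6) (nat_lit 182) (nat_lit 5) (nat_lit 42) (nat_lit 47) (nat_lit 55)) (PT.lf (nat_lit 15876) (nat_lit 6) (nat_lit 189) (nat_lit 5) (nat_lit 43) (nat_lit 47) (nat_lit 54))) (PT.nd (nat_lit 94) (PT.lf (nat_lit 16380) (nat_lit 6) (nat_lit 195) (nat_lit 5) (nat_lit 44) (nat_lit 47) (nat_lit 53)) (PT.lf (nat_lit 16800) (nat_lit 6) (nat_lit 200) (nat_lit 5)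 (nat_lit 45) (nat_lit 47) (nat_lit 52)))) (PT.nd (nat_lit 188) (PT.nd (nat_lit 94) (PT.lf (nat_lit 17136) (nat_lit 6) (nat_lit 204) (nat_lit 5) (nat_lit 46) (nat_lit 47) (nat_lit 51)) (PT.lf (nat_lit 17388) (nat_lit 3) (nat_lit 207) (nat_lit 3) (nat_lit 47) (nat_lit 47) (nat_lit 50))) (PT.nd (nat_lit 94) (PT.lf (nat_lit 17640) (nat_lit 6) (nat_lit 210) (nat_lit 3) (nat_lit 48) (nat_lit 47) (nat_lit 49)) (PT.nd (nat_lit 94) (PT.lf (nat_lit 17640) (nat_lit 6) (nat_lit 210) (nat_lit 1) (nat_lit 49) (nat_lit 47) (nat_lit 48)) (PT.lf (nat_lit 17388) (nat_lit 3) (nat_lit 207) (nat_lit 0) (nat_lit 50) (nat_lit 47) (nat_lit 47))))))) (PT.nd (nat_lit 846) (PT.nd (nat_lit 376) (PT.nd (nat_lit 188) (PT.nd (nat_lit 94) (PT.lf (nat_lit 17136) (nat_lit 6) (nat_lit 204) (nat_lit 0) (nat_lit 51) (nat_lit 47) (nat_lit 46)) (PT.lf (nat_lit 16800) (nat_lit 6) (nat_lit 200) (nat_lit 0) (nat_lit 52) (nat_lit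 47) (nat_lit 45))) (PT.nd (nat_lit 94) (PT.lf (nat_lit 16380) (nat_lit 6) (nat_lit 195) (nat_lit 0) (nat_lit 53) (nat_lit 47) (nat_lit 44)) (PT.lf (nat_lit 15876) (nat_lit 6) (nat_lit 189) (nat_lit 0) (nat_lit 54) (nat_lit 47) (nat_lit 43)))) (PT.nd (nat_lit 188) (PT.nd (nat_lit 94) (PT.lf (nat_lit 15288) (nat_lit 6) (nat_lit 182) (nat_lit 0) (nat_lit 55) (nat_lit 47) (nat_lit 42)) (PT.lf (nat_lit 14616) (nat_lit 6) (nat_lit 174) (nat_lit 0) (nat_lit 56) (nat_lit 47) (nat_lit 41))) (PT.nd (nat_lit 94) (PT.lf (nat_lit 13860) (nat_lit 6) (nat_lit 165) (nat_lit 0) (nat_lit 57) (nat_lit 47) (nat_lit 40)) (PT.nd (nat_lit 94) (PT.lf (nat_lit 13020) (nat_lit 6) (nat_lit 155) (nat_lit 0) (nat_lit 58) (nat_lit 47) (nat_lit 39)) (PT.lf (nat_lit 12096) (nat_lit 6) (nat_lit 144) (nat_lit 0) (nat_lit 59) (nat_lit 47) (nat_lit 38)))))) (PT.nd (nat_lit 52076) (PT.nd (nat_lit 51888) (PT.nd (nat_lit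 94) (PT.lf (nat_lit 11088) (nat_lit 6) (nat_lit 132) (nat_lit 0) (nat_lit 60) (nat_lit 47) (nat_lit 37)) (PT.lf (nat_lit 9996) (nat_lit 6) (nat_lit 119) (nat_lit 0) (nat_lit 61) (nat_lit 47) (nat_lit 36))) (PT.nd (nat_lit 94) (PT.lf (nat_lit 10080) (nat_lit 6) (nat_lit 120) (nat_lit 5) (nat_lit 35) (nat_lit 48) (nat_lit 61)) (PT.lf (nat_lit 11172) (nat_lit 6) (nat_lit 133) (nat_lit 5) (nat_lit 36) (nat_lit 48) (nat_lit 60)))) (PT.nd (nat_lit 188) (PT.nd (nat_lit 94) (PT.lf (nat_lit 12180) (nat_lit 6) (nat_lit 145) (nat_lit 5) (nat_lit 37) (nat_lit 48) (nat_lit 59)) (PT.lf (nat_lit 13104) (nat_lit 6) (nat_lit 156) (nat_lit 5) (nat_lit 38) (nat_lit 48) (nat_lit 58))) (PT.nd (nat_lit 94) (PT.lf (nat_lit 13944) (nat_lit 6) (nat_lit 166) (nat_lit 5) (nat_lit 39) (nat_lit 48) (nat_lit 57)) (PT.nd (nat_lit 94) (PT.lf (nat_lit 14700) (nat_lit 6) (nat_lit 175) (nat_lit 5) (nat_lit 40) (nat_lit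 48) (nat_lit 56)) (PT.lf (nat_lit 15372) (nat_lit 6) (nat_lit 183) (nat_lit 5) (nat_lit 41) (nat_lit 48) (nat_lit 55))))))))
noncomputable def pc13 : PT := (PT.nd (nat_lit 1692) (PT.nd (nat_lit 846) (PT.nd (nat_lit 376) (PT.nd (nat_lit 188) (PT.nd (nat_lit 94) (PT.lf (nat_lit 15960) (nat_lit 6) (nat_lit 190) (nat_lit 5) (nat_lit 42) (nat_lit 48) (nat_lit 54)) (PT.lf (nat_lit 16464) (nat_lit 6) (nat_lit 196) (nat_lit 5) (nat_lit 43) (nat_lit 48) (nat_lit 53))) (PT.nd (nat_lit 94) (PT.lf (nat_lit 16884) (nat_lit 6) (nat_lit 201) (nat_lit 5) (nat_lit 44) (nat_lit 48) (nat_lit 52)) (PT.lf (nat_lit 17220) (nat_lit 6) (nat_lit 205) (nat_lit 5) (nat_lit 45) (nat_lit 48) (nat_lit 51)))) (PT.nd (nat_lit 188) (PT.nd (nat_lit 94) (PT.lf (nat_lit 17472) (nat_lit 6) (nat_lit 208) (nat_lit 5) (nat_lit 46) (nat_lit 48) (nat_lit 50)) (PT.lf (nat_lit 17640) (nat_lit 6) (nat_lit 210) (nat_lit 5) (nat_lit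 47) (nat_lit 48) (nat_lit 49))) (PT.nd (nat_lit 94) (PT.lf (nat_lit 17724) (nat_lit 1) (nat_lit 211) (nat_lit 0) (nat_lit 48) (nat_lit 48) (nat_lit 48)) (PT.nd (nat_lit 94) (PT.lf (nat_lit 17640) (nat_lit 6) (nat_lit 210) (nat_lit 0) (nat_lit 49) (nat_lit 48) (nat_lit 47)) (PT.lf (nat_lit 17472) (nat_lit 6) (nat_lit 208) (nat_lit 0) (nat_lit 50) (nat_lit 48) (nat_lit 46)))))) (PT.nd (nat_lit 376) (PT.nd (nat_lit 188) (PT.nd (nat_lit 94) (PT.lf (nat_lit 17220) (nat_lit 6) (nat_lit 205) (nat_lit 0) (nat_lit 51) (nat_lit 48) (nat_lit 45)) (PT.lf (nat_lit 16884) (nat_lit 6) (nat_lit 201) (nat_lit 0) (nat_lit 52) (nat_lit 48) (nat_lit 44))) (PT.nd (nat_lit 94) (PT.lf (nat_lit 16464) (nat_lit 6) (nat_lit 196) (nat_lit 0) (nat_lit 53) (nat_lit 48) (nat_lit 43)) (PT.lf (nat_lit 15960) (nat_lit 6) (nat_lit 190) (nat_lit 0) (nat_lit 54) (nat_lit 48) (nat_lit 42)))) (PT.nd (nat_lit 188) (PT.nd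 (nat_lit 94) (PT.lf (nat_lit 15372) (nat_lit 6) (nat_lit 183) (nat_lit 0) (nat_lit 55) (nat_lit 48) (nat_lit 41)) (PT.lf (nat_lit 14700) (nat_lit 6) (nat_lit 175) (nat_lit 0) (nat_lit 56) (nat_lit 48) (nat_lit 40))) (PT.nd (nat_lit 94) (PT.lf (nat_lit 13944) (nat_lit 6) (nat_lit 166) (nat_lit 0) (nat_lit 57) (nat_lit 48) (nat_lit 39)) (PT.nd (nat_lit 94) (PT.lf (nat_lit 13104) (nat_lit 6) (nat_lit 156) (nat_lit 0) (nat_lit 58) (nat_lit 48) (nat_lit 38)) (PT.lf (nat_lit 12180) (nat_lit 6) (nat_lit 145) (nat_lit 0) (nat_lit 59) (nat_lit 48) (nat_lit 37))))))) (PT.nd (nat_lit 52358) (PT.nd (nat_lit 51888) (PT.nd (nat_lit 51700) (PT.nd (nat_lit 94) (PT.lf (nat_lit 11172) (nat_lit 6) (nat_lit 133) (nat_lit 0) (nat_lit 60) (nat_lit 48) (nat_lit 36)) (PT.lf (nat_lit 10080) (nat_lit 6) (nat_lit 120) (nat_lit 0) (nat_lit 61) (nat_lit 48) (nat_lit 35))) (PT.nd (nat_lit 94) (PT.lf (nat_lit 8400)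 (nat_lit 6) (nat_lit 100) (nat_lit 5) (nat_lit 33) (nat_lit 49) (nat_lit 62)) (PT.lf (nat_lit 8988) (nat_lit 6) (nat_lit 107) (nat_lit 5) (nat_lit 34) (nat_lit 49) (nat_lit 61)))) (PT.nd (nat_lit 188) (PT.nd (nat_lit 94) (PT.lf (nat_lit 10164) (nat_lit 6) (nat_lit 121) (nat_lit 5) (nat_lit 35) (nat_lit 49) (nat_lit 60)) (PT.lf (nat_lit 11256) (nat_lit 6) (nat_lit 134) (nat_lit 5) (nat_lit 36) (nat_lit 49) (nat_lit 59))) (PT.nd (nat_lit 94) (PT.lf (nat_lit 12264) (nat_lit 6) (nat_lit 146) (nat_lit 5) (nat_lit 37) (nat_lit 49) (nat_lit 58)) (PT.nd (nat_lit 94) (PT.lf (nat_lit 13188) (nat_lit 6) (nat_lit 157) (nat_lit 5) (nat_lit 38) (nat_lit 49) (nat_lit 57)) (PT.lf (nat_lit 14028) (nat_lit 6) (nat_lit 167) (nat_lit 5) (nat_lit 39) (nat_lit 49) (nat_lit 56)))))) (PT.nd (nat_lit 470) (PT.nd (nat_lit 188) (PT.nd (nat_lit 94) (PT.lf (nat_lit 14784) (nat_lit 6) (nat_lit 176) (nat_lit 5) (nat_lit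 40) (nat_lit 49) (nat_lit 55)) (PT.lf (nat_lit 15456) (nat_lit 6) (nat_lit 184) (nat_lit 5) (nat_lit 41) (nat_lit 49) (nat_lit 54))) (PT.nd (nat_lit 94) (PT.lf (nat_lit 16044) (nat_lit 6) (nat_lit 191) (nat_lit 5) (nat_lit 42) (nat_lit 49) (nat_lit 53)) (PT.nd (nat_lit 94) (PT.lf (nat_lit 16548) (nat_lit 6) (nat_lit 197) (nat_lit 5) (nat_lit 43) (nat_lit 49) (nat_lit 52)) (PT.lf (nat_lit 16968) (nat_lit 6) (nat_lit 202) (nat_lit 5) (nat_lit 44) (nat_lit 49) (nat_lit 51))))) (PT.nd (nat_lit 188) (PT.nd (nat_lit 94) (PT.lf (nat_lit 17304) (nat_lit 6) (nat_lit 206) (nat_lit 5) (nat_lit 45) (nat_lit 49) (nat_lit 50)) (PT.lf (nat_lit 17556) (nat_lit 3) (nat_lit 209) (nat_lit 4) (nat_lit 46) (nat_lit 49) (nat_lit 49))) (PT.nd (nat_lit 94) (PT.lf (nat_lit 17640) (nat_lit 6) (nat_lit 210) (nat_lit 4) (nat_lit 47) (nat_lit 49) (nat_lit 48)) (PT.nd (nat_lit 94) (PT.lf (nat_lit 17640) (nat_lit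 6) (nat_lit 210) (nat_lit 2) (nat_lit 48) (nat_lit 49) (nat_lit 47)) (PT.lf (nat_lit 17556) (nat_lit 3) (nat_lit 209) (nat_lit 0) (nat_lit 49) (nat_lit 49) (nat_lit 46))))))))
noncomputable def pc14 : PT := (PT.nd (nat_lit 53016) (PT.nd (nat_lit 846) (PT.nd (nat_lit 376) (PT.nd (nat_lit 188) (PT.nd (nat_lit 94) (PT.lf (nat_lit 17304) (nat_lit 6) (nat_lit 206) (nat_lit 0) (nat_lit 50) (nat_lit 49) (nat_lit 45)) (PT.lf (nat_lit 16968) (nat_lit 6) (nat_lit 202) (nat_lit 0) (nat_lit 51) (nat_lit 49) (nat_lit 44))) (PT.nd (nat_lit 94) (PT.lf (nat_lit 16548) (nat_lit 6) (nat_lit 197) (nat_lit 0) (nat_lit 52) (nat_lit 49) (nat_lit 43)) (PT.lf (nat_lit 16044) (nat_lit 6) (nat_lit 191) (nat_lit 0) (nat_lit 53) (nat_lit 49) (nat_lit 42)))) (PT.nd (nat_lit 188) (PT.nd (nat_lit 94) (PT.lf (nat_lit 15456) (nat_lit 6) (nat_lit 184) (nat_lit 0) (nat_lit 54) (nat_lit 49) (nat_lit 41)) (PT.lf (nat_lit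 14784) (nat_lit 6) (nat_lit 176) (nat_lit 0) (nat_lit 55) (nat_lit 49) (nat_lit 40))) (PT.nd (nat_lit 94) (PT.lf (nat_lit 14028) (nat_lit 6) (nat_lit 167) (nat_lit 0) (nat_lit 56) (nat_lit 49) (nat_lit 39)) (PT.nd (nat_lit 94) (PT.lf (nat_lit 13188) (nat_lit 6) (nat_lit 157) (nat_lit 0) (nat_lit 57) (nat_lit 49) (nat_lit 38)) (PT.lf (nat_lit 12264) (nat_lit 6) (nat_lit 146) (nat_lit 0) (nat_lit 58) (nat_lit 49) (nat_lit 37)))))) (PT.nd (nat_lit 51700) (PT.nd (nat_lit 188) (PT.nd (nat_lit 94) (PT.lf (nat_lit 11256) (nat_lit 6) (nat_lit 134) (nat_lit 0) (nat_lit 59) (nat_lit 49) (nat_lit 36)) (PT.lf (nat_lit 10164) (nat_lit 6) (nat_lit 121) (nat_lit 0) (nat_lit 60) (nat_lit 49) (nat_lit 35))) (PT.nd (nat_lit 94) (PT.lf (nat_lit 8988) (nat_lit 6) (nat_lit 107) (nat_lit 0) (nat_lit 61) (nat_lit 49) (nat_lit 34)) (PT.lf (nat_lit 8400) (nat_lit 6) (nat_lit 100) (nat_lit 0) (nat_lit 62) (nat_lit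 49) (nat_lit 33)))) (PT.nd (nat_lit 188) (PT.nd (nat_lit 94) (PT.lf (nat_lit 7812) (nat_lit 6) (nat_lit 93) (nat_lit 5) (nat_lit 32) (nat_lit 50) (nat_lit 62)) (PT.lf (nat_lit 8484) (nat_lit 6) (nat_lit 101) (nat_lit 5) (nat_lit 33) (nat_lit 50) (nat_lit 61))) (PT.nd (nat_lit 94) (PT.lf (nat_lit 9072) (nat_lit 6) (nat_lit 108) (nat_lit 5) (nat_lit 34) (nat_lit 50) (nat_lit 60)) (PT.nd (nat_lit 94) (PT.lf (nat_lit 10248) (nat_lit 6) (nat_lit 122) (nat_lit 5) (nat_lit 35) (nat_lit 50) (nat_lit 59)) (PT.lf (nat_lit 11340) (nat_lit 6) (nat_lit 135) (nat_lit 5) (nat_lit 36) (nat_lit 50) (nat_lit 58))))))) (PT.nd (nat_lit 846) (PT.nd (nat_lit 376) (PT.nd (nat_lit 188) (PT.nd (nat_lit 94) (PT.lf (nat_lit 12348) (nat_lit 6) (nat_lit 147) (nat_lit 5) (nat_lit 37) (nat_lit 50) (nat_lit 57)) (PT.lf (nat_lit 13272) (nat_lit 6) (nat_lit 158) (nat_lit 5) (nat_lit 38) (nat_lit 50) (nat_lit 56))) (PT.nd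 (nat_lit 94) (PT.lf (nat_lit 14112) (nat_lit 6) (nat_lit 168) (nat_lit 5) (nat_lit 39) (nat_lit 50) (nat_lit 55)) (PT.lf (nat_lit 14868) (nat_lit 6) (nat_lit 177) (nat_lit 5) (nat_lit 40) (nat_lit 50) (nat_lit 54)))) (PT.nd (nat_lit 188) (PT.nd (nat_lit 94) (PT.lf (nat_lit 15540) (nat_lit 6) (nat_lit 185) (nat_lit 5) (nat_lit 41) (nat_lit 50) (nat_lit 53)) (PT.lf (nat_lit 16128) (nat_lit 6) (nat_lit 192) (nat_lit 5) (nat_lit 42) (nat_lit 50) (nat_lit 52))) (PT.nd (nat_lit 94) (PT.lf (nat_lit 16632) (nat_lit 6) (nat_lit 198) (nat_lit 5) (nat_lit 43) (nat_lit 50) (nat_lit 51)) (PT.nd (nat_lit 94) (PT.lf (nat_lit 17052) (nat_lit 3) (nat_lit 203) (nat_lit 4) (nat_lit 44) (nat_lit 50) (nat_lit 50)) (PT.lf (nat_lit 17304) (nat_lit 6) (nat_lit 206) (nat_lit 4) (nat_lit 45) (nat_lit 50) (nat_lit 49)))))) (PT.nd (nat_lit 470) (PT.nd (nat_lit 188) (PT.nd (nat_lit 94) (PT.lf (nat_lit 17472) (nat_lit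 6) (nat_lit 208) (nat_lit 4) (nat_lit 46) (nat_lit 50) (nat_lit 48)) (PT.lf (nat_lit 17388) (nat_lit 3) (nat_lit 207) (nat_lit 2) (nat_lit 47) (nat_lit 50) (nat_lit 47))) (PT.nd (nat_lit 94) (PT.lf (nat_lit 17472) (nat_lit 6) (nat_lit 208) (nat_lit 2) (nat_lit 48) (nat_lit 50) (nat_lit 46)) (PT.nd (nat_lit 94) (PT.lf (nat_lit 17304) (nat_lit 6) (nat_lit 206) (nat_lit 2) (nat_lit 49) (nat_lit 50) (nat_lit 45)) (PT.lf (nat_lit 17052) (nat_lit 3) (nat_lit 203) (nat_lit 0) (nat_lit 50) (nat_lit 50) (nat_lit 44))))) (PT.nd (nat_lit 188) (PT.nd (nat_lit 94) (PT.lf (nat_lit 16632) (nat_lit 6) (nat_lit 198) (nat_lit 0) (nat_lit 51) (nat_lit 50) (nat_lit 43)) (PT.lf (nat_lit 16128) (nat_lit 6) (nat_lit 192) (nat_lit 0) (nat_lit 52) (nat_lit 50) (nat_lit 42))) (PT.nd (nat_lit 94) (PT.lf (nat_lit 15540) (nat_lit 6) (nat_lit 185) (nat_lit 0) (nat_lit 53) (nat_lit 50) (nat_lit 41)) (PT.nd (nat_lit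 94) (PT.lf (nat_lit 14868) (nat_lit 6) (nat_lit 177) (nat_lit 0) (nat_lit 54) (nat_lit 50) (nat_lit 40)) (PT.lf (nat_lit 14112) (nat_lit 6) (nat_lit 168) (nat_lit 0) (nat_lit 55) (nat_lit 50) (nat_lit 39))))))))
noncomputable def pc15 : PT := (PT.nd (nat_lit 52922) (PT.nd (nat_lit 52076) (PT.nd (nat_lit 376) (PT.nd (nat_lit 188) (PT.nd (nat_lit 94) (PT.lf (nat_lit 13272) (nat_lit 6) (nat_lit 158) (nat_lit 0) (nat_lit 56) (nat_lit 50) (nat_lit 38)) (PT.lf (nat_lit 12348) (nat_lit 6) (nat_lit 147) (nat_lit 0) (nat_lit 57) (nat_lit 50) (nat_lit 37))) (PT.nd (nat_lit 94) (PT.lf (nat_lit 11340) (nat_lit 6) (nat_lit 135) (nat_lit 0) (nat_lit 58) (nat_lit 50) (nat_lit 36)) (PT.lf (nat_lit 10248) (nat_lit 6) (nat_lit 122) (nat_lit 0) (nat_lit 59) (nat_lit 50) (nat_lit 35)))) (PT.nd (nat_lit 188) (PT.nd (nat_lit 94) (PT.lf (nat_lit 9072) (nat_lit 6) (nat_lit 108) (nat_lit 0) (nat_lit 60) (nat_lit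 50) (nat_lit 34)) (PT.lf (nat_lit 8484) (nat_lit 6) (nat_lit 101) (nat_lit 0) (nat_lit 61) (nat_lit 50) (nat_lit 33))) (PT.nd (nat_lit 51324) (PT.lf (nat_lit 7812) (nat_lit 6) (nat_lit 93) (nat_lit 0) (nat_lit 62) (nat_lit 50) (nat_lit 32)) (PT.nd (nat_lit 94) (PT.lf (nat_lit 7308) (nat_lit 6) (nat_lit 87) (nat_lit 5) (nat_lit 31) (nat_lit 51) (nat_lit 62)) (PT.lf (nat_lit 7896) (nat_lit 6) (nat_lit 94) (nat_lit 5) (nat_lit 32) (nat_lit 51) (nat_lit 61)))))) (PT.nd (nat_lit 376) (PT.nd (nat_lit 188) (PT.nd (nat_lit 94) (PT.lf (nat_lit 8568) (nat_lit 6) (nat_lit 102) (nat_lit 5) (nat_lit 33) (nat_lit 51) (nat_lit 60)) (PT.lf (nat_lit 9156) (nat_lit 6) (nat_lit 109) (nat_lit 5) (nat_lit 34) (nat_lit 51) (nat_lit 59))) (PT.nd (nat_lit 94) (PT.lf (nat_lit 10332) (nat_lit 6) (nat_lit 123) (nat_lit 5) (nat_lit 35) (nat_lit 51) (nat_lit 58)) (PT.lf (nat_lit 11424) (nat_lit 6) (nat_lit 136)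 (nat_lit 5) (nat_lit 36) (nat_lit 51) (nat_lit 57)))) (PT.nd (nat_lit 188) (PT.nd (nat_lit 94) (PT.lf (nat_lit 12432) (nat_lit 6) (nat_lit 148) (nat_lit 5) (nat_lit 37) (nat_lit 51) (nat_lit 56)) (PT.lf (nat_lit 13356) (nat_lit 6) (nat_lit 159) (nat_lit 5) (nat_lit 38) (nat_lit 51) (nat_lit 55))) (PT.nd (nat_lit 94) (PT.lf (nat_lit 14196) (nat_lit 6) (nat_lit 169) (nat_lit 5) (nat_lit 39) (nat_lit 51) (nat_lit 54)) (PT.nd (nat_lit 94) (PT.lf (nat_lit 14952) (nat_lit 6) (nat_lit 178) (nat_lit 5) (nat_lit 40) (nat_lit 51) (nat_lit 53)) (PT.lf (nat_lit 15624) (nat_lit 6) (nat_lit 186) (nat_lit 5) (nat_lit 41) (nat_lit 51) (nat_lit 52))))))) (PT.nd (nat_lit 846) (PT.nd (nat_lit 376) (PT.nd (nat_lit 188) (PT.nd (nat_lit 94) (PT.lf (nat_lit 16212) (nat_lit 3) (nat_lit 193) (nat_lit 4) (nat_lit 42) (nat_lit 51) (nat_lit 51)) (PT.lf (nat_lit 16632) (nat_lit 6) (nat_lit 198) (nat_lit 4) (nat_lit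 43) (nat_lit 51) (nat_lit 50))) (PT.nd (nat_lit 94) (PT.lf (nat_lit 16968) (nat_lit 6) (nat_lit 202) (nat_lit 4) (nat_lit 44) (nat_lit 51) (nat_lit 49)) (PT.lf (nat_lit 17220) (nat_lit 6) (nat_lit 205) (nat_lit 4) (nat_lit 45) (nat_lit 51) (nat_lit 48)))) (PT.nd (nat_lit 188) (PT.nd (nat_lit 94) (PT.lf (nat_lit 17136) (nat_lit 6) (nat_lit 204) (nat_lit 4) (nat_lit 46) (nat_lit 51) (nat_lit 47)) (PT.lf (nat_lit 17136) (nat_lit 6) (nat_lit 204) (nat_lit 2) (nat_lit 47) (nat_lit 51) (nat_lit 46))) (PT.nd (nat_lit 94) (PT.lf (nat_lit 17220) (nat_lit 6) (nat_lit 205) (nat_lit 2) (nat_lit 48) (nat_lit 51) (nat_lit 45)) (PT.nd (nat_lit 94) (PT.lf (nat_lit 16968) (nat_lit 6) (nat_lit 202) (nat_lit 2) (nat_lit 49) (nat_lit 51) (nat_lit 44)) (PT.lf (nat_lit 16632) (nat_lit 6) (nat_lit 198) (nat_lit 2) (nat_lit 50) (nat_lit 51) (nat_lit 43)))))) (PT.nd (nat_lit 470) (PT.nd (nat_lit 188) (PT.nd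 (nat_lit 94) (PT.lf (nat_lit 16212) (nat_lit 3) (nat_lit 193) (nat_lit 0) (nat_lit 51) (nat_lit 51) (nat_lit 42)) (PT.lf (nat_lit 15624) (nat_lit 6) (nat_lit 186) (nat_lit 0) (nat_lit 52) (nat_lit 51) (nat_lit 41))) (PT.nd (nat_lit 94) (PT.lf (nat_lit 14952) (nat_lit 6) (nat_lit 178) (nat_lit 0) (nat_lit 53) (nat_lit 51) (nat_lit 40)) (PT.nd (nat_lit 94) (PT.lf (nat_lit 14196) (nat_lit 6) (nat_lit 169) (nat_lit 0) (nat_lit 54) (nat_lit 51) (nat_lit 39)) (PT.lf (nat_lit 13356) (nat_lit 6) (nat_lit 159) (nat_lit 0) (nat_lit 55) (nat_lit 51) (nat_lit 38))))) (PT.nd (nat_lit 188) (PT.nd (nat_lit 94) (PT.lf (nat_lit 12432) (nat_lit 6) (nat_lit 148) (nat_lit 0) (nat_lit 56) (nat_lit 51) (nat_lit 37)) (PT.lf (nat_lit 11424) (nat_lit 6) (nat_lit 136) (nat_lit 0) (nat_lit 57) (nat_lit 51) (nat_lit 36))) (PT.nd (nat_lit 94) (PT.lf (nat_lit 10332) (nat_lit 6) (nat_lit 123) (nat_lit 0) (nat_lit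 58) (nat_lit 51) (nat_lit 35)) (PT.nd (nat_lit 94) (PT.lf (nat_lit 9156) (nat_lit 6) (nat_lit 109) (nat_lit 0) (nat_lit 59) (nat_lit 51) (nat_lit 34)) (PT.lf (nat_lit 8568) (nat_lit 6) (nat_lit 102) (nat_lit 0) (nat_lit 60) (nat_lit 51) (nat_lit 33))))))))
noncomputable def pc16 : PT := (PT.nd (nat_lit 52828) (PT.nd (nat_lit 51982) (PT.nd (nat_lit 51512) (PT.nd (nat_lit 51324) (PT.nd (nat_lit 94) (PT.lf (nat_lit 7896) (nat_lit 6) (nat_lit 94) (nat_lit 0) (nat_lit 61) (nat_lit 51) (nat_lit 32)) (PT.lf (nat_lit 7308) (nat_lit 6) (nat_lit 87) (nat_lit 0) (nat_lit 62) (nat_lit 51) (nat_lit 31))) (PT.nd (nat_lit 94) (PT.lf (nat_lit 6804) (nat_lit 6) (nat_lit 81) (nat_lit 5) (nat_lit 30) (nat_lit 52) (nat_lit 62)) (PT.lf (nat_lit 7392) (nat_lit 6) (nat_lit 88) (nat_lit 5) (nat_lit 31) (nat_lit 52) (nat_lit 61)))) (PT.nd (nat_lit 188) (PT.nd (nat_lit 94) (PT.lf (nat_lit 7980) (nat_lit 6) (nat_lit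 95) (nat_lit 5) (nat_lit 32) (nat_lit 52) (nat_lit 60)) (PT.lf (nat_lit 8652) (nat_lit 6) (nat_lit 103) (nat_lit 5) (nat_lit 33) (nat_lit 52) (nat_lit 59))) (PT.nd (nat_lit 94) (PT.lf (nat_lit 9240) (nat_lit 6) (nat_lit 110) (nat_lit 5) (nat_lit 34) (nat_lit 52) (nat_lit 58)) (PT.nd (nat_lit 94) (PT.lf (nat_lit 10416) (nat_lit 6) (nat_lit 124) (nat_lit 5) (nat_lit 35) (nat_lit 52) (nat_lit 57)) (PT.lf (nat_lit 11508) (nat_lit 6) (nat_lit 137) (nat_lit 5) (nat_lit 36) (nat_lit 52) (nat_lit 56)))))) (PT.nd (nat_lit 376) (PT.nd (nat_lit 188) (PT.nd (nat_lit 94) (PT.lf (nat_lit 12516) (nat_lit 6) (nat_lit 149) (nat_lit 5) (nat_lit 37) (nat_lit 52) (nat_lit 55)) (PT.lf (nat_lit 13440) (nat_lit 6) (nat_lit 160) (nat_lit 5) (nat_lit 38) (nat_lit 52) (nat_lit 54))) (PT.nd (nat_lit 94) (PT.lf (nat_lit 14280) (nat_lit 6) (nat_lit 170) (nat_lit 5) (nat_lit 39) (nat_lit 52) (nat_lit 53)) (PT.lf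 (nat_lit 15036) (nat_lit 3) (nat_lit 179) (nat_lit 4) (nat_lit 40) (nat_lit 52) (nat_lit 52)))) (PT.nd (nat_lit 188) (PT.nd (nat_lit 94) (PT.lf (nat_lit 15624) (nat_lit 6) (nat_lit 186) (nat_lit 4) (nat_lit 41) (nat_lit 52) (nat_lit 51)) (PT.lf (nat_lit 16128) (nat_lit 6) (nat_lit 192) (nat_lit 4) (nat_lit 42) (nat_lit 52) (nat_lit 50))) (PT.nd (nat_lit 94) (PT.lf (nat_lit 16548) (nat_lit 6) (nat_lit 197) (nat_lit 4) (nat_lit 43) (nat_lit 52) (nat_lit 49)) (PT.nd (nat_lit 94) (PT.lf (nat_lit 16884) (nat_lit 6) (nat_lit 201) (nat_lit 4) (nat_lit 44) (nat_lit 52) (nat_lit 48)) (PT.lf (nat_lit 16800) (nat_lit 6) (nat_lit 200) (nat_lit 4) (nat_lit 45) (nat_lit 52) (nat_lit 47))))))) (PT.nd (nat_lit 846) (PT.nd (nat_lit 376) (PT.nd (nat_lit 188) (PT.nd (nat_lit 94) (PT.lf (nat_lit 16716) (nat_lit 3) (nat_lit 199) (nat_lit 2) (nat_lit 46) (nat_lit 52) (nat_lit 46)) (PT.lf (nat_lit 16800) (nat_lit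 6) (nat_lit 200) (nat_lit 2) (nat_lit 47) (nat_lit 52) (nat_lit 45))) (PT.nd (nat_lit 94) (PT.lf (nat_lit 16884) (nat_lit 6) (nat_lit 201) (nat_lit 2) (nat_lit 48) (nat_lit 52) (nat_lit 44)) (PT.lf (nat_lit 16548) (nat_lit 6) (nat_lit 197) (nat_lit 2) (nat_lit 49) (nat_lit 52) (nat_lit 43)))) (PT.nd (nat_lit 188) (PT.nd (nat_lit 94) (PT.lf (nat_lit 16128) (nat_lit 6) (nat_lit 192) (nat_lit 2) (nat_lit 50) (nat_lit 52) (nat_lit 42)) (PT.lf (nat_lit 15624) (nat_lit 6) (nat_lit 186) (nat_lit 2) (nat_lit 51) (nat_lit 52) (nat_lit 41))) (PT.nd (nat_lit 94) (PT.lf (nat_lit 15036) (nat_lit 3) (nat_lit 179) (nat_lit 0) (nat_lit 52) (nat_lit 52) (nat_lit 40)) (PT.nd (nat_lit 94) (PT.lf (nat_lit 14280) (nat_lit 6) (nat_lit 170) (nat_lit 0) (nat_lit 53) (nat_lit 52) (nat_lit 39)) (PT.lf (nat_lit 13440) (nat_lit 6) (nat_lit 160) (nat_lit 0) (nat_lit 54) (nat_lit 52) (nat_lit 38)))))) (PT.nd (nat_lit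 376) (PT.nd (nat_lit 188) (PT.nd (nat_lit 94) (PT.lf (nat_lit 12516) (nat_lit 6) (nat_lit 149) (nat_lit 0) (nat_lit 55) (nat_lit 52) (nat_lit 37)) (PT.lf (nat_lit 11508) (nat_lit 6) (nat_lit 137) (nat_lit 0) (nat_lit 56) (nat_lit 52) (nat_lit 36))) (PT.nd (nat_lit 94) (PT.lf (nat_lit 10416) (nat_lit 6) (nat_lit 124) (nat_lit 0) (nat_lit 57) (nat_lit 52) (nat_lit 35)) (PT.lf (nat_lit 9240) (nat_lit 6) (nat_lit 110) (nat_lit 0) (nat_lit 58) (nat_lit 52) (nat_lit 34)))) (PT.nd (nat_lit 188) (PT.nd (nat_lit 94) (PT.lf (nat_lit 8652) (nat_lit 6) (nat_lit 103) (nat_lit 0) (nat_lit 59) (nat_lit 52) (nat_lit 33)) (PT.lf (nat_lit 7980) (nat_lit 6) (nat_lit 95) (nat_lit 0) (nat_lit 60) (nat_lit 52) (nat_lit 32))) (PT.nd (nat_lit 94) (PT.lf (nat_lit 7392) (nat_lit 6) (nat_lit 88) (nat_lit 0) (nat_lit 61) (nat_lit 52) (nat_lit 31)) (PT.nd (nat_lit 51042) (PT.lf (nat_lit 6804) (nat_lit 6) (nat_lit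 81) (nat_lit 0) (nat_lit 62) (nat_lit 52) (nat_lit 30)) (PT.lf (nat_lit 5880) (nat_lit 6) (nat_lit 70) (nat_lit 5) (nat_lit 28) (nat_lit 53) (nat_lit 63))))))))
noncomputable def pc17 : PT := (PT.nd (nat_lit 1692) (PT.nd (nat_lit 846) (PT.nd (nat_lit 376) (PT.nd (nat_lit 188) (PT.nd (nat_lit 94) (PT.lf (nat_lit 6384) (nat_lit 6) (nat_lit 76) (nat_lit 5) (nat_lit 29) (nat_lit 53) (nat_lit 62)) (PT.lf (nat_lit 6888) (nat_lit 6) (nat_lit 82) (nat_lit 5) (nat_lit 30) (nat_lit 53) (nat_lit 61))) (PT.nd (nat_lit 94) (PT.lf (nat_lit 7476) (nat_lit 6) (nat_lit 89) (nat_lit 5) (nat_lit 31) (nat_lit 53) (nat_lit 60)) (PT.lf (nat_lit 8064) (nat_lit 6) (nat_lit 96) (nat_lit 5) (nat_lit 32) (nat_lit 53) (nat_lit 59)))) (PT.nd (nat_lit 188) (PT.nd (nat_lit 94) (PT.lf (nat_lit 8736) (nat_lit 6) (nat_lit 104) (nat_lit 5) (nat_lit 33) (nat_lit 53) (nat_lit 58)) (PT.lf (nat_lit 9324) (nat_lit 6) (nat_lit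 111) (nat_lit 5) (nat_lit 34) (nat_lit 53) (nat_lit 57))) (PT.nd (nat_lit 94) (PT.lf (nat_lit 10500) (nat_lit 6) (nat_lit 125) (nat_lit 5) (nat_lit 35) (nat_lit 53) (nat_lit 56)) (PT.nd (nat_lit 94) (PT.lf (nat_lit 11592) (nat_lit 6) (nat_lit 138) (nat_lit 5) (nat_lit 36) (nat_lit 53) (nat_lit 55)) (PT.lf (nat_lit 12600) (nat_lit 6) (nat_lit 150) (nat_lit 5) (nat_lit 37) (nat_lit 53) (nat_lit 54)))))) (PT.nd (nat_lit 376) (PT.nd (nat_lit 188) (PT.nd (nat_lit 94) (PT.lf (nat_lit 13524) (nat_lit 3) (nat_lit 161) (nat_lit 4) (nat_lit 38) (nat_lit 53) (nat_lit 53)) (PT.lf (nat_lit 14280) (nat_lit 6) (nat_lit 170) (nat_lit 4) (nat_lit 39) (nat_lit 53) (nat_lit 52))) (PT.nd (nat_lit 94) (PT.lf (nat_lit 14952) (nat_lit 6) (nat_lit 178) (nat_lit 4) (nat_lit 40) (nat_lit 53) (nat_lit 51)) (PT.lf (nat_lit 15540) (nat_lit 6) (nat_lit 185) (nat_lit 4) (nat_lit 41) (nat_lit 53) (nat_lit 50)))) (PT.nd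 (nat_lit 188) (PT.nd (nat_lit 94) (PT.lf (nat_lit 16044) (nat_lit 6) (nat_lit 191) (nat_lit 4) (nat_lit 42) (nat_lit 53) (nat_lit 49)) (PT.lf (nat_lit 16464) (nat_lit 6) (nat_lit 196) (nat_lit 4) (nat_lit 43) (nat_lit 53) (nat_lit 48))) (PT.nd (nat_lit 94) (PT.lf (nat_lit 16380) (nat_lit 6) (nat_lit 195) (nat_lit 4) (nat_lit 44) (nat_lit 53) (nat_lit 47)) (PT.nd (nat_lit 94) (PT.lf (nat_lit 16296) (nat_lit 6) (nat_lit 194) (nat_lit 4) (nat_lit 45) (nat_lit 53) (nat_lit 46)) (PT.lf (nat_lit 16296) (nat_lit 6) (nat_lit 194) (nat_lit 2) (nat_lit 46) (nat_lit 53) (nat_lit 45))))))) (PT.nd (nat_lit 846) (PT.nd (nat_lit 376) (PT.nd (nat_lit 188) (PT.nd (nat_lit 94) (PT.lf (nat_lit 16380) (nat_lit 6) (nat_lit 195) (nat_lit 2) (nat_lit 47) (nat_lit 53) (nat_lit 44)) (PT.lf (nat_lit 16464) (nat_lit 6) (nat_lit 196) (nat_lit 2) (nat_lit 48) (nat_lit 53) (nat_lit 43))) (PT.nd (nat_lit 94) (PT.lf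 (nat_lit 16044) (nat_lit 6) (nat_lit 191) (nat_lit 2) (nat_lit 49) (nat_lit 53) (nat_lit 42)) (PT.lf (nat_lit 15540) (nat_lit 6) (nat_lit 185) (nat_lit 2) (nat_lit 50) (nat_lit 53) (nat_lit 41)))) (PT.nd (nat_lit 188) (PT.nd (nat_lit 94) (PT.lf (nat_lit 14952) (nat_lit 6) (nat_lit 178) (nat_lit 2) (nat_lit 51) (nat_lit 53) (nat_lit 40)) (PT.lf (nat_lit 14280) (nat_lit 6) (nat_lit 170) (nat_lit 2) (nat_lit 52) (nat_lit 53) (nat_lit 39))) (PT.nd (nat_lit 94) (PT.lf (nat_lit 13524) (nat_lit 3) (nat_lit 161) (nat_lit 0) (nat_lit 53) (nat_lit 53) (nat_lit 38)) (PT.nd (nat_lit 94) (PT.lf (nat_lit 12600) (nat_lit 6) (nat_lit 150) (nat_lit 0) (nat_lit 54) (nat_lit 53) (nat_lit 37)) (PT.lf (nat_lit 11592) (nat_lit 6) (nat_lit 138) (nat_lit 0) (nat_lit 55) (nat_lit 53) (nat_lit 36)))))) (PT.nd (nat_lit 470) (PT.nd (nat_lit 188) (PT.nd (nat_lit 94) (PT.lf (nat_lit 10500) (nat_lit 6) (nat_lit 125)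 (nat_lit 0) (nat_lit 56) (nat_lit 53) (nat_lit 35)) (PT.lf (nat_lit 9324) (nat_lit 6) (nat_lit 111) (nat_lit 0) (nat_lit 57) (nat_lit 53) (nat_lit 34))) (PT.nd (nat_lit 94) (PT.lf (nat_lit 8736) (nat_lit 6) (nat_lit 104) (nat_lit 0) (nat_lit 58) (nat_lit 53) (nat_lit 33)) (PT.nd (nat_lit 94) (PT.lf (nat_lit 8064) (nat_lit 6) (nat_lit 96) (nat_lit 0) (nat_lit 59) (nat_lit 53) (nat_lit 32)) (PT.lf (nat_lit 7476) (nat_lit 6) (nat_lit 89) (nat_lit 0) (nat_lit 60) (nat_lit 53) (nat_lit 31))))) (PT.nd (nat_lit 188) (PT.nd (nat_lit 94) (PT.lf (nat_lit 6888) (nat_lit 6) (nat_lit 82) (nat_lit 0) (nat_lit 61) (nat_lit 53) (nat_lit 30)) (PT.lf (nat_lit 6384) (nat_lit 6) (nat_lit 76) (nat_lit 0) (nat_lit 62) (nat_lit 53) (nat_lit 29))) (PT.nd (nat_lit 50854) (PT.lf (nat_lit 5880) (nat_lit 6) (nat_lit 70) (nat_lit 0) (nat_lit 63) (nat_lit 53) (nat_lit 28)) (PT.nd (nat_lit 94) (PT.lf (nat_lit 5460)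 (nat_lit 6) (nat_lit 65) (nat_lit 5) (nat_lit 27) (nat_lit 54) (nat_lit 63)) (PT.lf (nat_lit 5964) (nat_lit 6) (nat_lit 71) (nat_lit 5) (nat_lit 28) (nat_lit 54) (nat_lit 62))))))))
noncomputable def pc18 : PT := (PT.nd (nat_lit 1692) (PT.nd (nat_lit 846) (PT.nd (nat_lit 376) (PT.nd (nat_lit 188) (PT.nd (nat_lit 94) (PT.lf (nat_lit 6468) (nat_lit 6) (nat_lit 77) (nat_lit 5) (nat_lit 29) (nat_lit 54) (nat_lit 61)) (PT.lf (nat_lit 6972) (nat_lit 6) (nat_lit 83) (nat_lit 5) (nat_lit 30) (nat_lit 54) (nat_lit 60))) (PT.nd (nat_lit 94) (PT.lf (nat_lit 7560) (nat_lit 6) (nat_lit 90) (nat_lit 5) (nat_lit 31) (nat_lit 54) (nat_lit 59)) (PT.lf (nat_lit 8148) (nat_lit 6) (nat_lit 97) (nat_lit 5) (nat_lit 32) (nat_lit 54) (nat_lit 58)))) (PT.nd (nat_lit 188) (PT.nd (nat_lit 94) (PT.lf (nat_lit 8820) (nat_lit 6) (nat_lit 105) (nat_lit 5) (nat_lit 33) (nat_lit 54) (nat_lit 57)) (PT.lf (nat_lit 9408)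 (nat_lit 6) (nat_lit 112) (nat_lit 5) (nat_lit 34) (nat_lit 54) (nat_lit 56))) (PT.nd (nat_lit 94) (PT.lf (nat_lit 10584) (nat_lit 6) (nat_lit 126) (nat_lit 5) (nat_lit 35) (nat_lit 54) (nat_lit 55)) (PT.nd (nat_lit 94) (PT.lf (nat_lit 11676) (nat_lit 3) (nat_lit 139) (nat_lit 4) (nat_lit 36) (nat_lit 54) (nat_lit 54)) (PT.lf (nat_lit 12600) (nat_lit 6) (nat_lit 150) (nat_lit 4) (nat_lit 37) (nat_lit 54) (nat_lit 53)))))) (PT.nd (nat_lit 376) (PT.nd (nat_lit 188) (PT.nd (nat_lit 94) (PT.lf (nat_lit 13440) (nat_lit 6) (nat_lit 160) (nat_lit 4) (nat_lit 38) (nat_lit 54) (nat_lit 52)) (PT.lf (nat_lit 14196) (nat_lit 6) (nat_lit 169) (nat_lit 4) (nat_lit 39) (nat_lit 54) (nat_lit 51))) (PT.nd (nat_lit 94) (PT.lf (nat_lit 14868) (nat_lit 6) (nat_lit 177) (nat_lit 4) (nat_lit 40) (nat_lit 54) (nat_lit 50)) (PT.lf (nat_lit 15456) (nat_lit 6) (nat_lit 184) (nat_lit 4) (nat_lit 41) (nat_lit 54)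 (nat_lit 49)))) (PT.nd (nat_lit 188) (PT.nd (nat_lit 94) (PT.lf (nat_lit 15960) (nat_lit 6) (nat_lit 190) (nat_lit 4) (nat_lit 42) (nat_lit 54) (nat_lit 48)) (PT.lf (nat_lit 15876) (nat_lit 6) (nat_lit 189) (nat_lit 4) (nat_lit 43) (nat_lit 54) (nat_lit 47))) (PT.nd (nat_lit 94) (PT.lf (nat_lit 15792) (nat_lit 6) (nat_lit 188) (nat_lit 4) (nat_lit 44) (nat_lit 54) (nat_lit 46)) (PT.nd (nat_lit 94) (PT.lf (nat_lit 15708) (nat_lit 3) (nat_lit 187) (nat_lit 2) (nat_lit 45) (nat_lit 54) (nat_lit 45)) (PT.lf (nat_lit 15792) (nat_lit 6) (nat_lit 188) (nat_lit 2) (nat_lit 46) (nat_lit 54) (nat_lit 44))))))) (PT.nd (nat_lit 846) (PT.nd (nat_lit 376) (PT.nd (nat_lit 188) (PT.nd (nat_lit 94) (PT.lf (nat_lit 15876) (nat_lit 6) (nat_lit 189) (nat_lit 2) (nat_lit 47) (nat_lit 54) (nat_lit 43)) (PT.lf (nat_lit 15960) (nat_lit 6) (nat_lit 190) (nat_lit 2) (nat_lit 48) (nat_lit 54) (nat_lit 42))) (PT.nd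 (nat_lit 94) (PT.lf (nat_lit 15456) (nat_lit 6) (nat_lit 184) (nat_lit 2) (nat_lit 49) (nat_lit 54) (nat_lit 41)) (PT.lf (nat_lit 14868) (nat_lit 6) (nat_lit 177) (nat_lit 2) (nat_lit 50) (nat_lit 54) (nat_lit 40)))) (PT.nd (nat_lit 188) (PT.nd (nat_lit 94) (PT.lf (nat_lit 14196) (nat_lit 6) (nat_lit 169) (nat_lit 2) (nat_lit 51) (nat_lit 54) (nat_lit 39)) (PT.lf (nat_lit 13440) (nat_lit 6) (nat_lit 160) (nat_lit 2) (nat_lit 52) (nat_lit 54) (nat_lit 38))) (PT.nd (nat_lit 94) (PT.lf (nat_lit 12600) (nat_lit 6) (nat_lit 150) (nat_lit 2) (nat_lit 53) (nat_lit 54) (nat_lit 37)) (PT.nd (nat_lit 94) (PT.lf (nat_lit 11676) (nat_lit 3) (nat_lit 139) (nat_lit 0) (nat_lit 54) (nat_lit 54) (nat_lit 36)) (PT.lf (nat_lit 10584) (nat_lit 6) (nat_lit 126) (nat_lit 0) (nat_lit 55) (nat_lit 54) (nat_lit 35)))))) (PT.nd (nat_lit 470) (PT.nd (nat_lit 188) (PT.nd (nat_lit 94) (PT.lf (nat_lit 9408) (nat_lit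 6) (nat_lit 112) (nat_lit 0) (nat_lit 56) (nat_lit 54) (nat_lit 34)) (PT.lf (nat_lit 8820) (nat_lit 6) (nat_lit 105) (nat_lit 0) (nat_lit 57) (nat_lit 54) (nat_lit 33))) (PT.nd (nat_lit 94) (PT.lf (nat_lit 8148) (nat_lit 6) (nat_lit 97) (nat_lit 0) (nat_lit 58) (nat_lit 54) (nat_lit 32)) (PT.nd (nat_lit 94) (PT.lf (nat_lit 7560) (nat_lit 6) (nat_lit 90) (nat_lit 0) (nat_lit 59) (nat_lit 54) (nat_lit 31)) (PT.lf (nat_lit 6972) (nat_lit 6) (nat_lit 83) (nat_lit 0) (nat_lit 60) (nat_lit 54) (nat_lit 30))))) (PT.nd (nat_lit 188) (PT.nd (nat_lit 94) (PT.lf (nat_lit 6468) (nat_lit 6) (nat_lit 77) (nat_lit 0) (nat_lit 61) (nat_lit 54) (nat_lit 29)) (PT.lf (nat_lit 5964) (nat_lit 6) (nat_lit 71) (nat_lit 0) (nat_lit 62) (nat_lit 54) (nat_lit 28))) (PT.nd (nat_lit 50760) (PT.lf (nat_lit 5460) (nat_lit 6) (nat_lit 65) (nat_lit 0) (nat_lit 63) (nat_lit 54) (nat_lit 27)) (PT.nd (nat_lit 94) (PT.lf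 (nat_lit 5040) (nat_lit 6) (nat_lit 60) (nat_lit 5) (nat_lit 26) (nat_lit 55) (nat_lit 63)) (PT.lf (nat_lit 5544) (nat_lit 6) (nat_lit 66) (nat_lit 5) (nat_lit 27) (nat_lit 55) (nat_lit 62))))))))
noncomputable def pc19 : PT := (PT.nd (nat_lit 1692) (PT.nd (nat_lit 846) (PT.nd (nat_lit 376) (PT.nd (nat_lit 188) (PT.nd (nat_lit 94) (PT.lf (nat_lit 6048) (nat_lit 6) (nat_lit 72) (nat_lit 5) (nat_lit 28) (nat_lit 55) (nat_lit 61)) (PT.lf (nat_lit 6552) (nat_lit 6) (nat_lit 78) (nat_lit 5) (nat_lit 29) (nat_lit 55) (nat_lit 60))) (PT.nd (nat_lit 94) (PT.lf (nat_lit 7056) (nat_lit 6) (nat_lit 84) (nat_lit 5) (nat_lit 30) (nat_lit 55) (nat_lit 59)) (PT.lf (nat_lit 7644) (nat_lit 6) (nat_lit 91) (nat_lit 5) (nat_lit 31) (nat_lit 55) (nat_lit 58)))) (PT.nd (nat_lit 188) (PT.nd (nat_lit 94) (PT.lf (nat_lit 8232) (nat_lit 6) (nat_lit 98) (nat_lit 5) (nat_lit 32) (nat_lit 55) (nat_lit 57)) (PT.lf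 (nat_lit 8904) (nat_lit 6) (nat_lit 106) (nat_lit 5) (nat_lit 33) (nat_lit 55) (nat_lit 56))) (PT.nd (nat_lit 94) (PT.lf (nat_lit 9492) (nat_lit 3) (nat_lit 113) (nat_lit 4) (nat_lit 34) (nat_lit 55) (nat_lit 55)) (PT.nd (nat_lit 94) (PT.lf (nat_lit 10584) (nat_lit 6) (nat_lit 126) (nat_lit 4) (nat_lit 35) (nat_lit 55) (nat_lit 54)) (PT.lf (nat_lit 11592) (nat_lit 6) (nat_lit 138) (nat_lit 4) (nat_lit 36) (nat_lit 55) (nat_lit 53)))))) (PT.nd (nat_lit 376) (PT.nd (nat_lit 188) (PT.nd (nat_lit 94) (PT.lf (nat_lit 12516) (nat_lit 6) (nat_lit 149) (nat_lit 4) (nat_lit 37) (nat_lit 55) (nat_lit 52)) (PT.lf (nat_lit 13356) (nat_lit 6) (nat_lit 159) (nat_lit 4) (nat_lit 38) (nat_lit 55) (nat_lit 51))) (PT.nd (nat_lit 94) (PT.lf (nat_lit 14112) (nat_lit 6) (nat_lit 168) (nat_lit 4) (nat_lit 39) (nat_lit 55) (nat_lit 50)) (PT.lf (nat_lit 14784) (nat_lit 6) (nat_lit 176) (nat_lit 4) (nat_lit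 40) (nat_lit 55) (nat_lit 49)))) (PT.nd (nat_lit 188) (PT.nd (nat_lit 94) (PT.lf (nat_lit 15372) (nat_lit 6) (nat_lit 183) (nat_lit 4) (nat_lit 41) (nat_lit 55) (nat_lit 48)) (PT.lf (nat_lit 15288) (nat_lit 6) (nat_lit 182) (nat_lit 4) (nat_lit 42) (nat_lit 55) (nat_lit 47))) (PT.nd (nat_lit 94) (PT.lf (nat_lit 15204) (nat_lit 6) (nat_lit 181) (nat_lit 4) (nat_lit 43) (nat_lit 55) (nat_lit 46)) (PT.nd (nat_lit 94) (PT.lf (nat_lit 15120) (nat_lit 6) (nat_lit 180) (nat_lit 4) (nat_lit 44) (nat_lit 55) (nat_lit 45)) (PT.lf (nat_lit 15120) (nat_lit 6) (nat_lit 180) (nat_lit 2) (nat_lit 45) (nat_lit 55) (nat_lit 44))))))) (PT.nd (nat_lit 846) (PT.nd (nat_lit 376) (PT.nd (nat_lit 188) (PT.nd (nat_lit 94) (PT.lf (nat_lit 15204) (nat_lit 6) (nat_lit 181) (nat_lit 2) (nat_lit 46) (nat_lit 55) (nat_lit 43)) (PT.lf (nat_lit 15288) (nat_lit 6) (nat_lit 182) (nat_lit 2) (nat_lit 47) (nat_lit 55)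 (nat_lit 42))) (PT.nd (nat_lit 94) (PT.lf (nat_lit 15372) (nat_lit 6) (nat_lit 183) (nat_lit 2) (nat_lit 48) (nat_lit 55) (nat_lit 41)) (PT.lf (nat_lit 14784) (nat_lit 6) (nat_lit 176) (nat_lit 2) (nat_lit 49) (nat_lit 55) (nat_lit 40)))) (PT.nd (nat_lit 188) (PT.nd (nat_lit 94) (PT.lf (nat_lit 14112) (nat_lit 6) (nat_lit 168) (nat_lit 2) (nat_lit 50) (nat_lit 55) (nat_lit 39)) (PT.lf (nat_lit 13356) (nat_lit 6) (nat_lit 159) (nat_lit 2) (nat_lit 51) (nat_lit 55) (nat_lit 38))) (PT.nd (nat_lit 94) (PT.lf (nat_lit 12516) (nat_lit 6) (nat_lit 149) (nat_lit 2) (nat_lit 52) (nat_lit 55) (nat_lit 37)) (PT.nd (nat_lit 94) (PT.lf (nat_lit 11592) (nat_lit 6) (nat_lit 138) (nat_lit 2) (nat_lit 53) (nat_lit 55) (nat_lit 36)) (PT.lf (nat_lit 10584) (nat_lit 6) (nat_lit 126) (nat_lit 2) (nat_lit 54) (nat_lit 55) (nat_lit 35)))))) (PT.nd (nat_lit 470) (PT.nd (nat_lit 188) (PT.nd (nat_lit 94) (PT.lf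 (nat_lit 9492) (nat_lit 3) (nat_lit 113) (nat_lit 0) (nat_lit 55) (nat_lit 55) (nat_lit 34)) (PT.lf (nat_lit 8904) (nat_lit 6) (nat_lit 106) (nat_lit 0) (nat_lit 56) (nat_lit 55) (nat_lit 33))) (PT.nd (nat_lit 94) (PT.lf (nat_lit 8232) (nat_lit 6) (nat_lit 98) (nat_lit 0) (nat_lit 57) (nat_lit 55) (nat_lit 32)) (PT.nd (nat_lit 94) (PT.lf (nat_lit 7644) (nat_lit 6) (nat_lit 91) (nat_lit 0) (nat_lit 58) (nat_lit 55) (nat_lit 31)) (PT.lf (nat_lit 7056) (nat_lit 6) (nat_lit 84) (nat_lit 0) (nat_lit 59) (nat_lit 55) (nat_lit 30))))) (PT.nd (nat_lit 188) (PT.nd (nat_lit 94) (PT.lf (nat_lit 6552) (nat_lit 6) (nat_lit 78) (nat_lit 0) (nat_lit 60) (nat_lit 55) (nat_lit 29)) (PT.lf (nat_lit 6048) (nat_lit 6) (nat_lit 72) (nat_lit 0) (nat_lit 61) (nat_lit 55) (nat_lit 28))) (PT.nd (nat_lit 94) (PT.lf (nat_lit 5544) (nat_lit 6) (nat_lit 66) (nat_lit 0) (nat_lit 62) (nat_lit 55) (nat_lit 27)) (PT.nd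 (nat_lit 50572) (PT.lf (nat_lit 5040) (nat_lit 6) (nat_lit 60) (nat_lit 0) (nat_lit 63) (nat_lit 55) (nat_lit 26)) (PT.lf (nat_lit 4284) (nat_lit 6) (nat_lit 51) (nat_lit 5) (nat_lit 24) (nat_lit 56) (nat_lit 64))))))))
noncomputable def pc20 : PT := (PT.nd (nat_lit 1692) (PT.nd (nat_lit 846) (PT.nd (nat_lit 376) (PT.nd (nat_lit 188) (PT.nd (nat_lit 94) (PT.lf (nat_lit 4704) (nat_lit 6) (nat_lit 56) (nat_lit 5) (nat_lit 25) (nat_lit 56) (nat_lit 63)) (PT.lf (nat_lit 5124) (nat_lit 6) (nat_lit 61) (nat_lit 5) (nat_lit 26) (nat_lit 56) (nat_lit 62))) (PT.nd (nat_lit 94) (PT.lf (nat_lit 5628) (nat_lit 6) (nat_lit 67) (nat_lit 5) (nat_lit 27) (nat_lit 56) (nat_lit 61)) (PT.lf (nat_lit 6132) (nat_lit 6) (nat_lit 73) (nat_lit 5) (nat_lit 28) (nat_lit 56) (nat_lit 60)))) (PT.nd (nat_lit 188) (PT.nd (nat_lit 94) (PT.lf (nat_lit 6636) (nat_lit 6) (nat_lit 79) (nat_lit 5) (nat_lit 29) (nat_lit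 56) (nat_lit 59)) (PT.lf (nat_lit 7140) (nat_lit 6) (nat_lit 85) (nat_lit 5) (nat_lit 30) (nat_lit 56) (nat_lit 58))) (PT.nd (nat_lit 94) (PT.lf (nat_lit 7728) (nat_lit 6) (nat_lit 92) (nat_lit 5) (nat_lit 31) (nat_lit 56) (nat_lit 57)) (PT.nd (nat_lit 94) (PT.lf (nat_lit 8316) (nat_lit 3) (nat_lit 99) (nat_lit 4) (nat_lit 32) (nat_lit 56) (nat_lit 56)) (PT.lf (nat_lit 8904) (nat_lit 6) (nat_lit 106) (nat_lit 4) (nat_lit 33) (nat_lit 56) (nat_lit 55)))))) (PT.nd (nat_lit 376) (PT.nd (nat_lit 188) (PT.nd (nat_lit 94) (PT.lf (nat_lit 9408) (nat_lit 6) (nat_lit 112) (nat_lit 4) (nat_lit 34) (nat_lit 56) (nat_lit 54)) (PT.lf (nat_lit 10500) (nat_lit 6) (nat_lit 125) (nat_lit 4) (nat_lit 35) (nat_lit 56) (nat_lit 53))) (PT.nd (nat_lit 94) (PT.lf (nat_lit 11508) (nat_lit 6) (nat_lit 137) (nat_lit 4) (nat_lit 36) (nat_lit 56) (nat_lit 52)) (PT.lf (nat_lit 12432) (nat_lit 6) (nat_lit 148) (nat_lit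 4) (nat_lit 37) (nat_lit 56) (nat_lit 51)))) (PT.nd (nat_lit 188) (PT.nd (nat_lit 94) (PT.lf (nat_lit 13272) (nat_lit 6) (nat_lit 158) (nat_lit 4) (nat_lit 38) (nat_lit 56) (nat_lit 50)) (PT.lf (nat_lit 14028) (nat_lit 6) (nat_lit 167) (nat_lit 4) (nat_lit 39) (nat_lit 56) (nat_lit 49))) (PT.nd (nat_lit 94) (PT.lf (nat_lit 14700) (nat_lit 6) (nat_lit 175) (nat_lit 4) (nat_lit 40) (nat_lit 56) (nat_lit 48)) (PT.nd (nat_lit 94) (PT.lf (nat_lit 14616) (nat_lit 6) (nat_lit 174) (nat_lit 4) (nat_lit 41) (nat_lit 56) (nat_lit 47)) (PT.lf (nat_lit 14532) (nat_lit 6) (nat_lit 173) (nat_lit 4) (nat_lit 42) (nat_lit 56) (nat_lit 46))))))) (PT.nd (nat_lit 846) (PT.nd (nat_lit 376) (PT.nd (nat_lit 188) (PT.nd (nat_lit 94) (PT.lf (nat_lit 14448) (nat_lit 6) (nat_lit 172) (nat_lit 4) (nat_lit 43) (nat_lit 56) (nat_lit 45)) (PT.lf (nat_lit 14364) (nat_lit 3) (nat_lit 171) (nat_lit 2) (nat_lit 44) (nat_lit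 56) (nat_lit 44))) (PT.nd (nat_lit 94) (PT.lf (nat_lit 14448) (nat_lit 6) (nat_lit 172) (nat_lit 2) (nat_lit 45) (nat_lit 56) (nat_lit 43)) (PT.lf (nat_lit 14532) (nat_lit 6) (nat_lit 173) (nat_lit 2) (nat_lit 46) (nat_lit 56) (nat_lit 42)))) (PT.nd (nat_lit 188) (PT.nd (nat_lit 94) (PT.lf (nat_lit 14616) (nat_lit 6) (nat_lit 174) (nat_lit 2) (nat_lit 47) (nat_lit 56) (nat_lit 41)) (PT.lf (nat_lit 14700) (nat_lit 6) (nat_lit 175) (nat_lit 2) (nat_lit 48) (nat_lit 56) (nat_lit 40))) (PT.nd (nat_lit 94) (PT.lf (nat_lit 14028) (nat_lit 6) (nat_lit 167) (nat_lit 2) (nat_lit 49) (nat_lit 56) (nat_lit 39)) (PT.nd (nat_lit 94) (PT.lf (nat_lit 13272) (nat_lit 6) (nat_lit 158) (nat_lit 2) (nat_lit 50) (nat_lit 56) (nat_lit 38)) (PT.lf (nat_lit 12432) (nat_lit 6) (nat_lit 148) (nat_lit 2) (nat_lit 51) (nat_lit 56) (nat_lit 37)))))) (PT.nd (nat_lit 376) (PT.nd (nat_lit 188) (PT.nd (nat_lit 94)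 (PT.lf (nat_lit 11508) (nat_lit 6) (nat_lit 137) (nat_lit 2) (nat_lit 52) (nat_lit 56) (nat_lit 36)) (PT.lf (nat_lit 10500) (nat_lit 6) (nat_lit 125) (nat_lit 2) (nat_lit 53) (nat_lit 56) (nat_lit 35))) (PT.nd (nat_lit 94) (PT.lf (nat_lit 9408) (nat_lit 6) (nat_lit 112) (nat_lit 2) (nat_lit 54) (nat_lit 56) (nat_lit 34)) (PT.lf (nat_lit 8904) (nat_lit 6) (nat_lit 106) (nat_lit 2) (nat_lit 55) (nat_lit 56) (nat_lit 33)))) (PT.nd (nat_lit 188) (PT.nd (nat_lit 94) (PT.lf (nat_lit 8316) (nat_lit 3) (nat_lit 99) (nat_lit 0) (nat_lit 56) (nat_lit 56) (nat_lit 32)) (PT.lf (nat_lit 7728) (nat_lit 6) (nat_lit 92) (nat_lit 0) (nat_lit 57) (nat_lit 56) (nat_lit 31))) (PT.nd (nat_lit 94) (PT.lf (nat_lit 7140) (nat_lit 6) (nat_lit 85) (nat_lit 0) (nat_lit 58) (nat_lit 56) (nat_lit 30)) (PT.nd (nat_lit 94) (PT.lf (nat_lit 6636) (nat_lit 6) (nat_lit 79) (nat_lit 0) (nat_lit 59) (nat_lit 56) (nat_lit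 29)) (PT.lf (nat_lit 6132) (nat_lit 6) (nat_lit 73) (nat_lit 0) (nat_lit 60) (nat_lit 56) (nat_lit 28))))))))
noncomputable def pc21 : PT := (PT.nd (nat_lit 51982) (PT.nd (nat_lit 51136) (PT.nd (nat_lit 50666) (PT.nd (nat_lit 188) (PT.nd (nat_lit 94) (PT.lf (nat_lit 5628) (nat_lit 6) (nat_lit 67) (nat_lit 0) (nat_lit 61) (nat_lit 56) (nat_lit 27)) (PT.lf (nat_lit 5124) (nat_lit 6) (nat_lit 61) (nat_lit 0) (nat_lit 62) (nat_lit 56) (nat_lit 26))) (PT.nd (nat_lit 94) (PT.lf (nat_lit 4704) (nat_lit 6) (nat_lit 56) (nat_lit 0) (nat_lit 63) (nat_lit 56) (nat_lit 25)) (PT.lf (nat_lit 4284) (nat_lit 6) (nat_lit 51) (nat_lit 0) (nat_lit 64) (nat_lit 56) (nat_lit 24)))) (PT.nd (nat_lit 188) (PT.nd (nat_lit 94) (PT.lf (nat_lit 3948) (nat_lit 6) (nat_lit 47) (nat_lit 5) (nat_lit 23) (nat_lit 57) (nat_lit 64)) (PT.lf (nat_lit 4368) (nat_lit 6) (nat_lit 52) (nat_lit 5) (nat_lit 24) (nat_lit 57) (nat_lit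 63))) (PT.nd (nat_lit 94) (PT.lf (nat_lit 4788) (nat_lit 6) (nat_lit 57) (nat_lit 5) (nat_lit 25) (nat_lit 57) (nat_lit 62)) (PT.nd (nat_lit 94) (PT.lf (nat_lit 5208) (nat_lit 6) (nat_lit 62) (nat_lit 5) (nat_lit 26) (nat_lit 57) (nat_lit 61)) (PT.lf (nat_lit 5712) (nat_lit 6) (nat_lit 68) (nat_lit 5) (nat_lit 27) (nat_lit 57) (nat_lit 60)))))) (PT.nd (nat_lit 376) (PT.nd (nat_lit 188) (PT.nd (nat_lit 94) (PT.lf (nat_lit 6216) (nat_lit 6) (nat_lit 74) (nat_lit 5) (nat_lit 28) (nat_lit 57) (nat_lit 59)) (PT.lf (nat_lit 6720) (nat_lit 6) (nat_lit 80) (nat_lit 5) (nat_lit 29) (nat_lit 57) (nat_lit 58))) (PT.nd (nat_lit 94) (PT.lf (nat_lit 7224) (nat_lit 3) (nat_lit 86) (nat_lit 4) (nat_lit 30) (nat_lit 57) (nat_lit 57)) (PT.lf (nat_lit 7728) (nat_lit 6) (nat_lit 92) (nat_lit 4) (nat_lit 31) (nat_lit 57) (nat_lit 56)))) (PT.nd (nat_lit 188) (PT.nd (nat_lit 94) (PT.lf (nat_lit 8232) (nat_lit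 6) (nat_lit 98) (nat_lit 4) (nat_lit 32) (nat_lit 57) (nat_lit 55)) (PT.lf (nat_lit 8820) (nat_lit 6) (nat_lit 105) (nat_lit 4) (nat_lit 33) (nat_lit 57) (nat_lit 54))) (PT.nd (nat_lit 94) (PT.lf (nat_lit 9324) (nat_lit 6) (nat_lit 111) (nat_lit 4) (nat_lit 34) (nat_lit 57) (nat_lit 53)) (PT.nd (nat_lit 94) (PT.lf (nat_lit 10416) (nat_lit 6) (nat_lit 124) (nat_lit 4) (nat_lit 35) (nat_lit 57) (nat_lit 52)) (PT.lf (nat_lit 11424) (nat_lit 6) (nat_lit 136) (nat_lit 4) (nat_lit 36) (nat_lit 57) (nat_lit 51))))))) (PT.nd (nat_lit 846) (PT.nd (nat_lit 376) (PT.nd (nat_lit 188) (PT.nd (nat_lit 94) (PT.lf (nat_lit 12348) (nat_lit 6) (nat_lit 147) (nat_lit 4) (nat_lit 37) (nat_lit 57) (nat_lit 50)) (PT.lf (nat_lit 13188) (nat_lit 6) (nat_lit 157) (nat_lit 4) (nat_lit 38) (nat_lit 57) (nat_lit 49))) (PT.nd (nat_lit 94) (PT.lf (nat_lit 13944) (nat_lit 6) (nat_lit 166) (nat_lit 4) (nat_lit 39)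 (nat_lit 57) (nat_lit 48)) (PT.lf (nat_lit 13860) (nat_lit 6) (nat_lit 165) (nat_lit 4) (nat_lit 40) (nat_lit 57) (nat_lit 47)))) (PT.nd (nat_lit 188) (PT.nd (nat_lit 94) (PT.lf (nat_lit 13776) (nat_lit 6) (nat_lit 164) (nat_lit 4) (nat_lit 41) (nat_lit 57) (nat_lit 46)) (PT.lf (nat_lit 13692) (nat_lit 6) (nat_lit 163) (nat_lit 4) (nat_lit 42) (nat_lit 57) (nat_lit 45))) (PT.nd (nat_lit 94) (PT.lf (nat_lit 13608) (nat_lit 6) (nat_lit 162) (nat_lit 4) (nat_lit 43) (nat_lit 57) (nat_lit 44)) (PT.nd (nat_lit 94) (PT.lf (nat_lit 13608) (nat_lit 6) (nat_lit 162) (nat_lit 2) (nat_lit 44) (nat_lit 57) (nat_lit 43)) (PT.lf (nat_lit 13692) (nat_lit 6) (nat_lit 163) (nat_lit 2) (nat_lit 45) (nat_lit 57) (nat_lit 42)))))) (PT.nd (nat_lit 470) (PT.nd (nat_lit 188) (PT.nd (nat_lit 94) (PT.lf (nat_lit 13776) (nat_lit 6) (nat_lit 164) (nat_lit 2) (nat_lit 46) (nat_lit 57) (nat_lit 41)) (PT.lf (nat_lit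 13860) (nat_lit 6) (nat_lit 165) (nat_lit 2) (nat_lit 47) (nat_lit 57) (nat_lit 40))) (PT.nd (nat_lit 94) (PT.lf (nat_lit 13944) (nat_lit 6) (nat_lit 166) (nat_lit 2) (nat_lit 48) (nat_lit 57) (nat_lit 39)) (PT.nd (nat_lit 94) (PT.lf (nat_lit 13188) (nat_lit 6) (nat_lit 157) (nat_lit 2) (nat_lit 49) (nat_lit 57) (nat_lit 38)) (PT.lf (nat_lit 12348) (nat_lit 6) (nat_lit 147) (nat_lit 2) (nat_lit 50) (nat_lit 57) (nat_lit 37))))) (PT.nd (nat_lit 188) (PT.nd (nat_lit 94) (PT.lf (nat_lit 11424) (nat_lit 6) (nat_lit 136) (nat_lit 2) (nat_lit 51) (nat_lit 57) (nat_lit 36)) (PT.lf (nat_lit 10416) (nat_lit 6) (nat_lit 124) (nat_lit 2) (nat_lit 52) (nat_lit 57) (nat_lit 35))) (PT.nd (nat_lit 94) (PT.lf (nat_lit 9324) (nat_lit 6) (nat_lit 111) (nat_lit 2) (nat_lit 53) (nat_lit 57) (nat_lit 34)) (PT.nd (nat_lit 94) (PT.lf (nat_lit 8820) (nat_lit 6) (nat_lit 105) (nat_lit 2) (nat_lit 54) (nat_lit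 57) (nat_lit 33)) (PT.lf (nat_lit 8232) (nat_lit 6) (nat_lit 98) (nat_lit 2) (nat_lit 55) (nat_lit 57) (nat_lit 32))))))))
noncomputable def pc22 : PT := (PT.nd (nat_lit 51888) (PT.nd (nat_lit 51042) (PT.nd (nat_lit 376) (PT.nd (nat_lit 188) (PT.nd (nat_lit 94) (PT.lf (nat_lit 7728) (nat_lit 6) (nat_lit 92) (nat_lit 2) (nat_lit 56) (nat_lit 57) (nat_lit 31)) (PT.lf (nat_lit 7224) (nat_lit 3) (nat_lit 86) (nat_lit 0) (nat_lit 57) (nat_lit 57) (nat_lit 30))) (PT.nd (nat_lit 94) (PT.lf (nat_lit 6720) (nat_lit 6) (nat_lit 80) (nat_lit 0) (nat_lit 58) (nat_lit 57) (nat_lit 29)) (PT.lf (nat_lit 6216) (nat_lit 6) (nat_lit 74) (nat_lit 0) (nat_lit 59) (nat_lit 57) (nat_lit 28)))) (PT.nd (nat_lit 188) (PT.nd (nat_lit 94) (PT.lf (nat_lit 5712) (nat_lit 6) (nat_lit 68) (nat_lit 0) (nat_lit 60) (nat_lit 57) (nat_lit 27)) (PT.lf (nat_lit 5208) (nat_lit 6) (nat_lit 62) (nat_lit 0) (nat_lit 61) (nat_lit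 57) (nat_lit 26))) (PT.nd (nat_lit 94) (PT.lf (nat_lit 4788) (nat_lit 6) (nat_lit 57) (nat_lit 0) (nat_lit 62) (nat_lit 57) (nat_lit 25)) (PT.nd (nat_lit 94) (PT.lf (nat_lit 4368) (nat_lit 6) (nat_lit 52) (nat_lit 0) (nat_lit 63) (nat_lit 57) (nat_lit 24)) (PT.lf (nat_lit 3948) (nat_lit 6) (nat_lit 47) (nat_lit 0) (nat_lit 64) (nat_lit 57) (nat_lit 23)))))) (PT.nd (nat_lit 376) (PT.nd (nat_lit 188) (PT.nd (nat_lit 94) (PT.lf (nat_lit 3612) (nat_lit 6) (nat_lit 43) (nat_lit 5) (nat_lit 22) (nat_lit 58) (nat_lit 64)) (PT.lf (nat_lit 4032) (nat_lit 6) (nat_lit 48) (nat_lit 5) (nat_lit 23) (nat_lit 58) (nat_lit 63))) (PT.nd (nat_lit 94) (PT.lf (nat_lit 4452) (nat_lit 6) (nat_lit 53) (nat_lit 5) (nat_lit 24) (nat_lit 58) (nat_lit 62)) (PT.lf (nat_lit 4872) (nat_lit 6) (nat_lit 58) (nat_lit 5) (nat_lit 25) (nat_lit 58) (nat_lit 61)))) (PT.nd (nat_lit 188) (PT.nd (nat_lit 94) (PT.lf (nat_lit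 5292) (nat_lit 6) (nat_lit 63) (nat_lit 5) (nat_lit 26) (nat_lit 58) (nat_lit 60)) (PT.lf (nat_lit 5796) (nat_lit 6) (nat_lit 69) (nat_lit 5) (nat_lit 27) (nat_lit 58) (nat_lit 59))) (PT.nd (nat_lit 94) (PT.lf (nat_lit 6300) (nat_lit 3) (nat_lit 75) (nat_lit 4) (nat_lit 28) (nat_lit 58) (nat_lit 58)) (PT.nd (nat_lit 94) (PT.lf (nat_lit 6720) (nat_lit 6) (nat_lit 80) (nat_lit 4) (nat_lit 29) (nat_lit 58) (nat_lit 57)) (PT.lf (nat_lit 7140) (nat_lit 6) (nat_lit 85) (nat_lit 4) (nat_lit 30) (nat_lit 58) (nat_lit 56))))))) (PT.nd (nat_lit 846) (PT.nd (nat_lit 376) (PT.nd (nat_lit 188) (PT.nd (nat_lit 94) (PT.lf (nat_lit 7644) (nat_lit 6) (nat_lit 91) (nat_lit 4) (nat_lit 31) (nat_lit 58) (nat_lit 55)) (PT.lf (nat_lit 8148) (nat_lit 6) (nat_lit 97) (nat_lit 4) (nat_lit 32) (nat_lit 58) (nat_lit 54))) (PT.nd (nat_lit 94) (PT.lf (nat_lit 8736) (nat_lit 6) (nat_lit 104) (nat_lit 4) (nat_lit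 33) (nat_lit 58) (nat_lit 53)) (PT.lf (nat_lit 9240) (nat_lit 6) (nat_lit 110) (nat_lit 4) (nat_lit 34) (nat_lit 58) (nat_lit 52)))) (PT.nd (nat_lit 188) (PT.nd (nat_lit 94) (PT.lf (nat_lit 10332) (nat_lit 6) (nat_lit 123) (nat_lit 4) (nat_lit 35) (nat_lit 58) (nat_lit 51)) (PT.lf (nat_lit 11340) (nat_lit 6) (nat_lit 135) (nat_lit 4) (nat_lit 36) (nat_lit 58) (nat_lit 50))) (PT.nd (nat_lit 94) (PT.lf (nat_lit 12264) (nat_lit 6) (nat_lit 146) (nat_lit 4) (nat_lit 37) (nat_lit 58) (nat_lit 49)) (PT.nd (nat_lit 94) (PT.lf (nat_lit 13104) (nat_lit 6) (nat_lit 156) (nat_lit 4) (nat_lit 38) (nat_lit 58) (nat_lit 48)) (PT.lf (nat_lit 13020) (nat_lit 6) (nat_lit 155) (nat_lit 4) (nat_lit 39) (nat_lit 58) (nat_lit 47)))))) (PT.nd (nat_lit 470) (PT.nd (nat_lit 188) (PT.nd (nat_lit 94) (PT.lf (nat_lit 12936) (nat_lit 6) (nat_lit 154) (nat_lit 4) (nat_lit 40) (nat_lit 58) (nat_lit 46)) (PT.lf (nat_lit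 12852) (nat_lit 6) (nat_lit 153) (nat_lit 4) (nat_lit 41) (nat_lit 58) (nat_lit 45))) (PT.nd (nat_lit 94) (PT.lf (nat_lit 12768) (nat_lit 6) (nat_lit 152) (nat_lit 4) (nat_lit 42) (nat_lit 58) (nat_lit 44)) (PT.nd (nat_lit 94) (PT.lf (nat_lit 12684) (nat_lit 3) (nat_lit 151) (nat_lit 2) (nat_lit 43) (nat_lit 58) (nat_lit 43)) (PT.lf (nat_lit 12768) (nat_lit 6) (nat_lit 152) (nat_lit 2) (nat_lit 44) (nat_lit 58) (nat_lit 42))))) (PT.nd (nat_lit 188) (PT.nd (nat_lit 94) (PT.lf (nat_lit 12852) (nat_lit 6) (nat_lit 153) (nat_lit 2) (nat_lit 45) (nat_lit 58) (nat_lit 41)) (PT.lf (nat_lit 12936) (nat_lit 6) (nat_lit 154) (nat_lit 2) (nat_lit 46) (nat_lit 58) (nat_lit 40))) (PT.nd (nat_lit 94) (PT.lf (nat_lit 13020) (nat_lit 6) (nat_lit 155) (nat_lit 2) (nat_lit 47) (nat_lit 58) (nat_lit 39)) (PT.nd (nat_lit 94) (PT.lf (nat_lit 13104) (nat_lit 6) (nat_lit 156) (nat_lit 2) (nat_lit 48) (nat_lit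 58) (nat_lit 38)) (PT.lf (nat_lit 12264) (nat_lit 6) (nat_lit 146) (nat_lit 2) (nat_lit 49) (nat_lit 58) (nat_lit 37))))))))
noncomputable def pc23 : PT := (PT.nd (nat_lit 51700) (PT.nd (nat_lit 846) (PT.nd (nat_lit 376) (PT.nd (nat_lit 188) (PT.nd (nat_lit 94) (PT.lf (nat_lit 11340) (nat_lit 6) (nat_lit 135) (nat_lit 2) (nat_lit 50) (nat_lit 58) (nat_lit 36)) (PT.lf (nat_lit 10332) (nat_lit 6) (nat_lit 123) (nat_lit 2) (nat_lit 51) (nat_lit 58) (nat_lit 35))) (PT.nd (nat_lit 94) (PT.lf (nat_lit 9240) (nat_lit 6) (nat_lit 110) (nat_lit 2) (nat_lit 52) (nat_lit 58) (nat_lit 34)) (PT.lf (nat_lit 8736) (nat_lit 6) (nat_lit 104) (nat_lit 2) (nat_lit 53) (nat_lit 58) (nat_lit 33)))) (PT.nd (nat_lit 188) (PT.nd (nat_lit 94) (PT.lf (nat_lit 8148) (nat_lit 6) (nat_lit 97) (nat_lit 2) (nat_lit 54) (nat_lit 58) (nat_lit 32)) (PT.lf (nat_lit 7644) (nat_lit 6) (nat_lit 91) (nat_lit 2) (nat_lit 55)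 (nat_lit 58) (nat_lit 31))) (PT.nd (nat_lit 94) (PT.lf (nat_lit 7140) (nat_lit 6) (nat_lit 85) (nat_lit 2) (nat_lit 56) (nat_lit 58) (nat_lit 30)) (PT.nd (nat_lit 94) (PT.lf (nat_lit 6720) (nat_lit 6) (nat_lit 80) (nat_lit 2) (nat_lit 57) (nat_lit 58) (nat_lit 29)) (PT.lf (nat_lit 6300) (nat_lit 3) (nat_lit 75) (nat_lit 0) (nat_lit 58) (nat_lit 58) (nat_lit 28)))))) (PT.nd (nat_lit 376) (PT.nd (nat_lit 188) (PT.nd (nat_lit 94) (PT.lf (nat_lit 5796) (nat_lit 6) (nat_lit 69) (nat_lit 0) (nat_lit 59) (nat_lit 58) (nat_lit 27)) (PT.lf (nat_lit 5292) (nat_lit 6) (nat_lit 63) (nat_lit 0) (nat_lit 60) (nat_lit 58) (nat_lit 26))) (PT.nd (nat_lit 94) (PT.lf (nat_lit 4872) (nat_lit 6) (nat_lit 58) (nat_lit 0) (nat_lit 61) (nat_lit 58) (nat_lit 25)) (PT.lf (nat_lit 4452) (nat_lit 6) (nat_lit 53) (nat_lit 0) (nat_lit 62) (nat_lit 58) (nat_lit 24)))) (PT.nd (nat_lit 50196) (PT.nd (nat_lit 94) (PT.lf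 (nat_lit 4032) (nat_lit 6) (nat_lit 48) (nat_lit 0) (nat_lit 63) (nat_lit 58) (nat_lit 23)) (PT.lf (nat_lit 3612) (nat_lit 6) (nat_lit 43) (nat_lit 0) (nat_lit 64) (nat_lit 58) (nat_lit 22))) (PT.nd (nat_lit 94) (PT.lf (nat_lit 3024) (nat_lit 6) (nat_lit 36) (nat_lit 5) (nat_lit 20) (nat_lit 59) (nat_lit 65)) (PT.nd (nat_lit 94) (PT.lf (nat_lit 3360) (nat_lit 6) (nat_lit 40) (nat_lit 5) (nat_lit 21) (nat_lit 59) (nat_lit 64)) (PT.lf (nat_lit 3696) (nat_lit 6) (nat_lit 44) (nat_lit 5) (nat_lit 22) (nat_lit 59) (nat_lit 63))))))) (PT.nd (nat_lit 846) (PT.nd (nat_lit 376) (PT.nd (nat_lit 188) (PT.nd (nat_lit 94) (PT.lf (nat_lit 4116) (nat_lit 6) (nat_lit 49) (nat_lit 5) (nat_lit 23) (nat_lit 59) (nat_lit 62)) (PT.lf (nat_lit 4536) (nat_lit 6) (nat_lit 54) (nat_lit 5) (nat_lit 24) (nat_lit 59) (nat_lit 61))) (PT.nd (nat_lit 94) (PT.lf (nat_lit 4956) (nat_lit 6) (nat_lit 59) (nat_lit 5) (nat_lit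 25) (nat_lit 59) (nat_lit 60)) (PT.lf (nat_lit 5376) (nat_lit 3) (nat_lit 64) (nat_lit 4) (nat_lit 26) (nat_lit 59) (nat_lit 59)))) (PT.nd (nat_lit 188) (PT.nd (nat_lit 94) (PT.lf (nat_lit 5796) (nat_lit 6) (nat_lit 69) (nat_lit 4) (nat_lit 27) (nat_lit 59) (nat_lit 58)) (PT.lf (nat_lit 6216) (nat_lit 6) (nat_lit 74) (nat_lit 4) (nat_lit 28) (nat_lit 59) (nat_lit 57))) (PT.nd (nat_lit 94) (PT.lf (nat_lit 6636) (nat_lit 6) (nat_lit 79) (nat_lit 4) (nat_lit 29) (nat_lit 59) (nat_lit 56)) (PT.nd (nat_lit 94) (PT.lf (nat_lit 7056) (nat_lit 6) (nat_lit 84) (nat_lit 4) (nat_lit 30) (nat_lit 59) (nat_lit 55)) (PT.lf (nat_lit 7560) (nat_lit 6) (nat_lit 90) (nat_lit 4) (nat_lit 31) (nat_lit 59) (nat_lit 54)))))) (PT.nd (nat_lit 470) (PT.nd (nat_lit 188) (PT.nd (nat_lit 94) (PT.lf (nat_lit 8064) (nat_lit 6) (nat_lit 96) (nat_lit 4) (nat_lit 32) (nat_lit 59) (nat_lit 53)) (PT.lf (nat_lit 8652)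 (nat_lit 6) (nat_lit 103) (nat_lit 4) (nat_lit 33) (nat_lit 59) (nat_lit 52))) (PT.nd (nat_lit 94) (PT.lf (nat_lit 9156) (nat_lit 6) (nat_lit 109) (nat_lit 4) (nat_lit 34) (nat_lit 59) (nat_lit 51)) (PT.nd (nat_lit 94) (PT.lf (nat_lit 10248) (nat_lit 6) (nat_lit 122) (nat_lit 4) (nat_lit 35) (nat_lit 59) (nat_lit 50)) (PT.lf (nat_lit 11256) (nat_lit 6) (nat_lit 134) (nat_lit 4) (nat_lit 36) (nat_lit 59) (nat_lit 49))))) (PT.nd (nat_lit 188) (PT.nd (nat_lit 94) (PT.lf (nat_lit 12180) (nat_lit 6) (nat_lit 145) (nat_lit 4) (nat_lit 37) (nat_lit 59) (nat_lit 48)) (PT.lf (nat_lit 12096) (nat_lit 6) (nat_lit 144) (nat_lit 4) (nat_lit 38) (nat_lit 59) (nat_lit 47))) (PT.nd (nat_lit 94) (PT.lf (nat_lit 12012) (nat_lit 6) (nat_lit 143) (nat_lit 4) (nat_lit 39) (nat_lit 59) (nat_lit 46)) (PT.nd (nat_lit 94) (PT.lf (nat_lit 11928) (nat_lit 6) (nat_lit 142) (nat_lit 4) (nat_lit 40) (nat_lit 59)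 (nat_lit 45)) (PT.lf (nat_lit 11844) (nat_lit 6) (nat_lit 141) (nat_lit 4) (nat_lit 41) (nat_lit 59) (nat_lit 44))))))))
noncomputable def pc24 : PT := (PT.nd (nat_lit 1692) (PT.nd (nat_lit 846) (PT.nd (nat_lit 376) (PT.nd (nat_lit 188) (PT.nd (nat_lit 94) (PT.lf (nat_lit 11760) (nat_lit 6) (nat_lit 140) (nat_lit 4) (nat_lit 42) (nat_lit 59) (nat_lit 43)) (PT.lf (nat_lit 11760) (nat_lit 6) (nat_lit 140) (nat_lit 2) (nat_lit 43) (nat_lit 59) (nat_lit 42))) (PT.nd (nat_lit 94) (PT.lf (nat_lit 11844) (nat_lit 6) (nat_lit 141) (nat_lit 2) (nat_lit 44) (nat_lit 59) (nat_lit 41)) (PT.lf (nat_lit 11928) (nat_lit 6) (nat_lit 142) (nat_lit 2) (nat_lit 45) (nat_lit 59) (nat_lit 40)))) (PT.nd (nat_lit 188) (PT.nd (nat_lit 94) (PT.lf (nat_lit 12012) (nat_lit 6) (nat_lit 143) (nat_lit 2) (nat_lit 46) (nat_lit 59) (nat_lit 39)) (PT.lf (nat_lit 12096) (nat_lit 6) (nat_lit 144) (nat_lit 2) (nat_lit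 47) (nat_lit 59) (nat_lit 38))) (PT.nd (nat_lit 94) (PT.lf (nat_lit 12180) (nat_lit 6) (nat_lit 145) (nat_lit 2) (nat_lit 48) (nat_lit 59) (nat_lit 37)) (PT.nd (nat_lit 94) (PT.lf (nat_lit 11256) (nat_lit 6) (nat_lit 134) (nat_lit 2) (nat_lit 49) (nat_lit 59) (nat_lit 36)) (PT.lf (nat_lit 10248) (nat_lit 6) (nat_lit 122) (nat_lit 2) (nat_lit 50) (nat_lit 59) (nat_lit 35)))))) (PT.nd (nat_lit 376) (PT.nd (nat_lit 188) (PT.nd (nat_lit 94) (PT.lf (nat_lit 9156) (nat_lit 6) (nat_lit 109) (nat_lit 2) (nat_lit 51) (nat_lit 59) (nat_lit 34)) (PT.lf (nat_lit 8652) (nat_lit 6) (nat_lit 103) (nat_lit 2) (nat_lit 52) (nat_lit 59) (nat_lit 33))) (PT.nd (nat_lit 94) (PT.lf (nat_lit 8064) (nat_lit 6) (nat_lit 96) (nat_lit 2) (nat_lit 53) (nat_lit 59) (nat_lit 32)) (PT.lf (nat_lit 7560) (nat_lit 6) (nat_lit 90) (nat_lit 2) (nat_lit 54) (nat_lit 59) (nat_lit 31)))) (PT.nd (nat_lit 188) (PT.nd (nat_lit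 94) (PT.lf (nat_lit 7056) (nat_lit 6) (nat_lit 84) (nat_lit 2) (nat_lit 55) (nat_lit 59) (nat_lit 30)) (PT.lf (nat_lit 6636) (nat_lit 6) (nat_lit 79) (nat_lit 2) (nat_lit 56) (nat_lit 59) (nat_lit 29))) (PT.nd (nat_lit 94) (PT.lf (nat_lit 6216) (nat_lit 6) (nat_lit 74) (nat_lit 2) (nat_lit 57) (nat_lit 59) (nat_lit 28)) (PT.nd (nat_lit 94) (PT.lf (nat_lit 5796) (nat_lit 6) (nat_lit 69) (nat_lit 2) (nat_lit 58) (nat_lit 59) (nat_lit 27)) (PT.lf (nat_lit 5376) (nat_lit 3) (nat_lit 64) (nat_lit 0) (nat_lit 59) (nat_lit 59) (nat_lit 26))))))) (PT.nd (nat_lit 50666) (PT.nd (nat_lit 376) (PT.nd (nat_lit 188) (PT.nd (nat_lit 94) (PT.lf (nat_lit 4956) (nat_lit 6) (nat_lit 59) (nat_lit 0) (nat_lit 60) (nat_lit 59) (nat_lit 25)) (PT.lf (nat_lit 4536) (nat_lit 6) (nat_lit 54) (nat_lit 0) (nat_lit 61) (nat_lit 59) (nat_lit 24))) (PT.nd (nat_lit 94) (PT.lf (nat_lit 4116) (nat_lit 6) (nat_lit 49)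 (nat_lit 0) (nat_lit 62) (nat_lit 59) (nat_lit 23)) (PT.lf (nat_lit 3696) (nat_lit 6) (nat_lit 44) (nat_lit 0) (nat_lit 63) (nat_lit 59) (nat_lit 22)))) (PT.nd (nat_lit 50008) (PT.nd (nat_lit 94) (PT.lf (nat_lit 3360) (nat_lit 6) (nat_lit 40) (nat_lit 0) (nat_lit 64) (nat_lit 59) (nat_lit 21)) (PT.lf (nat_lit 3024) (nat_lit 6) (nat_lit 36) (nat_lit 0) (nat_lit 65) (nat_lit 59) (nat_lit 20))) (PT.nd (nat_lit 94) (PT.lf (nat_lit 2772) (nat_lit 6) (nat_lit 33) (nat_lit 5) (nat_lit 19) (nat_lit 60) (nat_lit 65)) (PT.nd (nat_lit 94) (PT.lf (nat_lit 3108) (nat_lit 6) (nat_lit 37) (nat_lit 5) (nat_lit 20) (nat_lit 60) (nat_lit 64)) (PT.lf (nat_lit 3444) (nat_lit 6) (nat_lit 41) (nat_lit 5) (nat_lit 21) (nat_lit 60) (nat_lit 63)))))) (PT.nd (nat_lit 376) (PT.nd (nat_lit 188) (PT.nd (nat_lit 94) (PT.lf (nat_lit 3780) (nat_lit 6) (nat_lit 45) (nat_lit 5) (nat_lit 22) (nat_lit 60) (nat_lit 62))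 (PT.lf (nat_lit 4200) (nat_lit 6) (nat_lit 50) (nat_lit 5) (nat_lit 23) (nat_lit 60) (nat_lit 61))) (PT.nd (nat_lit 94) (PT.lf (nat_lit 4620) (nat_lit 3) (nat_lit 55) (nat_lit 4) (nat_lit 24) (nat_lit 60) (nat_lit 60)) (PT.lf (nat_lit 4956) (nat_lit 6) (nat_lit 59) (nat_lit 4) (nat_lit 25) (nat_lit 60) (nat_lit 59)))) (PT.nd (nat_lit 188) (PT.nd (nat_lit 94) (PT.lf (nat_lit 5292) (nat_lit 6) (nat_lit 63) (nat_lit 4) (nat_lit 26) (nat_lit 60) (nat_lit 58)) (PT.lf (nat_lit 5712) (nat_lit 6) (nat_lit 68) (nat_lit 4) (nat_lit 27) (nat_lit 60) (nat_lit 57))) (PT.nd (nat_lit 94) (PT.lf (nat_lit 6132) (nat_lit 6) (nat_lit 73) (nat_lit 4) (nat_lit 28) (nat_lit 60) (nat_lit 56)) (PT.nd (nat_lit 94) (PT.lf (nat_lit 6552) (nat_lit 6) (nat_lit 78) (nat_lit 4) (nat_lit 29) (nat_lit 60) (nat_lit 55)) (PT.lf (nat_lit 6972) (nat_lit 6) (nat_lit 83) (nat_lit 4) (nat_lit 30) (nat_lit 60) (nat_lit 54))))))))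
noncomputable def pc25 : PT := (PT.nd (nat_lit 1692) (PT.nd (nat_lit 846) (PT.nd (nat_lit 376) (PT.nd (nat_lit 188) (PT.nd (nat_lit 94) (PT.lf (nat_lit 7476) (nat_lit 6) (nat_lit 89) (nat_lit 4) (nat_lit 31) (nat_lit 60) (nat_lit 53)) (PT.lf (nat_lit 7980) (nat_lit 6) (nat_lit 95) (nat_lit 4) (nat_lit 32) (nat_lit 60) (nat_lit 52))) (PT.nd (nat_lit 94) (PT.lf (nat_lit 8568) (nat_lit 6) (nat_lit 102) (nat_lit 4) (nat_lit 33) (nat_lit 60) (nat_lit 51)) (PT.lf (nat_lit 9072) (nat_lit 6) (nat_lit 108) (nat_lit 4) (nat_lit 34) (nat_lit 60) (nat_lit 50)))) (PT.nd (nat_lit 188) (PT.nd (nat_lit 94) (PT.lf (nat_lit 10164) (nat_lit 6) (nat_lit 121) (nat_lit 4) (nat_lit 35) (nat_lit 60) (nat_lit 49)) (PT.lf (nat_lit 11172) (nat_lit 6) (nat_lit 133) (nat_lit 4) (nat_lit 36) (nat_lit 60) (nat_lit 48))) (PT.nd (nat_lit 94) (PT.lf (nat_lit 11088) (nat_lit 6) (nat_lit 132) (nat_lit 4) (nat_lit 37) (nat_lit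 60) (nat_lit 47)) (PT.nd (nat_lit 94) (PT.lf (nat_lit 11004) (nat_lit 6) (nat_lit 131) (nat_lit 4) (nat_lit 38) (nat_lit 60) (nat_lit 46)) (PT.lf (nat_lit 10920) (nat_lit 6) (nat_lit 130) (nat_lit 4) (nat_lit 39) (nat_lit 60) (nat_lit 45)))))) (PT.nd (nat_lit 376) (PT.nd (nat_lit 188) (PT.nd (nat_lit 94) (PT.lf (nat_lit 10836) (nat_lit 6) (nat_lit 129) (nat_lit 4) (nat_lit 40) (nat_lit 60) (nat_lit 44)) (PT.lf (nat_lit 10752) (nat_lit 6) (nat_lit 128) (nat_lit 4) (nat_lit 41) (nat_lit 60) (nat_lit 43))) (PT.nd (nat_lit 94) (PT.lf (nat_lit 10668) (nat_lit 3) (nat_lit 127) (nat_lit 2) (nat_lit 42) (nat_lit 60) (nat_lit 42)) (PT.lf (nat_lit 10752) (nat_lit 6) (nat_lit 128) (nat_lit 2) (nat_lit 43) (nat_lit 60) (nat_lit 41)))) (PT.nd (nat_lit 188) (PT.nd (nat_lit 94) (PT.lf (nat_lit 10836) (nat_lit 6) (nat_lit 129) (nat_lit 2) (nat_lit 44) (nat_lit 60) (nat_lit 40)) (PT.lf (nat_lit 10920)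 (nat_lit 6) (nat_lit 130) (nat_lit 2) (nat_lit 45) (nat_lit 60) (nat_lit 39))) (PT.nd (nat_lit 94) (PT.lf (nat_lit 11004) (nat_lit 6) (nat_lit 131) (nat_lit 2) (nat_lit 46) (nat_lit 60) (nat_lit 38)) (PT.nd (nat_lit 94) (PT.lf (nat_lit 11088) (nat_lit 6) (nat_lit 132) (nat_lit 2) (nat_lit 47) (nat_lit 60) (nat_lit 37)) (PT.lf (nat_lit 11172) (nat_lit 6) (nat_lit 133) (nat_lit 2) (nat_lit 48) (nat_lit 60) (nat_lit 36))))))) (PT.nd (nat_lit 846) (PT.nd (nat_lit 376) (PT.nd (nat_lit 188) (PT.nd (nat_lit 94) (PT.lf (nat_lit 10164) (nat_lit 6) (nat_lit 121) (nat_lit 2) (nat_lit 49) (nat_lit 60) (nat_lit 35)) (PT.lf (nat_lit 9072) (nat_lit 6) (nat_lit 108) (nat_lit 2) (nat_lit 50) (nat_lit 60) (nat_lit 34))) (PT.nd (nat_lit 94) (PT.lf (nat_lit 8568) (nat_lit 6) (nat_lit 102) (nat_lit 2) (nat_lit 51) (nat_lit 60) (nat_lit 33)) (PT.lf (nat_lit 7980) (nat_lit 6) (nat_lit 95) (nat_lit 2) (nat_lit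 52) (nat_lit 60) (nat_lit 32)))) (PT.nd (nat_lit 188) (PT.nd (nat_lit 94) (PT.lf (nat_lit 7476) (nat_lit 6) (nat_lit 89) (nat_lit 2) (nat_lit 53) (nat_lit 60) (nat_lit 31)) (PT.lf (nat_lit 6972) (nat_lit 6) (nat_lit 83) (nat_lit 2) (nat_lit 54) (nat_lit 60) (nat_lit 30))) (PT.nd (nat_lit 94) (PT.lf (nat_lit 6552) (nat_lit 6) (nat_lit 78) (nat_lit 2) (nat_lit 55) (nat_lit 60) (nat_lit 29)) (PT.nd (nat_lit 94) (PT.lf (nat_lit 6132) (nat_lit 6) (nat_lit 73) (nat_lit 2) (nat_lit 56) (nat_lit 60) (nat_lit 28)) (PT.lf (nat_lit 5712) (nat_lit 6) (nat_lit 68) (nat_lit 2) (nat_lit 57) (nat_lit 60) (nat_lit 27)))))) (PT.nd (nat_lit 470) (PT.nd (nat_lit 188) (PT.nd (nat_lit 94) (PT.lf (nat_lit 5292) (nat_lit 6) (nat_lit 63) (nat_lit 2) (nat_lit 58) (nat_lit 60) (nat_lit 26)) (PT.lf (nat_lit 4956) (nat_lit 6) (nat_lit 59) (nat_lit 2) (nat_lit 59) (nat_lit 60) (nat_lit 25))) (PT.nd (nat_lit 94) (PT.lf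 (nat_lit 4620) (nat_lit 3) (nat_lit 55) (nat_lit 0) (nat_lit 60) (nat_lit 60) (nat_lit 24)) (PT.nd (nat_lit 94) (PT.lf (nat_lit 4200) (nat_lit 6) (nat_lit 50) (nat_lit 0) (nat_lit 61) (nat_lit 60) (nat_lit 23)) (PT.lf (nat_lit 3780) (nat_lit 6) (nat_lit 45) (nat_lit 0) (nat_lit 62) (nat_lit 60) (nat_lit 22))))) (PT.nd (nat_lit 188) (PT.nd (nat_lit 94) (PT.lf (nat_lit 3444) (nat_lit 6) (nat_lit 41) (nat_lit 0) (nat_lit 63) (nat_lit 60) (nat_lit 21)) (PT.lf (nat_lit 3108) (nat_lit 6) (nat_lit 37) (nat_lit 0) (nat_lit 64) (nat_lit 60) (nat_lit 20))) (PT.nd (nat_lit 49726) (PT.lf (nat_lit 2772) (nat_lit 6) (nat_lit 33) (nat_lit 0) (nat_lit 65) (nat_lit 60) (nat_lit 19)) (PT.nd (nat_lit 94) (PT.lf (nat_lit 2268) (nat_lit 6) (nat_lit 27) (nat_lit 5) (nat_lit 17) (nat_lit 61) (nat_lit 66)) (PT.lf (nat_lit 2520) (nat_lit 6) (nat_lit 30) (nat_lit 5) (nat_lit 18) (nat_lit 61) (nat_lit 65))))))))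
noncomputable def pc26 : PT := (PT.nd (nat_lit 1692) (PT.nd (nat_lit 846) (PT.nd (nat_lit 376) (PT.nd (nat_lit 188) (PT.nd (nat_lit 94) (PT.lf (nat_lit 2856) (nat_lit 6) (nat_lit 34) (nat_lit 5) (nat_lit 19) (nat_lit 61) (nat_lit 64)) (PT.lf (nat_lit 3192) (nat_lit 6) (nat_lit 38) (nat_lit 5) (nat_lit 20) (nat_lit 61) (nat_lit 63))) (PT.nd (nat_lit 94) (PT.lf (nat_lit 3528) (nat_lit 6) (nat_lit 42) (nat_lit 5) (nat_lit 21) (nat_lit 61) (nat_lit 62)) (PT.lf (nat_lit 3864) (nat_lit 3) (nat_lit 46) (nat_lit 4) (nat_lit 22) (nat_lit 61) (nat_lit 61)))) (PT.nd (nat_lit 188) (PT.nd (nat_lit 94) (PT.lf (nat_lit 4200) (nat_lit 6) (nat_lit 50) (nat_lit 4) (nat_lit 23) (nat_lit 61) (nat_lit 60)) (PT.lf (nat_lit 4536) (nat_lit 6) (nat_lit 54) (nat_lit 4) (nat_lit 24) (nat_lit 61) (nat_lit 59))) (PT.nd (nat_lit 94) (PT.lf (nat_lit 4872) (nat_lit 6) (nat_lit 58) (nat_lit 4) (nat_lit 25) (nat_lit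 61) (nat_lit 58)) (PT.nd (nat_lit 94) (PT.lf (nat_lit 5208) (nat_lit 6) (nat_lit 62) (nat_lit 4) (nat_lit 26) (nat_lit 61) (nat_lit 57)) (PT.lf (nat_lit 5628) (nat_lit 6) (nat_lit 67) (nat_lit 4) (nat_lit 27) (nat_lit 61) (nat_lit 56)))))) (PT.nd (nat_lit 376) (PT.nd (nat_lit 188) (PT.nd (nat_lit 94) (PT.lf (nat_lit 6048) (nat_lit 6) (nat_lit 72) (nat_lit 4) (nat_lit 28) (nat_lit 61) (nat_lit 55)) (PT.lf (nat_lit 6468) (nat_lit 6) (nat_lit 77) (nat_lit 4) (nat_lit 29) (nat_lit 61) (nat_lit 54))) (PT.nd (nat_lit 94) (PT.lf (nat_lit 6888) (nat_lit 6) (nat_lit 82) (nat_lit 4) (nat_lit 30) (nat_lit 61) (nat_lit 53)) (PT.lf (nat_lit 7392) (nat_lit 6) (nat_lit 88) (nat_lit 4) (nat_lit 31) (nat_lit 61) (nat_lit 52)))) (PT.nd (nat_lit 188) (PT.nd (nat_lit 94) (PT.lf (nat_lit 7896) (nat_lit 6) (nat_lit 94) (nat_lit 4) (nat_lit 32) (nat_lit 61) (nat_lit 51)) (PT.lf (nat_lit 8484) (nat_lit 6) (nat_lit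 101) (nat_lit 4) (nat_lit 33) (nat_lit 61) (nat_lit 50))) (PT.nd (nat_lit 94) (PT.lf (nat_lit 8988) (nat_lit 6) (nat_lit 107) (nat_lit 4) (nat_lit 34) (nat_lit 61) (nat_lit 49)) (PT.nd (nat_lit 94) (PT.lf (nat_lit 10080) (nat_lit 6) (nat_lit 120) (nat_lit 4) (nat_lit 35) (nat_lit 61) (nat_lit 48)) (PT.lf (nat_lit 9996) (nat_lit 6) (nat_lit 119) (nat_lit 4) (nat_lit 36) (nat_lit 61) (nat_lit 47))))))) (PT.nd (nat_lit 846) (PT.nd (nat_lit 376) (PT.nd (nat_lit 188) (PT.nd (nat_lit 94) (PT.lf (nat_lit 9912) (nat_lit 6) (nat_lit 118) (nat_lit 4) (nat_lit 37) (nat_lit 61) (nat_lit 46)) (PT.lf (nat_lit 9828) (nat_lit 6) (nat_lit 117) (nat_lit 4) (nat_lit 38) (nat_lit 61) (nat_lit 45))) (PT.nd (nat_lit 94) (PT.lf (nat_lit 9744) (nat_lit 6) (nat_lit 116) (nat_lit 4) (nat_lit 39) (nat_lit 61) (nat_lit 44)) (PT.lf (nat_lit 9660) (nat_lit 6) (nat_lit 115) (nat_lit 4) (nat_lit 40) (nat_lit 61) (nat_lit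 43)))) (PT.nd (nat_lit 188) (PT.nd (nat_lit 94) (PT.lf (nat_lit 9576) (nat_lit 6) (nat_lit 114) (nat_lit 4) (nat_lit 41) (nat_lit 61) (nat_lit 42)) (PT.lf (nat_lit 9576) (nat_lit 6) (nat_lit 114) (nat_lit 2) (nat_lit 42) (nat_lit 61) (nat_lit 41))) (PT.nd (nat_lit 94) (PT.lf (nat_lit 9660) (nat_lit 6) (nat_lit 115) (nat_lit 2) (nat_lit 43) (nat_lit 61) (nat_lit 40)) (PT.nd (nat_lit 94) (PT.lf (nat_lit 9744) (nat_lit 6) (nat_lit 116) (nat_lit 2) (nat_lit 44) (nat_lit 61) (nat_lit 39)) (PT.lf (nat_lit 9828) (nat_lit 6) (nat_lit 117) (nat_lit 2) (nat_lit 45) (nat_lit 61) (nat_lit 38)))))) (PT.nd (nat_lit 470) (PT.nd (nat_lit 188) (PT.nd (nat_lit 94) (PT.lf (nat_lit 9912) (nat_lit 6) (nat_lit 118) (nat_lit 2) (nat_lit 46) (nat_lit 61) (nat_lit 37)) (PT.lf (nat_lit 9996) (nat_lit 6) (nat_lit 119) (nat_lit 2) (nat_lit 47) (nat_lit 61) (nat_lit 36))) (PT.nd (nat_lit 94) (PT.lf (nat_lit 10080)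 (nat_lit 6) (nat_lit 120) (nat_lit 2) (nat_lit 48) (nat_lit 61) (nat_lit 35)) (PT.nd (nat_lit 94) (PT.lf (nat_lit 8988) (nat_lit 6) (nat_lit 107) (nat_lit 2) (nat_lit 49) (nat_lit 61) (nat_lit 34)) (PT.lf (nat_lit 8484) (nat_lit 6) (nat_lit 101) (nat_lit 2) (nat_lit 50) (nat_lit 61) (nat_lit 33))))) (PT.nd (nat_lit 188) (PT.nd (nat_lit 94) (PT.lf (nat_lit 7896) (nat_lit 6) (nat_lit 94) (nat_lit 2) (nat_lit 51) (nat_lit 61) (nat_lit 32)) (PT.lf (nat_lit 7392) (nat_lit 6) (nat_lit 88) (nat_lit 2) (nat_lit 52) (nat_lit 61) (nat_lit 31))) (PT.nd (nat_lit 94) (PT.lf (nat_lit 6888) (nat_lit 6) (nat_lit 82) (nat_lit 2) (nat_lit 53) (nat_lit 61) (nat_lit 30)) (PT.nd (nat_lit 94) (PT.lf (nat_lit 6468) (nat_lit 6) (nat_lit 77) (nat_lit 2) (nat_lit 54) (nat_lit 61) (nat_lit 29)) (PT.lf (nat_lit 6048) (nat_lit 6) (nat_lit 72) (nat_lit 2) (nat_lit 55) (nat_lit 61) (nat_lit 28))))))))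
noncomputable def pc27 : PT := (PT.nd (nat_lit 51136) (PT.nd (nat_lit 846) (PT.nd (nat_lit 376) (PT.nd (nat_lit 188) (PT.nd (nat_lit 94) (PT.lf (nat_lit 5628) (nat_lit 6) (nat_lit 67) (nat_lit 2) (nat_lit 56) (nat_lit 61) (nat_lit 27)) (PT.lf (nat_lit 5208) (nat_lit 6) (nat_lit 62) (nat_lit 2) (nat_lit 57) (nat_lit 61) (nat_lit 26))) (PT.nd (nat_lit 94) (PT.lf (nat_lit 4872) (nat_lit 6) (nat_lit 58) (nat_lit 2) (nat_lit 58) (nat_lit 61) (nat_lit 25)) (PT.lf (nat_lit 4536) (nat_lit 6) (nat_lit 54) (nat_lit 2) (nat_lit 59) (nat_lit 61) (nat_lit 24)))) (PT.nd (nat_lit 188) (PT.nd (nat_lit 94) (PT.lf (nat_lit 4200) (nat_lit 6) (nat_lit 50) (nat_lit 2) (nat_lit 60) (nat_lit 61) (nat_lit 23)) (PT.lf (nat_lit 3864) (nat_lit 3) (nat_lit 46) (nat_lit 0) (nat_lit 61) (nat_lit 61) (nat_lit 22))) (PT.nd (nat_lit 94) (PT.lf (nat_lit 3528) (nat_lit 6) (nat_lit 42) (nat_lit 0) (nat_lit 62) (nat_lit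 61) (nat_lit 21)) (PT.nd (nat_lit 94) (PT.lf (nat_lit 3192) (nat_lit 6) (nat_lit 38) (nat_lit 0) (nat_lit 63) (nat_lit 61) (nat_lit 20)) (PT.lf (nat_lit 2856) (nat_lit 6) (nat_lit 34) (nat_lit 0) (nat_lit 64) (nat_lit 61) (nat_lit 19)))))) (PT.nd (nat_lit 49820) (PT.nd (nat_lit 49632) (PT.nd (nat_lit 94) (PT.lf (nat_lit 2520) (nat_lit 6) (nat_lit 30) (nat_lit 0) (nat_lit 65) (nat_lit 61) (nat_lit 18)) (PT.lf (nat_lit 2268) (nat_lit 6) (nat_lit 27) (nat_lit 0) (nat_lit 66) (nat_lit 61) (nat_lit 17))) (PT.nd (nat_lit 94) (PT.lf (nat_lit 2016) (nat_lit 6) (nat_lit 24) (nat_lit 5) (nat_lit 16) (nat_lit 62) (nat_lit 66)) (PT.lf (nat_lit 2352) (nat_lit 6) (nat_lit 28) (nat_lit 5) (nat_lit 17) (nat_lit 62) (nat_lit 65)))) (PT.nd (nat_lit 188) (PT.nd (nat_lit 94) (PT.lf (nat_lit 2604) (nat_lit 6) (nat_lit 31) (nat_lit 5) (nat_lit 18) (nat_lit 62) (nat_lit 64)) (PT.lf (nat_lit 2940) (nat_lit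 6) (nat_lit 35) (nat_lit 5) (nat_lit 19) (nat_lit 62) (nat_lit 63))) (PT.nd (nat_lit 94) (PT.lf (nat_lit 3276) (nat_lit 3) (nat_lit 39) (nat_lit 4) (nat_lit 20) (nat_lit 62) (nat_lit 62)) (PT.nd (nat_lit 94) (PT.lf (nat_lit 3528) (nat_lit 6) (nat_lit 42) (nat_lit 4) (nat_lit 21) (nat_lit 62) (nat_lit 61)) (PT.lf (nat_lit 3780) (nat_lit 6) (nat_lit 45) (nat_lit 4) (nat_lit 22) (nat_lit 62) (nat_lit 60))))))) (PT.nd (nat_lit 846) (PT.nd (nat_lit 376) (PT.nd (nat_lit 188) (PT.nd (nat_lit 94) (PT.lf (nat_lit 4116) (nat_lit 6) (nat_lit 49) (nat_lit 4) (nat_lit 23) (nat_lit 62) (nat_lit 59)) (PT.lf (nat_lit 4452) (nat_lit 6) (nat_lit 53) (nat_lit 4) (nat_lit 24) (nat_lit 62) (nat_lit 58))) (PT.nd (nat_lit 94) (PT.lf (nat_lit 4788) (nat_lit 6) (nat_lit 57) (nat_lit 4) (nat_lit 25) (nat_lit 62) (nat_lit 57)) (PT.lf (nat_lit 5124) (nat_lit 6) (nat_lit 61) (nat_lit 4) (nat_lit 26) (nat_lit 62)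 (nat_lit 56)))) (PT.nd (nat_lit 188) (PT.nd (nat_lit 94) (PT.lf (nat_lit 5544) (nat_lit 6) (nat_lit 66) (nat_lit 4) (nat_lit 27) (nat_lit 62) (nat_lit 55)) (PT.lf (nat_lit 5964) (nat_lit 6) (nat_lit 71) (nat_lit 4) (nat_lit 28) (nat_lit 62) (nat_lit 54))) (PT.nd (nat_lit 94) (PT.lf (nat_lit 6384) (nat_lit 6) (nat_lit 76) (nat_lit 4) (nat_lit 29) (nat_lit 62) (nat_lit 53)) (PT.nd (nat_lit 94) (PT.lf (nat_lit 6804) (nat_lit 6) (nat_lit 81) (nat_lit 4) (nat_lit 30) (nat_lit 62) (nat_lit 52)) (PT.lf (nat_lit 7308) (nat_lit 6) (nat_lit 87) (nat_lit 4) (nat_lit 31) (nat_lit 62) (nat_lit 51)))))) (PT.nd (nat_lit 1880) (PT.nd (nat_lit 1598) (PT.nd (nat_lit 94) (PT.lf (nat_lit 7812) (nat_lit 6) (nat_lit 93) (nat_lit 4) (nat_lit 32) (nat_lit 62) (nat_lit 50)) (PT.lf (nat_lit 8400) (nat_lit 6) (nat_lit 100) (nat_lit 4) (nat_lit 33) (nat_lit 62) (nat_lit 49))) (PT.nd (nat_lit 94) (PT.lf (nat_lit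 8400) (nat_lit 6) (nat_lit 100) (nat_lit 2) (nat_lit 49) (nat_lit 62) (nat_lit 33)) (PT.nd (nat_lit 94) (PT.lf (nat_lit 7812) (nat_lit 6) (nat_lit 93) (nat_lit 2) (nat_lit 50) (nat_lit 62) (nat_lit 32)) (PT.lf (nat_lit 7308) (nat_lit 6) (nat_lit 87) (nat_lit 2) (nat_lit 51) (nat_lit 62) (nat_lit 31))))) (PT.nd (nat_lit 188) (PT.nd (nat_lit 94) (PT.lf (nat_lit 6804) (nat_lit 6) (nat_lit 81) (nat_lit 2) (nat_lit 52) (nat_lit 62) (nat_lit 30)) (PT.lf (nat_lit 6384) (nat_lit 6) (nat_lit 76) (nat_lit 2) (nat_lit 53) (nat_lit 62) (nat_lit 29))) (PT.nd (nat_lit 94) (PT.lf (nat_lit 5964) (nat_lit 6) (nat_lit 71) (nat_lit 2) (nat_lit 54) (nat_lit 62) (nat_lit 28)) (PT.nd (nat_lit 94) (PT.lf (nat_lit 5544) (nat_lit 6) (nat_lit 66) (nat_lit 2) (nat_lit 55) (nat_lit 62) (nat_lit 27)) (PT.lf (nat_lit 5124) (nat_lit 6) (nat_lit 61) (nat_lit 2) (nat_lit 56) (nat_lit 62) (nat_lit 26))))))))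
noncomputable def pc28 : PT := (PT.nd (nat_lit 50948) (PT.nd (nat_lit 846) (PT.nd (nat_lit 376) (PT.nd (nat_lit 188) (PT.nd (nat_lit 94) (PT.lf (nat_lit 4788) (nat_lit 6) (nat_lit 57) (nat_lit 2) (nat_lit 57) (nat_lit 62) (nat_lit 25)) (PT.lf (nat_lit 4452) (nat_lit 6) (nat_lit 53) (nat_lit 2) (nat_lit 58) (nat_lit 62) (nat_lit 24))) (PT.nd (nat_lit 94) (PT.lf (nat_lit 4116) (nat_lit 6) (nat_lit 49) (nat_lit 2) (nat_lit 59) (nat_lit 62) (nat_lit 23)) (PT.lf (nat_lit 3780) (nat_lit 6) (nat_lit 45) (nat_lit 2) (nat_lit 60) (nat_lit 62) (nat_lit 22)))) (PT.nd (nat_lit 188) (PT.nd (nat_lit 94) (PT.lf (nat_lit 3528) (nat_lit 6) (nat_lit 42) (nat_lit 2) (nat_lit 61) (nat_lit 62) (nat_lit 21)) (PT.lf (nat_lit 3276) (nat_lit 3) (nat_lit 39) (nat_lit 0) (nat_lit 62) (nat_lit 62) (nat_lit 20))) (PT.nd (nat_lit 94) (PT.lf (nat_lit 2940) (nat_lit 6) (nat_lit 35) (nat_lit 0) (nat_lit 63) (nat_lit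 62) (nat_lit 19)) (PT.nd (nat_lit 94) (PT.lf (nat_lit 2604) (nat_lit 6) (nat_lit 31) (nat_lit 0) (nat_lit 64) (nat_lit 62) (nat_lit 18)) (PT.lf (nat_lit 2352) (nat_lit 6) (nat_lit 28) (nat_lit 0) (nat_lit 65) (nat_lit 62) (nat_lit 17)))))) (PT.nd (nat_lit 49632) (PT.nd (nat_lit 49444) (PT.nd (nat_lit 49350) (PT.lf (nat_lit 2016) (nat_lit 6) (nat_lit 24) (nat_lit 0) (nat_lit 66) (nat_lit 62) (nat_lit 16)) (PT.lf (nat_lit 1596) (nat_lit 6) (nat_lit 19) (nat_lit 5) (nat_lit 14) (nat_lit 63) (nat_lit 67))) (PT.nd (nat_lit 94) (PT.lf (nat_lit 1848) (nat_lit 6) (nat_lit 22) (nat_lit 5) (nat_lit 15) (nat_lit 63) (nat_lit 66)) (PT.lf (nat_lit 2100) (nat_lit 6) (nat_lit 25) (nat_lit 5) (nat_lit 16) (nat_lit 63) (nat_lit 65)))) (PT.nd (nat_lit 188) (PT.nd (nat_lit 94) (PT.lf (nat_lit 2436) (nat_lit 6) (nat_lit 29) (nat_lit 5) (nat_lit 17) (nat_lit 63) (nat_lit 64)) (PT.lf (nat_lit 2688) (nat_lit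 3) (nat_lit 32) (nat_lit 4) (nat_lit 18) (nat_lit 63) (nat_lit 63))) (PT.nd (nat_lit 94) (PT.lf (nat_lit 2940) (nat_lit 6) (nat_lit 35) (nat_lit 4) (nat_lit 19) (nat_lit 63) (nat_lit 62)) (PT.nd (nat_lit 94) (PT.lf (nat_lit 3192) (nat_lit 6) (nat_lit 38) (nat_lit 4) (nat_lit 20) (nat_lit 63) (nat_lit 61)) (PT.lf (nat_lit 3444) (nat_lit 6) (nat_lit 41) (nat_lit 4) (nat_lit 21) (nat_lit 63) (nat_lit 60))))))) (PT.nd (nat_lit 3102) (PT.nd (nat_lit 376) (PT.nd (nat_lit 188) (PT.nd (nat_lit 94) (PT.lf (nat_lit 3696) (nat_lit 6) (nat_lit 44) (nat_lit 4) (nat_lit 22) (nat_lit 63) (nat_lit 59)) (PT.lf (nat_lit 4032) (nat_lit 6) (nat_lit 48) (nat_lit 4) (nat_lit 23) (nat_lit 63) (nat_lit 58))) (PT.nd (nat_lit 94) (PT.lf (nat_lit 4368) (nat_lit 6) (nat_lit 52) (nat_lit 4) (nat_lit 24) (nat_lit 63) (nat_lit 57)) (PT.lf (nat_lit 4704) (nat_lit 6) (nat_lit 56) (nat_lit 4) (nat_lit 25) (nat_lit 63)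 (nat_lit 56)))) (PT.nd (nat_lit 188) (PT.nd (nat_lit 94) (PT.lf (nat_lit 5040) (nat_lit 6) (nat_lit 60) (nat_lit 4) (nat_lit 26) (nat_lit 63) (nat_lit 55)) (PT.lf (nat_lit 5460) (nat_lit 6) (nat_lit 65) (nat_lit 4) (nat_lit 27) (nat_lit 63) (nat_lit 54))) (PT.nd (nat_lit 2350) (PT.lf (nat_lit 5880) (nat_lit 6) (nat_lit 70) (nat_lit 4) (nat_lit 28) (nat_lit 63) (nat_lit 53)) (PT.nd (nat_lit 94) (PT.lf (nat_lit 5880) (nat_lit 6) (nat_lit 70) (nat_lit 2) (nat_lit 53) (nat_lit 63) (nat_lit 28)) (PT.lf (nat_lit 5460) (nat_lit 6) (nat_lit 65) (nat_lit 2) (nat_lit 54) (nat_lit 63) (nat_lit 27)))))) (PT.nd (nat_lit 470) (PT.nd (nat_lit 188) (PT.nd (nat_lit 94) (PT.lf (nat_lit 5040) (nat_lit 6) (nat_lit 60) (nat_lit 2) (nat_lit 55) (nat_lit 63) (nat_lit 26)) (PT.lf (nat_lit 4704) (nat_lit 6) (nat_lit 56) (nat_lit 2) (nat_lit 56) (nat_lit 63) (nat_lit 25))) (PT.nd (nat_lit 94) (PT.lf (nat_lit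 4368) (nat_lit 6) (nat_lit 52) (nat_lit 2) (nat_lit 57) (nat_lit 63) (nat_lit 24)) (PT.nd (nat_lit 94) (PT.lf (nat_lit 4032) (nat_lit 6) (nat_lit 48) (nat_lit 2) (nat_lit 58) (nat_lit 63) (nat_lit 23)) (PT.lf (nat_lit 3696) (nat_lit 6) (nat_lit 44) (nat_lit 2) (nat_lit 59) (nat_lit 63) (nat_lit 22))))) (PT.nd (nat_lit 188) (PT.nd (nat_lit 94) (PT.lf (nat_lit 3444) (nat_lit 6) (nat_lit 41) (nat_lit 2) (nat_lit 60) (nat_lit 63) (nat_lit 21)) (PT.lf (nat_lit 3192) (nat_lit 6) (nat_lit 38) (nat_lit 2) (nat_lit 61) (nat_lit 63) (nat_lit 20))) (PT.nd (nat_lit 94) (PT.lf (nat_lit 2940) (nat_lit 6) (nat_lit 35) (nat_lit 2) (nat_lit 62) (nat_lit 63) (nat_lit 19)) (PT.nd (nat_lit 94) (PT.lf (nat_lit 2688) (nat_lit 3) (nat_lit 32) (nat_lit 0) (nat_lit 63) (nat_lit 63) (nat_lit 18)) (PT.lf (nat_lit 2436) (nat_lit 6) (nat_lit 29) (nat_lit 0) (nat_lit 64) (nat_lit 63) (nat_lit 17))))))))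
noncomputable def pc29 : PT := (PT.nd (nat_lit 53674) (PT.nd (nat_lit 49914) (PT.nd (nat_lit 49444) (PT.nd (nat_lit 188) (PT.nd (nat_lit 94) (PT.lf (nat_lit 2100) (nat_lit 6) (nat_lit 25) (nat_lit 0) (nat_lit 65) (nat_lit 63) (nat_lit 16)) (PT.lf (nat_lit 1848) (nat_lit 6) (nat_lit 22) (nat_lit 0) (nat_lit 66) (nat_lit 63) (nat_lit 15))) (PT.nd (nat_lit 49162) (PT.lf (nat_lit 1596) (nat_lit 6) (nat_lit 19) (nat_lit 0) (nat_lit 67) (nat_lit 63) (nat_lit 14)) (PT.lf (nat_lit 1428) (nat_lit 6) (nat_lit 17) (nat_lit 5) (nat_lit 13) (nat_lit 64) (nat_lit 67)))) (PT.nd (nat_lit 188) (PT.nd (nat_lit 94) (PT.lf (nat_lit 1680) (nat_lit 6) (nat_lit 20) (nat_lit 5) (nat_lit 14) (nat_lit 64) (nat_lit 66)) (PT.lf (nat_lit 1932) (nat_lit 6) (nat_lit 23) (nat_lit 5) (nat_lit 15) (nat_lit 64) (nat_lit 65))) (PT.nd (nat_lit 94) (PT.lf (nat_lit 2184) (nat_lit 3) (nat_lit 26) (nat_lit 4) (nat_lit 16) (nat_lit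 64) (nat_lit 64)) (PT.nd (nat_lit 94) (PT.lf (nat_lit 2436) (nat_lit 6) (nat_lit 29) (nat_lit 4) (nat_lit 17) (nat_lit 64) (nat_lit 63)) (PT.lf (nat_lit 2604) (nat_lit 6) (nat_lit 31) (nat_lit 4) (nat_lit 18) (nat_lit 64) (nat_lit 62)))))) (PT.nd (nat_lit 376) (PT.nd (nat_lit 188) (PT.nd (nat_lit 94) (PT.lf (nat_lit 2856) (nat_lit 6) (nat_lit 34) (nat_lit 4) (nat_lit 19) (nat_lit 64) (nat_lit 61)) (PT.lf (nat_lit 3108) (nat_lit 6) (nat_lit 37) (nat_lit 4) (nat_lit 20) (nat_lit 64) (nat_lit 60))) (PT.nd (nat_lit 94) (PT.lf (nat_lit 3360) (nat_lit 6) (nat_lit 40) (nat_lit 4) (nat_lit 21) (nat_lit 64) (nat_lit 59)) (PT.lf (nat_lit 3612) (nat_lit 6) (nat_lit 43) (nat_lit 4) (nat_lit 22) (nat_lit 64) (nat_lit 58)))) (PT.nd (nat_lit 3102) (PT.nd (nat_lit 94) (PT.lf (nat_lit 3948) (nat_lit 6) (nat_lit 47) (nat_lit 4) (nat_lit 23) (nat_lit 64) (nat_lit 57)) (PT.lf (nat_lit 4284) (nat_lit 6)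 (nat_lit 51) (nat_lit 4) (nat_lit 24) (nat_lit 64) (nat_lit 56))) (PT.nd (nat_lit 94) (PT.lf (nat_lit 4284) (nat_lit 6) (nat_lit 51) (nat_lit 2) (nat_lit 56) (nat_lit 64) (nat_lit 24)) (PT.nd (nat_lit 94) (PT.lf (nat_lit 3948) (nat_lit 6) (nat_lit 47) (nat_lit 2) (nat_lit 57) (nat_lit 64) (nat_lit 23)) (PT.lf (nat_lit 3612) (nat_lit 6) (nat_lit 43) (nat_lit 2) (nat_lit 58) (nat_lit 64) (nat_lit 22))))))) (PT.nd (nat_lit 49726) (PT.nd (nat_lit 376) (PT.nd (nat_lit 188) (PT.nd (nat_lit 94) (PT.lf (nat_lit 3360) (nat_lit 6) (nat_lit 40) (nat_lit 2) (nat_lit 59) (nat_lit 64) (nat_lit 21)) (PT.lf (nat_lit 3108) (nat_lit 6) (nat_lit 37) (nat_lit 2) (nat_lit 60) (nat_lit 64) (nat_lit 20))) (PT.nd (nat_lit 94) (PT.lf (nat_lit 2856) (nat_lit 6) (nat_lit 34) (nat_lit 2) (nat_lit 61) (nat_lit 64) (nat_lit 19)) (PT.lf (nat_lit 2604) (nat_lit 6) (nat_lit 31) (nat_lit 2) (nat_lit 62) (nat_lit 64)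 (nat_lit 18)))) (PT.nd (nat_lit 188) (PT.nd (nat_lit 94) (PT.lf (nat_lit 2436) (nat_lit 6) (nat_lit 29) (nat_lit 2) (nat_lit 63) (nat_lit 64) (nat_lit 17)) (PT.lf (nat_lit 2184) (nat_lit 3) (nat_lit 26) (nat_lit 0) (nat_lit 64) (nat_lit 64) (nat_lit 16))) (PT.nd (nat_lit 94) (PT.lf (nat_lit 1932) (nat_lit 6) (nat_lit 23) (nat_lit 0) (nat_lit 65) (nat_lit 64) (nat_lit 15)) (PT.nd (nat_lit 94) (PT.lf (nat_lit 1680) (nat_lit 6) (nat_lit 20) (nat_lit 0) (nat_lit 66) (nat_lit 64) (nat_lit 14)) (PT.lf (nat_lit 1428) (nat_lit 6) (nat_lit 17) (nat_lit 0) (nat_lit 67) (nat_lit 64) (nat_lit 13)))))) (PT.nd (nat_lit 470) (PT.nd (nat_lit 188) (PT.nd (nat_lit 94) (PT.lf (nat_lit 1092) (nat_lit 6) (nat_lit 13) (nat_lit 5) (nat_lit 11) (nat_lit 65) (nat_lit 68)) (PT.lf (nat_lit 1260) (nat_lit 6) (nat_lit 15) (nat_lit 5) (nat_lit 12) (nat_lit 65) (nat_lit 67))) (PT.nd (nat_lit 94) (PT.lf (nat_lit 1512)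 (nat_lit 6) (nat_lit 18) (nat_lit 5) (nat_lit 13) (nat_lit 65) (nat_lit 66)) (PT.nd (nat_lit 94) (PT.lf (nat_lit 1764) (nat_lit 3) (nat_lit 21) (nat_lit 4) (nat_lit 14) (nat_lit 65) (nat_lit 65)) (PT.lf (nat_lit 1932) (nat_lit 6) (nat_lit 23) (nat_lit 4) (nat_lit 15) (nat_lit 65) (nat_lit 64))))) (PT.nd (nat_lit 188) (PT.nd (nat_lit 94) (PT.lf (nat_lit 2100) (nat_lit 6) (nat_lit 25) (nat_lit 4) (nat_lit 16) (nat_lit 65) (nat_lit 63)) (PT.lf (nat_lit 2352) (nat_lit 6) (nat_lit 28) (nat_lit 4) (nat_lit 17) (nat_lit 65) (nat_lit 62))) (PT.nd (nat_lit 94) (PT.lf (nat_lit 2520) (nat_lit 6) (nat_lit 30) (nat_lit 4) (nat_lit 18) (nat_lit 65) (nat_lit 61)) (PT.nd (nat_lit 94) (PT.lf (nat_lit 2772) (nat_lit 6) (nat_lit 33) (nat_lit 4) (nat_lit 19) (nat_lit 65) (nat_lit 60)) (PT.lf (nat_lit 3024) (nat_lit 6) (nat_lit 36) (nat_lit 4) (nat_lit 20) (nat_lit 65) (nat_lit 59))))))))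
noncomputable def pc30 : PT := (PT.nd (nat_lit 50290) (PT.nd (nat_lit 846) (PT.nd (nat_lit 376) (PT.nd (nat_lit 188) (PT.nd (nat_lit 94) (PT.lf (nat_lit 3024) (nat_lit 6) (nat_lit 36) (nat_lit 2) (nat_lit 59) (nat_lit 65) (nat_lit 20)) (PT.lf (nat_lit 2772) (nat_lit 6) (nat_lit 33) (nat_lit 2) (nat_lit 60) (nat_lit 65) (nat_lit 19))) (PT.nd (nat_lit 94) (PT.lf (nat_lit 2520) (nat_lit 6) (nat_lit 30) (nat_lit 2) (nat_lit 61) (nat_lit 65) (nat_lit 18)) (PT.lf (nat_lit 2352) (nat_lit 6) (nat_lit 28) (nat_lit 2) (nat_lit 62) (nat_lit 65) (nat_lit 17)))) (PT.nd (nat_lit 188) (PT.nd (nat_lit 94) (PT.lf (nat_lit 2100) (nat_lit 6) (nat_lit 25) (nat_lit 2) (nat_lit 63) (nat_lit 65) (nat_lit 16)) (PT.lf (nat_lit 1932) (nat_lit 6) (nat_lit 23) (nat_lit 2) (nat_lit 64) (nat_lit 65) (nat_lit 15))) (PT.nd (nat_lit 94) (PT.lf (nat_lit 1764) (nat_lit 3) (nat_lit 21) (nat_lit 0) (nat_lit 65) (nat_lit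 65) (nat_lit 14)) (PT.nd (nat_lit 94) (PT.lf (nat_lit 1512) (nat_lit 6) (nat_lit 18) (nat_lit 0) (nat_lit 66) (nat_lit 65) (nat_lit 13)) (PT.lf (nat_lit 1260) (nat_lit 6) (nat_lit 15) (nat_lit 0) (nat_lit 67) (nat_lit 65) (nat_lit 12)))))) (PT.nd (nat_lit 48974) (PT.nd (nat_lit 48786) (PT.nd (nat_lit 48692) (PT.lf (nat_lit 1092) (nat_lit 6) (nat_lit 13) (nat_lit 0) (nat_lit 68) (nat_lit 65) (nat_lit 11)) (PT.lf (nat_lit 756) (nat_lit 6) (nat_lit 9) (nat_lit 5) (nat_lit 9) (nat_lit 66) (nat_lit 69))) (PT.nd (nat_lit 94) (PT.lf (nat_lit 924) (nat_lit 6) (nat_lit 11) (nat_lit 5) (nat_lit 10) (nat_lit 66) (nat_lit 68)) (PT.lf (nat_lit 1176) (nat_lit 6) (nat_lit 14) (nat_lit 5) (nat_lit 11) (nat_lit 66) (nat_lit 67)))) (PT.nd (nat_lit 188) (PT.nd (nat_lit 94) (PT.lf (nat_lit 1344) (nat_lit 3) (nat_lit 16) (nat_lit 4) (nat_lit 12) (nat_lit 66) (nat_lit 66)) (PT.lf (nat_lit 1512) (nat_lit 6)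 (nat_lit 18) (nat_lit 4) (nat_lit 13) (nat_lit 66) (nat_lit 65))) (PT.nd (nat_lit 94) (PT.lf (nat_lit 1680) (nat_lit 6) (nat_lit 20) (nat_lit 4) (nat_lit 14) (nat_lit 66) (nat_lit 64)) (PT.nd (nat_lit 94) (PT.lf (nat_lit 1848) (nat_lit 6) (nat_lit 22) (nat_lit 4) (nat_lit 15) (nat_lit 66) (nat_lit 63)) (PT.lf (nat_lit 2016) (nat_lit 6) (nat_lit 24) (nat_lit 4) (nat_lit 16) (nat_lit 66) (nat_lit 62))))))) (PT.nd (nat_lit 4888) (PT.nd (nat_lit 4418) (PT.nd (nat_lit 4230) (PT.nd (nat_lit 4136) (PT.lf (nat_lit 2268) (nat_lit 6) (nat_lit 27) (nat_lit 4) (nat_lit 17) (nat_lit 66) (nat_lit 61)) (PT.lf (nat_lit 2268) (nat_lit 6) (nat_lit 27) (nat_lit 2) (nat_lit 61) (nat_lit 66) (nat_lit 17))) (PT.nd (nat_lit 94) (PT.lf (nat_lit 2016) (nat_lit 6) (nat_lit 24) (nat_lit 2) (nat_lit 62) (nat_lit 66) (nat_lit 16)) (PT.lf (nat_lit 1848) (nat_lit 6) (nat_lit 22) (nat_lit 2) (nat_lit 63) (nat_lit 66)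 (nat_lit 15)))) (PT.nd (nat_lit 188) (PT.nd (nat_lit 94) (PT.lf (nat_lit 1680) (nat_lit 6) (nat_lit 20) (nat_lit 2) (nat_lit 64) (nat_lit 66) (nat_lit 14)) (PT.lf (nat_lit 1512) (nat_lit 6) (nat_lit 18) (nat_lit 2) (nat_lit 65) (nat_lit 66) (nat_lit 13))) (PT.nd (nat_lit 94) (PT.lf (nat_lit 1344) (nat_lit 3) (nat_lit 16) (nat_lit 0) (nat_lit 66) (nat_lit 66) (nat_lit 12)) (PT.nd (nat_lit 94) (PT.lf (nat_lit 1176) (nat_lit 6) (nat_lit 14) (nat_lit 0) (nat_lit 67) (nat_lit 66) (nat_lit 11)) (PT.lf (nat_lit 924) (nat_lit 6) (nat_lit 11) (nat_lit 0) (nat_lit 68) (nat_lit 66) (nat_lit 10)))))) (PT.nd (nat_lit 48880) (PT.nd (nat_lit 48598) (PT.nd (nat_lit 48504) (PT.lf (nat_lit 756) (nat_lit 6) (nat_lit 9) (nat_lit 0) (nat_lit 69) (nat_lit 66) (nat_lit 9)) (PT.lf (nat_lit 588) (nat_lit 6) (nat_lit 7) (nat_lit 5) (nat_lit 8) (nat_lit 67) (nat_lit 69))) (PT.nd (nat_lit 94) (PT.lf (nat_lit 840)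 (nat_lit 6) (nat_lit 10) (nat_lit 5) (nat_lit 9) (nat_lit 67) (nat_lit 68)) (PT.nd (nat_lit 94) (PT.lf (nat_lit 1008) (nat_lit 3) (nat_lit 12) (nat_lit 4) (nat_lit 10) (nat_lit 67) (nat_lit 67)) (PT.lf (nat_lit 1176) (nat_lit 6) (nat_lit 14) (nat_lit 4) (nat_lit 11) (nat_lit 67) (nat_lit 66))))) (PT.nd (nat_lit 188) (PT.nd (nat_lit 94) (PT.lf (nat_lit 1260) (nat_lit 6) (nat_lit 15) (nat_lit 4) (nat_lit 12) (nat_lit 67) (nat_lit 65)) (PT.lf (nat_lit 1428) (nat_lit 6) (nat_lit 17) (nat_lit 4) (nat_lit 13) (nat_lit 67) (nat_lit 64))) (PT.nd (nat_lit 4606) (PT.lf (nat_lit 1596) (nat_lit 6) (nat_lit 19) (nat_lit 4) (nat_lit 14) (nat_lit 67) (nat_lit 63)) (PT.nd (nat_lit 94) (PT.lf (nat_lit 1596) (nat_lit 6) (nat_lit 19) (nat_lit 2) (nat_lit 63) (nat_lit 67) (nat_lit 14)) (PT.lf (nat_lit 1428) (nat_lit 6) (nat_lit 17) (nat_lit 2) (nat_lit 64) (nat_lit 67) (nat_lit 13))))))))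
noncomputable def pc31 : PT := (PT.nd (nat_lit 102930) (PT.nd (nat_lit 49068) (PT.nd (nat_lit 376) (PT.nd (nat_lit 188) (PT.nd (nat_lit 94) (PT.lf (nat_lit 1260) (nat_lit 6) (nat_lit 15) (nat_lit 2) (nat_lit 65) (nat_lit 67) (nat_lit 12)) (PT.lf (nat_lit 1176) (nat_lit 6) (nat_lit 14) (nat_lit 2) (nat_lit 66) (nat_lit 67) (nat_lit 11))) (PT.nd (nat_lit 94) (PT.lf (nat_lit 1008) (nat_lit 3) (nat_lit 12) (nat_lit 0) (nat_lit 67) (nat_lit 67) (nat_lit 10)) (PT.lf (nat_lit 840) (nat_lit 6) (nat_lit 10) (nat_lit 0) (nat_lit 68) (nat_lit 67) (nat_lit 9)))) (PT.nd (nat_lit 48410) (PT.nd (nat_lit 48316) (PT.lf (nat_lit 588) (nat_lit 6) (nat_lit 7) (nat_lit 0) (nat_lit 69) (nat_lit 67) (nat_lit 8)) (PT.lf (nat_lit 336) (nat_lit 6) (nat_lit 4) (nat_lit 5) (nat_lit 6) (nat_lit 68) (nat_lit 70))) (PT.nd (nat_lit 94) (PT.lf (nat_lit 504) (nat_lit 6) (nat_lit 6) (nat_lit 5) (nat_lit 7) (nat_lit 68)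 (nat_lit 69)) (PT.nd (nat_lit 94) (PT.lf (nat_lit 672) (nat_lit 3) (nat_lit 8) (nat_lit 4) (nat_lit 8) (nat_lit 68) (nat_lit 68)) (PT.lf (nat_lit 840) (nat_lit 6) (nat_lit 10) (nat_lit 4) (nat_lit 9) (nat_lit 68) (nat_lit 67)))))) (PT.nd (nat_lit 5358) (PT.nd (nat_lit 5170) (PT.nd (nat_lit 94) (PT.lf (nat_lit 924) (nat_lit 6) (nat_lit 11) (nat_lit 4) (nat_lit 10) (nat_lit 68) (nat_lit 66)) (PT.lf (nat_lit 1092) (nat_lit 6) (nat_lit 13) (nat_lit 4) (nat_lit 11) (nat_lit 68) (nat_lit 65))) (PT.nd (nat_lit 94) (PT.lf (nat_lit 1092) (nat_lit 6) (nat_lit 13) (nat_lit 2) (nat_lit 65) (nat_lit 68) (nat_lit 11)) (PT.lf (nat_lit 924) (nat_lit 6) (nat_lit 11) (nat_lit 2) (nat_lit 66) (nat_lit 68) (nat_lit 10)))) (PT.nd (nat_lit 188) (PT.nd (nat_lit 94) (PT.lf (nat_lit 840) (nat_lit 6) (nat_lit 10) (nat_lit 2) (nat_lit 67) (nat_lit 68) (nat_lit 9)) (PT.lf (nat_lit 672) (nat_lit 3) (nat_lit 8) (nat_lit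 0) (nat_lit 68) (nat_lit 68) (nat_lit 8))) (PT.nd (nat_lit 94) (PT.lf (nat_lit 504) (nat_lit 6) (nat_lit 6) (nat_lit 0) (nat_lit 69) (nat_lit 68) (nat_lit 7)) (PT.nd (nat_lit 48128) (PT.lf (nat_lit 336) (nat_lit 6) (nat_lit 4) (nat_lit 0) (nat_lit 70) (nat_lit 68) (nat_lit 6)) (PT.lf (nat_lit 252) (nat_lit 6) (nat_lit 3) (nat_lit 5) (nat_lit 5) (nat_lit 69) (nat_lit 70))))))) (PT.nd (nat_lit 53956) (PT.nd (nat_lit 5640) (PT.nd (nat_lit 188) (PT.nd (nat_lit 94) (PT.lf (nat_lit 420) (nat_lit 3) (nat_lit 5) (nat_lit 4) (nat_lit 6) (nat_lit 69) (nat_lit 69)) (PT.lf (nat_lit 504) (nat_lit 6) (nat_lit 6) (nat_lit 4) (nat_lit 7) (nat_lit 69) (nat_lit 68))) (PT.nd (nat_lit 94) (PT.lf (nat_lit 588) (nat_lit 6) (nat_lit 7) (nat_lit 4) (nat_lit 8) (nat_lit 69) (nat_lit 67)) (PT.lf (nat_lit 756) (nat_lit 6) (nat_lit 9) (nat_lit 4) (nat_lit 9) (nat_lit 69) (nat_lit 66)))) (PT.nd (nat_lit 188) (PT.nd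 (nat_lit 94) (PT.lf (nat_lit 756) (nat_lit 6) (nat_lit 9) (nat_lit 2) (nat_lit 66) (nat_lit 69) (nat_lit 9)) (PT.lf (nat_lit 588) (nat_lit 6) (nat_lit 7) (nat_lit 2) (nat_lit 67) (nat_lit 69) (nat_lit 8))) (PT.nd (nat_lit 94) (PT.lf (nat_lit 504) (nat_lit 6) (nat_lit 6) (nat_lit 2) (nat_lit 68) (nat_lit 69) (nat_lit 7)) (PT.nd (nat_lit 94) (PT.lf (nat_lit 420) (nat_lit 3) (nat_lit 5) (nat_lit 0) (nat_lit 69) (nat_lit 69) (nat_lit 6)) (PT.lf (nat_lit 252) (nat_lit 6) (nat_lit 3) (nat_lit 0) (nat_lit 70) (nat_lit 69) (nat_lit 5)))))) (PT.nd (nat_lit 6204) (PT.nd (nat_lit 188) (PT.nd (nat_lit 94) (PT.lf (nat_lit 84) (nat_lit 6) (nat_lit 1) (nat_lit 5) (nat_lit 3) (nat_lit 70) (nat_lit 71)) (PT.lf (nat_lit 168) (nat_lit 3) (nat_lit 2) (nat_lit 4) (nat_lit 4) (nat_lit 70) (nat_lit 70))) (PT.nd (nat_lit 94) (PT.lf (nat_lit 252) (nat_lit 6) (nat_lit 3) (nat_lit 4) (nat_lit 5) (nat_lit 70) (nat_lit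 69)) (PT.nd (nat_lit 5828) (PT.lf (nat_lit 336) (nat_lit 6) (nat_lit 4) (nat_lit 4) (nat_lit 6) (nat_lit 70) (nat_lit 68)) (PT.lf (nat_lit 336) (nat_lit 6) (nat_lit 4) (nat_lit 2) (nat_lit 68) (nat_lit 70) (nat_lit 6))))) (PT.nd (nat_lit 188) (PT.nd (nat_lit 94) (PT.lf (nat_lit 252) (nat_lit 6) (nat_lit 3) (nat_lit 2) (nat_lit 69) (nat_lit 70) (nat_lit 5)) (PT.lf (nat_lit 168) (nat_lit 3) (nat_lit 2) (nat_lit 0) (nat_lit 70) (nat_lit 70) (nat_lit 4))) (PT.nd (nat_lit 47846) (PT.lf (nat_lit 84) (nat_lit 6) (nat_lit 1) (nat_lit 0) (nat_lit 71) (nat_lit 70) (nat_lit 3)) (PT.nd (nat_lit 6298) (PT.lf (nat_lit 84) (nat_lit 6) (nat_lit 1) (nat_lit 4) (nat_lit 3) (nat_lit 71) (nat_lit 70)) (PT.lf (nat_lit 84) (nat_lit 6) (nat_lit 1) (nat_lit 2) (nat_lit 70) (nat_lit 71) (nat_lit 3))))))))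
noncomputable def xc0 : XT := (XT.nd (nat_lit 324488) (nat_lit 0) (nat_lit 0) (XT.nd (nat_lit 216294) (nat_lit 0) (nat_lit 0) (XT.nd (nat_lit 108288) (nat_lit 0) (nat_lit 0) (XT.nd (nat_lit 54144) (nat_lit 0) (nat_lit 0) (XT.nd (nat_lit 54050) (nat_lit 0) (nat_lit 0) (XT.lf (nat_lit 0) (nat_lit 50387891435) (nat_lit 84) (nat_lit 969518597) (nat_lit 84) (nat_lit 969518597) (nat_lit 2) (nat_lit 4) (nat_lit 3) (nat_lit 5) (nat_lit 3) (nat_lit 4) (nat_lit 426) (nat_lit 219) (nat_lit 219)) (XT.lf (nat_lit 0) (nat_lit 44896167967) (nat_lit 84) (nat_lit 2189673010) (nat_lit 84) (nat_lit 2189673010) (nat_lit 2) (nat_lit 4) (nat_lit 3) (nat_lit 5) (nat_lit 3) (nat_lit 4) (nat_lit 424) (nat_lit 220) (nat_lit 220))) (XT.nd (nat_lit 53956) (nat_lit 0) (nat_lit 0) (XT.lf (nat_lit 0) (nat_lit 95213384242) (nat_lit 84) (nat_lit 3255395073) (nat_lit 84) (nat_lit 3086836586) (nat_lit 2) (nat_lit 4) (nat_lit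 3) (nat_lit 5) (nat_lit 3) (nat_lit 4) (nat_lit 425) (nat_lit 220) (nat_lit 219)) (XT.nd (nat_lit 94) (nat_lit 0) (nat_lit 0) (XT.lf (nat_lit 0) (nat_lit 39652006649) (nat_lit 84) (nat_lit 3377160588) (nat_lit 84) (nat_lit 3377160588) (nat_lit 2) (nat_lit 4) (nat_lit 3) (nat_lit 5) (nat_lit 3) (nat_lit 4) (nat_lit 422) (nat_lit 221) (nat_lit 221)) (XT.lf (nat_lit 0) (nat_lit 84481685666) (nat_lit 84) (nat_lit 5664943429) (nat_lit 84) (nat_lit 5491159628) (nat_lit 2) (nat_lit 4) (nat_lit 3) (nat_lit 5) (nat_lit 3) (nat_lit 4) (nat_lit 423) (nat_lit 221) (nat_lit 220))))) (XT.nd (nat_lit 54050) (nat_lit 0) (nat_lit 0) (XT.nd (nat_lit 53862) (nat_lit 0) (nat_lit 0) (XT.lf (nat_lit 0) (nat_lit 89765633758) (nat_lit 84) (nat_lit 4564123855) (nat_lit 84) (nat_lit 4221781567) (nat_lit 2) (nat_lit 4) (nat_lit 3) (nat_lit 5) (nat_lit 3) (nat_lit 4) (nat_lit 424) (nat_lit 221) (nat_lit 219)) (XT.nd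 (nat_lit 94) (nat_lit 0) (nat_lit 0) (XT.lf (nat_lit 0) (nat_lit 34638334567) (nat_lit 84) (nat_lit 4535143999) (nat_lit 84) (nat_lit 4535143999) (nat_lit 2) (nat_lit 4) (nat_lit 3) (nat_lit 5) (nat_lit 3) (nat_lit 4) (nat_lit 420) (nat_lit 222) (nat_lit 222)) (XT.lf (nat_lit 0) (nat_lit 74227790520) (nat_lit 84) (nat_lit 8012443609) (nat_lit 84) (nat_lit 7833272511) (nat_lit 2) (nat_lit 4) (nat_lit 3) (nat_lit 5) (nat_lit 3) (nat_lit 4) (nat_lit 421) (nat_lit 222) (nat_lit 221)))) (XT.nd (nat_lit 94) (nat_lit 0) (nat_lit 0) (XT.lf (nat_lit 0) (nat_lit 79276483354) (nat_lit 84) (nat_lit 6944827124) (nat_lit 84) (nat_lit 6591872225) (nat_lit 2) (nat_lit 4) (nat_lit 3) (nat_lit 5) (nat_lit 3) (nat_lit 4) (nat_lit 422) (nat_lit 222) (nat_lit 220)) (XT.nd (nat_lit 53768) (nat_lit 0) (nat_lit 0) (XT.lf (nat_lit 0) (nat_lit 84427453547) (nat_lit 84) (nat_lit 5866443410) (nat_lit 84) (nat_lit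 5344930025) (nat_lit 2) (nat_lit 4) (nat_lit 3) (nat_lit 5) (nat_lit 3) (nat_lit 4) (nat_lit 423) (nat_lit 222) (nat_lit 219)) (XT.lf (nat_lit 0) (nat_lit 29839015376) (nat_lit 84) (nat_lit 5666636641) (nat_lit 84) (nat_lit 5666636641) (nat_lit 2) (nat_lit 4) (nat_lit 3) (nat_lit 5) (nat_lit 3) (nat_lit 4) (nat_lit 418) (nat_lit 223) (nat_lit 223)))))) (XT.nd (nat_lit 54144) (nat_lit 0) (nat_lit 0) (XT.nd (nat_lit 282) (nat_lit 0) (nat_lit 0) (XT.nd (nat_lit 94) (nat_lit 0) (nat_lit 0) (XT.lf (nat_lit 0) (nat_lit 64418504233) (nat_lit 84) (nat_lit 10304071714) (nat_lit 84) (nat_lit 10119346312) (nat_lit 2) (nat_lit 4) (nat_lit 3) (nat_lit 5) (nat_lit 3) (nat_lit 4) (nat_lit 419) (nat_lit 223) (nat_lit 222)) (XT.nd (nat_lit 94) (nat_lit 0) (nat_lit 0) (XT.lf (nat_lit 0) (nat_lit 69248285763) (nat_lit 84) (nat_lit 9266699630) (nat_lit 84) (nat_lit 8902803130) (nat_lit 2) (nat_lit 4) (nat_lit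 3) (nat_lit 5) (nat_lit 3) (nat_lit 4) (nat_lit 420) (nat_lit 223) (nat_lit 221)) (XT.lf (nat_lit 0) (nat_lit 74171877205) (nat_lit 84) (nat_lit 8220190091) (nat_lit 84) (nat_lit 7682509790) (nat_lit 2) (nat_lit 4) (nat_lit 3) (nat_lit 5) (nat_lit 3) (nat_lit 4) (nat_lit 421) (nat_lit 223) (nat_lit 220)))) (XT.nd (nat_lit 53674) (nat_lit 0) (nat_lit 0) (XT.lf (nat_lit 0) (nat_lit 79193867863) (nat_lit 84) (nat_lit 7163567639) (nat_lit 84) (nat_lit 6457328852) (nat_lit 2) (nat_lit 4) (nat_lit 3) (nat_lit 5) (nat_lit 3) (nat_lit 4) (nat_lit 422) (nat_lit 223) (nat_lit 219)) (XT.nd (nat_lit 94) (nat_lit 0) (nat_lit 0) (XT.lf (nat_lit 0) (nat_lit 25238791507) (nat_lit 84) (nat_lit 6774512663) (nat_lit 84) (nat_lit 6774512663) (nat_lit 2) (nat_lit 4) (nat_lit 3) (nat_lit 5) (nat_lit 3) (nat_lit 4) (nat_lit 416) (nat_lit 224) (nat_lit 224)) (XT.lf (nat_lit 0) (nat_lit 55022446705) (nat_lit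 84) (nat_lit 12545715547) (nat_lit 84) (nat_lit 12355263658) (nat_lit 2) (nat_lit 4) (nat_lit 3) (nat_lit 5) (nat_lit 3) (nat_lit 4) (nat_lit 417) (nat_lit 224) (nat_lit 223))))) (XT.nd (nat_lit 282) (nat_lit 0) (nat_lit 0) (XT.nd (nat_lit 94) (nat_lit 0) (nat_lit 0) (XT.lf (nat_lit 0) (nat_lit 59648767497) (nat_lit 84) (nat_lit 11535773674) (nat_lit 84) (nat_lit 11160596383) (nat_lit 2) (nat_lit 4) (nat_lit 3) (nat_lit 5) (nat_lit 3) (nat_lit 4) (nat_lit 418) (nat_lit 224) (nat_lit 222)) (XT.nd (nat_lit 94) (nat_lit 0) (nat_lit 0) (XT.lf (nat_lit 0) (nat_lit 64360857605) (nat_lit 84) (nat_lit 10518258336) (nat_lit 84) (nat_lit 9963909947) (nat_lit 2) (nat_lit 4) (nat_lit 3) (nat_lit 5) (nat_lit 3) (nat_lit 4) (nat_lit 419) (nat_lit 224) (nat_lit 221)) (XT.lf (nat_lit 0) (nat_lit 69163109192) (nat_lit 84) (nat_lit 9492221102) (nat_lit 84) (nat_lit 8764088912) (nat_lit 2) (nat_lit 4)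 (nat_lit 3) (nat_lit 5) (nat_lit 3) (nat_lit 4) (nat_lit 420) (nat_lit 224) (nat_lit 220)))) (XT.nd (nat_lit 53580) (nat_lit 0) (nat_lit 0) (XT.lf (nat_lit 0) (nat_lit 74059998458) (nat_lit 84) (nat_lit 8456705596) (nat_lit 84) (nat_lit 7560014919) (nat_lit 2) (nat_lit 4) (nat_lit 3) (nat_lit 5) (nat_lit 3) (nat_lit 4) (nat_lit 421) (nat_lit 224) (nat_lit 219)) (XT.nd (nat_lit 94) (nat_lit 0) (nat_lit 0) (XT.lf (nat_lit 0) (nat_lit 20823229729) (nat_lit 84) (nat_lit 7861516430) (nat_lit 84) (nat_lit 7861516430) (nat_lit 2) (nat_lit 4) (nat_lit 3) (nat_lit 5) (nat_lit 3) (nat_lit 4) (nat_lit 414) (nat_lit 225) (nat_lit 225)) (XT.lf (nat_lit 0) (nat_lit 46009940136) (nat_lit 84) (nat_lit 14742994099) (nat_lit 84) (nat_lit 14546638201) (nat_lit 2) (nat_lit 4) (nat_lit 3) (nat_lit 5) (nat_lit 3) (nat_lit 4) (nat_lit 415) (nat_lit 225) (nat_lit 224))))))) (XT.nd (nat_lit 54520) (nat_lit 0)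 (nat_lit 0) (XT.nd (nat_lit 53956) (nat_lit 0) (nat_lit 0) (XT.nd (nat_lit 282) (nat_lit 0) (nat_lit 0) (XT.nd (nat_lit 94) (nat_lit 0) (nat_lit 0) (XT.lf (nat_lit 0) (nat_lit 50447412597) (nat_lit 84) (nat_lit 13757803231) (nat_lit 84) (nat_lit 13370995443) (nat_lit 2) (nat_lit 4) (nat_lit 3) (nat_lit 5) (nat_lit 3) (nat_lit 4) (nat_lit 416) (nat_lit 225) (nat_lit 223)) (XT.nd (nat_lit 94) (nat_lit 0) (nat_lit 0) (XT.lf (nat_lit 0) (nat_lit 54963013032) (nat_lit 84) (nat_lit 12766541955) (nat_lit 84) (nat_lit 12195008765) (nat_lit 2) (nat_lit 4) (nat_lit 3) (nat_lit 5) (nat_lit 3) (nat_lit 4) (nat_lit 417) (nat_lit 225) (nat_lit 222)) (XT.lf (nat_lit 0) (nat_lit 59560950452) (nat_lit 84) (nat_lit 11768286312) (nat_lit 84) (nat_lit 11017582024) (nat_lit 2) (nat_lit 4) (nat_lit 3) (nat_lit 5) (nat_lit 3) (nat_lit 4) (nat_lit 418) (nat_lit 225) (nat_lit 221)))) (XT.nd (nat_lit 94) (nat_lit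 0) (nat_lit 0) (XT.lf (nat_lit 0) (nat_lit 64245510617) (nat_lit 84) (nat_lit 10762105823) (nat_lit 84) (nat_lit 9837617735) (nat_lit 2) (nat_lit 4) (nat_lit 3) (nat_lit 5) (nat_lit 3) (nat_lit 4) (nat_lit 419) (nat_lit 225) (nat_lit 220)) (XT.nd (nat_lit 53486) (nat_lit 0) (nat_lit 0) (XT.lf (nat_lit 0) (nat_lit 69021060028) (nat_lit 84) (nat_lit 9747062622) (nat_lit 84) (nat_lit 8654016047) (nat_lit 2) (nat_lit 4) (nat_lit 3) (nat_lit 5) (nat_lit 3) (nat_lit 4) (nat_lit 420) (nat_lit 225) (nat_lit 219)) (XT.lf (nat_lit 0) (nat_lit 16578669862) (nat_lit 84) (nat_lit 8930271465) (nat_lit 84) (nat_lit 8930271465) (nat_lit 2) (nat_lit 4) (nat_lit 3) (nat_lit 5) (nat_lit 3) (nat_lit 4) (nat_lit 412) (nat_lit 226) (nat_lit 226))))) (XT.nd (nat_lit 282) (nat_lit 0) (nat_lit 0) (XT.nd (nat_lit 94) (nat_lit 0) (nat_lit 0) (XT.lf (nat_lit 0) (nat_lit 37352903344) (nat_lit 84) (nat_lit 16901275945)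 (nat_lit 84) (nat_lit 16698833014) (nat_lit 2) (nat_lit 4) (nat_lit 3) (nat_lit 5) (nat_lit 3) (nat_lit 4) (nat_lit 413) (nat_lit 226) (nat_lit 225)) (XT.nd (nat_lit 94) (nat_lit 0) (nat_lit 0) (XT.lf (nat_lit 0) (nat_lit 41615353759) (nat_lit 84) (nat_lit 15938282880) (nat_lit 84) (nat_lit 15539484051) (nat_lit 2) (nat_lit 4) (nat_lit 3) (nat_lit 5) (nat_lit 3) (nat_lit 4) (nat_lit 414) (nat_lit 226) (nat_lit 224)) (XT.lf (nat_lit 0) (nat_lit 45948664019) (nat_lit 84) (nat_lit 14970666125) (nat_lit 84) (nat_lit 14381415406) (nat_lit 2) (nat_lit 4) (nat_lit 3) (nat_lit 5) (nat_lit 3) (nat_lit 4) (nat_lit 415) (nat_lit 226) (nat_lit 223)))) (XT.nd (nat_lit 94) (nat_lit 0) (nat_lit 0) (XT.lf (nat_lit 0) (nat_lit 50356873224) (nat_lit 84) (nat_lit 13997523759) (nat_lit 84) (nat_lit 13223547639) (nat_lit 2) (nat_lit 4) (nat_lit 3) (nat_lit 5) (nat_lit 3) (nat_lit 4) (nat_lit 416) (nat_lit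 226) (nat_lit 222)) (XT.nd (nat_lit 94) (nat_lit 0) (nat_lit 0) (XT.lf (nat_lit 0) (nat_lit 54844090287) (nat_lit 84) (nat_lit 13017948713) (nat_lit 84) (nat_lit 12064801494) (nat_lit 2) (nat_lit 4) (nat_lit 3) (nat_lit 5) (nat_lit 3) (nat_lit 4) (nat_lit 417) (nat_lit 226) (nat_lit 221)) (XT.lf (nat_lit 0) (nat_lit 59414497763) (nat_lit 84) (nat_lit 12031027919) (nat_lit 84) (nat_lit 10904096900) (nat_lit 2) (nat_lit 4) (nat_lit 3) (nat_lit 5) (nat_lit 3) (nat_lit 4) (nat_lit 418) (nat_lit 226) (nat_lit 220)))))) (XT.nd (nat_lit 53768) (nat_lit 0) (nat_lit 0) (XT.nd (nat_lit 53486) (nat_lit 0) (nat_lit 0) (XT.nd (nat_lit 94) (nat_lit 0) (nat_lit 0) (XT.lf (nat_lit 0) (nat_lit 64072355753) (nat_lit 84) (nat_lit 11035841465) (nat_lit 84) (nat_lit 9740351959) (nat_lit 2) (nat_lit 4) (nat_lit 3) (nat_lit 5) (nat_lit 3) (nat_lit 4) (nat_lit 419) (nat_lit 226) (nat_lit 219)) (XT.nd (nat_lit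 53298) (nat_lit 0) (nat_lit 0) (XT.lf (nat_lit 0) (nat_lit 68822005866) (nat_lit 84) (nat_lit 10031461731) (nat_lit 84) (nat_lit 8572481937) (nat_lit 2) (nat_lit 4) (nat_lit 3) (nat_lit 5) (nat_lit 3) (nat_lit 4) (nat_lit 420) (nat_lit 226) (nat_lit 218)) (XT.lf (nat_lit 0) (nat_lit 12492176450) (nat_lit 84) (nat_lit 9983288900) (nat_lit 84) (nat_lit 9983288900) (nat_lit 2) (nat_lit 4) (nat_lit 3) (nat_lit 5) (nat_lit 3) (nat_lit 4) (nat_lit 410) (nat_lit 227) (nat_lit 227)))) (XT.nd (nat_lit 94) (nat_lit 0) (nat_lit 0) (XT.lf (nat_lit 0) (nat_lit 29024752197) (nat_lit 84) (nat_lit 19025696636) (nat_lit 84) (nat_lit 18816977975) (nat_lit 2) (nat_lit 4) (nat_lit 3) (nat_lit 5) (nat_lit 3) (nat_lit 4) (nat_lit 411) (nat_lit 227) (nat_lit 226)) (XT.nd (nat_lit 94) (nat_lit 0) (nat_lit 0) (XT.lf (nat_lit 0) (nat_lit 33125269749) (nat_lit 84) (nat_lit 18082465701) (nat_lit 84) (nat_lit 17671304109)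 (nat_lit 2) (nat_lit 4) (nat_lit 3) (nat_lit 5) (nat_lit 3) (nat_lit 4) (nat_lit 412) (nat_lit 227) (nat_lit 225)) (XT.lf (nat_lit 0) (nat_lit 37289727668) (nat_lit 84) (nat_lit 17136005804) (nat_lit 84) (nat_lit 16528488313) (nat_lit 2) (nat_lit 4) (nat_lit 3) (nat_lit 5) (nat_lit 3) (nat_lit 4) (nat_lit 413) (nat_lit 227) (nat_lit 224))))) (XT.nd (nat_lit 282) (nat_lit 0) (nat_lit 0) (XT.nd (nat_lit 94) (nat_lit 0) (nat_lit 0) (XT.lf (nat_lit 0) (nat_lit 41522007665) (nat_lit 84) (nat_lit 16185434745) (nat_lit 84) (nat_lit 15387465365) (nat_lit 2) (nat_lit 4) (nat_lit 3) (nat_lit 5) (nat_lit 3) (nat_lit 4) (nat_lit 414) (nat_lit 227) (nat_lit 223)) (XT.nd (nat_lit 94) (nat_lit 0) (nat_lit 0) (XT.lf (nat_lit 0) (nat_lit 45826054669) (nat_lit 84) (nat_lit 15229866493) (nat_lit 84) (nat_lit 14247171710) (nat_lit 2) (nat_lit 4) (nat_lit 3) (nat_lit 5) (nat_lit 3) (nat_lit 4) (nat_lit 415)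 (nat_lit 227) (nat_lit 222)) (XT.lf (nat_lit 0) (nat_lit 50205880503) (nat_lit 84) (nat_lit 14268410357) (nat_lit 84) (nat_lit 13106544476) (nat_lit 2) (nat_lit 4) (nat_lit 3) (nat_lit 5) (nat_lit 3) (nat_lit 4) (nat_lit 416) (nat_lit 227) (nat_lit 221)))) (XT.nd (nat_lit 94) (nat_lit 0) (nat_lit 0) (XT.lf (nat_lit 0) (nat_lit 54665567622) (nat_lit 84) (nat_lit 13300170160) (nat_lit 84) (nat_lit 11964520479) (nat_lit 2) (nat_lit 4) (nat_lit 3) (nat_lit 5) (nat_lit 3) (nat_lit 4) (nat_lit 417) (nat_lit 227) (nat_lit 220)) (XT.nd (nat_lit 94) (nat_lit 0) (nat_lit 0) (XT.lf (nat_lit 0) (nat_lit 59209272923) (nat_lit 84) (nat_lit 12324243401) (nat_lit 84) (nat_lit 10820035233) (nat_lit 2) (nat_lit 4) (nat_lit 3) (nat_lit 5) (nat_lit 3) (nat_lit 4) (nat_lit 418) (nat_lit 227) (nat_lit 219)) (XT.lf (nat_lit 0) (nat_lit 63841231614) (nat_lit 84) (nat_lit 11339720413) (nat_lit 84) (nat_lit 9672021957)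 (nat_lit 2) (nat_lit 4) (nat_lit 3) (nat_lit 5) (nat_lit 3) (nat_lit 4) (nat_lit 419) (nat_lit 227) (nat_lit 218))))))))
noncomputable def xc1 : XT := (XT.nd (nat_lit 108100) (nat_lit 0) (nat_lit 0) (XT.nd (nat_lit 54144) (nat_lit 0) (nat_lit 0) (XT.nd (nat_lit 53580) (nat_lit 0) (nat_lit 0) (XT.nd (nat_lit 53298) (nat_lit 0) (nat_lit 0) (XT.nd (nat_lit 53110) (nat_lit 0) (nat_lit 0) (XT.lf (nat_lit 0) (nat_lit 68565761167) (nat_lit 84) (nat_lit 10345683519) (nat_lit 84) (nat_lit 8519410583) (nat_lit 2) (nat_lit 4) (nat_lit 3) (nat_lit 5) (nat_lit 3) (nat_lit 4) (nat_lit 420) (nat_lit 227) (nat_lit 217)) (XT.nd (nat_lit 94) (nat_lit 0) (nat_lit 0) (XT.lf (nat_lit 0) (nat_lit 8551493217) (nat_lit 84) (nat_lit 11022975462) (nat_lit 84) (nat_lit 11022975462) (nat_lit 2) (nat_lit 4) (nat_lit 3) (nat_lit 5) (nat_lit 3) (nat_lit 4) (nat_lit 408) (nat_lit 228) (nat_lit 228)) (XT.lf (nat_lit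 0) (nat_lit 21000305785) (nat_lit 84) (nat_lit 21121175131) (nat_lit 84) (nat_lit 20905986190) (nat_lit 2) (nat_lit 4) (nat_lit 3) (nat_lit 5) (nat_lit 3) (nat_lit 4) (nat_lit 409) (nat_lit 228) (nat_lit 227)))) (XT.nd (nat_lit 94) (nat_lit 0) (nat_lit 0) (XT.lf (nat_lit 0) (nat_lit 24951288755) (nat_lit 84) (nat_lit 20195380176) (nat_lit 84) (nat_lit 19771472573) (nat_lit 2) (nat_lit 4) (nat_lit 3) (nat_lit 5) (nat_lit 3) (nat_lit 4) (nat_lit 410) (nat_lit 228) (nat_lit 226)) (XT.nd (nat_lit 94) (nat_lit 0) (nat_lit 0) (XT.lf (nat_lit 0) (nat_lit 28959618074) (nat_lit 84) (nat_lit 19267703121) (nat_lit 84) (nat_lit 18641352588) (nat_lit 2) (nat_lit 4) (nat_lit 3) (nat_lit 5) (nat_lit 3) (nat_lit 4) (nat_lit 411) (nat_lit 228) (nat_lit 225)) (XT.lf (nat_lit 0) (nat_lit 33029029926) (nat_lit 84) (nat_lit 18337279274) (nat_lit 84) (nat_lit 17514572843) (nat_lit 2) (nat_lit 4) (nat_lit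 3) (nat_lit 5) (nat_lit 3) (nat_lit 4) (nat_lit 412) (nat_lit 228) (nat_lit 224))))) (XT.nd (nat_lit 282) (nat_lit 0) (nat_lit 0) (XT.nd (nat_lit 94) (nat_lit 0) (nat_lit 0) (XT.lf (nat_lit 0) (nat_lit 37163317428) (nat_lit 84) (nat_lit 17403241384) (nat_lit 84) (nat_lit 16390083063) (nat_lit 2) (nat_lit 4) (nat_lit 3) (nat_lit 5) (nat_lit 3) (nat_lit 4) (nat_lit 413) (nat_lit 228) (nat_lit 223)) (XT.nd (nat_lit 94) (nat_lit 0) (nat_lit 0) (XT.lf (nat_lit 0) (nat_lit 41366334169) (nat_lit 84) (nat_lit 16464718828) (nat_lit 84) (nat_lit 15266835105) (nat_lit 2) (nat_lit 4) (nat_lit 3) (nat_lit 5) (nat_lit 3) (nat_lit 4) (nat_lit 414) (nat_lit 228) (nat_lit 222)) (XT.lf (nat_lit 0) (nat_lit 45641997802) (nat_lit 84) (nat_lit 15520836805) (nat_lit 84) (nat_lit 14143781984) (nat_lit 2) (nat_lit 4) (nat_lit 3) (nat_lit 5) (nat_lit 3) (nat_lit 4) (nat_lit 415) (nat_lit 228) (nat_lit 221))))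 (XT.nd (nat_lit 94) (nat_lit 0) (nat_lit 0) (XT.lf (nat_lit 0) (nat_lit 49994293692) (nat_lit 84) (nat_lit 14570715518) (nat_lit 84) (nat_lit 13019876897) (nat_lit 2) (nat_lit 4) (nat_lit 3) (nat_lit 5) (nat_lit 3) (nat_lit 4) (nat_lit 416) (nat_lit 228) (nat_lit 220)) (XT.nd (nat_lit 94) (nat_lit 0) (nat_lit 0) (XT.lf (nat_lit 0) (nat_lit 54427278635) (nat_lit 84) (nat_lit 13613469356) (nat_lit 84) (nat_lit 11894072248) (nat_lit 2) (nat_lit 4) (nat_lit 3) (nat_lit 5) (nat_lit 3) (nat_lit 4) (nat_lit 417) (nat_lit 228) (nat_lit 219)) (XT.lf (nat_lit 0) (nat_lit 58945084638) (nat_lit 84) (nat_lit 12648206063) (nat_lit 84) (nat_lit 10765318667) (nat_lit 2) (nat_lit 4) (nat_lit 3) (nat_lit 5) (nat_lit 3) (nat_lit 4) (nat_lit 418) (nat_lit 228) (nat_lit 218)))))) (XT.nd (nat_lit 53392) (nat_lit 0) (nat_lit 0) (XT.nd (nat_lit 53110) (nat_lit 0) (nat_lit 0) (XT.nd (nat_lit 94) (nat_lit 0)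 (nat_lit 0) (XT.lf (nat_lit 0) (nat_lit 63551922769) (nat_lit 84) (nat_lit 11674025915) (nat_lit 84) (nat_lit 9632564039) (nat_lit 2) (nat_lit 4) (nat_lit 3) (nat_lit 5) (nat_lit 3) (nat_lit 4) (nat_lit 419) (nat_lit 228) (nat_lit 217)) (XT.nd (nat_lit 52922) (nat_lit 0) (nat_lit 0) (XT.lf (nat_lit 0) (nat_lit 68252087084) (nat_lit 84) (nat_lit 10690020871) (nat_lit 84) (nat_lit 8494752517) (nat_lit 2) (nat_lit 4) (nat_lit 3) (nat_lit 5) (nat_lit 3) (nat_lit 4) (nat_lit 420) (nat_lit 228) (nat_lit 216)) (XT.lf (nat_lit 0) (nat_lit 4745000141) (nat_lit 84) (nat_lit 12051641039) (nat_lit 84) (nat_lit 12051641039) (nat_lit 2) (nat_lit 4) (nat_lit 3) (nat_lit 5) (nat_lit 3) (nat_lit 4) (nat_lit 406) (nat_lit 229) (nat_lit 229)))) (XT.nd (nat_lit 94) (nat_lit 0) (nat_lit 0) (XT.lf (nat_lit 0) (nat_lit 13255697992) (nat_lit 84) (nat_lit 23192429342) (nat_lit 84) (nat_lit 22970569544) (nat_lit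 2) (nat_lit 4) (nat_lit 3) (nat_lit 5) (nat_lit 3) (nat_lit 4) (nat_lit 407) (nat_lit 229) (nat_lit 228)) (XT.nd (nat_lit 94) (nat_lit 0) (nat_lit 0) (XT.lf (nat_lit 0) (nat_lit 17068897299) (nat_lit 84) (nat_lit 22281846174) (nat_lit 84) (nat_lit 21844797436) (nat_lit 2) (nat_lit 4) (nat_lit 3) (nat_lit 5) (nat_lit 3) (nat_lit 4) (nat_lit 408) (nat_lit 229) (nat_lit 227)) (XT.lf (nat_lit 0) (nat_lit 20933152504) (nat_lit 84) (nat_lit 21370683816) (nat_lit 84) (nat_lit 20724916417) (nat_lit 2) (nat_lit 4) (nat_lit 3) (nat_lit 5) (nat_lit 3) (nat_lit 4) (nat_lit 409) (nat_lit 229) (nat_lit 226))))) (XT.nd (nat_lit 282) (nat_lit 0) (nat_lit 0) (XT.nd (nat_lit 94) (nat_lit 0) (nat_lit 0) (XT.lf (nat_lit 0) (nat_lit 24852065497) (nat_lit 84) (nat_lit 20458092969) (nat_lit 84) (nat_lit 19609882639) (nat_lit 2) (nat_lit 4) (nat_lit 3) (nat_lit 5) (nat_lit 3) (nat_lit 4) (nat_lit 410) (nat_lit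 229) (nat_lit 225)) (XT.nd (nat_lit 94) (nat_lit 0) (nat_lit 0) (XT.lf (nat_lit 0) (nat_lit 28829289117) (nat_lit 84) (nat_lit 19543223003) (nat_lit 84) (nat_lit 18498656774) (nat_lit 2) (nat_lit 4) (nat_lit 3) (nat_lit 5) (nat_lit 3) (nat_lit 4) (nat_lit 411) (nat_lit 229) (nat_lit 224)) (XT.lf (nat_lit 0) (nat_lit 32868530551) (nat_lit 84) (nat_lit 18625221163) (nat_lit 84) (nat_lit 17390203045) (nat_lit 2) (nat_lit 4) (nat_lit 3) (nat_lit 5) (nat_lit 3) (nat_lit 4) (nat_lit 412) (nat_lit 229) (nat_lit 223)))) (XT.nd (nat_lit 94) (nat_lit 0) (nat_lit 0) (XT.lf (nat_lit 0) (nat_lit 36973554797) (nat_lit 84) (nat_lit 17703231775) (nat_lit 84) (nat_lit 16283488255) (nat_lit 2) (nat_lit 4) (nat_lit 3) (nat_lit 5) (nat_lit 3) (nat_lit 4) (nat_lit 413) (nat_lit 229) (nat_lit 222)) (XT.nd (nat_lit 94) (nat_lit 0) (nat_lit 0) (XT.lf (nat_lit 0) (nat_lit 41148188167) (nat_lit 84) (nat_lit 16776395449)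 (nat_lit 84) (nat_lit 15177480831) (nat_lit 2) (nat_lit 4) (nat_lit 3) (nat_lit 5) (nat_lit 3) (nat_lit 4) (nat_lit 414) (nat_lit 229) (nat_lit 221)) (XT.lf (nat_lit 0) (nat_lit 45396321856) (nat_lit 84) (nat_lit 15843848276) (nat_lit 84) (nat_lit 14071149857) (nat_lit 2) (nat_lit 4) (nat_lit 3) (nat_lit 5) (nat_lit 3) (nat_lit 4) (nat_lit 415) (nat_lit 229) (nat_lit 220))))))) (XT.nd (nat_lit 53862) (nat_lit 0) (nat_lit 0) (XT.nd (nat_lit 53298) (nat_lit 0) (nat_lit 0) (XT.nd (nat_lit 282) (nat_lit 0) (nat_lit 0) (XT.nd (nat_lit 94) (nat_lit 0) (nat_lit 0) (XT.lf (nat_lit 0) (nat_lit 49721915570) (nat_lit 84) (nat_lit 14904721024) (nat_lit 84) (nat_lit 12963464118) (nat_lit 2) (nat_lit 4) (nat_lit 3) (nat_lit 5) (nat_lit 3) (nat_lit 4) (nat_lit 416) (nat_lit 229) (nat_lit 219)) (XT.nd (nat_lit 94) (nat_lit 0) (nat_lit 0) (XT.lf (nat_lit 0) (nat_lit 54129001216) (nat_lit 84) (nat_lit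 13958138328) (nat_lit 84) (nat_lit 11853391134) (nat_lit 2) (nat_lit 4) (nat_lit 3) (nat_lit 5) (nat_lit 3) (nat_lit 4) (nat_lit 417) (nat_lit 229) (nat_lit 218)) (XT.lf (nat_lit 0) (nat_lit 58621686658) (nat_lit 84) (nat_lit 13003217874) (nat_lit 84) (nat_lit 10739896201) (nat_lit 2) (nat_lit 4) (nat_lit 3) (nat_lit 5) (nat_lit 3) (nat_lit 4) (nat_lit 418) (nat_lit 229) (nat_lit 217)))) (XT.nd (nat_lit 52828) (nat_lit 0) (nat_lit 0) (XT.lf (nat_lit 0) (nat_lit 63204159552) (nat_lit 84) (nat_lit 12039069577) (nat_lit 84) (nat_lit 9621941425) (nat_lit 2) (nat_lit 4) (nat_lit 3) (nat_lit 5) (nat_lit 3) (nat_lit 4) (nat_lit 419) (nat_lit 229) (nat_lit 216)) (XT.nd (nat_lit 94) (nat_lit 0) (nat_lit 0) (XT.lf (nat_lit 0) (nat_lit 1061672989) (nat_lit 84) (nat_lit 13071505826) (nat_lit 84) (nat_lit 13071505826) (nat_lit 2) (nat_lit 4) (nat_lit 3) (nat_lit 5) (nat_lit 3) (nat_lit 4) (nat_lit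 404) (nat_lit 230) (nat_lit 230)) (XT.lf (nat_lit 0) (nat_lit 5768294144) (nat_lit 84) (nat_lit 25243990844) (nat_lit 84) (nat_lit 25015253393) (nat_lit 2) (nat_lit 4) (nat_lit 3) (nat_lit 5) (nat_lit 3) (nat_lit 4) (nat_lit 405) (nat_lit 230) (nat_lit 229))))) (XT.nd (nat_lit 282) (nat_lit 0) (nat_lit 0) (XT.nd (nat_lit 94) (nat_lit 0) (nat_lit 0) (XT.lf (nat_lit 0) (nat_lit 9454854385) (nat_lit 84) (nat_lit 24346490080) (nat_lit 84) (nat_lit 23895892832) (nat_lit 2) (nat_lit 4) (nat_lit 3) (nat_lit 5) (nat_lit 3) (nat_lit 4) (nat_lit 406) (nat_lit 230) (nat_lit 228)) (XT.nd (nat_lit 94) (nat_lit 0) (nat_lit 0) (XT.lf (nat_lit 0) (nat_lit 13186462960) (nat_lit 84) (nat_lit 23449672796) (nat_lit 84) (nat_lit 22783886607) (nat_lit 2) (nat_lit 4) (nat_lit 3) (nat_lit 5) (nat_lit 3) (nat_lit 4) (nat_lit 407) (nat_lit 230) (nat_lit 227)) (XT.lf (nat_lit 0) (nat_lit 16966598121) (nat_lit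 84) (nat_lit 22552703065) (nat_lit 84) (nat_lit 21678198214) (nat_lit 2) (nat_lit 4) (nat_lit 3) (nat_lit 5) (nat_lit 3) (nat_lit 4) (nat_lit 408) (nat_lit 230) (nat_lit 226)))) (XT.nd (nat_lit 94) (nat_lit 0) (nat_lit 0) (XT.lf (nat_lit 0) (nat_lit 20798783349) (nat_lit 84) (nat_lit 21654744815) (nat_lit 84) (nat_lit 20577797033) (nat_lit 2) (nat_lit 4) (nat_lit 3) (nat_lit 5) (nat_lit 3) (nat_lit 4) (nat_lit 409) (nat_lit 230) (nat_lit 225)) (XT.nd (nat_lit 94) (nat_lit 0) (nat_lit 0) (XT.lf (nat_lit 0) (nat_lit 24686590642) (nat_lit 84) (nat_lit 20754961057) (nat_lit 84) (nat_lit 19481657377) (nat_lit 2) (nat_lit 4) (nat_lit 3) (nat_lit 5) (nat_lit 3) (nat_lit 4) (nat_lit 410) (nat_lit 230) (nat_lit 224)) (XT.lf (nat_lit 0) (nat_lit 28633643845) (nat_lit 84) (nat_lit 19852513097) (nat_lit 84) (nat_lit 18388757528) (nat_lit 2) (nat_lit 4) (nat_lit 3) (nat_lit 5) (nat_lit 3) (nat_lit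 4) (nat_lit 411) (nat_lit 230) (nat_lit 223)))))) (XT.nd (nat_lit 564) (nat_lit 0) (nat_lit 0) (XT.nd (nat_lit 282) (nat_lit 0) (nat_lit 0) (XT.nd (nat_lit 94) (nat_lit 0) (nat_lit 0) (XT.lf (nat_lit 0) (nat_lit 32643622023) (nat_lit 84) (nat_lit 18946559760) (nat_lit 84) (nat_lit 17298078788) (nat_lit 2) (nat_lit 4) (nat_lit 3) (nat_lit 5) (nat_lit 3) (nat_lit 4) (nat_lit 412) (nat_lit 230) (nat_lit 222)) (XT.nd (nat_lit 94) (nat_lit 0) (nat_lit 0) (XT.lf (nat_lit 0) (nat_lit 36720262897) (nat_lit 84) (nat_lit 18036256602) (nat_lit 84) (nat_lit 16208604532) (nat_lit 2) (nat_lit 4) (nat_lit 3) (nat_lit 5) (nat_lit 3) (nat_lit 4) (nat_lit 413) (nat_lit 230) (nat_lit 221)) (XT.lf (nat_lit 0) (nat_lit 40867366324) (nat_lit 84) (nat_lit 17120755125) (nat_lit 84) (nat_lit 15119319255) (nat_lit 2) (nat_lit 4) (nat_lit 3) (nat_lit 5) (nat_lit 3) (nat_lit 4) (nat_lit 414) (nat_lit 230) (nat_lit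 220)))) (XT.nd (nat_lit 94) (nat_lit 0) (nat_lit 0) (XT.lf (nat_lit 0) (nat_lit 45088797837) (nat_lit 84) (nat_lit 16199201986) (nat_lit 84) (nat_lit 14029207629) (nat_lit 2) (nat_lit 4) (nat_lit 3) (nat_lit 5) (nat_lit 3) (nat_lit 4) (nat_lit 415) (nat_lit 230) (nat_lit 219)) (XT.nd (nat_lit 94) (nat_lit 0) (nat_lit 0) (XT.lf (nat_lit 0) (nat_lit 49388492253) (nat_lit 84) (nat_lit 15270738200) (nat_lit 84) (nat_lit 12937253555) (nat_lit 2) (nat_lit 4) (nat_lit 3) (nat_lit 5) (nat_lit 3) (nat_lit 4) (nat_lit 416) (nat_lit 230) (nat_lit 218)) (XT.lf (nat_lit 0) (nat_lit 53770457339) (nat_lit 84) (nat_lit 14334498343) (nat_lit 84) (nat_lit 11842439219) (nat_lit 2) (nat_lit 4) (nat_lit 3) (nat_lit 5) (nat_lit 3) (nat_lit 4) (nat_lit 417) (nat_lit 230) (nat_lit 217))))) (XT.nd (nat_lit 52922) (nat_lit 0) (nat_lit 0) (XT.nd (nat_lit 52734) (nat_lit 0) (nat_lit 84) (XT.lf (nat_lit 0) (nat_lit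 58238777543) (nat_lit 84) (nat_lit 13389609741) (nat_lit 84) (nat_lit 10743744138) (nat_lit 2) (nat_lit 4) (nat_lit 3) (nat_lit 5) (nat_lit 3) (nat_lit 4) (nat_lit 418) (nat_lit 230) (nat_lit 216)) (XT.nd (nat_lit 94) (nat_lit 0) (nat_lit 0) (XT.lf (nat_lit 0) (nat_lit 11600641405) (nat_lit 168) (nat_lit 2458404992) (nat_lit 0) (nat_lit 11600641405) (nat_lit 3) (nat_lit 5) (nat_lit 5) (nat_lit 4) (nat_lit 3) (nat_lit 4) (nat_lit 402) (nat_lit 231) (nat_lit 231)) (XT.lf (nat_lit 0) (nat_lit 25811546603) (nat_lit 168) (nat_lit 1453500630) (nat_lit 0) (nat_lit 25575718291) (nat_lit 3) (nat_lit 5) (nat_lit 5) (nat_lit 4) (nat_lit 3) (nat_lit 4) (nat_lit 403) (nat_lit 231) (nat_lit 230)))) (XT.nd (nat_lit 94) (nat_lit 0) (nat_lit 0) (XT.lf (nat_lit 0) (nat_lit 2087110559) (nat_lit 84) (nat_lit 26393759103) (nat_lit 84) (nat_lit 25929193340) (nat_lit 2) (nat_lit 4) (nat_lit 3) (nat_lit 5)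 (nat_lit 3) (nat_lit 4) (nat_lit 404) (nat_lit 231) (nat_lit 229)) (XT.nd (nat_lit 94) (nat_lit 0) (nat_lit 0) (XT.lf (nat_lit 0) (nat_lit 5696912826) (nat_lit 84) (nat_lit 25509208846) (nat_lit 84) (nat_lit 24822783285) (nat_lit 2) (nat_lit 4) (nat_lit 3) (nat_lit 5) (nat_lit 3) (nat_lit 4) (nat_lit 405) (nat_lit 231) (nat_lit 228)) (XT.lf (nat_lit 0) (nat_lit 9349383932) (nat_lit 84) (nat_lit 24625743534) (nat_lit 84) (nat_lit 23724129033) (nat_lit 2) (nat_lit 4) (nat_lit 3) (nat_lit 5) (nat_lit 3) (nat_lit 4) (nat_lit 406) (nat_lit 231) (nat_lit 227))))))))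
noncomputable def xc2 : XT := (XT.nd (nat_lit 54802) (nat_lit 0) (nat_lit 0) (XT.nd (nat_lit 53674) (nat_lit 0) (nat_lit 0) (XT.nd (nat_lit 564) (nat_lit 0) (nat_lit 0) (XT.nd (nat_lit 282) (nat_lit 0) (nat_lit 0) (XT.nd (nat_lit 94) (nat_lit 0) (nat_lit 0) (XT.lf (nat_lit 0) (nat_lit 13047928361) (nat_lit 84) (nat_lit 23742539686) (nat_lit 84) (nat_lit 22632206523) (nat_lit 2) (nat_lit 4) (nat_lit 3) (nat_lit 5) (nat_lit 3) (nat_lit 4) (nat_lit 407) (nat_lit 231) (nat_lit 226)) (XT.nd (nat_lit 94) (nat_lit 0) (nat_lit 0) (XT.lf (nat_lit 0) (nat_lit 16795993546) (nat_lit 84) (nat_lit 22858774063) (nat_lit 84) (nat_lit 21545997969) (nat_lit 2) (nat_lit 4) (nat_lit 3) (nat_lit 5) (nat_lit 3) (nat_lit 4) (nat_lit 408) (nat_lit 231) (nat_lit 225)) (XT.lf (nat_lit 0) (nat_lit 20597073074) (nat_lit 84) (nat_lit 21973622902) (nat_lit 84) (nat_lit 20464490910) (nat_lit 2) (nat_lit 4) (nat_lit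 3) (nat_lit 5) (nat_lit 3) (nat_lit 4) (nat_lit 409) (nat_lit 231) (nat_lit 224)))) (XT.nd (nat_lit 94) (nat_lit 0) (nat_lit 0) (XT.lf (nat_lit 0) (nat_lit 24454709950) (nat_lit 84) (nat_lit 21086261150) (nat_lit 84) (nat_lit 19386677268) (nat_lit 2) (nat_lit 4) (nat_lit 3) (nat_lit 5) (nat_lit 3) (nat_lit 4) (nat_lit 410) (nat_lit 231) (nat_lit 223)) (XT.nd (nat_lit 94) (nat_lit 0) (nat_lit 0) (XT.lf (nat_lit 0) (nat_lit 28372499896) (nat_lit 84) (nat_lit 20195861693) (nat_lit 84) (nat_lit 18311552409) (nat_lit 2) (nat_lit 4) (nat_lit 3) (nat_lit 5) (nat_lit 3) (nat_lit 4) (nat_lit 411) (nat_lit 231) (nat_lit 222)) (XT.lf (nat_lit 0) (nat_lit 32354094703) (nat_lit 84) (nat_lit 19301594586) (nat_lit 84) (nat_lit 17238114204) (nat_lit 2) (nat_lit 4) (nat_lit 3) (nat_lit 5) (nat_lit 3) (nat_lit 4) (nat_lit 412) (nat_lit 231) (nat_lit 221))))) (XT.nd (nat_lit 282) (nat_lit 0) (nat_lit 0)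 (XT.nd (nat_lit 94) (nat_lit 0) (nat_lit 0) (XT.lf (nat_lit 0) (nat_lit 36403205634) (nat_lit 84) (nat_lit 18402626277) (nat_lit 84) (nat_lit 16165362095) (nat_lit 2) (nat_lit 4) (nat_lit 3) (nat_lit 5) (nat_lit 3) (nat_lit 4) (nat_lit 413) (nat_lit 231) (nat_lit 220)) (XT.nd (nat_lit 94) (nat_lit 0) (nat_lit 0) (XT.lf (nat_lit 0) (nat_lit 40523606884) (nat_lit 84) (nat_lit 17498118834) (nat_lit 84) (nat_lit 15092296165) (nat_lit 2) (nat_lit 4) (nat_lit 3) (nat_lit 5) (nat_lit 3) (nat_lit 4) (nat_lit 414) (nat_lit 231) (nat_lit 219)) (XT.lf (nat_lit 0) (nat_lit 44719139100) (nat_lit 84) (nat_lit 16587229162) (nat_lit 84) (nat_lit 14017916204) (nat_lit 2) (nat_lit 4) (nat_lit 3) (nat_lit 5) (nat_lit 3) (nat_lit 4) (nat_lit 415) (nat_lit 231) (nat_lit 218)))) (XT.nd (nat_lit 94) (nat_lit 0) (nat_lit 0) (XT.lf (nat_lit 0) (nat_lit 48993712956) (nat_lit 84) (nat_lit 15669108215) (nat_lit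 84) (nat_lit 12941220779) (nat_lit 2) (nat_lit 4) (nat_lit 3) (nat_lit 5) (nat_lit 3) (nat_lit 4) (nat_lit 416) (nat_lit 231) (nat_lit 217)) (XT.nd (nat_lit 52640) (nat_lit 0) (nat_lit 84) (XT.lf (nat_lit 0) (nat_lit 53351312803) (nat_lit 84) (nat_lit 14742900210) (nat_lit 84) (nat_lit 11861206295) (nat_lit 2) (nat_lit 4) (nat_lit 3) (nat_lit 5) (nat_lit 3) (nat_lit 4) (nat_lit 417) (nat_lit 231) (nat_lit 216)) (XT.lf (nat_lit 0) (nat_lit 9175768220) (nat_lit 168) (nat_lit 5856408537) (nat_lit 0) (nat_lit 9175768220) (nat_lit 3) (nat_lit 5) (nat_lit 5) (nat_lit 4) (nat_lit 3) (nat_lit 4) (nat_lit 400) (nat_lit 232) (nat_lit 232)))))) (XT.nd (nat_lit 564) (nat_lit 0) (nat_lit 0) (XT.nd (nat_lit 282) (nat_lit 84) (nat_lit 0) (XT.nd (nat_lit 94) (nat_lit 0) (nat_lit 0) (XT.lf (nat_lit 0) (nat_lit 20870079841) (nat_lit 168) (nat_lit 8348096296) (nat_lit 0) (nat_lit 20626940851) (nat_lit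 3) (nat_lit 5) (nat_lit 5) (nat_lit 4) (nat_lit 3) (nat_lit 4) (nat_lit 401) (nat_lit 232) (nat_lit 231)) (XT.nd (nat_lit 94) (nat_lit 0) (nat_lit 0) (XT.lf (nat_lit 0) (nat_lit 23422815317) (nat_lit 168) (nat_lit 4953416008) (nat_lit 0) (nat_lit 22943848015) (nat_lit 3) (nat_lit 5) (nat_lit 5) (nat_lit 4) (nat_lit 3) (nat_lit 4) (nat_lit 402) (nat_lit 232) (nat_lit 230)) (XT.lf (nat_lit 0) (nat_lit 26012122287) (nat_lit 168) (nat_lit 1525612011) (nat_lit 0) (nat_lit 25304417534) (nat_lit 3) (nat_lit 5) (nat_lit 5) (nat_lit 4) (nat_lit 3) (nat_lit 4) (nat_lit 403) (nat_lit 232) (nat_lit 229)))) (XT.nd (nat_lit 94) (nat_lit 0) (nat_lit 0) (XT.lf (nat_lit 0) (nat_lit 1978370522) (nat_lit 84) (nat_lit 26681669414) (nat_lit 84) (nat_lit 25752104863) (nat_lit 2) (nat_lit 4) (nat_lit 3) (nat_lit 5) (nat_lit 3) (nat_lit 4) (nat_lit 404) (nat_lit 232) (nat_lit 228)) (XT.nd (nat_lit 94) (nat_lit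 0) (nat_lit 0) (XT.lf (nat_lit 0) (nat_lit 5554083655) (nat_lit 84) (nat_lit 25811154609) (nat_lit 84) (nat_lit 24666401118) (nat_lit 2) (nat_lit 4) (nat_lit 3) (nat_lit 5) (nat_lit 3) (nat_lit 4) (nat_lit 405) (nat_lit 232) (nat_lit 227)) (XT.lf (nat_lit 0) (nat_lit 9173490615) (nat_lit 84) (nat_lit 24941302733) (nat_lit 84) (nat_lit 23587830580) (nat_lit 2) (nat_lit 4) (nat_lit 3) (nat_lit 5) (nat_lit 3) (nat_lit 4) (nat_lit 406) (nat_lit 232) (nat_lit 226))))) (XT.nd (nat_lit 282) (nat_lit 0) (nat_lit 0) (XT.nd (nat_lit 94) (nat_lit 0) (nat_lit 0) (XT.lf (nat_lit 0) (nat_lit 12839965067) (nat_lit 84) (nat_lit 24071302994) (nat_lit 84) (nat_lit 22515387910) (nat_lit 2) (nat_lit 4) (nat_lit 3) (nat_lit 5) (nat_lit 3) (nat_lit 4) (nat_lit 407) (nat_lit 232) (nat_lit 225)) (XT.nd (nat_lit 94) (nat_lit 0) (nat_lit 0) (XT.lf (nat_lit 0) (nat_lit 16556924551) (nat_lit 84) (nat_lit 23200344459)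 (nat_lit 84) (nat_lit 21448073477) (nat_lit 2) (nat_lit 4) (nat_lit 3) (nat_lit 5) (nat_lit 3) (nat_lit 4) (nat_lit 408) (nat_lit 232) (nat_lit 224)) (XT.lf (nat_lit 0) (nat_lit 20327833662) (nat_lit 84) (nat_lit 22327615304) (nat_lit 84) (nat_lit 20384892433) (nat_lit 2) (nat_lit 4) (nat_lit 3) (nat_lit 5) (nat_lit 3) (nat_lit 4) (nat_lit 409) (nat_lit 232) (nat_lit 223)))) (XT.nd (nat_lit 94) (nat_lit 0) (nat_lit 0) (XT.lf (nat_lit 0) (nat_lit 24156207283) (nat_lit 84) (nat_lit 21452302055) (nat_lit 84) (nat_lit 19324853781) (nat_lit 2) (nat_lit 4) (nat_lit 3) (nat_lit 5) (nat_lit 3) (nat_lit 4) (nat_lit 410) (nat_lit 232) (nat_lit 222)) (XT.nd (nat_lit 94) (nat_lit 0) (nat_lit 0) (XT.lf (nat_lit 0) (nat_lit 28045613857) (nat_lit 84) (nat_lit 20573588828) (nat_lit 84) (nat_lit 18266969456) (nat_lit 2) (nat_lit 4) (nat_lit 3) (nat_lit 5) (nat_lit 3) (nat_lit 4) (nat_lit 411) (nat_lit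 232) (nat_lit 221)) (XT.lf (nat_lit 0) (nat_lit 31999678721) (nat_lit 84) (nat_lit 19690656570) (nat_lit 84) (nat_lit 17210253398) (nat_lit 2) (nat_lit 4) (nat_lit 3) (nat_lit 5) (nat_lit 3) (nat_lit 4) (nat_lit 412) (nat_lit 232) (nat_lit 220))))))) (XT.nd (nat_lit 53580) (nat_lit 0) (nat_lit 0) (XT.nd (nat_lit 53016) (nat_lit 0) (nat_lit 0) (XT.nd (nat_lit 282) (nat_lit 0) (nat_lit 0) (XT.nd (nat_lit 94) (nat_lit 0) (nat_lit 0) (XT.lf (nat_lit 0) (nat_lit 36022087476) (nat_lit 84) (nat_lit 18802682295) (nat_lit 84) (nat_lit 16153720636) (nat_lit 2) (nat_lit 4) (nat_lit 3) (nat_lit 5) (nat_lit 3) (nat_lit 4) (nat_lit 413) (nat_lit 232) (nat_lit 219)) (XT.nd (nat_lit 94) (nat_lit 0) (nat_lit 0) (XT.lf (nat_lit 0) (nat_lit 40116589428) (nat_lit 84) (nat_lit 17908838320) (nat_lit 84) (nat_lit 15096386372) (nat_lit 2) (nat_lit 4) (nat_lit 3) (nat_lit 5) (nat_lit 3) (nat_lit 4) (nat_lit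 414) (nat_lit 232) (nat_lit 218)) (XT.lf (nat_lit 0) (nat_lit 44287001083) (nat_lit 84) (nat_lit 17008291486) (nat_lit 84) (nat_lit 14037265059) (nat_lit 2) (nat_lit 4) (nat_lit 3) (nat_lit 5) (nat_lit 3) (nat_lit 4) (nat_lit 415) (nat_lit 232) (nat_lit 217)))) (XT.nd (nat_lit 52546) (nat_lit 0) (nat_lit 84) (XT.lf (nat_lit 0) (nat_lit 48537209701) (nat_lit 84) (nat_lit 16100202391) (nat_lit 84) (nat_lit 12975369486) (nat_lit 2) (nat_lit 4) (nat_lit 3) (nat_lit 5) (nat_lit 3) (nat_lit 4) (nat_lit 416) (nat_lit 232) (nat_lit 216)) (XT.nd (nat_lit 94) (nat_lit 0) (nat_lit 0) (XT.lf (nat_lit 0) (nat_lit 6840654259) (nat_lit 168) (nat_lit 9162994706) (nat_lit 0) (nat_lit 6840654259) (nat_lit 3) (nat_lit 5) (nat_lit 5) (nat_lit 4) (nat_lit 3) (nat_lit 4) (nat_lit 398) (nat_lit 233) (nat_lit 233)) (XT.lf (nat_lit 0) (nat_lit 16115513871) (nat_lit 168) (nat_lit 15050714616) (nat_lit 0) (nat_lit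 15864837572) (nat_lit 3) (nat_lit 5) (nat_lit 5) (nat_lit 4) (nat_lit 3) (nat_lit 4) (nat_lit 399) (nat_lit 233) (nat_lit 232))))) (XT.nd (nat_lit 282) (nat_lit 84) (nat_lit 0) (XT.nd (nat_lit 94) (nat_lit 0) (nat_lit 0) (XT.lf (nat_lit 0) (nat_lit 18579936455) (nat_lit 168) (nat_lit 11750557885) (nat_lit 0) (nat_lit 18086121166) (nat_lit 3) (nat_lit 5) (nat_lit 5) (nat_lit 4) (nat_lit 3) (nat_lit 4) (nat_lit 400) (nat_lit 233) (nat_lit 231)) (XT.nd (nat_lit 94) (nat_lit 0) (nat_lit 0) (XT.lf (nat_lit 0) (nat_lit 21076873371) (nat_lit 168) (nat_lit 8422443130) (nat_lit 0) (nat_lit 20347229770) (nat_lit 3) (nat_lit 5) (nat_lit 5) (nat_lit 4) (nat_lit 3) (nat_lit 4) (nat_lit 401) (nat_lit 233) (nat_lit 230)) (XT.lf (nat_lit 0) (nat_lit 23608652025) (nat_lit 168) (nat_lit 5063268199) (nat_lit 0) (nat_lit 22650270973) (nat_lit 3) (nat_lit 5) (nat_lit 5) (nat_lit 4) (nat_lit 3) (nat_lit 4)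 (nat_lit 402) (nat_lit 233) (nat_lit 229)))) (XT.nd (nat_lit 94) (nat_lit 84) (nat_lit 0) (XT.lf (nat_lit 0) (nat_lit 26177632300) (nat_lit 168) (nat_lit 1669901989) (nat_lit 0) (nat_lit 24997391450) (nat_lit 3) (nat_lit 5) (nat_lit 5) (nat_lit 4) (nat_lit 3) (nat_lit 4) (nat_lit 403) (nat_lit 233) (nat_lit 228)) (XT.nd (nat_lit 94) (nat_lit 0) (nat_lit 0) (XT.lf (nat_lit 0) (nat_lit 1797024512) (nat_lit 84) (nat_lit 27007010948) (nat_lit 84) (nat_lit 25611581159) (nat_lit 2) (nat_lit 4) (nat_lit 3) (nat_lit 5) (nat_lit 3) (nat_lit 4) (nat_lit 404) (nat_lit 233) (nat_lit 227)) (XT.lf (nat_lit 0) (nat_lit 5339673499) (nat_lit 84) (nat_lit 26150109579) (nat_lit 84) (nat_lit 24545961128) (nat_lit 2) (nat_lit 4) (nat_lit 3) (nat_lit 5) (nat_lit 3) (nat_lit 4) (nat_lit 405) (nat_lit 233) (nat_lit 226)))))) (XT.nd (nat_lit 564) (nat_lit 0) (nat_lit 0) (XT.nd (nat_lit 282) (nat_lit 0) (nat_lit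 0) (XT.nd (nat_lit 94) (nat_lit 0) (nat_lit 0) (XT.lf (nat_lit 0) (nat_lit 8927010482) (nat_lit 84) (nat_lit 25293461812) (nat_lit 84) (nat_lit 23486870429) (nat_lit 2) (nat_lit 4) (nat_lit 3) (nat_lit 5) (nat_lit 3) (nat_lit 4) (nat_lit 406) (nat_lit 233) (nat_lit 225)) (XT.nd (nat_lit 94) (nat_lit 0) (nat_lit 0) (XT.lf (nat_lit 0) (nat_lit 12562379235) (nat_lit 84) (nat_lit 24436269160) (nat_lit 84) (nat_lit 22433321880) (nat_lit 2) (nat_lit 4) (nat_lit 3) (nat_lit 5) (nat_lit 3) (nat_lit 4) (nat_lit 407) (nat_lit 233) (nat_lit 224)) (XT.lf (nat_lit 0) (nat_lit 16249168302) (nat_lit 84) (nat_lit 23577732632) (nat_lit 84) (nat_lit 21384333462) (nat_lit 2) (nat_lit 4) (nat_lit 3) (nat_lit 5) (nat_lit 3) (nat_lit 4) (nat_lit 408) (nat_lit 233) (nat_lit 223)))) (XT.nd (nat_lit 94) (nat_lit 0) (nat_lit 0) (XT.lf (nat_lit 0) (nat_lit 19990814156) (nat_lit 84) (nat_lit 22717051980) (nat_lit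 84) (nat_lit 20338927408) (nat_lit 2) (nat_lit 4) (nat_lit 3) (nat_lit 5) (nat_lit 3) (nat_lit 4) (nat_lit 409) (nat_lit 233) (nat_lit 222)) (XT.nd (nat_lit 94) (nat_lit 0) (nat_lit 0) (XT.lf (nat_lit 0) (nat_lit 23790804405) (nat_lit 84) (nat_lit 21853424961) (nat_lit 84) (nat_lit 19296129291) (nat_lit 2) (nat_lit 4) (nat_lit 3) (nat_lit 5) (nat_lit 3) (nat_lit 4) (nat_lit 410) (nat_lit 233) (nat_lit 221)) (XT.lf (nat_lit 0) (nat_lit 27652681036) (nat_lit 84) (nat_lit 20986046583) (nat_lit 84) (nat_lit 18254967113) (nat_lit 2) (nat_lit 4) (nat_lit 3) (nat_lit 5) (nat_lit 3) (nat_lit 4) (nat_lit 411) (nat_lit 233) (nat_lit 220))))) (XT.nd (nat_lit 282) (nat_lit 0) (nat_lit 0) (XT.nd (nat_lit 94) (nat_lit 0) (nat_lit 0) (XT.lf (nat_lit 0) (nat_lit 31580043724) (nat_lit 84) (nat_lit 20114108359) (nat_lit 84) (nat_lit 17214470402) (nat_lit 2) (nat_lit 4) (nat_lit 3) (nat_lit 5) (nat_lit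 3) (nat_lit 4) (nat_lit 412) (nat_lit 233) (nat_lit 219)) (XT.nd (nat_lit 94) (nat_lit 0) (nat_lit 0) (XT.lf (nat_lit 0) (nat_lit 35576553181) (nat_lit 84) (nat_lit 19236797552) (nat_lit 84) (nat_lit 16173669306) (nat_lit 2) (nat_lit 4) (nat_lit 3) (nat_lit 5) (nat_lit 3) (nat_lit 4) (nat_lit 413) (nat_lit 233) (nat_lit 218)) (XT.lf (nat_lit 0) (nat_lit 39645934573) (nat_lit 84) (nat_lit 18353296415) (nat_lit 84) (nat_lit 15131593689) (nat_lit 2) (nat_lit 4) (nat_lit 3) (nat_lit 5) (nat_lit 3) (nat_lit 4) (nat_lit 414) (nat_lit 233) (nat_lit 217)))) (XT.nd (nat_lit 94) (nat_lit 0) (nat_lit 0) (XT.lf (nat_lit 0) (nat_lit 43791980990) (nat_lit 84) (nat_lit 17462781433) (nat_lit 84) (nat_lit 14087272229) (nat_lit 2) (nat_lit 4) (nat_lit 3) (nat_lit 5) (nat_lit 3) (nat_lit 4) (nat_lit 415) (nat_lit 233) (nat_lit 216)) (XT.nd (nat_lit 52358) (nat_lit 0) (nat_lit 84) (XT.lf (nat_lit 0) (nat_lit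 48018556982) (nat_lit 84) (nat_lit 16564422553) (nat_lit 84) (nat_lit 13039731507) (nat_lit 2) (nat_lit 4) (nat_lit 3) (nat_lit 5) (nat_lit 3) (nat_lit 4) (nat_lit 416) (nat_lit 233) (nat_lit 215)) (XT.lf (nat_lit 0) (nat_lit 4588312952) (nat_lit 168) (nat_lit 12386983725) (nat_lit 0) (nat_lit 4588312952) (nat_lit 3) (nat_lit 5) (nat_lit 5) (nat_lit 4) (nat_lit 3) (nat_lit 4) (nat_lit 396) (nat_lit 234) (nat_lit 234))))))))
noncomputable def xc3 : XT := (XT.nd (nat_lit 54332) (nat_lit 0) (nat_lit 0) (XT.nd (nat_lit 1128) (nat_lit 0) (nat_lit 0) (XT.nd (nat_lit 564) (nat_lit 84) (nat_lit 0) (XT.nd (nat_lit 282) (nat_lit 0) (nat_lit 0) (XT.nd (nat_lit 94) (nat_lit 0) (nat_lit 0) (XT.lf (nat_lit 0) (nat_lit 11533498726) (nat_lit 168) (nat_lit 21579435177) (nat_lit 0) (nat_lit 11275051462) (nat_lit 3) (nat_lit 5) (nat_lit 5) (nat_lit 4) (nat_lit 3) (nat_lit 4) (nat_lit 397) (nat_lit 234)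 (nat_lit 233)) (XT.nd (nat_lit 94) (nat_lit 0) (nat_lit 0) (XT.lf (nat_lit 0) (nat_lit 13916788932) (nat_lit 168) (nat_lit 18364900189) (nat_lit 0) (nat_lit 13407665369) (nat_lit 3) (nat_lit 5) (nat_lit 5) (nat_lit 4) (nat_lit 3) (nat_lit 4) (nat_lit 398) (nat_lit 234) (nat_lit 232)) (XT.lf (nat_lit 0) (nat_lit 16328718000) (nat_lit 168) (nat_lit 15127366202) (nat_lit 0) (nat_lit 15576455448) (nat_lit 3) (nat_lit 5) (nat_lit 5) (nat_lit 4) (nat_lit 3) (nat_lit 4) (nat_lit 399) (nat_lit 234) (nat_lit 231)))) (XT.nd (nat_lit 94) (nat_lit 0) (nat_lit 0) (XT.lf (nat_lit 0) (nat_lit 18771534100) (nat_lit 168) (nat_lit 11863815495) (nat_lit 0) (nat_lit 17783443236) (nat_lit 3) (nat_lit 5) (nat_lit 5) (nat_lit 4) (nat_lit 3) (nat_lit 4) (nat_lit 400) (nat_lit 234) (nat_lit 230)) (XT.nd (nat_lit 94) (nat_lit 0) (nat_lit 0) (XT.lf (nat_lit 0) (nat_lit 21247514194) (nat_lit 168) (nat_lit 8571206097)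 (nat_lit 0) (nat_lit 20030685878) (nat_lit 3) (nat_lit 5) (nat_lit 5) (nat_lit 4) (nat_lit 3) (nat_lit 4) (nat_lit 401) (nat_lit 234) (nat_lit 229)) (XT.lf (nat_lit 0) (nat_lit 23758966153) (nat_lit 168) (nat_lit 5246468952) (nat_lit 0) (nat_lit 22320278040) (nat_lit 3) (nat_lit 5) (nat_lit 5) (nat_lit 4) (nat_lit 3) (nat_lit 4) (nat_lit 402) (nat_lit 234) (nat_lit 228))))) (XT.nd (nat_lit 282) (nat_lit 0) (nat_lit 0) (XT.nd (nat_lit 94) (nat_lit 84) (nat_lit 0) (XT.lf (nat_lit 0) (nat_lit 26308230914) (nat_lit 168) (nat_lit 1886505056) (nat_lit 0) (nat_lit 24654353861) (nat_lit 3) (nat_lit 5) (nat_lit 5) (nat_lit 4) (nat_lit 3) (nat_lit 4) (nat_lit 403) (nat_lit 234) (nat_lit 227)) (XT.nd (nat_lit 94) (nat_lit 0) (nat_lit 0) (XT.lf (nat_lit 0) (nat_lit 1542903495) (nat_lit 84) (nat_lit 27370086958) (nat_lit 84) (nat_lit 25507491243) (nat_lit 2) (nat_lit 4) (nat_lit 3) (nat_lit 5) (nat_lit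 3) (nat_lit 4) (nat_lit 404) (nat_lit 234) (nat_lit 226)) (XT.lf (nat_lit 0) (nat_lit 5053482505) (nat_lit 84) (nat_lit 26526389697) (nat_lit 84) (nat_lit 24461351051) (nat_lit 2) (nat_lit 4) (nat_lit 3) (nat_lit 5) (nat_lit 3) (nat_lit 4) (nat_lit 405) (nat_lit 234) (nat_lit 225)))) (XT.nd (nat_lit 94) (nat_lit 0) (nat_lit 0) (XT.lf (nat_lit 0) (nat_lit 8609713788) (nat_lit 84) (nat_lit 25682549018) (nat_lit 84) (nat_lit 23421154474) (nat_lit 2) (nat_lit 4) (nat_lit 3) (nat_lit 5) (nat_lit 3) (nat_lit 4) (nat_lit 406) (nat_lit 234) (nat_lit 224)) (XT.nd (nat_lit 94) (nat_lit 0) (nat_lit 0) (XT.lf (nat_lit 0) (nat_lit 12214912124) (nat_lit 84) (nat_lit 24837778374) (nat_lit 84) (nat_lit 22385931939) (nat_lit 2) (nat_lit 4) (nat_lit 3) (nat_lit 5) (nat_lit 3) (nat_lit 4) (nat_lit 407) (nat_lit 234) (nat_lit 223)) (XT.lf (nat_lit 0) (nat_lit 15872437935) (nat_lit 84) (nat_lit 23991290348)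 (nat_lit 84) (nat_lit 21354718512) (nat_lit 2) (nat_lit 4) (nat_lit 3) (nat_lit 5) (nat_lit 3) (nat_lit 4) (nat_lit 408) (nat_lit 234) (nat_lit 222)))))) (XT.nd (nat_lit 564) (nat_lit 0) (nat_lit 0) (XT.nd (nat_lit 282) (nat_lit 0) (nat_lit 0) (XT.nd (nat_lit 94) (nat_lit 0) (nat_lit 0) (XT.lf (nat_lit 0) (nat_lit 19585700418) (nat_lit 84) (nat_lit 23142295926) (nat_lit 84) (nat_lit 20326552992) (nat_lit 2) (nat_lit 4) (nat_lit 3) (nat_lit 5) (nat_lit 3) (nat_lit 4) (nat_lit 409) (nat_lit 234) (nat_lit 221)) (XT.nd (nat_lit 94) (nat_lit 0) (nat_lit 0) (XT.lf (nat_lit 0) (nat_lit 23358160723) (nat_lit 84) (nat_lit 22290003756) (nat_lit 84) (nat_lit 19300477022) (nat_lit 2) (nat_lit 4) (nat_lit 3) (nat_lit 5) (nat_lit 3) (nat_lit 4) (nat_lit 410) (nat_lit 234) (nat_lit 220)) (XT.lf (nat_lit 0) (nat_lit 27193335178) (nat_lit 84) (nat_lit 21433619413) (nat_lit 84) (nat_lit 18275534191) (nat_lit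 2) (nat_lit 4) (nat_lit 3) (nat_lit 5) (nat_lit 3) (nat_lit 4) (nat_lit 411) (nat_lit 234) (nat_lit 219)))) (XT.nd (nat_lit 94) (nat_lit 0) (nat_lit 0) (XT.lf (nat_lit 0) (nat_lit 31094798568) (nat_lit 84) (nat_lit 20572344656) (nat_lit 84) (nat_lit 17250769146) (nat_lit 2) (nat_lit 4) (nat_lit 3) (nat_lit 5) (nat_lit 3) (nat_lit 4) (nat_lit 412) (nat_lit 234) (nat_lit 218)) (XT.nd (nat_lit 94) (nat_lit 0) (nat_lit 0) (XT.lf (nat_lit 0) (nat_lit 35066187465) (nat_lit 84) (nat_lit 19705376687) (nat_lit 84) (nat_lit 16225226698) (nat_lit 2) (nat_lit 4) (nat_lit 3) (nat_lit 5) (nat_lit 3) (nat_lit 4) (nat_lit 413) (nat_lit 234) (nat_lit 217)) (XT.lf (nat_lit 0) (nat_lit 39111203619) (nat_lit 84) (nat_lit 18831907401) (nat_lit 84) (nat_lit 15197950933) (nat_lit 2) (nat_lit 4) (nat_lit 3) (nat_lit 5) (nat_lit 3) (nat_lit 4) (nat_lit 414) (nat_lit 234) (nat_lit 216))))) (XT.nd (nat_lit 52358)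 (nat_lit 0) (nat_lit 84) (XT.nd (nat_lit 94) (nat_lit 0) (nat_lit 0) (XT.lf (nat_lit 0) (nat_lit 43233617410) (nat_lit 84) (nat_lit 17951122634) (nat_lit 84) (nat_lit 14167984325) (nat_lit 2) (nat_lit 4) (nat_lit 3) (nat_lit 5) (nat_lit 3) (nat_lit 4) (nat_lit 415) (nat_lit 234) (nat_lit 215)) (XT.nd (nat_lit 52170) (nat_lit 0) (nat_lit 84) (XT.lf (nat_lit 0) (nat_lit 47437271358) (nat_lit 84) (nat_lit 17062201401) (nat_lit 84) (nat_lit 13134366835) (nat_lit 2) (nat_lit 4) (nat_lit 3) (nat_lit 5) (nat_lit 3) (nat_lit 4) (nat_lit 416) (nat_lit 234) (nat_lit 214)) (XT.lf (nat_lit 0) (nat_lit 2412119791) (nat_lit 168) (nat_lit 15536778949) (nat_lit 0) (nat_lit 2412119791) (nat_lit 3) (nat_lit 5) (nat_lit 5) (nat_lit 4) (nat_lit 3) (nat_lit 4) (nat_lit 394) (nat_lit 235) (nat_lit 235)))) (XT.nd (nat_lit 94) (nat_lit 0) (nat_lit 0) (XT.lf (nat_lit 0) (nat_lit 7110432748) (nat_lit 168) (nat_lit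 27951474646) (nat_lit 0) (nat_lit 6843973619) (nat_lit 3) (nat_lit 5) (nat_lit 5) (nat_lit 4) (nat_lit 3) (nat_lit 4) (nat_lit 395) (nat_lit 235) (nat_lit 234)) (XT.nd (nat_lit 94) (nat_lit 0) (nat_lit 0) (XT.lf (nat_lit 0) (nat_lit 9419406212) (nat_lit 168) (nat_lit 24814084460) (nat_lit 0) (nat_lit 8894499820) (nat_lit 3) (nat_lit 5) (nat_lit 5) (nat_lit 4) (nat_lit 3) (nat_lit 4) (nat_lit 396) (nat_lit 235) (nat_lit 233)) (XT.lf (nat_lit 0) (nat_lit 11753312183) (nat_lit 168) (nat_lit 21658462962) (nat_lit 0) (nat_lit 10977729492) (nat_lit 3) (nat_lit 5) (nat_lit 5) (nat_lit 4) (nat_lit 3) (nat_lit 4) (nat_lit 397) (nat_lit 235) (nat_lit 232))))))) (XT.nd (nat_lit 1128) (nat_lit 0) (nat_lit 0) (XT.nd (nat_lit 564) (nat_lit 84) (nat_lit 0) (XT.nd (nat_lit 282) (nat_lit 0) (nat_lit 0) (XT.nd (nat_lit 94) (nat_lit 0) (nat_lit 0) (XT.lf (nat_lit 0) (nat_lit 14114326104) (nat_lit 168)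 (nat_lit 18481668784) (nat_lit 0) (nat_lit 13095604423) (nat_lit 3) (nat_lit 5) (nat_lit 5) (nat_lit 4) (nat_lit 3) (nat_lit 4) (nat_lit 398) (nat_lit 235) (nat_lit 231)) (XT.nd (nat_lit 94) (nat_lit 0) (nat_lit 0) (XT.lf (nat_lit 0) (nat_lit 16504648689) (nat_lit 168) (nat_lit 15280740821) (nat_lit 0) (nat_lit 15250098695) (nat_lit 3) (nat_lit 5) (nat_lit 5) (nat_lit 4) (nat_lit 3) (nat_lit 4) (nat_lit 399) (nat_lit 235) (nat_lit 230)) (XT.lf (nat_lit 0) (nat_lit 18926507967) (nat_lit 168) (nat_lit 12052695471) (nat_lit 0) (nat_lit 17443220522) (nat_lit 3) (nat_lit 5) (nat_lit 5) (nat_lit 4) (nat_lit 3) (nat_lit 4) (nat_lit 400) (nat_lit 235) (nat_lit 229)))) (XT.nd (nat_lit 94) (nat_lit 0) (nat_lit 0) (XT.lf (nat_lit 0) (nat_lit 21382161365) (nat_lit 168) (nat_lit 8794523860) (nat_lit 0) (nat_lit 19677014123) (nat_lit 3) (nat_lit 5) (nat_lit 5) (nat_lit 4) (nat_lit 3) (nat_lit 4) (nat_lit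 401) (nat_lit 235) (nat_lit 228)) (XT.nd (nat_lit 94) (nat_lit 0) (nat_lit 0) (XT.lf (nat_lit 0) (nat_lit 23873897811) (nat_lit 168) (nat_lit 5503189030) (nat_lit 0) (nat_lit 21953561628) (nat_lit 3) (nat_lit 5) (nat_lit 5) (nat_lit 4) (nat_lit 3) (nat_lit 4) (nat_lit 402) (nat_lit 235) (nat_lit 227)) (XT.lf (nat_lit 0) (nat_lit 26404039862) (nat_lit 168) (nat_lit 2175623111) (nat_lit 0) (nat_lit 24274985018) (nat_lit 3) (nat_lit 5) (nat_lit 5) (nat_lit 4) (nat_lit 3) (nat_lit 4) (nat_lit 403) (nat_lit 235) (nat_lit 226))))) (XT.nd (nat_lit 282) (nat_lit 0) (nat_lit 0) (XT.nd (nat_lit 94) (nat_lit 0) (nat_lit 0) (XT.lf (nat_lit 0) (nat_lit 1215770603) (nat_lit 84) (nat_lit 27771235868) (nat_lit 84) (nat_lit 25439738093) (nat_lit 2) (nat_lit 4) (nat_lit 3) (nat_lit 5) (nat_lit 3) (nat_lit 4) (nat_lit 404) (nat_lit 235) (nat_lit 225)) (XT.nd (nat_lit 94) (nat_lit 0) (nat_lit 0) (XT.lf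 (nat_lit 0) (nat_lit 4695243914) (nat_lit 84) (nat_lit 26940345696) (nat_lit 84) (nat_lit 24412492023) (nat_lit 2) (nat_lit 4) (nat_lit 3) (nat_lit 5) (nat_lit 3) (nat_lit 4) (nat_lit 405) (nat_lit 235) (nat_lit 224)) (XT.lf (nat_lit 0) (nat_lit 8221304780) (nat_lit 84) (nat_lit 26108927024) (nat_lit 84) (nat_lit 23390621460) (nat_lit 2) (nat_lit 4) (nat_lit 3) (nat_lit 5) (nat_lit 3) (nat_lit 4) (nat_lit 406) (nat_lit 235) (nat_lit 223)))) (XT.nd (nat_lit 94) (nat_lit 0) (nat_lit 0) (XT.lf (nat_lit 0) (nat_lit 11797239859) (nat_lit 84) (nat_lit 25276204881) (nat_lit 84) (nat_lit 22373173916) (nat_lit 2) (nat_lit 4) (nat_lit 3) (nat_lit 5) (nat_lit 3) (nat_lit 4) (nat_lit 407) (nat_lit 235) (nat_lit 222)) (XT.nd (nat_lit 94) (nat_lit 0) (nat_lit 0) (XT.lf (nat_lit 0) (nat_lit 15426382298) (nat_lit 84) (nat_lit 24441403086) (nat_lit 84) (nat_lit 21359201022) (nat_lit 2) (nat_lit 4) (nat_lit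 3) (nat_lit 5) (nat_lit 3) (nat_lit 4) (nat_lit 408) (nat_lit 235) (nat_lit 221)) (XT.lf (nat_lit 0) (nat_lit 19112114838) (nat_lit 84) (nat_lit 23603743513) (nat_lit 84) (nat_lit 20347757650) (nat_lit 2) (nat_lit 4) (nat_lit 3) (nat_lit 5) (nat_lit 3) (nat_lit 4) (nat_lit 409) (nat_lit 235) (nat_lit 220)))))) (XT.nd (nat_lit 564) (nat_lit 0) (nat_lit 0) (XT.nd (nat_lit 282) (nat_lit 0) (nat_lit 0) (XT.nd (nat_lit 94) (nat_lit 0) (nat_lit 0) (XT.lf (nat_lit 0) (nat_lit 22857872968) (nat_lit 84) (nat_lit 22762445377) (nat_lit 84) (nat_lit 19337901027) (nat_lit 2) (nat_lit 4) (nat_lit 3) (nat_lit 5) (nat_lit 3) (nat_lit 4) (nat_lit 410) (nat_lit 235) (nat_lit 219)) (XT.nd (nat_lit 94) (nat_lit 0) (nat_lit 0) (XT.lf (nat_lit 0) (nat_lit 26667148125) (nat_lit 84) (nat_lit 21916724501) (nat_lit 84) (nat_lit 18328689862) (nat_lit 2) (nat_lit 4) (nat_lit 3) (nat_lit 5) (nat_lit 3) (nat_lit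 4) (nat_lit 411) (nat_lit 235) (nat_lit 218)) (XT.lf (nat_lit 0) (nat_lit 30543490955) (nat_lit 84) (nat_lit 21065792583) (nat_lit 84) (nat_lit 17319183464) (nat_lit 2) (nat_lit 4) (nat_lit 3) (nat_lit 5) (nat_lit 3) (nat_lit 4) (nat_lit 412) (nat_lit 235) (nat_lit 217)))) (XT.nd (nat_lit 94) (nat_lit 0) (nat_lit 0) (XT.lf (nat_lit 0) (nat_lit 34490514613) (nat_lit 84) (nat_lit 20208856465) (nat_lit 84) (nat_lit 16308440868) (nat_lit 2) (nat_lit 4) (nat_lit 3) (nat_lit 5) (nat_lit 3) (nat_lit 4) (nat_lit 413) (nat_lit 235) (nat_lit 216)) (XT.nd (nat_lit 94) (nat_lit 0) (nat_lit 0) (XT.lf (nat_lit 0) (nat_lit 38511898141) (nat_lit 84) (nat_lit 19345117394) (nat_lit 84) (nat_lit 15295519956) (nat_lit 2) (nat_lit 4) (nat_lit 3) (nat_lit 5) (nat_lit 3) (nat_lit 4) (nat_lit 414) (nat_lit 235) (nat_lit 215)) (XT.lf (nat_lit 0) (nat_lit 42611389889) (nat_lit 84) (nat_lit 18473770275) (nat_lit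 84) (nat_lit 14279476579) (nat_lit 2) (nat_lit 4) (nat_lit 3) (nat_lit 5) (nat_lit 3) (nat_lit 4) (nat_lit 415) (nat_lit 235) (nat_lit 214))))) (XT.nd (nat_lit 52170) (nat_lit 0) (nat_lit 84) (XT.nd (nat_lit 51982) (nat_lit 0) (nat_lit 84) (XT.lf (nat_lit 0) (nat_lit 46792811012) (nat_lit 84) (nat_lit 17594002920) (nat_lit 84) (nat_lit 13259363679) (nat_lit 2) (nat_lit 4) (nat_lit 3) (nat_lit 5) (nat_lit 3) (nat_lit 4) (nat_lit 416) (nat_lit 235) (nat_lit 213)) (XT.nd (nat_lit 94) (nat_lit 0) (nat_lit 0) (XT.lf (nat_lit 0) (nat_lit 305789272) (nat_lit 168) (nat_lit 18620394831) (nat_lit 0) (nat_lit 305789272) (nat_lit 3) (nat_lit 5) (nat_lit 5) (nat_lit 4) (nat_lit 3) (nat_lit 4) (nat_lit 392) (nat_lit 236) (nat_lit 236)) (XT.lf (nat_lit 0) (nat_lit 2833415110) (nat_lit 168) (nat_lit 34183244325) (nat_lit 0) (nat_lit 2558695748) (nat_lit 3) (nat_lit 5) (nat_lit 5) (nat_lit 4) (nat_lit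 3) (nat_lit 4) (nat_lit 393) (nat_lit 236) (nat_lit 235)))) (XT.nd (nat_lit 94) (nat_lit 0) (nat_lit 0) (XT.lf (nat_lit 0) (nat_lit 5074546080) (nat_lit 168) (nat_lit 31114918535) (nat_lit 0) (nat_lit 4533367589) (nat_lit 3) (nat_lit 5) (nat_lit 5) (nat_lit 4) (nat_lit 3) (nat_lit 4) (nat_lit 394) (nat_lit 236) (nat_lit 234)) (XT.nd (nat_lit 94) (nat_lit 0) (nat_lit 0) (XT.lf (nat_lit 0) (nat_lit 7337060422) (nat_lit 168) (nat_lit 28032952293) (nat_lit 0) (nat_lit 6537434667) (nat_lit 3) (nat_lit 5) (nat_lit 5) (nat_lit 4) (nat_lit 3) (nat_lit 4) (nat_lit 395) (nat_lit 236) (nat_lit 233)) (XT.lf (nat_lit 0) (nat_lit 9623067037) (nat_lit 168) (nat_lit 24934472881) (nat_lit 0) (nat_lit 8572764984) (nat_lit 3) (nat_lit 5) (nat_lit 5) (nat_lit 4) (nat_lit 3) (nat_lit 4) (nat_lit 396) (nat_lit 236) (nat_lit 232))))))))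
noncomputable def xc4 : XT := (XT.nd (nat_lit 53956) (nat_lit 0) (nat_lit 0) (XT.nd (nat_lit 1128) (nat_lit 0) (nat_lit 0) (XT.nd (nat_lit 564) (nat_lit 84) (nat_lit 0) (XT.nd (nat_lit 282) (nat_lit 0) (nat_lit 0) (XT.nd (nat_lit 94) (nat_lit 0) (nat_lit 0) (XT.lf (nat_lit 0) (nat_lit 11934696723) (nat_lit 168) (nat_lit 21816592194) (nat_lit 0) (nat_lit 10641255680) (nat_lit 3) (nat_lit 5) (nat_lit 5) (nat_lit 4) (nat_lit 3) (nat_lit 4) (nat_lit 397) (nat_lit 236) (nat_lit 231)) (XT.nd (nat_lit 94) (nat_lit 0) (nat_lit 0) (XT.lf (nat_lit 0) (nat_lit 14274104161) (nat_lit 168) (nat_lit 18676404040) (nat_lit 0) (nat_lit 12744834805) (nat_lit 3) (nat_lit 5) (nat_lit 5) (nat_lit 4) (nat_lit 3) (nat_lit 4) (nat_lit 398) (nat_lit 236) (nat_lit 230)) (XT.lf (nat_lit 0) (nat_lit 16643469923) (nat_lit 168) (nat_lit 15510981434) (nat_lit 0) (nat_lit 14885463116) (nat_lit 3) (nat_lit 5) (nat_lit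 5) (nat_lit 4) (nat_lit 3) (nat_lit 4) (nat_lit 399) (nat_lit 236) (nat_lit 229)))) (XT.nd (nat_lit 94) (nat_lit 0) (nat_lit 0) (XT.lf (nat_lit 0) (nat_lit 19045002506) (nat_lit 168) (nat_lit 12317373871) (nat_lit 0) (nat_lit 17065135902) (nat_lit 3) (nat_lit 5) (nat_lit 5) (nat_lit 4) (nat_lit 3) (nat_lit 4) (nat_lit 400) (nat_lit 236) (nat_lit 228)) (XT.nd (nat_lit 94) (nat_lit 0) (nat_lit 0) (XT.lf (nat_lit 0) (nat_lit 21480940391) (nat_lit 168) (nat_lit 9092604574) (nat_lit 0) (nat_lit 19285884846) (nat_lit 3) (nat_lit 5) (nat_lit 5) (nat_lit 4) (nat_lit 3) (nat_lit 4) (nat_lit 401) (nat_lit 236) (nat_lit 227)) (XT.lf (nat_lit 0) (nat_lit 23953554126) (nat_lit 168) (nat_lit 5833667721) (nat_lit 0) (nat_lit 21549779920) (nat_lit 3) (nat_lit 5) (nat_lit 5) (nat_lit 4) (nat_lit 3) (nat_lit 4) (nat_lit 402) (nat_lit 236) (nat_lit 226))))) (XT.nd (nat_lit 282) (nat_lit 0) (nat_lit 0)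 (XT.nd (nat_lit 94) (nat_lit 84) (nat_lit 0) (XT.lf (nat_lit 0) (nat_lit 26465148448) (nat_lit 168) (nat_lit 2537525640) (nat_lit 0) (nat_lit 23858931310) (nat_lit 3) (nat_lit 5) (nat_lit 5) (nat_lit 4) (nat_lit 3) (nat_lit 4) (nat_lit 403) (nat_lit 236) (nat_lit 225)) (XT.nd (nat_lit 94) (nat_lit 0) (nat_lit 0) (XT.lf (nat_lit 0) (nat_lit 815320916) (nat_lit 84) (nat_lit 28210831591) (nat_lit 84) (nat_lit 25408258556) (nat_lit 2) (nat_lit 4) (nat_lit 3) (nat_lit 5) (nat_lit 3) (nat_lit 4) (nat_lit 404) (nat_lit 236) (nat_lit 224)) (XT.lf (nat_lit 0) (nat_lit 4264623809) (nat_lit 84) (nat_lit 27392363426) (nat_lit 84) (nat_lit 24399338501) (nat_lit 2) (nat_lit 4) (nat_lit 3) (nat_lit 5) (nat_lit 3) (nat_lit 4) (nat_lit 405) (nat_lit 236) (nat_lit 223)))) (XT.nd (nat_lit 94) (nat_lit 0) (nat_lit 0) (XT.lf (nat_lit 0) (nat_lit 7761421419) (nat_lit 84) (nat_lit 26572993256) (nat_lit 84)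 (nat_lit 23395242929) (nat_lit 2) (nat_lit 4) (nat_lit 3) (nat_lit 5) (nat_lit 3) (nat_lit 4) (nat_lit 406) (nat_lit 236) (nat_lit 222)) (XT.nd (nat_lit 94) (nat_lit 0) (nat_lit 0) (XT.lf (nat_lit 0) (nat_lit 11308973127) (nat_lit 84) (nat_lit 25751957344) (nat_lit 84) (nat_lit 22395035918) (nat_lit 2) (nat_lit 4) (nat_lit 3) (nat_lit 5) (nat_lit 3) (nat_lit 4) (nat_lit 407) (nat_lit 236) (nat_lit 221)) (XT.lf (nat_lit 0) (nat_lit 14910585623) (nat_lit 84) (nat_lit 24928490397) (nat_lit 84) (nat_lit 21397785172) (nat_lit 2) (nat_lit 4) (nat_lit 3) (nat_lit 5) (nat_lit 3) (nat_lit 4) (nat_lit 408) (nat_lit 236) (nat_lit 220)))))) (XT.nd (nat_lit 564) (nat_lit 0) (nat_lit 0) (XT.nd (nat_lit 282) (nat_lit 0) (nat_lit 0) (XT.nd (nat_lit 94) (nat_lit 0) (nat_lit 0) (XT.lf (nat_lit 0) (nat_lit 18569615987) (nat_lit 84) (nat_lit 24101824859) (nat_lit 84) (nat_lit 20402561146) (nat_lit 2) (nat_lit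 4) (nat_lit 3) (nat_lit 5) (nat_lit 3) (nat_lit 4) (nat_lit 409) (nat_lit 236) (nat_lit 219)) (XT.nd (nat_lit 94) (nat_lit 0) (nat_lit 0) (XT.lf (nat_lit 0) (nat_lit 22289474818) (nat_lit 84) (nat_lit 23271190190) (nat_lit 84) (nat_lit 19408436189) (nat_lit 2) (nat_lit 4) (nat_lit 3) (nat_lit 5) (nat_lit 3) (nat_lit 4) (nat_lit 410) (nat_lit 236) (nat_lit 218)) (XT.lf (nat_lit 0) (nat_lit 26073629415) (nat_lit 84) (nat_lit 22435812152) (nat_lit 84) (nat_lit 18414483672) (nat_lit 2) (nat_lit 4) (nat_lit 3) (nat_lit 5) (nat_lit 3) (nat_lit 4) (nat_lit 411) (nat_lit 236) (nat_lit 217)))) (XT.nd (nat_lit 94) (nat_lit 0) (nat_lit 0) (XT.lf (nat_lit 0) (nat_lit 29925607007) (nat_lit 84) (nat_lit 21594912086) (nat_lit 84) (nat_lit 17419777127) (nat_lit 2) (nat_lit 4) (nat_lit 3) (nat_lit 5) (nat_lit 3) (nat_lit 4) (nat_lit 412) (nat_lit 236) (nat_lit 216)) (XT.nd (nat_lit 94) (nat_lit 0) (nat_lit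 0) (XT.lf (nat_lit 0) (nat_lit 33848998039) (nat_lit 84) (nat_lit 20747706183) (nat_lit 84) (nat_lit 16423389383) (nat_lit 2) (nat_lit 4) (nat_lit 3) (nat_lit 5) (nat_lit 3) (nat_lit 4) (nat_lit 413) (nat_lit 236) (nat_lit 215)) (XT.lf (nat_lit 0) (nat_lit 37847459524) (nat_lit 84) (nat_lit 19893404760) (nat_lit 84) (nat_lit 15424391702) (nat_lit 2) (nat_lit 4) (nat_lit 3) (nat_lit 5) (nat_lit 3) (nat_lit 4) (nat_lit 414) (nat_lit 236) (nat_lit 214))))) (XT.nd (nat_lit 51982) (nat_lit 0) (nat_lit 84) (XT.nd (nat_lit 94) (nat_lit 0) (nat_lit 0) (XT.lf (nat_lit 0) (nat_lit 41924718446) (nat_lit 84) (nat_lit 19031211518) (nat_lit 84) (nat_lit 14421852915) (nat_lit 2) (nat_lit 4) (nat_lit 3) (nat_lit 5) (nat_lit 3) (nat_lit 4) (nat_lit 415) (nat_lit 236) (nat_lit 213)) (XT.nd (nat_lit 51794) (nat_lit 0) (nat_lit 252) (XT.lf (nat_lit 0) (nat_lit 46084575237) (nat_lit 84) (nat_lit 18160322803)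 (nat_lit 84) (nat_lit 13414838549) (nat_lit 2) (nat_lit 4) (nat_lit 3) (nat_lit 5) (nat_lit 3) (nat_lit 4) (nat_lit 416) (nat_lit 236) (nat_lit 212)) (XT.lf (nat_lit 0) (nat_lit 14731912570) (nat_lit 84) (nat_lit 1719064847) (nat_lit 84) (nat_lit 1719064847) (nat_lit 5) (nat_lit 4) (nat_lit 6) (nat_lit 5) (nat_lit 6) (nat_lit 4) (nat_lit 390) (nat_lit 237) (nat_lit 237)))) (XT.nd (nat_lit 94) (nat_lit 168) (nat_lit 0) (XT.lf (nat_lit 0) (nat_lit 34512331301) (nat_lit 84) (nat_lit 1582730463) (nat_lit 84) (nat_lit 1290714495) (nat_lit 5) (nat_lit 4) (nat_lit 6) (nat_lit 5) (nat_lit 6) (nat_lit 4) (nat_lit 391) (nat_lit 237) (nat_lit 236)) (XT.nd (nat_lit 94) (nat_lit 0) (nat_lit 0) (XT.lf (nat_lit 0) (nat_lit 869644542) (nat_lit 168) (nat_lit 37283432479) (nat_lit 0) (nat_lit 311689518) (nat_lit 3) (nat_lit 5) (nat_lit 5) (nat_lit 4) (nat_lit 3) (nat_lit 4) (nat_lit 392) (nat_lit 237)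 (nat_lit 235)) (XT.lf (nat_lit 0) (nat_lit 3067068243) (nat_lit 168) (nat_lit 34267247778) (nat_lit 0) (nat_lit 2242654089) (nat_lit 3) (nat_lit 5) (nat_lit 5) (nat_lit 4) (nat_lit 3) (nat_lit 4) (nat_lit 393) (nat_lit 237) (nat_lit 234))))))) (XT.nd (nat_lit 1128) (nat_lit 0) (nat_lit 0) (XT.nd (nat_lit 564) (nat_lit 84) (nat_lit 0) (XT.nd (nat_lit 282) (nat_lit 0) (nat_lit 0) (XT.nd (nat_lit 94) (nat_lit 0) (nat_lit 0) (XT.lf (nat_lit 0) (nat_lit 5284520390) (nat_lit 168) (nat_lit 31239038998) (nat_lit 0) (nat_lit 4201658973) (nat_lit 3) (nat_lit 5) (nat_lit 5) (nat_lit 4) (nat_lit 3) (nat_lit 4) (nat_lit 394) (nat_lit 237) (nat_lit 233)) (XT.nd (nat_lit 94) (nat_lit 0) (nat_lit 0) (XT.lf (nat_lit 0) (nat_lit 7524067883) (nat_lit 168) (nat_lit 28195983531) (nat_lit 0) (nat_lit 6190530167) (nat_lit 3) (nat_lit 5) (nat_lit 5) (nat_lit 4) (nat_lit 3) (nat_lit 4) (nat_lit 395) (nat_lit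 237) (nat_lit 232)) (XT.lf (nat_lit 0) (nat_lit 9787798213) (nat_lit 168) (nat_lit 25135244930) (nat_lit 0) (nat_lit 8211121508) (nat_lit 3) (nat_lit 5) (nat_lit 5) (nat_lit 4) (nat_lit 3) (nat_lit 4) (nat_lit 396) (nat_lit 237) (nat_lit 231)))) (XT.nd (nat_lit 94) (nat_lit 0) (nat_lit 0) (XT.lf (nat_lit 0) (nat_lit 12077821415) (nat_lit 168) (nat_lit 22053970267) (nat_lit 0) (nat_lit 10265316398) (nat_lit 3) (nat_lit 5) (nat_lit 5) (nat_lit 4) (nat_lit 3) (nat_lit 4) (nat_lit 397) (nat_lit 237) (nat_lit 230)) (XT.nd (nat_lit 94) (nat_lit 0) (nat_lit 0) (XT.lf (nat_lit 0) (nat_lit 14396272031) (nat_lit 168) (nat_lit 18949287470) (nat_lit 0) (nat_lit 12355029562) (nat_lit 3) (nat_lit 5) (nat_lit 5) (nat_lit 4) (nat_lit 3) (nat_lit 4) (nat_lit 398) (nat_lit 237) (nat_lit 229)) (XT.lf (nat_lit 0) (nat_lit 16745311098) (nat_lit 168) (nat_lit 15818302650) (nat_lit 0) (nat_lit 14482208831)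 (nat_lit 3) (nat_lit 5) (nat_lit 5) (nat_lit 4) (nat_lit 3) (nat_lit 4) (nat_lit 399) (nat_lit 237) (nat_lit 228))))) (XT.nd (nat_lit 282) (nat_lit 84) (nat_lit 0) (XT.nd (nat_lit 94) (nat_lit 0) (nat_lit 0) (XT.lf (nat_lit 0) (nat_lit 19127128167) (nat_lit 168) (nat_lit 12658097402) (nat_lit 0) (nat_lit 16648836960) (nat_lit 3) (nat_lit 5) (nat_lit 5) (nat_lit 4) (nat_lit 3) (nat_lit 4) (nat_lit 400) (nat_lit 237) (nat_lit 227)) (XT.nd (nat_lit 94) (nat_lit 0) (nat_lit 0) (XT.lf (nat_lit 0) (nat_lit 21543943342) (nat_lit 168) (nat_lit 9465726082) (nat_lit 0) (nat_lit 18856933473) (nat_lit 3) (nat_lit 5) (nat_lit 5) (nat_lit 4) (nat_lit 3) (nat_lit 4) (nat_lit 401) (nat_lit 237) (nat_lit 226)) (XT.lf (nat_lit 0) (nat_lit 23998009347) (nat_lit 168) (nat_lit 6238213067) (nat_lit 0) (nat_lit 21108556548) (nat_lit 3) (nat_lit 5) (nat_lit 5) (nat_lit 4) (nat_lit 3) (nat_lit 4) (nat_lit 402)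 (nat_lit 237) (nat_lit 225)))) (XT.nd (nat_lit 94) (nat_lit 84) (nat_lit 0) (XT.lf (nat_lit 0) (nat_lit 26491613630) (nat_lit 168) (nat_lit 2972549975) (nat_lit 0) (nat_lit 23405804932) (nat_lit 3) (nat_lit 5) (nat_lit 5) (nat_lit 4) (nat_lit 3) (nat_lit 4) (nat_lit 403) (nat_lit 237) (nat_lit 224)) (XT.nd (nat_lit 94) (nat_lit 0) (nat_lit 0) (XT.lf (nat_lit 0) (nat_lit 341181171) (nat_lit 84) (nat_lit 28689283877) (nat_lit 84) (nat_lit 25413023290) (nat_lit 2) (nat_lit 4) (nat_lit 3) (nat_lit 5) (nat_lit 3) (nat_lit 4) (nat_lit 404) (nat_lit 237) (nat_lit 223)) (XT.lf (nat_lit 0) (nat_lit 3761220808) (nat_lit 84) (nat_lit 27882864214) (nat_lit 84) (nat_lit 24421878225) (nat_lit 2) (nat_lit 4) (nat_lit 3) (nat_lit 5) (nat_lit 3) (nat_lit 4) (nat_lit 405) (nat_lit 237) (nat_lit 222)))))) (XT.nd (nat_lit 564) (nat_lit 0) (nat_lit 0) (XT.nd (nat_lit 282) (nat_lit 0) (nat_lit 0) (XT.nd (nat_lit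 94) (nat_lit 0) (nat_lit 0) (XT.lf (nat_lit 0) (nat_lit 7229635046) (nat_lit 84) (nat_lit 27075180274) (nat_lit 84) (nat_lit 23435023187) (nat_lit 2) (nat_lit 4) (nat_lit 3) (nat_lit 5) (nat_lit 3) (nat_lit 4) (nat_lit 406) (nat_lit 237) (nat_lit 221)) (XT.nd (nat_lit 94) (nat_lit 0) (nat_lit 0) (XT.lf (nat_lit 0) (nat_lit 10749656811) (nat_lit 84) (nat_lit 26265479211) (nat_lit 84) (nat_lit 22451538324) (nat_lit 2) (nat_lit 4) (nat_lit 3) (nat_lit 5) (nat_lit 3) (nat_lit 4) (nat_lit 407) (nat_lit 237) (nat_lit 220)) (XT.lf (nat_lit 0) (nat_lit 14324567131) (nat_lit 84) (nat_lit 25453006299) (nat_lit 84) (nat_lit 21470506924) (nat_lit 2) (nat_lit 4) (nat_lit 3) (nat_lit 5) (nat_lit 3) (nat_lit 4) (nat_lit 408) (nat_lit 237) (nat_lit 219)))) (XT.nd (nat_lit 94) (nat_lit 0) (nat_lit 0) (XT.lf (nat_lit 0) (nat_lit 17957698197) (nat_lit 84) (nat_lit 24637004228) (nat_lit 84) (nat_lit 20491014565)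 (nat_lit 2) (nat_lit 4) (nat_lit 3) (nat_lit 5) (nat_lit 3) (nat_lit 4) (nat_lit 409) (nat_lit 237) (nat_lit 218)) (XT.nd (nat_lit 94) (nat_lit 0) (nat_lit 0) (XT.lf (nat_lit 0) (nat_lit 21652436468) (nat_lit 84) (nat_lit 23816712398) (nat_lit 84) (nat_lit 19512148255) (nat_lit 2) (nat_lit 4) (nat_lit 3) (nat_lit 5) (nat_lit 3) (nat_lit 4) (nat_lit 410) (nat_lit 237) (nat_lit 217)) (XT.lf (nat_lit 0) (nat_lit 25412225827) (nat_lit 84) (nat_lit 22991366211) (nat_lit 84) (nat_lit 18532995590) (nat_lit 2) (nat_lit 4) (nat_lit 3) (nat_lit 5) (nat_lit 3) (nat_lit 4) (nat_lit 411) (nat_lit 237) (nat_lit 216))))) (XT.nd (nat_lit 282) (nat_lit 0) (nat_lit 0) (XT.nd (nat_lit 94) (nat_lit 0) (nat_lit 0) (XT.lf (nat_lit 0) (nat_lit 29240570792) (nat_lit 84) (nat_lit 22160196359) (nat_lit 84) (nat_lit 17552643897) (nat_lit 2) (nat_lit 4) (nat_lit 3) (nat_lit 5) (nat_lit 3) (nat_lit 4) (nat_lit 412)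 (nat_lit 237) (nat_lit 215)) (XT.nd (nat_lit 94) (nat_lit 0) (nat_lit 0) (XT.lf (nat_lit 0) (nat_lit 33141039781) (nat_lit 84) (nat_lit 21322428105) (nat_lit 84) (nat_lit 16570179385) (nat_lit 2) (nat_lit 4) (nat_lit 3) (nat_lit 5) (nat_lit 3) (nat_lit 4) (nat_lit 413) (nat_lit 237) (nat_lit 214)) (XT.lf (nat_lit 0) (nat_lit 37117268440) (nat_lit 84) (nat_lit 20477280559) (nat_lit 84) (nat_lit 15584686294) (nat_lit 2) (nat_lit 4) (nat_lit 3) (nat_lit 5) (nat_lit 3) (nat_lit 4) (nat_lit 414) (nat_lit 237) (nat_lit 213)))) (XT.nd (nat_lit 94) (nat_lit 0) (nat_lit 0) (XT.lf (nat_lit 0) (nat_lit 41172963031) (nat_lit 84) (nat_lit 19623965957) (nat_lit 84) (nat_lit 14595246041) (nat_lit 2) (nat_lit 4) (nat_lit 3) (nat_lit 5) (nat_lit 3) (nat_lit 4) (nat_lit 415) (nat_lit 237) (nat_lit 212)) (XT.nd (nat_lit 51606) (nat_lit 0) (nat_lit 252) (XT.lf (nat_lit 0) (nat_lit 45311903885) (nat_lit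 84) (nat_lit 18761688919) (nat_lit 84) (nat_lit 13600936365) (nat_lit 2) (nat_lit 4) (nat_lit 3) (nat_lit 5) (nat_lit 3) (nat_lit 4) (nat_lit 416) (nat_lit 237) (nat_lit 211)) (XT.lf (nat_lit 0) (nat_lit 9806658712) (nat_lit 84) (nat_lit 3683189626) (nat_lit 84) (nat_lit 3683189626) (nat_lit 5) (nat_lit 4) (nat_lit 6) (nat_lit 5) (nat_lit 6) (nat_lit 4) (nat_lit 388) (nat_lit 238) (nat_lit 238))))))))
noncomputable def xc5 : XT := (XT.nd (nat_lit 2256) (nat_lit 0) (nat_lit 0) (XT.nd (nat_lit 1128) (nat_lit 84) (nat_lit 0) (XT.nd (nat_lit 564) (nat_lit 0) (nat_lit 0) (XT.nd (nat_lit 282) (nat_lit 168) (nat_lit 0) (XT.nd (nat_lit 94) (nat_lit 0) (nat_lit 0) (XT.lf (nat_lit 0) (nat_lit 24484646803) (nat_lit 84) (nat_lit 5571934339) (nat_lit 84) (nat_lit 5270865876) (nat_lit 5) (nat_lit 4) (nat_lit 6) (nat_lit 5) (nat_lit 6) (nat_lit 4) (nat_lit 389) (nat_lit 238) (nat_lit 237)) (XT.nd (nat_lit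 94) (nat_lit 0) (nat_lit 0) (XT.lf (nat_lit 0) (nat_lit 29421960687) (nat_lit 84) (nat_lit 3756013407) (nat_lit 84) (nat_lit 3162928976) (nat_lit 5) (nat_lit 4) (nat_lit 6) (nat_lit 5) (nat_lit 6) (nat_lit 4) (nat_lit 390) (nat_lit 238) (nat_lit 236)) (XT.lf (nat_lit 0) (nat_lit 34429861171) (nat_lit 84) (nat_lit 1916923827) (nat_lit 84) (nat_lit 1040603734) (nat_lit 5) (nat_lit 4) (nat_lit 6) (nat_lit 5) (nat_lit 6) (nat_lit 4) (nat_lit 391) (nat_lit 238) (nat_lit 235)))) (XT.nd (nat_lit 94) (nat_lit 0) (nat_lit 0) (XT.lf (nat_lit 0) (nat_lit 1055509701) (nat_lit 84) (nat_lit 30925136) (nat_lit 168) (nat_lit 37380782320) (nat_lit 3) (nat_lit 5) (nat_lit 4) (nat_lit 5) (nat_lit 5) (nat_lit 4) (nat_lit 392) (nat_lit 238) (nat_lit 234)) (XT.nd (nat_lit 94) (nat_lit 0) (nat_lit 0) (XT.lf (nat_lit 0) (nat_lit 3259872935) (nat_lit 168) (nat_lit 34435332985) (nat_lit 0) (nat_lit 1884995550)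 (nat_lit 3) (nat_lit 5) (nat_lit 5) (nat_lit 4) (nat_lit 3) (nat_lit 4) (nat_lit 393) (nat_lit 238) (nat_lit 233)) (XT.lf (nat_lit 0) (nat_lit 5454358233) (nat_lit 168) (nat_lit 31446034980) (nat_lit 0) (nat_lit 3828804549) (nat_lit 3) (nat_lit 5) (nat_lit 5) (nat_lit 4) (nat_lit 3) (nat_lit 4) (nat_lit 394) (nat_lit 238) (nat_lit 232))))) (XT.nd (nat_lit 282) (nat_lit 0) (nat_lit 0) (XT.nd (nat_lit 94) (nat_lit 0) (nat_lit 0) (XT.lf (nat_lit 0) (nat_lit 7671629441) (nat_lit 168) (nat_lit 28440720324) (nat_lit 0) (nat_lit 5802936767) (nat_lit 3) (nat_lit 5) (nat_lit 5) (nat_lit 4) (nat_lit 3) (nat_lit 4) (nat_lit 395) (nat_lit 238) (nat_lit 231)) (XT.nd (nat_lit 94) (nat_lit 0) (nat_lit 0) (XT.lf (nat_lit 0) (nat_lit 9913753287) (nat_lit 168) (nat_lit 25416587746) (nat_lit 0) (nat_lit 7809232302) (nat_lit 3) (nat_lit 5) (nat_lit 5) (nat_lit 4) (nat_lit 3) (nat_lit 4) (nat_lit 396) (nat_lit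 238) (nat_lit 230)) (XT.lf (nat_lit 0) (nat_lit 12182819667) (nat_lit 168) (nat_lit 22370818441) (nat_lit 0) (nat_lit 9849561230) (nat_lit 3) (nat_lit 5) (nat_lit 5) (nat_lit 4) (nat_lit 3) (nat_lit 4) (nat_lit 397) (nat_lit 238) (nat_lit 229)))) (XT.nd (nat_lit 94) (nat_lit 0) (nat_lit 0) (XT.lf (nat_lit 0) (nat_lit 14480943587) (nat_lit 168) (nat_lit 19300573430) (nat_lit 0) (nat_lit 11925825353) (nat_lit 3) (nat_lit 5) (nat_lit 5) (nat_lit 4) (nat_lit 3) (nat_lit 4) (nat_lit 398) (nat_lit 238) (nat_lit 228)) (XT.nd (nat_lit 94) (nat_lit 0) (nat_lit 0) (XT.lf (nat_lit 0) (nat_lit 16810267140) (nat_lit 168) (nat_lit 16202990925) (nat_lit 0) (nat_lit 14039959966) (nat_lit 3) (nat_lit 5) (nat_lit 5) (nat_lit 4) (nat_lit 3) (nat_lit 4) (nat_lit 399) (nat_lit 238) (nat_lit 227)) (XT.lf (nat_lit 0) (nat_lit 19172961500) (nat_lit 168) (nat_lit 13075183653) (nat_lit 0) (nat_lit 16193935664)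 (nat_lit 3) (nat_lit 5) (nat_lit 5) (nat_lit 4) (nat_lit 3) (nat_lit 4) (nat_lit 400) (nat_lit 238) (nat_lit 226)))))) (XT.nd (nat_lit 564) (nat_lit 0) (nat_lit 0) (XT.nd (nat_lit 282) (nat_lit 84) (nat_lit 0) (XT.nd (nat_lit 94) (nat_lit 0) (nat_lit 0) (XT.lf (nat_lit 0) (nat_lit 21571228945) (nat_lit 168) (nat_lit 9914236172) (nat_lit 0) (nat_lit 18389760177) (nat_lit 3) (nat_lit 5) (nat_lit 5) (nat_lit 4) (nat_lit 3) (nat_lit 4) (nat_lit 401) (nat_lit 238) (nat_lit 225)) (XT.nd (nat_lit 94) (nat_lit 0) (nat_lit 0) (XT.lf (nat_lit 0) (nat_lit 24007304911) (nat_lit 168) (nat_lit 6717202146) (nat_lit 0) (nat_lit 20629480246) (nat_lit 3) (nat_lit 5) (nat_lit 5) (nat_lit 4) (nat_lit 3) (nat_lit 4) (nat_lit 402) (nat_lit 238) (nat_lit 224)) (XT.lf (nat_lit 0) (nat_lit 26483460077) (nat_lit 168) (nat_lit 3481101605) (nat_lit 0) (nat_lit 22915183522) (nat_lit 3) (nat_lit 5) (nat_lit 5) (nat_lit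 4) (nat_lit 3) (nat_lit 4) (nat_lit 403) (nat_lit 238) (nat_lit 223)))) (XT.nd (nat_lit 94) (nat_lit 84) (nat_lit 0) (XT.lf (nat_lit 0) (nat_lit 29002002478) (nat_lit 168) (nat_lit 202918165) (nat_lit 0) (nat_lit 25249000521) (nat_lit 3) (nat_lit 5) (nat_lit 5) (nat_lit 4) (nat_lit 3) (nat_lit 4) (nat_lit 404) (nat_lit 238) (nat_lit 222)) (XT.nd (nat_lit 94) (nat_lit 0) (nat_lit 0) (XT.lf (nat_lit 0) (nat_lit 3184565686) (nat_lit 84) (nat_lit 28412305260) (nat_lit 84) (nat_lit 24480132205) (nat_lit 2) (nat_lit 4) (nat_lit 3) (nat_lit 5) (nat_lit 3) (nat_lit 4) (nat_lit 405) (nat_lit 238) (nat_lit 221)) (XT.lf (nat_lit 0) (nat_lit 6625449981) (nat_lit 84) (nat_lit 27615956169) (nat_lit 84) (nat_lit 23509999314) (nat_lit 2) (nat_lit 4) (nat_lit 3) (nat_lit 5) (nat_lit 3) (nat_lit 4) (nat_lit 406) (nat_lit 238) (nat_lit 220))))) (XT.nd (nat_lit 282) (nat_lit 0) (nat_lit 0) (XT.nd (nat_lit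 94) (nat_lit 0) (nat_lit 0) (XT.lf (nat_lit 0) (nat_lit 10118769569) (nat_lit 84) (nat_lit 26817249141) (nat_lit 84) (nat_lit 22542733798) (nat_lit 2) (nat_lit 4) (nat_lit 3) (nat_lit 5) (nat_lit 3) (nat_lit 4) (nat_lit 407) (nat_lit 238) (nat_lit 219)) (XT.nd (nat_lit 94) (nat_lit 0) (nat_lit 0) (XT.lf (nat_lit 0) (nat_lit 13667780592) (nat_lit 84) (nat_lit 26015439695) (nat_lit 84) (nat_lit 21577434064) (nat_lit 2) (nat_lit 4) (nat_lit 3) (nat_lit 5) (nat_lit 3) (nat_lit 4) (nat_lit 408) (nat_lit 238) (nat_lit 218)) (XT.lf (nat_lit 0) (nat_lit 17275791097) (nat_lit 84) (nat_lit 25209780463) (nat_lit 84) (nat_lit 20613200352) (nat_lit 2) (nat_lit 4) (nat_lit 3) (nat_lit 5) (nat_lit 3) (nat_lit 4) (nat_lit 409) (nat_lit 238) (nat_lit 217)))) (XT.nd (nat_lit 94) (nat_lit 0) (nat_lit 0) (XT.lf (nat_lit 0) (nat_lit 20946164131) (nat_lit 84) (nat_lit 24399520484) (nat_lit 84) (nat_lit 19649133895)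 (nat_lit 2) (nat_lit 4) (nat_lit 3) (nat_lit 5) (nat_lit 3) (nat_lit 4) (nat_lit 410) (nat_lit 238) (nat_lit 216)) (XT.nd (nat_lit 94) (nat_lit 0) (nat_lit 0) (XT.lf (nat_lit 0) (nat_lit 24682320863) (nat_lit 84) (nat_lit 23583904512) (nat_lit 84) (nat_lit 18684336082) (nat_lit 2) (nat_lit 4) (nat_lit 3) (nat_lit 5) (nat_lit 3) (nat_lit 4) (nat_lit 411) (nat_lit 238) (nat_lit 215)) (XT.lf (nat_lit 0) (nat_lit 28487743785) (nat_lit 84) (nat_lit 22762172308) (nat_lit 84) (nat_lit 17717907621) (nat_lit 2) (nat_lit 4) (nat_lit 3) (nat_lit 5) (nat_lit 3) (nat_lit 4) (nat_lit 412) (nat_lit 238) (nat_lit 214))))))) (XT.nd (nat_lit 52452) (nat_lit 0) (nat_lit 0) (XT.nd (nat_lit 51888) (nat_lit 0) (nat_lit 84) (XT.nd (nat_lit 282) (nat_lit 0) (nat_lit 0) (XT.nd (nat_lit 94) (nat_lit 0) (nat_lit 0) (XT.lf (nat_lit 0) (nat_lit 32365979949) (nat_lit 84) (nat_lit 21933557931) (nat_lit 84) (nat_lit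 16748947698) (nat_lit 2) (nat_lit 4) (nat_lit 3) (nat_lit 5) (nat_lit 3) (nat_lit 4) (nat_lit 413) (nat_lit 238) (nat_lit 213)) (XT.nd (nat_lit 94) (nat_lit 0) (nat_lit 0) (XT.lf (nat_lit 0) (nat_lit 36320644277) (nat_lit 84) (nat_lit 21097289025) (nat_lit 84) (nat_lit 15776553141) (nat_lit 2) (nat_lit 4) (nat_lit 3) (nat_lit 5) (nat_lit 3) (nat_lit 4) (nat_lit 414) (nat_lit 238) (nat_lit 212)) (XT.lf (nat_lit 0) (nat_lit 40355422930) (nat_lit 84) (nat_lit 20252586100) (nat_lit 84) (nat_lit 14799817578) (nat_lit 2) (nat_lit 4) (nat_lit 3) (nat_lit 5) (nat_lit 3) (nat_lit 4) (nat_lit 415) (nat_lit 238) (nat_lit 211)))) (XT.nd (nat_lit 51418) (nat_lit 0) (nat_lit 252) (XT.lf (nat_lit 0) (nat_lit 44474076745) (nat_lit 84) (nat_lit 19398661805) (nat_lit 84) (nat_lit 13817830588) (nat_lit 2) (nat_lit 4) (nat_lit 3) (nat_lit 5) (nat_lit 3) (nat_lit 4) (nat_lit 416) (nat_lit 238) (nat_lit 210))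 (XT.nd (nat_lit 94) (nat_lit 0) (nat_lit 0) (XT.lf (nat_lit 0) (nat_lit 5047503693) (nat_lit 84) (nat_lit 5595020318) (nat_lit 84) (nat_lit 5595020318) (nat_lit 5) (nat_lit 4) (nat_lit 6) (nat_lit 5) (nat_lit 6) (nat_lit 4) (nat_lit 386) (nat_lit 239) (nat_lit 239)) (XT.lf (nat_lit 0) (nat_lit 14803431966) (nat_lit 84) (nat_lit 9451422343) (nat_lit 84) (nat_lit 9141020758) (nat_lit 5) (nat_lit 4) (nat_lit 6) (nat_lit 5) (nat_lit 6) (nat_lit 4) (nat_lit 387) (nat_lit 239) (nat_lit 238))))) (XT.nd (nat_lit 282) (nat_lit 168) (nat_lit 0) (XT.nd (nat_lit 94) (nat_lit 0) (nat_lit 0) (XT.lf (nat_lit 0) (nat_lit 19570155174) (nat_lit 84) (nat_lit 7694117361) (nat_lit 84) (nat_lit 7082647313) (nat_lit 5) (nat_lit 4) (nat_lit 6) (nat_lit 5) (nat_lit 6) (nat_lit 4) (nat_lit 388) (nat_lit 239) (nat_lit 237)) (XT.nd (nat_lit 94) (nat_lit 0) (nat_lit 0) (XT.lf (nat_lit 0) (nat_lit 24399620099) (nat_lit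 84) (nat_lit 5916487698) (nat_lit 84) (nat_lit 5013001682) (nat_lit 5) (nat_lit 4) (nat_lit 6) (nat_lit 5) (nat_lit 6) (nat_lit 4) (nat_lit 389) (nat_lit 239) (nat_lit 236)) (XT.lf (nat_lit 0) (nat_lit 29296328306) (nat_lit 84) (nat_lit 4116876416) (nat_lit 84) (nat_lit 2930154739) (nat_lit 5) (nat_lit 4) (nat_lit 6) (nat_lit 5) (nat_lit 6) (nat_lit 4) (nat_lit 390) (nat_lit 239) (nat_lit 235)))) (XT.nd (nat_lit 94) (nat_lit 168) (nat_lit 0) (XT.lf (nat_lit 0) (nat_lit 34264844040) (nat_lit 84) (nat_lit 2293606091) (nat_lit 84) (nat_lit 832165051) (nat_lit 5) (nat_lit 4) (nat_lit 6) (nat_lit 5) (nat_lit 6) (nat_lit 4) (nat_lit 391) (nat_lit 239) (nat_lit 234)) (XT.nd (nat_lit 94) (nat_lit 0) (nat_lit 0) (XT.lf (nat_lit 0) (nat_lit 842187123) (nat_lit 84) (nat_lit 423242365) (nat_lit 168) (nat_lit 37205769785) (nat_lit 3) (nat_lit 5) (nat_lit 4) (nat_lit 5) (nat_lit 5) (nat_lit 4) (nat_lit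 392) (nat_lit 239) (nat_lit 233)) (XT.lf (nat_lit 0) (nat_lit 3412008901) (nat_lit 168) (nat_lit 34687656618) (nat_lit 0) (nat_lit 1485386754) (nat_lit 3) (nat_lit 5) (nat_lit 5) (nat_lit 4) (nat_lit 3) (nat_lit 4) (nat_lit 393) (nat_lit 239) (nat_lit 232)))))) (XT.nd (nat_lit 564) (nat_lit 84) (nat_lit 0) (XT.nd (nat_lit 282) (nat_lit 0) (nat_lit 0) (XT.nd (nat_lit 94) (nat_lit 0) (nat_lit 0) (XT.lf (nat_lit 0) (nat_lit 5584217914) (nat_lit 168) (nat_lit 31736099424) (nat_lit 0) (nat_lit 3414456778) (nat_lit 3) (nat_lit 5) (nat_lit 5) (nat_lit 4) (nat_lit 3) (nat_lit 4) (nat_lit 394) (nat_lit 239) (nat_lit 231)) (XT.nd (nat_lit 94) (nat_lit 0) (nat_lit 0) (XT.lf (nat_lit 0) (nat_lit 7779882638) (nat_lit 168) (nat_lit 28767390791) (nat_lit 0) (nat_lit 5374293190) (nat_lit 3) (nat_lit 5) (nat_lit 5) (nat_lit 4) (nat_lit 3) (nat_lit 4) (nat_lit 395) (nat_lit 239) (nat_lit 230)) (XT.lf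 (nat_lit 0) (nat_lit 10001049662) (nat_lit 168) (nat_lit 25778763571) (nat_lit 0) (nat_lit 7366722763) (nat_lit 3) (nat_lit 5) (nat_lit 5) (nat_lit 4) (nat_lit 3) (nat_lit 4) (nat_lit 396) (nat_lit 239) (nat_lit 229)))) (XT.nd (nat_lit 94) (nat_lit 0) (nat_lit 0) (XT.lf (nat_lit 0) (nat_lit 12249789347) (nat_lit 168) (nat_lit 22767432052) (nat_lit 0) (nat_lit 9393602650) (nat_lit 3) (nat_lit 5) (nat_lit 5) (nat_lit 4) (nat_lit 3) (nat_lit 4) (nat_lit 397) (nat_lit 239) (nat_lit 228)) (XT.nd (nat_lit 94) (nat_lit 0) (nat_lit 0) (XT.lf (nat_lit 0) (nat_lit 14528197754) (nat_lit 168) (nat_lit 19730589355) (nat_lit 0) (nat_lit 11456822116) (nat_lit 3) (nat_lit 5) (nat_lit 5) (nat_lit 4) (nat_lit 3) (nat_lit 4) (nat_lit 398) (nat_lit 239) (nat_lit 227)) (XT.lf (nat_lit 0) (nat_lit 16838398597) (nat_lit 168) (nat_lit 16665404827) (nat_lit 0) (nat_lit 13558304298) (nat_lit 3) (nat_lit 5) (nat_lit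 5) (nat_lit 4) (nat_lit 3) (nat_lit 4) (nat_lit 399) (nat_lit 239) (nat_lit 226))))) (XT.nd (nat_lit 282) (nat_lit 84) (nat_lit 0) (XT.nd (nat_lit 94) (nat_lit 0) (nat_lit 0) (XT.lf (nat_lit 0) (nat_lit 19182545226) (nat_lit 168) (nat_lit 13569021394) (nat_lit 0) (nat_lit 15700007996) (nat_lit 3) (nat_lit 5) (nat_lit 5) (nat_lit 4) (nat_lit 3) (nat_lit 4) (nat_lit 400) (nat_lit 239) (nat_lit 225)) (XT.nd (nat_lit 94) (nat_lit 0) (nat_lit 0) (XT.lf (nat_lit 0) (nat_lit 21562822632) (nat_lit 168) (nat_lit 10438552902) (nat_lit 0) (nat_lit 17883929504) (nat_lit 3) (nat_lit 5) (nat_lit 5) (nat_lit 4) (nat_lit 3) (nat_lit 4) (nat_lit 401) (nat_lit 239) (nat_lit 224)) (XT.lf (nat_lit 0) (nat_lit 23981449482) (nat_lit 168) (nat_lit 7271081426) (nat_lit 0) (nat_lit 20112104464) (nat_lit 3) (nat_lit 5) (nat_lit 5) (nat_lit 4) (nat_lit 3) (nat_lit 4) (nat_lit 402) (nat_lit 239) (nat_lit 223))))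 (XT.nd (nat_lit 94) (nat_lit 84) (nat_lit 0) (XT.lf (nat_lit 0) (nat_lit 26440680190) (nat_lit 168) (nat_lit 4063654552) (nat_lit 0) (nat_lit 22386609770) (nat_lit 3) (nat_lit 5) (nat_lit 5) (nat_lit 4) (nat_lit 3) (nat_lit 4) (nat_lit 403) (nat_lit 239) (nat_lit 222)) (XT.nd (nat_lit 94) (nat_lit 84) (nat_lit 0) (XT.lf (nat_lit 0) (nat_lit 28942807016) (nat_lit 168) (nat_lit 813282622) (nat_lit 0) (nat_lit 24709565498) (nat_lit 3) (nat_lit 5) (nat_lit 5) (nat_lit 4) (nat_lit 3) (nat_lit 4) (nat_lit 404) (nat_lit 239) (nat_lit 221)) (XT.lf (nat_lit 0) (nat_lit 2534120940) (nat_lit 84) (nat_lit 28981180057) (nat_lit 84) (nat_lit 24574154739) (nat_lit 2) (nat_lit 4) (nat_lit 3) (nat_lit 5) (nat_lit 3) (nat_lit 4) (nat_lit 405) (nat_lit 239) (nat_lit 220))))))))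
noncomputable def xc6 : XT := (XT.nd (nat_lit 53392) (nat_lit 0) (nat_lit 0) (XT.nd (nat_lit 52264) (nat_lit 0) (nat_lit 84) (XT.nd (nat_lit 564) (nat_lit 0) (nat_lit 0) (XT.nd (nat_lit 282) (nat_lit 0) (nat_lit 0) (XT.nd (nat_lit 94) (nat_lit 0) (nat_lit 0) (XT.lf (nat_lit 0) (nat_lit 5948303059) (nat_lit 84) (nat_lit 28195825001) (nat_lit 84) (nat_lit 23620241195) (nat_lit 2) (nat_lit 4) (nat_lit 3) (nat_lit 5) (nat_lit 3) (nat_lit 4) (nat_lit 406) (nat_lit 239) (nat_lit 219)) (XT.nd (nat_lit 94) (nat_lit 0) (nat_lit 0) (XT.lf (nat_lit 0) (nat_lit 9415723350) (nat_lit 84) (nat_lit 27407781439) (nat_lit 84) (nat_lit 22668707345) (nat_lit 2) (nat_lit 4) (nat_lit 3) (nat_lit 5) (nat_lit 3) (nat_lit 4) (nat_lit 407) (nat_lit 239) (nat_lit 218)) (XT.lf (nat_lit 0) (nat_lit 12939613812) (nat_lit 84) (nat_lit 26616314832) (nat_lit 84) (nat_lit 21718666259) (nat_lit 2) (nat_lit 4) (nat_lit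 3) (nat_lit 5) (nat_lit 3) (nat_lit 4) (nat_lit 408) (nat_lit 239) (nat_lit 217)))) (XT.nd (nat_lit 94) (nat_lit 0) (nat_lit 0) (XT.lf (nat_lit 0) (nat_lit 16523259080) (nat_lit 84) (nat_lit 25820687451) (nat_lit 84) (nat_lit 20769232400) (nat_lit 2) (nat_lit 4) (nat_lit 3) (nat_lit 5) (nat_lit 3) (nat_lit 4) (nat_lit 409) (nat_lit 239) (nat_lit 216)) (XT.nd (nat_lit 94) (nat_lit 0) (nat_lit 0) (XT.lf (nat_lit 0) (nat_lit 20169999486) (nat_lit 84) (nat_lit 25020157687) (nat_lit 84) (nat_lit 19819520794) (nat_lit 2) (nat_lit 4) (nat_lit 3) (nat_lit 5) (nat_lit 3) (nat_lit 4) (nat_lit 410) (nat_lit 239) (nat_lit 215)) (XT.lf (nat_lit 0) (nat_lit 23883234176) (nat_lit 84) (nat_lit 24213979363) (nat_lit 84) (nat_lit 18868646213) (nat_lit 2) (nat_lit 4) (nat_lit 3) (nat_lit 5) (nat_lit 3) (nat_lit 4) (nat_lit 411) (nat_lit 239) (nat_lit 214))))) (XT.nd (nat_lit 282) (nat_lit 0) (nat_lit 0)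 (XT.nd (nat_lit 94) (nat_lit 0) (nat_lit 0) (XT.lf (nat_lit 0) (nat_lit 27666424272) (nat_lit 84) (nat_lit 23401401037) (nat_lit 84) (nat_lit 17915722341) (nat_lit 2) (nat_lit 4) (nat_lit 3) (nat_lit 5) (nat_lit 3) (nat_lit 4) (nat_lit 412) (nat_lit 239) (nat_lit 213)) (XT.nd (nat_lit 94) (nat_lit 0) (nat_lit 0) (XT.lf (nat_lit 0) (nat_lit 31523096105) (nat_lit 84) (nat_lit 22581665299) (nat_lit 84) (nat_lit 16959860953) (nat_lit 2) (nat_lit 4) (nat_lit 3) (nat_lit 5) (nat_lit 3) (nat_lit 4) (nat_lit 413) (nat_lit 239) (nat_lit 212)) (XT.lf (nat_lit 0) (nat_lit 35456844495) (nat_lit 84) (nat_lit 21754008071) (nat_lit 84) (nat_lit 16000171086) (nat_lit 2) (nat_lit 4) (nat_lit 3) (nat_lit 5) (nat_lit 3) (nat_lit 4) (nat_lit 414) (nat_lit 239) (nat_lit 211)))) (XT.nd (nat_lit 94) (nat_lit 0) (nat_lit 0) (XT.lf (nat_lit 0) (nat_lit 39471336109) (nat_lit 84) (nat_lit 20917657889) (nat_lit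 84) (nat_lit 15035758209) (nat_lit 2) (nat_lit 4) (nat_lit 3) (nat_lit 5) (nat_lit 3) (nat_lit 4) (nat_lit 415) (nat_lit 239) (nat_lit 210)) (XT.nd (nat_lit 51230) (nat_lit 0) (nat_lit 252) (XT.lf (nat_lit 0) (nat_lit 43570312874) (nat_lit 84) (nat_lit 20071835187) (nat_lit 84) (nat_lit 14065723388) (nat_lit 2) (nat_lit 4) (nat_lit 3) (nat_lit 5) (nat_lit 3) (nat_lit 4) (nat_lit 416) (nat_lit 239) (nat_lit 209)) (XT.lf (nat_lit 0) (nat_lit 440714589) (nat_lit 84) (nat_lit 7459639766) (nat_lit 84) (nat_lit 7459639766) (nat_lit 5) (nat_lit 4) (nat_lit 6) (nat_lit 5) (nat_lit 6) (nat_lit 4) (nat_lit 384) (nat_lit 240) (nat_lit 240)))))) (XT.nd (nat_lit 564) (nat_lit 168) (nat_lit 0) (XT.nd (nat_lit 282) (nat_lit 0) (nat_lit 0) (XT.nd (nat_lit 94) (nat_lit 0) (nat_lit 0) (XT.lf (nat_lit 0) (nat_lit 5440492693) (nat_lit 84) (nat_lit 13231616849) (nat_lit 84) (nat_lit 12911592815) (nat_lit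 5) (nat_lit 4) (nat_lit 6) (nat_lit 5) (nat_lit 6) (nat_lit 4) (nat_lit 385) (nat_lit 240) (nat_lit 239)) (XT.nd (nat_lit 94) (nat_lit 0) (nat_lit 0) (XT.lf (nat_lit 0) (nat_lit 10050507106) (nat_lit 84) (nat_lit 11527938626) (nat_lit 84) (nat_lit 10897513006) (nat_lit 5) (nat_lit 4) (nat_lit 6) (nat_lit 5) (nat_lit 6) (nat_lit 4) (nat_lit 386) (nat_lit 240) (nat_lit 238)) (XT.lf (nat_lit 0) (nat_lit 14715769434) (nat_lit 84) (nat_lit 9806656855) (nat_lit 84) (nat_lit 8875162773) (nat_lit 5) (nat_lit 4) (nat_lit 6) (nat_lit 5) (nat_lit 6) (nat_lit 4) (nat_lit 387) (nat_lit 240) (nat_lit 237)))) (XT.nd (nat_lit 94) (nat_lit 0) (nat_lit 0) (XT.lf (nat_lit 0) (nat_lit 19440628190) (nat_lit 84) (nat_lit 8066167124) (nat_lit 84) (nat_lit 6842657074) (nat_lit 5) (nat_lit 4) (nat_lit 6) (nat_lit 5) (nat_lit 6) (nat_lit 4) (nat_lit 388) (nat_lit 240) (nat_lit 236)) (XT.nd (nat_lit 94) (nat_lit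 0) (nat_lit 0) (XT.lf (nat_lit 0) (nat_lit 24229487437) (nat_lit 84) (nat_lit 6304847112) (nat_lit 84) (nat_lit 4798101400) (nat_lit 5) (nat_lit 4) (nat_lit 6) (nat_lit 5) (nat_lit 6) (nat_lit 4) (nat_lit 389) (nat_lit 240) (nat_lit 235)) (XT.lf (nat_lit 0) (nat_lit 29086810894) (nat_lit 84) (nat_lit 4521055085) (nat_lit 84) (nat_lit 2739590011) (nat_lit 5) (nat_lit 4) (nat_lit 6) (nat_lit 5) (nat_lit 6) (nat_lit 4) (nat_lit 390) (nat_lit 240) (nat_lit 234))))) (XT.nd (nat_lit 282) (nat_lit 0) (nat_lit 0) (XT.nd (nat_lit 94) (nat_lit 168) (nat_lit 0) (XT.lf (nat_lit 0) (nat_lit 34017126095) (nat_lit 84) (nat_lit 2713128362) (nat_lit 84) (nat_lit 665204159) (nat_lit 5) (nat_lit 4) (nat_lit 6) (nat_lit 5) (nat_lit 6) (nat_lit 4) (nat_lit 391) (nat_lit 240) (nat_lit 233)) (XT.nd (nat_lit 94) (nat_lit 0) (nat_lit 0) (XT.lf (nat_lit 0) (nat_lit 544420887) (nat_lit 84) (nat_lit 859218873)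 (nat_lit 168) (nat_lit 37073174659) (nat_lit 3) (nat_lit 5) (nat_lit 4) (nat_lit 5) (nat_lit 5) (nat_lit 4) (nat_lit 392) (nat_lit 240) (nat_lit 232)) (XT.lf (nat_lit 0) (nat_lit 3523617947) (nat_lit 168) (nat_lit 35024453870) (nat_lit 0) (nat_lit 1043455226) (nat_lit 3) (nat_lit 5) (nat_lit 5) (nat_lit 4) (nat_lit 3) (nat_lit 4) (nat_lit 393) (nat_lit 240) (nat_lit 231)))) (XT.nd (nat_lit 94) (nat_lit 0) (nat_lit 0) (XT.lf (nat_lit 0) (nat_lit 5674220476) (nat_lit 168) (nat_lit 32109502699) (nat_lit 0) (nat_lit 2958229443) (nat_lit 3) (nat_lit 5) (nat_lit 5) (nat_lit 4) (nat_lit 3) (nat_lit 4) (nat_lit 394) (nat_lit 240) (nat_lit 230)) (XT.nd (nat_lit 94) (nat_lit 0) (nat_lit 0) (XT.lf (nat_lit 0) (nat_lit 7848928378) (nat_lit 168) (nat_lit 29176299424) (nat_lit 0) (nat_lit 4904199893) (nat_lit 3) (nat_lit 5) (nat_lit 5) (nat_lit 4) (nat_lit 3) (nat_lit 4) (nat_lit 395) (nat_lit 240)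 (nat_lit 229)) (XT.lf (nat_lit 0) (nat_lit 10049768708) (nat_lit 168) (nat_lit 26222109990) (nat_lit 0) (nat_lit 6883180425) (nat_lit 3) (nat_lit 5) (nat_lit 5) (nat_lit 4) (nat_lit 3) (nat_lit 4) (nat_lit 396) (nat_lit 240) (nat_lit 228))))))) (XT.nd (nat_lit 1128) (nat_lit 0) (nat_lit 0) (XT.nd (nat_lit 564) (nat_lit 84) (nat_lit 0) (XT.nd (nat_lit 282) (nat_lit 0) (nat_lit 0) (XT.nd (nat_lit 94) (nat_lit 0) (nat_lit 0) (XT.lf (nat_lit 0) (nat_lit 12278792879) (nat_lit 168) (nat_lit 23244180785) (nat_lit 0) (nat_lit 8897015656) (nat_lit 3) (nat_lit 5) (nat_lit 5) (nat_lit 4) (nat_lit 3) (nat_lit 4) (nat_lit 397) (nat_lit 240) (nat_lit 227)) (XT.nd (nat_lit 94) (nat_lit 0) (nat_lit 0) (XT.lf (nat_lit 0) (nat_lit 14538078575) (nat_lit 168) (nat_lit 20239736066) (nat_lit 0) (nat_lit 10947582691) (nat_lit 3) (nat_lit 5) (nat_lit 5) (nat_lit 4) (nat_lit 3) (nat_lit 4) (nat_lit 398) (nat_lit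 240) (nat_lit 226)) (XT.lf (nat_lit 0) (nat_lit 16829731688) (nat_lit 168) (nat_lit 17205975376) (nat_lit 0) (nat_lit 13036792873) (nat_lit 3) (nat_lit 5) (nat_lit 5) (nat_lit 4) (nat_lit 3) (nat_lit 4) (nat_lit 399) (nat_lit 240) (nat_lit 225)))) (XT.nd (nat_lit 94) (nat_lit 0) (nat_lit 0) (XT.lf (nat_lit 0) (nat_lit 19155888279) (nat_lit 168) (nat_lit 14140070932) (nat_lit 0) (nat_lit 15166593565) (nat_lit 3) (nat_lit 5) (nat_lit 5) (nat_lit 4) (nat_lit 3) (nat_lit 4) (nat_lit 400) (nat_lit 240) (nat_lit 224)) (XT.nd (nat_lit 94) (nat_lit 0) (nat_lit 0) (XT.lf (nat_lit 0) (nat_lit 21518716568) (nat_lit 168) (nat_lit 11039164991) (nat_lit 0) (nat_lit 17338969965) (nat_lit 3) (nat_lit 5) (nat_lit 5) (nat_lit 4) (nat_lit 3) (nat_lit 4) (nat_lit 401) (nat_lit 240) (nat_lit 223)) (XT.lf (nat_lit 0) (nat_lit 23920418960) (nat_lit 168) (nat_lit 7900367182) (nat_lit 0) (nat_lit 19555946955)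 (nat_lit 3) (nat_lit 5) (nat_lit 5) (nat_lit 4) (nat_lit 3) (nat_lit 4) (nat_lit 402) (nat_lit 240) (nat_lit 222))))) (XT.nd (nat_lit 282) (nat_lit 0) (nat_lit 0) (XT.nd (nat_lit 94) (nat_lit 84) (nat_lit 0) (XT.lf (nat_lit 0) (nat_lit 26363234092) (nat_lit 168) (nat_lit 4720751818) (nat_lit 0) (nat_lit 21819590989) (nat_lit 3) (nat_lit 5) (nat_lit 5) (nat_lit 4) (nat_lit 3) (nat_lit 4) (nat_lit 403) (nat_lit 240) (nat_lit 221)) (XT.nd (nat_lit 94) (nat_lit 84) (nat_lit 0) (XT.lf (nat_lit 0) (nat_lit 28849438925) (nat_lit 168) (nat_lit 1497355164) (nat_lit 0) (nat_lit 24132012021) (nat_lit 3) (nat_lit 5) (nat_lit 5) (nat_lit 4) (nat_lit 3) (nat_lit 4) (nat_lit 404) (nat_lit 240) (nat_lit 220)) (XT.lf (nat_lit 0) (nat_lit 1809280288) (nat_lit 84) (nat_lit 29590018856) (nat_lit 84) (nat_lit 24704033466) (nat_lit 2) (nat_lit 4) (nat_lit 3) (nat_lit 5) (nat_lit 3) (nat_lit 4) (nat_lit 405)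 (nat_lit 240) (nat_lit 219)))) (XT.nd (nat_lit 94) (nat_lit 0) (nat_lit 0) (XT.lf (nat_lit 0) (nat_lit 5197563109) (nat_lit 84) (nat_lit 28815327267) (nat_lit 84) (nat_lit 23765851588) (nat_lit 2) (nat_lit 4) (nat_lit 3) (nat_lit 5) (nat_lit 3) (nat_lit 4) (nat_lit 406) (nat_lit 240) (nat_lit 218)) (XT.nd (nat_lit 94) (nat_lit 0) (nat_lit 0) (XT.lf (nat_lit 0) (nat_lit 8639862840) (nat_lit 84) (nat_lit 28037626544) (nat_lit 84) (nat_lit 22829576386) (nat_lit 2) (nat_lit 4) (nat_lit 3) (nat_lit 5) (nat_lit 3) (nat_lit 4) (nat_lit 407) (nat_lit 240) (nat_lit 217)) (XT.lf (nat_lit 0) (nat_lit 12139388064) (nat_lit 84) (nat_lit 27256191789) (nat_lit 84) (nat_lit 21894335152) (nat_lit 2) (nat_lit 4) (nat_lit 3) (nat_lit 5) (nat_lit 3) (nat_lit 4) (nat_lit 408) (nat_lit 240) (nat_lit 216)))))) (XT.nd (nat_lit 564) (nat_lit 0) (nat_lit 0) (XT.nd (nat_lit 282) (nat_lit 0) (nat_lit 0) (XT.nd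 (nat_lit 94) (nat_lit 0) (nat_lit 0) (XT.lf (nat_lit 0) (nat_lit 15699400705) (nat_lit 84) (nat_lit 26470294622) (nat_lit 84) (nat_lit 20959256144) (nat_lit 2) (nat_lit 4) (nat_lit 3) (nat_lit 5) (nat_lit 3) (nat_lit 4) (nat_lit 409) (nat_lit 240) (nat_lit 215)) (XT.nd (nat_lit 94) (nat_lit 0) (nat_lit 0) (XT.lf (nat_lit 0) (nat_lit 19323219069) (nat_lit 84) (nat_lit 25679202506) (nat_lit 84) (nat_lit 20023467771) (nat_lit 2) (nat_lit 4) (nat_lit 3) (nat_lit 5) (nat_lit 3) (nat_lit 4) (nat_lit 410) (nat_lit 240) (nat_lit 214)) (XT.lf (nat_lit 0) (nat_lit 23014220933) (nat_lit 84) (nat_lit 24882178060) (nat_lit 84) (nat_lit 19086097779) (nat_lit 2) (nat_lit 4) (nat_lit 3) (nat_lit 5) (nat_lit 3) (nat_lit 4) (nat_lit 411) (nat_lit 240) (nat_lit 213)))) (XT.nd (nat_lit 94) (nat_lit 0) (nat_lit 0) (XT.lf (nat_lit 0) (nat_lit 26775846697) (nat_lit 84) (nat_lit 24078478373) (nat_lit 84) (nat_lit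 18146272441) (nat_lit 2) (nat_lit 4) (nat_lit 3) (nat_lit 5) (nat_lit 3) (nat_lit 4) (nat_lit 412) (nat_lit 240) (nat_lit 212)) (XT.nd (nat_lit 94) (nat_lit 0) (nat_lit 0) (XT.lf (nat_lit 0) (nat_lit 30611602592) (nat_lit 84) (nat_lit 23267354313) (nat_lit 84) (nat_lit 17203115743) (nat_lit 2) (nat_lit 4) (nat_lit 3) (nat_lit 5) (nat_lit 3) (nat_lit 4) (nat_lit 413) (nat_lit 240) (nat_lit 211)) (XT.lf (nat_lit 0) (nat_lit 34525063944) (nat_lit 84) (nat_lit 22448049827) (nat_lit 84) (nat_lit 16255748562) (nat_lit 2) (nat_lit 4) (nat_lit 3) (nat_lit 5) (nat_lit 3) (nat_lit 4) (nat_lit 414) (nat_lit 240) (nat_lit 210))))) (XT.nd (nat_lit 51324) (nat_lit 0) (nat_lit 252) (XT.nd (nat_lit 51136) (nat_lit 0) (nat_lit 336) (XT.lf (nat_lit 0) (nat_lit 38519878507) (nat_lit 84) (nat_lit 21619801238) (nat_lit 84) (nat_lit 15303287854) (nat_lit 2) (nat_lit 4) (nat_lit 3) (nat_lit 5) (nat_lit 3)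 (nat_lit 4) (nat_lit 415) (nat_lit 240) (nat_lit 209)) (XT.nd (nat_lit 94) (nat_lit 0) (nat_lit 0) (XT.lf (nat_lit 0) (nat_lit 5295088315) (nat_lit 168) (nat_lit 3945618813) (nat_lit 0) (nat_lit 5295088315) (nat_lit 6) (nat_lit 5) (nat_lit 8) (nat_lit 4) (nat_lit 6) (nat_lit 4) (nat_lit 382) (nat_lit 241) (nat_lit 241)) (XT.lf (nat_lit 0) (nat_lit 13327530878) (nat_lit 168) (nat_lit 3557777753) (nat_lit 0) (nat_lit 12997586099) (nat_lit 6) (nat_lit 5) (nat_lit 8) (nat_lit 4) (nat_lit 6) (nat_lit 4) (nat_lit 383) (nat_lit 241) (nat_lit 240)))) (XT.nd (nat_lit 94) (nat_lit 0) (nat_lit 0) (XT.lf (nat_lit 0) (nat_lit 835549390) (nat_lit 84) (nat_lit 15267652360) (nat_lit 84) (nat_lit 14617683547) (nat_lit 5) (nat_lit 4) (nat_lit 6) (nat_lit 5) (nat_lit 6) (nat_lit 4) (nat_lit 384) (nat_lit 241) (nat_lit 239)) (XT.nd (nat_lit 94) (nat_lit 0) (nat_lit 0) (XT.lf (nat_lit 0) (nat_lit 5350112623)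 (nat_lit 84) (nat_lit 13597863632) (nat_lit 84) (nat_lit 12637493233) (nat_lit 5) (nat_lit 4) (nat_lit 6) (nat_lit 5) (nat_lit 6) (nat_lit 4) (nat_lit 385) (nat_lit 241) (nat_lit 238)) (XT.lf (nat_lit 0) (nat_lit 9916964785) (nat_lit 84) (nat_lit 11911521931) (nat_lit 84) (nat_lit 10650083070) (nat_lit 5) (nat_lit 4) (nat_lit 6) (nat_lit 5) (nat_lit 6) (nat_lit 4) (nat_lit 386) (nat_lit 241) (nat_lit 237))))))))
noncomputable def xc7 : XT := (XT.nd (nat_lit 2256) (nat_lit 0) (nat_lit 0) (XT.nd (nat_lit 1128) (nat_lit 84) (nat_lit 0) (XT.nd (nat_lit 564) (nat_lit 0) (nat_lit 0) (XT.nd (nat_lit 282) (nat_lit 168) (nat_lit 0) (XT.nd (nat_lit 94) (nat_lit 0) (nat_lit 0) (XT.lf (nat_lit 0) (nat_lit 14540362659) (nat_lit 84) (nat_lit 10207055411) (nat_lit 84) (nat_lit 8653600582) (nat_lit 5) (nat_lit 4) (nat_lit 6) (nat_lit 5) (nat_lit 6) (nat_lit 4) (nat_lit 387) (nat_lit 241) (nat_lit 236))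 (XT.nd (nat_lit 94) (nat_lit 0) (nat_lit 0) (XT.lf (nat_lit 0) (nat_lit 19224615738) (nat_lit 84) (nat_lit 8482875331) (nat_lit 84) (nat_lit 6646184839) (nat_lit 5) (nat_lit 4) (nat_lit 6) (nat_lit 5) (nat_lit 6) (nat_lit 4) (nat_lit 388) (nat_lit 241) (nat_lit 235)) (XT.lf (nat_lit 0) (nat_lit 23974090236) (nat_lit 84) (nat_lit 6737374573) (nat_lit 84) (nat_lit 4625964720) (nat_lit 5) (nat_lit 4) (nat_lit 6) (nat_lit 5) (nat_lit 6) (nat_lit 4) (nat_lit 389) (nat_lit 241) (nat_lit 234)))) (XT.nd (nat_lit 94) (nat_lit 168) (nat_lit 0) (XT.lf (nat_lit 0) (nat_lit 28793213160) (nat_lit 84) (nat_lit 4968926149) (nat_lit 84) (nat_lit 2591057166) (nat_lit 5) (nat_lit 4) (nat_lit 6) (nat_lit 5) (nat_lit 6) (nat_lit 4) (nat_lit 390) (nat_lit 241) (nat_lit 233)) (XT.nd (nat_lit 94) (nat_lit 168) (nat_lit 0) (XT.lf (nat_lit 0) (nat_lit 33686476437) (nat_lit 84) (nat_lit 3175881678) (nat_lit 84)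 (nat_lit 539565432) (nat_lit 5) (nat_lit 4) (nat_lit 6) (nat_lit 5) (nat_lit 6) (nat_lit 4) (nat_lit 391) (nat_lit 241) (nat_lit 232)) (XT.lf (nat_lit 0) (nat_lit 161933445) (nat_lit 84) (nat_lit 1339261035) (nat_lit 168) (nat_lit 36982873352) (nat_lit 3) (nat_lit 5) (nat_lit 4) (nat_lit 5) (nat_lit 5) (nat_lit 4) (nat_lit 392) (nat_lit 241) (nat_lit 231))))) (XT.nd (nat_lit 282) (nat_lit 0) (nat_lit 0) (XT.nd (nat_lit 94) (nat_lit 0) (nat_lit 0) (XT.lf (nat_lit 0) (nat_lit 3594804105) (nat_lit 168) (nat_lit 35446038670) (nat_lit 0) (nat_lit 558789038) (nat_lit 3) (nat_lit 5) (nat_lit 5) (nat_lit 4) (nat_lit 3) (nat_lit 4) (nat_lit 393) (nat_lit 241) (nat_lit 230)) (XT.nd (nat_lit 94) (nat_lit 0) (nat_lit 0) (XT.lf (nat_lit 0) (nat_lit 5724449812) (nat_lit 168) (nat_lit 32566592857) (nat_lit 0) (nat_lit 2459697293) (nat_lit 3) (nat_lit 5) (nat_lit 5) (nat_lit 4) (nat_lit 3) (nat_lit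 4) (nat_lit 394) (nat_lit 241) (nat_lit 229)) (XT.lf (nat_lit 0) (nat_lit 7878831019) (nat_lit 168) (nat_lit 29667827368) (nat_lit 0) (nat_lit 4392218703) (nat_lit 3) (nat_lit 5) (nat_lit 5) (nat_lit 4) (nat_lit 3) (nat_lit 4) (nat_lit 395) (nat_lit 241) (nat_lit 228)))) (XT.nd (nat_lit 94) (nat_lit 0) (nat_lit 0) (XT.lf (nat_lit 0) (nat_lit 10059955835) (nat_lit 168) (nat_lit 26747040249) (nat_lit 0) (nat_lit 6358154578) (nat_lit 3) (nat_lit 5) (nat_lit 5) (nat_lit 4) (nat_lit 3) (nat_lit 4) (nat_lit 396) (nat_lit 241) (nat_lit 227)) (XT.nd (nat_lit 94) (nat_lit 0) (nat_lit 0) (XT.lf (nat_lit 0) (nat_lit 12269857296) (nat_lit 168) (nat_lit 23801509021) (nat_lit 0) (nat_lit 8359337377) (nat_lit 3) (nat_lit 5) (nat_lit 5) (nat_lit 4) (nat_lit 3) (nat_lit 4) (nat_lit 397) (nat_lit 241) (nat_lit 226)) (XT.lf (nat_lit 0) (nat_lit 14510595262) (nat_lit 168) (nat_lit 20828488140) (nat_lit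 0) (nat_lit 10397632413) (nat_lit 3) (nat_lit 5) (nat_lit 5) (nat_lit 4) (nat_lit 3) (nat_lit 4) (nat_lit 398) (nat_lit 241) (nat_lit 225)))))) (XT.nd (nat_lit 564) (nat_lit 84) (nat_lit 0) (XT.nd (nat_lit 282) (nat_lit 0) (nat_lit 0) (XT.nd (nat_lit 94) (nat_lit 0) (nat_lit 0) (XT.lf (nat_lit 0) (nat_lit 16784258336) (nat_lit 168) (nat_lit 17825206439) (nat_lit 0) (nat_lit 12474939589) (nat_lit 3) (nat_lit 5) (nat_lit 5) (nat_lit 4) (nat_lit 3) (nat_lit 4) (nat_lit 399) (nat_lit 241) (nat_lit 224)) (XT.nd (nat_lit 94) (nat_lit 0) (nat_lit 0) (XT.lf (nat_lit 0) (nat_lit 19092965811) (nat_lit 168) (nat_lit 14788864546) (nat_lit 0) (nat_lit 14593195173) (nat_lit 3) (nat_lit 5) (nat_lit 5) (nat_lit 4) (nat_lit 3) (nat_lit 4) (nat_lit 400) (nat_lit 241) (nat_lit 223)) (XT.lf (nat_lit 0) (nat_lit 21438869642) (nat_lit 168) (nat_lit 11716632271) (nat_lit 0) (nat_lit 16754373602) (nat_lit 3)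 (nat_lit 5) (nat_lit 5) (nat_lit 4) (nat_lit 3) (nat_lit 4) (nat_lit 401) (nat_lit 241) (nat_lit 222)))) (XT.nd (nat_lit 94) (nat_lit 0) (nat_lit 0) (XT.lf (nat_lit 0) (nat_lit 23824156458) (nat_lit 168) (nat_lit 8605645972) (nat_lit 0) (nat_lit 18960489321) (nat_lit 3) (nat_lit 5) (nat_lit 5) (nat_lit 4) (nat_lit 3) (nat_lit 4) (nat_lit 402) (nat_lit 241) (nat_lit 221)) (XT.nd (nat_lit 94) (nat_lit 0) (nat_lit 0) (XT.lf (nat_lit 0) (nat_lit 26251049597) (nat_lit 168) (nat_lit 5453005885) (nat_lit 0) (nat_lit 21213598659) (nat_lit 3) (nat_lit 5) (nat_lit 5) (nat_lit 4) (nat_lit 3) (nat_lit 4) (nat_lit 403) (nat_lit 241) (nat_lit 220)) (XT.lf (nat_lit 0) (nat_lit 28721811176) (nat_lit 168) (nat_lit 2255773417) (nat_lit 0) (nat_lit 23515801752) (nat_lit 3) (nat_lit 5) (nat_lit 5) (nat_lit 4) (nat_lit 3) (nat_lit 4) (nat_lit 404) (nat_lit 241) (nat_lit 219))))) (XT.nd (nat_lit 282) (nat_lit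 0) (nat_lit 0) (XT.nd (nat_lit 94) (nat_lit 0) (nat_lit 0) (XT.lf (nat_lit 0) (nat_lit 1009368102) (nat_lit 84) (nat_lit 30239389160) (nat_lit 84) (nat_lit 24869889447) (nat_lit 2) (nat_lit 4) (nat_lit 3) (nat_lit 5) (nat_lit 3) (nat_lit 4) (nat_lit 405) (nat_lit 241) (nat_lit 218)) (XT.nd (nat_lit 94) (nat_lit 0) (nat_lit 0) (XT.lf (nat_lit 0) (nat_lit 4372530363) (nat_lit 84) (nat_lit 29475040409) (nat_lit 84) (nat_lit 23946966217) (nat_lit 2) (nat_lit 4) (nat_lit 3) (nat_lit 5) (nat_lit 3) (nat_lit 4) (nat_lit 406) (nat_lit 241) (nat_lit 217)) (XT.lf (nat_lit 0) (nat_lit 7790464856) (nat_lit 84) (nat_lit 28707371537) (nat_lit 84) (nat_lit 23025490867) (nat_lit 2) (nat_lit 4) (nat_lit 3) (nat_lit 5) (nat_lit 3) (nat_lit 4) (nat_lit 407) (nat_lit 241) (nat_lit 216)))) (XT.nd (nat_lit 94) (nat_lit 0) (nat_lit 0) (XT.lf (nat_lit 0) (nat_lit 11266357453) (nat_lit 84) (nat_lit 27935666997)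 (nat_lit 84) (nat_lit 22104604485) (nat_lit 2) (nat_lit 4) (nat_lit 3) (nat_lit 5) (nat_lit 3) (nat_lit 4) (nat_lit 408) (nat_lit 241) (nat_lit 215)) (XT.nd (nat_lit 94) (nat_lit 0) (nat_lit 0) (XT.lf (nat_lit 0) (nat_lit 14803448051) (nat_lit 84) (nat_lit 27159207478) (nat_lit 84) (nat_lit 21183448709) (nat_lit 2) (nat_lit 4) (nat_lit 3) (nat_lit 5) (nat_lit 3) (nat_lit 4) (nat_lit 409) (nat_lit 241) (nat_lit 214)) (XT.lf (nat_lit 0) (nat_lit 18405033589) (nat_lit 84) (nat_lit 26377269240) (nat_lit 84) (nat_lit 20261164925) (nat_lit 2) (nat_lit 4) (nat_lit 3) (nat_lit 5) (nat_lit 3) (nat_lit 4) (nat_lit 410) (nat_lit 241) (nat_lit 213))))))) (XT.nd (nat_lit 51982) (nat_lit 0) (nat_lit 84) (XT.nd (nat_lit 51418) (nat_lit 0) (nat_lit 252) (XT.nd (nat_lit 282) (nat_lit 0) (nat_lit 0) (XT.nd (nat_lit 94) (nat_lit 0) (nat_lit 0) (XT.lf (nat_lit 0) (nat_lit 22074471122) (nat_lit 84) (nat_lit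 25589123433) (nat_lit 84) (nat_lit 19336893468) (nat_lit 2) (nat_lit 4) (nat_lit 3) (nat_lit 5) (nat_lit 3) (nat_lit 4) (nat_lit 411) (nat_lit 241) (nat_lit 212)) (XT.nd (nat_lit 94) (nat_lit 0) (nat_lit 0) (XT.lf (nat_lit 0) (nat_lit 25815180949) (nat_lit 84) (nat_lit 24794035424) (nat_lit 84) (nat_lit 18409772820) (nat_lit 2) (nat_lit 4) (nat_lit 3) (nat_lit 5) (nat_lit 3) (nat_lit 4) (nat_lit 412) (nat_lit 241) (nat_lit 211)) (XT.lf (nat_lit 0) (nat_lit 29630649805) (nat_lit 84) (nat_lit 23991264106) (nat_lit 84) (nat_lit 17478938807) (nat_lit 2) (nat_lit 4) (nat_lit 3) (nat_lit 5) (nat_lit 3) (nat_lit 4) (nat_lit 413) (nat_lit 241) (nat_lit 210)))) (XT.nd (nat_lit 94) (nat_lit 0) (nat_lit 0) (XT.lf (nat_lit 0) (nat_lit 33524434106) (nat_lit 84) (nat_lit 23180061214) (nat_lit 84) (nat_lit 16543523796) (nat_lit 2) (nat_lit 4) (nat_lit 3) (nat_lit 5) (nat_lit 3) (nat_lit 4) (nat_lit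 414) (nat_lit 241) (nat_lit 209)) (XT.nd (nat_lit 50948) (nat_lit 0) (nat_lit 336) (XT.lf (nat_lit 0) (nat_lit 37500163267) (nat_lit 84) (nat_lit 22359670621) (nat_lit 84) (nat_lit 15602655880) (nat_lit 2) (nat_lit 4) (nat_lit 3) (nat_lit 5) (nat_lit 3) (nat_lit 4) (nat_lit 415) (nat_lit 241) (nat_lit 208)) (XT.lf (nat_lit 0) (nat_lit 2782120379) (nat_lit 168) (nat_lit 8198696851) (nat_lit 0) (nat_lit 2782120379) (nat_lit 6) (nat_lit 5) (nat_lit 8) (nat_lit 4) (nat_lit 6) (nat_lit 4) (nat_lit 380) (nat_lit 242) (nat_lit 242))))) (XT.nd (nat_lit 282) (nat_lit 84) (nat_lit 0) (XT.nd (nat_lit 94) (nat_lit 0) (nat_lit 0) (XT.lf (nat_lit 0) (nat_lit 8220471817) (nat_lit 168) (nat_lit 12185703931) (nat_lit 0) (nat_lit 7880298750) (nat_lit 6) (nat_lit 5) (nat_lit 8) (nat_lit 4) (nat_lit 6) (nat_lit 4) (nat_lit 381) (nat_lit 242) (nat_lit 241)) (XT.nd (nat_lit 94) (nat_lit 0) (nat_lit 0) (XT.lf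 (nat_lit 0) (nat_lit 10902516194) (nat_lit 168) (nat_lit 7937586659) (nat_lit 0) (nat_lit 10232398347) (nat_lit 6) (nat_lit 5) (nat_lit 8) (nat_lit 4) (nat_lit 6) (nat_lit 4) (nat_lit 382) (nat_lit 242) (nat_lit 240)) (XT.lf (nat_lit 0) (nat_lit 13612873834) (nat_lit 168) (nat_lit 3649082198) (nat_lit 0) (nat_lit 12622731953) (nat_lit 6) (nat_lit 5) (nat_lit 8) (nat_lit 4) (nat_lit 6) (nat_lit 4) (nat_lit 383) (nat_lit 242) (nat_lit 239)))) (XT.nd (nat_lit 94) (nat_lit 0) (nat_lit 0) (XT.lf (nat_lit 0) (nat_lit 697867256) (nat_lit 84) (nat_lit 15663126748) (nat_lit 84) (nat_lit 14362583282) (nat_lit 5) (nat_lit 4) (nat_lit 6) (nat_lit 5) (nat_lit 6) (nat_lit 4) (nat_lit 384) (nat_lit 242) (nat_lit 238)) (XT.nd (nat_lit 94) (nat_lit 0) (nat_lit 0) (XT.lf (nat_lit 0) (nat_lit 5169268239) (nat_lit 84) (nat_lit 14010674543) (nat_lit 84) (nat_lit 12409062614) (nat_lit 5) (nat_lit 4) (nat_lit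 6) (nat_lit 5) (nat_lit 6) (nat_lit 4) (nat_lit 385) (nat_lit 242) (nat_lit 237)) (XT.lf (nat_lit 0) (nat_lit 9694255947) (nat_lit 84) (nat_lit 12341148093) (nat_lit 84) (nat_lit 10447520196) (nat_lit 5) (nat_lit 4) (nat_lit 6) (nat_lit 5) (nat_lit 6) (nat_lit 4) (nat_lit 386) (nat_lit 242) (nat_lit 236)))))) (XT.nd (nat_lit 564) (nat_lit 84) (nat_lit 0) (XT.nd (nat_lit 282) (nat_lit 84) (nat_lit 0) (XT.nd (nat_lit 94) (nat_lit 0) (nat_lit 0) (XT.lf (nat_lit 0) (nat_lit 14277048145) (nat_lit 84) (nat_lit 10652991224) (nat_lit 84) (nat_lit 8476127665) (nat_lit 5) (nat_lit 4) (nat_lit 6) (nat_lit 5) (nat_lit 6) (nat_lit 4) (nat_lit 387) (nat_lit 242) (nat_lit 235)) (XT.nd (nat_lit 94) (nat_lit 0) (nat_lit 0) (XT.lf (nat_lit 0) (nat_lit 18921916474) (nat_lit 84) (nat_lit 8944630397) (nat_lit 84) (nat_lit 6493047477) (nat_lit 5) (nat_lit 4) (nat_lit 6) (nat_lit 5) (nat_lit 6) (nat_lit 4)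 (nat_lit 388) (nat_lit 242) (nat_lit 234)) (XT.lf (nat_lit 0) (nat_lit 23633190438) (nat_lit 84) (nat_lit 7214473242) (nat_lit 84) (nat_lit 4496431192) (nat_lit 5) (nat_lit 4) (nat_lit 6) (nat_lit 5) (nat_lit 6) (nat_lit 4) (nat_lit 389) (nat_lit 242) (nat_lit 233)))) (XT.nd (nat_lit 94) (nat_lit 84) (nat_lit 0) (XT.lf (nat_lit 0) (nat_lit 28415261439) (nat_lit 84) (nat_lit 5460907071) (nat_lit 84) (nat_lit 2484417757) (nat_lit 5) (nat_lit 4) (nat_lit 6) (nat_lit 5) (nat_lit 6) (nat_lit 4) (nat_lit 390) (nat_lit 242) (nat_lit 232)) (XT.nd (nat_lit 94) (nat_lit 84) (nat_lit 0) (XT.lf (nat_lit 0) (nat_lit 33272586866) (nat_lit 84) (nat_lit 3682297375) (nat_lit 84) (nat_lit 455131763) (nat_lit 5) (nat_lit 4) (nat_lit 6) (nat_lit 5) (nat_lit 6) (nat_lit 4) (nat_lit 391) (nat_lit 242) (nat_lit 231)) (XT.lf (nat_lit 0) (nat_lit 1561216483) (nat_lit 168) (nat_lit 299473923) (nat_lit 84) (nat_lit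 36632181875) (nat_lit 4) (nat_lit 5) (nat_lit 6) (nat_lit 5) (nat_lit 5) (nat_lit 4) (nat_lit 392) (nat_lit 242) (nat_lit 230))))) (XT.nd (nat_lit 282) (nat_lit 0) (nat_lit 0) (XT.nd (nat_lit 94) (nat_lit 0) (nat_lit 0) (XT.lf (nat_lit 0) (nat_lit 3625633728) (nat_lit 168) (nat_lit 35952803981) (nat_lit 0) (nat_lit 30936430) (nat_lit 3) (nat_lit 5) (nat_lit 5) (nat_lit 4) (nat_lit 3) (nat_lit 4) (nat_lit 393) (nat_lit 242) (nat_lit 229)) (XT.nd (nat_lit 94) (nat_lit 0) (nat_lit 0) (XT.lf (nat_lit 0) (nat_lit 5734952740) (nat_lit 168) (nat_lit 33107795954) (nat_lit 0) (nat_lit 1918395645) (nat_lit 3) (nat_lit 5) (nat_lit 5) (nat_lit 4) (nat_lit 3) (nat_lit 4) (nat_lit 394) (nat_lit 242) (nat_lit 228)) (XT.lf (nat_lit 0) (nat_lit 7869618433) (nat_lit 168) (nat_lit 30242432779) (nat_lit 0) (nat_lit 3837872397) (nat_lit 3) (nat_lit 5) (nat_lit 5) (nat_lit 4) (nat_lit 3) (nat_lit 4) (nat_lit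 395) (nat_lit 242) (nat_lit 227)))) (XT.nd (nat_lit 94) (nat_lit 0) (nat_lit 0) (XT.lf (nat_lit 0) (nat_lit 10031620539) (nat_lit 168) (nat_lit 27354043637) (nat_lit 0) (nat_lit 5791155841) (nat_lit 3) (nat_lit 5) (nat_lit 5) (nat_lit 4) (nat_lit 3) (nat_lit 4) (nat_lit 396) (nat_lit 242) (nat_lit 226)) (XT.nd (nat_lit 94) (nat_lit 0) (nat_lit 0) (XT.lf (nat_lit 0) (nat_lit 12222974270) (nat_lit 168) (nat_lit 24439936247) (nat_lit 0) (nat_lit 7780066641) (nat_lit 3) (nat_lit 5) (nat_lit 5) (nat_lit 4) (nat_lit 3) (nat_lit 4) (nat_lit 397) (nat_lit 242) (nat_lit 225)) (XT.lf (nat_lit 0) (nat_lit 14445722198) (nat_lit 168) (nat_lit 21497394356) (nat_lit 0) (nat_lit 9806458671) (nat_lit 3) (nat_lit 5) (nat_lit 5) (nat_lit 4) (nat_lit 3) (nat_lit 4) (nat_lit 398) (nat_lit 242) (nat_lit 224))))))))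
noncomputable def xc8 : XT := (XT.nd (nat_lit 53016) (nat_lit 0) (nat_lit 0) (XT.nd (nat_lit 1128) (nat_lit 0) (nat_lit 0) (XT.nd (nat_lit 564) (nat_lit 84) (nat_lit 0) (XT.nd (nat_lit 282) (nat_lit 0) (nat_lit 0) (XT.nd (nat_lit 94) (nat_lit 0) (nat_lit 0) (XT.lf (nat_lit 0) (nat_lit 16701936155) (nat_lit 168) (nat_lit 18523675206) (nat_lit 0) (nat_lit 11872220739) (nat_lit 3) (nat_lit 5) (nat_lit 5) (nat_lit 4) (nat_lit 3) (nat_lit 4) (nat_lit 399) (nat_lit 242) (nat_lit 223)) (XT.nd (nat_lit 94) (nat_lit 0) (nat_lit 0) (XT.lf (nat_lit 0) (nat_lit 18993719171) (nat_lit 168) (nat_lit 15516006979) (nat_lit 0) (nat_lit 13979278353) (nat_lit 3) (nat_lit 5) (nat_lit 5) (nat_lit 4) (nat_lit 3) (nat_lit 4) (nat_lit 400) (nat_lit 242) (nat_lit 222)) (XT.lf (nat_lit 0) (nat_lit 21323207427) (nat_lit 168) (nat_lit 12471586214) (nat_lit 0) (nat_lit 16129595510) (nat_lit 3) (nat_lit 5) (nat_lit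 5) (nat_lit 4) (nat_lit 3) (nat_lit 4) (nat_lit 401) (nat_lit 242) (nat_lit 221)))) (XT.nd (nat_lit 94) (nat_lit 0) (nat_lit 0) (XT.lf (nat_lit 0) (nat_lit 23692572250) (nat_lit 168) (nat_lit 9387575192) (nat_lit 0) (nat_lit 18325176533) (nat_lit 3) (nat_lit 5) (nat_lit 5) (nat_lit 4) (nat_lit 3) (nat_lit 4) (nat_lit 402) (nat_lit 242) (nat_lit 220)) (XT.nd (nat_lit 94) (nat_lit 0) (nat_lit 0) (XT.lf (nat_lit 0) (nat_lit 26104022136) (nat_lit 168) (nat_lit 6261099291) (nat_lit 0) (nat_lit 20568067932) (nat_lit 3) (nat_lit 5) (nat_lit 5) (nat_lit 4) (nat_lit 3) (nat_lit 4) (nat_lit 403) (nat_lit 242) (nat_lit 219)) (XT.lf (nat_lit 0) (nat_lit 28559804809) (nat_lit 168) (nat_lit 3089244308) (nat_lit 0) (nat_lit 22860360316) (nat_lit 3) (nat_lit 5) (nat_lit 5) (nat_lit 4) (nat_lit 3) (nat_lit 4) (nat_lit 404) (nat_lit 242) (nat_lit 218))))) (XT.nd (nat_lit 282) (nat_lit 0) (nat_lit 0) (XT.nd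 (nat_lit 94) (nat_lit 0) (nat_lit 0) (XT.lf (nat_lit 0) (nat_lit 133638780) (nat_lit 84) (nat_lit 30929896248) (nat_lit 84) (nat_lit 25071877276) (nat_lit 2) (nat_lit 4) (nat_lit 3) (nat_lit 5) (nat_lit 3) (nat_lit 4) (nat_lit 405) (nat_lit 242) (nat_lit 217)) (XT.nd (nat_lit 94) (nat_lit 0) (nat_lit 0) (XT.lf (nat_lit 0) (nat_lit 3472435803) (nat_lit 84) (nat_lit 30175579349) (nat_lit 84) (nat_lit 24163753899) (nat_lit 2) (nat_lit 4) (nat_lit 3) (nat_lit 5) (nat_lit 3) (nat_lit 4) (nat_lit 406) (nat_lit 242) (nat_lit 216)) (XT.lf (nat_lit 0) (nat_lit 6866737669) (nat_lit 84) (nat_lit 29417640692) (nat_lit 84) (nat_lit 23256633401) (nat_lit 2) (nat_lit 4) (nat_lit 3) (nat_lit 5) (nat_lit 3) (nat_lit 4) (nat_lit 407) (nat_lit 242) (nat_lit 215)))) (XT.nd (nat_lit 94) (nat_lit 0) (nat_lit 0) (XT.lf (nat_lit 0) (nat_lit 10319708223) (nat_lit 84) (nat_lit 28655373799) (nat_lit 84) (nat_lit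 22349670250) (nat_lit 2) (nat_lit 4) (nat_lit 3) (nat_lit 5) (nat_lit 3) (nat_lit 4) (nat_lit 408) (nat_lit 242) (nat_lit 214)) (XT.nd (nat_lit 94) (nat_lit 0) (nat_lit 0) (XT.lf (nat_lit 0) (nat_lit 13834565996) (nat_lit 84) (nat_lit 27888068158) (nat_lit 84) (nat_lit 21442019064) (nat_lit 2) (nat_lit 4) (nat_lit 3) (nat_lit 5) (nat_lit 3) (nat_lit 4) (nat_lit 409) (nat_lit 242) (nat_lit 213)) (XT.lf (nat_lit 0) (nat_lit 17414587203) (nat_lit 84) (nat_lit 27115008559) (nat_lit 84) (nat_lit 20532833815) (nat_lit 2) (nat_lit 4) (nat_lit 3) (nat_lit 5) (nat_lit 3) (nat_lit 4) (nat_lit 410) (nat_lit 242) (nat_lit 212)))))) (XT.nd (nat_lit 51324) (nat_lit 0) (nat_lit 252) (XT.nd (nat_lit 282) (nat_lit 0) (nat_lit 0) (XT.nd (nat_lit 94) (nat_lit 0) (nat_lit 0) (XT.lf (nat_lit 0) (nat_lit 21063108798) (nat_lit 84) (nat_lit 26335474430) (nat_lit 84) (nat_lit 19621267047) (nat_lit 2) (nat_lit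 4) (nat_lit 3) (nat_lit 5) (nat_lit 3) (nat_lit 4) (nat_lit 411) (nat_lit 242) (nat_lit 211)) (XT.nd (nat_lit 94) (nat_lit 0) (nat_lit 0) (XT.lf (nat_lit 0) (nat_lit 24783531586) (nat_lit 84) (nat_lit 25548739164) (nat_lit 84) (nat_lit 18706469085) (nat_lit 2) (nat_lit 4) (nat_lit 3) (nat_lit 5) (nat_lit 3) (nat_lit 4) (nat_lit 412) (nat_lit 242) (nat_lit 210)) (XT.lf (nat_lit 0) (nat_lit 28579323392) (nat_lit 84) (nat_lit 24754069439) (nat_lit 84) (nat_lit 17787587242) (nat_lit 2) (nat_lit 4) (nat_lit 3) (nat_lit 5) (nat_lit 3) (nat_lit 4) (nat_lit 413) (nat_lit 242) (nat_lit 209)))) (XT.nd (nat_lit 50854) (nat_lit 0) (nat_lit 336) (XT.lf (nat_lit 0) (nat_lit 32454022290) (nat_lit 84) (nat_lit 23950724543) (nat_lit 84) (nat_lit 16863765022) (nat_lit 2) (nat_lit 4) (nat_lit 3) (nat_lit 5) (nat_lit 3) (nat_lit 4) (nat_lit 414) (nat_lit 242) (nat_lit 208)) (XT.nd (nat_lit 94) (nat_lit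 0) (nat_lit 0) (XT.lf (nat_lit 0) (nat_lit 349820583) (nat_lit 168) (nat_lit 12338948092) (nat_lit 0) (nat_lit 349820583) (nat_lit 6) (nat_lit 5) (nat_lit 8) (nat_lit 4) (nat_lit 6) (nat_lit 4) (nat_lit 378) (nat_lit 243) (nat_lit 243)) (XT.lf (nat_lit 0) (nat_lit 3282065565) (nat_lit 168) (nat_lit 20576581711) (nat_lit 0) (nat_lit 2931347132) (nat_lit 6) (nat_lit 5) (nat_lit 8) (nat_lit 4) (nat_lit 6) (nat_lit 4) (nat_lit 379) (nat_lit 243) (nat_lit 242))))) (XT.nd (nat_lit 282) (nat_lit 84) (nat_lit 0) (XT.nd (nat_lit 94) (nat_lit 0) (nat_lit 0) (XT.lf (nat_lit 0) (nat_lit 5886262849) (nat_lit 168) (nat_lit 16445179554) (nat_lit 0) (nat_lit 5195371349) (nat_lit 6) (nat_lit 5) (nat_lit 8) (nat_lit 4) (nat_lit 6) (nat_lit 4) (nat_lit 380) (nat_lit 243) (nat_lit 241)) (XT.nd (nat_lit 94) (nat_lit 0) (nat_lit 0) (XT.lf (nat_lit 0) (nat_lit 8514660405) (nat_lit 168) (nat_lit 12279838814)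 (nat_lit 0) (nat_lit 7493824126) (nat_lit 6) (nat_lit 5) (nat_lit 8) (nat_lit 4) (nat_lit 6) (nat_lit 4) (nat_lit 381) (nat_lit 243) (nat_lit 240)) (XT.lf (nat_lit 0) (nat_lit 11169708173) (nat_lit 168) (nat_lit 8076676957) (nat_lit 0) (nat_lit 9828847859) (nat_lit 6) (nat_lit 5) (nat_lit 8) (nat_lit 4) (nat_lit 6) (nat_lit 4) (nat_lit 382) (nat_lit 243) (nat_lit 239)))) (XT.nd (nat_lit 94) (nat_lit 84) (nat_lit 0) (XT.lf (nat_lit 0) (nat_lit 13853880936) (nat_lit 168) (nat_lit 3831776195) (nat_lit 0) (nat_lit 12202619037) (nat_lit 6) (nat_lit 5) (nat_lit 8) (nat_lit 4) (nat_lit 6) (nat_lit 4) (nat_lit 383) (nat_lit 243) (nat_lit 238)) (XT.nd (nat_lit 94) (nat_lit 0) (nat_lit 0) (XT.lf (nat_lit 0) (nat_lit 468254445) (nat_lit 84) (nat_lit 16106071321) (nat_lit 84) (nat_lit 14153740959) (nat_lit 5) (nat_lit 4) (nat_lit 6) (nat_lit 5) (nat_lit 6) (nat_lit 4) (nat_lit 384) (nat_lit 243)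 (nat_lit 237)) (XT.lf (nat_lit 0) (nat_lit 4897790974) (nat_lit 84) (nat_lit 14470434366) (nat_lit 84) (nat_lit 12226088036) (nat_lit 5) (nat_lit 4) (nat_lit 6) (nat_lit 5) (nat_lit 6) (nat_lit 4) (nat_lit 385) (nat_lit 243) (nat_lit 236))))))) (XT.nd (nat_lit 1128) (nat_lit 84) (nat_lit 0) (XT.nd (nat_lit 564) (nat_lit 168) (nat_lit 0) (XT.nd (nat_lit 282) (nat_lit 0) (nat_lit 0) (XT.nd (nat_lit 94) (nat_lit 0) (nat_lit 0) (XT.lf (nat_lit 0) (nat_lit 9382173006) (nat_lit 84) (nat_lit 12817217567) (nat_lit 84) (nat_lit 10289635575) (nat_lit 5) (nat_lit 4) (nat_lit 6) (nat_lit 5) (nat_lit 6) (nat_lit 4) (nat_lit 386) (nat_lit 243) (nat_lit 235)) (XT.nd (nat_lit 94) (nat_lit 0) (nat_lit 0) (XT.lf (nat_lit 0) (nat_lit 13925580454) (nat_lit 84) (nat_lit 11144879952) (nat_lit 84) (nat_lit 8342578598) (nat_lit 5) (nat_lit 4) (nat_lit 6) (nat_lit 5) (nat_lit 6) (nat_lit 4) (nat_lit 387) (nat_lit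 243) (nat_lit 234)) (XT.lf (nat_lit 0) (nat_lit 18532248250) (nat_lit 84) (nat_lit 9451862728) (nat_lit 84) (nat_lit 6383102246) (nat_lit 5) (nat_lit 4) (nat_lit 6) (nat_lit 5) (nat_lit 6) (nat_lit 4) (nat_lit 388) (nat_lit 243) (nat_lit 233)))) (XT.nd (nat_lit 94) (nat_lit 0) (nat_lit 0) (XT.lf (nat_lit 0) (nat_lit 23206470291) (nat_lit 84) (nat_lit 7736587826) (nat_lit 84) (nat_lit 4409380079) (nat_lit 5) (nat_lit 4) (nat_lit 6) (nat_lit 5) (nat_lit 6) (nat_lit 4) (nat_lit 389) (nat_lit 243) (nat_lit 232)) (XT.nd (nat_lit 94) (nat_lit 0) (nat_lit 0) (XT.lf (nat_lit 0) (nat_lit 27952603441) (nat_lit 84) (nat_lit 5997456429) (nat_lit 84) (nat_lit 2419572384) (nat_lit 5) (nat_lit 4) (nat_lit 6) (nat_lit 5) (nat_lit 6) (nat_lit 4) (nat_lit 390) (nat_lit 243) (nat_lit 231)) (XT.lf (nat_lit 0) (nat_lit 32775071593) (nat_lit 84) (nat_lit 4232847485) (nat_lit 84) (nat_lit 411824450) (nat_lit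 5) (nat_lit 4) (nat_lit 6) (nat_lit 5) (nat_lit 6) (nat_lit 4) (nat_lit 391) (nat_lit 243) (nat_lit 230))))) (XT.nd (nat_lit 282) (nat_lit 0) (nat_lit 0) (XT.nd (nat_lit 94) (nat_lit 84) (nat_lit 0) (XT.lf (nat_lit 0) (nat_lit 1583181690) (nat_lit 168) (nat_lit 841409332) (nat_lit 84) (nat_lit 36078662934) (nat_lit 4) (nat_lit 5) (nat_lit 6) (nat_lit 5) (nat_lit 5) (nat_lit 4) (nat_lit 392) (nat_lit 243) (nat_lit 229)) (XT.nd (nat_lit 94) (nat_lit 0) (nat_lit 0) (XT.lf (nat_lit 0) (nat_lit 3069898243) (nat_lit 84) (nat_lit 551710344) (nat_lit 168) (nat_lit 35998984850) (nat_lit 3) (nat_lit 5) (nat_lit 4) (nat_lit 5) (nat_lit 5) (nat_lit 4) (nat_lit 393) (nat_lit 243) (nat_lit 228)) (XT.lf (nat_lit 0) (nat_lit 5705739051) (nat_lit 168) (nat_lit 33733616447) (nat_lit 0) (nat_lit 1333819947) (nat_lit 3) (nat_lit 5) (nat_lit 5) (nat_lit 4) (nat_lit 3) (nat_lit 4) (nat_lit 394) (nat_lit 243)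 (nat_lit 227)))) (XT.nd (nat_lit 94) (nat_lit 0) (nat_lit 0) (XT.lf (nat_lit 0) (nat_lit 7821282034) (nat_lit 168) (nat_lit 30900651250) (nat_lit 0) (nat_lit 3240644268) (nat_lit 3) (nat_lit 5) (nat_lit 5) (nat_lit 4) (nat_lit 3) (nat_lit 4) (nat_lit 395) (nat_lit 243) (nat_lit 226)) (XT.nd (nat_lit 94) (nat_lit 0) (nat_lit 0) (XT.lf (nat_lit 0) (nat_lit 9964736409) (nat_lit 168) (nat_lit 28043685946) (nat_lit 0) (nat_lit 5181655713) (nat_lit 3) (nat_lit 5) (nat_lit 5) (nat_lit 4) (nat_lit 3) (nat_lit 4) (nat_lit 396) (nat_lit 243) (nat_lit 225)) (XT.lf (nat_lit 0) (nat_lit 12138100101) (nat_lit 168) (nat_lit 25160057545) (nat_lit 0) (nat_lit 7158663507) (nat_lit 3) (nat_lit 5) (nat_lit 5) (nat_lit 4) (nat_lit 3) (nat_lit 4) (nat_lit 397) (nat_lit 243) (nat_lit 224)))))) (XT.nd (nat_lit 564) (nat_lit 84) (nat_lit 0) (XT.nd (nat_lit 282) (nat_lit 0) (nat_lit 0) (XT.nd (nat_lit 94) (nat_lit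 0) (nat_lit 0) (XT.lf (nat_lit 0) (nat_lit 14343398912) (nat_lit 168) (nat_lit 22247078204) (nat_lit 0) (nat_lit 9173510428) (nat_lit 3) (nat_lit 5) (nat_lit 5) (nat_lit 4) (nat_lit 3) (nat_lit 4) (nat_lit 398) (nat_lit 243) (nat_lit 223)) (XT.nd (nat_lit 94) (nat_lit 0) (nat_lit 0) (XT.lf (nat_lit 0) (nat_lit 16582688412) (nat_lit 168) (nat_lit 19302032721) (nat_lit 0) (nat_lit 11228074526) (nat_lit 3) (nat_lit 5) (nat_lit 5) (nat_lit 4) (nat_lit 3) (nat_lit 4) (nat_lit 399) (nat_lit 243) (nat_lit 222)) (XT.lf (nat_lit 0) (nat_lit 18858055852) (nat_lit 168) (nat_lit 16322176004) (nat_lit 0) (nat_lit 13324270868) (nat_lit 3) (nat_lit 5) (nat_lit 5) (nat_lit 4) (nat_lit 3) (nat_lit 4) (nat_lit 400) (nat_lit 243) (nat_lit 221)))) (XT.nd (nat_lit 94) (nat_lit 0) (nat_lit 0) (XT.lf (nat_lit 0) (nat_lit 21171622115) (nat_lit 168) (nat_lit 13304730516) (nat_lit 0) (nat_lit 15464053330) (nat_lit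 3) (nat_lit 5) (nat_lit 5) (nat_lit 4) (nat_lit 3) (nat_lit 4) (nat_lit 401) (nat_lit 243) (nat_lit 220)) (XT.nd (nat_lit 94) (nat_lit 0) (nat_lit 0) (XT.lf (nat_lit 0) (nat_lit 23525543685) (nat_lit 168) (nat_lit 10246883680) (nat_lit 0) (nat_lit 17649416413) (nat_lit 3) (nat_lit 5) (nat_lit 5) (nat_lit 4) (nat_lit 3) (nat_lit 4) (nat_lit 402) (nat_lit 243) (nat_lit 219)) (XT.lf (nat_lit 0) (nat_lit 25922014664) (nat_lit 168) (nat_lit 7145785264) (nat_lit 0) (nat_lit 19882397104) (nat_lit 3) (nat_lit 5) (nat_lit 5) (nat_lit 4) (nat_lit 3) (nat_lit 4) (nat_lit 403) (nat_lit 243) (nat_lit 218))))) (XT.nd (nat_lit 282) (nat_lit 0) (nat_lit 0) (XT.nd (nat_lit 94) (nat_lit 84) (nat_lit 0) (XT.lf (nat_lit 0) (nat_lit 28363268815) (nat_lit 168) (nat_lit 3998544718) (nat_lit 0) (nat_lit 22165076776) (nat_lit 3) (nat_lit 5) (nat_lit 5) (nat_lit 4) (nat_lit 3) (nat_lit 4) (nat_lit 404) (nat_lit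 243) (nat_lit 217)) (XT.nd (nat_lit 94) (nat_lit 84) (nat_lit 0) (XT.lf (nat_lit 0) (nat_lit 30851581641) (nat_lit 168) (nat_lit 802228485) (nat_lit 0) (nat_lit 24499583124) (nat_lit 3) (nat_lit 5) (nat_lit 5) (nat_lit 4) (nat_lit 3) (nat_lit 4) (nat_lit 405) (nat_lit 243) (nat_lit 216)) (XT.lf (nat_lit 0) (nat_lit 2496440448) (nat_lit 84) (nat_lit 30917597062) (nat_lit 84) (nat_lit 24416416703) (nat_lit 2) (nat_lit 4) (nat_lit 3) (nat_lit 5) (nat_lit 3) (nat_lit 4) (nat_lit 406) (nat_lit 243) (nat_lit 215)))) (XT.nd (nat_lit 94) (nat_lit 0) (nat_lit 0) (XT.lf (nat_lit 0) (nat_lit 5867820270) (nat_lit 84) (nat_lit 30169096053) (nat_lit 84) (nat_lit 23523219437) (nat_lit 2) (nat_lit 4) (nat_lit 3) (nat_lit 5) (nat_lit 3) (nat_lit 4) (nat_lit 407) (nat_lit 243) (nat_lit 214)) (XT.nd (nat_lit 94) (nat_lit 0) (nat_lit 0) (XT.lf (nat_lit 0) (nat_lit 9298557999) (nat_lit 84) (nat_lit 29415983038)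 (nat_lit 84) (nat_lit 22629760876) (nat_lit 2) (nat_lit 4) (nat_lit 3) (nat_lit 5) (nat_lit 3) (nat_lit 4) (nat_lit 408) (nat_lit 243) (nat_lit 213)) (XT.lf (nat_lit 0) (nat_lit 12791851440) (nat_lit 84) (nat_lit 28657556036) (nat_lit 84) (nat_lit 21735208224) (nat_lit 2) (nat_lit 4) (nat_lit 3) (nat_lit 5) (nat_lit 3) (nat_lit 4) (nat_lit 409) (nat_lit 243) (nat_lit 212))))))))
noncomputable def xc9 : XT := (XT.nd (nat_lit 52922) (nat_lit 0) (nat_lit 0) (XT.nd (nat_lit 51794) (nat_lit 0) (nat_lit 84) (XT.nd (nat_lit 51230) (nat_lit 0) (nat_lit 336) (XT.nd (nat_lit 282) (nat_lit 0) (nat_lit 0) (XT.nd (nat_lit 94) (nat_lit 0) (nat_lit 0) (XT.lf (nat_lit 0) (nat_lit 16350956710) (nat_lit 84) (nat_lit 27893108115) (nat_lit 84) (nat_lit 20838727664) (nat_lit 2) (nat_lit 4) (nat_lit 3) (nat_lit 5) (nat_lit 3) (nat_lit 4) (nat_lit 410) (nat_lit 243) (nat_lit 211)) (XT.nd (nat_lit 94) (nat_lit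 0) (nat_lit 0) (XT.lf (nat_lit 0) (nat_lit 19979191266) (nat_lit 84) (nat_lit 27121926729) (nat_lit 84) (nat_lit 19939483583) (nat_lit 2) (nat_lit 4) (nat_lit 3) (nat_lit 5) (nat_lit 3) (nat_lit 4) (nat_lit 411) (nat_lit 243) (nat_lit 210)) (XT.lf (nat_lit 0) (nat_lit 23679937004) (nat_lit 84) (nat_lit 26343293055) (nat_lit 84) (nat_lit 19036637790) (nat_lit 2) (nat_lit 4) (nat_lit 3) (nat_lit 5) (nat_lit 3) (nat_lit 4) (nat_lit 412) (nat_lit 243) (nat_lit 209)))) (XT.nd (nat_lit 50760) (nat_lit 0) (nat_lit 504) (XT.lf (nat_lit 0) (nat_lit 27456643406) (nat_lit 84) (nat_lit 25556481327) (nat_lit 84) (nat_lit 18129348739) (nat_lit 2) (nat_lit 4) (nat_lit 3) (nat_lit 5) (nat_lit 3) (nat_lit 4) (nat_lit 413) (nat_lit 243) (nat_lit 208)) (XT.nd (nat_lit 94) (nat_lit 0) (nat_lit 0) (XT.lf (nat_lit 0) (nat_lit 8380745119) (nat_lit 168) (nat_lit 1988366431) (nat_lit 168) (nat_lit 1988366431)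 (nat_lit 8) (nat_lit 4) (nat_lit 10) (nat_lit 5) (nat_lit 10) (nat_lit 4) (nat_lit 376) (nat_lit 244) (nat_lit 244)) (XT.lf (nat_lit 0) (nat_lit 22054446979) (nat_lit 168) (nat_lit 1851987054) (nat_lit 168) (nat_lit 1479187039) (nat_lit 8) (nat_lit 4) (nat_lit 10) (nat_lit 5) (nat_lit 10) (nat_lit 4) (nat_lit 377) (nat_lit 244) (nat_lit 243))))) (XT.nd (nat_lit 282) (nat_lit 0) (nat_lit 0) (XT.nd (nat_lit 94) (nat_lit 0) (nat_lit 0) (XT.lf (nat_lit 0) (nat_lit 1031645941) (nat_lit 168) (nat_lit 24727163398) (nat_lit 0) (nat_lit 319336805) (nat_lit 6) (nat_lit 5) (nat_lit 8) (nat_lit 4) (nat_lit 6) (nat_lit 4) (nat_lit 378) (nat_lit 244) (nat_lit 242)) (XT.nd (nat_lit 94) (nat_lit 0) (nat_lit 0) (XT.lf (nat_lit 0) (nat_lit 3585373998) (nat_lit 168) (nat_lit 20673634777) (nat_lit 0) (nat_lit 2532891794) (nat_lit 6) (nat_lit 5) (nat_lit 8) (nat_lit 4) (nat_lit 6) (nat_lit 4) (nat_lit 379)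 (nat_lit 244) (nat_lit 241)) (XT.lf (nat_lit 0) (nat_lit 6161737780) (nat_lit 168) (nat_lit 16588581651) (nat_lit 0) (nat_lit 4779310796) (nat_lit 6) (nat_lit 5) (nat_lit 8) (nat_lit 4) (nat_lit 6) (nat_lit 4) (nat_lit 380) (nat_lit 244) (nat_lit 240)))) (XT.nd (nat_lit 94) (nat_lit 0) (nat_lit 0) (XT.lf (nat_lit 0) (nat_lit 8763138727) (nat_lit 168) (nat_lit 12468196325) (nat_lit 0) (nat_lit 7060687709) (nat_lit 6) (nat_lit 5) (nat_lit 8) (nat_lit 4) (nat_lit 6) (nat_lit 4) (nat_lit 381) (nat_lit 244) (nat_lit 239)) (XT.nd (nat_lit 94) (nat_lit 0) (nat_lit 0) (XT.lf (nat_lit 0) (nat_lit 11392001617) (nat_lit 168) (nat_lit 8308638167) (nat_lit 0) (nat_lit 9379149015) (nat_lit 6) (nat_lit 5) (nat_lit 8) (nat_lit 4) (nat_lit 6) (nat_lit 4) (nat_lit 382) (nat_lit 244) (nat_lit 238)) (XT.lf (nat_lit 0) (nat_lit 14050776827) (nat_lit 168) (nat_lit 4106030033) (nat_lit 0) (nat_lit 11736855762)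 (nat_lit 6) (nat_lit 5) (nat_lit 8) (nat_lit 4) (nat_lit 6) (nat_lit 4) (nat_lit 383) (nat_lit 244) (nat_lit 237)))))) (XT.nd (nat_lit 564) (nat_lit 168) (nat_lit 0) (XT.nd (nat_lit 282) (nat_lit 0) (nat_lit 0) (XT.nd (nat_lit 94) (nat_lit 0) (nat_lit 0) (XT.lf (nat_lit 0) (nat_lit 146496933) (nat_lit 84) (nat_lit 16596898948) (nat_lit 84) (nat_lit 13990961915) (nat_lit 5) (nat_lit 4) (nat_lit 6) (nat_lit 5) (nat_lit 6) (nat_lit 4) (nat_lit 384) (nat_lit 244) (nat_lit 236)) (XT.nd (nat_lit 94) (nat_lit 0) (nat_lit 0) (XT.lf (nat_lit 0) (nat_lit 4535427785) (nat_lit 84) (nat_lit 14977571644) (nat_lit 84) (nat_lit 12088398949) (nat_lit 5) (nat_lit 4) (nat_lit 6) (nat_lit 5) (nat_lit 6) (nat_lit 4) (nat_lit 385) (nat_lit 244) (nat_lit 235)) (XT.lf (nat_lit 0) (nat_lit 8980425067) (nat_lit 84) (nat_lit 13340174099) (nat_lit 84) (nat_lit 10176282042) (nat_lit 5) (nat_lit 4) (nat_lit 6) (nat_lit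 5) (nat_lit 6) (nat_lit 4) (nat_lit 386) (nat_lit 244) (nat_lit 234)))) (XT.nd (nat_lit 94) (nat_lit 0) (nat_lit 0) (XT.lf (nat_lit 0) (nat_lit 13485631982) (nat_lit 84) (nat_lit 11683180087) (nat_lit 84) (nat_lit 8252828901) (nat_lit 5) (nat_lit 4) (nat_lit 6) (nat_lit 5) (nat_lit 6) (nat_lit 4) (nat_lit 387) (nat_lit 244) (nat_lit 233)) (XT.nd (nat_lit 94) (nat_lit 0) (nat_lit 0) (XT.lf (nat_lit 0) (nat_lit 18055247854) (nat_lit 84) (nat_lit 10005045116) (nat_lit 84) (nat_lit 6316246666) (nat_lit 5) (nat_lit 4) (nat_lit 6) (nat_lit 5) (nat_lit 6) (nat_lit 4) (nat_lit 388) (nat_lit 244) (nat_lit 232)) (XT.lf (nat_lit 0) (nat_lit 22693532044) (nat_lit 84) (nat_lit 8304204989) (nat_lit 84) (nat_lit 4364730240) (nat_lit 5) (nat_lit 4) (nat_lit 6) (nat_lit 5) (nat_lit 6) (nat_lit 4) (nat_lit 389) (nat_lit 244) (nat_lit 231))))) (XT.nd (nat_lit 282) (nat_lit 84) (nat_lit 0) (XT.nd (nat_lit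 94) (nat_lit 84) (nat_lit 0) (XT.lf (nat_lit 0) (nat_lit 27404807920) (nat_lit 84) (nat_lit 6579074343) (nat_lit 84) (nat_lit 2396460604) (nat_lit 5) (nat_lit 4) (nat_lit 6) (nat_lit 5) (nat_lit 6) (nat_lit 4) (nat_lit 390) (nat_lit 244) (nat_lit 230)) (XT.nd (nat_lit 94) (nat_lit 84) (nat_lit 0) (XT.lf (nat_lit 0) (nat_lit 32193466883) (nat_lit 84) (nat_lit 4828045177) (nat_lit 84) (nat_lit 409603126) (nat_lit 5) (nat_lit 4) (nat_lit 6) (nat_lit 5) (nat_lit 6) (nat_lit 4) (nat_lit 391) (nat_lit 244) (nat_lit 229)) (XT.lf (nat_lit 0) (nat_lit 1565504176) (nat_lit 168) (nat_lit 1467640519) (nat_lit 84) (nat_lit 35482127636) (nat_lit 4) (nat_lit 5) (nat_lit 6) (nat_lit 5) (nat_lit 5) (nat_lit 4) (nat_lit 392) (nat_lit 244) (nat_lit 228)))) (XT.nd (nat_lit 94) (nat_lit 0) (nat_lit 0) (XT.lf (nat_lit 0) (nat_lit 2397894128) (nat_lit 84) (nat_lit 1180113467) (nat_lit 168) (nat_lit 36055438807)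 (nat_lit 3) (nat_lit 5) (nat_lit 4) (nat_lit 5) (nat_lit 5) (nat_lit 4) (nat_lit 393) (nat_lit 244) (nat_lit 227)) (XT.nd (nat_lit 94) (nat_lit 0) (nat_lit 0) (XT.lf (nat_lit 0) (nat_lit 5636781513) (nat_lit 168) (nat_lit 34444637668) (nat_lit 0) (nat_lit 705425315) (nat_lit 3) (nat_lit 5) (nat_lit 5) (nat_lit 4) (nat_lit 3) (nat_lit 4) (nat_lit 394) (nat_lit 244) (nat_lit 226)) (XT.lf (nat_lit 0) (nat_lit 7733776766) (nat_lit 168) (nat_lit 31643096308) (nat_lit 0) (nat_lit 2599977637) (nat_lit 3) (nat_lit 5) (nat_lit 5) (nat_lit 4) (nat_lit 3) (nat_lit 4) (nat_lit 395) (nat_lit 244) (nat_lit 225))))))) (XT.nd (nat_lit 1128) (nat_lit 0) (nat_lit 0) (XT.nd (nat_lit 564) (nat_lit 84) (nat_lit 0) (XT.nd (nat_lit 282) (nat_lit 0) (nat_lit 0) (XT.nd (nat_lit 94) (nat_lit 0) (nat_lit 0) (XT.lf (nat_lit 0) (nat_lit 9859241102) (nat_lit 168) (nat_lit 28816609994) (nat_lit 0) (nat_lit 4529086075)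 (nat_lit 3) (nat_lit 5) (nat_lit 5) (nat_lit 4) (nat_lit 3) (nat_lit 4) (nat_lit 396) (nat_lit 244) (nat_lit 224)) (XT.nd (nat_lit 94) (nat_lit 0) (nat_lit 0) (XT.lf (nat_lit 0) (nat_lit 12015155678) (nat_lit 168) (nat_lit 25962544144) (nat_lit 0) (nat_lit 6494548761) (nat_lit 3) (nat_lit 5) (nat_lit 5) (nat_lit 4) (nat_lit 3) (nat_lit 4) (nat_lit 397) (nat_lit 244) (nat_lit 223)) (XT.lf (nat_lit 0) (nat_lit 14203530031) (nat_lit 168) (nat_lit 23078238469) (nat_lit 0) (nat_lit 8498197712) (nat_lit 3) (nat_lit 5) (nat_lit 5) (nat_lit 4) (nat_lit 3) (nat_lit 4) (nat_lit 398) (nat_lit 244) (nat_lit 222)))) (XT.nd (nat_lit 94) (nat_lit 0) (nat_lit 0) (XT.lf (nat_lit 0) (nat_lit 16426403955) (nat_lit 168) (nat_lit 20161004496) (nat_lit 0) (nat_lit 10541900538) (nat_lit 3) (nat_lit 5) (nat_lit 5) (nat_lit 4) (nat_lit 3) (nat_lit 4) (nat_lit 399) (nat_lit 244) (nat_lit 221)) (XT.nd (nat_lit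 94) (nat_lit 0) (nat_lit 0) (XT.lf (nat_lit 0) (nat_lit 18685849402) (nat_lit 168) (nat_lit 17208123056) (nat_lit 0) (nat_lit 12627562185) (nat_lit 3) (nat_lit 5) (nat_lit 5) (nat_lit 4) (nat_lit 3) (nat_lit 4) (nat_lit 400) (nat_lit 244) (nat_lit 220)) (XT.lf (nat_lit 0) (nat_lit 20983972411) (nat_lit 168) (nat_lit 14216841754) (nat_lit 0) (nat_lit 14757126707) (nat_lit 3) (nat_lit 5) (nat_lit 5) (nat_lit 4) (nat_lit 3) (nat_lit 4) (nat_lit 401) (nat_lit 244) (nat_lit 219))))) (XT.nd (nat_lit 282) (nat_lit 84) (nat_lit 0) (XT.nd (nat_lit 94) (nat_lit 0) (nat_lit 0) (XT.lf (nat_lit 0) (nat_lit 23322915075) (nat_lit 168) (nat_lit 11184372403) (nat_lit 0) (nat_lit 16932579082) (nat_lit 3) (nat_lit 5) (nat_lit 5) (nat_lit 4) (nat_lit 3) (nat_lit 4) (nat_lit 402) (nat_lit 244) (nat_lit 218)) (XT.nd (nat_lit 94) (nat_lit 0) (nat_lit 0) (XT.lf (nat_lit 0) (nat_lit 25704857532) (nat_lit 168)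 (nat_lit 8107888423) (nat_lit 0) (nat_lit 19155947060) (nat_lit 3) (nat_lit 5) (nat_lit 5) (nat_lit 4) (nat_lit 3) (nat_lit 4) (nat_lit 403) (nat_lit 244) (nat_lit 217)) (XT.lf (nat_lit 0) (nat_lit 28132020002) (nat_lit 168) (nat_lit 4984522210) (nat_lit 0) (nat_lit 21429303052) (nat_lit 3) (nat_lit 5) (nat_lit 5) (nat_lit 4) (nat_lit 3) (nat_lit 4) (nat_lit 404) (nat_lit 244) (nat_lit 216)))) (XT.nd (nat_lit 94) (nat_lit 84) (nat_lit 0) (XT.lf (nat_lit 0) (nat_lit 30606664855) (nat_lit 168) (nat_lit 1811362459) (nat_lit 0) (nat_lit 23754766064) (nat_lit 3) (nat_lit 5) (nat_lit 5) (nat_lit 4) (nat_lit 3) (nat_lit 4) (nat_lit 405) (nat_lit 244) (nat_lit 215)) (XT.nd (nat_lit 94) (nat_lit 0) (nat_lit 0) (XT.lf (nat_lit 0) (nat_lit 1443634566) (nat_lit 84) (nat_lit 31701785187) (nat_lit 84) (nat_lit 24705190138) (nat_lit 2) (nat_lit 4) (nat_lit 3) (nat_lit 5) (nat_lit 3) (nat_lit 4) (nat_lit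 406) (nat_lit 244) (nat_lit 214)) (XT.lf (nat_lit 0) (nat_lit 4792781563) (nat_lit 84) (nat_lit 30962438055) (nat_lit 84) (nat_lit 23825497461) (nat_lit 2) (nat_lit 4) (nat_lit 3) (nat_lit 5) (nat_lit 3) (nat_lit 4) (nat_lit 407) (nat_lit 244) (nat_lit 213)))))) (XT.nd (nat_lit 51136) (nat_lit 0) (nat_lit 336) (XT.nd (nat_lit 282) (nat_lit 0) (nat_lit 0) (XT.nd (nat_lit 94) (nat_lit 0) (nat_lit 0) (XT.lf (nat_lit 0) (nat_lit 8201954961) (nat_lit 84) (nat_lit 30218203680) (nat_lit 84) (nat_lit 22945137435) (nat_lit 2) (nat_lit 4) (nat_lit 3) (nat_lit 5) (nat_lit 3) (nat_lit 4) (nat_lit 408) (nat_lit 244) (nat_lit 212)) (XT.nd (nat_lit 94) (nat_lit 0) (nat_lit 0) (XT.lf (nat_lit 0) (nat_lit 11674332465) (nat_lit 84) (nat_lit 29468388356) (nat_lit 84) (nat_lit 22063289473) (nat_lit 2) (nat_lit 4) (nat_lit 3) (nat_lit 5) (nat_lit 3) (nat_lit 4) (nat_lit 409) (nat_lit 244) (nat_lit 211))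 (XT.lf (nat_lit 0) (nat_lit 15213150695) (nat_lit 84) (nat_lit 28712293178) (nat_lit 84) (nat_lit 21179131599) (nat_lit 2) (nat_lit 4) (nat_lit 3) (nat_lit 5) (nat_lit 3) (nat_lit 4) (nat_lit 410) (nat_lit 244) (nat_lit 210)))) (XT.nd (nat_lit 94) (nat_lit 0) (nat_lit 0) (XT.lf (nat_lit 0) (nat_lit 18821708201) (nat_lit 84) (nat_lit 27949213384) (nat_lit 84) (nat_lit 20291839686) (nat_lit 2) (nat_lit 4) (nat_lit 3) (nat_lit 5) (nat_lit 3) (nat_lit 4) (nat_lit 411) (nat_lit 244) (nat_lit 209)) (XT.nd (nat_lit 50666) (nat_lit 0) (nat_lit 504) (XT.lf (nat_lit 0) (nat_lit 22503368536) (nat_lit 84) (nat_lit 27178437706) (nat_lit 84) (nat_lit 19400586686) (nat_lit 2) (nat_lit 4) (nat_lit 3) (nat_lit 5) (nat_lit 3) (nat_lit 4) (nat_lit 412) (nat_lit 244) (nat_lit 208)) (XT.lf (nat_lit 0) (nat_lit 3206187411) (nat_lit 168) (nat_lit 4256464959) (nat_lit 168) (nat_lit 4256464959) (nat_lit 8) (nat_lit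 4) (nat_lit 10) (nat_lit 5) (nat_lit 10) (nat_lit 4) (nat_lit 374) (nat_lit 245) (nat_lit 245))))) (XT.nd (nat_lit 282) (nat_lit 168) (nat_lit 0) (XT.nd (nat_lit 94) (nat_lit 0) (nat_lit 0) (XT.lf (nat_lit 0) (nat_lit 11532482851) (nat_lit 168) (nat_lit 6459117457) (nat_lit 168) (nat_lit 6074760641) (nat_lit 8) (nat_lit 4) (nat_lit 10) (nat_lit 5) (nat_lit 10) (nat_lit 4) (nat_lit 375) (nat_lit 245) (nat_lit 244)) (XT.nd (nat_lit 94) (nat_lit 0) (nat_lit 0) (XT.lf (nat_lit 0) (nat_lit 16713164352) (nat_lit 168) (nat_lit 4379957641) (nat_lit 168) (nat_lit 3622800809) (nat_lit 8) (nat_lit 4) (nat_lit 10) (nat_lit 5) (nat_lit 10) (nat_lit 4) (nat_lit 376) (nat_lit 245) (nat_lit 243)) (XT.lf (nat_lit 0) (nat_lit 21959248262) (nat_lit 168) (nat_lit 2273512474) (nat_lit 168) (nat_lit 1154764938) (nat_lit 8) (nat_lit 4) (nat_lit 10) (nat_lit 5) (nat_lit 10) (nat_lit 4) (nat_lit 377) (nat_lit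 245) (nat_lit 242)))) (XT.nd (nat_lit 94) (nat_lit 0) (nat_lit 0) (XT.lf (nat_lit 0) (nat_lit 1204894745) (nat_lit 84) (nat_lit 111875670) (nat_lit 168) (nat_lit 24764245110) (nat_lit 6) (nat_lit 5) (nat_lit 7) (nat_lit 5) (nat_lit 8) (nat_lit 4) (nat_lit 378) (nat_lit 245) (nat_lit 241)) (XT.nd (nat_lit 94) (nat_lit 0) (nat_lit 0) (XT.lf (nat_lit 0) (nat_lit 3841555148) (nat_lit 168) (nat_lit 20867831370) (nat_lit 0) (nat_lit 2086328149) (nat_lit 6) (nat_lit 5) (nat_lit 8) (nat_lit 4) (nat_lit 6) (nat_lit 4) (nat_lit 379) (nat_lit 245) (nat_lit 240)) (XT.lf (nat_lit 0) (nat_lit 6390922321) (nat_lit 168) (nat_lit 16827733659) (nat_lit 0) (nat_lit 4315671288) (nat_lit 6) (nat_lit 5) (nat_lit 8) (nat_lit 4) (nat_lit 6) (nat_lit 4) (nat_lit 380) (nat_lit 245) (nat_lit 239))))))))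
noncomputable def xc10 : XT := (XT.nd (nat_lit 2256) (nat_lit 84) (nat_lit 0) (XT.nd (nat_lit 1128) (nat_lit 84) (nat_lit 0) (XT.nd (nat_lit 564) (nat_lit 84) (nat_lit 0) (XT.nd (nat_lit 282) (nat_lit 84) (nat_lit 0) (XT.nd (nat_lit 94) (nat_lit 0) (nat_lit 0) (XT.lf (nat_lit 0) (nat_lit 8966138391) (nat_lit 168) (nat_lit 12750952032) (nat_lit 0) (nat_lit 6580485773) (nat_lit 6) (nat_lit 5) (nat_lit 8) (nat_lit 4) (nat_lit 6) (nat_lit 4) (nat_lit 381) (nat_lit 245) (nat_lit 238)) (XT.nd (nat_lit 94) (nat_lit 0) (nat_lit 0) (XT.lf (nat_lit 0) (nat_lit 11569603729) (nat_lit 168) (nat_lit 8633686502) (nat_lit 0) (nat_lit 8882882647) (nat_lit 6) (nat_lit 5) (nat_lit 8) (nat_lit 4) (nat_lit 6) (nat_lit 4) (nat_lit 382) (nat_lit 245) (nat_lit 237)) (XT.lf (nat_lit 0) (nat_lit 14203745036) (nat_lit 168) (nat_lit 4472099346) (nat_lit 0) (nat_lit 11225007987) (nat_lit 6) (nat_lit 5) (nat_lit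 8) (nat_lit 4) (nat_lit 6) (nat_lit 4) (nat_lit 383) (nat_lit 245) (nat_lit 236)))) (XT.nd (nat_lit 94) (nat_lit 84) (nat_lit 0) (XT.lf (nat_lit 0) (nat_lit 16871017610) (nat_lit 168) (nat_lit 262311529) (nat_lit 0) (nat_lit 13609044899) (nat_lit 6) (nat_lit 5) (nat_lit 8) (nat_lit 4) (nat_lit 6) (nat_lit 4) (nat_lit 384) (nat_lit 245) (nat_lit 235)) (XT.nd (nat_lit 94) (nat_lit 0) (nat_lit 0) (XT.lf (nat_lit 0) (nat_lit 4081840910) (nat_lit 84) (nat_lit 15532559084) (nat_lit 84) (nat_lit 11995867011) (nat_lit 5) (nat_lit 4) (nat_lit 6) (nat_lit 5) (nat_lit 6) (nat_lit 4) (nat_lit 385) (nat_lit 245) (nat_lit 234)) (XT.lf (nat_lit 0) (nat_lit 8488637659) (nat_lit 84) (nat_lit 13910505142) (nat_lit 84) (nat_lit 10107353939) (nat_lit 5) (nat_lit 4) (nat_lit 6) (nat_lit 5) (nat_lit 6) (nat_lit 4) (nat_lit 386) (nat_lit 245) (nat_lit 233))))) (XT.nd (nat_lit 282) (nat_lit 84) (nat_lit 0)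 (XT.nd (nat_lit 94) (nat_lit 0) (nat_lit 0) (XT.lf (nat_lit 0) (nat_lit 12956792650) (nat_lit 84) (nat_lit 12268393382) (nat_lit 84) (nat_lit 8206794916) (nat_lit 5) (nat_lit 4) (nat_lit 6) (nat_lit 5) (nat_lit 6) (nat_lit 4) (nat_lit 387) (nat_lit 245) (nat_lit 232)) (XT.nd (nat_lit 94) (nat_lit 0) (nat_lit 0) (XT.lf (nat_lit 0) (nat_lit 17490470672) (nat_lit 84) (nat_lit 10604693186) (nat_lit 84) (nat_lit 6292418421) (nat_lit 5) (nat_lit 4) (nat_lit 6) (nat_lit 5) (nat_lit 6) (nat_lit 4) (nat_lit 388) (nat_lit 245) (nat_lit 231)) (XT.lf (nat_lit 0) (nat_lit 22093897587) (nat_lit 84) (nat_lit 8917853810) (nat_lit 84) (nat_lit 4362440055) (nat_lit 5) (nat_lit 4) (nat_lit 6) (nat_lit 5) (nat_lit 6) (nat_lit 4) (nat_lit 389) (nat_lit 245) (nat_lit 230)))) (XT.nd (nat_lit 94) (nat_lit 84) (nat_lit 0) (XT.lf (nat_lit 0) (nat_lit 26771364273) (nat_lit 84) (nat_lit 7206302942) (nat_lit 84)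 (nat_lit 2415060876) (nat_lit 5) (nat_lit 4) (nat_lit 6) (nat_lit 5) (nat_lit 6) (nat_lit 4) (nat_lit 390) (nat_lit 245) (nat_lit 229)) (XT.nd (nat_lit 94) (nat_lit 84) (nat_lit 0) (XT.lf (nat_lit 0) (nat_lit 31527230617) (nat_lit 84) (nat_lit 5468445240) (nat_lit 84) (nat_lit 448465722) (nat_lit 5) (nat_lit 4) (nat_lit 6) (nat_lit 5) (nat_lit 6) (nat_lit 4) (nat_lit 391) (nat_lit 245) (nat_lit 228)) (XT.lf (nat_lit 0) (nat_lit 1508167463) (nat_lit 168) (nat_lit 2178751197) (nat_lit 84) (nat_lit 34842019948) (nat_lit 4) (nat_lit 5) (nat_lit 6) (nat_lit 5) (nat_lit 5) (nat_lit 4) (nat_lit 392) (nat_lit 245) (nat_lit 227)))))) (XT.nd (nat_lit 564) (nat_lit 0) (nat_lit 0) (XT.nd (nat_lit 282) (nat_lit 0) (nat_lit 0) (XT.nd (nat_lit 94) (nat_lit 0) (nat_lit 0) (XT.lf (nat_lit 0) (nat_lit 1640254349) (nat_lit 84) (nat_lit 1854222560) (nat_lit 168) (nat_lit 36153477815) (nat_lit 3) (nat_lit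 5) (nat_lit 4) (nat_lit 5) (nat_lit 5) (nat_lit 4) (nat_lit 393) (nat_lit 245) (nat_lit 226)) (XT.nd (nat_lit 94) (nat_lit 0) (nat_lit 0) (XT.lf (nat_lit 0) (nat_lit 5528015851) (nat_lit 168) (nat_lit 35241522361) (nat_lit 0) (nat_lit 32626018) (nat_lit 3) (nat_lit 5) (nat_lit 5) (nat_lit 4) (nat_lit 3) (nat_lit 4) (nat_lit 394) (nat_lit 245) (nat_lit 225)) (XT.lf (nat_lit 0) (nat_lit 7607021065) (nat_lit 168) (nat_lit 32470459991) (nat_lit 0) (nat_lit 1915275334) (nat_lit 3) (nat_lit 5) (nat_lit 5) (nat_lit 4) (nat_lit 3) (nat_lit 4) (nat_lit 395) (nat_lit 245) (nat_lit 224)))) (XT.nd (nat_lit 94) (nat_lit 0) (nat_lit 0) (XT.lf (nat_lit 0) (nat_lit 9715036285) (nat_lit 168) (nat_lit 29673536227) (nat_lit 0) (nat_lit 3832838665) (nat_lit 3) (nat_lit 5) (nat_lit 5) (nat_lit 4) (nat_lit 3) (nat_lit 4) (nat_lit 396) (nat_lit 245) (nat_lit 223)) (XT.nd (nat_lit 94) (nat_lit 0) (nat_lit 0)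 (XT.lf (nat_lit 0) (nat_lit 11854026403) (nat_lit 168) (nat_lit 26848144044) (nat_lit 0) (nat_lit 5787103380) (nat_lit 3) (nat_lit 5) (nat_lit 5) (nat_lit 4) (nat_lit 3) (nat_lit 4) (nat_lit 397) (nat_lit 245) (nat_lit 222)) (XT.lf (nat_lit 0) (nat_lit 14025985180) (nat_lit 168) (nat_lit 23991649879) (nat_lit 0) (nat_lit 7779891059) (nat_lit 3) (nat_lit 5) (nat_lit 5) (nat_lit 4) (nat_lit 3) (nat_lit 4) (nat_lit 398) (nat_lit 245) (nat_lit 221))))) (XT.nd (nat_lit 282) (nat_lit 0) (nat_lit 0) (XT.nd (nat_lit 94) (nat_lit 0) (nat_lit 0) (XT.lf (nat_lit 0) (nat_lit 16232937111) (nat_lit 168) (nat_lit 21101391182) (nat_lit 0) (nat_lit 9813059190) (nat_lit 3) (nat_lit 5) (nat_lit 5) (nat_lit 4) (nat_lit 3) (nat_lit 4) (nat_lit 399) (nat_lit 245) (nat_lit 220)) (XT.nd (nat_lit 94) (nat_lit 0) (nat_lit 0) (XT.lf (nat_lit 0) (nat_lit 18476939305) (nat_lit 168) (nat_lit 18174673929) (nat_lit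 0) (nat_lit 11888502897) (nat_lit 3) (nat_lit 5) (nat_lit 5) (nat_lit 4) (nat_lit 3) (nat_lit 4) (nat_lit 400) (nat_lit 245) (nat_lit 219)) (XT.lf (nat_lit 0) (nat_lit 20760083408) (nat_lit 168) (nat_lit 15208770111) (nat_lit 0) (nat_lit 14008156711) (nat_lit 3) (nat_lit 5) (nat_lit 5) (nat_lit 4) (nat_lit 3) (nat_lit 4) (nat_lit 401) (nat_lit 245) (nat_lit 218)))) (XT.nd (nat_lit 94) (nat_lit 0) (nat_lit 0) (XT.lf (nat_lit 0) (nat_lit 23084497549) (nat_lit 168) (nat_lit 12200915197) (nat_lit 0) (nat_lit 16173996373) (nat_lit 3) (nat_lit 5) (nat_lit 5) (nat_lit 4) (nat_lit 3) (nat_lit 4) (nat_lit 402) (nat_lit 245) (nat_lit 217)) (XT.nd (nat_lit 94) (nat_lit 0) (nat_lit 0) (XT.lf (nat_lit 0) (nat_lit 25452348325) (nat_lit 168) (nat_lit 9148305550) (nat_lit 0) (nat_lit 18388040671) (nat_lit 3) (nat_lit 5) (nat_lit 5) (nat_lit 4) (nat_lit 3) (nat_lit 4) (nat_lit 403) (nat_lit 245) (nat_lit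 216)) (XT.lf (nat_lit 0) (nat_lit 27865842822) (nat_lit 168) (nat_lit 6048095819) (nat_lit 0) (nat_lit 20652353327) (nat_lit 3) (nat_lit 5) (nat_lit 5) (nat_lit 4) (nat_lit 3) (nat_lit 4) (nat_lit 404) (nat_lit 245) (nat_lit 215))))))) (XT.nd (nat_lit 51512) (nat_lit 0) (nat_lit 252) (XT.nd (nat_lit 564) (nat_lit 0) (nat_lit 0) (XT.nd (nat_lit 282) (nat_lit 0) (nat_lit 0) (XT.nd (nat_lit 94) (nat_lit 84) (nat_lit 0) (XT.lf (nat_lit 0) (nat_lit 30327230670) (nat_lit 168) (nat_lit 2897396283) (nat_lit 0) (nat_lit 22969044917) (nat_lit 3) (nat_lit 5) (nat_lit 5) (nat_lit 4) (nat_lit 3) (nat_lit 4) (nat_lit 405) (nat_lit 245) (nat_lit 214)) (XT.nd (nat_lit 94) (nat_lit 0) (nat_lit 0) (XT.lf (nat_lit 0) (nat_lit 313036834) (nat_lit 84) (nat_lit 32528874669) (nat_lit 84) (nat_lit 25030343370) (nat_lit 2) (nat_lit 4) (nat_lit 3) (nat_lit 5) (nat_lit 3) (nat_lit 4) (nat_lit 406) (nat_lit 245)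 (nat_lit 213)) (XT.lf (nat_lit 0) (nat_lit 3640619500) (nat_lit 84) (nat_lit 31798406177) (nat_lit 84) (nat_lit 24163749228) (nat_lit 2) (nat_lit 4) (nat_lit 3) (nat_lit 5) (nat_lit 3) (nat_lit 4) (nat_lit 407) (nat_lit 245) (nat_lit 212)))) (XT.nd (nat_lit 94) (nat_lit 0) (nat_lit 0) (XT.lf (nat_lit 0) (nat_lit 7028876960) (nat_lit 84) (nat_lit 31062783479) (nat_lit 84) (nat_lit 23296093892) (nat_lit 2) (nat_lit 4) (nat_lit 3) (nat_lit 5) (nat_lit 3) (nat_lit 4) (nat_lit 408) (nat_lit 245) (nat_lit 211)) (XT.nd (nat_lit 94) (nat_lit 0) (nat_lit 0) (XT.lf (nat_lit 0) (nat_lit 10480967425) (nat_lit 84) (nat_lit 30321320898) (nat_lit 84) (nat_lit 22426568615) (nat_lit 2) (nat_lit 4) (nat_lit 3) (nat_lit 5) (nat_lit 3) (nat_lit 4) (nat_lit 409) (nat_lit 245) (nat_lit 210)) (XT.lf (nat_lit 0) (nat_lit 14000108604) (nat_lit 84) (nat_lit 29573327313) (nat_lit 84) (nat_lit 21554362911) (nat_lit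 2) (nat_lit 4) (nat_lit 3) (nat_lit 5) (nat_lit 3) (nat_lit 4) (nat_lit 410) (nat_lit 245) (nat_lit 209))))) (XT.nd (nat_lit 50666) (nat_lit 0) (nat_lit 504) (XT.nd (nat_lit 94) (nat_lit 0) (nat_lit 0) (XT.lf (nat_lit 0) (nat_lit 17589580707) (nat_lit 84) (nat_lit 28818105515) (nat_lit 84) (nat_lit 20678663791) (nat_lit 2) (nat_lit 4) (nat_lit 3) (nat_lit 5) (nat_lit 3) (nat_lit 4) (nat_lit 411) (nat_lit 245) (nat_lit 208)) (XT.nd (nat_lit 50478) (nat_lit 0) (nat_lit 672) (XT.lf (nat_lit 0) (nat_lit 21252729497) (nat_lit 84) (nat_lit 28054951559) (nat_lit 84) (nat_lit 19798655012) (nat_lit 2) (nat_lit 4) (nat_lit 3) (nat_lit 5) (nat_lit 3) (nat_lit 4) (nat_lit 412) (nat_lit 245) (nat_lit 207)) (XT.lf (nat_lit 0) (nat_lit 4675211718) (nat_lit 168) (nat_lit 1770490181) (nat_lit 0) (nat_lit 4675211718) (nat_lit 10) (nat_lit 5) (nat_lit 12) (nat_lit 4) (nat_lit 10) (nat_lit 4) (nat_lit 372)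 (nat_lit 246) (nat_lit 246)))) (XT.nd (nat_lit 94) (nat_lit 0) (nat_lit 0) (XT.lf (nat_lit 0) (nat_lit 1348067788) (nat_lit 168) (nat_lit 10939581268) (nat_lit 168) (nat_lit 10543309391) (nat_lit 8) (nat_lit 4) (nat_lit 10) (nat_lit 5) (nat_lit 10) (nat_lit 4) (nat_lit 373) (nat_lit 246) (nat_lit 245)) (XT.nd (nat_lit 94) (nat_lit 0) (nat_lit 0) (XT.lf (nat_lit 0) (nat_lit 6362550832) (nat_lit 168) (nat_lit 8928654664) (nat_lit 168) (nat_lit 8148025970) (nat_lit 8) (nat_lit 4) (nat_lit 10) (nat_lit 5) (nat_lit 10) (nat_lit 4) (nat_lit 374) (nat_lit 246) (nat_lit 244)) (XT.lf (nat_lit 0) (nat_lit 11434332974) (nat_lit 168) (nat_lit 6893710166) (nat_lit 168) (nat_lit 5740281456) (nat_lit 8) (nat_lit 4) (nat_lit 10) (nat_lit 5) (nat_lit 10) (nat_lit 4) (nat_lit 375) (nat_lit 246) (nat_lit 243)))))) (XT.nd (nat_lit 564) (nat_lit 84) (nat_lit 0) (XT.nd (nat_lit 282) (nat_lit 0) (nat_lit 0)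 (XT.nd (nat_lit 94) (nat_lit 168) (nat_lit 0) (XT.lf (nat_lit 0) (nat_lit 16568141645) (nat_lit 168) (nat_lit 4832850991) (nat_lit 168) (nat_lit 3317831578) (nat_lit 8) (nat_lit 4) (nat_lit 10) (nat_lit 5) (nat_lit 10) (nat_lit 4) (nat_lit 376) (nat_lit 246) (nat_lit 242)) (XT.nd (nat_lit 94) (nat_lit 168) (nat_lit 0) (XT.lf (nat_lit 0) (nat_lit 21768762093) (nat_lit 168) (nat_lit 2744156204) (nat_lit 168) (nat_lit 878418358) (nat_lit 8) (nat_lit 4) (nat_lit 10) (nat_lit 5) (nat_lit 10) (nat_lit 4) (nat_lit 377) (nat_lit 246) (nat_lit 241)) (XT.lf (nat_lit 0) (nat_lit 958182205) (nat_lit 84) (nat_lit 599716917) (nat_lit 168) (nat_lit 24527809029) (nat_lit 6) (nat_lit 5) (nat_lit 7) (nat_lit 5) (nat_lit 8) (nat_lit 4) (nat_lit 378) (nat_lit 246) (nat_lit 240)))) (XT.nd (nat_lit 94) (nat_lit 0) (nat_lit 0) (XT.lf (nat_lit 0) (nat_lit 4050847802) (nat_lit 168) (nat_lit 21159352504) (nat_lit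 0) (nat_lit 1591239952) (nat_lit 6) (nat_lit 5) (nat_lit 8) (nat_lit 4) (nat_lit 6) (nat_lit 4) (nat_lit 379) (nat_lit 246) (nat_lit 239)) (XT.nd (nat_lit 94) (nat_lit 0) (nat_lit 0) (XT.lf (nat_lit 0) (nat_lit 6574030098) (nat_lit 168) (nat_lit 17162858492) (nat_lit 0) (nat_lit 3804020663) (nat_lit 6) (nat_lit 5) (nat_lit 8) (nat_lit 4) (nat_lit 6) (nat_lit 4) (nat_lit 380) (nat_lit 246) (nat_lit 238)) (XT.lf (nat_lit 0) (nat_lit 9123848614) (nat_lit 168) (nat_lit 13128369493) (nat_lit 0) (nat_lit 6052770717) (nat_lit 6) (nat_lit 5) (nat_lit 8) (nat_lit 4) (nat_lit 6) (nat_lit 4) (nat_lit 381) (nat_lit 246) (nat_lit 237))))) (XT.nd (nat_lit 282) (nat_lit 84) (nat_lit 0) (XT.nd (nat_lit 94) (nat_lit 0) (nat_lit 0) (XT.lf (nat_lit 0) (nat_lit 11702680050) (nat_lit 168) (nat_lit 9052124941) (nat_lit 0) (nat_lit 8339586185) (nat_lit 6) (nat_lit 5) (nat_lit 8) (nat_lit 4) (nat_lit 6) (nat_lit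 4) (nat_lit 382) (nat_lit 246) (nat_lit 236)) (XT.nd (nat_lit 94) (nat_lit 0) (nat_lit 0) (XT.lf (nat_lit 0) (nat_lit 14312928145) (nat_lit 168) (nat_lit 4930325348) (nat_lit 0) (nat_lit 10666598618) (nat_lit 6) (nat_lit 5) (nat_lit 8) (nat_lit 4) (nat_lit 6) (nat_lit 4) (nat_lit 383) (nat_lit 246) (nat_lit 235)) (XT.lf (nat_lit 0) (nat_lit 16957025925) (nat_lit 168) (nat_lit 759128765) (nat_lit 0) (nat_lit 13035977036) (nat_lit 6) (nat_lit 5) (nat_lit 8) (nat_lit 4) (nat_lit 6) (nat_lit 4) (nat_lit 384) (nat_lit 246) (nat_lit 234)))) (XT.nd (nat_lit 94) (nat_lit 0) (nat_lit 0) (XT.lf (nat_lit 0) (nat_lit 3536607559) (nat_lit 84) (nat_lit 16135913991) (nat_lit 84) (nat_lit 11948405973) (nat_lit 5) (nat_lit 4) (nat_lit 6) (nat_lit 5) (nat_lit 6) (nat_lit 4) (nat_lit 385) (nat_lit 246) (nat_lit 233)) (XT.nd (nat_lit 94) (nat_lit 0) (nat_lit 0) (XT.lf (nat_lit 0) (nat_lit 7906352384) (nat_lit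 84) (nat_lit 14528742302) (nat_lit 84) (nat_lit 10082787019) (nat_lit 5) (nat_lit 4) (nat_lit 6) (nat_lit 5) (nat_lit 6) (nat_lit 4) (nat_lit 386) (nat_lit 246) (nat_lit 232)) (XT.lf (nat_lit 0) (nat_lit 12338569525) (nat_lit 84) (nat_lit 12901065317) (nat_lit 84) (nat_lit 8204433736) (nat_lit 5) (nat_lit 4) (nat_lit 6) (nat_lit 5) (nat_lit 6) (nat_lit 4) (nat_lit 387) (nat_lit 246) (nat_lit 231))))))))
noncomputable def xc11 : XT := (XT.nd (nat_lit 2256) (nat_lit 0) (nat_lit 0) (XT.nd (nat_lit 1128) (nat_lit 84) (nat_lit 0) (XT.nd (nat_lit 564) (nat_lit 0) (nat_lit 0) (XT.nd (nat_lit 282) (nat_lit 168) (nat_lit 0) (XT.nd (nat_lit 94) (nat_lit 0) (nat_lit 0) (XT.lf (nat_lit 0) (nat_lit 16837390272) (nat_lit 84) (nat_lit 11251365872) (nat_lit 84) (nat_lit 6311595301) (nat_lit 5) (nat_lit 4) (nat_lit 6) (nat_lit 5) (nat_lit 6) (nat_lit 4) (nat_lit 388) (nat_lit 246) (nat_lit 230)) (XT.nd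 (nat_lit 94) (nat_lit 0) (nat_lit 0) (XT.lf (nat_lit 0) (nat_lit 21407007998) (nat_lit 84) (nat_lit 9578106274) (nat_lit 84) (nat_lit 4402507391) (nat_lit 5) (nat_lit 4) (nat_lit 6) (nat_lit 5) (nat_lit 6) (nat_lit 4) (nat_lit 389) (nat_lit 246) (nat_lit 229)) (XT.lf (nat_lit 0) (nat_lit 26051682065) (nat_lit 84) (nat_lit 7879726870) (nat_lit 84) (nat_lit 2475390535) (nat_lit 5) (nat_lit 4) (nat_lit 6) (nat_lit 5) (nat_lit 6) (nat_lit 4) (nat_lit 390) (nat_lit 246) (nat_lit 228)))) (XT.nd (nat_lit 94) (nat_lit 168) (nat_lit 0) (XT.lf (nat_lit 0) (nat_lit 30775741795) (nat_lit 84) (nat_lit 6154644592) (nat_lit 84) (nat_lit 528448460) (nat_lit 5) (nat_lit 4) (nat_lit 6) (nat_lit 5) (nat_lit 6) (nat_lit 4) (nat_lit 391) (nat_lit 246) (nat_lit 227)) (XT.nd (nat_lit 94) (nat_lit 84) (nat_lit 0) (XT.lf (nat_lit 0) (nat_lit 1411118106) (nat_lit 168) (nat_lit 2975404196) (nat_lit 84) (nat_lit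 34157743223) (nat_lit 4) (nat_lit 5) (nat_lit 6) (nat_lit 5) (nat_lit 5) (nat_lit 4) (nat_lit 392) (nat_lit 246) (nat_lit 226)) (XT.lf (nat_lit 0) (nat_lit 796272707) (nat_lit 84) (nat_lit 2574665963) (nat_lit 168) (nat_lit 36293193256) (nat_lit 3) (nat_lit 5) (nat_lit 4) (nat_lit 5) (nat_lit 5) (nat_lit 4) (nat_lit 393) (nat_lit 246) (nat_lit 225))))) (XT.nd (nat_lit 282) (nat_lit 0) (nat_lit 0) (XT.nd (nat_lit 94) (nat_lit 0) (nat_lit 0) (XT.lf (nat_lit 0) (nat_lit 4686983488) (nat_lit 84) (nat_lit 699294282) (nat_lit 168) (nat_lit 35432656111) (nat_lit 3) (nat_lit 5) (nat_lit 4) (nat_lit 5) (nat_lit 5) (nat_lit 4) (nat_lit 394) (nat_lit 246) (nat_lit 224)) (XT.nd (nat_lit 94) (nat_lit 0) (nat_lit 0) (XT.lf (nat_lit 0) (nat_lit 7440896782) (nat_lit 168) (nat_lit 33383513488) (nat_lit 0) (nat_lit 1185899146) (nat_lit 3) (nat_lit 5) (nat_lit 5) (nat_lit 4) (nat_lit 3) (nat_lit 4) (nat_lit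 395) (nat_lit 246) (nat_lit 223)) (XT.lf (nat_lit 0) (nat_lit 9531987544) (nat_lit 168) (nat_lit 30615263391) (nat_lit 0) (nat_lit 3092264506) (nat_lit 3) (nat_lit 5) (nat_lit 5) (nat_lit 4) (nat_lit 3) (nat_lit 4) (nat_lit 396) (nat_lit 246) (nat_lit 222)))) (XT.nd (nat_lit 94) (nat_lit 0) (nat_lit 0) (XT.lf (nat_lit 0) (nat_lit 11654562086) (nat_lit 168) (nat_lit 27817682717) (nat_lit 0) (nat_lit 5035667950) (nat_lit 3) (nat_lit 5) (nat_lit 5) (nat_lit 4) (nat_lit 3) (nat_lit 4) (nat_lit 397) (nat_lit 246) (nat_lit 221)) (XT.nd (nat_lit 94) (nat_lit 0) (nat_lit 0) (XT.lf (nat_lit 0) (nat_lit 13810598870) (nat_lit 168) (nat_lit 24988163829) (nat_lit 0) (nat_lit 7017920934) (nat_lit 3) (nat_lit 5) (nat_lit 5) (nat_lit 4) (nat_lit 3) (nat_lit 4) (nat_lit 398) (nat_lit 246) (nat_lit 220)) (XT.lf (nat_lit 0) (nat_lit 16002107548) (nat_lit 168) (nat_lit 22124069319) (nat_lit 0) (nat_lit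 9040871124) (nat_lit 3) (nat_lit 5) (nat_lit 5) (nat_lit 4) (nat_lit 3) (nat_lit 4) (nat_lit 399) (nat_lit 246) (nat_lit 219)))))) (XT.nd (nat_lit 564) (nat_lit 84) (nat_lit 0) (XT.nd (nat_lit 282) (nat_lit 0) (nat_lit 0) (XT.nd (nat_lit 94) (nat_lit 0) (nat_lit 0) (XT.lf (nat_lit 0) (nat_lit 18231130836) (nat_lit 168) (nat_lit 19222729550) (nat_lit 0) (nat_lit 11106404124) (nat_lit 3) (nat_lit 5) (nat_lit 5) (nat_lit 4) (nat_lit 3) (nat_lit 4) (nat_lit 400) (nat_lit 246) (nat_lit 218)) (XT.nd (nat_lit 94) (nat_lit 0) (nat_lit 0) (XT.lf (nat_lit 0) (nat_lit 20499746416) (nat_lit 168) (nat_lit 16281440169) (nat_lit 0) (nat_lit 13216445225) (nat_lit 3) (nat_lit 5) (nat_lit 5) (nat_lit 4) (nat_lit 3) (nat_lit 4) (nat_lit 401) (nat_lit 246) (nat_lit 217)) (XT.lf (nat_lit 0) (nat_lit 22810068877) (nat_lit 168) (nat_lit 13297459588) (nat_lit 0) (nat_lit 15372961207) (nat_lit 3) (nat_lit 5)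 (nat_lit 5) (nat_lit 4) (nat_lit 3) (nat_lit 4) (nat_lit 402) (nat_lit 246) (nat_lit 216)))) (XT.nd (nat_lit 94) (nat_lit 0) (nat_lit 0) (XT.lf (nat_lit 0) (nat_lit 25164251680) (nat_lit 168) (nat_lit 10268006423) (nat_lit 0) (nat_lit 17577962169) (nat_lit 3) (nat_lit 5) (nat_lit 5) (nat_lit 4) (nat_lit 3) (nat_lit 4) (nat_lit 403) (nat_lit 246) (nat_lit 215)) (XT.nd (nat_lit 94) (nat_lit 0) (nat_lit 0) (XT.lf (nat_lit 0) (nat_lit 27564489171) (nat_lit 168) (nat_lit 7190256907) (nat_lit 0) (nat_lit 19833503403) (nat_lit 3) (nat_lit 5) (nat_lit 5) (nat_lit 4) (nat_lit 3) (nat_lit 4) (nat_lit 404) (nat_lit 246) (nat_lit 214)) (XT.lf (nat_lit 0) (nat_lit 30013018623) (nat_lit 168) (nat_lit 4061342254) (nat_lit 0) (nat_lit 22141687309) (nat_lit 3) (nat_lit 5) (nat_lit 5) (nat_lit 4) (nat_lit 3) (nat_lit 4) (nat_lit 405) (nat_lit 246) (nat_lit 213))))) (XT.nd (nat_lit 282) (nat_lit 0) (nat_lit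 0) (XT.nd (nat_lit 94) (nat_lit 84) (nat_lit 0) (XT.lf (nat_lit 0) (nat_lit 32512122321) (nat_lit 168) (nat_lit 878345989) (nat_lit 0) (nat_lit 24504665357) (nat_lit 3) (nat_lit 5) (nat_lit 5) (nat_lit 4) (nat_lit 3) (nat_lit 4) (nat_lit 406) (nat_lit 246) (nat_lit 212)) (XT.nd (nat_lit 94) (nat_lit 0) (nat_lit 0) (XT.lf (nat_lit 0) (nat_lit 2410260143) (nat_lit 84) (nat_lit 32677779628) (nat_lit 84) (nat_lit 24538290024) (nat_lit 2) (nat_lit 4) (nat_lit 3) (nat_lit 5) (nat_lit 3) (nat_lit 4) (nat_lit 407) (nat_lit 246) (nat_lit 211)) (XT.lf (nat_lit 0) (nat_lit 5778230564) (nat_lit 84) (nat_lit 31950509672) (nat_lit 84) (nat_lit 23682957374) (nat_lit 2) (nat_lit 4) (nat_lit 3) (nat_lit 5) (nat_lit 3) (nat_lit 4) (nat_lit 408) (nat_lit 246) (nat_lit 210)))) (XT.nd (nat_lit 94) (nat_lit 0) (nat_lit 0) (XT.lf (nat_lit 0) (nat_lit 9210643979) (nat_lit 84) (nat_lit 31217148684) (nat_lit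 84) (nat_lit 22825384267) (nat_lit 2) (nat_lit 4) (nat_lit 3) (nat_lit 5) (nat_lit 3) (nat_lit 4) (nat_lit 409) (nat_lit 246) (nat_lit 209)) (XT.nd (nat_lit 94) (nat_lit 0) (nat_lit 0) (XT.lf (nat_lit 0) (nat_lit 12710699755) (nat_lit 84) (nat_lit 30477013095) (nat_lit 84) (nat_lit 21964771355) (nat_lit 2) (nat_lit 4) (nat_lit 3) (nat_lit 5) (nat_lit 3) (nat_lit 4) (nat_lit 410) (nat_lit 246) (nat_lit 208)) (XT.lf (nat_lit 0) (nat_lit 16281660313) (nat_lit 84) (nat_lit 29729413019) (nat_lit 84) (nat_lit 21100316456) (nat_lit 2) (nat_lit 4) (nat_lit 3) (nat_lit 5) (nat_lit 3) (nat_lit 4) (nat_lit 411) (nat_lit 246) (nat_lit 207))))))) (XT.nd (nat_lit 51324) (nat_lit 0) (nat_lit 168) (XT.nd (nat_lit 50760) (nat_lit 0) (nat_lit 336) (XT.nd (nat_lit 50478) (nat_lit 0) (nat_lit 504) (XT.nd (nat_lit 50290) (nat_lit 0) (nat_lit 672) (XT.lf (nat_lit 0) (nat_lit 19926854161) (nat_lit 84) (nat_lit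 28973651616) (nat_lit 84) (nat_lit 20231213809) (nat_lit 2) (nat_lit 4) (nat_lit 3) (nat_lit 5) (nat_lit 3) (nat_lit 4) (nat_lit 412) (nat_lit 246) (nat_lit 206)) (XT.nd (nat_lit 94) (nat_lit 0) (nat_lit 0) (XT.lf (nat_lit 0) (nat_lit 2011017527) (nat_lit 168) (nat_lit 6538125279) (nat_lit 0) (nat_lit 2011017527) (nat_lit 10) (nat_lit 5) (nat_lit 12) (nat_lit 4) (nat_lit 10) (nat_lit 4) (nat_lit 370) (nat_lit 247) (nat_lit 247)) (XT.lf (nat_lit 0) (nat_lit 6862361311) (nat_lit 168) (nat_lit 8355834946) (nat_lit 0) (nat_lit 6453805005) (nat_lit 10) (nat_lit 5) (nat_lit 12) (nat_lit 4) (nat_lit 10) (nat_lit 4) (nat_lit 371) (nat_lit 247) (nat_lit 246)))) (XT.nd (nat_lit 94) (nat_lit 168) (nat_lit 0) (XT.lf (nat_lit 0) (nat_lit 9728176698) (nat_lit 168) (nat_lit 3591313935) (nat_lit 0) (nat_lit 8923348515) (nat_lit 10) (nat_lit 5) (nat_lit 12) (nat_lit 4) (nat_lit 10) (nat_lit 4) (nat_lit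 372) (nat_lit 247) (nat_lit 245)) (XT.nd (nat_lit 94) (nat_lit 0) (nat_lit 0) (XT.lf (nat_lit 0) (nat_lit 1246875264) (nat_lit 168) (nat_lit 11387646350) (nat_lit 168) (nat_lit 10198461351) (nat_lit 8) (nat_lit 4) (nat_lit 10) (nat_lit 5) (nat_lit 10) (nat_lit 4) (nat_lit 373) (nat_lit 247) (nat_lit 244)) (XT.lf (nat_lit 0) (nat_lit 6213032421) (nat_lit 168) (nat_lit 9395587708) (nat_lit 168) (nat_lit 7833602692) (nat_lit 8) (nat_lit 4) (nat_lit 10) (nat_lit 5) (nat_lit 10) (nat_lit 4) (nat_lit 374) (nat_lit 247) (nat_lit 243))))) (XT.nd (nat_lit 282) (nat_lit 168) (nat_lit 0) (XT.nd (nat_lit 94) (nat_lit 0) (nat_lit 0) (XT.lf (nat_lit 0) (nat_lit 11237941734) (nat_lit 168) (nat_lit 7378943851) (nat_lit 168) (nat_lit 5455368132) (nat_lit 8) (nat_lit 4) (nat_lit 10) (nat_lit 5) (nat_lit 10) (nat_lit 4) (nat_lit 375) (nat_lit 247) (nat_lit 242)) (XT.nd (nat_lit 94) (nat_lit 0) (nat_lit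 0) (XT.lf (nat_lit 0) (nat_lit 16326286943) (nat_lit 168) (nat_lit 5335835057) (nat_lit 168) (nat_lit 3061540905) (nat_lit 8) (nat_lit 4) (nat_lit 10) (nat_lit 5) (nat_lit 10) (nat_lit 4) (nat_lit 376) (nat_lit 247) (nat_lit 241)) (XT.lf (nat_lit 0) (nat_lit 21482810919) (nat_lit 168) (nat_lit 3264356934) (nat_lit 168) (nat_lit 649889714) (nat_lit 8) (nat_lit 4) (nat_lit 10) (nat_lit 5) (nat_lit 10) (nat_lit 4) (nat_lit 377) (nat_lit 247) (nat_lit 240)))) (XT.nd (nat_lit 94) (nat_lit 0) (nat_lit 0) (XT.lf (nat_lit 0) (nat_lit 613948388) (nat_lit 84) (nat_lit 1138075436) (nat_lit 168) (nat_lit 24340304796) (nat_lit 6) (nat_lit 5) (nat_lit 7) (nat_lit 5) (nat_lit 8) (nat_lit 4) (nat_lit 378) (nat_lit 247) (nat_lit 239)) (XT.nd (nat_lit 94) (nat_lit 0) (nat_lit 0) (XT.lf (nat_lit 0) (nat_lit 4213447042) (nat_lit 168) (nat_lit 21548469907) (nat_lit 0) (nat_lit 1047165730) (nat_lit 6) (nat_lit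 5) (nat_lit 8) (nat_lit 4) (nat_lit 6) (nat_lit 4) (nat_lit 379) (nat_lit 247) (nat_lit 238)) (XT.lf (nat_lit 0) (nat_lit 6711231785) (nat_lit 168) (nat_lit 17594268523) (nat_lit 0) (nat_lit 3243882010) (nat_lit 6) (nat_lit 5) (nat_lit 8) (nat_lit 4) (nat_lit 6) (nat_lit 4) (nat_lit 380) (nat_lit 247) (nat_lit 237)))))) (XT.nd (nat_lit 564) (nat_lit 84) (nat_lit 0) (XT.nd (nat_lit 282) (nat_lit 84) (nat_lit 0) (XT.nd (nat_lit 94) (nat_lit 0) (nat_lit 0) (XT.lf (nat_lit 0) (nat_lit 9236416400) (nat_lit 168) (nat_lit 13600800501) (nat_lit 0) (nat_lit 5477050657) (nat_lit 6) (nat_lit 5) (nat_lit 8) (nat_lit 4) (nat_lit 6) (nat_lit 4) (nat_lit 381) (nat_lit 247) (nat_lit 236)) (XT.nd (nat_lit 94) (nat_lit 0) (nat_lit 0) (XT.lf (nat_lit 0) (nat_lit 11791354623) (nat_lit 168) (nat_lit 9564343512) (nat_lit 0) (nat_lit 7748753218) (nat_lit 6) (nat_lit 5) (nat_lit 8) (nat_lit 4) (nat_lit 6) (nat_lit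 4) (nat_lit 382) (nat_lit 247) (nat_lit 235)) (XT.lf (nat_lit 0) (nat_lit 14378427924) (nat_lit 168) (nat_lit 5481135154) (nat_lit 0) (nat_lit 10061107157) (nat_lit 6) (nat_lit 5) (nat_lit 8) (nat_lit 4) (nat_lit 6) (nat_lit 4) (nat_lit 383) (nat_lit 247) (nat_lit 234)))) (XT.nd (nat_lit 94) (nat_lit 84) (nat_lit 0) (XT.lf (nat_lit 0) (nat_lit 17000047727) (nat_lit 168) (nat_lit 1347369449) (nat_lit 0) (nat_lit 12416267831) (nat_lit 6) (nat_lit 5) (nat_lit 8) (nat_lit 4) (nat_lit 6) (nat_lit 4) (nat_lit 384) (nat_lit 247) (nat_lit 233)) (XT.nd (nat_lit 94) (nat_lit 0) (nat_lit 0) (XT.lf (nat_lit 0) (nat_lit 2899219517) (nat_lit 84) (nat_lit 16788198756) (nat_lit 84) (nat_lit 11945971596) (nat_lit 5) (nat_lit 4) (nat_lit 6) (nat_lit 5) (nat_lit 6) (nat_lit 4) (nat_lit 385) (nat_lit 247) (nat_lit 232)) (XT.lf (nat_lit 0) (nat_lit 7233026492) (nat_lit 84) (nat_lit 15195461841) (nat_lit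 84) (nat_lit 10102558382) (nat_lit 5) (nat_lit 4) (nat_lit 6) (nat_lit 5) (nat_lit 6) (nat_lit 4) (nat_lit 386) (nat_lit 247) (nat_lit 231))))) (XT.nd (nat_lit 282) (nat_lit 84) (nat_lit 0) (XT.nd (nat_lit 94) (nat_lit 0) (nat_lit 0) (XT.lf (nat_lit 0) (nat_lit 11630386358) (nat_lit 84) (nat_lit 13581785608) (nat_lit 84) (nat_lit 8245743159) (nat_lit 5) (nat_lit 4) (nat_lit 6) (nat_lit 5) (nat_lit 6) (nat_lit 4) (nat_lit 387) (nat_lit 247) (nat_lit 230)) (XT.nd (nat_lit 94) (nat_lit 0) (nat_lit 0) (XT.lf (nat_lit 0) (nat_lit 16095397915) (nat_lit 84) (nat_lit 11945665941) (nat_lit 84) (nat_lit 6373795180) (nat_lit 5) (nat_lit 4) (nat_lit 6) (nat_lit 5) (nat_lit 6) (nat_lit 4) (nat_lit 388) (nat_lit 247) (nat_lit 229)) (XT.lf (nat_lit 0) (nat_lit 20632223023) (nat_lit 84) (nat_lit 10285577806) (nat_lit 84) (nat_lit 4484969594) (nat_lit 5) (nat_lit 4) (nat_lit 6) (nat_lit 5) (nat_lit 6)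 (nat_lit 4) (nat_lit 389) (nat_lit 247) (nat_lit 228)))) (XT.nd (nat_lit 94) (nat_lit 84) (nat_lit 0) (XT.lf (nat_lit 0) (nat_lit 25245090476) (nat_lit 84) (nat_lit 8599973826) (nat_lit 84) (nat_lit 2577505817) (nat_lit 5) (nat_lit 4) (nat_lit 6) (nat_lit 5) (nat_lit 6) (nat_lit 4) (nat_lit 390) (nat_lit 247) (nat_lit 227)) (XT.nd (nat_lit 94) (nat_lit 84) (nat_lit 0) (XT.lf (nat_lit 0) (nat_lit 29938299951) (nat_lit 84) (nat_lit 6887282843) (nat_lit 84) (nat_lit 649625893) (nat_lit 5) (nat_lit 4) (nat_lit 6) (nat_lit 5) (nat_lit 6) (nat_lit 4) (nat_lit 391) (nat_lit 247) (nat_lit 226)) (XT.lf (nat_lit 0) (nat_lit 1274265647) (nat_lit 168) (nat_lit 3858342080) (nat_lit 84) (nat_lit 33428659643) (nat_lit 4) (nat_lit 5) (nat_lit 6) (nat_lit 5) (nat_lit 5) (nat_lit 4) (nat_lit 392) (nat_lit 247) (nat_lit 225))))))))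
noncomputable def xc12 : XT := (XT.nd (nat_lit 52264) (nat_lit 0) (nat_lit 84) (XT.nd (nat_lit 1128) (nat_lit 84) (nat_lit 0) (XT.nd (nat_lit 564) (nat_lit 0) (nat_lit 0) (XT.nd (nat_lit 282) (nat_lit 0) (nat_lit 0) (XT.nd (nat_lit 94) (nat_lit 84) (nat_lit 0) (XT.lf (nat_lit 0) (nat_lit 3208615331) (nat_lit 168) (nat_lit 132120803) (nat_lit 84) (nat_lit 36341215487) (nat_lit 4) (nat_lit 5) (nat_lit 6) (nat_lit 5) (nat_lit 5) (nat_lit 4) (nat_lit 393) (nat_lit 247) (nat_lit 224)) (XT.nd (nat_lit 94) (nat_lit 0) (nat_lit 0) (XT.lf (nat_lit 0) (nat_lit 3726758571) (nat_lit 84) (nat_lit 1478526023) (nat_lit 168) (nat_lit 35632075151) (nat_lit 3) (nat_lit 5) (nat_lit 4) (nat_lit 5) (nat_lit 5) (nat_lit 4) (nat_lit 394) (nat_lit 247) (nat_lit 223)) (XT.lf (nat_lit 0) (nat_lit 7235249072) (nat_lit 168) (nat_lit 34383107860) (nat_lit 0) (nat_lit 411169218) (nat_lit 3) (nat_lit 5) (nat_lit 5)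 (nat_lit 4) (nat_lit 3) (nat_lit 4) (nat_lit 395) (nat_lit 247) (nat_lit 222)))) (XT.nd (nat_lit 94) (nat_lit 0) (nat_lit 0) (XT.lf (nat_lit 0) (nat_lit 9309924259) (nat_lit 168) (nat_lit 31642669273) (nat_lit 0) (nat_lit 2306673306) (nat_lit 3) (nat_lit 5) (nat_lit 5) (nat_lit 4) (nat_lit 3) (nat_lit 4) (nat_lit 396) (nat_lit 247) (nat_lit 221)) (XT.nd (nat_lit 94) (nat_lit 0) (nat_lit 0) (XT.lf (nat_lit 0) (nat_lit 11416576807) (nat_lit 168) (nat_lit 28872063876) (nat_lit 0) (nat_lit 4239542054) (nat_lit 3) (nat_lit 5) (nat_lit 5) (nat_lit 4) (nat_lit 3) (nat_lit 4) (nat_lit 397) (nat_lit 247) (nat_lit 220)) (XT.lf (nat_lit 0) (nat_lit 13557170338) (nat_lit 168) (nat_lit 26068709175) (nat_lit 0) (nat_lit 6211577098) (nat_lit 3) (nat_lit 5) (nat_lit 5) (nat_lit 4) (nat_lit 3) (nat_lit 4) (nat_lit 398) (nat_lit 247) (nat_lit 219))))) (XT.nd (nat_lit 282) (nat_lit 0) (nat_lit 0) (XT.nd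 (nat_lit 94) (nat_lit 0) (nat_lit 0) (XT.lf (nat_lit 0) (nat_lit 15733700110) (nat_lit 168) (nat_lit 23229992149) (nat_lit 0) (nat_lit 8224616581) (nat_lit 3) (nat_lit 5) (nat_lit 5) (nat_lit 4) (nat_lit 3) (nat_lit 4) (nat_lit 399) (nat_lit 247) (nat_lit 218)) (XT.nd (nat_lit 94) (nat_lit 0) (nat_lit 0) (XT.lf (nat_lit 0) (nat_lit 17948194875) (nat_lit 168) (nat_lit 20353266817) (nat_lit 0) (nat_lit 10280536867) (nat_lit 3) (nat_lit 5) (nat_lit 5) (nat_lit 4) (nat_lit 3) (nat_lit 4) (nat_lit 400) (nat_lit 247) (nat_lit 217)) (XT.lf (nat_lit 0) (nat_lit 20202718775) (nat_lit 168) (nat_lit 17435851769) (nat_lit 0) (nat_lit 12381254289) (nat_lit 3) (nat_lit 5) (nat_lit 5) (nat_lit 4) (nat_lit 3) (nat_lit 4) (nat_lit 401) (nat_lit 247) (nat_lit 216)))) (XT.nd (nat_lit 94) (nat_lit 0) (nat_lit 0) (XT.lf (nat_lit 0) (nat_lit 22499373262) (nat_lit 168) (nat_lit 14475027669) (nat_lit 0) (nat_lit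 14528726935) (nat_lit 3) (nat_lit 5) (nat_lit 5) (nat_lit 4) (nat_lit 3) (nat_lit 4) (nat_lit 402) (nat_lit 247) (nat_lit 215)) (XT.nd (nat_lit 94) (nat_lit 0) (nat_lit 0) (XT.lf (nat_lit 0) (nat_lit 24840299060) (nat_lit 168) (nat_lit 11468034719) (nat_lit 0) (nat_lit 16724956475) (nat_lit 3) (nat_lit 5) (nat_lit 5) (nat_lit 4) (nat_lit 3) (nat_lit 4) (nat_lit 403) (nat_lit 247) (nat_lit 214)) (XT.lf (nat_lit 0) (nat_lit 27227678155) (nat_lit 168) (nat_lit 8412070087) (nat_lit 0) (nat_lit 18971990025) (nat_lit 3) (nat_lit 5) (nat_lit 5) (nat_lit 4) (nat_lit 3) (nat_lit 4) (nat_lit 404) (nat_lit 247) (nat_lit 213)))))) (XT.nd (nat_lit 564) (nat_lit 0) (nat_lit 0) (XT.nd (nat_lit 282) (nat_lit 0) (nat_lit 0) (XT.nd (nat_lit 94) (nat_lit 84) (nat_lit 0) (XT.lf (nat_lit 0) (nat_lit 29663735836) (nat_lit 168) (nat_lit 5304285293) (nat_lit 0) (nat_lit 21271922055) (nat_lit 3) (nat_lit 5)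 (nat_lit 5) (nat_lit 4) (nat_lit 3) (nat_lit 4) (nat_lit 405) (nat_lit 247) (nat_lit 212)) (XT.nd (nat_lit 94) (nat_lit 84) (nat_lit 0) (XT.lf (nat_lit 0) (nat_lit 32150742763) (nat_lit 168) (nat_lit 2141783556) (nat_lit 0) (nat_lit 23626896344) (nat_lit 3) (nat_lit 5) (nat_lit 5) (nat_lit 4) (nat_lit 3) (nat_lit 4) (nat_lit 406) (nat_lit 247) (nat_lit 211)) (XT.lf (nat_lit 0) (nat_lit 1100556670) (nat_lit 84) (nat_lit 33601378076) (nat_lit 84) (nat_lit 24949468961) (nat_lit 2) (nat_lit 4) (nat_lit 3) (nat_lit 5) (nat_lit 3) (nat_lit 4) (nat_lit 407) (nat_lit 247) (nat_lit 210)))) (XT.nd (nat_lit 94) (nat_lit 0) (nat_lit 0) (XT.lf (nat_lit 0) (nat_lit 4448850041) (nat_lit 84) (nat_lit 32882209714) (nat_lit 84) (nat_lit 24106088480) (nat_lit 2) (nat_lit 4) (nat_lit 3) (nat_lit 5) (nat_lit 3) (nat_lit 4) (nat_lit 408) (nat_lit 247) (nat_lit 209)) (XT.nd (nat_lit 94) (nat_lit 0) (nat_lit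 0) (XT.lf (nat_lit 0) (nat_lit 7862178052) (nat_lit 84) (nat_lit 32156706721) (nat_lit 84) (nat_lit 23260108165) (nat_lit 2) (nat_lit 4) (nat_lit 3) (nat_lit 5) (nat_lit 3) (nat_lit 4) (nat_lit 409) (nat_lit 247) (nat_lit 208)) (XT.lf (nat_lit 0) (nat_lit 11343722284) (nat_lit 84) (nat_lit 31424192853) (nat_lit 84) (nat_lit 22410739474) (nat_lit 2) (nat_lit 4) (nat_lit 3) (nat_lit 5) (nat_lit 3) (nat_lit 4) (nat_lit 410) (nat_lit 247) (nat_lit 207))))) (XT.nd (nat_lit 50290) (nat_lit 0) (nat_lit 672) (XT.nd (nat_lit 94) (nat_lit 0) (nat_lit 0) (XT.lf (nat_lit 0) (nat_lit 14896727900) (nat_lit 84) (nat_lit 30683985330) (nat_lit 84) (nat_lit 21557190707) (nat_lit 2) (nat_lit 4) (nat_lit 3) (nat_lit 5) (nat_lit 3) (nat_lit 4) (nat_lit 411) (nat_lit 247) (nat_lit 206)) (XT.nd (nat_lit 50102) (nat_lit 0) (nat_lit 840) (XT.lf (nat_lit 0) (nat_lit 18524506673) (nat_lit 84) (nat_lit 29935394201)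 (nat_lit 84) (nat_lit 20698666266) (nat_lit 2) (nat_lit 4) (nat_lit 3) (nat_lit 5) (nat_lit 3) (nat_lit 4) (nat_lit 412) (nat_lit 247) (nat_lit 205)) (XT.lf (nat_lit 0) (nat_lit 8907728226) (nat_lit 168) (nat_lit 563612920) (nat_lit 168) (nat_lit 563612920) (nat_lit 12) (nat_lit 4) (nat_lit 14) (nat_lit 5) (nat_lit 14) (nat_lit 4) (nat_lit 368) (nat_lit 248) (nat_lit 248)))) (XT.nd (nat_lit 94) (nat_lit 0) (nat_lit 0) (XT.lf (nat_lit 0) (nat_lit 1625772002) (nat_lit 168) (nat_lit 17756960692) (nat_lit 0) (nat_lit 1204550450) (nat_lit 10) (nat_lit 5) (nat_lit 12) (nat_lit 4) (nat_lit 10) (nat_lit 4) (nat_lit 369) (nat_lit 248) (nat_lit 247)) (XT.nd (nat_lit 94) (nat_lit 0) (nat_lit 0) (XT.lf (nat_lit 0) (nat_lit 4411498668) (nat_lit 168) (nat_lit 13128144471) (nat_lit 0) (nat_lit 3581720811) (nat_lit 10) (nat_lit 5) (nat_lit 12) (nat_lit 4) (nat_lit 10) (nat_lit 4) (nat_lit 370) (nat_lit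 248) (nat_lit 246)) (XT.lf (nat_lit 0) (nat_lit 7221021880) (nat_lit 168) (nat_lit 8458062431) (nat_lit 0) (nat_lit 5994972146) (nat_lit 10) (nat_lit 5) (nat_lit 12) (nat_lit 4) (nat_lit 10) (nat_lit 4) (nat_lit 371) (nat_lit 248) (nat_lit 245))))))) (XT.nd (nat_lit 1128) (nat_lit 252) (nat_lit 0) (XT.nd (nat_lit 564) (nat_lit 168) (nat_lit 0) (XT.nd (nat_lit 282) (nat_lit 0) (nat_lit 0) (XT.nd (nat_lit 94) (nat_lit 168) (nat_lit 0) (XT.lf (nat_lit 0) (nat_lit 10056960407) (nat_lit 168) (nat_lit 3742361568) (nat_lit 0) (nat_lit 8446553856) (nat_lit 10) (nat_lit 5) (nat_lit 12) (nat_lit 4) (nat_lit 10) (nat_lit 4) (nat_lit 372) (nat_lit 248) (nat_lit 244)) (XT.nd (nat_lit 94) (nat_lit 0) (nat_lit 0) (XT.lf (nat_lit 0) (nat_lit 1044395896) (nat_lit 168) (nat_lit 11887922280) (nat_lit 168) (nat_lit 9904715714) (nat_lit 8) (nat_lit 4) (nat_lit 10) (nat_lit 5) (nat_lit 10) (nat_lit 4) (nat_lit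 373) (nat_lit 248) (nat_lit 243)) (XT.lf (nat_lit 0) (nat_lit 5963680223) (nat_lit 168) (nat_lit 9914164280) (nat_lit 168) (nat_lit 7569367009) (nat_lit 8) (nat_lit 4) (nat_lit 10) (nat_lit 5) (nat_lit 10) (nat_lit 4) (nat_lit 374) (nat_lit 248) (nat_lit 242)))) (XT.nd (nat_lit 94) (nat_lit 0) (nat_lit 0) (XT.lf (nat_lit 0) (nat_lit 10943126073) (nat_lit 168) (nat_lit 7915270803) (nat_lit 168) (nat_lit 5219755100) (nat_lit 8) (nat_lit 4) (nat_lit 10) (nat_lit 5) (nat_lit 10) (nat_lit 4) (nat_lit 375) (nat_lit 248) (nat_lit 241)) (XT.nd (nat_lit 94) (nat_lit 0) (nat_lit 0) (XT.lf (nat_lit 0) (nat_lit 15987374811) (nat_lit 168) (nat_lit 5889378672) (nat_lit 168) (nat_lit 2853689902) (nat_lit 8) (nat_lit 4) (nat_lit 10) (nat_lit 5) (nat_lit 10) (nat_lit 4) (nat_lit 376) (nat_lit 248) (nat_lit 240)) (XT.lf (nat_lit 0) (nat_lit 21101128204) (nat_lit 168) (nat_lit 3834599544) (nat_lit 168)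 (nat_lit 468965994) (nat_lit 8) (nat_lit 4) (nat_lit 10) (nat_lit 5) (nat_lit 10) (nat_lit 4) (nat_lit 377) (nat_lit 248) (nat_lit 239))))) (XT.nd (nat_lit 282) (nat_lit 0) (nat_lit 0) (XT.nd (nat_lit 94) (nat_lit 0) (nat_lit 0) (XT.lf (nat_lit 0) (nat_lit 171872430) (nat_lit 84) (nat_lit 1727453032) (nat_lit 168) (nat_lit 24201557640) (nat_lit 6) (nat_lit 5) (nat_lit 7) (nat_lit 5) (nat_lit 8) (nat_lit 4) (nat_lit 378) (nat_lit 248) (nat_lit 238)) (XT.nd (nat_lit 94) (nat_lit 0) (nat_lit 0) (XT.lf (nat_lit 0) (nat_lit 4329504429) (nat_lit 168) (nat_lit 22035546276) (nat_lit 0) (nat_lit 453598348) (nat_lit 6) (nat_lit 5) (nat_lit 8) (nat_lit 4) (nat_lit 6) (nat_lit 4) (nat_lit 379) (nat_lit 248) (nat_lit 237)) (XT.lf (nat_lit 0) (nat_lit 6802655270) (nat_lit 168) (nat_lit 18122365869) (nat_lit 0) (nat_lit 2634733221) (nat_lit 6) (nat_lit 5) (nat_lit 8) (nat_lit 4) (nat_lit 6) (nat_lit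 4) (nat_lit 380) (nat_lit 248) (nat_lit 236)))) (XT.nd (nat_lit 94) (nat_lit 0) (nat_lit 0) (XT.lf (nat_lit 0) (nat_lit 9303946672) (nat_lit 168) (nat_lit 14168685411) (nat_lit 0) (nat_lit 4852788961) (nat_lit 6) (nat_lit 5) (nat_lit 8) (nat_lit 4) (nat_lit 6) (nat_lit 4) (nat_lit 381) (nat_lit 248) (nat_lit 235)) (XT.nd (nat_lit 94) (nat_lit 0) (nat_lit 0) (XT.lf (nat_lit 0) (nat_lit 11835710101) (nat_lit 168) (nat_lit 10170819656) (nat_lit 0) (nat_lit 7109833028) (nat_lit 6) (nat_lit 5) (nat_lit 8) (nat_lit 4) (nat_lit 6) (nat_lit 4) (nat_lit 382) (nat_lit 248) (nat_lit 234)) (XT.lf (nat_lit 0) (nat_lit 14400305425) (nat_lit 168) (nat_lit 6125042176) (nat_lit 0) (nat_lit 9407969223) (nat_lit 6) (nat_lit 5) (nat_lit 8) (nat_lit 4) (nat_lit 6) (nat_lit 4) (nat_lit 383) (nat_lit 248) (nat_lit 233)))))) (XT.nd (nat_lit 564) (nat_lit 168) (nat_lit 0) (XT.nd (nat_lit 282) (nat_lit 0) (nat_lit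 0) (XT.nd (nat_lit 94) (nat_lit 84) (nat_lit 0) (XT.lf (nat_lit 0) (nat_lit 17000123117) (nat_lit 168) (nat_lit 2027581881) (nat_lit 0) (nat_lit 11749339652) (nat_lit 6) (nat_lit 5) (nat_lit 8) (nat_lit 4) (nat_lit 6) (nat_lit 4) (nat_lit 384) (nat_lit 248) (nat_lit 232)) (XT.nd (nat_lit 94) (nat_lit 0) (nat_lit 0) (XT.lf (nat_lit 0) (nat_lit 2169082672) (nat_lit 84) (nat_lit 17490021375) (nat_lit 84) (nat_lit 11988561611) (nat_lit 5) (nat_lit 4) (nat_lit 6) (nat_lit 5) (nat_lit 6) (nat_lit 4) (nat_lit 385) (nat_lit 248) (nat_lit 231)) (XT.lf (nat_lit 0) (nat_lit 6468032372) (nat_lit 84) (nat_lit 15911285212) (nat_lit 84) (nat_lit 10166686458) (nat_lit 5) (nat_lit 4) (nat_lit 6) (nat_lit 5) (nat_lit 6) (nat_lit 4) (nat_lit 386) (nat_lit 248) (nat_lit 230)))) (XT.nd (nat_lit 94) (nat_lit 0) (nat_lit 0) (XT.lf (nat_lit 0) (nat_lit 10831583048) (nat_lit 84) (nat_lit 14311188757) (nat_lit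 84) (nat_lit 8330761691) (nat_lit 5) (nat_lit 4) (nat_lit 6) (nat_lit 5) (nat_lit 6) (nat_lit 4) (nat_lit 387) (nat_lit 248) (nat_lit 229)) (XT.nd (nat_lit 94) (nat_lit 0) (nat_lit 0) (XT.lf (nat_lit 0) (nat_lit 15263801987) (nat_lit 84) (nat_lit 12688240553) (nat_lit 84) (nat_lit 6479076036) (nat_lit 5) (nat_lit 4) (nat_lit 6) (nat_lit 5) (nat_lit 6) (nat_lit 4) (nat_lit 388) (nat_lit 248) (nat_lit 228)) (XT.lf (nat_lit 0) (nat_lit 19768820481) (nat_lit 84) (nat_lit 11040927843) (nat_lit 84) (nat_lit 4609903528) (nat_lit 5) (nat_lit 4) (nat_lit 6) (nat_lit 5) (nat_lit 6) (nat_lit 4) (nat_lit 389) (nat_lit 248) (nat_lit 227))))) (XT.nd (nat_lit 282) (nat_lit 84) (nat_lit 0) (XT.nd (nat_lit 94) (nat_lit 84) (nat_lit 0) (XT.lf (nat_lit 0) (nat_lit 24350837678) (nat_lit 84) (nat_lit 9367715158) (nat_lit 84) (nat_lit 2721501903) (nat_lit 5) (nat_lit 4) (nat_lit 6) (nat_lit 5) (nat_lit 6)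 (nat_lit 4) (nat_lit 390) (nat_lit 248) (nat_lit 226)) (XT.nd (nat_lit 94) (nat_lit 84) (nat_lit 0) (XT.lf (nat_lit 0) (nat_lit 29014124500) (nat_lit 84) (nat_lit 7667042889) (nat_lit 84) (nat_lit 812110972) (nat_lit 5) (nat_lit 4) (nat_lit 6) (nat_lit 5) (nat_lit 6) (nat_lit 4) (nat_lit 391) (nat_lit 248) (nat_lit 225)) (XT.lf (nat_lit 0) (nat_lit 1097482524) (nat_lit 168) (nat_lit 4828387840) (nat_lit 84) (nat_lit 32654089625) (nat_lit 4) (nat_lit 5) (nat_lit 6) (nat_lit 5) (nat_lit 5) (nat_lit 4) (nat_lit 392) (nat_lit 248) (nat_lit 224)))) (XT.nd (nat_lit 94) (nat_lit 84) (nat_lit 0) (XT.lf (nat_lit 0) (nat_lit 3014788797) (nat_lit 168) (nat_lit 1130694697) (nat_lit 84) (nat_lit 35555716495) (nat_lit 4) (nat_lit 5) (nat_lit 6) (nat_lit 5) (nat_lit 5) (nat_lit 4) (nat_lit 393) (nat_lit 248) (nat_lit 223)) (XT.nd (nat_lit 94) (nat_lit 0) (nat_lit 0) (XT.lf (nat_lit 0) (nat_lit 2679412637)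 (nat_lit 84) (nat_lit 2305124671) (nat_lit 168) (nat_lit 35872931929) (nat_lit 3) (nat_lit 5) (nat_lit 4) (nat_lit 5) (nat_lit 5) (nat_lit 4) (nat_lit 394) (nat_lit 248) (nat_lit 222)) (XT.lf (nat_lit 0) (nat_lit 6575973904) (nat_lit 84) (nat_lit 418059548) (nat_lit 168) (nat_lit 35056262489) (nat_lit 3) (nat_lit 5) (nat_lit 4) (nat_lit 5) (nat_lit 5) (nat_lit 4) (nat_lit 395) (nat_lit 248) (nat_lit 221))))))))
noncomputable def xc13 : XT := (XT.nd (nat_lit 52076) (nat_lit 0) (nat_lit 84) (XT.nd (nat_lit 1128) (nat_lit 84) (nat_lit 0) (XT.nd (nat_lit 564) (nat_lit 0) (nat_lit 0) (XT.nd (nat_lit 282) (nat_lit 0) (nat_lit 0) (XT.nd (nat_lit 94) (nat_lit 0) (nat_lit 0) (XT.lf (nat_lit 0) (nat_lit 9048639443) (nat_lit 168) (nat_lit 32756711524) (nat_lit 0) (nat_lit 1475332812) (nat_lit 3) (nat_lit 5) (nat_lit 5) (nat_lit 4) (nat_lit 3) (nat_lit 4) (nat_lit 396) (nat_lit 248) (nat_lit 220))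 (XT.nd (nat_lit 94) (nat_lit 0) (nat_lit 0) (XT.lf (nat_lit 0) (nat_lit 11139848738) (nat_lit 168) (nat_lit 30012270314) (nat_lit 0) (nat_lit 3397983621) (nat_lit 3) (nat_lit 5) (nat_lit 5) (nat_lit 4) (nat_lit 3) (nat_lit 4) (nat_lit 397) (nat_lit 248) (nat_lit 219)) (XT.lf (nat_lit 0) (nat_lit 13265463363) (nat_lit 168) (nat_lit 27234293097) (nat_lit 0) (nat_lit 5360107957) (nat_lit 3) (nat_lit 5) (nat_lit 5) (nat_lit 4) (nat_lit 3) (nat_lit 4) (nat_lit 398) (nat_lit 248) (nat_lit 218)))) (XT.nd (nat_lit 94) (nat_lit 0) (nat_lit 0) (XT.lf (nat_lit 0) (nat_lit 15427464612) (nat_lit 168) (nat_lit 24420190508) (nat_lit 0) (nat_lit 7363534726) (nat_lit 3) (nat_lit 5) (nat_lit 5) (nat_lit 4) (nat_lit 3) (nat_lit 4) (nat_lit 399) (nat_lit 248) (nat_lit 217)) (XT.nd (nat_lit 94) (nat_lit 0) (nat_lit 0) (XT.lf (nat_lit 0) (nat_lit 17627867696) (nat_lit 168) (nat_lit 21567339509) (nat_lit 0)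 (nat_lit 9410131333) (nat_lit 3) (nat_lit 5) (nat_lit 5) (nat_lit 4) (nat_lit 3) (nat_lit 4) (nat_lit 400) (nat_lit 248) (nat_lit 216)) (XT.lf (nat_lit 0) (nat_lit 19868723623) (nat_lit 168) (nat_lit 18673080943) (nat_lit 0) (nat_lit 11501805418) (nat_lit 3) (nat_lit 5) (nat_lit 5) (nat_lit 4) (nat_lit 3) (nat_lit 4) (nat_lit 401) (nat_lit 248) (nat_lit 215))))) (XT.nd (nat_lit 282) (nat_lit 0) (nat_lit 0) (XT.nd (nat_lit 94) (nat_lit 0) (nat_lit 0) (XT.lf (nat_lit 0) (nat_lit 22152121105) (nat_lit 168) (nat_lit 15734717058) (nat_lit 0) (nat_lit 13640506642) (nat_lit 3) (nat_lit 5) (nat_lit 5) (nat_lit 4) (nat_lit 3) (nat_lit 4) (nat_lit 402) (nat_lit 248) (nat_lit 214)) (XT.nd (nat_lit 94) (nat_lit 0) (nat_lit 0) (XT.lf (nat_lit 0) (nat_lit 24480188507) (nat_lit 168) (nat_lit 12749508992) (nat_lit 0) (nat_lit 15828228498) (nat_lit 3) (nat_lit 5) (nat_lit 5) (nat_lit 4) (nat_lit 3) (nat_lit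 4) (nat_lit 403) (nat_lit 248) (nat_lit 213)) (XT.lf (nat_lit 0) (nat_lit 26855095831) (nat_lit 168) (nat_lit 9714674218) (nat_lit 0) (nat_lit 18067010173) (nat_lit 3) (nat_lit 5) (nat_lit 5) (nat_lit 4) (nat_lit 3) (nat_lit 4) (nat_lit 404) (nat_lit 248) (nat_lit 212)))) (XT.nd (nat_lit 94) (nat_lit 0) (nat_lit 0) (XT.lf (nat_lit 0) (nat_lit 29279056741) (nat_lit 168) (nat_lit 6627383951) (nat_lit 0) (nat_lit 20358938444) (nat_lit 3) (nat_lit 5) (nat_lit 5) (nat_lit 4) (nat_lit 3) (nat_lit 4) (nat_lit 405) (nat_lit 248) (nat_lit 211)) (XT.nd (nat_lit 94) (nat_lit 0) (nat_lit 0) (XT.lf (nat_lit 0) (nat_lit 31754330622) (nat_lit 168) (nat_lit 3484760514) (nat_lit 0) (nat_lit 22706149630) (nat_lit 3) (nat_lit 5) (nat_lit 5) (nat_lit 4) (nat_lit 3) (nat_lit 4) (nat_lit 406) (nat_lit 248) (nat_lit 210)) (XT.lf (nat_lit 0) (nat_lit 34283224688) (nat_lit 168) (nat_lit 283874653) (nat_lit 0)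 (nat_lit 25110831577) (nat_lit 3) (nat_lit 5) (nat_lit 5) (nat_lit 4) (nat_lit 3) (nat_lit 4) (nat_lit 407) (nat_lit 248) (nat_lit 209)))))) (XT.nd (nat_lit 50384) (nat_lit 0) (nat_lit 672) (XT.nd (nat_lit 282) (nat_lit 0) (nat_lit 0) (XT.nd (nat_lit 94) (nat_lit 0) (nat_lit 0) (XT.lf (nat_lit 0) (nat_lit 3039496268) (nat_lit 84) (nat_lit 33858752045) (nat_lit 84) (nat_lit 24565881611) (nat_lit 2) (nat_lit 4) (nat_lit 3) (nat_lit 5) (nat_lit 3) (nat_lit 4) (nat_lit 408) (nat_lit 248) (nat_lit 208)) (XT.nd (nat_lit 94) (nat_lit 0) (nat_lit 0) (XT.lf (nat_lit 0) (nat_lit 6434312734) (nat_lit 84) (nat_lit 33140870774) (nat_lit 84) (nat_lit 23731145518) (nat_lit 2) (nat_lit 4) (nat_lit 3) (nat_lit 5) (nat_lit 3) (nat_lit 4) (nat_lit 409) (nat_lit 248) (nat_lit 207)) (XT.lf (nat_lit 0) (nat_lit 9897902024) (nat_lit 84) (nat_lit 32415749459) (nat_lit 84) (nat_lit 22892682958) (nat_lit 2) (nat_lit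 4) (nat_lit 3) (nat_lit 5) (nat_lit 3) (nat_lit 4) (nat_lit 410) (nat_lit 248) (nat_lit 206)))) (XT.nd (nat_lit 94) (nat_lit 0) (nat_lit 0) (XT.lf (nat_lit 0) (nat_lit 13433492565) (nat_lit 84) (nat_lit 31682712211) (nat_lit 84) (nat_lit 22049712398) (nat_lit 2) (nat_lit 4) (nat_lit 3) (nat_lit 5) (nat_lit 3) (nat_lit 4) (nat_lit 411) (nat_lit 248) (nat_lit 205)) (XT.nd (nat_lit 49914) (nat_lit 0) (nat_lit 840) (XT.lf (nat_lit 0) (nat_lit 17044379899) (nat_lit 84) (nat_lit 30941075761) (nat_lit 84) (nat_lit 21201448100) (nat_lit 2) (nat_lit 4) (nat_lit 3) (nat_lit 5) (nat_lit 3) (nat_lit 4) (nat_lit 412) (nat_lit 248) (nat_lit 204)) (XT.lf (nat_lit 0) (nat_lit 3457319823) (nat_lit 168) (nat_lit 3042116974) (nat_lit 168) (nat_lit 3042116974) (nat_lit 12) (nat_lit 4) (nat_lit 14) (nat_lit 5) (nat_lit 14) (nat_lit 4) (nat_lit 366) (nat_lit 249) (nat_lit 249))))) (XT.nd (nat_lit 282) (nat_lit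 0) (nat_lit 0) (XT.nd (nat_lit 94) (nat_lit 168) (nat_lit 0) (XT.lf (nat_lit 0) (nat_lit 12307670795) (nat_lit 168) (nat_lit 3854259291) (nat_lit 168) (nat_lit 3406517210) (nat_lit 12) (nat_lit 4) (nat_lit 14) (nat_lit 5) (nat_lit 14) (nat_lit 4) (nat_lit 367) (nat_lit 249) (nat_lit 248)) (XT.nd (nat_lit 94) (nat_lit 168) (nat_lit 0) (XT.lf (nat_lit 0) (nat_lit 17764603438) (nat_lit 168) (nat_lit 1594184702) (nat_lit 168) (nat_lit 712163201) (nat_lit 12) (nat_lit 4) (nat_lit 14) (nat_lit 5) (nat_lit 14) (nat_lit 4) (nat_lit 368) (nat_lit 249) (nat_lit 247)) (XT.lf (nat_lit 0) (nat_lit 1995551049) (nat_lit 168) (nat_lit 17862357229) (nat_lit 0) (nat_lit 731493772) (nat_lit 10) (nat_lit 5) (nat_lit 12) (nat_lit 4) (nat_lit 10) (nat_lit 4) (nat_lit 369) (nat_lit 249) (nat_lit 246)))) (XT.nd (nat_lit 94) (nat_lit 0) (nat_lit 0) (XT.lf (nat_lit 0) (nat_lit 4750474672) (nat_lit 168) (nat_lit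 13283874579) (nat_lit 0) (nat_lit 3090145518) (nat_lit 10) (nat_lit 5) (nat_lit 12) (nat_lit 4) (nat_lit 10) (nat_lit 4) (nat_lit 370) (nat_lit 249) (nat_lit 245)) (XT.nd (nat_lit 94) (nat_lit 0) (nat_lit 0) (XT.lf (nat_lit 0) (nat_lit 7530121023) (nat_lit 168) (nat_lit 8662612687) (nat_lit 0) (nat_lit 5485435052) (nat_lit 10) (nat_lit 5) (nat_lit 12) (nat_lit 4) (nat_lit 10) (nat_lit 4) (nat_lit 371) (nat_lit 249) (nat_lit 244)) (XT.lf (nat_lit 0) (nat_lit 10337081023) (nat_lit 168) (nat_lit 3994264052) (nat_lit 0) (nat_lit 7919595037) (nat_lit 10) (nat_lit 5) (nat_lit 12) (nat_lit 4) (nat_lit 10) (nat_lit 4) (nat_lit 372) (nat_lit 249) (nat_lit 243))))))) (XT.nd (nat_lit 1128) (nat_lit 252) (nat_lit 0) (XT.nd (nat_lit 564) (nat_lit 84) (nat_lit 0) (XT.nd (nat_lit 282) (nat_lit 84) (nat_lit 0) (XT.nd (nat_lit 94) (nat_lit 0) (nat_lit 0) (XT.lf (nat_lit 0) (nat_lit 740440950) (nat_lit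 168) (nat_lit 12440875368) (nat_lit 168) (nat_lit 9661798678) (nat_lit 8) (nat_lit 4) (nat_lit 10) (nat_lit 5) (nat_lit 10) (nat_lit 4) (nat_lit 373) (nat_lit 249) (nat_lit 242)) (XT.nd (nat_lit 94) (nat_lit 0) (nat_lit 0) (XT.lf (nat_lit 0) (nat_lit 5614261815) (nat_lit 168) (nat_lit 10484867747) (nat_lit 168) (nat_lit 7355072625) (nat_lit 8) (nat_lit 4) (nat_lit 10) (nat_lit 5) (nat_lit 10) (nat_lit 4) (nat_lit 374) (nat_lit 249) (nat_lit 241)) (XT.lf (nat_lit 0) (nat_lit 10549611194) (nat_lit 168) (nat_lit 8503190934) (nat_lit 168) (nat_lit 5033222744) (nat_lit 8) (nat_lit 4) (nat_lit 10) (nat_lit 5) (nat_lit 10) (nat_lit 4) (nat_lit 375) (nat_lit 249) (nat_lit 240)))) (XT.nd (nat_lit 94) (nat_lit 84) (nat_lit 0) (XT.lf (nat_lit 0) (nat_lit 15551089348) (nat_lit 168) (nat_lit 6493997798) (nat_lit 168) (nat_lit 2694084829) (nat_lit 8) (nat_lit 4) (nat_lit 10) (nat_lit 5) (nat_lit 10)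 (nat_lit 4) (nat_lit 376) (nat_lit 249) (nat_lit 239)) (XT.nd (nat_lit 94) (nat_lit 84) (nat_lit 0) (XT.lf (nat_lit 0) (nat_lit 20623358179) (nat_lit 168) (nat_lit 4455415561) (nat_lit 168) (nat_lit 335478557) (nat_lit 8) (nat_lit 4) (nat_lit 10) (nat_lit 5) (nat_lit 10) (nat_lit 4) (nat_lit 377) (nat_lit 249) (nat_lit 238)) (XT.lf (nat_lit 0) (nat_lit 2003596485) (nat_lit 252) (nat_lit 361034127) (nat_lit 84) (nat_lit 23746635650) (nat_lit 7) (nat_lit 5) (nat_lit 10) (nat_lit 5) (nat_lit 8) (nat_lit 4) (nat_lit 378) (nat_lit 249) (nat_lit 237))))) (XT.nd (nat_lit 282) (nat_lit 0) (nat_lit 0) (XT.nd (nat_lit 94) (nat_lit 0) (nat_lit 0) (XT.lf (nat_lit 0) (nat_lit 4207129307) (nat_lit 84) (nat_lit 193922567) (nat_lit 168) (nat_lit 22429036786) (nat_lit 6) (nat_lit 5) (nat_lit 7) (nat_lit 5) (nat_lit 8) (nat_lit 4) (nat_lit 379) (nat_lit 249) (nat_lit 236)) (XT.nd (nat_lit 94) (nat_lit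 0) (nat_lit 0) (XT.lf (nat_lit 0) (nat_lit 6848385767) (nat_lit 168) (nat_lit 18747642774) (nat_lit 0) (nat_lit 1976006505) (nat_lit 6) (nat_lit 5) (nat_lit 8) (nat_lit 4) (nat_lit 6) (nat_lit 4) (nat_lit 380) (nat_lit 249) (nat_lit 235)) (XT.lf (nat_lit 0) (nat_lit 9326502375) (nat_lit 168) (nat_lit 14832553551) (nat_lit 0) (nat_lit 4179403751) (nat_lit 6) (nat_lit 5) (nat_lit 8) (nat_lit 4) (nat_lit 6) (nat_lit 4) (nat_lit 381) (nat_lit 249) (nat_lit 234)))) (XT.nd (nat_lit 94) (nat_lit 0) (nat_lit 0) (XT.lf (nat_lit 0) (nat_lit 11835787828) (nat_lit 168) (nat_lit 10872118674) (nat_lit 0) (nat_lit 6422230075) (nat_lit 6) (nat_lit 5) (nat_lit 8) (nat_lit 4) (nat_lit 6) (nat_lit 4) (nat_lit 382) (nat_lit 249) (nat_lit 233)) (XT.nd (nat_lit 94) (nat_lit 0) (nat_lit 0) (XT.lf (nat_lit 0) (nat_lit 14378581041) (nat_lit 168) (nat_lit 6862646603) (nat_lit 0) (nat_lit 8706576024) (nat_lit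 6) (nat_lit 5) (nat_lit 8) (nat_lit 4) (nat_lit 6) (nat_lit 4) (nat_lit 383) (nat_lit 249) (nat_lit 232)) (XT.lf (nat_lit 0) (nat_lit 16957252166) (nat_lit 168) (nat_lit 2800400091) (nat_lit 0) (nat_lit 11034570850) (nat_lit 6) (nat_lit 5) (nat_lit 8) (nat_lit 4) (nat_lit 6) (nat_lit 4) (nat_lit 384) (nat_lit 249) (nat_lit 231)))))) (XT.nd (nat_lit 564) (nat_lit 168) (nat_lit 0) (XT.nd (nat_lit 282) (nat_lit 0) (nat_lit 0) (XT.nd (nat_lit 94) (nat_lit 0) (nat_lit 0) (XT.lf (nat_lit 0) (nat_lit 1345516460) (nat_lit 84) (nat_lit 18242036022) (nat_lit 84) (nat_lit 12076215717) (nat_lit 5) (nat_lit 4) (nat_lit 6) (nat_lit 5) (nat_lit 6) (nat_lit 4) (nat_lit 385) (nat_lit 249) (nat_lit 230)) (XT.nd (nat_lit 94) (nat_lit 0) (nat_lit 0) (XT.lf (nat_lit 0) (nat_lit 5610656970) (nat_lit 84) (nat_lit 16676879637) (nat_lit 84) (nat_lit 10275231019) (nat_lit 5) (nat_lit 4) (nat_lit 6) (nat_lit 5)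 (nat_lit 6) (nat_lit 4) (nat_lit 386) (nat_lit 249) (nat_lit 229)) (XT.lf (nat_lit 0) (nat_lit 9941415028) (nat_lit 84) (nat_lit 15089954645) (nat_lit 84) (nat_lit 8459568576) (nat_lit 5) (nat_lit 4) (nat_lit 6) (nat_lit 5) (nat_lit 6) (nat_lit 4) (nat_lit 387) (nat_lit 249) (nat_lit 228)))) (XT.nd (nat_lit 94) (nat_lit 0) (nat_lit 0) (XT.lf (nat_lit 0) (nat_lit 14341827353) (nat_lit 84) (nat_lit 13479781866) (nat_lit 84) (nat_lit 6627536000) (nat_lit 5) (nat_lit 4) (nat_lit 6) (nat_lit 5) (nat_lit 6) (nat_lit 4) (nat_lit 388) (nat_lit 249) (nat_lit 227)) (XT.nd (nat_lit 94) (nat_lit 0) (nat_lit 0) (XT.lf (nat_lit 0) (nat_lit 18815995591) (nat_lit 84) (nat_lit 11844860451) (nat_lit 84) (nat_lit 4777425644) (nat_lit 5) (nat_lit 4) (nat_lit 6) (nat_lit 5) (nat_lit 6) (nat_lit 4) (nat_lit 389) (nat_lit 249) (nat_lit 226)) (XT.lf (nat_lit 0) (nat_lit 23368090135) (nat_lit 84) (nat_lit 10183666480)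 (nat_lit 84) (nat_lit 2907513012) (nat_lit 5) (nat_lit 4) (nat_lit 6) (nat_lit 5) (nat_lit 6) (nat_lit 4) (nat_lit 390) (nat_lit 249) (nat_lit 225))))) (XT.nd (nat_lit 282) (nat_lit 84) (nat_lit 0) (XT.nd (nat_lit 94) (nat_lit 84) (nat_lit 0) (XT.lf (nat_lit 0) (nat_lit 28002354014) (nat_lit 84) (nat_lit 8494651548) (nat_lit 84) (nat_lit 1016055149) (nat_lit 5) (nat_lit 4) (nat_lit 6) (nat_lit 5) (nat_lit 6) (nat_lit 4) (nat_lit 391) (nat_lit 249) (nat_lit 224)) (XT.nd (nat_lit 94) (nat_lit 0) (nat_lit 0) (XT.lf (nat_lit 0) (nat_lit 880603957) (nat_lit 168) (nat_lit 5886445659) (nat_lit 84) (nat_lit 31833311191) (nat_lit 4) (nat_lit 5) (nat_lit 6) (nat_lit 5) (nat_lit 5) (nat_lit 4) (nat_lit 392) (nat_lit 249) (nat_lit 223)) (XT.lf (nat_lit 0) (nat_lit 2781379279) (nat_lit 168) (nat_lit 2216422870) (nat_lit 84) (nat_lit 34724337698) (nat_lit 4) (nat_lit 5) (nat_lit 6) (nat_lit 5) (nat_lit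 5) (nat_lit 4) (nat_lit 393) (nat_lit 249) (nat_lit 222)))) (XT.nd (nat_lit 94) (nat_lit 0) (nat_lit 0) (XT.lf (nat_lit 0) (nat_lit 1543969450) (nat_lit 84) (nat_lit 3179860702) (nat_lit 168) (nat_lit 36155450948) (nat_lit 3) (nat_lit 5) (nat_lit 4) (nat_lit 5) (nat_lit 5) (nat_lit 4) (nat_lit 394) (nat_lit 249) (nat_lit 221)) (XT.nd (nat_lit 94) (nat_lit 0) (nat_lit 0) (XT.lf (nat_lit 0) (nat_lit 5413964067) (nat_lit 84) (nat_lit 1303546890) (nat_lit 168) (nat_lit 35355112128) (nat_lit 3) (nat_lit 5) (nat_lit 4) (nat_lit 5) (nat_lit 5) (nat_lit 4) (nat_lit 395) (nat_lit 249) (nat_lit 220)) (XT.lf (nat_lit 0) (nat_lit 8747889551) (nat_lit 168) (nat_lit 33958428548) (nat_lit 0) (nat_lit 597468127) (nat_lit 3) (nat_lit 5) (nat_lit 5) (nat_lit 4) (nat_lit 3) (nat_lit 4) (nat_lit 396) (nat_lit 249) (nat_lit 219))))))))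
noncomputable def xc14 : XT := (XT.nd (nat_lit 51888) (nat_lit 0) (nat_lit 84) (XT.nd (nat_lit 1128) (nat_lit 0) (nat_lit 0) (XT.nd (nat_lit 564) (nat_lit 84) (nat_lit 0) (XT.nd (nat_lit 282) (nat_lit 0) (nat_lit 0) (XT.nd (nat_lit 94) (nat_lit 0) (nat_lit 0) (XT.lf (nat_lit 0) (nat_lit 10824119940) (nat_lit 168) (nat_lit 31239364822) (nat_lit 0) (nat_lit 2510208228) (nat_lit 3) (nat_lit 5) (nat_lit 5) (nat_lit 4) (nat_lit 3) (nat_lit 4) (nat_lit 397) (nat_lit 249) (nat_lit 218)) (XT.nd (nat_lit 94) (nat_lit 0) (nat_lit 0) (XT.lf (nat_lit 0) (nat_lit 12935206042) (nat_lit 168) (nat_lit 28486002042) (nat_lit 0) (nat_lit 4462719851) (nat_lit 3) (nat_lit 5) (nat_lit 5) (nat_lit 4) (nat_lit 3) (nat_lit 4) (nat_lit 398) (nat_lit 249) (nat_lit 217)) (XT.lf (nat_lit 0) (nat_lit 15083115610) (nat_lit 168) (nat_lit 25695773786) (nat_lit 0) (nat_lit 6456822941) (nat_lit 3) (nat_lit 5) (nat_lit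 5) (nat_lit 4) (nat_lit 3) (nat_lit 4) (nat_lit 399) (nat_lit 249) (nat_lit 216)))) (XT.nd (nat_lit 94) (nat_lit 0) (nat_lit 0) (XT.lf (nat_lit 0) (nat_lit 17269850722) (nat_lit 168) (nat_lit 22866079268) (nat_lit 0) (nat_lit 8494376211) (nat_lit 3) (nat_lit 5) (nat_lit 5) (nat_lit 4) (nat_lit 3) (nat_lit 4) (nat_lit 400) (nat_lit 249) (nat_lit 215)) (XT.nd (nat_lit 94) (nat_lit 0) (nat_lit 0) (XT.lf (nat_lit 0) (nat_lit 19497449643) (nat_lit 168) (nat_lit 19994280918) (nat_lit 0) (nat_lit 10577278875) (nat_lit 3) (nat_lit 5) (nat_lit 5) (nat_lit 4) (nat_lit 3) (nat_lit 4) (nat_lit 401) (nat_lit 249) (nat_lit 214)) (XT.lf (nat_lit 0) (nat_lit 21767988729) (nat_lit 168) (nat_lit 17077701917) (nat_lit 0) (nat_lit 12707472415) (nat_lit 3) (nat_lit 5) (nat_lit 5) (nat_lit 4) (nat_lit 3) (nat_lit 4) (nat_lit 402) (nat_lit 249) (nat_lit 213))))) (XT.nd (nat_lit 282) (nat_lit 84) (nat_lit 0)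 (XT.nd (nat_lit 94) (nat_lit 0) (nat_lit 0) (XT.lf (nat_lit 0) (nat_lit 24083584360) (nat_lit 168) (nat_lit 14113623709) (nat_lit 0) (nat_lit 14886942395) (nat_lit 3) (nat_lit 5) (nat_lit 5) (nat_lit 4) (nat_lit 3) (nat_lit 4) (nat_lit 403) (nat_lit 249) (nat_lit 212)) (XT.nd (nat_lit 94) (nat_lit 0) (nat_lit 0) (XT.lf (nat_lit 0) (nat_lit 26446394913) (nat_lit 168) (nat_lit 11099283462) (nat_lit 0) (nat_lit 17117720311) (nat_lit 3) (nat_lit 5) (nat_lit 5) (nat_lit 4) (nat_lit 3) (nat_lit 4) (nat_lit 404) (nat_lit 249) (nat_lit 211)) (XT.lf (nat_lit 0) (nat_lit 28858622777) (nat_lit 168) (nat_lit 8031871496) (nat_lit 0) (nat_lit 19401885479) (nat_lit 3) (nat_lit 5) (nat_lit 5) (nat_lit 4) (nat_lit 3) (nat_lit 4) (nat_lit 405) (nat_lit 249) (nat_lit 210)))) (XT.nd (nat_lit 94) (nat_lit 84) (nat_lit 0) (XT.lf (nat_lit 0) (nat_lit 31322516399) (nat_lit 168) (nat_lit 4908528661) (nat_lit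 0) (nat_lit 21741566982) (nat_lit 3) (nat_lit 5) (nat_lit 5) (nat_lit 4) (nat_lit 3) (nat_lit 4) (nat_lit 406) (nat_lit 249) (nat_lit 209)) (XT.nd (nat_lit 94) (nat_lit 84) (nat_lit 0) (XT.lf (nat_lit 0) (nat_lit 33840372387) (nat_lit 168) (nat_lit 1726343675) (nat_lit 0) (nat_lit 24138945648) (nat_lit 3) (nat_lit 5) (nat_lit 5) (nat_lit 4) (nat_lit 3) (nat_lit 4) (nat_lit 407) (nat_lit 249) (nat_lit 208)) (XT.lf (nat_lit 0) (nat_lit 1548855580) (nat_lit 84) (nat_lit 34881046905) (nat_lit 84) (nat_lit 25062765343) (nat_lit 2) (nat_lit 4) (nat_lit 3) (nat_lit 5) (nat_lit 3) (nat_lit 4) (nat_lit 408) (nat_lit 249) (nat_lit 207)))))) (XT.nd (nat_lit 50196) (nat_lit 0) (nat_lit 672) (XT.nd (nat_lit 282) (nat_lit 0) (nat_lit 0) (XT.nd (nat_lit 94) (nat_lit 0) (nat_lit 0) (XT.lf (nat_lit 0) (nat_lit 4925717104) (nat_lit 84) (nat_lit 34170558188) (nat_lit 84) (nat_lit 24238935381) (nat_lit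 2) (nat_lit 4) (nat_lit 3) (nat_lit 5) (nat_lit 3) (nat_lit 4) (nat_lit 409) (nat_lit 249) (nat_lit 206)) (XT.nd (nat_lit 94) (nat_lit 0) (nat_lit 0) (XT.lf (nat_lit 0) (nat_lit 8371891319) (nat_lit 84) (nat_lit 33452607147) (nat_lit 84) (nat_lit 23411051029) (nat_lit 2) (nat_lit 4) (nat_lit 3) (nat_lit 5) (nat_lit 3) (nat_lit 4) (nat_lit 410) (nat_lit 249) (nat_lit 205)) (XT.lf (nat_lit 0) (nat_lit 11890590421) (nat_lit 84) (nat_lit 32726524578) (nat_lit 84) (nat_lit 22578340611) (nat_lit 2) (nat_lit 4) (nat_lit 3) (nat_lit 5) (nat_lit 3) (nat_lit 4) (nat_lit 411) (nat_lit 249) (nat_lit 204)))) (XT.nd (nat_lit 49726) (nat_lit 0) (nat_lit 840) (XT.lf (nat_lit 0) (nat_lit 15485094204) (nat_lit 84) (nat_lit 31991633695) (nat_lit 84) (nat_lit 21740027955) (nat_lit 2) (nat_lit 4) (nat_lit 3) (nat_lit 5) (nat_lit 3) (nat_lit 4) (nat_lit 412) (nat_lit 249) (nat_lit 203)) (XT.nd (nat_lit 94)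 (nat_lit 168) (nat_lit 0) (XT.lf (nat_lit 0) (nat_lit 3646908490) (nat_lit 168) (nat_lit 1786131471) (nat_lit 0) (nat_lit 3646908490) (nat_lit 14) (nat_lit 5) (nat_lit 16) (nat_lit 4) (nat_lit 14) (nat_lit 4) (nat_lit 364) (nat_lit 250) (nat_lit 250)) (XT.lf (nat_lit 0) (nat_lit 1580483124) (nat_lit 168) (nat_lit 8747809329) (nat_lit 168) (nat_lit 8286187243) (nat_lit 12) (nat_lit 4) (nat_lit 14) (nat_lit 5) (nat_lit 14) (nat_lit 4) (nat_lit 365) (nat_lit 250) (nat_lit 249))))) (XT.nd (nat_lit 282) (nat_lit 168) (nat_lit 0) (XT.nd (nat_lit 94) (nat_lit 0) (nat_lit 0) (XT.lf (nat_lit 0) (nat_lit 6862210190) (nat_lit 168) (nat_lit 6565668535) (nat_lit 168) (nat_lit 5656304368) (nat_lit 12) (nat_lit 4) (nat_lit 14) (nat_lit 5) (nat_lit 14) (nat_lit 4) (nat_lit 366) (nat_lit 250) (nat_lit 248)) (XT.nd (nat_lit 94) (nat_lit 0) (nat_lit 0) (XT.lf (nat_lit 0) (nat_lit 12204388324) (nat_lit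 168) (nat_lit 4354910659) (nat_lit 168) (nat_lit 3011267072) (nat_lit 12) (nat_lit 4) (nat_lit 14) (nat_lit 5) (nat_lit 14) (nat_lit 4) (nat_lit 367) (nat_lit 250) (nat_lit 247)) (XT.lf (nat_lit 0) (nat_lit 17611996997) (nat_lit 168) (nat_lit 2113475043) (nat_lit 168) (nat_lit 348609905) (nat_lit 12) (nat_lit 4) (nat_lit 14) (nat_lit 5) (nat_lit 14) (nat_lit 4) (nat_lit 368) (nat_lit 250) (nat_lit 246)))) (XT.nd (nat_lit 94) (nat_lit 0) (nat_lit 0) (XT.lf (nat_lit 0) (nat_lit 2314232265) (nat_lit 168) (nat_lit 18073248543) (nat_lit 0) (nat_lit 206161029) (nat_lit 10) (nat_lit 5) (nat_lit 12) (nat_lit 4) (nat_lit 10) (nat_lit 4) (nat_lit 369) (nat_lit 250) (nat_lit 245)) (XT.nd (nat_lit 94) (nat_lit 0) (nat_lit 0) (XT.lf (nat_lit 0) (nat_lit 5039279027) (nat_lit 168) (nat_lit 13543586041) (nat_lit 0) (nat_lit 2546850975) (nat_lit 10) (nat_lit 5) (nat_lit 12) (nat_lit 4) (nat_lit 10) (nat_lit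 4) (nat_lit 370) (nat_lit 250) (nat_lit 244)) (XT.lf (nat_lit 0) (nat_lit 7789946851) (nat_lit 168) (nat_lit 8969676377) (nat_lit 0) (nat_lit 4924718783) (nat_lit 10) (nat_lit 5) (nat_lit 12) (nat_lit 4) (nat_lit 10) (nat_lit 4) (nat_lit 371) (nat_lit 250) (nat_lit 243))))))) (XT.nd (nat_lit 1128) (nat_lit 252) (nat_lit 0) (XT.nd (nat_lit 564) (nat_lit 168) (nat_lit 0) (XT.nd (nat_lit 282) (nat_lit 0) (nat_lit 0) (XT.nd (nat_lit 94) (nat_lit 168) (nat_lit 0) (XT.lf (nat_lit 0) (nat_lit 10568799647) (nat_lit 168) (nat_lit 4347256188) (nat_lit 0) (nat_lit 7341980876) (nat_lit 10) (nat_lit 5) (nat_lit 12) (nat_lit 4) (nat_lit 10) (nat_lit 4) (nat_lit 372) (nat_lit 250) (nat_lit 242)) (XT.nd (nat_lit 94) (nat_lit 0) (nat_lit 0) (XT.lf (nat_lit 0) (nat_lit 334727109) (nat_lit 168) (nat_lit 13047021023) (nat_lit 168) (nat_lit 9469483819) (nat_lit 8) (nat_lit 4) (nat_lit 10) (nat_lit 5) (nat_lit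 10) (nat_lit 4) (nat_lit 373) (nat_lit 250) (nat_lit 241)) (XT.lf (nat_lit 0) (nat_lit 5164451503) (nat_lit 168) (nat_lit 11108230066) (nat_lit 168) (nat_lit 7190519795) (nat_lit 8) (nat_lit 4) (nat_lit 10) (nat_lit 5) (nat_lit 10) (nat_lit 4) (nat_lit 374) (nat_lit 250) (nat_lit 240)))) (XT.nd (nat_lit 94) (nat_lit 0) (nat_lit 0) (XT.lf (nat_lit 0) (nat_lit 10057030298) (nat_lit 168) (nat_lit 9143252248) (nat_lit 168) (nat_lit 4895597197) (nat_lit 8) (nat_lit 4) (nat_lit 10) (nat_lit 5) (nat_lit 10) (nat_lit 4) (nat_lit 375) (nat_lit 250) (nat_lit 239)) (XT.nd (nat_lit 94) (nat_lit 0) (nat_lit 0) (XT.lf (nat_lit 0) (nat_lit 15017023890) (nat_lit 168) (nat_lit 7150256003) (nat_lit 168) (nat_lit 2582576918) (nat_lit 8) (nat_lit 4) (nat_lit 10) (nat_lit 5) (nat_lit 10) (nat_lit 4) (nat_lit 376) (nat_lit 250) (nat_lit 238)) (XT.lf (nat_lit 0) (nat_lit 20049055512) (nat_lit 168) (nat_lit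 5127383650) (nat_lit 168) (nat_lit 249302980) (nat_lit 8) (nat_lit 4) (nat_lit 10) (nat_lit 5) (nat_lit 10) (nat_lit 4) (nat_lit 377) (nat_lit 250) (nat_lit 237))))) (XT.nd (nat_lit 282) (nat_lit 0) (nat_lit 0) (XT.nd (nat_lit 94) (nat_lit 84) (nat_lit 0) (XT.lf (nat_lit 0) (nat_lit 2063960216) (nat_lit 252) (nat_lit 987245932) (nat_lit 84) (nat_lit 23072311818) (nat_lit 7) (nat_lit 5) (nat_lit 10) (nat_lit 5) (nat_lit 8) (nat_lit 4) (nat_lit 378) (nat_lit 250) (nat_lit 236)) (XT.nd (nat_lit 94) (nat_lit 0) (nat_lit 0) (XT.lf (nat_lit 0) (nat_lit 3528877435) (nat_lit 84) (nat_lit 902458131) (nat_lit 168) (nat_lit 22411978035) (nat_lit 6) (nat_lit 5) (nat_lit 7) (nat_lit 5) (nat_lit 8) (nat_lit 4) (nat_lit 379) (nat_lit 250) (nat_lit 235)) (XT.lf (nat_lit 0) (nat_lit 6848465904) (nat_lit 168) (nat_lit 19470682061) (nat_lit 0) (nat_lit 1267087861) (nat_lit 6) (nat_lit 5) (nat_lit 8) (nat_lit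 4) (nat_lit 6) (nat_lit 4) (nat_lit 380) (nat_lit 250) (nat_lit 234)))) (XT.nd (nat_lit 94) (nat_lit 0) (nat_lit 0) (XT.lf (nat_lit 0) (nat_lit 9304104536) (nat_lit 168) (nat_lit 15593023716) (nat_lit 0) (nat_lit 3456267363) (nat_lit 6) (nat_lit 5) (nat_lit 8) (nat_lit 4) (nat_lit 6) (nat_lit 4) (nat_lit 381) (nat_lit 250) (nat_lit 233)) (XT.nd (nat_lit 94) (nat_lit 0) (nat_lit 0) (XT.lf (nat_lit 0) (nat_lit 11791587877) (nat_lit 168) (nat_lit 11668894248) (nat_lit 0) (nat_lit 5685303440) (nat_lit 6) (nat_lit 5) (nat_lit 8) (nat_lit 4) (nat_lit 6) (nat_lit 4) (nat_lit 382) (nat_lit 250) (nat_lit 232)) (XT.lf (nat_lit 0) (nat_lit 14313234523) (nat_lit 168) (nat_lit 7694635960) (nat_lit 0) (nat_lit 7956273788) (nat_lit 6) (nat_lit 5) (nat_lit 8) (nat_lit 4) (nat_lit 6) (nat_lit 4) (nat_lit 383) (nat_lit 250) (nat_lit 231)))))) (XT.nd (nat_lit 564) (nat_lit 168) (nat_lit 0) (XT.nd (nat_lit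 282) (nat_lit 0) (nat_lit 0) (XT.nd (nat_lit 94) (nat_lit 84) (nat_lit 0) (XT.lf (nat_lit 0) (nat_lit 16871394912) (nat_lit 168) (nat_lit 3666544426) (nat_lit 0) (nat_lit 10271295187) (nat_lit 6) (nat_lit 5) (nat_lit 8) (nat_lit 4) (nat_lit 6) (nat_lit 4) (nat_lit 384) (nat_lit 250) (nat_lit 230)) (XT.nd (nat_lit 94) (nat_lit 0) (nat_lit 0) (XT.lf (nat_lit 0) (nat_lit 427753230) (nat_lit 84) (nat_lit 19044943653) (nat_lit 84) (nat_lit 12209015616) (nat_lit 5) (nat_lit 4) (nat_lit 6) (nat_lit 5) (nat_lit 6) (nat_lit 4) (nat_lit 385) (nat_lit 250) (nat_lit 229)) (XT.lf (nat_lit 0) (nat_lit 4660101122) (nat_lit 84) (nat_lit 17492958731) (nat_lit 84) (nat_lit 10428293243) (nat_lit 5) (nat_lit 4) (nat_lit 6) (nat_lit 5) (nat_lit 6) (nat_lit 4) (nat_lit 386) (nat_lit 250) (nat_lit 228)))) (XT.nd (nat_lit 94) (nat_lit 0) (nat_lit 0) (XT.lf (nat_lit 0) (nat_lit 8959052566) (nat_lit 84) (nat_lit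 15918809164) (nat_lit 84) (nat_lit 8632283878) (nat_lit 5) (nat_lit 4) (nat_lit 6) (nat_lit 5) (nat_lit 6) (nat_lit 4) (nat_lit 387) (nat_lit 250) (nat_lit 227)) (XT.nd (nat_lit 94) (nat_lit 0) (nat_lit 0) (XT.lf (nat_lit 0) (nat_lit 13328614635) (nat_lit 84) (nat_lit 14321027679) (nat_lit 84) (nat_lit 6819313453) (nat_lit 5) (nat_lit 4) (nat_lit 6) (nat_lit 5) (nat_lit 6) (nat_lit 4) (nat_lit 388) (nat_lit 250) (nat_lit 226)) (XT.lf (nat_lit 0) (nat_lit 17772860220) (nat_lit 84) (nat_lit 12698124978) (nat_lit 84) (nat_lit 4987692090) (nat_lit 5) (nat_lit 4) (nat_lit 6) (nat_lit 5) (nat_lit 6) (nat_lit 4) (nat_lit 389) (nat_lit 250) (nat_lit 225))))) (XT.nd (nat_lit 282) (nat_lit 84) (nat_lit 0) (XT.nd (nat_lit 94) (nat_lit 84) (nat_lit 0) (XT.lf (nat_lit 0) (nat_lit 22295931822) (nat_lit 84) (nat_lit 11048588345) (nat_lit 84) (nat_lit 3135712526) (nat_lit 5) (nat_lit 4) (nat_lit 6)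 (nat_lit 5) (nat_lit 6) (nat_lit 4) (nat_lit 390) (nat_lit 250) (nat_lit 224)) (XT.nd (nat_lit 94) (nat_lit 84) (nat_lit 0) (XT.lf (nat_lit 0) (nat_lit 26902045418) (nat_lit 84) (nat_lit 9370880238) (nat_lit 84) (nat_lit 1261648521) (nat_lit 5) (nat_lit 4) (nat_lit 6) (nat_lit 5) (nat_lit 6) (nat_lit 4) (nat_lit 391) (nat_lit 250) (nat_lit 223)) (XT.lf (nat_lit 0) (nat_lit 623427792) (nat_lit 168) (nat_lit 7033501759) (nat_lit 84) (nat_lit 30965559287) (nat_lit 4) (nat_lit 5) (nat_lit 6) (nat_lit 5) (nat_lit 5) (nat_lit 4) (nat_lit 392) (nat_lit 250) (nat_lit 222)))) (XT.nd (nat_lit 94) (nat_lit 84) (nat_lit 0) (XT.lf (nat_lit 0) (nat_lit 2508169214) (nat_lit 168) (nat_lit 3390317334) (nat_lit 84) (nat_lit 33846304162) (nat_lit 4) (nat_lit 5) (nat_lit 6) (nat_lit 5) (nat_lit 5) (nat_lit 4) (nat_lit 393) (nat_lit 250) (nat_lit 221)) (XT.nd (nat_lit 94) (nat_lit 0) (nat_lit 0) (XT.lf (nat_lit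 0) (nat_lit 319370658) (nat_lit 84) (nat_lit 4103549462) (nat_lit 168) (nat_lit 36479895547) (nat_lit 3) (nat_lit 5) (nat_lit 4) (nat_lit 5) (nat_lit 5) (nat_lit 4) (nat_lit 394) (nat_lit 250) (nat_lit 220)) (XT.lf (nat_lit 0) (nat_lit 4163597429) (nat_lit 84) (nat_lit 2237663691) (nat_lit 168) (nat_lit 35695396319) (nat_lit 3) (nat_lit 5) (nat_lit 4) (nat_lit 5) (nat_lit 5) (nat_lit 4) (nat_lit 395) (nat_lit 250) (nat_lit 219))))))))
noncomputable def xc15 : XT := (XT.nd (nat_lit 51700) (nat_lit 0) (nat_lit 168) (XT.nd (nat_lit 1128) (nat_lit 84) (nat_lit 0) (XT.nd (nat_lit 564) (nat_lit 0) (nat_lit 0) (XT.nd (nat_lit 282) (nat_lit 0) (nat_lit 0) (XT.nd (nat_lit 94) (nat_lit 0) (nat_lit 0) (XT.lf (nat_lit 0) (nat_lit 8076234320) (nat_lit 84) (nat_lit 334477995) (nat_lit 168) (nat_lit 34917780538) (nat_lit 3) (nat_lit 5) (nat_lit 4) (nat_lit 5) (nat_lit 5) (nat_lit 4) (nat_lit 396) (nat_lit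 250) (nat_lit 218)) (XT.nd (nat_lit 94) (nat_lit 0) (nat_lit 0) (XT.lf (nat_lit 0) (nat_lit 10469096120) (nat_lit 168) (nat_lit 32554491182) (nat_lit 0) (nat_lit 1575388377) (nat_lit 3) (nat_lit 5) (nat_lit 5) (nat_lit 4) (nat_lit 3) (nat_lit 4) (nat_lit 397) (nat_lit 250) (nat_lit 217)) (XT.lf (nat_lit 0) (nat_lit 12566090541) (nat_lit 168) (nat_lit 29825002735) (nat_lit 0) (nat_lit 3518576321) (nat_lit 3) (nat_lit 5) (nat_lit 5) (nat_lit 4) (nat_lit 3) (nat_lit 4) (nat_lit 398) (nat_lit 250) (nat_lit 216)))) (XT.nd (nat_lit 94) (nat_lit 0) (nat_lit 0) (XT.lf (nat_lit 0) (nat_lit 14700332137) (nat_lit 168) (nat_lit 27057930960) (nat_lit 0) (nat_lit 5503636075) (nat_lit 3) (nat_lit 5) (nat_lit 5) (nat_lit 4) (nat_lit 3) (nat_lit 4) (nat_lit 399) (nat_lit 250) (nat_lit 215)) (XT.nd (nat_lit 94) (nat_lit 0) (nat_lit 0) (XT.lf (nat_lit 0) (nat_lit 16873810242) (nat_lit 168) (nat_lit 24250696658)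 (nat_lit 0) (nat_lit 7532417923) (nat_lit 3) (nat_lit 5) (nat_lit 5) (nat_lit 4) (nat_lit 3) (nat_lit 4) (nat_lit 400) (nat_lit 250) (nat_lit 214)) (XT.lf (nat_lit 0) (nat_lit 19088550768) (nat_lit 168) (nat_lit 21400683191) (nat_lit 0) (nat_lit 9606812902) (nat_lit 3) (nat_lit 5) (nat_lit 5) (nat_lit 4) (nat_lit 3) (nat_lit 4) (nat_lit 401) (nat_lit 250) (nat_lit 213))))) (XT.nd (nat_lit 282) (nat_lit 0) (nat_lit 0) (XT.nd (nat_lit 94) (nat_lit 0) (nat_lit 0) (XT.lf (nat_lit 0) (nat_lit 21346618083) (nat_lit 168) (nat_lit 18505234048) (nat_lit 0) (nat_lit 11728754567) (nat_lit 3) (nat_lit 5) (nat_lit 5) (nat_lit 4) (nat_lit 3) (nat_lit 4) (nat_lit 402) (nat_lit 250) (nat_lit 212)) (XT.nd (nat_lit 94) (nat_lit 0) (nat_lit 0) (XT.lf (nat_lit 0) (nat_lit 23650116943) (nat_lit 168) (nat_lit 15561650368) (nat_lit 0) (nat_lit 13900220788) (nat_lit 3) (nat_lit 5) (nat_lit 5) (nat_lit 4) (nat_lit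 3) (nat_lit 4) (nat_lit 403) (nat_lit 250) (nat_lit 211)) (XT.lf (nat_lit 0) (nat_lit 26001194450) (nat_lit 168) (nat_lit 12567188421) (nat_lit 0) (nat_lit 16123235601) (nat_lit 3) (nat_lit 5) (nat_lit 5) (nat_lit 4) (nat_lit 3) (nat_lit 4) (nat_lit 404) (nat_lit 250) (nat_lit 210)))) (XT.nd (nat_lit 94) (nat_lit 0) (nat_lit 0) (XT.lf (nat_lit 0) (nat_lit 28402042055) (nat_lit 168) (nat_lit 9519057057) (nat_lit 0) (nat_lit 18399871086) (nat_lit 3) (nat_lit 5) (nat_lit 5) (nat_lit 4) (nat_lit 3) (nat_lit 4) (nat_lit 405) (nat_lit 250) (nat_lit 209)) (XT.nd (nat_lit 94) (nat_lit 0) (nat_lit 0) (XT.lf (nat_lit 0) (nat_lit 30854897599) (nat_lit 168) (nat_lit 6414415097) (nat_lit 0) (nat_lit 20732249308) (nat_lit 3) (nat_lit 5) (nat_lit 5) (nat_lit 4) (nat_lit 3) (nat_lit 4) (nat_lit 406) (nat_lit 250) (nat_lit 208)) (XT.lf (nat_lit 0) (nat_lit 33362047401) (nat_lit 168) (nat_lit 3250368689)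 (nat_lit 0) (nat_lit 23122544287) (nat_lit 3) (nat_lit 5) (nat_lit 5) (nat_lit 4) (nat_lit 3) (nat_lit 4) (nat_lit 407) (nat_lit 250) (nat_lit 207)))))) (XT.nd (nat_lit 50008) (nat_lit 0) (nat_lit 840) (XT.nd (nat_lit 282) (nat_lit 0) (nat_lit 0) (XT.nd (nat_lit 94) (nat_lit 84) (nat_lit 0) (XT.lf (nat_lit 0) (nat_lit 35925828387) (nat_lit 168) (nat_lit 23968612) (nat_lit 0) (nat_lit 25572984029) (nat_lit 3) (nat_lit 5) (nat_lit 5) (nat_lit 4) (nat_lit 3) (nat_lit 4) (nat_lit 408) (nat_lit 250) (nat_lit 206)) (XT.nd (nat_lit 94) (nat_lit 0) (nat_lit 0) (XT.lf (nat_lit 0) (nat_lit 3334984993) (nat_lit 84) (nat_lit 35246728739) (nat_lit 84) (nat_lit 24783951069) (nat_lit 2) (nat_lit 4) (nat_lit 3) (nat_lit 5) (nat_lit 3) (nat_lit 4) (nat_lit 409) (nat_lit 250) (nat_lit 205)) (XT.lf (nat_lit 0) (nat_lit 6764267768) (nat_lit 84) (nat_lit 34535732377) (nat_lit 84) (nat_lit 23966326859) (nat_lit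 2) (nat_lit 4) (nat_lit 3) (nat_lit 5) (nat_lit 3) (nat_lit 4) (nat_lit 410) (nat_lit 250) (nat_lit 204)))) (XT.nd (nat_lit 94) (nat_lit 0) (nat_lit 0) (XT.lf (nat_lit 0) (nat_lit 10266583320) (nat_lit 84) (nat_lit 33816395375) (nat_lit 84) (nat_lit 23143568084) (nat_lit 2) (nat_lit 4) (nat_lit 3) (nat_lit 5) (nat_lit 3) (nat_lit 4) (nat_lit 411) (nat_lit 250) (nat_lit 203)) (XT.nd (nat_lit 49538) (nat_lit 0) (nat_lit 1008) (XT.lf (nat_lit 0) (nat_lit 13845196172) (nat_lit 84) (nat_lit 33088047234) (nat_lit 84) (nat_lit 22314907844) (nat_lit 2) (nat_lit 4) (nat_lit 3) (nat_lit 5) (nat_lit 3) (nat_lit 4) (nat_lit 412) (nat_lit 250) (nat_lit 202)) (XT.lf (nat_lit 0) (nat_lit 920111898) (nat_lit 168) (nat_lit 6807640045) (nat_lit 0) (nat_lit 920111898) (nat_lit 14) (nat_lit 5) (nat_lit 16) (nat_lit 4) (nat_lit 14) (nat_lit 4) (nat_lit 362) (nat_lit 251) (nat_lit 251))))) (XT.nd (nat_lit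 282) (nat_lit 0) (nat_lit 0) (XT.nd (nat_lit 94) (nat_lit 168) (nat_lit 0) (XT.lf (nat_lit 0) (nat_lit 4776532637) (nat_lit 168) (nat_lit 8643529834) (nat_lit 0) (nat_lit 4300600266) (nat_lit 14) (nat_lit 5) (nat_lit 16) (nat_lit 4) (nat_lit 14) (nat_lit 4) (nat_lit 363) (nat_lit 251) (nat_lit 250)) (XT.nd (nat_lit 94) (nat_lit 168) (nat_lit 0) (XT.lf (nat_lit 0) (nat_lit 7736657501) (nat_lit 168) (nat_lit 3625228630) (nat_lit 0) (nat_lit 6799103044) (nat_lit 14) (nat_lit 5) (nat_lit 16) (nat_lit 4) (nat_lit 14) (nat_lit 4) (nat_lit 364) (nat_lit 251) (nat_lit 249)) (XT.lf (nat_lit 0) (nat_lit 1473998897) (nat_lit 168) (nat_lit 9263980889) (nat_lit 168) (nat_lit 7878684351) (nat_lit 12) (nat_lit 4) (nat_lit 14) (nat_lit 5) (nat_lit 14) (nat_lit 4) (nat_lit 365) (nat_lit 251) (nat_lit 248)))) (XT.nd (nat_lit 94) (nat_lit 0) (nat_lit 0) (XT.lf (nat_lit 0) (nat_lit 6704872949) (nat_lit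 168) (nat_lit 7101056876) (nat_lit 168) (nat_lit 5281480919) (nat_lit 12) (nat_lit 4) (nat_lit 14) (nat_lit 5) (nat_lit 14) (nat_lit 4) (nat_lit 366) (nat_lit 251) (nat_lit 247)) (XT.nd (nat_lit 94) (nat_lit 0) (nat_lit 0) (XT.lf (nat_lit 0) (nat_lit 11997727114) (nat_lit 168) (nat_lit 4908937973) (nat_lit 168) (nat_lit 2668140465) (nat_lit 12) (nat_lit 4) (nat_lit 14) (nat_lit 5) (nat_lit 14) (nat_lit 4) (nat_lit 367) (nat_lit 251) (nat_lit 246)) (XT.lf (nat_lit 0) (nat_lit 17357494884) (nat_lit 168) (nat_lit 2685580895) (nat_lit 168) (nat_lit 36227081) (nat_lit 12) (nat_lit 4) (nat_lit 14) (nat_lit 5) (nat_lit 14) (nat_lit 4) (nat_lit 368) (nat_lit 251) (nat_lit 245))))))) (XT.nd (nat_lit 1128) (nat_lit 168) (nat_lit 0) (XT.nd (nat_lit 564) (nat_lit 168) (nat_lit 0) (XT.nd (nat_lit 282) (nat_lit 168) (nat_lit 0) (XT.nd (nat_lit 94) (nat_lit 0) (nat_lit 0) (XT.lf (nat_lit 0) (nat_lit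 2206292986) (nat_lit 84) (nat_lit 379585240) (nat_lit 168) (nat_lit 18014011500) (nat_lit 10) (nat_lit 5) (nat_lit 11) (nat_lit 5) (nat_lit 12) (nat_lit 4) (nat_lit 369) (nat_lit 251) (nat_lit 244)) (XT.nd (nat_lit 94) (nat_lit 0) (nat_lit 0) (XT.lf (nat_lit 0) (nat_lit 5278180929) (nat_lit 168) (nat_lit 13907520933) (nat_lit 0) (nat_lit 1951330776) (nat_lit 10) (nat_lit 5) (nat_lit 12) (nat_lit 4) (nat_lit 10) (nat_lit 4) (nat_lit 370) (nat_lit 251) (nat_lit 243)) (XT.lf (nat_lit 0) (nat_lit 8000741550) (nat_lit 168) (nat_lit 9379539716) (nat_lit 0) (nat_lit 4312300692) (nat_lit 10) (nat_lit 5) (nat_lit 12) (nat_lit 4) (nat_lit 10) (nat_lit 4) (nat_lit 371) (nat_lit 251) (nat_lit 242)))) (XT.nd (nat_lit 94) (nat_lit 168) (nat_lit 0) (XT.lf (nat_lit 0) (nat_lit 10752332267) (nat_lit 168) (nat_lit 4801667002) (nat_lit 0) (nat_lit 6713172977) (nat_lit 10) (nat_lit 5) (nat_lit 12) (nat_lit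 4) (nat_lit 10) (nat_lit 4) (nat_lit 372) (nat_lit 251) (nat_lit 241)) (XT.nd (nat_lit 94) (nat_lit 168) (nat_lit 0) (XT.lf (nat_lit 0) (nat_lit 13535517853) (nat_lit 168) (nat_lit 169635735) (nat_lit 0) (nat_lit 9156185495) (nat_lit 10) (nat_lit 5) (nat_lit 12) (nat_lit 4) (nat_lit 10) (nat_lit 4) (nat_lit 373) (nat_lit 251) (nat_lit 240)) (XT.lf (nat_lit 0) (nat_lit 4613830016) (nat_lit 168) (nat_lit 11784832275) (nat_lit 168) (nat_lit 7075555138) (nat_lit 8) (nat_lit 4) (nat_lit 10) (nat_lit 5) (nat_lit 10) (nat_lit 4) (nat_lit 374) (nat_lit 251) (nat_lit 239))))) (XT.nd (nat_lit 282) (nat_lit 168) (nat_lit 0) (XT.nd (nat_lit 94) (nat_lit 0) (nat_lit 0) (XT.lf (nat_lit 0) (nat_lit 9464924248) (nat_lit 168) (nat_lit 9836051348) (nat_lit 168) (nat_lit 4806750177) (nat_lit 8) (nat_lit 4) (nat_lit 10) (nat_lit 5) (nat_lit 10) (nat_lit 4) (nat_lit 375) (nat_lit 251) (nat_lit 238)) (XT.nd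 (nat_lit 94) (nat_lit 0) (nat_lit 0) (XT.lf (nat_lit 0) (nat_lit 14384680632) (nat_lit 168) (nat_lit 7858764988) (nat_lit 168) (nat_lit 2519062232) (nat_lit 8) (nat_lit 4) (nat_lit 10) (nat_lit 5) (nat_lit 10) (nat_lit 4) (nat_lit 376) (nat_lit 251) (nat_lit 237)) (XT.lf (nat_lit 0) (nat_lit 19377684894) (nat_lit 168) (nat_lit 5851130156) (nat_lit 168) (nat_lit 210358938) (nat_lit 8) (nat_lit 4) (nat_lit 10) (nat_lit 5) (nat_lit 10) (nat_lit 4) (nat_lit 377) (nat_lit 251) (nat_lit 236)))) (XT.nd (nat_lit 94) (nat_lit 84) (nat_lit 0) (XT.lf (nat_lit 0) (nat_lit 2078767925) (nat_lit 252) (nat_lit 1710809529) (nat_lit 84) (nat_lit 22348125038) (nat_lit 7) (nat_lit 5) (nat_lit 10) (nat_lit 5) (nat_lit 8) (nat_lit 4) (nat_lit 378) (nat_lit 251) (nat_lit 235)) (XT.nd (nat_lit 94) (nat_lit 0) (nat_lit 0) (XT.lf (nat_lit 0) (nat_lit 2752449595) (nat_lit 84) (nat_lit 1663341858) (nat_lit 168)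 (nat_lit 22442687108) (nat_lit 6) (nat_lit 5) (nat_lit 7) (nat_lit 5) (nat_lit 8) (nat_lit 4) (nat_lit 379) (nat_lit 251) (nat_lit 234)) (XT.lf (nat_lit 0) (nat_lit 6802895755) (nat_lit 168) (nat_lit 20292157679) (nat_lit 0) (nat_lit 507316501) (nat_lit 6) (nat_lit 5) (nat_lit 8) (nat_lit 4) (nat_lit 6) (nat_lit 4) (nat_lit 380) (nat_lit 251) (nat_lit 233)))))) (XT.nd (nat_lit 564) (nat_lit 84) (nat_lit 0) (XT.nd (nat_lit 282) (nat_lit 84) (nat_lit 0) (XT.nd (nat_lit 94) (nat_lit 0) (nat_lit 0) (XT.lf (nat_lit 0) (nat_lit 9236732275) (nat_lit 168) (nat_lit 16450804743) (nat_lit 0) (nat_lit 2682705757) (nat_lit 6) (nat_lit 5) (nat_lit 8) (nat_lit 4) (nat_lit 6) (nat_lit 4) (nat_lit 381) (nat_lit 251) (nat_lit 232)) (XT.nd (nat_lit 94) (nat_lit 0) (nat_lit 0) (XT.lf (nat_lit 0) (nat_lit 11703069048) (nat_lit 168) (nat_lit 12561889058) (nat_lit 0) (nat_lit 4898366232) (nat_lit 6) (nat_lit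 5) (nat_lit 8) (nat_lit 4) (nat_lit 6) (nat_lit 4) (nat_lit 382) (nat_lit 251) (nat_lit 231)) (XT.lf (nat_lit 0) (nat_lit 14204204960) (nat_lit 168) (nat_lit 8621785749) (nat_lit 0) (nat_lit 7156363153) (nat_lit 6) (nat_lit 5) (nat_lit 8) (nat_lit 4) (nat_lit 6) (nat_lit 4) (nat_lit 383) (nat_lit 251) (nat_lit 230)))) (XT.nd (nat_lit 94) (nat_lit 84) (nat_lit 0) (XT.lf (nat_lit 0) (nat_lit 16742471329) (nat_lit 168) (nat_lit 4626822225) (nat_lit 0) (nat_lit 9458801211) (nat_lit 6) (nat_lit 5) (nat_lit 8) (nat_lit 4) (nat_lit 6) (nat_lit 4) (nat_lit 384) (nat_lit 251) (nat_lit 229)) (XT.nd (nat_lit 94) (nat_lit 84) (nat_lit 0) (XT.lf (nat_lit 0) (nat_lit 19320234087) (nat_lit 168) (nat_lit 573274762) (nat_lit 0) (nat_lit 11807826517) (nat_lit 6) (nat_lit 5) (nat_lit 8) (nat_lit 4) (nat_lit 6) (nat_lit 4) (nat_lit 385) (nat_lit 251) (nat_lit 228)) (XT.lf (nat_lit 0) (nat_lit 3615478810)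 (nat_lit 84) (nat_lit 18360283164) (nat_lit 84) (nat_lit 10626015797) (nat_lit 5) (nat_lit 4) (nat_lit 6) (nat_lit 5) (nat_lit 6) (nat_lit 4) (nat_lit 386) (nat_lit 251) (nat_lit 227))))) (XT.nd (nat_lit 282) (nat_lit 84) (nat_lit 0) (XT.nd (nat_lit 94) (nat_lit 0) (nat_lit 0) (XT.lf (nat_lit 0) (nat_lit 7883579999) (nat_lit 84) (nat_lit 16798524892) (nat_lit 84) (nat_lit 8849068584) (nat_lit 5) (nat_lit 4) (nat_lit 6) (nat_lit 5) (nat_lit 6) (nat_lit 4) (nat_lit 387) (nat_lit 251) (nat_lit 226)) (XT.nd (nat_lit 94) (nat_lit 0) (nat_lit 0) (XT.lf (nat_lit 0) (nat_lit 12223219415) (nat_lit 84) (nat_lit 15212762122) (nat_lit 84) (nat_lit 7054587153) (nat_lit 5) (nat_lit 4) (nat_lit 6) (nat_lit 5) (nat_lit 6) (nat_lit 4) (nat_lit 388) (nat_lit 251) (nat_lit 225)) (XT.lf (nat_lit 0) (nat_lit 16638442057) (nat_lit 84) (nat_lit 13601516758) (nat_lit 84) (nat_lit 5240898858) (nat_lit 5) (nat_lit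 4) (nat_lit 6) (nat_lit 5) (nat_lit 6) (nat_lit 4) (nat_lit 389) (nat_lit 251) (nat_lit 224)))) (XT.nd (nat_lit 94) (nat_lit 84) (nat_lit 0) (XT.lf (nat_lit 0) (nat_lit 21133363375) (nat_lit 84) (nat_lit 11963286950) (nat_lit 84) (nat_lit 3406313152) (nat_lit 5) (nat_lit 4) (nat_lit 6) (nat_lit 5) (nat_lit 6) (nat_lit 4) (nat_lit 390) (nat_lit 251) (nat_lit 223)) (XT.nd (nat_lit 94) (nat_lit 84) (nat_lit 0) (XT.lf (nat_lit 0) (nat_lit 25712173107) (nat_lit 84) (nat_lit 10296545696) (nat_lit 84) (nat_lit 1549120008) (nat_lit 5) (nat_lit 4) (nat_lit 6) (nat_lit 5) (nat_lit 6) (nat_lit 4) (nat_lit 391) (nat_lit 251) (nat_lit 222)) (XT.lf (nat_lit 0) (nat_lit 325714315) (nat_lit 168) (nat_lit 8270625315) (nat_lit 84) (nat_lit 30050025079) (nat_lit 4) (nat_lit 5) (nat_lit 6) (nat_lit 5) (nat_lit 5) (nat_lit 4) (nat_lit 392) (nat_lit 251) (nat_lit 221))))))))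
noncomputable def xc16 : XT := (XT.nd (nat_lit 51512) (nat_lit 0) (nat_lit 252) (XT.nd (nat_lit 1034) (nat_lit 84) (nat_lit 0) (XT.nd (nat_lit 470) (nat_lit 0) (nat_lit 0) (XT.nd (nat_lit 188) (nat_lit 84) (nat_lit 0) (XT.nd (nat_lit 94) (nat_lit 0) (nat_lit 0) (XT.lf (nat_lit 0) (nat_lit 2194903941) (nat_lit 168) (nat_lit 4653472282) (nat_lit 84) (nat_lit 32920797468) (nat_lit 4) (nat_lit 5) (nat_lit 6) (nat_lit 5) (nat_lit 5) (nat_lit 4) (nat_lit 393) (nat_lit 251) (nat_lit 220)) (XT.lf (nat_lit 0) (nat_lit 4091402466) (nat_lit 168) (nat_lit 975467578) (nat_lit 84) (nat_lit 35860918681) (nat_lit 4) (nat_lit 5) (nat_lit 6) (nat_lit 5) (nat_lit 5) (nat_lit 4) (nat_lit 394) (nat_lit 251) (nat_lit 219))) (XT.nd (nat_lit 94) (nat_lit 0) (nat_lit 0) (XT.lf (nat_lit 0) (nat_lit 2823708516) (nat_lit 84) (nat_lit 3221280647) (nat_lit 168) (nat_lit 36077432242) (nat_lit 3) (nat_lit 5) (nat_lit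 4) (nat_lit 5) (nat_lit 5) (nat_lit 4) (nat_lit 395) (nat_lit 251) (nat_lit 218)) (XT.nd (nat_lit 94) (nat_lit 0) (nat_lit 0) (XT.lf (nat_lit 0) (nat_lit 6712103835) (nat_lit 84) (nat_lit 1327905322) (nat_lit 168) (nat_lit 35314717847) (nat_lit 3) (nat_lit 5) (nat_lit 4) (nat_lit 5) (nat_lit 5) (nat_lit 4) (nat_lit 396) (nat_lit 251) (nat_lit 217)) (XT.lf (nat_lit 0) (nat_lit 10074446358) (nat_lit 168) (nat_lit 33958875228) (nat_lit 0) (nat_lit 592652718) (nat_lit 3) (nat_lit 5) (nat_lit 5) (nat_lit 4) (nat_lit 3) (nat_lit 4) (nat_lit 397) (nat_lit 251) (nat_lit 216))))) (XT.nd (nat_lit 282) (nat_lit 0) (nat_lit 0) (XT.nd (nat_lit 94) (nat_lit 0) (nat_lit 0) (XT.lf (nat_lit 0) (nat_lit 12157772807) (nat_lit 168) (nat_lit 31252543263) (nat_lit 0) (nat_lit 2526797325) (nat_lit 3) (nat_lit 5) (nat_lit 5) (nat_lit 4) (nat_lit 3) (nat_lit 4) (nat_lit 398) (nat_lit 251) (nat_lit 215)) (XT.nd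 (nat_lit 94) (nat_lit 0) (nat_lit 0) (XT.lf (nat_lit 0) (nat_lit 14278757396) (nat_lit 168) (nat_lit 28507931704) (nat_lit 0) (nat_lit 4503085657) (nat_lit 3) (nat_lit 5) (nat_lit 5) (nat_lit 4) (nat_lit 3) (nat_lit 4) (nat_lit 399) (nat_lit 251) (nat_lit 214)) (XT.lf (nat_lit 0) (nat_lit 16439377106) (nat_lit 168) (nat_lit 25722482285) (nat_lit 0) (nat_lit 6523359821) (nat_lit 3) (nat_lit 5) (nat_lit 5) (nat_lit 4) (nat_lit 3) (nat_lit 4) (nat_lit 400) (nat_lit 251) (nat_lit 213)))) (XT.nd (nat_lit 94) (nat_lit 0) (nat_lit 0) (XT.lf (nat_lit 0) (nat_lit 18641645860) (nat_lit 168) (nat_lit 22893598676) (nat_lit 0) (nat_lit 8589502926) (nat_lit 3) (nat_lit 5) (nat_lit 5) (nat_lit 4) (nat_lit 3) (nat_lit 4) (nat_lit 401) (nat_lit 251) (nat_lit 212)) (XT.nd (nat_lit 94) (nat_lit 0) (nat_lit 0) (XT.lf (nat_lit 0) (nat_lit 20887616405) (nat_lit 168) (nat_lit 20018644061) (nat_lit 0) (nat_lit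 10703440831) (nat_lit 3) (nat_lit 5) (nat_lit 5) (nat_lit 4) (nat_lit 3) (nat_lit 4) (nat_lit 402) (nat_lit 251) (nat_lit 211)) (XT.lf (nat_lit 0) (nat_lit 23179382218) (nat_lit 168) (nat_lit 17094938681) (nat_lit 0) (nat_lit 12867143949) (nat_lit 3) (nat_lit 5) (nat_lit 5) (nat_lit 4) (nat_lit 3) (nat_lit 4) (nat_lit 403) (nat_lit 251) (nat_lit 210)))))) (XT.nd (nat_lit 564) (nat_lit 0) (nat_lit 0) (XT.nd (nat_lit 282) (nat_lit 84) (nat_lit 0) (XT.nd (nat_lit 94) (nat_lit 0) (nat_lit 0) (XT.lf (nat_lit 0) (nat_lit 25519079467) (nat_lit 168) (nat_lit 14119757337) (nat_lit 0) (nat_lit 15082629079) (nat_lit 3) (nat_lit 5) (nat_lit 5) (nat_lit 4) (nat_lit 3) (nat_lit 4) (nat_lit 404) (nat_lit 251) (nat_lit 209)) (XT.nd (nat_lit 94) (nat_lit 0) (nat_lit 0) (XT.lf (nat_lit 0) (nat_lit 27908888994) (nat_lit 168) (nat_lit 11090326847) (nat_lit 0) (nat_lit 17351961284) (nat_lit 3) (nat_lit 5)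 (nat_lit 5) (nat_lit 4) (nat_lit 3) (nat_lit 4) (nat_lit 405) (nat_lit 251) (nat_lit 208)) (XT.lf (nat_lit 0) (nat_lit 30351038352) (nat_lit 168) (nat_lit 8003823466) (nat_lit 0) (nat_lit 19677255819) (nat_lit 3) (nat_lit 5) (nat_lit 5) (nat_lit 4) (nat_lit 3) (nat_lit 4) (nat_lit 406) (nat_lit 251) (nat_lit 207)))) (XT.nd (nat_lit 94) (nat_lit 84) (nat_lit 0) (XT.lf (nat_lit 0) (nat_lit 32847803880) (nat_lit 168) (nat_lit 4857370248) (nat_lit 0) (nat_lit 22060680102) (nat_lit 3) (nat_lit 5) (nat_lit 5) (nat_lit 4) (nat_lit 3) (nat_lit 4) (nat_lit 407) (nat_lit 251) (nat_lit 206)) (XT.nd (nat_lit 94) (nat_lit 84) (nat_lit 0) (XT.lf (nat_lit 0) (nat_lit 35401512825) (nat_lit 168) (nat_lit 1648034370) (nat_lit 0) (nat_lit 24504455736) (nat_lit 3) (nat_lit 5) (nat_lit 5) (nat_lit 4) (nat_lit 3) (nat_lit 4) (nat_lit 408) (nat_lit 251) (nat_lit 205)) (XT.lf (nat_lit 0) (nat_lit 1660633672)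 (nat_lit 84) (nat_lit 36370385530) (nat_lit 84) (nat_lit 25366700593) (nat_lit 2) (nat_lit 4) (nat_lit 3) (nat_lit 5) (nat_lit 3) (nat_lit 4) (nat_lit 409) (nat_lit 251) (nat_lit 204))))) (XT.nd (nat_lit 49632) (nat_lit 0) (nat_lit 1008) (XT.nd (nat_lit 94) (nat_lit 0) (nat_lit 0) (XT.lf (nat_lit 0) (nat_lit 5073532898) (nat_lit 84) (nat_lit 35666134735) (nat_lit 84) (nat_lit 24559028025) (nat_lit 2) (nat_lit 4) (nat_lit 3) (nat_lit 5) (nat_lit 3) (nat_lit 4) (nat_lit 410) (nat_lit 251) (nat_lit 203)) (XT.nd (nat_lit 49444) (nat_lit 0) (nat_lit 1176) (XT.lf (nat_lit 0) (nat_lit 8559957518) (nat_lit 84) (nat_lit 34953340475) (nat_lit 84) (nat_lit 23745921666) (nat_lit 2) (nat_lit 4) (nat_lit 3) (nat_lit 5) (nat_lit 3) (nat_lit 4) (nat_lit 411) (nat_lit 251) (nat_lit 202)) (XT.lf (nat_lit 0) (nat_lit 4831395095) (nat_lit 168) (nat_lit 1705562274) (nat_lit 168) (nat_lit 1705562274) (nat_lit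 16) (nat_lit 4) (nat_lit 18) (nat_lit 5) (nat_lit 18) (nat_lit 4) (nat_lit 360) (nat_lit 252) (nat_lit 252)))) (XT.nd (nat_lit 94) (nat_lit 168) (nat_lit 0) (XT.lf (nat_lit 0) (nat_lit 15242235570) (nat_lit 168) (nat_lit 1074212011) (nat_lit 168) (nat_lit 568314462) (nat_lit 16) (nat_lit 4) (nat_lit 18) (nat_lit 5) (nat_lit 18) (nat_lit 4) (nat_lit 361) (nat_lit 252) (nat_lit 251)) (XT.nd (nat_lit 94) (nat_lit 0) (nat_lit 0) (XT.lf (nat_lit 0) (nat_lit 2296792373) (nat_lit 168) (nat_lit 13669887713) (nat_lit 0) (nat_lit 1330173728) (nat_lit 14) (nat_lit 5) (nat_lit 16) (nat_lit 4) (nat_lit 14) (nat_lit 4) (nat_lit 362) (nat_lit 252) (nat_lit 250)) (XT.lf (nat_lit 0) (nat_lit 5200009361) (nat_lit 168) (nat_lit 8751103144) (nat_lit 0) (nat_lit 3771768631) (nat_lit 14) (nat_lit 5) (nat_lit 16) (nat_lit 4) (nat_lit 14) (nat_lit 4) (nat_lit 363) (nat_lit 252) (nat_lit 249))))))) (XT.nd (nat_lit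 1128) (nat_lit 252) (nat_lit 0) (XT.nd (nat_lit 564) (nat_lit 168) (nat_lit 0) (XT.nd (nat_lit 282) (nat_lit 168) (nat_lit 0) (XT.nd (nat_lit 94) (nat_lit 168) (nat_lit 0) (XT.lf (nat_lit 0) (nat_lit 8128037376) (nat_lit 168) (nat_lit 3784175060) (nat_lit 0) (nat_lit 6252054564) (nat_lit 14) (nat_lit 5) (nat_lit 16) (nat_lit 4) (nat_lit 14) (nat_lit 4) (nat_lit 364) (nat_lit 252) (nat_lit 248)) (XT.nd (nat_lit 94) (nat_lit 0) (nat_lit 0) (XT.lf (nat_lit 0) (nat_lit 1260931189) (nat_lit 168) (nat_lit 9835183050) (nat_lit 168) (nat_lit 7524920819) (nat_lit 12) (nat_lit 4) (nat_lit 14) (nat_lit 5) (nat_lit 14) (nat_lit 4) (nat_lit 365) (nat_lit 252) (nat_lit 247)) (XT.lf (nat_lit 0) (nat_lit 6442481271) (nat_lit 168) (nat_lit 7690898010) (nat_lit 168) (nat_lit 4959414228) (nat_lit 12) (nat_lit 4) (nat_lit 14) (nat_lit 5) (nat_lit 14) (nat_lit 4) (nat_lit 366) (nat_lit 252) (nat_lit 246))))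 (XT.nd (nat_lit 94) (nat_lit 168) (nat_lit 0) (XT.lf (nat_lit 0) (nat_lit 11687494533) (nat_lit 168) (nat_lit 5516857645) (nat_lit 168) (nat_lit 2376817557) (nat_lit 12) (nat_lit 4) (nat_lit 14) (nat_lit 5) (nat_lit 14) (nat_lit 4) (nat_lit 367) (nat_lit 252) (nat_lit 245)) (XT.nd (nat_lit 94) (nat_lit 84) (nat_lit 0) (XT.lf (nat_lit 0) (nat_lit 220737625) (nat_lit 252) (nat_lit 3087993847) (nat_lit 84) (nat_lit 16777818202) (nat_lit 11) (nat_lit 5) (nat_lit 14) (nat_lit 5) (nat_lit 12) (nat_lit 4) (nat_lit 368) (nat_lit 252) (nat_lit 244)) (XT.lf (nat_lit 0) (nat_lit 1785628716) (nat_lit 84) (nat_lit 1023971233) (nat_lit 168) (nat_lit 17798586997) (nat_lit 10) (nat_lit 5) (nat_lit 11) (nat_lit 5) (nat_lit 12) (nat_lit 4) (nat_lit 369) (nat_lit 252) (nat_lit 243))))) (XT.nd (nat_lit 282) (nat_lit 168) (nat_lit 0) (XT.nd (nat_lit 94) (nat_lit 0) (nat_lit 0) (XT.lf (nat_lit 0) (nat_lit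 5467403060) (nat_lit 168) (nat_lit 14376018482) (nat_lit 0) (nat_lit 1303029832) (nat_lit 10) (nat_lit 5) (nat_lit 12) (nat_lit 4) (nat_lit 10) (nat_lit 4) (nat_lit 370) (nat_lit 252) (nat_lit 242)) (XT.nd (nat_lit 94) (nat_lit 0) (nat_lit 0) (XT.lf (nat_lit 0) (nat_lit 8162701602) (nat_lit 168) (nat_lit 9892584740) (nat_lit 0) (nat_lit 3647609941) (nat_lit 10) (nat_lit 5) (nat_lit 12) (nat_lit 4) (nat_lit 10) (nat_lit 4) (nat_lit 371) (nat_lit 252) (nat_lit 241)) (XT.lf (nat_lit 0) (nat_lit 10887849954) (nat_lit 168) (nat_lit 5357920052) (nat_lit 0) (nat_lit 6032585226) (nat_lit 10) (nat_lit 5) (nat_lit 12) (nat_lit 4) (nat_lit 10) (nat_lit 4) (nat_lit 372) (nat_lit 252) (nat_lit 240)))) (XT.nd (nat_lit 94) (nat_lit 168) (nat_lit 0) (XT.lf (nat_lit 0) (nat_lit 13645388240) (nat_lit 168) (nat_lit 767797636) (nat_lit 0) (nat_lit 8460178733) (nat_lit 10) (nat_lit 5) (nat_lit 12) (nat_lit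 4) (nat_lit 10) (nat_lit 4) (nat_lit 373) (nat_lit 252) (nat_lit 239)) (XT.nd (nat_lit 94) (nat_lit 0) (nat_lit 0) (XT.lf (nat_lit 0) (nat_lit 3961884117) (nat_lit 168) (nat_lit 12515305038) (nat_lit 168) (nat_lit 7010071497) (nat_lit 8) (nat_lit 4) (nat_lit 10) (nat_lit 5) (nat_lit 10) (nat_lit 4) (nat_lit 374) (nat_lit 252) (nat_lit 238)) (XT.lf (nat_lit 0) (nat_lit 8772741141) (nat_lit 168) (nat_lit 10582233996) (nat_lit 168) (nat_lit 4766598869) (nat_lit 8) (nat_lit 4) (nat_lit 10) (nat_lit 5) (nat_lit 10) (nat_lit 4) (nat_lit 375) (nat_lit 252) (nat_lit 237)))))) (XT.nd (nat_lit 564) (nat_lit 84) (nat_lit 0) (XT.nd (nat_lit 282) (nat_lit 84) (nat_lit 0) (XT.nd (nat_lit 94) (nat_lit 84) (nat_lit 0) (XT.lf (nat_lit 0) (nat_lit 13653470164) (nat_lit 168) (nat_lit 8620185157) (nat_lit 168) (nat_lit 2503481568) (nat_lit 8) (nat_lit 4) (nat_lit 10) (nat_lit 5) (nat_lit 10) (nat_lit 4)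 (nat_lit 376) (nat_lit 252) (nat_lit 236)) (XT.nd (nat_lit 94) (nat_lit 84) (nat_lit 0) (XT.lf (nat_lit 0) (nat_lit 18608620536) (nat_lit 168) (nat_lit 6627329687) (nat_lit 168) (nat_lit 218610130) (nat_lit 8) (nat_lit 4) (nat_lit 10) (nat_lit 5) (nat_lit 10) (nat_lit 4) (nat_lit 377) (nat_lit 252) (nat_lit 235)) (XT.lf (nat_lit 0) (nat_lit 2048033415) (nat_lit 252) (nat_lit 2532399352) (nat_lit 84) (nat_lit 21573400293) (nat_lit 7) (nat_lit 5) (nat_lit 10) (nat_lit 5) (nat_lit 8) (nat_lit 4) (nat_lit 378) (nat_lit 252) (nat_lit 234)))) (XT.nd (nat_lit 94) (nat_lit 0) (nat_lit 0) (XT.lf (nat_lit 0) (nat_lit 1877122076) (nat_lit 84) (nat_lit 2477282974) (nat_lit 168) (nat_lit 22521192629) (nat_lit 6) (nat_lit 5) (nat_lit 7) (nat_lit 5) (nat_lit 8) (nat_lit 4) (nat_lit 379) (nat_lit 252) (nat_lit 233)) (XT.nd (nat_lit 94) (nat_lit 0) (nat_lit 0) (XT.lf (nat_lit 0) (nat_lit 6404443781)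 (nat_lit 84) (nat_lit 310266948) (nat_lit 168) (nat_lit 20905646266) (nat_lit 6) (nat_lit 5) (nat_lit 7) (nat_lit 5) (nat_lit 8) (nat_lit 4) (nat_lit 380) (nat_lit 252) (nat_lit 232)) (XT.lf (nat_lit 0) (nat_lit 9124322795) (nat_lit 168) (nat_lit 17406696175) (nat_lit 0) (nat_lit 1857997893) (nat_lit 6) (nat_lit 5) (nat_lit 8) (nat_lit 4) (nat_lit 6) (nat_lit 4) (nat_lit 381) (nat_lit 252) (nat_lit 231))))) (XT.nd (nat_lit 282) (nat_lit 84) (nat_lit 0) (XT.nd (nat_lit 94) (nat_lit 0) (nat_lit 0) (XT.lf (nat_lit 0) (nat_lit 11570148834) (nat_lit 168) (nat_lit 13551935468) (nat_lit 0) (nat_lit 4060684942) (nat_lit 6) (nat_lit 5) (nat_lit 8) (nat_lit 4) (nat_lit 6) (nat_lit 4) (nat_lit 382) (nat_lit 252) (nat_lit 230)) (XT.nd (nat_lit 94) (nat_lit 0) (nat_lit 0) (XT.lf (nat_lit 0) (nat_lit 14051390725) (nat_lit 168) (nat_lit 9644960169) (nat_lit 0) (nat_lit 6306098521) (nat_lit 6) (nat_lit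 5) (nat_lit 8) (nat_lit 4) (nat_lit 6) (nat_lit 4) (nat_lit 383) (nat_lit 252) (nat_lit 229)) (XT.lf (nat_lit 0) (nat_lit 16570361245) (nat_lit 168) (nat_lit 5682128565) (nat_lit 0) (nat_lit 8596331590) (nat_lit 6) (nat_lit 5) (nat_lit 8) (nat_lit 4) (nat_lit 6) (nat_lit 4) (nat_lit 384) (nat_lit 252) (nat_lit 228)))) (XT.nd (nat_lit 94) (nat_lit 84) (nat_lit 0) (XT.lf (nat_lit 0) (nat_lit 19129408340) (nat_lit 168) (nat_lit 1659746883) (nat_lit 0) (nat_lit 10933518887) (nat_lit 6) (nat_lit 5) (nat_lit 8) (nat_lit 4) (nat_lit 6) (nat_lit 4) (nat_lit 385) (nat_lit 252) (nat_lit 227)) (XT.nd (nat_lit 94) (nat_lit 0) (nat_lit 0) (XT.lf (nat_lit 0) (nat_lit 2475816338) (nat_lit 84) (nat_lit 19279661374) (nat_lit 84) (nat_lit 10868582981) (nat_lit 5) (nat_lit 4) (nat_lit 6) (nat_lit 5) (nat_lit 6) (nat_lit 4) (nat_lit 386) (nat_lit 252) (nat_lit 226)) (XT.lf (nat_lit 0) (nat_lit 6713994873)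 (nat_lit 84) (nat_lit 17729921816) (nat_lit 84) (nat_lit 9110124761) (nat_lit 5) (nat_lit 4) (nat_lit 6) (nat_lit 5) (nat_lit 6) (nat_lit 4) (nat_lit 387) (nat_lit 252) (nat_lit 225))))))))
noncomputable def xc17 : XT := (XT.nd (nat_lit 51418) (nat_lit 0) (nat_lit 336) (XT.nd (nat_lit 1128) (nat_lit 84) (nat_lit 0) (XT.nd (nat_lit 564) (nat_lit 84) (nat_lit 0) (XT.nd (nat_lit 282) (nat_lit 84) (nat_lit 0) (XT.nd (nat_lit 94) (nat_lit 0) (nat_lit 0) (XT.lf (nat_lit 0) (nat_lit 11024611346) (nat_lit 84) (nat_lit 16155816384) (nat_lit 84) (nat_lit 7333576398) (nat_lit 5) (nat_lit 4) (nat_lit 6) (nat_lit 5) (nat_lit 6) (nat_lit 4) (nat_lit 388) (nat_lit 252) (nat_lit 224)) (XT.nd (nat_lit 94) (nat_lit 0) (nat_lit 0) (XT.lf (nat_lit 0) (nat_lit 15411683705) (nat_lit 84) (nat_lit 14555877845) (nat_lit 84) (nat_lit 5537281961) (nat_lit 5) (nat_lit 4) (nat_lit 6) (nat_lit 5) (nat_lit 6) (nat_lit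 4) (nat_lit 389) (nat_lit 252) (nat_lit 223)) (XT.lf (nat_lit 0) (nat_lit 19879301160) (nat_lit 84) (nat_lit 12928614890) (nat_lit 84) (nat_lit 3719567116) (nat_lit 5) (nat_lit 4) (nat_lit 6) (nat_lit 5) (nat_lit 6) (nat_lit 4) (nat_lit 390) (nat_lit 252) (nat_lit 222)))) (XT.nd (nat_lit 94) (nat_lit 84) (nat_lit 0) (XT.lf (nat_lit 0) (nat_lit 24431627998) (nat_lit 84) (nat_lit 11272510739) (nat_lit 84) (nat_lit 1878737563) (nat_lit 5) (nat_lit 4) (nat_lit 6) (nat_lit 5) (nat_lit 6) (nat_lit 4) (nat_lit 391) (nat_lit 252) (nat_lit 221)) (XT.nd (nat_lit 94) (nat_lit 84) (nat_lit 0) (XT.lf (nat_lit 0) (nat_lit 29072907465) (nat_lit 84) (nat_lit 9586021730) (nat_lit 84) (nat_lit 13077456) (nat_lit 5) (nat_lit 4) (nat_lit 6) (nat_lit 5) (nat_lit 6) (nat_lit 4) (nat_lit 392) (nat_lit 252) (nat_lit 220)) (XT.lf (nat_lit 0) (nat_lit 1841291466) (nat_lit 168) (nat_lit 6007065106) (nat_lit 84)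 (nat_lit 31946954947) (nat_lit 4) (nat_lit 5) (nat_lit 6) (nat_lit 5) (nat_lit 5) (nat_lit 4) (nat_lit 393) (nat_lit 252) (nat_lit 219))))) (XT.nd (nat_lit 282) (nat_lit 0) (nat_lit 0) (XT.nd (nat_lit 94) (nat_lit 84) (nat_lit 0) (XT.lf (nat_lit 0) (nat_lit 3723159355) (nat_lit 168) (nat_lit 2353549909) (nat_lit 84) (nat_lit 34877694363) (nat_lit 4) (nat_lit 5) (nat_lit 6) (nat_lit 5) (nat_lit 5) (nat_lit 4) (nat_lit 394) (nat_lit 252) (nat_lit 218)) (XT.nd (nat_lit 94) (nat_lit 0) (nat_lit 0) (XT.lf (nat_lit 0) (nat_lit 1393048412) (nat_lit 84) (nat_lit 4255314591) (nat_lit 168) (nat_lit 36501575995) (nat_lit 3) (nat_lit 5) (nat_lit 4) (nat_lit 5) (nat_lit 5) (nat_lit 4) (nat_lit 395) (nat_lit 252) (nat_lit 217)) (XT.lf (nat_lit 0) (nat_lit 5257931051) (nat_lit 84) (nat_lit 2371454660) (nat_lit 168) (nat_lit 35753314933) (nat_lit 3) (nat_lit 5) (nat_lit 4) (nat_lit 5) (nat_lit 5) (nat_lit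 4) (nat_lit 396) (nat_lit 252) (nat_lit 216)))) (XT.nd (nat_lit 94) (nat_lit 0) (nat_lit 0) (XT.lf (nat_lit 0) (nat_lit 9196306669) (nat_lit 84) (nat_lit 447939749) (nat_lit 168) (nat_lit 35010329863) (nat_lit 3) (nat_lit 5) (nat_lit 4) (nat_lit 5) (nat_lit 5) (nat_lit 4) (nat_lit 397) (nat_lit 252) (nat_lit 215)) (XT.nd (nat_lit 94) (nat_lit 0) (nat_lit 0) (XT.lf (nat_lit 0) (nat_lit 11709872243) (nat_lit 168) (nat_lit 32769954245) (nat_lit 0) (nat_lit 1486458423) (nat_lit 3) (nat_lit 5) (nat_lit 5) (nat_lit 4) (nat_lit 3) (nat_lit 4) (nat_lit 398) (nat_lit 252) (nat_lit 214)) (XT.lf (nat_lit 0) (nat_lit 13817998437) (nat_lit 168) (nat_lit 30047127569) (nat_lit 0) (nat_lit 3454239071) (nat_lit 3) (nat_lit 5) (nat_lit 5) (nat_lit 4) (nat_lit 3) (nat_lit 4) (nat_lit 399) (nat_lit 252) (nat_lit 213)))))) (XT.nd (nat_lit 564) (nat_lit 84) (nat_lit 0) (XT.nd (nat_lit 282) (nat_lit 0) (nat_lit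 0) (XT.nd (nat_lit 94) (nat_lit 0) (nat_lit 0) (XT.lf (nat_lit 0) (nat_lit 15966146376) (nat_lit 168) (nat_lit 27282808008) (nat_lit 0) (nat_lit 5466261360) (nat_lit 3) (nat_lit 5) (nat_lit 5) (nat_lit 4) (nat_lit 3) (nat_lit 4) (nat_lit 400) (nat_lit 252) (nat_lit 212)) (XT.nd (nat_lit 94) (nat_lit 0) (nat_lit 0) (XT.lf (nat_lit 0) (nat_lit 18156318359) (nat_lit 168) (nat_lit 24474418927) (nat_lit 0) (nat_lit 7524400705) (nat_lit 3) (nat_lit 5) (nat_lit 5) (nat_lit 4) (nat_lit 3) (nat_lit 4) (nat_lit 401) (nat_lit 252) (nat_lit 211)) (XT.lf (nat_lit 0) (nat_lit 20390555857) (nat_lit 168) (nat_lit 21619342613) (nat_lit 0) (nat_lit 9630575507) (nat_lit 3) (nat_lit 5) (nat_lit 5) (nat_lit 4) (nat_lit 3) (nat_lit 4) (nat_lit 402) (nat_lit 252) (nat_lit 210)))) (XT.nd (nat_lit 94) (nat_lit 0) (nat_lit 0) (XT.lf (nat_lit 0) (nat_lit 22670941412) (nat_lit 168) (nat_lit 18714917835) (nat_lit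 0) (nat_lit 11786748943) (nat_lit 3) (nat_lit 5) (nat_lit 5) (nat_lit 4) (nat_lit 3) (nat_lit 4) (nat_lit 403) (nat_lit 252) (nat_lit 209)) (XT.nd (nat_lit 94) (nat_lit 0) (nat_lit 0) (XT.lf (nat_lit 0) (nat_lit 24999600583) (nat_lit 168) (nat_lit 15758437365) (nat_lit 0) (nat_lit 13994930791) (nat_lit 3) (nat_lit 5) (nat_lit 5) (nat_lit 4) (nat_lit 3) (nat_lit 4) (nat_lit 404) (nat_lit 252) (nat_lit 208)) (XT.lf (nat_lit 0) (nat_lit 27378703924) (nat_lit 168) (nat_lit 12747145454) (nat_lit 0) (nat_lit 16257179309) (nat_lit 3) (nat_lit 5) (nat_lit 5) (nat_lit 4) (nat_lit 3) (nat_lit 4) (nat_lit 405) (nat_lit 252) (nat_lit 207))))) (XT.nd (nat_lit 282) (nat_lit 84) (nat_lit 0) (XT.nd (nat_lit 94) (nat_lit 0) (nat_lit 0) (XT.lf (nat_lit 0) (nat_lit 29810469008) (nat_lit 168) (nat_lit 9678235262) (nat_lit 0) (nat_lit 18575603149) (nat_lit 3) (nat_lit 5) (nat_lit 5) (nat_lit 4) (nat_lit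 3) (nat_lit 4) (nat_lit 406) (nat_lit 252) (nat_lit 206)) (XT.nd (nat_lit 94) (nat_lit 0) (nat_lit 0) (XT.lf (nat_lit 0) (nat_lit 32297162495) (nat_lit 168) (nat_lit 6548846244) (nat_lit 0) (nat_lit 20952363325) (nat_lit 3) (nat_lit 5) (nat_lit 5) (nat_lit 4) (nat_lit 3) (nat_lit 4) (nat_lit 407) (nat_lit 252) (nat_lit 205)) (XT.lf (nat_lit 0) (nat_lit 34841102245) (nat_lit 168) (nat_lit 3356061481) (nat_lit 0) (nat_lit 23389675226) (nat_lit 3) (nat_lit 5) (nat_lit 5) (nat_lit 4) (nat_lit 3) (nat_lit 4) (nat_lit 408) (nat_lit 252) (nat_lit 204)))) (XT.nd (nat_lit 94) (nat_lit 84) (nat_lit 0) (XT.lf (nat_lit 0) (nat_lit 37444659475) (nat_lit 168) (nat_lit 96904964) (nat_lit 0) (nat_lit 25889810683) (nat_lit 3) (nat_lit 5) (nat_lit 5) (nat_lit 4) (nat_lit 3) (nat_lit 4) (nat_lit 409) (nat_lit 252) (nat_lit 203)) (XT.nd (nat_lit 94) (nat_lit 0) (nat_lit 0) (XT.lf (nat_lit 0) (nat_lit 3298110765)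 (nat_lit 84) (nat_lit 36844867875) (nat_lit 84) (nat_lit 25189706985) (nat_lit 2) (nat_lit 4) (nat_lit 3) (nat_lit 5) (nat_lit 3) (nat_lit 4) (nat_lit 410) (nat_lit 252) (nat_lit 202)) (XT.lf (nat_lit 0) (nat_lit 6769122261) (nat_lit 84) (nat_lit 36138419630) (nat_lit 84) (nat_lit 24385962815) (nat_lit 2) (nat_lit 4) (nat_lit 3) (nat_lit 5) (nat_lit 3) (nat_lit 4) (nat_lit 411) (nat_lit 252) (nat_lit 201))))))) (XT.nd (nat_lit 1128) (nat_lit 336) (nat_lit 0) (XT.nd (nat_lit 564) (nat_lit 336) (nat_lit 0) (XT.nd (nat_lit 282) (nat_lit 168) (nat_lit 0) (XT.nd (nat_lit 94) (nat_lit 168) (nat_lit 0) (XT.lf (nat_lit 0) (nat_lit 3623253556) (nat_lit 252) (nat_lit 616693886) (nat_lit 0) (nat_lit 3623253556) (nat_lit 18) (nat_lit 5) (nat_lit 21) (nat_lit 4) (nat_lit 18) (nat_lit 4) (nat_lit 358) (nat_lit 253) (nat_lit 253)) (XT.nd (nat_lit 94) (nat_lit 0) (nat_lit 0) (XT.lf (nat_lit 0) (nat_lit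 4145805780) (nat_lit 168) (nat_lit 6237664982) (nat_lit 168) (nat_lit 5716084609) (nat_lit 16) (nat_lit 4) (nat_lit 18) (nat_lit 5) (nat_lit 18) (nat_lit 4) (nat_lit 359) (nat_lit 253) (nat_lit 252)) (XT.lf (nat_lit 0) (nat_lit 9609335957) (nat_lit 168) (nat_lit 3952154101) (nat_lit 168) (nat_lit 2924676180) (nat_lit 16) (nat_lit 4) (nat_lit 18) (nat_lit 5) (nat_lit 18) (nat_lit 4) (nat_lit 360) (nat_lit 253) (nat_lit 251)))) (XT.nd (nat_lit 94) (nat_lit 168) (nat_lit 0) (XT.lf (nat_lit 0) (nat_lit 15136934357) (nat_lit 168) (nat_lit 1634105947) (nat_lit 168) (nat_lit 115941752) (nat_lit 16) (nat_lit 4) (nat_lit 18) (nat_lit 5) (nat_lit 18) (nat_lit 4) (nat_lit 361) (nat_lit 253) (nat_lit 250)) (XT.nd (nat_lit 94) (nat_lit 0) (nat_lit 0) (XT.lf (nat_lit 0) (nat_lit 2700305024) (nat_lit 168) (nat_lit 13833761483) (nat_lit 0) (nat_lit 766166745) (nat_lit 14) (nat_lit 5) (nat_lit 16) (nat_lit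 4) (nat_lit 14) (nat_lit 4) (nat_lit 362) (nat_lit 253) (nat_lit 249)) (XT.lf (nat_lit 0) (nat_lit 5571425163) (nat_lit 168) (nat_lit 8966350034) (nat_lit 0) (nat_lit 3189544803) (nat_lit 14) (nat_lit 5) (nat_lit 16) (nat_lit 4) (nat_lit 14) (nat_lit 4) (nat_lit 363) (nat_lit 253) (nat_lit 248))))) (XT.nd (nat_lit 282) (nat_lit 168) (nat_lit 0) (XT.nd (nat_lit 94) (nat_lit 168) (nat_lit 0) (XT.lf (nat_lit 0) (nat_lit 8468321413) (nat_lit 168) (nat_lit 4049250388) (nat_lit 0) (nat_lit 5652161634) (nat_lit 14) (nat_lit 5) (nat_lit 16) (nat_lit 4) (nat_lit 14) (nat_lit 4) (nat_lit 364) (nat_lit 253) (nat_lit 247)) (XT.nd (nat_lit 94) (nat_lit 0) (nat_lit 0) (XT.lf (nat_lit 0) (nat_lit 941081398) (nat_lit 168) (nat_lit 10461948231) (nat_lit 168) (nat_lit 7224566900) (nat_lit 12) (nat_lit 4) (nat_lit 14) (nat_lit 5) (nat_lit 14) (nat_lit 4) (nat_lit 365) (nat_lit 253) (nat_lit 246)) (XT.lf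 (nat_lit 0) (nat_lit 6074790577) (nat_lit 168) (nat_lit 8335741730) (nat_lit 168) (nat_lit 4689804093) (nat_lit 12) (nat_lit 4) (nat_lit 14) (nat_lit 5) (nat_lit 14) (nat_lit 4) (nat_lit 366) (nat_lit 253) (nat_lit 245)))) (XT.nd (nat_lit 94) (nat_lit 168) (nat_lit 0) (XT.lf (nat_lit 0) (nat_lit 11273401412) (nat_lit 168) (nat_lit 6179236319) (nat_lit 168) (nat_lit 2137026805) (nat_lit 12) (nat_lit 4) (nat_lit 14) (nat_lit 5) (nat_lit 14) (nat_lit 4) (nat_lit 367) (nat_lit 253) (nat_lit 244)) (XT.nd (nat_lit 94) (nat_lit 84) (nat_lit 0) (XT.lf (nat_lit 0) (nat_lit 427357081) (nat_lit 252) (nat_lit 3558604098) (nat_lit 84) (nat_lit 16109941739) (nat_lit 11) (nat_lit 5) (nat_lit 14) (nat_lit 5) (nat_lit 12) (nat_lit 4) (nat_lit 368) (nat_lit 253) (nat_lit 243)) (XT.lf (nat_lit 0) (nat_lit 1260160279) (nat_lit 84) (nat_lit 1723358492) (nat_lit 168) (nat_lit 17635087166) (nat_lit 10) (nat_lit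 5) (nat_lit 11) (nat_lit 5) (nat_lit 12) (nat_lit 4) (nat_lit 369) (nat_lit 253) (nat_lit 242)))))) (XT.nd (nat_lit 564) (nat_lit 168) (nat_lit 0) (XT.nd (nat_lit 282) (nat_lit 168) (nat_lit 0) (XT.nd (nat_lit 94) (nat_lit 0) (nat_lit 0) (XT.lf (nat_lit 0) (nat_lit 5607121795) (nat_lit 168) (nat_lit 14949515377) (nat_lit 0) (nat_lit 601343861) (nat_lit 10) (nat_lit 5) (nat_lit 12) (nat_lit 4) (nat_lit 10) (nat_lit 4) (nat_lit 370) (nat_lit 253) (nat_lit 241)) (XT.nd (nat_lit 94) (nat_lit 0) (nat_lit 0) (XT.lf (nat_lit 0) (nat_lit 8275977971) (nat_lit 168) (nat_lit 10509289660) (nat_lit 0) (nat_lit 2930026969) (nat_lit 10) (nat_lit 5) (nat_lit 12) (nat_lit 4) (nat_lit 10) (nat_lit 4) (nat_lit 371) (nat_lit 253) (nat_lit 240)) (XT.lf (nat_lit 0) (nat_lit 10975479024) (nat_lit 168) (nat_lit 6016533824) (nat_lit 0) (nat_lit 5299583243) (nat_lit 10) (nat_lit 5) (nat_lit 12) (nat_lit 4) (nat_lit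 10) (nat_lit 4) (nat_lit 372) (nat_lit 253) (nat_lit 239)))) (XT.nd (nat_lit 94) (nat_lit 168) (nat_lit 0) (XT.lf (nat_lit 0) (nat_lit 13708141171) (nat_lit 168) (nat_lit 1467060149) (nat_lit 0) (nat_lit 7712221355) (nat_lit 10) (nat_lit 5) (nat_lit 12) (nat_lit 4) (nat_lit 10) (nat_lit 4) (nat_lit 373) (nat_lit 253) (nat_lit 238)) (XT.nd (nat_lit 94) (nat_lit 0) (nat_lit 0) (XT.lf (nat_lit 0) (nat_lit 3208006124) (nat_lit 168) (nat_lit 13300329233) (nat_lit 168) (nat_lit 6994007832) (nat_lit 8) (nat_lit 4) (nat_lit 10) (nat_lit 5) (nat_lit 10) (nat_lit 4) (nat_lit 374) (nat_lit 253) (nat_lit 237)) (XT.lf (nat_lit 0) (nat_lit 7979835788) (nat_lit 168) (nat_lit 11382495712) (nat_lit 168) (nat_lit 4775105848) (nat_lit 8) (nat_lit 4) (nat_lit 10) (nat_lit 5) (nat_lit 10) (nat_lit 4) (nat_lit 375) (nat_lit 253) (nat_lit 236))))) (XT.nd (nat_lit 282) (nat_lit 84) (nat_lit 0) (XT.nd (nat_lit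 94) (nat_lit 84) (nat_lit 0) (XT.lf (nat_lit 0) (nat_lit 12822710921) (nat_lit 168) (nat_lit 9435226234) (nat_lit 168) (nat_lit 2535820403) (nat_lit 8) (nat_lit 4) (nat_lit 10) (nat_lit 5) (nat_lit 10) (nat_lit 4) (nat_lit 376) (nat_lit 253) (nat_lit 235)) (XT.nd (nat_lit 94) (nat_lit 84) (nat_lit 0) (XT.lf (nat_lit 0) (nat_lit 17741145590) (nat_lit 168) (nat_lit 7456705741) (nat_lit 168) (nat_lit 274064248) (nat_lit 8) (nat_lit 4) (nat_lit 10) (nat_lit 5) (nat_lit 10) (nat_lit 4) (nat_lit 377) (nat_lit 253) (nat_lit 234)) (XT.lf (nat_lit 0) (nat_lit 1971728037) (nat_lit 252) (nat_lit 3452781210) (nat_lit 84) (nat_lit 20747415457) (nat_lit 7) (nat_lit 5) (nat_lit 10) (nat_lit 5) (nat_lit 8) (nat_lit 4) (nat_lit 378) (nat_lit 253) (nat_lit 233)))) (XT.nd (nat_lit 94) (nat_lit 0) (nat_lit 0) (XT.lf (nat_lit 0) (nat_lit 902078980) (nat_lit 84) (nat_lit 3345040155) (nat_lit 168) (nat_lit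 22647567772) (nat_lit 6) (nat_lit 5) (nat_lit 7) (nat_lit 5) (nat_lit 8) (nat_lit 4) (nat_lit 379) (nat_lit 253) (nat_lit 232)) (XT.nd (nat_lit 94) (nat_lit 0) (nat_lit 0) (XT.lf (nat_lit 0) (nat_lit 5394738901) (nat_lit 84) (nat_lit 1191674761) (nat_lit 168) (nat_lit 21053719976) (nat_lit 6) (nat_lit 5) (nat_lit 7) (nat_lit 5) (nat_lit 8) (nat_lit 4) (nat_lit 380) (nat_lit 253) (nat_lit 231)) (XT.lf (nat_lit 0) (nat_lit 8966771319) (nat_lit 168) (nat_lit 18461589002) (nat_lit 0) (nat_lit 981375057) (nat_lit 6) (nat_lit 5) (nat_lit 8) (nat_lit 4) (nat_lit 6) (nat_lit 4) (nat_lit 381) (nat_lit 253) (nat_lit 230))))))))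
noncomputable def xc18 : XT := (XT.nd (nat_lit 2256) (nat_lit 84) (nat_lit 0) (XT.nd (nat_lit 1128) (nat_lit 84) (nat_lit 0) (XT.nd (nat_lit 564) (nat_lit 84) (nat_lit 0) (XT.nd (nat_lit 282) (nat_lit 84) (nat_lit 0) (XT.nd (nat_lit 94) (nat_lit 0) (nat_lit 0) (XT.lf (nat_lit 0) (nat_lit 11392703338) (nat_lit 168) (nat_lit 14639956305) (nat_lit 0) (nat_lit 3171478763) (nat_lit 6) (nat_lit 5) (nat_lit 8) (nat_lit 4) (nat_lit 6) (nat_lit 4) (nat_lit 382) (nat_lit 253) (nat_lit 229)) (XT.nd (nat_lit 94) (nat_lit 0) (nat_lit 0) (XT.lf (nat_lit 0) (nat_lit 13854649380) (nat_lit 168) (nat_lit 10765112926) (nat_lit 0) (nat_lit 5404687354) (nat_lit 6) (nat_lit 5) (nat_lit 8) (nat_lit 4) (nat_lit 6) (nat_lit 4) (nat_lit 383) (nat_lit 253) (nat_lit 228)) (XT.lf (nat_lit 0) (nat_lit 16354904237) (nat_lit 168) (nat_lit 6833447104) (nat_lit 0) (nat_lit 7683082414) (nat_lit 6) (nat_lit 5) (nat_lit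 8) (nat_lit 4) (nat_lit 6) (nat_lit 4) (nat_lit 384) (nat_lit 253) (nat_lit 227)))) (XT.nd (nat_lit 94) (nat_lit 84) (nat_lit 0) (XT.lf (nat_lit 0) (nat_lit 18895798409) (nat_lit 168) (nat_lit 2841294114) (nat_lit 0) (nat_lit 10008787645) (nat_lit 6) (nat_lit 5) (nat_lit 8) (nat_lit 4) (nat_lit 6) (nat_lit 4) (nat_lit 385) (nat_lit 253) (nat_lit 226)) (XT.nd (nat_lit 94) (nat_lit 0) (nat_lit 0) (XT.lf (nat_lit 0) (nat_lit 1240051419) (nat_lit 84) (nat_lit 20251950318) (nat_lit 84) (nat_lit 11156220893) (nat_lit 5) (nat_lit 4) (nat_lit 6) (nat_lit 5) (nat_lit 6) (nat_lit 4) (nat_lit 386) (nat_lit 253) (nat_lit 225)) (XT.lf (nat_lit 0) (nat_lit 5449207012) (nat_lit 84) (nat_lit 18713868097) (nat_lit 84) (nat_lit 9415695741) (nat_lit 5) (nat_lit 4) (nat_lit 6) (nat_lit 5) (nat_lit 6) (nat_lit 4) (nat_lit 387) (nat_lit 253) (nat_lit 224))))) (XT.nd (nat_lit 282) (nat_lit 84) (nat_lit 0)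 (XT.nd (nat_lit 94) (nat_lit 0) (nat_lit 0) (XT.lf (nat_lit 0) (nat_lit 9731673202) (nat_lit 84) (nat_lit 17151069490) (nat_lit 84) (nat_lit 7656541235) (nat_lit 5) (nat_lit 4) (nat_lit 6) (nat_lit 5) (nat_lit 6) (nat_lit 4) (nat_lit 388) (nat_lit 253) (nat_lit 223)) (XT.nd (nat_lit 94) (nat_lit 0) (nat_lit 0) (XT.lf (nat_lit 0) (nat_lit 14091441697) (nat_lit 84) (nat_lit 15562097804) (nat_lit 84) (nat_lit 5877117660) (nat_lit 5) (nat_lit 4) (nat_lit 6) (nat_lit 5) (nat_lit 6) (nat_lit 4) (nat_lit 389) (nat_lit 253) (nat_lit 222)) (XT.lf (nat_lit 0) (nat_lit 18532576258) (nat_lit 84) (nat_lit 13945471952) (nat_lit 84) (nat_lit 4075766406) (nat_lit 5) (nat_lit 4) (nat_lit 6) (nat_lit 5) (nat_lit 6) (nat_lit 4) (nat_lit 390) (nat_lit 253) (nat_lit 221)))) (XT.nd (nat_lit 94) (nat_lit 84) (nat_lit 0) (XT.lf (nat_lit 0) (nat_lit 23059216487) (nat_lit 84) (nat_lit 12299685069) (nat_lit 84)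 (nat_lit 2250808425) (nat_lit 5) (nat_lit 4) (nat_lit 6) (nat_lit 5) (nat_lit 6) (nat_lit 4) (nat_lit 391) (nat_lit 253) (nat_lit 220)) (XT.nd (nat_lit 94) (nat_lit 84) (nat_lit 0) (XT.lf (nat_lit 0) (nat_lit 27675581688) (nat_lit 84) (nat_lit 10623203109) (nat_lit 84) (nat_lit 400542664) (nat_lit 5) (nat_lit 4) (nat_lit 6) (nat_lit 5) (nat_lit 6) (nat_lit 4) (nat_lit 392) (nat_lit 253) (nat_lit 219)) (XT.lf (nat_lit 0) (nat_lit 1447002183) (nat_lit 168) (nat_lit 7452357497) (nat_lit 84) (nat_lit 30923868877) (nat_lit 4) (nat_lit 5) (nat_lit 6) (nat_lit 5) (nat_lit 5) (nat_lit 4) (nat_lit 393) (nat_lit 253) (nat_lit 218)))))) (XT.nd (nat_lit 564) (nat_lit 0) (nat_lit 0) (XT.nd (nat_lit 282) (nat_lit 0) (nat_lit 0) (XT.nd (nat_lit 94) (nat_lit 84) (nat_lit 0) (XT.lf (nat_lit 0) (nat_lit 3314679350) (nat_lit 168) (nat_lit 3822595459) (nat_lit 84) (nat_lit 33845508585) (nat_lit 4) (nat_lit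 5) (nat_lit 6) (nat_lit 5) (nat_lit 5) (nat_lit 4) (nat_lit 394) (nat_lit 253) (nat_lit 217)) (XT.nd (nat_lit 94) (nat_lit 84) (nat_lit 0) (XT.lf (nat_lit 0) (nat_lit 5212299748) (nat_lit 168) (nat_lit 127102910) (nat_lit 84) (nat_lit 36839793319) (nat_lit 4) (nat_lit 5) (nat_lit 6) (nat_lit 5) (nat_lit 5) (nat_lit 4) (nat_lit 395) (nat_lit 253) (nat_lit 216)) (XT.lf (nat_lit 0) (nat_lit 3712360528) (nat_lit 84) (nat_lit 3466098706) (nat_lit 168) (nat_lit 36233980613) (nat_lit 3) (nat_lit 5) (nat_lit 4) (nat_lit 5) (nat_lit 5) (nat_lit 4) (nat_lit 396) (nat_lit 253) (nat_lit 215)))) (XT.nd (nat_lit 94) (nat_lit 0) (nat_lit 0) (XT.lf (nat_lit 0) (nat_lit 7628616162) (nat_lit 84) (nat_lit 1551535576) (nat_lit 168) (nat_lit 35504592781) (nat_lit 3) (nat_lit 5) (nat_lit 4) (nat_lit 5) (nat_lit 5) (nat_lit 4) (nat_lit 397) (nat_lit 253) (nat_lit 214)) (XT.nd (nat_lit 94) (nat_lit 0) (nat_lit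 0) (XT.lf (nat_lit 0) (nat_lit 11221971361) (nat_lit 168) (nat_lit 34378650066) (nat_lit 0) (nat_lit 396589909) (nat_lit 3) (nat_lit 5) (nat_lit 5) (nat_lit 4) (nat_lit 3) (nat_lit 4) (nat_lit 398) (nat_lit 253) (nat_lit 213)) (XT.lf (nat_lit 0) (nat_lit 13317625783) (nat_lit 168) (nat_lit 31676953248) (nat_lit 0) (nat_lit 2356118681) (nat_lit 3) (nat_lit 5) (nat_lit 5) (nat_lit 4) (nat_lit 3) (nat_lit 4) (nat_lit 399) (nat_lit 253) (nat_lit 212))))) (XT.nd (nat_lit 282) (nat_lit 0) (nat_lit 0) (XT.nd (nat_lit 94) (nat_lit 0) (nat_lit 0) (XT.lf (nat_lit 0) (nat_lit 15453676952) (nat_lit 168) (nat_lit 28933128215) (nat_lit 0) (nat_lit 4360137211) (nat_lit 3) (nat_lit 5) (nat_lit 5) (nat_lit 4) (nat_lit 3) (nat_lit 4) (nat_lit 400) (nat_lit 253) (nat_lit 211)) (XT.nd (nat_lit 94) (nat_lit 0) (nat_lit 0) (XT.lf (nat_lit 0) (nat_lit 17632115889) (nat_lit 168) (nat_lit 26144617434) (nat_lit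 0) (nat_lit 6410513453) (nat_lit 3) (nat_lit 5) (nat_lit 5) (nat_lit 4) (nat_lit 3) (nat_lit 4) (nat_lit 401) (nat_lit 253) (nat_lit 210)) (XT.lf (nat_lit 0) (nat_lit 19854973128) (nat_lit 168) (nat_lit 23308821722) (nat_lit 0) (nat_lit 8509158573) (nat_lit 3) (nat_lit 5) (nat_lit 5) (nat_lit 4) (nat_lit 3) (nat_lit 4) (nat_lit 402) (nat_lit 253) (nat_lit 209)))) (XT.nd (nat_lit 94) (nat_lit 0) (nat_lit 0) (XT.lf (nat_lit 0) (nat_lit 22124320605) (nat_lit 168) (nat_lit 20423097818) (nat_lit 0) (nat_lit 10658028727) (nat_lit 3) (nat_lit 5) (nat_lit 5) (nat_lit 4) (nat_lit 3) (nat_lit 4) (nat_lit 403) (nat_lit 253) (nat_lit 208)) (XT.nd (nat_lit 94) (nat_lit 0) (nat_lit 0) (XT.lf (nat_lit 0) (nat_lit 24442273589) (nat_lit 168) (nat_lit 17484755927) (nat_lit 0) (nat_lit 12859126889) (nat_lit 3) (nat_lit 5) (nat_lit 5) (nat_lit 4) (nat_lit 3) (nat_lit 4) (nat_lit 404) (nat_lit 253) (nat_lit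 207)) (XT.lf (nat_lit 0) (nat_lit 26810992656) (nat_lit 168) (nat_lit 14491057206) (nat_lit 0) (nat_lit 15114504711) (nat_lit 3) (nat_lit 5) (nat_lit 5) (nat_lit 4) (nat_lit 3) (nat_lit 4) (nat_lit 405) (nat_lit 253) (nat_lit 206))))))) (XT.nd (nat_lit 50102) (nat_lit 0) (nat_lit 672) (XT.nd (nat_lit 49538) (nat_lit 0) (nat_lit 1092) (XT.nd (nat_lit 282) (nat_lit 84) (nat_lit 0) (XT.nd (nat_lit 94) (nat_lit 0) (nat_lit 0) (XT.lf (nat_lit 0) (nat_lit 29232685700) (nat_lit 168) (nat_lit 11439211214) (nat_lit 0) (nat_lit 17426264444) (nat_lit 3) (nat_lit 5) (nat_lit 5) (nat_lit 4) (nat_lit 3) (nat_lit 4) (nat_lit 406) (nat_lit 253) (nat_lit 205)) (XT.nd (nat_lit 94) (nat_lit 0) (nat_lit 0) (XT.lf (nat_lit 0) (nat_lit 31709609992) (nat_lit 168) (nat_lit 8326373311) (nat_lit 0) (nat_lit 19796560887) (nat_lit 3) (nat_lit 5) (nat_lit 5) (nat_lit 4) (nat_lit 3) (nat_lit 4) (nat_lit 407) (nat_lit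 253) (nat_lit 204)) (XT.lf (nat_lit 0) (nat_lit 34244074285) (nat_lit 168) (nat_lit 5149642006) (nat_lit 0) (nat_lit 22227603407) (nat_lit 3) (nat_lit 5) (nat_lit 5) (nat_lit 4) (nat_lit 3) (nat_lit 4) (nat_lit 408) (nat_lit 253) (nat_lit 203)))) (XT.nd (nat_lit 94) (nat_lit 84) (nat_lit 0) (XT.lf (nat_lit 0) (nat_lit 36838440966) (nat_lit 168) (nat_lit 1906056253) (nat_lit 0) (nat_lit 24721657990) (nat_lit 3) (nat_lit 5) (nat_lit 5) (nat_lit 4) (nat_lit 3) (nat_lit 4) (nat_lit 409) (nat_lit 253) (nat_lit 202)) (XT.nd (nat_lit 94) (nat_lit 0) (nat_lit 0) (XT.lf (nat_lit 0) (nat_lit 1436346491) (nat_lit 84) (nat_lit 38073030499) (nat_lit 84) (nat_lit 25858951599) (nat_lit 2) (nat_lit 4) (nat_lit 3) (nat_lit 5) (nat_lit 3) (nat_lit 4) (nat_lit 410) (nat_lit 253) (nat_lit 201)) (XT.lf (nat_lit 0) (nat_lit 4892408303) (nat_lit 84) (nat_lit 37372737458) (nat_lit 84) (nat_lit 25064288116)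 (nat_lit 2) (nat_lit 4) (nat_lit 3) (nat_lit 5) (nat_lit 3) (nat_lit 4) (nat_lit 411) (nat_lit 253) (nat_lit 200))))) (XT.nd (nat_lit 282) (nat_lit 252) (nat_lit 0) (XT.nd (nat_lit 94) (nat_lit 0) (nat_lit 0) (XT.lf (nat_lit 0) (nat_lit 850298582) (nat_lit 252) (nat_lit 5807687683) (nat_lit 0) (nat_lit 850298582) (nat_lit 18) (nat_lit 5) (nat_lit 21) (nat_lit 4) (nat_lit 18) (nat_lit 4) (nat_lit 356) (nat_lit 254) (nat_lit 254)) (XT.nd (nat_lit 94) (nat_lit 0) (nat_lit 0) (XT.lf (nat_lit 0) (nat_lit 4713517745) (nat_lit 252) (nat_lit 6476201280) (nat_lit 0) (nat_lit 4175768381) (nat_lit 18) (nat_lit 5) (nat_lit 21) (nat_lit 4) (nat_lit 18) (nat_lit 4) (nat_lit 357) (nat_lit 254) (nat_lit 253)) (XT.lf (nat_lit 0) (nat_lit 7749743976) (nat_lit 252) (nat_lit 1287388718) (nat_lit 0) (nat_lit 6690414240) (nat_lit 18) (nat_lit 5) (nat_lit 21) (nat_lit 4) (nat_lit 18) (nat_lit 4) (nat_lit 358)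 (nat_lit 254) (nat_lit 252)))) (XT.nd (nat_lit 94) (nat_lit 84) (nat_lit 0) (XT.lf (nat_lit 0) (nat_lit 4037240231) (nat_lit 168) (nat_lit 6814915630) (nat_lit 168) (nat_lit 5249688345) (nat_lit 16) (nat_lit 4) (nat_lit 18) (nat_lit 5) (nat_lit 18) (nat_lit 4) (nat_lit 359) (nat_lit 254) (nat_lit 251)) (XT.nd (nat_lit 94) (nat_lit 84) (nat_lit 0) (XT.lf (nat_lit 0) (nat_lit 9448923429) (nat_lit 168) (nat_lit 4548269133) (nat_lit 168) (nat_lit 2492355574) (nat_lit 16) (nat_lit 4) (nat_lit 18) (nat_lit 5) (nat_lit 18) (nat_lit 4) (nat_lit 360) (nat_lit 254) (nat_lit 250)) (XT.lf (nat_lit 0) (nat_lit 277619356) (nat_lit 252) (nat_lit 1968001016) (nat_lit 84) (nat_lit 14645716648) (nat_lit 15) (nat_lit 5) (nat_lit 18) (nat_lit 5) (nat_lit 16) (nat_lit 4) (nat_lit 361) (nat_lit 254) (nat_lit 249)))))) (XT.nd (nat_lit 564) (nat_lit 168) (nat_lit 0) (XT.nd (nat_lit 282) (nat_lit 168) (nat_lit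 0) (XT.nd (nat_lit 94) (nat_lit 0) (nat_lit 0) (XT.lf (nat_lit 0) (nat_lit 3051137867) (nat_lit 168) (nat_lit 14107054146) (nat_lit 0) (nat_lit 147677134) (nat_lit 14) (nat_lit 5) (nat_lit 16) (nat_lit 4) (nat_lit 14) (nat_lit 4) (nat_lit 362) (nat_lit 254) (nat_lit 248)) (XT.nd (nat_lit 94) (nat_lit 0) (nat_lit 0) (XT.lf (nat_lit 0) (nat_lit 5891126242) (nat_lit 168) (nat_lit 9289471135) (nat_lit 0) (nat_lit 2553386090) (nat_lit 14) (nat_lit 5) (nat_lit 16) (nat_lit 4) (nat_lit 14) (nat_lit 4) (nat_lit 363) (nat_lit 254) (nat_lit 247)) (XT.lf (nat_lit 0) (nat_lit 8757826794) (nat_lit 168) (nat_lit 4420701692) (nat_lit 0) (nat_lit 4998865091) (nat_lit 14) (nat_lit 5) (nat_lit 16) (nat_lit 4) (nat_lit 14) (nat_lit 4) (nat_lit 364) (nat_lit 254) (nat_lit 246)))) (XT.nd (nat_lit 94) (nat_lit 0) (nat_lit 0) (XT.lf (nat_lit 0) (nat_lit 514151390) (nat_lit 168) (nat_lit 11144860644) (nat_lit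 168) (nat_lit 6977342635) (nat_lit 12) (nat_lit 4) (nat_lit 14) (nat_lit 5) (nat_lit 14) (nat_lit 4) (nat_lit 365) (nat_lit 254) (nat_lit 245)) (XT.nd (nat_lit 94) (nat_lit 0) (nat_lit 0) (XT.lf (nat_lit 0) (nat_lit 5601458143) (nat_lit 168) (nat_lit 9036189097) (nat_lit 168) (nat_lit 4472399210) (nat_lit 12) (nat_lit 4) (nat_lit 14) (nat_lit 5) (nat_lit 14) (nat_lit 4) (nat_lit 366) (nat_lit 254) (nat_lit 244)) (XT.lf (nat_lit 0) (nat_lit 10755061774) (nat_lit 168) (nat_lit 6896691402) (nat_lit 168) (nat_lit 1948544699) (nat_lit 12) (nat_lit 4) (nat_lit 14) (nat_lit 5) (nat_lit 14) (nat_lit 4) (nat_lit 367) (nat_lit 254) (nat_lit 243))))) (XT.nd (nat_lit 282) (nat_lit 0) (nat_lit 0) (XT.nd (nat_lit 94) (nat_lit 84) (nat_lit 0) (XT.lf (nat_lit 0) (nat_lit 584553771) (nat_lit 252) (nat_lit 4133718009) (nat_lit 84) (nat_lit 15389110668) (nat_lit 11) (nat_lit 5) (nat_lit 14) (nat_lit 5)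 (nat_lit 12) (nat_lit 4) (nat_lit 368) (nat_lit 254) (nat_lit 242)) (XT.nd (nat_lit 94) (nat_lit 0) (nat_lit 0) (XT.lf (nat_lit 0) (nat_lit 629397884) (nat_lit 84) (nat_lit 2478398918) (nat_lit 168) (nat_lit 17523359607) (nat_lit 10) (nat_lit 5) (nat_lit 11) (nat_lit 5) (nat_lit 12) (nat_lit 4) (nat_lit 369) (nat_lit 254) (nat_lit 241)) (XT.lf (nat_lit 0) (nat_lit 5541474759) (nat_lit 84) (nat_lit 157555577) (nat_lit 168) (nat_lit 15472553569) (nat_lit 10) (nat_lit 5) (nat_lit 11) (nat_lit 5) (nat_lit 12) (nat_lit 4) (nat_lit 370) (nat_lit 254) (nat_lit 240)))) (XT.nd (nat_lit 94) (nat_lit 0) (nat_lit 0) (XT.lf (nat_lit 0) (nat_lit 8340676243) (nat_lit 168) (nat_lit 11230229311) (nat_lit 0) (nat_lit 2158882913) (nat_lit 10) (nat_lit 5) (nat_lit 12) (nat_lit 4) (nat_lit 10) (nat_lit 4) (nat_lit 371) (nat_lit 254) (nat_lit 239)) (XT.nd (nat_lit 94) (nat_lit 0) (nat_lit 0) (XT.lf (nat_lit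 0) (nat_lit 11015301157) (nat_lit 168) (nat_lit 6778122215) (nat_lit 0) (nat_lit 4513483793) (nat_lit 10) (nat_lit 5) (nat_lit 12) (nat_lit 4) (nat_lit 10) (nat_lit 4) (nat_lit 372) (nat_lit 254) (nat_lit 238)) (XT.lf (nat_lit 0) (nat_lit 13723835138) (nat_lit 168) (nat_lit 2268075058) (nat_lit 0) (nat_lit 6911616189) (nat_lit 10) (nat_lit 5) (nat_lit 12) (nat_lit 4) (nat_lit 10) (nat_lit 4) (nat_lit 373) (nat_lit 254) (nat_lit 237))))))))
noncomputable def xc19 : XT := (XT.nd (nat_lit 2256) (nat_lit 84) (nat_lit 0) (XT.nd (nat_lit 1128) (nat_lit 252) (nat_lit 0) (XT.nd (nat_lit 564) (nat_lit 84) (nat_lit 0) (XT.nd (nat_lit 282) (nat_lit 84) (nat_lit 0) (XT.nd (nat_lit 94) (nat_lit 0) (nat_lit 0) (XT.lf (nat_lit 0) (nat_lit 2351493345) (nat_lit 168) (nat_lit 14140636584) (nat_lit 168) (nat_lit 7027349172) (nat_lit 8) (nat_lit 4) (nat_lit 10) (nat_lit 5) (nat_lit 10) (nat_lit 4) (nat_lit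 374) (nat_lit 254) (nat_lit 236)) (XT.nd (nat_lit 94) (nat_lit 0) (nat_lit 0) (XT.lf (nat_lit 0) (nat_lit 7085469119) (nat_lit 168) (nat_lit 12237582424) (nat_lit 168) (nat_lit 4832279044) (nat_lit 8) (nat_lit 4) (nat_lit 10) (nat_lit 5) (nat_lit 10) (nat_lit 4) (nat_lit 375) (nat_lit 254) (nat_lit 235)) (XT.lf (nat_lit 0) (nat_lit 11891628548) (nat_lit 168) (nat_lit 10304647923) (nat_lit 168) (nat_lit 2616108882) (nat_lit 8) (nat_lit 4) (nat_lit 10) (nat_lit 5) (nat_lit 10) (nat_lit 4) (nat_lit 376) (nat_lit 254) (nat_lit 234)))) (XT.nd (nat_lit 94) (nat_lit 84) (nat_lit 0) (XT.lf (nat_lit 0) (nat_lit 16774451478) (nat_lit 168) (nat_lit 8340031385) (nat_lit 168) (nat_lit 376772981) (nat_lit 8) (nat_lit 4) (nat_lit 10) (nat_lit 5) (nat_lit 10) (nat_lit 4) (nat_lit 377) (nat_lit 254) (nat_lit 233)) (XT.nd (nat_lit 94) (nat_lit 0) (nat_lit 0) (XT.lf (nat_lit 0) (nat_lit 1849780667) (nat_lit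 252) (nat_lit 4472812996) (nat_lit 84) (nat_lit 19869400626) (nat_lit 7) (nat_lit 5) (nat_lit 10) (nat_lit 5) (nat_lit 8) (nat_lit 4) (nat_lit 378) (nat_lit 254) (nat_lit 232)) (XT.lf (nat_lit 0) (nat_lit 4095555728) (nat_lit 252) (nat_lit 170091112) (nat_lit 84) (nat_lit 22650063819) (nat_lit 7) (nat_lit 5) (nat_lit 10) (nat_lit 5) (nat_lit 8) (nat_lit 4) (nat_lit 379) (nat_lit 254) (nat_lit 231))))) (XT.nd (nat_lit 282) (nat_lit 0) (nat_lit 0) (XT.nd (nat_lit 94) (nat_lit 0) (nat_lit 0) (XT.lf (nat_lit 0) (nat_lit 4285451809) (nat_lit 84) (nat_lit 2127297035) (nat_lit 168) (nat_lit 21249128674) (nat_lit 6) (nat_lit 5) (nat_lit 7) (nat_lit 5) (nat_lit 8) (nat_lit 4) (nat_lit 380) (nat_lit 254) (nat_lit 230)) (XT.nd (nat_lit 94) (nat_lit 0) (nat_lit 0) (XT.lf (nat_lit 0) (nat_lit 8763930993) (nat_lit 168) (nat_lit 19616466495) (nat_lit 0) (nat_lit 52020144) (nat_lit 6) (nat_lit 5) (nat_lit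 8) (nat_lit 4) (nat_lit 6) (nat_lit 4) (nat_lit 381) (nat_lit 254) (nat_lit 229)) (XT.lf (nat_lit 0) (nat_lit 11170567162) (nat_lit 168) (nat_lit 15826965719) (nat_lit 0) (nat_lit 2229918862) (nat_lit 6) (nat_lit 5) (nat_lit 8) (nat_lit 4) (nat_lit 6) (nat_lit 4) (nat_lit 382) (nat_lit 254) (nat_lit 228)))) (XT.nd (nat_lit 94) (nat_lit 0) (nat_lit 0) (XT.lf (nat_lit 0) (nat_lit 13613797541) (nat_lit 168) (nat_lit 11983288121) (nat_lit 0) (nat_lit 4451289444) (nat_lit 6) (nat_lit 5) (nat_lit 8) (nat_lit 4) (nat_lit 6) (nat_lit 4) (nat_lit 383) (nat_lit 254) (nat_lit 227)) (XT.nd (nat_lit 94) (nat_lit 0) (nat_lit 0) (XT.lf (nat_lit 0) (nat_lit 16095899476) (nat_lit 168) (nat_lit 8081850990) (nat_lit 0) (nat_lit 6718202438) (nat_lit 6) (nat_lit 5) (nat_lit 8) (nat_lit 4) (nat_lit 6) (nat_lit 4) (nat_lit 384) (nat_lit 254) (nat_lit 226)) (XT.lf (nat_lit 0) (nat_lit 18619186545) (nat_lit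 168) (nat_lit 4119017779) (nat_lit 0) (nat_lit 9032770845) (nat_lit 6) (nat_lit 5) (nat_lit 8) (nat_lit 4) (nat_lit 6) (nat_lit 4) (nat_lit 385) (nat_lit 254) (nat_lit 225)))))) (XT.nd (nat_lit 564) (nat_lit 168) (nat_lit 0) (XT.nd (nat_lit 282) (nat_lit 0) (nat_lit 0) (XT.nd (nat_lit 94) (nat_lit 84) (nat_lit 0) (XT.lf (nat_lit 0) (nat_lit 21186010716) (nat_lit 168) (nat_lit 91094712) (nat_lit 0) (nat_lit 11397152086) (nat_lit 6) (nat_lit 5) (nat_lit 8) (nat_lit 4) (nat_lit 6) (nat_lit 4) (nat_lit 386) (nat_lit 254) (nat_lit 224)) (XT.nd (nat_lit 94) (nat_lit 0) (nat_lit 0) (XT.lf (nat_lit 0) (nat_lit 4088037502) (nat_lit 84) (nat_lit 19751280875) (nat_lit 84) (nat_lit 9766066347) (nat_lit 5) (nat_lit 4) (nat_lit 6) (nat_lit 5) (nat_lit 6) (nat_lit 4) (nat_lit 387) (nat_lit 254) (nat_lit 223)) (XT.lf (nat_lit 0) (nat_lit 8343199829) (nat_lit 84) (nat_lit 18199449121) (nat_lit 84) (nat_lit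 8023782703) (nat_lit 5) (nat_lit 4) (nat_lit 6) (nat_lit 5) (nat_lit 6) (nat_lit 4) (nat_lit 388) (nat_lit 254) (nat_lit 222)))) (XT.nd (nat_lit 94) (nat_lit 0) (nat_lit 0) (XT.lf (nat_lit 0) (nat_lit 12676485430) (nat_lit 84) (nat_lit 16621114538) (nat_lit 84) (nat_lit 6260722718) (nat_lit 5) (nat_lit 4) (nat_lit 6) (nat_lit 5) (nat_lit 6) (nat_lit 4) (nat_lit 389) (nat_lit 254) (nat_lit 221)) (XT.nd (nat_lit 94) (nat_lit 0) (nat_lit 0) (XT.lf (nat_lit 0) (nat_lit 17091933382) (nat_lit 84) (nat_lit 15014805954) (nat_lit 84) (nat_lit 4475243035) (nat_lit 5) (nat_lit 4) (nat_lit 6) (nat_lit 5) (nat_lit 6) (nat_lit 4) (nat_lit 390) (nat_lit 254) (nat_lit 220)) (XT.lf (nat_lit 0) (nat_lit 21593659344) (nat_lit 84) (nat_lit 13379026120) (nat_lit 84) (nat_lit 2665679401) (nat_lit 5) (nat_lit 4) (nat_lit 6) (nat_lit 5) (nat_lit 6) (nat_lit 4) (nat_lit 391) (nat_lit 254) (nat_lit 219))))) (XT.nd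 (nat_lit 282) (nat_lit 84) (nat_lit 0) (XT.nd (nat_lit 94) (nat_lit 84) (nat_lit 0) (XT.lf (nat_lit 0) (nat_lit 26185859397) (nat_lit 84) (nat_lit 11712250318) (nat_lit 84) (nat_lit 830345112) (nat_lit 5) (nat_lit 4) (nat_lit 6) (nat_lit 5) (nat_lit 6) (nat_lit 4) (nat_lit 392) (nat_lit 254) (nat_lit 218)) (XT.nd (nat_lit 94) (nat_lit 0) (nat_lit 0) (XT.lf (nat_lit 0) (nat_lit 1011668574) (nat_lit 168) (nat_lit 8990696619) (nat_lit 84) (nat_lit 29850585633) (nat_lit 4) (nat_lit 5) (nat_lit 6) (nat_lit 5) (nat_lit 5) (nat_lit 4) (nat_lit 393) (nat_lit 254) (nat_lit 217)) (XT.lf (nat_lit 0) (nat_lit 2865581703) (nat_lit 168) (nat_lit 5383973533) (nat_lit 84) (nat_lit 32763399243) (nat_lit 4) (nat_lit 5) (nat_lit 6) (nat_lit 5) (nat_lit 5) (nat_lit 4) (nat_lit 394) (nat_lit 254) (nat_lit 216)))) (XT.nd (nat_lit 94) (nat_lit 84) (nat_lit 0) (XT.lf (nat_lit 0) (nat_lit 4749851919) (nat_lit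 168) (nat_lit 1710827203) (nat_lit 84) (nat_lit 35749123261) (nat_lit 4) (nat_lit 5) (nat_lit 6) (nat_lit 5) (nat_lit 5) (nat_lit 4) (nat_lit 395) (nat_lit 254) (nat_lit 215)) (XT.nd (nat_lit 94) (nat_lit 0) (nat_lit 0) (XT.lf (nat_lit 0) (nat_lit 2073951632) (nat_lit 84) (nat_lit 4612857784) (nat_lit 168) (nat_lit 36757162919) (nat_lit 3) (nat_lit 5) (nat_lit 4) (nat_lit 5) (nat_lit 5) (nat_lit 4) (nat_lit 396) (nat_lit 254) (nat_lit 214)) (XT.lf (nat_lit 0) (nat_lit 5968752384) (nat_lit 84) (nat_lit 2706977273) (nat_lit 168) (nat_lit 36040963483) (nat_lit 3) (nat_lit 5) (nat_lit 4) (nat_lit 5) (nat_lit 5) (nat_lit 4) (nat_lit 397) (nat_lit 254) (nat_lit 213))))))) (XT.nd (nat_lit 1128) (nat_lit 84) (nat_lit 0) (XT.nd (nat_lit 564) (nat_lit 0) (nat_lit 0) (XT.nd (nat_lit 282) (nat_lit 0) (nat_lit 0) (XT.nd (nat_lit 94) (nat_lit 0) (nat_lit 0) (XT.lf (nat_lit 0) (nat_lit 9942027298)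 (nat_lit 84) (nat_lit 759118637) (nat_lit 168) (nat_lit 35328542113) (nat_lit 3) (nat_lit 5) (nat_lit 4) (nat_lit 5) (nat_lit 5) (nat_lit 4) (nat_lit 398) (nat_lit 254) (nat_lit 212)) (XT.nd (nat_lit 94) (nat_lit 0) (nat_lit 0) (XT.lf (nat_lit 0) (nat_lit 12777173036) (nat_lit 168) (nat_lit 33398927909) (nat_lit 0) (nat_lit 1207700925) (nat_lit 3) (nat_lit 5) (nat_lit 5) (nat_lit 4) (nat_lit 3) (nat_lit 4) (nat_lit 399) (nat_lit 254) (nat_lit 211)) (XT.lf (nat_lit 0) (nat_lit 14901491158) (nat_lit 168) (nat_lit 30674981177) (nat_lit 0) (nat_lit 3203956351) (nat_lit 3) (nat_lit 5) (nat_lit 5) (nat_lit 4) (nat_lit 3) (nat_lit 4) (nat_lit 400) (nat_lit 254) (nat_lit 210)))) (XT.nd (nat_lit 94) (nat_lit 0) (nat_lit 0) (XT.lf (nat_lit 0) (nat_lit 17068549836) (nat_lit 168) (nat_lit 27905750998) (nat_lit 0) (nat_lit 5246802910) (nat_lit 3) (nat_lit 5) (nat_lit 5) (nat_lit 4) (nat_lit 3) (nat_lit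 4) (nat_lit 401) (nat_lit 254) (nat_lit 209)) (XT.nd (nat_lit 94) (nat_lit 0) (nat_lit 0) (XT.lf (nat_lit 0) (nat_lit 19280368997) (nat_lit 168) (nat_lit 25088656159) (nat_lit 0) (nat_lit 7338144749) (nat_lit 3) (nat_lit 5) (nat_lit 5) (nat_lit 4) (nat_lit 3) (nat_lit 4) (nat_lit 402) (nat_lit 254) (nat_lit 208)) (XT.lf (nat_lit 0) (nat_lit 21539010288) (nat_lit 168) (nat_lit 22221070835) (nat_lit 0) (nat_lit 9479931217) (nat_lit 3) (nat_lit 5) (nat_lit 5) (nat_lit 4) (nat_lit 3) (nat_lit 4) (nat_lit 403) (nat_lit 254) (nat_lit 207))))) (XT.nd (nat_lit 282) (nat_lit 0) (nat_lit 0) (XT.nd (nat_lit 94) (nat_lit 0) (nat_lit 0) (XT.lf (nat_lit 0) (nat_lit 23846578999) (nat_lit 168) (nat_lit 19300322134) (nat_lit 0) (nat_lit 11674158683) (nat_lit 3) (nat_lit 5) (nat_lit 5) (nat_lit 4) (nat_lit 3) (nat_lit 4) (nat_lit 404) (nat_lit 254) (nat_lit 206)) (XT.nd (nat_lit 94) (nat_lit 0) (nat_lit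 0) (XT.lf (nat_lit 0) (nat_lit 26205226025) (nat_lit 168) (nat_lit 16323687612) (nat_lit 0) (nat_lit 13922872398) (nat_lit 3) (nat_lit 5) (nat_lit 5) (nat_lit 4) (nat_lit 3) (nat_lit 4) (nat_lit 405) (nat_lit 254) (nat_lit 205)) (XT.lf (nat_lit 0) (nat_lit 28617149873) (nat_lit 168) (nat_lit 13288392735) (nat_lit 0) (nat_lit 16228168398) (nat_lit 3) (nat_lit 5) (nat_lit 5) (nat_lit 4) (nat_lit 3) (nat_lit 4) (nat_lit 406) (nat_lit 254) (nat_lit 204)))) (XT.nd (nat_lit 94) (nat_lit 0) (nat_lit 0) (XT.lf (nat_lit 0) (nat_lit 31084598709) (nat_lit 168) (nat_lit 10191608290) (nat_lit 0) (nat_lit 18592195460) (nat_lit 3) (nat_lit 5) (nat_lit 5) (nat_lit 4) (nat_lit 3) (nat_lit 4) (nat_lit 407) (nat_lit 254) (nat_lit 203)) (XT.nd (nat_lit 94) (nat_lit 0) (nat_lit 0) (XT.lf (nat_lit 0) (nat_lit 33609872453) (nat_lit 168) (nat_lit 7030447749) (nat_lit 0) (nat_lit 21017157106) (nat_lit 3) (nat_lit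 5) (nat_lit 5) (nat_lit 4) (nat_lit 3) (nat_lit 4) (nat_lit 408) (nat_lit 254) (nat_lit 202)) (XT.lf (nat_lit 0) (nat_lit 36195324925) (nat_lit 168) (nat_lit 3801964580) (nat_lit 0) (nat_lit 23505313653) (nat_lit 3) (nat_lit 5) (nat_lit 5) (nat_lit 4) (nat_lit 3) (nat_lit 4) (nat_lit 409) (nat_lit 254) (nat_lit 201)))))) (XT.nd (nat_lit 49350) (nat_lit 0) (nat_lit 1008) (XT.nd (nat_lit 49068) (nat_lit 0) (nat_lit 1344) (XT.nd (nat_lit 94) (nat_lit 84) (nat_lit 0) (XT.lf (nat_lit 0) (nat_lit 38843366037) (nat_lit 168) (nat_lit 503149498) (nat_lit 0) (nat_lit 26058984325) (nat_lit 3) (nat_lit 5) (nat_lit 5) (nat_lit 4) (nat_lit 3) (nat_lit 4) (nat_lit 410) (nat_lit 254) (nat_lit 200)) (XT.nd (nat_lit 48880) (nat_lit 0) (nat_lit 1596) (XT.lf (nat_lit 0) (nat_lit 2928066349) (nat_lit 84) (nat_lit 38657444473) (nat_lit 84) (nat_lit 25781529840) (nat_lit 2) (nat_lit 4) (nat_lit 3) (nat_lit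 5) (nat_lit 3) (nat_lit 4) (nat_lit 411) (nat_lit 254) (nat_lit 199)) (XT.lf (nat_lit 0) (nat_lit 3537328652) (nat_lit 168) (nat_lit 1819112922) (nat_lit 168) (nat_lit 1819112922) (nat_lit 21) (nat_lit 4) (nat_lit 23) (nat_lit 5) (nat_lit 23) (nat_lit 4) (nat_lit 354) (nat_lit 255) (nat_lit 255)))) (XT.nd (nat_lit 94) (nat_lit 252) (nat_lit 0) (XT.lf (nat_lit 0) (nat_lit 12670525485) (nat_lit 168) (nat_lit 1290147548) (nat_lit 168) (nat_lit 718540947) (nat_lit 21) (nat_lit 4) (nat_lit 23) (nat_lit 5) (nat_lit 23) (nat_lit 4) (nat_lit 355) (nat_lit 255) (nat_lit 254)) (XT.nd (nat_lit 94) (nat_lit 0) (nat_lit 0) (XT.lf (nat_lit 0) (nat_lit 2219434371) (nat_lit 252) (nat_lit 11671050341) (nat_lit 0) (nat_lit 1127265412) (nat_lit 18) (nat_lit 5) (nat_lit 21) (nat_lit 4) (nat_lit 18) (nat_lit 4) (nat_lit 356) (nat_lit 255) (nat_lit 253)) (XT.lf (nat_lit 0) (nat_lit 5197842451) (nat_lit 252)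 (nat_lit 6585877200) (nat_lit 0) (nat_lit 3584093120) (nat_lit 18) (nat_lit 5) (nat_lit 21) (nat_lit 4) (nat_lit 18) (nat_lit 4) (nat_lit 357) (nat_lit 255) (nat_lit 252))))) (XT.nd (nat_lit 282) (nat_lit 168) (nat_lit 0) (XT.nd (nat_lit 94) (nat_lit 168) (nat_lit 0) (XT.lf (nat_lit 0) (nat_lit 8200593900) (nat_lit 252) (nat_lit 1449441888) (nat_lit 0) (nat_lit 6080947021) (nat_lit 18) (nat_lit 5) (nat_lit 21) (nat_lit 4) (nat_lit 18) (nat_lit 4) (nat_lit 358) (nat_lit 255) (nat_lit 251)) (XT.nd (nat_lit 94) (nat_lit 0) (nat_lit 0) (XT.lf (nat_lit 0) (nat_lit 3820007936) (nat_lit 168) (nat_lit 7448374611) (nat_lit 168) (nat_lit 4838041457) (nat_lit 16) (nat_lit 4) (nat_lit 18) (nat_lit 5) (nat_lit 18) (nat_lit 4) (nat_lit 359) (nat_lit 255) (nat_lit 250)) (XT.lf (nat_lit 0) (nat_lit 9181403087) (nat_lit 168) (nat_lit 5200025285) (nat_lit 168) (nat_lit 2113759761) (nat_lit 16) (nat_lit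 4) (nat_lit 18) (nat_lit 5) (nat_lit 18) (nat_lit 4) (nat_lit 360) (nat_lit 255) (nat_lit 249)))) (XT.nd (nat_lit 94) (nat_lit 84) (nat_lit 0) (XT.lf (nat_lit 0) (nat_lit 617175891) (nat_lit 252) (nat_lit 2294403374) (nat_lit 84) (nat_lit 13986319504) (nat_lit 15) (nat_lit 5) (nat_lit 18) (nat_lit 5) (nat_lit 16) (nat_lit 4) (nat_lit 361) (nat_lit 255) (nat_lit 248)) (XT.nd (nat_lit 94) (nat_lit 0) (nat_lit 0) (XT.lf (nat_lit 0) (nat_lit 2818257292) (nat_lit 84) (nat_lit 536684599) (nat_lit 168) (nat_lit 13958659819) (nat_lit 14) (nat_lit 5) (nat_lit 15) (nat_lit 5) (nat_lit 16) (nat_lit 4) (nat_lit 362) (nat_lit 255) (nat_lit 247)) (XT.lf (nat_lit 0) (nat_lit 6159410592) (nat_lit 168) (nat_lit 9720767632) (nat_lit 0) (nat_lit 1862699524) (nat_lit 14) (nat_lit 5) (nat_lit 16) (nat_lit 4) (nat_lit 14) (nat_lit 4) (nat_lit 363) (nat_lit 255) (nat_lit 246))))))))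
noncomputable def xc20 : XT := (XT.nd (nat_lit 2256) (nat_lit 252) (nat_lit 0) (XT.nd (nat_lit 1128) (nat_lit 252) (nat_lit 0) (XT.nd (nat_lit 564) (nat_lit 252) (nat_lit 0) (XT.nd (nat_lit 282) (nat_lit 84) (nat_lit 0) (XT.nd (nat_lit 94) (nat_lit 168) (nat_lit 0) (XT.lf (nat_lit 0) (nat_lit 8996823368) (nat_lit 168) (nat_lit 4898875204) (nat_lit 0) (nat_lit 4291555995) (nat_lit 14) (nat_lit 5) (nat_lit 16) (nat_lit 4) (nat_lit 14) (nat_lit 4) (nat_lit 364) (nat_lit 255) (nat_lit 245)) (XT.nd (nat_lit 94) (nat_lit 168) (nat_lit 0) (XT.lf (nat_lit 0) (nat_lit 11864501009) (nat_lit 168) (nat_lit 19848647) (nat_lit 0) (nat_lit 6762961758) (nat_lit 14) (nat_lit 5) (nat_lit 16) (nat_lit 4) (nat_lit 14) (nat_lit 4) (nat_lit 365) (nat_lit 255) (nat_lit 244)) (XT.lf (nat_lit 0) (nat_lit 5022042772) (nat_lit 168) (nat_lit 9792893003) (nat_lit 168) (nat_lit 4306996936) (nat_lit 12) (nat_lit 4)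 (nat_lit 14) (nat_lit 5) (nat_lit 14) (nat_lit 4) (nat_lit 366) (nat_lit 255) (nat_lit 243)))) (XT.nd (nat_lit 94) (nat_lit 84) (nat_lit 0) (XT.lf (nat_lit 0) (nat_lit 10131992471) (nat_lit 168) (nat_lit 7669891637) (nat_lit 168) (nat_lit 1811195554) (nat_lit 12) (nat_lit 4) (nat_lit 14) (nat_lit 5) (nat_lit 14) (nat_lit 4) (nat_lit 367) (nat_lit 255) (nat_lit 242)) (XT.nd (nat_lit 94) (nat_lit 0) (nat_lit 0) (XT.lf (nat_lit 0) (nat_lit 692474219) (nat_lit 252) (nat_lit 4813871647) (nat_lit 84) (nat_lit 14614653099) (nat_lit 11) (nat_lit 5) (nat_lit 14) (nat_lit 5) (nat_lit 12) (nat_lit 4) (nat_lit 368) (nat_lit 255) (nat_lit 241)) (XT.lf (nat_lit 0) (nat_lit 3183613781) (nat_lit 252) (nat_lit 105085629) (nat_lit 84) (nat_lit 17357117671) (nat_lit 11) (nat_lit 5) (nat_lit 14) (nat_lit 5) (nat_lit 12) (nat_lit 4) (nat_lit 369) (nat_lit 255) (nat_lit 240))))) (XT.nd (nat_lit 282) (nat_lit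 168) (nat_lit 0) (XT.nd (nat_lit 94) (nat_lit 0) (nat_lit 0) (XT.lf (nat_lit 0) (nat_lit 4763603216) (nat_lit 84) (nat_lit 984689005) (nat_lit 168) (nat_lit 15438823038) (nat_lit 10) (nat_lit 5) (nat_lit 11) (nat_lit 5) (nat_lit 12) (nat_lit 4) (nat_lit 370) (nat_lit 255) (nat_lit 239)) (XT.nd (nat_lit 94) (nat_lit 0) (nat_lit 0) (XT.lf (nat_lit 0) (nat_lit 8356856723) (nat_lit 168) (nat_lit 12056075682) (nat_lit 0) (nat_lit 1333458986) (nat_lit 10) (nat_lit 5) (nat_lit 12) (nat_lit 4) (nat_lit 10) (nat_lit 4) (nat_lit 371) (nat_lit 255) (nat_lit 238)) (XT.lf (nat_lit 0) (nat_lit 11007353471) (nat_lit 168) (nat_lit 7643395105) (nat_lit 0) (nat_lit 3673554149) (nat_lit 10) (nat_lit 5) (nat_lit 12) (nat_lit 4) (nat_lit 10) (nat_lit 4) (nat_lit 372) (nat_lit 255) (nat_lit 237)))) (XT.nd (nat_lit 94) (nat_lit 168) (nat_lit 0) (XT.lf (nat_lit 0) (nat_lit 13692484769) (nat_lit 168) (nat_lit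 3171588995) (nat_lit 0) (nat_lit 6057616985) (nat_lit 10) (nat_lit 5) (nat_lit 12) (nat_lit 4) (nat_lit 10) (nat_lit 4) (nat_lit 373) (nat_lit 255) (nat_lit 236)) (XT.nd (nat_lit 94) (nat_lit 0) (nat_lit 0) (XT.lf (nat_lit 0) (nat_lit 1391547419) (nat_lit 168) (nat_lit 15037010345) (nat_lit 168) (nat_lit 7110126593) (nat_lit 8) (nat_lit 4) (nat_lit 10) (nat_lit 5) (nat_lit 10) (nat_lit 4) (nat_lit 374) (nat_lit 255) (nat_lit 235)) (XT.lf (nat_lit 0) (nat_lit 6088807490) (nat_lit 168) (nat_lit 13148291162) (nat_lit 168) (nat_lit 4938171748) (nat_lit 8) (nat_lit 4) (nat_lit 10) (nat_lit 5) (nat_lit 10) (nat_lit 4) (nat_lit 375) (nat_lit 255) (nat_lit 234)))))) (XT.nd (nat_lit 564) (nat_lit 84) (nat_lit 0) (XT.nd (nat_lit 282) (nat_lit 84) (nat_lit 0) (XT.nd (nat_lit 94) (nat_lit 84) (nat_lit 0) (XT.lf (nat_lit 0) (nat_lit 10859355180) (nat_lit 168) (nat_lit 11229260616) (nat_lit 168) (nat_lit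 2744421840) (nat_lit 8) (nat_lit 4) (nat_lit 10) (nat_lit 5) (nat_lit 10) (nat_lit 4) (nat_lit 376) (nat_lit 255) (nat_lit 233)) (XT.nd (nat_lit 94) (nat_lit 84) (nat_lit 0) (XT.lf (nat_lit 0) (nat_lit 15707637141) (nat_lit 168) (nat_lit 9278129970) (nat_lit 168) (nat_lit 526832064) (nat_lit 8) (nat_lit 4) (nat_lit 10) (nat_lit 5) (nat_lit 10) (nat_lit 4) (nat_lit 377) (nat_lit 255) (nat_lit 232)) (XT.lf (nat_lit 0) (nat_lit 1682077638) (nat_lit 252) (nat_lit 5593445485) (nat_lit 84) (nat_lit 18938537400) (nat_lit 7) (nat_lit 5) (nat_lit 10) (nat_lit 5) (nat_lit 8) (nat_lit 4) (nat_lit 378) (nat_lit 255) (nat_lit 231)))) (XT.nd (nat_lit 94) (nat_lit 84) (nat_lit 0) (XT.lf (nat_lit 0) (nat_lit 3907806818) (nat_lit 252) (nat_lit 1323665819) (nat_lit 84) (nat_lit 21706960661) (nat_lit 7) (nat_lit 5) (nat_lit 10) (nat_lit 5) (nat_lit 8) (nat_lit 4) (nat_lit 379) (nat_lit 255) (nat_lit 230))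 (XT.nd (nat_lit 94) (nat_lit 0) (nat_lit 0) (XT.lf (nat_lit 0) (nat_lit 3075548534) (nat_lit 84) (nat_lit 3118005868) (nat_lit 168) (nat_lit 21492054501) (nat_lit 6) (nat_lit 5) (nat_lit 7) (nat_lit 5) (nat_lit 8) (nat_lit 4) (nat_lit 380) (nat_lit 255) (nat_lit 229)) (XT.lf (nat_lit 0) (nat_lit 7574962613) (nat_lit 84) (nat_lit 950074995) (nat_lit 168) (nat_lit 19931754987) (nat_lit 6) (nat_lit 5) (nat_lit 7) (nat_lit 5) (nat_lit 8) (nat_lit 4) (nat_lit 381) (nat_lit 255) (nat_lit 228))))) (XT.nd (nat_lit 282) (nat_lit 84) (nat_lit 0) (XT.nd (nat_lit 94) (nat_lit 0) (nat_lit 0) (XT.lf (nat_lit 0) (nat_lit 10903533253) (nat_lit 168) (nat_lit 17114070126) (nat_lit 0) (nat_lit 1235127607) (nat_lit 6) (nat_lit 5) (nat_lit 8) (nat_lit 4) (nat_lit 6) (nat_lit 4) (nat_lit 382) (nat_lit 255) (nat_lit 227)) (XT.nd (nat_lit 94) (nat_lit 0) (nat_lit 0) (XT.lf (nat_lit 0) (nat_lit 13328610709)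 (nat_lit 168) (nat_lit 13300621220) (nat_lit 0) (nat_lit 3445016123) (nat_lit 6) (nat_lit 5) (nat_lit 8) (nat_lit 4) (nat_lit 6) (nat_lit 4) (nat_lit 383) (nat_lit 255) (nat_lit 226)) (XT.lf (nat_lit 0) (nat_lit 15793105541) (nat_lit 168) (nat_lit 9428503868) (nat_lit 0) (nat_lit 5700792293) (nat_lit 6) (nat_lit 5) (nat_lit 8) (nat_lit 4) (nat_lit 6) (nat_lit 4) (nat_lit 384) (nat_lit 255) (nat_lit 225)))) (XT.nd (nat_lit 94) (nat_lit 84) (nat_lit 0) (XT.lf (nat_lit 0) (nat_lit 18299314916) (nat_lit 168) (nat_lit 5494108851) (nat_lit 0) (nat_lit 8004558737) (nat_lit 6) (nat_lit 5) (nat_lit 8) (nat_lit 4) (nat_lit 6) (nat_lit 4) (nat_lit 385) (nat_lit 255) (nat_lit 224)) (XT.nd (nat_lit 94) (nat_lit 84) (nat_lit 0) (XT.lf (nat_lit 0) (nat_lit 20849574884) (nat_lit 168) (nat_lit 1493768902) (nat_lit 0) (nat_lit 10358462807) (nat_lit 6) (nat_lit 5) (nat_lit 8) (nat_lit 4) (nat_lit 6) (nat_lit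 4) (nat_lit 386) (nat_lit 255) (nat_lit 223)) (XT.lf (nat_lit 0) (nat_lit 2629217590) (nat_lit 84) (nat_lit 20843127128) (nat_lit 84) (nat_lit 10161563161) (nat_lit 5) (nat_lit 4) (nat_lit 6) (nat_lit 5) (nat_lit 6) (nat_lit 4) (nat_lit 387) (nat_lit 255) (nat_lit 222))))))) (XT.nd (nat_lit 1128) (nat_lit 84) (nat_lit 0) (XT.nd (nat_lit 564) (nat_lit 84) (nat_lit 0) (XT.nd (nat_lit 282) (nat_lit 84) (nat_lit 0) (XT.nd (nat_lit 94) (nat_lit 0) (nat_lit 0) (XT.lf (nat_lit 0) (nat_lit 6857897023) (nat_lit 84) (nat_lit 19301932477) (nat_lit 84) (nat_lit 8435643108) (nat_lit 5) (nat_lit 4) (nat_lit 6) (nat_lit 5) (nat_lit 6) (nat_lit 4) (nat_lit 388) (nat_lit 255) (nat_lit 221)) (XT.nd (nat_lit 94) (nat_lit 0) (nat_lit 0) (XT.lf (nat_lit 0) (nat_lit 11165496015) (nat_lit 84) (nat_lit 17733915161) (nat_lit 84) (nat_lit 6688454694) (nat_lit 5) (nat_lit 4) (nat_lit 6) (nat_lit 5) (nat_lit 6)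 (nat_lit 4) (nat_lit 389) (nat_lit 255) (nat_lit 220)) (XT.lf (nat_lit 0) (nat_lit 15556029700) (nat_lit 84) (nat_lit 16137613626) (nat_lit 84) (nat_lit 4918369358) (nat_lit 5) (nat_lit 4) (nat_lit 6) (nat_lit 5) (nat_lit 6) (nat_lit 4) (nat_lit 390) (nat_lit 255) (nat_lit 219)))) (XT.nd (nat_lit 94) (nat_lit 84) (nat_lit 0) (XT.lf (nat_lit 0) (nat_lit 20033590515) (nat_lit 84) (nat_lit 14511539950) (nat_lit 84) (nat_lit 3123737195) (nat_lit 5) (nat_lit 4) (nat_lit 6) (nat_lit 5) (nat_lit 6) (nat_lit 4) (nat_lit 391) (nat_lit 255) (nat_lit 218)) (XT.nd (nat_lit 94) (nat_lit 84) (nat_lit 0) (XT.lf (nat_lit 0) (nat_lit 24602352016) (nat_lit 84) (nat_lit 12854178462) (nat_lit 84) (nat_lit 1302885419) (nat_lit 5) (nat_lit 4) (nat_lit 6) (nat_lit 5) (nat_lit 6) (nat_lit 4) (nat_lit 392) (nat_lit 255) (nat_lit 217)) (XT.lf (nat_lit 0) (nat_lit 534884863) (nat_lit 168) (nat_lit 10623516365)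 (nat_lit 84) (nat_lit 28726104803) (nat_lit 4) (nat_lit 5) (nat_lit 6) (nat_lit 5) (nat_lit 5) (nat_lit 4) (nat_lit 393) (nat_lit 255) (nat_lit 216))))) (XT.nd (nat_lit 282) (nat_lit 0) (nat_lit 0) (XT.nd (nat_lit 94) (nat_lit 84) (nat_lit 0) (XT.lf (nat_lit 0) (nat_lit 2375447810) (nat_lit 168) (nat_lit 7039139498) (nat_lit 84) (nat_lit 31630357697) (nat_lit 4) (nat_lit 5) (nat_lit 6) (nat_lit 5) (nat_lit 5) (nat_lit 4) (nat_lit 394) (nat_lit 255) (nat_lit 215)) (XT.nd (nat_lit 94) (nat_lit 84) (nat_lit 0) (XT.lf (nat_lit 0) (nat_lit 4246769255) (nat_lit 168) (nat_lit 3387667483) (nat_lit 84) (nat_lit 34607778402) (nat_lit 4) (nat_lit 5) (nat_lit 6) (nat_lit 5) (nat_lit 5) (nat_lit 4) (nat_lit 395) (nat_lit 255) (nat_lit 214)) (XT.lf (nat_lit 0) (nat_lit 341177195) (nat_lit 84) (nat_lit 5812800793) (nat_lit 168) (nat_lit 37323349510) (nat_lit 3) (nat_lit 5) (nat_lit 4) (nat_lit 5) (nat_lit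 5) (nat_lit 4) (nat_lit 396) (nat_lit 255) (nat_lit 213)))) (XT.nd (nat_lit 94) (nat_lit 0) (nat_lit 0) (XT.lf (nat_lit 0) (nat_lit 4215168167) (nat_lit 84) (nat_lit 3915341833) (nat_lit 168) (nat_lit 36619941925) (nat_lit 3) (nat_lit 5) (nat_lit 4) (nat_lit 5) (nat_lit 5) (nat_lit 4) (nat_lit 397) (nat_lit 255) (nat_lit 212)) (XT.nd (nat_lit 94) (nat_lit 0) (nat_lit 0) (XT.lf (nat_lit 0) (nat_lit 8168259008) (nat_lit 84) (nat_lit 1975651529) (nat_lit 168) (nat_lit 35919927780) (nat_lit 3) (nat_lit 5) (nat_lit 4) (nat_lit 5) (nat_lit 5) (nat_lit 4) (nat_lit 398) (nat_lit 255) (nat_lit 211)) (XT.lf (nat_lit 0) (nat_lit 12196136436) (nat_lit 168) (nat_lit 35214656613) (nat_lit 0) (nat_lit 7915355) (nat_lit 3) (nat_lit 5) (nat_lit 5) (nat_lit 4) (nat_lit 3) (nat_lit 4) (nat_lit 399) (nat_lit 255) (nat_lit 210)))))) (XT.nd (nat_lit 564) (nat_lit 84) (nat_lit 0) (XT.nd (nat_lit 282) (nat_lit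 0) (nat_lit 0) (XT.nd (nat_lit 94) (nat_lit 0) (nat_lit 0) (XT.lf (nat_lit 0) (nat_lit 14309074299) (nat_lit 168) (nat_lit 32509990482) (nat_lit 0) (nat_lit 1996641099) (nat_lit 3) (nat_lit 5) (nat_lit 5) (nat_lit 4) (nat_lit 3) (nat_lit 4) (nat_lit 400) (nat_lit 255) (nat_lit 209)) (XT.nd (nat_lit 94) (nat_lit 0) (nat_lit 0) (XT.lf (nat_lit 0) (nat_lit 16465094899) (nat_lit 168) (nat_lit 29759461178) (nat_lit 0) (nat_lit 4032184377) (nat_lit 3) (nat_lit 5) (nat_lit 5) (nat_lit 4) (nat_lit 3) (nat_lit 4) (nat_lit 401) (nat_lit 255) (nat_lit 208)) (XT.lf (nat_lit 0) (nat_lit 18666207874) (nat_lit 168) (nat_lit 26960504918) (nat_lit 0) (nat_lit 6116442529) (nat_lit 3) (nat_lit 5) (nat_lit 5) (nat_lit 4) (nat_lit 3) (nat_lit 4) (nat_lit 402) (nat_lit 255) (nat_lit 207)))) (XT.nd (nat_lit 94) (nat_lit 0) (nat_lit 0) (XT.lf (nat_lit 0) (nat_lit 20914464891) (nat_lit 168) (nat_lit 24110512783)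 (nat_lit 0) (nat_lit 8251358302) (nat_lit 3) (nat_lit 5) (nat_lit 5) (nat_lit 4) (nat_lit 3) (nat_lit 4) (nat_lit 403) (nat_lit 255) (nat_lit 206)) (XT.nd (nat_lit 94) (nat_lit 0) (nat_lit 0) (XT.lf (nat_lit 0) (nat_lit 23211961561) (nat_lit 168) (nat_lit 21206828282) (nat_lit 0) (nat_lit 10438921661) (nat_lit 3) (nat_lit 5) (nat_lit 5) (nat_lit 4) (nat_lit 3) (nat_lit 4) (nat_lit 404) (nat_lit 255) (nat_lit 205)) (XT.lf (nat_lit 0) (nat_lit 25560839392) (nat_lit 168) (nat_lit 18246744875) (nat_lit 0) (nat_lit 12681171643) (nat_lit 3) (nat_lit 5) (nat_lit 5) (nat_lit 4) (nat_lit 3) (nat_lit 4) (nat_lit 405) (nat_lit 255) (nat_lit 204))))) (XT.nd (nat_lit 282) (nat_lit 84) (nat_lit 0) (XT.nd (nat_lit 94) (nat_lit 0) (nat_lit 0) (XT.lf (nat_lit 0) (nat_lit 27963287784) (nat_lit 168) (nat_lit 15227503456) (nat_lit 0) (nat_lit 14980198262) (nat_lit 3) (nat_lit 5) (nat_lit 5) (nat_lit 4)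 (nat_lit 3) (nat_lit 4) (nat_lit 406) (nat_lit 255) (nat_lit 203)) (XT.nd (nat_lit 94) (nat_lit 0) (nat_lit 0) (XT.lf (nat_lit 0) (nat_lit 30421546071) (nat_lit 168) (nat_lit 12146289775) (nat_lit 0) (nat_lit 17338144450) (nat_lit 3) (nat_lit 5) (nat_lit 5) (nat_lit 4) (nat_lit 3) (nat_lit 4) (nat_lit 407) (nat_lit 255) (nat_lit 202)) (XT.lf (nat_lit 0) (nat_lit 32937905606) (nat_lit 168) (nat_lit 9000231819) (nat_lit 0) (nat_lit 19757208060) (nat_lit 3) (nat_lit 5) (nat_lit 5) (nat_lit 4) (nat_lit 3) (nat_lit 4) (nat_lit 408) (nat_lit 255) (nat_lit 201)))) (XT.nd (nat_lit 94) (nat_lit 84) (nat_lit 0) (XT.lf (nat_lit 0) (nat_lit 35514711900) (nat_lit 168) (nat_lit 5786397131) (nat_lit 0) (nat_lit 22239643914) (nat_lit 3) (nat_lit 5) (nat_lit 5) (nat_lit 4) (nat_lit 3) (nat_lit 4) (nat_lit 409) (nat_lit 255) (nat_lit 200)) (XT.nd (nat_lit 94) (nat_lit 84) (nat_lit 0) (XT.lf (nat_lit 0)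 (nat_lit 38154366808) (nat_lit 168) (nat_lit 2501790081) (nat_lit 0) (nat_lit 24787765901) (nat_lit 3) (nat_lit 5) (nat_lit 5) (nat_lit 4) (nat_lit 3) (nat_lit 4) (nat_lit 410) (nat_lit 255) (nat_lit 199)) (XT.lf (nat_lit 0) (nat_lit 874265428) (nat_lit 84) (nat_lit 39993738155) (nat_lit 84) (nat_lit 26538356530) (nat_lit 2) (nat_lit 4) (nat_lit 3) (nat_lit 5) (nat_lit 3) (nat_lit 4) (nat_lit 411) (nat_lit 255) (nat_lit 198))))))))
noncomputable def xc21 : XT := (XT.nd (nat_lit 2256) (nat_lit 420) (nat_lit 0) (XT.nd (nat_lit 1128) (nat_lit 504) (nat_lit 0) (XT.nd (nat_lit 564) (nat_lit 336) (nat_lit 0) (XT.nd (nat_lit 282) (nat_lit 252) (nat_lit 0) (XT.nd (nat_lit 94) (nat_lit 168) (nat_lit 0) (XT.lf (nat_lit 0) (nat_lit 2480993191) (nat_lit 252) (nat_lit 1902401039) (nat_lit 0) (nat_lit 2480993191) (nat_lit 23) (nat_lit 5) (nat_lit 26) (nat_lit 4) (nat_lit 23) (nat_lit 4) (nat_lit 352)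 (nat_lit 256) (nat_lit 256)) (XT.nd (nat_lit 94) (nat_lit 0) (nat_lit 0) (XT.lf (nat_lit 0) (nat_lit 1539816224) (nat_lit 168) (nat_lit 6542354319) (nat_lit 168) (nat_lit 5953027913) (nat_lit 21) (nat_lit 4) (nat_lit 23) (nat_lit 5) (nat_lit 23) (nat_lit 4) (nat_lit 353) (nat_lit 256) (nat_lit 255)) (XT.lf (nat_lit 0) (nat_lit 7020224526) (nat_lit 168) (nat_lit 4246499881) (nat_lit 168) (nat_lit 3085566872) (nat_lit 21) (nat_lit 4) (nat_lit 23) (nat_lit 5) (nat_lit 23) (nat_lit 4) (nat_lit 354) (nat_lit 256) (nat_lit 254)))) (XT.nd (nat_lit 94) (nat_lit 252) (nat_lit 0) (XT.lf (nat_lit 0) (nat_lit 12563296607) (nat_lit 168) (nat_lit 1916799500) (nat_lit 168) (nat_lit 201446897) (nat_lit 21) (nat_lit 4) (nat_lit 23) (nat_lit 5) (nat_lit 23) (nat_lit 4) (nat_lit 355) (nat_lit 256) (nat_lit 253)) (XT.nd (nat_lit 94) (nat_lit 0) (nat_lit 0) (XT.lf (nat_lit 0) (nat_lit 2684260642) (nat_lit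 252) (nat_lit 11838127159) (nat_lit 0) (nat_lit 498904710) (nat_lit 18) (nat_lit 5) (nat_lit 21) (nat_lit 4) (nat_lit 18) (nat_lit 4) (nat_lit 356) (nat_lit 256) (nat_lit 252)) (XT.lf (nat_lit 0) (nat_lit 5629193941) (nat_lit 252) (nat_lit 6805331270) (nat_lit 0) (nat_lit 2937940460) (nat_lit 18) (nat_lit 5) (nat_lit 21) (nat_lit 4) (nat_lit 18) (nat_lit 4) (nat_lit 357) (nat_lit 256) (nat_lit 251))))) (XT.nd (nat_lit 282) (nat_lit 168) (nat_lit 0) (XT.nd (nat_lit 94) (nat_lit 168) (nat_lit 0) (XT.lf (nat_lit 0) (nat_lit 8599477124) (nat_lit 252) (nat_lit 1719698335) (nat_lit 0) (nat_lit 5417537369) (nat_lit 18) (nat_lit 5) (nat_lit 21) (nat_lit 4) (nat_lit 18) (nat_lit 4) (nat_lit 358) (nat_lit 256) (nat_lit 250)) (XT.nd (nat_lit 94) (nat_lit 0) (nat_lit 0) (XT.lf (nat_lit 0) (nat_lit 3493906415) (nat_lit 168) (nat_lit 8138632375) (nat_lit 168) (nat_lit 4480760250) (nat_lit 16) (nat_lit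 4) (nat_lit 18) (nat_lit 5) (nat_lit 18) (nat_lit 4) (nat_lit 359) (nat_lit 256) (nat_lit 249)) (XT.lf (nat_lit 0) (nat_lit 8806525573) (nat_lit 168) (nat_lit 5908030064) (nat_lit 168) (nat_lit 1788535852) (nat_lit 16) (nat_lit 4) (nat_lit 18) (nat_lit 5) (nat_lit 18) (nat_lit 4) (nat_lit 360) (nat_lit 256) (nat_lit 248)))) (XT.nd (nat_lit 94) (nat_lit 84) (nat_lit 0) (XT.lf (nat_lit 0) (nat_lit 905380323) (nat_lit 252) (nat_lit 2728408856) (nat_lit 84) (nat_lit 13272919893) (nat_lit 15) (nat_lit 5) (nat_lit 18) (nat_lit 5) (nat_lit 16) (nat_lit 4) (nat_lit 361) (nat_lit 256) (nat_lit 247)) (XT.nd (nat_lit 94) (nat_lit 0) (nat_lit 0) (XT.lf (nat_lit 0) (nat_lit 2327815357) (nat_lit 84) (nat_lit 1280914859) (nat_lit 168) (nat_lit 13714809306) (nat_lit 14) (nat_lit 5) (nat_lit 15) (nat_lit 5) (nat_lit 16) (nat_lit 4) (nat_lit 362) (nat_lit 256) (nat_lit 246)) (XT.lf (nat_lit 0) (nat_lit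 6376528283) (nat_lit 168) (nat_lit 10260641538) (nat_lit 0) (nat_lit 1116841315) (nat_lit 14) (nat_lit 5) (nat_lit 16) (nat_lit 4) (nat_lit 14) (nat_lit 4) (nat_lit 363) (nat_lit 256) (nat_lit 245)))))) (XT.nd (nat_lit 564) (nat_lit 252) (nat_lit 0) (XT.nd (nat_lit 282) (nat_lit 84) (nat_lit 0) (XT.nd (nat_lit 94) (nat_lit 168) (nat_lit 0) (XT.lf (nat_lit 0) (nat_lit 9185533904) (nat_lit 168) (nat_lit 5484216631) (nat_lit 0) (nat_lit 3529575059) (nat_lit 14) (nat_lit 5) (nat_lit 16) (nat_lit 4) (nat_lit 14) (nat_lit 4) (nat_lit 364) (nat_lit 256) (nat_lit 244)) (XT.nd (nat_lit 94) (nat_lit 168) (nat_lit 0) (XT.lf (nat_lit 0) (nat_lit 12025658533) (nat_lit 168) (nat_lit 649290483) (nat_lit 0) (nat_lit 5985342871) (nat_lit 14) (nat_lit 5) (nat_lit 16) (nat_lit 4) (nat_lit 14) (nat_lit 4) (nat_lit 365) (nat_lit 256) (nat_lit 243)) (XT.lf (nat_lit 0) (nat_lit 4336004389) (nat_lit 168) (nat_lit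 10606558775) (nat_lit 168) (nat_lit 4193443097) (nat_lit 12) (nat_lit 4) (nat_lit 14) (nat_lit 5) (nat_lit 14) (nat_lit 4) (nat_lit 366) (nat_lit 256) (nat_lit 242)))) (XT.nd (nat_lit 94) (nat_lit 84) (nat_lit 0) (XT.lf (nat_lit 0) (nat_lit 9403612738) (nat_lit 168) (nat_lit 8499557728) (nat_lit 168) (nat_lit 1724851346) (nat_lit 12) (nat_lit 4) (nat_lit 14) (nat_lit 5) (nat_lit 14) (nat_lit 4) (nat_lit 367) (nat_lit 256) (nat_lit 241)) (XT.nd (nat_lit 94) (nat_lit 0) (nat_lit 0) (XT.lf (nat_lit 0) (nat_lit 751219018) (nat_lit 252) (nat_lit 5599698986) (nat_lit 84) (nat_lit 13785847157) (nat_lit 11) (nat_lit 5) (nat_lit 14) (nat_lit 5) (nat_lit 12) (nat_lit 4) (nat_lit 368) (nat_lit 256) (nat_lit 240)) (XT.lf (nat_lit 0) (nat_lit 3217276364) (nat_lit 252) (nat_lit 931309585) (nat_lit 84) (nat_lit 16513822352) (nat_lit 11) (nat_lit 5) (nat_lit 14) (nat_lit 5) (nat_lit 12) (nat_lit 4)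 (nat_lit 369) (nat_lit 256) (nat_lit 239))))) (XT.nd (nat_lit 282) (nat_lit 168) (nat_lit 0) (XT.nd (nat_lit 94) (nat_lit 0) (nat_lit 0) (XT.lf (nat_lit 0) (nat_lit 3880402765) (nat_lit 84) (nat_lit 1868462535) (nat_lit 168) (nat_lit 15455913001) (nat_lit 10) (nat_lit 5) (nat_lit 11) (nat_lit 5) (nat_lit 12) (nat_lit 4) (nat_lit 370) (nat_lit 256) (nat_lit 238)) (XT.nd (nat_lit 94) (nat_lit 0) (nat_lit 0) (XT.lf (nat_lit 0) (nat_lit 8324534493) (nat_lit 168) (nat_lit 12987598551) (nat_lit 0) (nat_lit 452985807) (nat_lit 10) (nat_lit 5) (nat_lit 12) (nat_lit 4) (nat_lit 10) (nat_lit 4) (nat_lit 371) (nat_lit 256) (nat_lit 237)) (XT.lf (nat_lit 0) (nat_lit 10951628558) (nat_lit 168) (nat_lit 8613159020) (nat_lit 0) (nat_lit 2779011409) (nat_lit 10) (nat_lit 5) (nat_lit 12) (nat_lit 4) (nat_lit 10) (nat_lit 4) (nat_lit 372) (nat_lit 256) (nat_lit 236)))) (XT.nd (nat_lit 94) (nat_lit 168)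 (nat_lit 0) (XT.lf (nat_lit 0) (nat_lit 13614060843) (nat_lit 168) (nat_lit 4178444128) (nat_lit 0) (nat_lit 5149427727) (nat_lit 10) (nat_lit 5) (nat_lit 12) (nat_lit 4) (nat_lit 10) (nat_lit 4) (nat_lit 373) (nat_lit 256) (nat_lit 235)) (XT.nd (nat_lit 94) (nat_lit 0) (nat_lit 0) (XT.lf (nat_lit 0) (nat_lit 327273576) (nat_lit 168) (nat_lit 15990286032) (nat_lit 168) (nat_lit 7242417253) (nat_lit 8) (nat_lit 4) (nat_lit 10) (nat_lit 5) (nat_lit 10) (nat_lit 4) (nat_lit 374) (nat_lit 256) (nat_lit 234)) (XT.lf (nat_lit 0) (nat_lit 4988921908) (nat_lit 168) (nat_lit 14115470803) (nat_lit 168) (nat_lit 5092882663) (nat_lit 8) (nat_lit 4) (nat_lit 10) (nat_lit 5) (nat_lit 10) (nat_lit 4) (nat_lit 375) (nat_lit 256) (nat_lit 233))))))) (XT.nd (nat_lit 1128) (nat_lit 168) (nat_lit 0) (XT.nd (nat_lit 564) (nat_lit 84) (nat_lit 0) (XT.nd (nat_lit 282) (nat_lit 84) (nat_lit 0) (XT.nd (nat_lit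 94) (nat_lit 84) (nat_lit 0) (XT.lf (nat_lit 0) (nat_lit 9724928629) (nat_lit 168) (nat_lit 12209926149) (nat_lit 168) (nat_lit 2920878880) (nat_lit 8) (nat_lit 4) (nat_lit 10) (nat_lit 5) (nat_lit 10) (nat_lit 4) (nat_lit 376) (nat_lit 256) (nat_lit 232)) (XT.nd (nat_lit 94) (nat_lit 84) (nat_lit 0) (XT.lf (nat_lit 0) (nat_lit 14539708195) (nat_lit 168) (nat_lit 10271875902) (nat_lit 168) (nat_lit 724381368) (nat_lit 8) (nat_lit 4) (nat_lit 10) (nat_lit 5) (nat_lit 10) (nat_lit 4) (nat_lit 377) (nat_lit 256) (nat_lit 231)) (XT.lf (nat_lit 0) (nat_lit 1468462632) (nat_lit 252) (nat_lit 6815723225) (nat_lit 84) (nat_lit 17953958114) (nat_lit 7) (nat_lit 5) (nat_lit 10) (nat_lit 5) (nat_lit 8) (nat_lit 4) (nat_lit 378) (nat_lit 256) (nat_lit 230)))) (XT.nd (nat_lit 94) (nat_lit 84) (nat_lit 0) (XT.lf (nat_lit 0) (nat_lit 3674748669) (nat_lit 252) (nat_lit 2577895273) (nat_lit 84) (nat_lit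 20710509475) (nat_lit 7) (nat_lit 5) (nat_lit 10) (nat_lit 5) (nat_lit 8) (nat_lit 4) (nat_lit 379) (nat_lit 256) (nat_lit 229)) (XT.nd (nat_lit 94) (nat_lit 0) (nat_lit 0) (XT.lf (nat_lit 0) (nat_lit 1763901318) (nat_lit 84) (nat_lit 4164724704) (nat_lit 168) (nat_lit 21782723889) (nat_lit 6) (nat_lit 5) (nat_lit 7) (nat_lit 5) (nat_lit 8) (nat_lit 4) (nat_lit 380) (nat_lit 256) (nat_lit 228)) (XT.lf (nat_lit 0) (nat_lit 6232638160) (nat_lit 84) (nat_lit 2008875254) (nat_lit 168) (nat_lit 20241628582) (nat_lit 6) (nat_lit 5) (nat_lit 7) (nat_lit 5) (nat_lit 8) (nat_lit 4) (nat_lit 381) (nat_lit 256) (nat_lit 227))))) (XT.nd (nat_lit 282) (nat_lit 84) (nat_lit 0) (XT.nd (nat_lit 94) (nat_lit 0) (nat_lit 0) (XT.lf (nat_lit 0) (nat_lit 10591352707) (nat_lit 168) (nat_lit 18502469242) (nat_lit 0) (nat_lit 186177748) (nat_lit 6) (nat_lit 5) (nat_lit 8) (nat_lit 4) (nat_lit 6) (nat_lit 4)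 (nat_lit 382) (nat_lit 256) (nat_lit 226)) (XT.nd (nat_lit 94) (nat_lit 0) (nat_lit 0) (XT.lf (nat_lit 0) (nat_lit 12998823060) (nat_lit 168) (nat_lit 14718340115) (nat_lit 0) (nat_lit 2384929439) (nat_lit 6) (nat_lit 5) (nat_lit 8) (nat_lit 4) (nat_lit 6) (nat_lit 4) (nat_lit 383) (nat_lit 256) (nat_lit 225)) (XT.lf (nat_lit 0) (nat_lit 15446240198) (nat_lit 168) (nat_lit 10874660958) (nat_lit 0) (nat_lit 4629903646) (nat_lit 6) (nat_lit 5) (nat_lit 8) (nat_lit 4) (nat_lit 6) (nat_lit 4) (nat_lit 384) (nat_lit 256) (nat_lit 224)))) (XT.nd (nat_lit 94) (nat_lit 84) (nat_lit 0) (XT.lf (nat_lit 0) (nat_lit 17935885370) (nat_lit 168) (nat_lit 6967849059) (nat_lit 0) (nat_lit 6923192920) (nat_lit 6) (nat_lit 5) (nat_lit 8) (nat_lit 4) (nat_lit 6) (nat_lit 4) (nat_lit 385) (nat_lit 256) (nat_lit 223)) (XT.nd (nat_lit 94) (nat_lit 84) (nat_lit 0) (XT.lf (nat_lit 0) (nat_lit 20470079185) (nat_lit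 168) (nat_lit 2994262862) (nat_lit 0) (nat_lit 9266934845) (nat_lit 6) (nat_lit 5) (nat_lit 8) (nat_lit 4) (nat_lit 6) (nat_lit 4) (nat_lit 386) (nat_lit 256) (nat_lit 222)) (XT.lf (nat_lit 0) (nat_lit 1071387503) (nat_lit 84) (nat_lit 21990424570) (nat_lit 84) (nat_lit 10602554829) (nat_lit 5) (nat_lit 4) (nat_lit 6) (nat_lit 5) (nat_lit 6) (nat_lit 4) (nat_lit 387) (nat_lit 256) (nat_lit 221)))))) (XT.nd (nat_lit 564) (nat_lit 84) (nat_lit 0) (XT.nd (nat_lit 282) (nat_lit 84) (nat_lit 0) (XT.nd (nat_lit 94) (nat_lit 0) (nat_lit 0) (XT.lf (nat_lit 0) (nat_lit 5274380327) (nat_lit 84) (nat_lit 20459547186) (nat_lit 84) (nat_lit 8892506347) (nat_lit 5) (nat_lit 4) (nat_lit 6) (nat_lit 5) (nat_lit 6) (nat_lit 4) (nat_lit 388) (nat_lit 256) (nat_lit 220)) (XT.nd (nat_lit 94) (nat_lit 0) (nat_lit 0) (XT.lf (nat_lit 0) (nat_lit 9557065052) (nat_lit 84) (nat_lit 18901536920) (nat_lit 84) (nat_lit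 7160712280) (nat_lit 5) (nat_lit 4) (nat_lit 6) (nat_lit 5) (nat_lit 6) (nat_lit 4) (nat_lit 389) (nat_lit 256) (nat_lit 219)) (XT.lf (nat_lit 0) (nat_lit 13923433590) (nat_lit 84) (nat_lit 17314941543) (nat_lit 84) (nat_lit 5405558416) (nat_lit 5) (nat_lit 4) (nat_lit 6) (nat_lit 5) (nat_lit 6) (nat_lit 4) (nat_lit 390) (nat_lit 256) (nat_lit 218)))) (XT.nd (nat_lit 94) (nat_lit 84) (nat_lit 0) (XT.lf (nat_lit 0) (nat_lit 18377555853) (nat_lit 84) (nat_lit 15698282181) (nat_lit 84) (nat_lit 3625408766) (nat_lit 5) (nat_lit 4) (nat_lit 6) (nat_lit 5) (nat_lit 6) (nat_lit 4) (nat_lit 391) (nat_lit 256) (nat_lit 217)) (XT.nd (nat_lit 94) (nat_lit 84) (nat_lit 0) (XT.lf (nat_lit 0) (nat_lit 22923583549) (nat_lit 84) (nat_lit 14050051939) (nat_lit 84) (nat_lit 1818604045) (nat_lit 5) (nat_lit 4) (nat_lit 6) (nat_lit 5) (nat_lit 6) (nat_lit 4) (nat_lit 392) (nat_lit 256) (nat_lit 216)) (XT.lf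 (nat_lit 0) (nat_lit 16206636) (nat_lit 168) (nat_lit 12352338693) (nat_lit 84) (nat_lit 27549378253) (nat_lit 4) (nat_lit 5) (nat_lit 6) (nat_lit 5) (nat_lit 5) (nat_lit 4) (nat_lit 393) (nat_lit 256) (nat_lit 215))))) (XT.nd (nat_lit 282) (nat_lit 84) (nat_lit 0) (XT.nd (nat_lit 94) (nat_lit 0) (nat_lit 0) (XT.lf (nat_lit 0) (nat_lit 1843820813) (nat_lit 168) (nat_lit 8789636142) (nat_lit 84) (nat_lit 30445327834) (nat_lit 4) (nat_lit 5) (nat_lit 6) (nat_lit 5) (nat_lit 5) (nat_lit 4) (nat_lit 394) (nat_lit 256) (nat_lit 214)) (XT.nd (nat_lit 94) (nat_lit 0) (nat_lit 0) (XT.lf (nat_lit 0) (nat_lit 3702582831) (nat_lit 168) (nat_lit 5159186741) (nat_lit 84) (nat_lit 33414694889) (nat_lit 4) (nat_lit 5) (nat_lit 6) (nat_lit 5) (nat_lit 5) (nat_lit 4) (nat_lit 395) (nat_lit 256) (nat_lit 213)) (XT.lf (nat_lit 0) (nat_lit 5594225251) (nat_lit 168) (nat_lit 1457606531) (nat_lit 84) (nat_lit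 36460247179) (nat_lit 4) (nat_lit 5) (nat_lit 6) (nat_lit 5) (nat_lit 5) (nat_lit 4) (nat_lit 396) (nat_lit 256) (nat_lit 212)))) (XT.nd (nat_lit 94) (nat_lit 0) (nat_lit 0) (XT.lf (nat_lit 0) (nat_lit 2366228988) (nat_lit 84) (nat_lit 5177755578) (nat_lit 168) (nat_lit 37242067773) (nat_lit 3) (nat_lit 5) (nat_lit 4) (nat_lit 5) (nat_lit 5) (nat_lit 4) (nat_lit 397) (nat_lit 256) (nat_lit 211)) (XT.nd (nat_lit 94) (nat_lit 0) (nat_lit 0) (XT.lf (nat_lit 0) (nat_lit 6299742648) (nat_lit 84) (nat_lit 3245988003) (nat_lit 168) (nat_lit 36554087795) (nat_lit 3) (nat_lit 5) (nat_lit 4) (nat_lit 5) (nat_lit 5) (nat_lit 4) (nat_lit 398) (nat_lit 256) (nat_lit 210)) (XT.lf (nat_lit 0) (nat_lit 10316629516) (nat_lit 84) (nat_lit 1269942870) (nat_lit 168) (nat_lit 35868486928) (nat_lit 3) (nat_lit 5) (nat_lit 4) (nat_lit 5) (nat_lit 5) (nat_lit 4) (nat_lit 399) (nat_lit 256) (nat_lit 209))))))))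
noncomputable def xc22 : XT := (XT.nd (nat_lit 50666) (nat_lit 0) (nat_lit 252) (XT.nd (nat_lit 49538) (nat_lit 0) (nat_lit 1008) (XT.nd (nat_lit 564) (nat_lit 0) (nat_lit 0) (XT.nd (nat_lit 282) (nat_lit 0) (nat_lit 0) (XT.nd (nat_lit 94) (nat_lit 0) (nat_lit 0) (XT.lf (nat_lit 0) (nat_lit 13675874181) (nat_lit 168) (nat_lit 34439866552) (nat_lit 0) (nat_lit 737066111) (nat_lit 3) (nat_lit 5) (nat_lit 5) (nat_lit 4) (nat_lit 3) (nat_lit 4) (nat_lit 400) (nat_lit 256) (nat_lit 208)) (XT.nd (nat_lit 94) (nat_lit 0) (nat_lit 0) (XT.lf (nat_lit 0) (nat_lit 15821188596) (nat_lit 168) (nat_lit 31707475827) (nat_lit 0) (nat_lit 2765525702) (nat_lit 3) (nat_lit 5) (nat_lit 5) (nat_lit 4) (nat_lit 3) (nat_lit 4) (nat_lit 401) (nat_lit 256) (nat_lit 207)) (XT.lf (nat_lit 0) (nat_lit 18011917297) (nat_lit 168) (nat_lit 28926112757) (nat_lit 0) (nat_lit 4842913159) (nat_lit 3) (nat_lit 5) (nat_lit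 5) (nat_lit 4) (nat_lit 3) (nat_lit 4) (nat_lit 402) (nat_lit 256) (nat_lit 206)))) (XT.nd (nat_lit 94) (nat_lit 0) (nat_lit 0) (XT.lf (nat_lit 0) (nat_lit 20250102273) (nat_lit 168) (nat_lit 26093184822) (nat_lit 0) (nat_lit 6971164824) (nat_lit 3) (nat_lit 5) (nat_lit 5) (nat_lit 4) (nat_lit 3) (nat_lit 4) (nat_lit 403) (nat_lit 256) (nat_lit 205)) (XT.nd (nat_lit 94) (nat_lit 0) (nat_lit 0) (XT.lf (nat_lit 0) (nat_lit 22537829748) (nat_lit 168) (nat_lit 23206051435) (nat_lit 0) (nat_lit 9152264450) (nat_lit 3) (nat_lit 5) (nat_lit 5) (nat_lit 4) (nat_lit 3) (nat_lit 4) (nat_lit 404) (nat_lit 256) (nat_lit 204)) (XT.lf (nat_lit 0) (nat_lit 24877232122) (nat_lit 168) (nat_lit 20262021487) (nat_lit 0) (nat_lit 11388245051) (nat_lit 3) (nat_lit 5) (nat_lit 5) (nat_lit 4) (nat_lit 3) (nat_lit 4) (nat_lit 405) (nat_lit 256) (nat_lit 203))))) (XT.nd (nat_lit 282) (nat_lit 0) (nat_lit 0)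 (XT.nd (nat_lit 94) (nat_lit 0) (nat_lit 0) (XT.lf (nat_lit 0) (nat_lit 27270489965) (nat_lit 168) (nat_lit 17258350832) (nat_lit 0) (nat_lit 13681190796) (nat_lit 3) (nat_lit 5) (nat_lit 5) (nat_lit 4) (nat_lit 3) (nat_lit 4) (nat_lit 406) (nat_lit 256) (nat_lit 202)) (XT.nd (nat_lit 94) (nat_lit 0) (nat_lit 0) (XT.lf (nat_lit 0) (nat_lit 29719834042) (nat_lit 168) (nat_lit 14192239735) (nat_lit 0) (nat_lit 16033238949) (nat_lit 3) (nat_lit 5) (nat_lit 5) (nat_lit 4) (nat_lit 3) (nat_lit 4) (nat_lit 407) (nat_lit 256) (nat_lit 201)) (XT.lf (nat_lit 0) (nat_lit 32227547400) (nat_lit 168) (nat_lit 11060830260) (nat_lit 0) (nat_lit 18446581865) (nat_lit 3) (nat_lit 5) (nat_lit 5) (nat_lit 4) (nat_lit 3) (nat_lit 4) (nat_lit 408) (nat_lit 256) (nat_lit 200)))) (XT.nd (nat_lit 94) (nat_lit 0) (nat_lit 0) (XT.lf (nat_lit 0) (nat_lit 34795967490) (nat_lit 168) (nat_lit 7861203604) (nat_lit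 0) (nat_lit 20923469035) (nat_lit 3) (nat_lit 5) (nat_lit 5) (nat_lit 4) (nat_lit 3) (nat_lit 4) (nat_lit 409) (nat_lit 256) (nat_lit 199)) (XT.nd (nat_lit 94) (nat_lit 0) (nat_lit 0) (XT.lf (nat_lit 0) (nat_lit 37427488348) (nat_lit 168) (nat_lit 4590377380) (nat_lit 0) (nat_lit 23466209174) (nat_lit 3) (nat_lit 5) (nat_lit 5) (nat_lit 4) (nat_lit 3) (nat_lit 4) (nat_lit 410) (nat_lit 256) (nat_lit 198)) (XT.lf (nat_lit 0) (nat_lit 40124562827) (nat_lit 168) (nat_lit 1245302836) (nat_lit 0) (nat_lit 26077172385) (nat_lit 3) (nat_lit 5) (nat_lit 5) (nat_lit 4) (nat_lit 3) (nat_lit 4) (nat_lit 411) (nat_lit 256) (nat_lit 197)))))) (XT.nd (nat_lit 564) (nat_lit 420) (nat_lit 0) (XT.nd (nat_lit 282) (nat_lit 252) (nat_lit 0) (XT.nd (nat_lit 94) (nat_lit 252) (nat_lit 0) (XT.lf (nat_lit 0) (nat_lit 6040436866) (nat_lit 252) (nat_lit 266677832) (nat_lit 252) (nat_lit 266677832) (nat_lit 26)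 (nat_lit 4) (nat_lit 29) (nat_lit 5) (nat_lit 29) (nat_lit 4) (nat_lit 350) (nat_lit 257) (nat_lit 257)) (XT.nd (nat_lit 94) (nat_lit 0) (nat_lit 0) (XT.lf (nat_lit 0) (nat_lit 2487057356) (nat_lit 252) (nat_lit 9066953492) (nat_lit 0) (nat_lit 1879461831) (nat_lit 23) (nat_lit 5) (nat_lit 26) (nat_lit 4) (nat_lit 23) (nat_lit 4) (nat_lit 351) (nat_lit 257) (nat_lit 256)) (XT.lf (nat_lit 0) (nat_lit 5533553439) (nat_lit 252) (nat_lit 3859791576) (nat_lit 0) (nat_lit 4336631508) (nat_lit 23) (nat_lit 5) (nat_lit 26) (nat_lit 4) (nat_lit 23) (nat_lit 4) (nat_lit 352) (nat_lit 257) (nat_lit 255)))) (XT.nd (nat_lit 94) (nat_lit 84) (nat_lit 0) (XT.lf (nat_lit 0) (nat_lit 1429263251) (nat_lit 168) (nat_lit 7188432481) (nat_lit 168) (nat_lit 5419903948) (nat_lit 21) (nat_lit 4) (nat_lit 23) (nat_lit 5) (nat_lit 23) (nat_lit 4) (nat_lit 353) (nat_lit 257) (nat_lit 254)) (XT.nd (nat_lit 94)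 (nat_lit 84) (nat_lit 0) (XT.lf (nat_lit 0) (nat_lit 6856875453) (nat_lit 168) (nat_lit 4910955957) (nat_lit 168) (nat_lit 2588007830) (nat_lit 21) (nat_lit 4) (nat_lit 23) (nat_lit 5) (nat_lit 23) (nat_lit 4) (nat_lit 354) (nat_lit 257) (nat_lit 253)) (XT.lf (nat_lit 0) (nat_lit 256345593) (nat_lit 252) (nat_lit 2340059590) (nat_lit 84) (nat_lit 12089717586) (nat_lit 20) (nat_lit 5) (nat_lit 23) (nat_lit 5) (nat_lit 21) (nat_lit 4) (nat_lit 355) (nat_lit 257) (nat_lit 252))))) (XT.nd (nat_lit 282) (nat_lit 252) (nat_lit 0) (XT.nd (nat_lit 94) (nat_lit 0) (nat_lit 0) (XT.lf (nat_lit 0) (nat_lit 2908506847) (nat_lit 168) (nat_lit 188876072) (nat_lit 252) (nat_lit 11929759157) (nat_lit 18) (nat_lit 5) (nat_lit 20) (nat_lit 5) (nat_lit 21) (nat_lit 4) (nat_lit 356) (nat_lit 257) (nat_lit 251)) (XT.nd (nat_lit 94) (nat_lit 0) (nat_lit 0) (XT.lf (nat_lit 0) (nat_lit 6007974279) (nat_lit 252)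 (nat_lit 7134768043) (nat_lit 0) (nat_lit 2236708117) (nat_lit 18) (nat_lit 5) (nat_lit 21) (nat_lit 4) (nat_lit 18) (nat_lit 4) (nat_lit 357) (nat_lit 257) (nat_lit 250)) (XT.lf (nat_lit 0) (nat_lit 8946765449) (nat_lit 252) (nat_lit 2098409964) (nat_lit 0) (nat_lit 4699566916) (nat_lit 18) (nat_lit 5) (nat_lit 21) (nat_lit 4) (nat_lit 18) (nat_lit 4) (nat_lit 358) (nat_lit 257) (nat_lit 249)))) (XT.nd (nat_lit 94) (nat_lit 84) (nat_lit 0) (XT.lf (nat_lit 0) (nat_lit 3058631705) (nat_lit 168) (nat_lit 8886332316) (nat_lit 168) (nat_lit 4177511698) (nat_lit 16) (nat_lit 4) (nat_lit 18) (nat_lit 5) (nat_lit 18) (nat_lit 4) (nat_lit 359) (nat_lit 257) (nat_lit 248)) (XT.nd (nat_lit 94) (nat_lit 84) (nat_lit 0) (XT.lf (nat_lit 0) (nat_lit 8323941461) (nat_lit 168) (nat_lit 6672943403) (nat_lit 168) (nat_lit 1516380703) (nat_lit 16) (nat_lit 4) (nat_lit 18) (nat_lit 5) (nat_lit 18) (nat_lit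 4) (nat_lit 360) (nat_lit 257) (nat_lit 247)) (XT.lf (nat_lit 0) (nat_lit 1142501288) (nat_lit 252) (nat_lit 3270422001) (nat_lit 84) (nat_lit 12504852853) (nat_lit 15) (nat_lit 5) (nat_lit 18) (nat_lit 5) (nat_lit 16) (nat_lit 4) (nat_lit 361) (nat_lit 257) (nat_lit 246))))))) (XT.nd (nat_lit 1128) (nat_lit 336) (nat_lit 0) (XT.nd (nat_lit 564) (nat_lit 168) (nat_lit 0) (XT.nd (nat_lit 282) (nat_lit 168) (nat_lit 0) (XT.nd (nat_lit 94) (nat_lit 0) (nat_lit 0) (XT.lf (nat_lit 0) (nat_lit 1728573497) (nat_lit 84) (nat_lit 2082670799) (nat_lit 168) (nat_lit 13524493895) (nat_lit 14) (nat_lit 5) (nat_lit 15) (nat_lit 5) (nat_lit 16) (nat_lit 4) (nat_lit 362) (nat_lit 257) (nat_lit 245)) (XT.nd (nat_lit 94) (nat_lit 0) (nat_lit 0) (XT.lf (nat_lit 0) (nat_lit 6542681690) (nat_lit 168) (nat_lit 10909596071) (nat_lit 0) (nat_lit 315116243) (nat_lit 14) (nat_lit 5) (nat_lit 16) (nat_lit 4) (nat_lit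 14) (nat_lit 4) (nat_lit 363) (nat_lit 257) (nat_lit 244)) (XT.lf (nat_lit 0) (nat_lit 9324134300) (nat_lit 168) (nat_lit 6177271573) (nat_lit 0) (nat_lit 2712212037) (nat_lit 14) (nat_lit 5) (nat_lit 16) (nat_lit 4) (nat_lit 14) (nat_lit 4) (nat_lit 364) (nat_lit 257) (nat_lit 243)))) (XT.nd (nat_lit 94) (nat_lit 168) (nat_lit 0) (XT.lf (nat_lit 0) (nat_lit 12137534379) (nat_lit 168) (nat_lit 1385119827) (nat_lit 0) (nat_lit 5152812100) (nat_lit 14) (nat_lit 5) (nat_lit 16) (nat_lit 4) (nat_lit 14) (nat_lit 4) (nat_lit 365) (nat_lit 257) (nat_lit 242)) (XT.nd (nat_lit 94) (nat_lit 0) (nat_lit 0) (XT.lf (nat_lit 0) (nat_lit 3542703534) (nat_lit 168) (nat_lit 11477944833) (nat_lit 168) (nat_lit 4131631850) (nat_lit 12) (nat_lit 4) (nat_lit 14) (nat_lit 5) (nat_lit 14) (nat_lit 4) (nat_lit 366) (nat_lit 257) (nat_lit 241)) (XT.lf (nat_lit 0) (nat_lit 8569243649) (nat_lit 168) (nat_lit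 9386463010) (nat_lit 168) (nat_lit 1689431594) (nat_lit 12) (nat_lit 4) (nat_lit 14) (nat_lit 5) (nat_lit 14) (nat_lit 4) (nat_lit 367) (nat_lit 257) (nat_lit 240))))) (XT.nd (nat_lit 282) (nat_lit 0) (nat_lit 0) (XT.nd (nat_lit 94) (nat_lit 84) (nat_lit 0) (XT.lf (nat_lit 0) (nat_lit 760842925) (nat_lit 252) (nat_lit 6491932500) (nat_lit 84) (nat_lit 12901920307) (nat_lit 11) (nat_lit 5) (nat_lit 14) (nat_lit 5) (nat_lit 12) (nat_lit 4) (nat_lit 368) (nat_lit 257) (nat_lit 239)) (XT.nd (nat_lit 94) (nat_lit 84) (nat_lit 0) (XT.lf (nat_lit 0) (nat_lit 3202572224) (nat_lit 252) (nat_lit 1862725073) (nat_lit 84) (nat_lit 15615841791) (nat_lit 11) (nat_lit 5) (nat_lit 14) (nat_lit 5) (nat_lit 12) (nat_lit 4) (nat_lit 369) (nat_lit 257) (nat_lit 238)) (XT.lf (nat_lit 0) (nat_lit 2891050171) (nat_lit 84) (nat_lit 2809699936) (nat_lit 168) (nat_lit 15523839388) (nat_lit 10) (nat_lit 5) (nat_lit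 11) (nat_lit 5) (nat_lit 12) (nat_lit 4) (nat_lit 370) (nat_lit 257) (nat_lit 237)))) (XT.nd (nat_lit 94) (nat_lit 0) (nat_lit 0) (XT.lf (nat_lit 0) (nat_lit 7755276848) (nat_lit 84) (nat_lit 493296135) (nat_lit 168) (nat_lit 13537263616) (nat_lit 10) (nat_lit 5) (nat_lit 11) (nat_lit 5) (nat_lit 12) (nat_lit 4) (nat_lit 371) (nat_lit 257) (nat_lit 236)) (XT.nd (nat_lit 94) (nat_lit 0) (nat_lit 0) (XT.lf (nat_lit 0) (nat_lit 10848074477) (nat_lit 168) (nat_lit 9688317880) (nat_lit 0) (nat_lit 1829021766) (nat_lit 10) (nat_lit 5) (nat_lit 12) (nat_lit 4) (nat_lit 10) (nat_lit 4) (nat_lit 372) (nat_lit 257) (nat_lit 235)) (XT.lf (nat_lit 0) (nat_lit 13488490260) (nat_lit 168) (nat_lit 5289578952) (nat_lit 0) (nat_lit 4186201887) (nat_lit 10) (nat_lit 5) (nat_lit 12) (nat_lit 4) (nat_lit 10) (nat_lit 4) (nat_lit 373) (nat_lit 257) (nat_lit 234)))))) (XT.nd (nat_lit 564) (nat_lit 84) (nat_lit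 0) (XT.nd (nat_lit 282) (nat_lit 84) (nat_lit 0) (XT.nd (nat_lit 94) (nat_lit 168) (nat_lit 0) (XT.lf (nat_lit 0) (nat_lit 16167387919) (nat_lit 168) (nat_lit 825349322) (nat_lit 0) (nat_lit 6590380184) (nat_lit 10) (nat_lit 5) (nat_lit 12) (nat_lit 4) (nat_lit 10) (nat_lit 4) (nat_lit 374) (nat_lit 257) (nat_lit 233)) (XT.nd (nat_lit 94) (nat_lit 0) (nat_lit 0) (XT.lf (nat_lit 0) (nat_lit 3784787165) (nat_lit 168) (nat_lit 15140022859) (nat_lit 168) (nat_lit 5296555995) (nat_lit 8) (nat_lit 4) (nat_lit 10) (nat_lit 5) (nat_lit 10) (nat_lit 4) (nat_lit 375) (nat_lit 257) (nat_lit 232)) (XT.lf (nat_lit 0) (nat_lit 8487291492) (nat_lit 168) (nat_lit 13247558604) (nat_lit 168) (nat_lit 3145644477) (nat_lit 8) (nat_lit 4) (nat_lit 10) (nat_lit 5) (nat_lit 10) (nat_lit 4) (nat_lit 376) (nat_lit 257) (nat_lit 231)))) (XT.nd (nat_lit 94) (nat_lit 84) (nat_lit 0) (XT.lf (nat_lit 0) (nat_lit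 13269576009) (nat_lit 168) (nat_lit 11322195456) (nat_lit 168) (nat_lit 969605030) (nat_lit 8) (nat_lit 4) (nat_lit 10) (nat_lit 5) (nat_lit 10) (nat_lit 4) (nat_lit 377) (nat_lit 257) (nat_lit 230)) (XT.nd (nat_lit 94) (nat_lit 0) (nat_lit 0) (XT.lf (nat_lit 0) (nat_lit 1208736538) (nat_lit 252) (nat_lit 8140785506) (nat_lit 84) (nat_lit 16914745039) (nat_lit 7) (nat_lit 5) (nat_lit 10) (nat_lit 5) (nat_lit 8) (nat_lit 4) (nat_lit 378) (nat_lit 257) (nat_lit 229)) (XT.lf (nat_lit 0) (nat_lit 3396164047) (nat_lit 252) (nat_lit 3933948548) (nat_lit 84) (nat_lit 19659781461) (nat_lit 7) (nat_lit 5) (nat_lit 10) (nat_lit 5) (nat_lit 8) (nat_lit 4) (nat_lit 379) (nat_lit 257) (nat_lit 228))))) (XT.nd (nat_lit 282) (nat_lit 0) (nat_lit 0) (XT.nd (nat_lit 94) (nat_lit 0) (nat_lit 0) (XT.lf (nat_lit 0) (nat_lit 349287569) (nat_lit 84) (nat_lit 5268429195) (nat_lit 168) (nat_lit 22121407772)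 (nat_lit 6) (nat_lit 5) (nat_lit 7) (nat_lit 5) (nat_lit 8) (nat_lit 4) (nat_lit 380) (nat_lit 257) (nat_lit 227)) (XT.nd (nat_lit 94) (nat_lit 0) (nat_lit 0) (XT.lf (nat_lit 0) (nat_lit 4788269573) (nat_lit 84) (nat_lit 3124297905) (nat_lit 168) (nat_lit 20598939243) (nat_lit 6) (nat_lit 5) (nat_lit 7) (nat_lit 5) (nat_lit 8) (nat_lit 4) (nat_lit 381) (nat_lit 257) (nat_lit 226)) (XT.lf (nat_lit 0) (nat_lit 9306245010) (nat_lit 84) (nat_lit 936782526) (nat_lit 168) (nat_lit 19065967674) (nat_lit 6) (nat_lit 5) (nat_lit 7) (nat_lit 5) (nat_lit 8) (nat_lit 4) (nat_lit 382) (nat_lit 257) (nat_lit 225)))) (XT.nd (nat_lit 94) (nat_lit 0) (nat_lit 0) (XT.lf (nat_lit 0) (nat_lit 12624127198) (nat_lit 168) (nat_lit 16237766269) (nat_lit 0) (nat_lit 1270041282) (nat_lit 6) (nat_lit 5) (nat_lit 8) (nat_lit 4) (nat_lit 6) (nat_lit 4) (nat_lit 383) (nat_lit 257) (nat_lit 224)) (XT.nd (nat_lit 94)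 (nat_lit 0) (nat_lit 0) (XT.lf (nat_lit 0) (nat_lit 15054980132) (nat_lit 168) (nat_lit 12421670230) (nat_lit 0) (nat_lit 3504538318) (nat_lit 6) (nat_lit 5) (nat_lit 8) (nat_lit 4) (nat_lit 6) (nat_lit 4) (nat_lit 384) (nat_lit 257) (nat_lit 223)) (XT.lf (nat_lit 0) (nat_lit 17528559150) (nat_lit 168) (nat_lit 8541612083) (nat_lit 0) (nat_lit 5787665447) (nat_lit 6) (nat_lit 5) (nat_lit 8) (nat_lit 4) (nat_lit 6) (nat_lit 4) (nat_lit 385) (nat_lit 257) (nat_lit 222))))))))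
noncomputable def xc23 : XT := (XT.nd (nat_lit 2256) (nat_lit 0) (nat_lit 0) (XT.nd (nat_lit 1128) (nat_lit 0) (nat_lit 0) (XT.nd (nat_lit 564) (nat_lit 168) (nat_lit 0) (XT.nd (nat_lit 282) (nat_lit 0) (nat_lit 0) (XT.nd (nat_lit 94) (nat_lit 84) (nat_lit 0) (XT.lf (nat_lit 0) (nat_lit 20047169888) (nat_lit 168) (nat_lit 4593975208) (nat_lit 0) (nat_lit 8121550782) (nat_lit 6) (nat_lit 5) (nat_lit 8) (nat_lit 4) (nat_lit 6) (nat_lit 4) (nat_lit 386) (nat_lit 257) (nat_lit 221)) (XT.nd (nat_lit 94) (nat_lit 84) (nat_lit 0) (XT.lf (nat_lit 0) (nat_lit 22613159954) (nat_lit 168) (nat_lit 575079994) (nat_lit 0) (nat_lit 10508369750) (nat_lit 6) (nat_lit 5) (nat_lit 8) (nat_lit 4) (nat_lit 6) (nat_lit 4) (nat_lit 387) (nat_lit 257) (nat_lit 220)) (XT.lf (nat_lit 0) (nat_lit 3591173738) (nat_lit 84) (nat_lit 21673372269) (nat_lit 84) (nat_lit 9394798265) (nat_lit 5) (nat_lit 4) (nat_lit 6)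 (nat_lit 5) (nat_lit 6) (nat_lit 4) (nat_lit 388) (nat_lit 257) (nat_lit 219)))) (XT.nd (nat_lit 94) (nat_lit 0) (nat_lit 0) (XT.lf (nat_lit 0) (nat_lit 7849693315) (nat_lit 84) (nat_lit 20125068161) (nat_lit 84) (nat_lit 7677935670) (nat_lit 5) (nat_lit 4) (nat_lit 6) (nat_lit 5) (nat_lit 6) (nat_lit 4) (nat_lit 389) (nat_lit 257) (nat_lit 218)) (XT.nd (nat_lit 94) (nat_lit 0) (nat_lit 0) (XT.lf (nat_lit 0) (nat_lit 12192623301) (nat_lit 84) (nat_lit 18547887098) (nat_lit 84) (nat_lit 5937264318) (nat_lit 5) (nat_lit 4) (nat_lit 6) (nat_lit 5) (nat_lit 6) (nat_lit 4) (nat_lit 390) (nat_lit 257) (nat_lit 217)) (XT.lf (nat_lit 0) (nat_lit 16624011760) (nat_lit 84) (nat_lit 16940358982) (nat_lit 84) (nat_lit 4171161723) (nat_lit 5) (nat_lit 4) (nat_lit 6) (nat_lit 5) (nat_lit 6) (nat_lit 4) (nat_lit 391) (nat_lit 257) (nat_lit 216))))) (XT.nd (nat_lit 282) (nat_lit 84) (nat_lit 0) (XT.nd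 (nat_lit 94) (nat_lit 84) (nat_lit 0) (XT.lf (nat_lit 0) (nat_lit 21147989210) (nat_lit 84) (nat_lit 15300985428) (nat_lit 84) (nat_lit 2377981691) (nat_lit 5) (nat_lit 4) (nat_lit 6) (nat_lit 5) (nat_lit 6) (nat_lit 4) (nat_lit 392) (nat_lit 257) (nat_lit 215)) (XT.nd (nat_lit 94) (nat_lit 84) (nat_lit 0) (XT.lf (nat_lit 0) (nat_lit 25768772472) (nat_lit 84) (nat_lit 13628238370) (nat_lit 84) (nat_lit 556052791) (nat_lit 5) (nat_lit 4) (nat_lit 6) (nat_lit 5) (nat_lit 6) (nat_lit 4) (nat_lit 393) (nat_lit 257) (nat_lit 214)) (XT.lf (nat_lit 0) (nat_lit 1270205181) (nat_lit 168) (nat_lit 10637095111) (nat_lit 84) (nat_lit 29207205082) (nat_lit 4) (nat_lit 5) (nat_lit 6) (nat_lit 5) (nat_lit 5) (nat_lit 4) (nat_lit 394) (nat_lit 257) (nat_lit 213)))) (XT.nd (nat_lit 94) (nat_lit 84) (nat_lit 0) (XT.lf (nat_lit 0) (nat_lit 3116785407) (nat_lit 168) (nat_lit 7027036219) (nat_lit 84) (nat_lit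 32168760643) (nat_lit 4) (nat_lit 5) (nat_lit 6) (nat_lit 5) (nat_lit 5) (nat_lit 4) (nat_lit 395) (nat_lit 257) (nat_lit 212)) (XT.nd (nat_lit 94) (nat_lit 84) (nat_lit 0) (XT.lf (nat_lit 0) (nat_lit 4996612315) (nat_lit 168) (nat_lit 3345233418) (nat_lit 84) (nat_lit 35206736315) (nat_lit 4) (nat_lit 5) (nat_lit 6) (nat_lit 5) (nat_lit 5) (nat_lit 4) (nat_lit 396) (nat_lit 257) (nat_lit 211)) (XT.lf (nat_lit 0) (nat_lit 420211441) (nat_lit 84) (nat_lit 6495395211) (nat_lit 168) (nat_lit 37907920916) (nat_lit 3) (nat_lit 5) (nat_lit 4) (nat_lit 5) (nat_lit 5) (nat_lit 4) (nat_lit 397) (nat_lit 257) (nat_lit 210)))))) (XT.nd (nat_lit 564) (nat_lit 0) (nat_lit 0) (XT.nd (nat_lit 282) (nat_lit 0) (nat_lit 0) (XT.nd (nat_lit 94) (nat_lit 0) (nat_lit 0) (XT.lf (nat_lit 0) (nat_lit 4334736566) (nat_lit 84) (nat_lit 4571312144) (nat_lit 168) (nat_lit 37231613262) (nat_lit 3) (nat_lit 5) (nat_lit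 4) (nat_lit 5) (nat_lit 5) (nat_lit 4) (nat_lit 398) (nat_lit 257) (nat_lit 209)) (XT.nd (nat_lit 94) (nat_lit 0) (nat_lit 0) (XT.lf (nat_lit 0) (nat_lit 8333205843) (nat_lit 84) (nat_lit 2602720462) (nat_lit 168) (nat_lit 36557333758) (nat_lit 3) (nat_lit 5) (nat_lit 4) (nat_lit 5) (nat_lit 5) (nat_lit 4) (nat_lit 399) (nat_lit 257) (nat_lit 208)) (XT.lf (nat_lit 0) (nat_lit 12419346266) (nat_lit 84) (nat_lit 587785232) (nat_lit 168) (nat_lit 35884453904) (nat_lit 3) (nat_lit 5) (nat_lit 4) (nat_lit 5) (nat_lit 5) (nat_lit 4) (nat_lit 400) (nat_lit 257) (nat_lit 207)))) (XT.nd (nat_lit 94) (nat_lit 0) (nat_lit 0) (XT.lf (nat_lit 0) (nat_lit 15136230736) (nat_lit 168) (nat_lit 33751610698) (nat_lit 0) (nat_lit 1445646226) (nat_lit 3) (nat_lit 5) (nat_lit 5) (nat_lit 4) (nat_lit 3) (nat_lit 4) (nat_lit 401) (nat_lit 257) (nat_lit 206)) (XT.nd (nat_lit 94) (nat_lit 0) (nat_lit 0) (XT.lf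 (nat_lit 0) (nat_lit 17316887397) (nat_lit 168) (nat_lit 30987311828) (nat_lit 0) (nat_lit 3516369575) (nat_lit 3) (nat_lit 5) (nat_lit 5) (nat_lit 4) (nat_lit 3) (nat_lit 4) (nat_lit 402) (nat_lit 257) (nat_lit 205)) (XT.lf (nat_lit 0) (nat_lit 19545303177) (nat_lit 168) (nat_lit 28170935008) (nat_lit 0) (nat_lit 5638157507) (nat_lit 3) (nat_lit 5) (nat_lit 5) (nat_lit 4) (nat_lit 3) (nat_lit 4) (nat_lit 403) (nat_lit 257) (nat_lit 204))))) (XT.nd (nat_lit 282) (nat_lit 0) (nat_lit 0) (XT.nd (nat_lit 94) (nat_lit 0) (nat_lit 0) (XT.lf (nat_lit 0) (nat_lit 21823555196) (nat_lit 168) (nat_lit 25299855080) (nat_lit 0) (nat_lit 7812987752) (nat_lit 3) (nat_lit 5) (nat_lit 5) (nat_lit 4) (nat_lit 3) (nat_lit 4) (nat_lit 404) (nat_lit 257) (nat_lit 203)) (XT.nd (nat_lit 94) (nat_lit 0) (nat_lit 0) (XT.lf (nat_lit 0) (nat_lit 24153767021) (nat_lit 168) (nat_lit 22371395895) (nat_lit 0) (nat_lit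 10042887479) (nat_lit 3) (nat_lit 5) (nat_lit 5) (nat_lit 4) (nat_lit 3) (nat_lit 4) (nat_lit 405) (nat_lit 257) (nat_lit 202)) (XT.lf (nat_lit 0) (nat_lit 26538110655) (nat_lit 168) (nat_lit 19382827825) (nat_lit 0) (nat_lit 12329935189) (nat_lit 3) (nat_lit 5) (nat_lit 5) (nat_lit 4) (nat_lit 3) (nat_lit 4) (nat_lit 406) (nat_lit 257) (nat_lit 201)))) (XT.nd (nat_lit 94) (nat_lit 0) (nat_lit 0) (XT.lf (nat_lit 0) (nat_lit 28978808555) (nat_lit 168) (nat_lit 16331365209) (nat_lit 0) (nat_lit 14676262648) (nat_lit 3) (nat_lit 5) (nat_lit 5) (nat_lit 4) (nat_lit 3) (nat_lit 4) (nat_lit 407) (nat_lit 257) (nat_lit 200)) (XT.nd (nat_lit 94) (nat_lit 0) (nat_lit 0) (XT.lf (nat_lit 0) (nat_lit 31478135708) (nat_lit 168) (nat_lit 13214163766) (nat_lit 0) (nat_lit 17084056880) (nat_lit 3) (nat_lit 5) (nat_lit 5) (nat_lit 4) (nat_lit 3) (nat_lit 4) (nat_lit 408) (nat_lit 257) (nat_lit 199))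 (XT.lf (nat_lit 0) (nat_lit 34038421748) (nat_lit 168) (nat_lit 10028317936) (nat_lit 0) (nat_lit 19555562202) (nat_lit 3) (nat_lit 5) (nat_lit 5) (nat_lit 4) (nat_lit 3) (nat_lit 4) (nat_lit 409) (nat_lit 257) (nat_lit 198))))))) (XT.nd (nat_lit 49350) (nat_lit 0) (nat_lit 672) (XT.nd (nat_lit 48786) (nat_lit 0) (nat_lit 1260) (XT.nd (nat_lit 48504) (nat_lit 0) (nat_lit 1680) (XT.nd (nat_lit 94) (nat_lit 0) (nat_lit 0) (XT.lf (nat_lit 0) (nat_lit 36662053130) (nat_lit 168) (nat_lit 6770858179) (nat_lit 0) (nat_lit 22093082316) (nat_lit 3) (nat_lit 5) (nat_lit 5) (nat_lit 4) (nat_lit 3) (nat_lit 4) (nat_lit 410) (nat_lit 257) (nat_lit 197)) (XT.nd (nat_lit 48316) (nat_lit 0) (nat_lit 1932) (XT.lf (nat_lit 0) (nat_lit 39351475354) (nat_lit 168) (nat_lit 3438748200) (nat_lit 0) (nat_lit 24698982455) (nat_lit 3) (nat_lit 5) (nat_lit 5) (nat_lit 4) (nat_lit 3) (nat_lit 4) (nat_lit 411) (nat_lit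 257) (nat_lit 196)) (XT.lf (nat_lit 0) (nat_lit 485311851) (nat_lit 252) (nat_lit 2907859253) (nat_lit 252) (nat_lit 2907859253) (nat_lit 26) (nat_lit 4) (nat_lit 29) (nat_lit 5) (nat_lit 29) (nat_lit 4) (nat_lit 348) (nat_lit 258) (nat_lit 258)))) (XT.nd (nat_lit 94) (nat_lit 252) (nat_lit 0) (XT.lf (nat_lit 0) (nat_lit 6468212848) (nat_lit 252) (nat_lit 3523842794) (nat_lit 252) (nat_lit 2877992447) (nat_lit 26) (nat_lit 4) (nat_lit 29) (nat_lit 5) (nat_lit 29) (nat_lit 4) (nat_lit 349) (nat_lit 258) (nat_lit 257)) (XT.nd (nat_lit 94) (nat_lit 168) (nat_lit 0) (XT.lf (nat_lit 0) (nat_lit 73820203) (nat_lit 336) (nat_lit 1122352499) (nat_lit 84) (nat_lit 11952593836) (nat_lit 25) (nat_lit 5) (nat_lit 29) (nat_lit 5) (nat_lit 26) (nat_lit 4) (nat_lit 350) (nat_lit 258) (nat_lit 256)) (XT.lf (nat_lit 0) (nat_lit 3040314523) (nat_lit 252) (nat_lit 9178637162) (nat_lit 0) (nat_lit 1216961605)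 (nat_lit 23) (nat_lit 5) (nat_lit 26) (nat_lit 4) (nat_lit 23) (nat_lit 4) (nat_lit 351) (nat_lit 258) (nat_lit 255))))) (XT.nd (nat_lit 282) (nat_lit 252) (nat_lit 0) (XT.nd (nat_lit 94) (nat_lit 168) (nat_lit 0) (XT.lf (nat_lit 0) (nat_lit 6051865437) (nat_lit 252) (nat_lit 4024811325) (nat_lit 0) (nat_lit 3656905918) (nat_lit 23) (nat_lit 5) (nat_lit 26) (nat_lit 4) (nat_lit 23) (nat_lit 4) (nat_lit 352) (nat_lit 258) (nat_lit 254)) (XT.nd (nat_lit 94) (nat_lit 0) (nat_lit 0) (XT.lf (nat_lit 0) (nat_lit 1208054257) (nat_lit 168) (nat_lit 7891864611) (nat_lit 168) (nat_lit 4942485497) (nat_lit 21) (nat_lit 4) (nat_lit 23) (nat_lit 5) (nat_lit 23) (nat_lit 4) (nat_lit 353) (nat_lit 258) (nat_lit 253)) (XT.lf (nat_lit 0) (nat_lit 6584457828) (nat_lit 168) (nat_lit 5632213417) (nat_lit 168) (nat_lit 2145084939) (nat_lit 21) (nat_lit 4) (nat_lit 23) (nat_lit 5) (nat_lit 23) (nat_lit 4)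 (nat_lit 354) (nat_lit 258) (nat_lit 252)))) (XT.nd (nat_lit 94) (nat_lit 168) (nat_lit 0) (XT.lf (nat_lit 0) (nat_lit 657560335) (nat_lit 252) (nat_lit 2673203808) (nat_lit 84) (nat_lit 11362228464) (nat_lit 20) (nat_lit 5) (nat_lit 23) (nat_lit 5) (nat_lit 21) (nat_lit 4) (nat_lit 355) (nat_lit 258) (nat_lit 251)) (XT.nd (nat_lit 94) (nat_lit 0) (nat_lit 0) (XT.lf (nat_lit 0) (nat_lit 2518607116) (nat_lit 168) (nat_lit 944324205) (nat_lit 252) (nat_lit 11572256853) (nat_lit 18) (nat_lit 5) (nat_lit 20) (nat_lit 5) (nat_lit 21) (nat_lit 4) (nat_lit 356) (nat_lit 258) (nat_lit 250)) (XT.lf (nat_lit 0) (nat_lit 6334536528) (nat_lit 252) (nat_lit 7574494589) (nat_lit 0) (nat_lit 1479742471) (nat_lit 18) (nat_lit 5) (nat_lit 21) (nat_lit 4) (nat_lit 18) (nat_lit 4) (nat_lit 357) (nat_lit 258) (nat_lit 249)))))) (XT.nd (nat_lit 564) (nat_lit 252) (nat_lit 0) (XT.nd (nat_lit 282) (nat_lit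 168) (nat_lit 0) (XT.nd (nat_lit 94) (nat_lit 168) (nat_lit 0) (XT.lf (nat_lit 0) (nat_lit 9242782583) (nat_lit 252) (nat_lit 2585929776) (nat_lit 0) (nat_lit 3926366440) (nat_lit 18) (nat_lit 5) (nat_lit 21) (nat_lit 4) (nat_lit 18) (nat_lit 4) (nat_lit 358) (nat_lit 258) (nat_lit 248)) (XT.nd (nat_lit 94) (nat_lit 0) (nat_lit 0) (XT.lf (nat_lit 0) (nat_lit 2513778085) (nat_lit 168) (nat_lit 9692171367) (nat_lit 168) (nat_lit 3928013143) (nat_lit 16) (nat_lit 4) (nat_lit 18) (nat_lit 5) (nat_lit 18) (nat_lit 4) (nat_lit 359) (nat_lit 258) (nat_lit 247)) (XT.lf (nat_lit 0) (nat_lit 7733200934) (nat_lit 168) (nat_lit 7495478282) (nat_lit 168) (nat_lit 1297040638) (nat_lit 16) (nat_lit 4) (nat_lit 18) (nat_lit 5) (nat_lit 18) (nat_lit 4) (nat_lit 360) (nat_lit 258) (nat_lit 246)))) (XT.nd (nat_lit 94) (nat_lit 84) (nat_lit 0) (XT.lf (nat_lit 0) (nat_lit 1328759809) (nat_lit 252) (nat_lit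 3920948022) (nat_lit 84) (nat_lit 11681402464) (nat_lit 15) (nat_lit 5) (nat_lit 18) (nat_lit 5) (nat_lit 16) (nat_lit 4) (nat_lit 361) (nat_lit 258) (nat_lit 245)) (XT.nd (nat_lit 94) (nat_lit 0) (nat_lit 0) (XT.lf (nat_lit 0) (nat_lit 1019973157) (nat_lit 84) (nat_lit 2942699741) (nat_lit 168) (nat_lit 13387536192) (nat_lit 14) (nat_lit 5) (nat_lit 15) (nat_lit 5) (nat_lit 16) (nat_lit 4) (nat_lit 362) (nat_lit 258) (nat_lit 244)) (XT.lf (nat_lit 0) (nat_lit 6109132572) (nat_lit 84) (nat_lit 554392760) (nat_lit 168) (nat_lit 11119343009) (nat_lit 14) (nat_lit 5) (nat_lit 15) (nat_lit 5) (nat_lit 16) (nat_lit 4) (nat_lit 363) (nat_lit 258) (nat_lit 243))))) (XT.nd (nat_lit 282) (nat_lit 84) (nat_lit 0) (XT.nd (nat_lit 94) (nat_lit 168) (nat_lit 0) (XT.lf (nat_lit 0) (nat_lit 9412753747) (nat_lit 168) (nat_lit 6978686029) (nat_lit 0) (nat_lit 1838705061) (nat_lit 14) (nat_lit 5) (nat_lit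 16) (nat_lit 4) (nat_lit 14) (nat_lit 4) (nat_lit 364) (nat_lit 258) (nat_lit 242)) (XT.nd (nat_lit 94) (nat_lit 168) (nat_lit 0) (XT.lf (nat_lit 0) (nat_lit 12200232826) (nat_lit 168) (nat_lit 2228022550) (nat_lit 0) (nat_lit 4264593437) (nat_lit 14) (nat_lit 5) (nat_lit 16) (nat_lit 4) (nat_lit 14) (nat_lit 4) (nat_lit 365) (nat_lit 258) (nat_lit 241)) (XT.lf (nat_lit 0) (nat_lit 2641400768) (nat_lit 168) (nat_lit 12407863402) (nat_lit 168) (nat_lit 4121505580) (nat_lit 12) (nat_lit 4) (nat_lit 14) (nat_lit 5) (nat_lit 14) (nat_lit 4) (nat_lit 366) (nat_lit 258) (nat_lit 240)))) (XT.nd (nat_lit 94) (nat_lit 84) (nat_lit 0) (XT.lf (nat_lit 0) (nat_lit 7628107483) (nat_lit 168) (nat_lit 10331434172) (nat_lit 168) (nat_lit 1704903282) (nat_lit 12) (nat_lit 4) (nat_lit 14) (nat_lit 5) (nat_lit 14) (nat_lit 4) (nat_lit 367) (nat_lit 258) (nat_lit 239)) (XT.nd (nat_lit 94) (nat_lit 0) (nat_lit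 0) (XT.lf (nat_lit 0) (nat_lit 721354910) (nat_lit 252) (nat_lit 7491403844) (nat_lit 84) (nat_lit 11962048637) (nat_lit 11) (nat_lit 5) (nat_lit 14) (nat_lit 5) (nat_lit 12) (nat_lit 4) (nat_lit 368) (nat_lit 258) (nat_lit 238)) (XT.lf (nat_lit 0) (nat_lit 3139487656) (nat_lit 252) (nat_lit 2900200273) (nat_lit 84) (nat_lit 14662338975) (nat_lit 11) (nat_lit 5) (nat_lit 14) (nat_lit 5) (nat_lit 12) (nat_lit 4) (nat_lit 369) (nat_lit 258) (nat_lit 237))))))))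
noncomputable def xc24 : XT := (XT.nd (nat_lit 2256) (nat_lit 168) (nat_lit 0) (XT.nd (nat_lit 1128) (nat_lit 84) (nat_lit 0) (XT.nd (nat_lit 564) (nat_lit 168) (nat_lit 0) (XT.nd (nat_lit 282) (nat_lit 168) (nat_lit 0) (XT.nd (nat_lit 94) (nat_lit 0) (nat_lit 0) (XT.lf (nat_lit 0) (nat_lit 1794623253) (nat_lit 84) (nat_lit 3809278539) (nat_lit 168) (nat_lit 15642665513) (nat_lit 10) (nat_lit 5) (nat_lit 11) (nat_lit 5) (nat_lit 12) (nat_lit 4) (nat_lit 370) (nat_lit 258) (nat_lit 236)) (XT.nd (nat_lit 94) (nat_lit 0) (nat_lit 0) (XT.lf (nat_lit 0) (nat_lit 6622361958) (nat_lit 84) (nat_lit 1506801857) (nat_lit 168) (nat_lit 13679392000) (nat_lit 10) (nat_lit 5) (nat_lit 11) (nat_lit 5) (nat_lit 12) (nat_lit 4) (nat_lit 371) (nat_lit 258) (nat_lit 235)) (XT.lf (nat_lit 0) (nat_lit 10696594704) (nat_lit 168) (nat_lit 10869873847) (nat_lit 0) (nat_lit 822699730) (nat_lit 10) (nat_lit 5)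 (nat_lit 12) (nat_lit 4) (nat_lit 10) (nat_lit 4) (nat_lit 372) (nat_lit 258) (nat_lit 234)))) (XT.nd (nat_lit 94) (nat_lit 168) (nat_lit 0) (XT.lf (nat_lit 0) (nat_lit 13315655976) (nat_lit 168) (nat_lit 6506029160) (nat_lit 0) (nat_lit 3167041639) (nat_lit 10) (nat_lit 5) (nat_lit 12) (nat_lit 4) (nat_lit 10) (nat_lit 4) (nat_lit 373) (nat_lit 258) (nat_lit 233)) (XT.nd (nat_lit 94) (nat_lit 168) (nat_lit 0) (XT.lf (nat_lit 0) (nat_lit 15973841208) (nat_lit 168) (nat_lit 2075644576) (nat_lit 0) (nat_lit 5558767743) (nat_lit 10) (nat_lit 5) (nat_lit 12) (nat_lit 4) (nat_lit 10) (nat_lit 4) (nat_lit 374) (nat_lit 258) (nat_lit 232)) (XT.lf (nat_lit 0) (nat_lit 2475280881) (nat_lit 168) (nat_lit 16222902320) (nat_lit 168) (nat_lit 5549381591) (nat_lit 8) (nat_lit 4) (nat_lit 10) (nat_lit 5) (nat_lit 10) (nat_lit 4) (nat_lit 375) (nat_lit 258) (nat_lit 231))))) (XT.nd (nat_lit 282) (nat_lit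 84) (nat_lit 0) (XT.nd (nat_lit 94) (nat_lit 84) (nat_lit 0) (XT.lf (nat_lit 0) (nat_lit 7145290159) (nat_lit 168) (nat_lit 14343125165) (nat_lit 168) (nat_lit 3418928137) (nat_lit 8) (nat_lit 4) (nat_lit 10) (nat_lit 5) (nat_lit 10) (nat_lit 4) (nat_lit 376) (nat_lit 258) (nat_lit 230)) (XT.nd (nat_lit 94) (nat_lit 84) (nat_lit 0) (XT.lf (nat_lit 0) (nat_lit 11896056686) (nat_lit 168) (nat_lit 12430067641) (nat_lit 168) (nat_lit 1262731624) (nat_lit 8) (nat_lit 4) (nat_lit 10) (nat_lit 5) (nat_lit 10) (nat_lit 4) (nat_lit 377) (nat_lit 258) (nat_lit 229)) (XT.lf (nat_lit 0) (nat_lit 902657264) (nat_lit 252) (nat_lit 9569867426) (nat_lit 84) (nat_lit 15819929519) (nat_lit 7) (nat_lit 5) (nat_lit 10) (nat_lit 5) (nat_lit 8) (nat_lit 4) (nat_lit 378) (nat_lit 258) (nat_lit 228)))) (XT.nd (nat_lit 94) (nat_lit 84) (nat_lit 0) (XT.lf (nat_lit 0) (nat_lit 3071793281) (nat_lit 252) (nat_lit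 5393089627) (nat_lit 84) (nat_lit 18553797233) (nat_lit 7) (nat_lit 5) (nat_lit 10) (nat_lit 5) (nat_lit 8) (nat_lit 4) (nat_lit 379) (nat_lit 258) (nat_lit 227)) (XT.nd (nat_lit 94) (nat_lit 84) (nat_lit 0) (XT.lf (nat_lit 0) (nat_lit 5272139516) (nat_lit 252) (nat_lit 1146046219) (nat_lit 84) (nat_lit 21350413249) (nat_lit 7) (nat_lit 5) (nat_lit 10) (nat_lit 5) (nat_lit 8) (nat_lit 4) (nat_lit 380) (nat_lit 258) (nat_lit 226)) (XT.lf (nat_lit 0) (nat_lit 3240510551) (nat_lit 84) (nat_lit 4297382639) (nat_lit 168) (nat_lit 21004020020) (nat_lit 6) (nat_lit 5) (nat_lit 7) (nat_lit 5) (nat_lit 8) (nat_lit 4) (nat_lit 381) (nat_lit 258) (nat_lit 225)))))) (XT.nd (nat_lit 564) (nat_lit 84) (nat_lit 0) (XT.nd (nat_lit 282) (nat_lit 0) (nat_lit 0) (XT.nd (nat_lit 94) (nat_lit 0) (nat_lit 0) (XT.lf (nat_lit 0) (nat_lit 7730493581) (nat_lit 84) (nat_lit 2120891333) (nat_lit 168) (nat_lit 19488571933)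 (nat_lit 6) (nat_lit 5) (nat_lit 7) (nat_lit 5) (nat_lit 8) (nat_lit 4) (nat_lit 382) (nat_lit 258) (nat_lit 224)) (XT.nd (nat_lit 94) (nat_lit 0) (nat_lit 0) (XT.lf (nat_lit 0) (nat_lit 12204173866) (nat_lit 168) (nat_lit 17860315947) (nat_lit 0) (nat_lit 99312457) (nat_lit 6) (nat_lit 5) (nat_lit 8) (nat_lit 4) (nat_lit 6) (nat_lit 4) (nat_lit 383) (nat_lit 258) (nat_lit 223)) (XT.lf (nat_lit 0) (nat_lit 14618960647) (nat_lit 168) (nat_lit 14070973660) (nat_lit 0) (nat_lit 2323647349) (nat_lit 6) (nat_lit 5) (nat_lit 8) (nat_lit 4) (nat_lit 6) (nat_lit 4) (nat_lit 384) (nat_lit 258) (nat_lit 222)))) (XT.nd (nat_lit 94) (nat_lit 0) (nat_lit 0) (XT.lf (nat_lit 0) (nat_lit 17076956588) (nat_lit 168) (nat_lit 10216864835) (nat_lit 0) (nat_lit 4596917888) (nat_lit 6) (nat_lit 5) (nat_lit 8) (nat_lit 4) (nat_lit 6) (nat_lit 4) (nat_lit 385) (nat_lit 258) (nat_lit 221)) (XT.nd (nat_lit 94)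 (nat_lit 0) (nat_lit 0) (XT.lf (nat_lit 0) (nat_lit 19580452798) (nat_lit 168) (nat_lit 6294397042) (nat_lit 0) (nat_lit 6921243000) (nat_lit 6) (nat_lit 5) (nat_lit 8) (nat_lit 4) (nat_lit 6) (nat_lit 4) (nat_lit 386) (nat_lit 258) (nat_lit 220)) (XT.lf (nat_lit 0) (nat_lit 22131782799) (nat_lit 168) (nat_lit 2299914127) (nat_lit 0) (nat_lit 9298789200) (nat_lit 6) (nat_lit 5) (nat_lit 8) (nat_lit 4) (nat_lit 6) (nat_lit 4) (nat_lit 387) (nat_lit 258) (nat_lit 219))))) (XT.nd (nat_lit 282) (nat_lit 0) (nat_lit 0) (XT.nd (nat_lit 94) (nat_lit 0) (nat_lit 0) (XT.lf (nat_lit 0) (nat_lit 1806708330) (nat_lit 84) (nat_lit 22944539136) (nat_lit 84) (nat_lit 9942987051) (nat_lit 5) (nat_lit 4) (nat_lit 6) (nat_lit 5) (nat_lit 6) (nat_lit 4) (nat_lit 388) (nat_lit 258) (nat_lit 218)) (XT.nd (nat_lit 94) (nat_lit 0) (nat_lit 0) (XT.lf (nat_lit 0) (nat_lit 6041789356) (nat_lit 84) (nat_lit 21405649342)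 (nat_lit 84) (nat_lit 8240606968) (nat_lit 5) (nat_lit 4) (nat_lit 6) (nat_lit 5) (nat_lit 6) (nat_lit 4) (nat_lit 389) (nat_lit 258) (nat_lit 217)) (XT.lf (nat_lit 0) (nat_lit 10361985537) (nat_lit 84) (nat_lit 19837599525) (nat_lit 84) (nat_lit 6513982672) (nat_lit 5) (nat_lit 4) (nat_lit 6) (nat_lit 5) (nat_lit 6) (nat_lit 4) (nat_lit 390) (nat_lit 258) (nat_lit 216)))) (XT.nd (nat_lit 94) (nat_lit 0) (nat_lit 0) (XT.lf (nat_lit 0) (nat_lit 14771323749) (nat_lit 84) (nat_lit 18238928097) (nat_lit 84) (nat_lit 4761504766) (nat_lit 5) (nat_lit 4) (nat_lit 6) (nat_lit 5) (nat_lit 6) (nat_lit 4) (nat_lit 391) (nat_lit 258) (nat_lit 215)) (XT.nd (nat_lit 94) (nat_lit 0) (nat_lit 0) (XT.lf (nat_lit 0) (nat_lit 19273913957) (nat_lit 84) (nat_lit 16608144930) (nat_lit 84) (nat_lit 2981539757) (nat_lit 5) (nat_lit 4) (nat_lit 6) (nat_lit 5) (nat_lit 6) (nat_lit 4) (nat_lit 392) (nat_lit 258)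 (nat_lit 214)) (XT.lf (nat_lit 0) (nat_lit 23873953047) (nat_lit 84) (nat_lit 14943729963) (nat_lit 84) (nat_lit 1172428533) (nat_lit 5) (nat_lit 4) (nat_lit 6) (nat_lit 5) (nat_lit 6) (nat_lit 4) (nat_lit 393) (nat_lit 258) (nat_lit 213))))))) (XT.nd (nat_lit 1128) (nat_lit 0) (nat_lit 0) (XT.nd (nat_lit 564) (nat_lit 0) (nat_lit 0) (XT.nd (nat_lit 282) (nat_lit 84) (nat_lit 0) (XT.nd (nat_lit 94) (nat_lit 0) (nat_lit 0) (XT.lf (nat_lit 0) (nat_lit 654066245) (nat_lit 168) (nat_lit 12583238431) (nat_lit 84) (nat_lit 27914835381) (nat_lit 4) (nat_lit 5) (nat_lit 6) (nat_lit 5) (nat_lit 5) (nat_lit 4) (nat_lit 394) (nat_lit 258) (nat_lit 212)) (XT.nd (nat_lit 94) (nat_lit 0) (nat_lit 0) (XT.lf (nat_lit 0) (nat_lit 2488830959) (nat_lit 168) (nat_lit 8992956948) (nat_lit 84) (nat_lit 30868814324) (nat_lit 4) (nat_lit 5) (nat_lit 6) (nat_lit 5) (nat_lit 5) (nat_lit 4) (nat_lit 395) (nat_lit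 258) (nat_lit 211)) (XT.lf (nat_lit 0) (nat_lit 4357197623) (nat_lit 168) (nat_lit 5330336890) (nat_lit 84) (nat_lit 33899441189) (nat_lit 4) (nat_lit 5) (nat_lit 6) (nat_lit 5) (nat_lit 5) (nat_lit 4) (nat_lit 396) (nat_lit 258) (nat_lit 210)))) (XT.nd (nat_lit 94) (nat_lit 84) (nat_lit 0) (XT.lf (nat_lit 0) (nat_lit 6260907752) (nat_lit 168) (nat_lit 1591964314) (nat_lit 84) (nat_lit 37009540840) (nat_lit 4) (nat_lit 5) (nat_lit 6) (nat_lit 5) (nat_lit 5) (nat_lit 4) (nat_lit 397) (nat_lit 258) (nat_lit 209)) (XT.nd (nat_lit 94) (nat_lit 0) (nat_lit 0) (XT.lf (nat_lit 0) (nat_lit 2271409168) (nat_lit 84) (nat_lit 5952859294) (nat_lit 168) (nat_lit 37953135705) (nat_lit 3) (nat_lit 5) (nat_lit 4) (nat_lit 5) (nat_lit 5) (nat_lit 4) (nat_lit 398) (nat_lit 258) (nat_lit 208)) (XT.lf (nat_lit 0) (nat_lit 6252014633) (nat_lit 84) (nat_lit 3991496954) (nat_lit 168) (nat_lit 37289837154)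 (nat_lit 3) (nat_lit 5) (nat_lit 4) (nat_lit 5) (nat_lit 5) (nat_lit 4) (nat_lit 399) (nat_lit 258) (nat_lit 207))))) (XT.nd (nat_lit 282) (nat_lit 0) (nat_lit 0) (XT.nd (nat_lit 94) (nat_lit 0) (nat_lit 0) (XT.lf (nat_lit 0) (nat_lit 10320828371) (nat_lit 84) (nat_lit 1983573694) (nat_lit 168) (nat_lit 36627608079) (nat_lit 3) (nat_lit 5) (nat_lit 4) (nat_lit 5) (nat_lit 5) (nat_lit 4) (nat_lit 400) (nat_lit 258) (nat_lit 206)) (XT.nd (nat_lit 94) (nat_lit 0) (nat_lit 0) (XT.lf (nat_lit 0) (nat_lit 14409582869) (nat_lit 168) (nat_lit 35893771140) (nat_lit 0) (nat_lit 71315683) (nat_lit 3) (nat_lit 5) (nat_lit 5) (nat_lit 4) (nat_lit 3) (nat_lit 4) (nat_lit 401) (nat_lit 258) (nat_lit 205)) (XT.lf (nat_lit 0) (nat_lit 16580470334) (nat_lit 168) (nat_lit 33146023386) (nat_lit 0) (nat_lit 2135575299) (nat_lit 3) (nat_lit 5) (nat_lit 5) (nat_lit 4) (nat_lit 3) (nat_lit 4) (nat_lit 402)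 (nat_lit 258) (nat_lit 204)))) (XT.nd (nat_lit 94) (nat_lit 0) (nat_lit 0) (XT.lf (nat_lit 0) (nat_lit 18799410658) (nat_lit 168) (nat_lit 30345700023) (nat_lit 0) (nat_lit 4251093851) (nat_lit 3) (nat_lit 5) (nat_lit 5) (nat_lit 4) (nat_lit 3) (nat_lit 4) (nat_lit 403) (nat_lit 258) (nat_lit 203)) (XT.nd (nat_lit 94) (nat_lit 0) (nat_lit 0) (XT.lf (nat_lit 0) (nat_lit 21068472127) (nat_lit 168) (nat_lit 27490190859) (nat_lit 0) (nat_lit 6419843222) (nat_lit 3) (nat_lit 5) (nat_lit 5) (nat_lit 4) (nat_lit 3) (nat_lit 4) (nat_lit 404) (nat_lit 258) (nat_lit 202)) (XT.lf (nat_lit 0) (nat_lit 23389769744) (nat_lit 168) (nat_lit 24576834259) (nat_lit 0) (nat_lit 8643844913) (nat_lit 3) (nat_lit 5) (nat_lit 5) (nat_lit 4) (nat_lit 3) (nat_lit 4) (nat_lit 405) (nat_lit 258) (nat_lit 201)))))) (XT.nd (nat_lit 48598) (nat_lit 0) (nat_lit 1680) (XT.nd (nat_lit 282) (nat_lit 0) (nat_lit 0) (XT.nd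 (nat_lit 94) (nat_lit 0) (nat_lit 0) (XT.lf (nat_lit 0) (nat_lit 25765467200) (nat_lit 168) (nat_lit 21602914669) (nat_lit 0) (nat_lit 10925171929) (nat_lit 3) (nat_lit 5) (nat_lit 5) (nat_lit 4) (nat_lit 3) (nat_lit 4) (nat_lit 406) (nat_lit 258) (nat_lit 200)) (XT.nd (nat_lit 94) (nat_lit 0) (nat_lit 0) (XT.lf (nat_lit 0) (nat_lit 28197778895) (nat_lit 168) (nat_lit 18565660086) (nat_lit 0) (nat_lit 13265950704) (nat_lit 3) (nat_lit 5) (nat_lit 5) (nat_lit 4) (nat_lit 3) (nat_lit 4) (nat_lit 407) (nat_lit 258) (nat_lit 199)) (XT.lf (nat_lit 0) (nat_lit 30688971999) (nat_lit 168) (nat_lit 15462239469) (nat_lit 0) (nat_lit 15668363089) (nat_lit 3) (nat_lit 5) (nat_lit 5) (nat_lit 4) (nat_lit 3) (nat_lit 4) (nat_lit 408) (nat_lit 258) (nat_lit 198)))) (XT.nd (nat_lit 94) (nat_lit 0) (nat_lit 0) (XT.lf (nat_lit 0) (nat_lit 33241368563) (nat_lit 168) (nat_lit 12289760106) (nat_lit 0) (nat_lit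 18134648385) (nat_lit 3) (nat_lit 5) (nat_lit 5) (nat_lit 4) (nat_lit 3) (nat_lit 4) (nat_lit 409) (nat_lit 258) (nat_lit 197)) (XT.nd (nat_lit 94) (nat_lit 0) (nat_lit 0) (XT.lf (nat_lit 0) (nat_lit 35857347690) (nat_lit 168) (nat_lit 9045264913) (nat_lit 0) (nat_lit 20667105427) (nat_lit 3) (nat_lit 5) (nat_lit 5) (nat_lit 4) (nat_lit 3) (nat_lit 4) (nat_lit 410) (nat_lit 258) (nat_lit 196)) (XT.lf (nat_lit 0) (nat_lit 38539347745) (nat_lit 168) (nat_lit 5725729681) (nat_lit 0) (nat_lit 23268094731) (nat_lit 3) (nat_lit 5) (nat_lit 5) (nat_lit 4) (nat_lit 3) (nat_lit 4) (nat_lit 411) (nat_lit 258) (nat_lit 195))))) (XT.nd (nat_lit 282) (nat_lit 252) (nat_lit 0) (XT.nd (nat_lit 94) (nat_lit 252) (nat_lit 0) (XT.lf (nat_lit 0) (nat_lit 621701512) (nat_lit 252) (nat_lit 4803128942) (nat_lit 0) (nat_lit 621701512) (nat_lit 29) (nat_lit 5) (nat_lit 32) (nat_lit 4) (nat_lit 29) (nat_lit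 4) (nat_lit 346) (nat_lit 259) (nat_lit 259)) (XT.nd (nat_lit 94) (nat_lit 252) (nat_lit 0) (XT.lf (nat_lit 0) (nat_lit 4314221123) (nat_lit 252) (nat_lit 4380632407) (nat_lit 0) (nat_lit 3648349415) (nat_lit 29) (nat_lit 5) (nat_lit 32) (nat_lit 4) (nat_lit 29) (nat_lit 4) (nat_lit 347) (nat_lit 259) (nat_lit 258)) (XT.lf (nat_lit 0) (nat_lit 915270177) (nat_lit 252) (nat_lit 6499877291) (nat_lit 252) (nat_lit 5188155237) (nat_lit 26) (nat_lit 4) (nat_lit 29) (nat_lit 5) (nat_lit 29) (nat_lit 4) (nat_lit 348) (nat_lit 259) (nat_lit 257)))) (XT.nd (nat_lit 94) (nat_lit 252) (nat_lit 0) (XT.lf (nat_lit 0) (nat_lit 6359170162) (nat_lit 252) (nat_lit 4225738802) (nat_lit 252) (nat_lit 2287585761) (nat_lit 26) (nat_lit 4) (nat_lit 29) (nat_lit 5) (nat_lit 29) (nat_lit 4) (nat_lit 349) (nat_lit 259) (nat_lit 256)) (XT.nd (nat_lit 94) (nat_lit 168) (nat_lit 0) (XT.lf (nat_lit 0) (nat_lit 617018260)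 (nat_lit 336) (nat_lit 1292584478) (nat_lit 84) (nat_lit 11242608378) (nat_lit 25) (nat_lit 5) (nat_lit 29) (nat_lit 5) (nat_lit 26) (nat_lit 4) (nat_lit 350) (nat_lit 259) (nat_lit 255)) (XT.lf (nat_lit 0) (nat_lit 3539749024) (nat_lit 252) (nat_lit 9402108603) (nat_lit 0) (nat_lit 498939158) (nat_lit 23) (nat_lit 5) (nat_lit 26) (nat_lit 4) (nat_lit 23) (nat_lit 4) (nat_lit 351) (nat_lit 259) (nat_lit 254))))))))
noncomputable def xc25 : XT := (XT.nd (nat_lit 2256) (nat_lit 420) (nat_lit 0) (XT.nd (nat_lit 1128) (nat_lit 504) (nat_lit 0) (XT.nd (nat_lit 564) (nat_lit 336) (nat_lit 0) (XT.nd (nat_lit 282) (nat_lit 252) (nat_lit 0) (XT.nd (nat_lit 94) (nat_lit 168) (nat_lit 0) (XT.lf (nat_lit 0) (nat_lit 6517405498) (nat_lit 252) (nat_lit 4300015142) (nat_lit 0) (nat_lit 2922176037) (nat_lit 23) (nat_lit 5) (nat_lit 26) (nat_lit 4) (nat_lit 23) (nat_lit 4) (nat_lit 352) (nat_lit 259)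 (nat_lit 253)) (XT.nd (nat_lit 94) (nat_lit 0) (nat_lit 0) (XT.lf (nat_lit 0) (nat_lit 875983054) (nat_lit 168) (nat_lit 8653306381) (nat_lit 168) (nat_lit 4520327556) (nat_lit 21) (nat_lit 4) (nat_lit 23) (nat_lit 5) (nat_lit 23) (nat_lit 4) (nat_lit 353) (nat_lit 259) (nat_lit 252)) (XT.lf (nat_lit 0) (nat_lit 6202717728) (nat_lit 168) (nat_lit 6410944547) (nat_lit 168) (nat_lit 1756385349) (nat_lit 21) (nat_lit 4) (nat_lit 23) (nat_lit 5) (nat_lit 23) (nat_lit 4) (nat_lit 354) (nat_lit 259) (nat_lit 251)))) (XT.nd (nat_lit 94) (nat_lit 168) (nat_lit 0) (XT.lf (nat_lit 0) (nat_lit 1006630008) (nat_lit 252) (nat_lit 3115991199) (nat_lit 84) (nat_lit 10579599664) (nat_lit 20) (nat_lit 5) (nat_lit 23) (nat_lit 5) (nat_lit 21) (nat_lit 4) (nat_lit 355) (nat_lit 259) (nat_lit 250)) (XT.nd (nat_lit 94) (nat_lit 0) (nat_lit 0) (XT.lf (nat_lit 0) (nat_lit 2018310273) (nat_lit 168) (nat_lit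 1757885341) (nat_lit 252) (nat_lit 11269399270) (nat_lit 18) (nat_lit 5) (nat_lit 20) (nat_lit 5) (nat_lit 21) (nat_lit 4) (nat_lit 356) (nat_lit 259) (nat_lit 249)) (XT.lf (nat_lit 0) (nat_lit 6609185079) (nat_lit 252) (nat_lit 8124920780) (nat_lit 0) (nat_lit 666337949) (nat_lit 18) (nat_lit 5) (nat_lit 21) (nat_lit 4) (nat_lit 18) (nat_lit 4) (nat_lit 357) (nat_lit 259) (nat_lit 248))))) (XT.nd (nat_lit 282) (nat_lit 168) (nat_lit 0) (XT.nd (nat_lit 94) (nat_lit 168) (nat_lit 0) (XT.lf (nat_lit 0) (nat_lit 9487804446) (nat_lit 252) (nat_lit 3182712188) (nat_lit 0) (nat_lit 3097215235) (nat_lit 18) (nat_lit 5) (nat_lit 21) (nat_lit 4) (nat_lit 18) (nat_lit 4) (nat_lit 358) (nat_lit 259) (nat_lit 247)) (XT.nd (nat_lit 94) (nat_lit 0) (nat_lit 0) (XT.lf (nat_lit 0) (nat_lit 1858837695) (nat_lit 168) (nat_lit 10556900655) (nat_lit 168) (nat_lit 3732032025) (nat_lit 16) (nat_lit 4) (nat_lit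 18) (nat_lit 5) (nat_lit 18) (nat_lit 4) (nat_lit 359) (nat_lit 259) (nat_lit 246)) (XT.lf (nat_lit 0) (nat_lit 7033753360) (nat_lit 168) (nat_lit 8376401390) (nat_lit 168) (nat_lit 1130311208) (nat_lit 16) (nat_lit 4) (nat_lit 18) (nat_lit 5) (nat_lit 18) (nat_lit 4) (nat_lit 360) (nat_lit 259) (nat_lit 245)))) (XT.nd (nat_lit 94) (nat_lit 84) (nat_lit 0) (XT.lf (nat_lit 0) (nat_lit 1464329497) (nat_lit 252) (nat_lit 4680593278) (nat_lit 84) (nat_lit 10801801185) (nat_lit 15) (nat_lit 5) (nat_lit 18) (nat_lit 5) (nat_lit 16) (nat_lit 4) (nat_lit 361) (nat_lit 259) (nat_lit 244)) (XT.nd (nat_lit 94) (nat_lit 0) (nat_lit 0) (XT.lf (nat_lit 0) (nat_lit 201353847) (nat_lit 84) (nat_lit 3861803322) (nat_lit 168) (nat_lit 13303808537) (nat_lit 14) (nat_lit 5) (nat_lit 15) (nat_lit 5) (nat_lit 16) (nat_lit 4) (nat_lit 362) (nat_lit 259) (nat_lit 243)) (XT.lf (nat_lit 0) (nat_lit 5248462641)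 (nat_lit 84) (nat_lit 1488975971) (nat_lit 168) (nat_lit 11063063687) (nat_lit 14) (nat_lit 5) (nat_lit 15) (nat_lit 5) (nat_lit 16) (nat_lit 4) (nat_lit 363) (nat_lit 259) (nat_lit 242)))))) (XT.nd (nat_lit 564) (nat_lit 252) (nat_lit 0) (XT.nd (nat_lit 282) (nat_lit 84) (nat_lit 0) (XT.nd (nat_lit 94) (nat_lit 168) (nat_lit 0) (XT.lf (nat_lit 0) (nat_lit 9451474847) (nat_lit 168) (nat_lit 7889207003) (nat_lit 0) (nat_lit 908239932) (nat_lit 14) (nat_lit 5) (nat_lit 16) (nat_lit 4) (nat_lit 14) (nat_lit 4) (nat_lit 364) (nat_lit 259) (nat_lit 241)) (XT.nd (nat_lit 94) (nat_lit 168) (nat_lit 0) (XT.lf (nat_lit 0) (nat_lit 12213812316) (nat_lit 168) (nat_lit 3178784325) (nat_lit 0) (nat_lit 3319858969) (nat_lit 14) (nat_lit 5) (nat_lit 16) (nat_lit 4) (nat_lit 14) (nat_lit 4) (nat_lit 365) (nat_lit 259) (nat_lit 240)) (XT.lf (nat_lit 0) (nat_lit 1631255982) (nat_lit 168) (nat_lit 13397181263)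 (nat_lit 168) (nat_lit 4163054849) (nat_lit 12) (nat_lit 4) (nat_lit 14) (nat_lit 5) (nat_lit 14) (nat_lit 4) (nat_lit 366) (nat_lit 259) (nat_lit 239)))) (XT.nd (nat_lit 94) (nat_lit 84) (nat_lit 0) (XT.lf (nat_lit 0) (nat_lit 6579327004) (nat_lit 168) (nat_lit 11335352026) (nat_lit 168) (nat_lit 1771280832) (nat_lit 12) (nat_lit 4) (nat_lit 14) (nat_lit 5) (nat_lit 14) (nat_lit 4) (nat_lit 367) (nat_lit 259) (nat_lit 238)) (XT.nd (nat_lit 94) (nat_lit 0) (nat_lit 0) (XT.lf (nat_lit 0) (nat_lit 632718167) (nat_lit 252) (nat_lit 8599044630) (nat_lit 84) (nat_lit 10965356088) (nat_lit 11) (nat_lit 5) (nat_lit 14) (nat_lit 5) (nat_lit 12) (nat_lit 4) (nat_lit 368) (nat_lit 259) (nat_lit 237)) (XT.lf (nat_lit 0) (nat_lit 3027963857) (nat_lit 252) (nat_lit 4044702218) (nat_lit 84) (nat_lit 13652425140) (nat_lit 11) (nat_lit 5) (nat_lit 14) (nat_lit 5) (nat_lit 12) (nat_lit 4) (nat_lit 369)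 (nat_lit 259) (nat_lit 236))))) (XT.nd (nat_lit 282) (nat_lit 168) (nat_lit 0) (XT.nd (nat_lit 94) (nat_lit 0) (nat_lit 0) (XT.lf (nat_lit 0) (nat_lit 590100028) (nat_lit 84) (nat_lit 4868130057) (nat_lit 168) (nat_lit 15812502135) (nat_lit 10) (nat_lit 5) (nat_lit 11) (nat_lit 5) (nat_lit 12) (nat_lit 4) (nat_lit 370) (nat_lit 259) (nat_lit 235)) (XT.nd (nat_lit 94) (nat_lit 0) (nat_lit 0) (XT.lf (nat_lit 0) (nat_lit 5382447875) (nat_lit 84) (nat_lit 2579161734) (nat_lit 168) (nat_lit 13871830230) (nat_lit 10) (nat_lit 5) (nat_lit 11) (nat_lit 5) (nat_lit 12) (nat_lit 4) (nat_lit 371) (nat_lit 259) (nat_lit 234)) (XT.lf (nat_lit 0) (nat_lit 10253640922) (nat_lit 84) (nat_lit 245845945) (nat_lit 168) (nat_lit 11915521131) (nat_lit 10) (nat_lit 5) (nat_lit 11) (nat_lit 5) (nat_lit 12) (nat_lit 4) (nat_lit 372) (nat_lit 259) (nat_lit 233)))) (XT.nd (nat_lit 94) (nat_lit 168) (nat_lit 0)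 (XT.lf (nat_lit 0) (nat_lit 13095396890) (nat_lit 168) (nat_lit 7828928613) (nat_lit 0) (nat_lit 2090997018) (nat_lit 10) (nat_lit 5) (nat_lit 12) (nat_lit 4) (nat_lit 10) (nat_lit 4) (nat_lit 373) (nat_lit 259) (nat_lit 232)) (XT.nd (nat_lit 94) (nat_lit 168) (nat_lit 0) (XT.lf (nat_lit 0) (nat_lit 15733492475) (nat_lit 168) (nat_lit 3431371425) (nat_lit 0) (nat_lit 4470645339) (nat_lit 10) (nat_lit 5) (nat_lit 12) (nat_lit 4) (nat_lit 10) (nat_lit 4) (nat_lit 374) (nat_lit 259) (nat_lit 231)) (XT.lf (nat_lit 0) (nat_lit 1059182459) (nat_lit 168) (nat_lit 17365118543) (nat_lit 168) (nat_lit 5851595108) (nat_lit 8) (nat_lit 4) (nat_lit 10) (nat_lit 5) (nat_lit 10) (nat_lit 4) (nat_lit 375) (nat_lit 259) (nat_lit 230))))))) (XT.nd (nat_lit 1128) (nat_lit 252) (nat_lit 0) (XT.nd (nat_lit 564) (nat_lit 0) (nat_lit 0) (XT.nd (nat_lit 282) (nat_lit 84) (nat_lit 0) (XT.nd (nat_lit 94) (nat_lit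 84) (nat_lit 0) (XT.lf (nat_lit 0) (nat_lit 5697673747) (nat_lit 168) (nat_lit 15497647012) (nat_lit 168) (nat_lit 3740984588) (nat_lit 8) (nat_lit 4) (nat_lit 10) (nat_lit 5) (nat_lit 10) (nat_lit 4) (nat_lit 376) (nat_lit 259) (nat_lit 229)) (XT.nd (nat_lit 94) (nat_lit 84) (nat_lit 0) (XT.lf (nat_lit 0) (nat_lit 10417869962) (nat_lit 168) (nat_lit 13596525110) (nat_lit 168) (nat_lit 1604034373) (nat_lit 8) (nat_lit 4) (nat_lit 10) (nat_lit 5) (nat_lit 10) (nat_lit 4) (nat_lit 377) (nat_lit 259) (nat_lit 228)) (XT.lf (nat_lit 0) (nat_lit 549939511) (nat_lit 252) (nat_lit 11104301039) (nat_lit 84) (nat_lit 14668491071) (nat_lit 7) (nat_lit 5) (nat_lit 10) (nat_lit 5) (nat_lit 8) (nat_lit 4) (nat_lit 378) (nat_lit 259) (nat_lit 227)))) (XT.nd (nat_lit 94) (nat_lit 84) (nat_lit 0) (XT.lf (nat_lit 0) (nat_lit 2701334023) (nat_lit 252) (nat_lit 6956678583) (nat_lit 84) (nat_lit 17391525896)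 (nat_lit 7) (nat_lit 5) (nat_lit 10) (nat_lit 5) (nat_lit 8) (nat_lit 4) (nat_lit 379) (nat_lit 259) (nat_lit 226)) (XT.nd (nat_lit 94) (nat_lit 84) (nat_lit 0) (XT.lf (nat_lit 0) (nat_lit 4884472203) (nat_lit 252) (nat_lit 2737913879) (nat_lit 84) (nat_lit 20177634746) (nat_lit 7) (nat_lit 5) (nat_lit 10) (nat_lit 5) (nat_lit 8) (nat_lit 4) (nat_lit 380) (nat_lit 259) (nat_lit 225)) (XT.lf (nat_lit 0) (nat_lit 1587918420) (nat_lit 84) (nat_lit 5529222893) (nat_lit 168) (nat_lit 21457248492) (nat_lit 6) (nat_lit 5) (nat_lit 7) (nat_lit 5) (nat_lit 8) (nat_lit 4) (nat_lit 381) (nat_lit 259) (nat_lit 224))))) (XT.nd (nat_lit 282) (nat_lit 0) (nat_lit 0) (XT.nd (nat_lit 94) (nat_lit 0) (nat_lit 0) (XT.lf (nat_lit 0) (nat_lit 6050750714) (nat_lit 84) (nat_lit 3363424190) (nat_lit 168) (nat_lit 19958796991) (nat_lit 6) (nat_lit 5) (nat_lit 7) (nat_lit 5) (nat_lit 8) (nat_lit 4) (nat_lit 382)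 (nat_lit 259) (nat_lit 223)) (XT.nd (nat_lit 94) (nat_lit 0) (nat_lit 0) (XT.lf (nat_lit 0) (nat_lit 10598445706) (nat_lit 84) (nat_lit 1151549430) (nat_lit 168) (nat_lit 18447375617) (nat_lit 6) (nat_lit 5) (nat_lit 7) (nat_lit 5) (nat_lit 8) (nat_lit 4) (nat_lit 383) (nat_lit 259) (nat_lit 222)) (XT.lf (nat_lit 0) (nat_lit 14137775327) (nat_lit 168) (nat_lit 15824108570) (nat_lit 0) (nat_lit 1086130025) (nat_lit 6) (nat_lit 5) (nat_lit 8) (nat_lit 4) (nat_lit 6) (nat_lit 4) (nat_lit 384) (nat_lit 259) (nat_lit 221)))) (XT.nd (nat_lit 94) (nat_lit 0) (nat_lit 0) (XT.lf (nat_lit 0) (nat_lit 16580656741) (nat_lit 168) (nat_lit 11995168827) (nat_lit 0) (nat_lit 3349840341) (nat_lit 6) (nat_lit 5) (nat_lit 8) (nat_lit 4) (nat_lit 6) (nat_lit 4) (nat_lit 385) (nat_lit 259) (nat_lit 220)) (XT.nd (nat_lit 94) (nat_lit 0) (nat_lit 0) (XT.lf (nat_lit 0) (nat_lit 19069492886) (nat_lit 168) (nat_lit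 8097113333) (nat_lit 0) (nat_lit 5664892686) (nat_lit 6) (nat_lit 5) (nat_lit 8) (nat_lit 4) (nat_lit 6) (nat_lit 4) (nat_lit 386) (nat_lit 259) (nat_lit 219)) (XT.lf (nat_lit 0) (nat_lit 21606603619) (nat_lit 168) (nat_lit 4126308692) (nat_lit 0) (nat_lit 8033444931) (nat_lit 6) (nat_lit 5) (nat_lit 8) (nat_lit 4) (nat_lit 6) (nat_lit 4) (nat_lit 387) (nat_lit 259) (nat_lit 218)))))) (XT.nd (nat_lit 564) (nat_lit 168) (nat_lit 0) (XT.nd (nat_lit 282) (nat_lit 0) (nat_lit 0) (XT.nd (nat_lit 94) (nat_lit 84) (nat_lit 0) (XT.lf (nat_lit 0) (nat_lit 24194353792) (nat_lit 168) (nat_lit 79053698) (nat_lit 0) (nat_lit 10457704816) (nat_lit 6) (nat_lit 5) (nat_lit 8) (nat_lit 4) (nat_lit 6) (nat_lit 4) (nat_lit 388) (nat_lit 259) (nat_lit 217)) (XT.nd (nat_lit 94) (nat_lit 0) (nat_lit 0) (XT.lf (nat_lit 0) (nat_lit 4131668017) (nat_lit 84) (nat_lit 22744474100) (nat_lit 84) (nat_lit 8849250645)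 (nat_lit 5) (nat_lit 4) (nat_lit 6) (nat_lit 5) (nat_lit 6) (nat_lit 4) (nat_lit 389) (nat_lit 259) (nat_lit 216)) (XT.lf (nat_lit 0) (nat_lit 8429813951) (nat_lit 84) (nat_lit 21185280971) (nat_lit 84) (nat_lit 7136251038) (nat_lit 5) (nat_lit 4) (nat_lit 6) (nat_lit 5) (nat_lit 6) (nat_lit 4) (nat_lit 390) (nat_lit 259) (nat_lit 215)))) (XT.nd (nat_lit 94) (nat_lit 0) (nat_lit 0) (XT.lf (nat_lit 0) (nat_lit 12817764921) (nat_lit 84) (nat_lit 19595199930) (nat_lit 84) (nat_lit 5396988156) (nat_lit 5) (nat_lit 4) (nat_lit 6) (nat_lit 5) (nat_lit 6) (nat_lit 4) (nat_lit 391) (nat_lit 259) (nat_lit 214)) (XT.nd (nat_lit 94) (nat_lit 0) (nat_lit 0) (XT.lf (nat_lit 0) (nat_lit 17299610957) (nat_lit 84) (nat_lit 17972748855) (nat_lit 84) (nat_lit 3629840823) (nat_lit 5) (nat_lit 4) (nat_lit 6) (nat_lit 5) (nat_lit 6) (nat_lit 4) (nat_lit 392) (nat_lit 259) (nat_lit 213)) (XT.lf (nat_lit 0)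 (nat_lit 21879529607) (nat_lit 84) (nat_lit 16316415451) (nat_lit 84) (nat_lit 1833161873) (nat_lit 5) (nat_lit 4) (nat_lit 6) (nat_lit 5) (nat_lit 6) (nat_lit 4) (nat_lit 393) (nat_lit 259) (nat_lit 212))))) (XT.nd (nat_lit 282) (nat_lit 84) (nat_lit 0) (XT.nd (nat_lit 94) (nat_lit 84) (nat_lit 0) (XT.lf (nat_lit 0) (nat_lit 26561789837) (nat_lit 84) (nat_lit 14624655842) (nat_lit 84) (nat_lit 5276614) (nat_lit 5) (nat_lit 4) (nat_lit 6) (nat_lit 5) (nat_lit 6) (nat_lit 4) (nat_lit 394) (nat_lit 259) (nat_lit 211)) (XT.nd (nat_lit 94) (nat_lit 0) (nat_lit 0) (XT.lf (nat_lit 0) (nat_lit 1818134167) (nat_lit 168) (nat_lit 11058781372) (nat_lit 84) (nat_lit 29513644244) (nat_lit 4) (nat_lit 5) (nat_lit 6) (nat_lit 5) (nat_lit 5) (nat_lit 4) (nat_lit 395) (nat_lit 259) (nat_lit 210)) (XT.lf (nat_lit 0) (nat_lit 3675385173) (nat_lit 168) (nat_lit 7414767273) (nat_lit 84) (nat_lit 32537143267)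 (nat_lit 4) (nat_lit 5) (nat_lit 6) (nat_lit 5) (nat_lit 5) (nat_lit 4) (nat_lit 396) (nat_lit 259) (nat_lit 209)))) (XT.nd (nat_lit 94) (nat_lit 84) (nat_lit 0) (XT.lf (nat_lit 0) (nat_lit 5568313868) (nat_lit 168) (nat_lit 3694441214) (nat_lit 84) (nat_lit 35640329394) (nat_lit 4) (nat_lit 5) (nat_lit 6) (nat_lit 5) (nat_lit 5) (nat_lit 4) (nat_lit 397) (nat_lit 259) (nat_lit 208)) (XT.nd (nat_lit 94) (nat_lit 0) (nat_lit 0) (XT.lf (nat_lit 0) (nat_lit 107837219) (nat_lit 84) (nat_lit 7391917198) (nat_lit 168) (nat_lit 38719327659) (nat_lit 3) (nat_lit 5) (nat_lit 4) (nat_lit 5) (nat_lit 5) (nat_lit 4) (nat_lit 398) (nat_lit 259) (nat_lit 207)) (XT.lf (nat_lit 0) (nat_lit 4071115999) (nat_lit 84) (nat_lit 5437566829) (nat_lit 168) (nat_lit 38066679887) (nat_lit 3) (nat_lit 5) (nat_lit 4) (nat_lit 5) (nat_lit 5) (nat_lit 4) (nat_lit 399) (nat_lit 259) (nat_lit 206))))))))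
noncomputable def xc26 : XT := (XT.nd (nat_lit 50102) (nat_lit 0) (nat_lit 336) (XT.nd (nat_lit 48974) (nat_lit 0) (nat_lit 1428) (XT.nd (nat_lit 564) (nat_lit 0) (nat_lit 0) (XT.nd (nat_lit 282) (nat_lit 0) (nat_lit 0) (XT.nd (nat_lit 94) (nat_lit 0) (nat_lit 0) (XT.lf (nat_lit 0) (nat_lit 8123124029) (nat_lit 84) (nat_lit 3436444705) (nat_lit 168) (nat_lit 37414781344) (nat_lit 3) (nat_lit 5) (nat_lit 4) (nat_lit 5) (nat_lit 5) (nat_lit 4) (nat_lit 400) (nat_lit 259) (nat_lit 205)) (XT.nd (nat_lit 94) (nat_lit 0) (nat_lit 0) (XT.lf (nat_lit 0) (nat_lit 12267638203) (nat_lit 84) (nat_lit 1386685570) (nat_lit 168) (nat_lit 36763024393) (nat_lit 3) (nat_lit 5) (nat_lit 4) (nat_lit 5) (nat_lit 5) (nat_lit 4) (nat_lit 401) (nat_lit 259) (nat_lit 204)) (XT.lf (nat_lit 0) (nat_lit 15801979690) (nat_lit 168) (nat_lit 35404259574) (nat_lit 0) (nat_lit 699243288) (nat_lit 3) (nat_lit 5) (nat_lit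 5) (nat_lit 4) (nat_lit 3) (nat_lit 4) (nat_lit 402) (nat_lit 259) (nat_lit 203)))) (XT.nd (nat_lit 94) (nat_lit 0) (nat_lit 0) (XT.lf (nat_lit 0) (nat_lit 18011729465) (nat_lit 168) (nat_lit 32619506976) (nat_lit 0) (nat_lit 2808680965) (nat_lit 3) (nat_lit 5) (nat_lit 5) (nat_lit 4) (nat_lit 3) (nat_lit 4) (nat_lit 403) (nat_lit 259) (nat_lit 202)) (XT.nd (nat_lit 94) (nat_lit 0) (nat_lit 0) (XT.lf (nat_lit 0) (nat_lit 20271876726) (nat_lit 168) (nat_lit 29779100396) (nat_lit 0) (nat_lit 4971532301) (nat_lit 3) (nat_lit 5) (nat_lit 5) (nat_lit 4) (nat_lit 3) (nat_lit 4) (nat_lit 404) (nat_lit 259) (nat_lit 201)) (XT.lf (nat_lit 0) (nat_lit 22584528165) (nat_lit 168) (nat_lit 26880392277) (nat_lit 0) (nat_lit 7189813299) (nat_lit 3) (nat_lit 5) (nat_lit 5) (nat_lit 4) (nat_lit 3) (nat_lit 4) (nat_lit 405) (nat_lit 259) (nat_lit 200))))) (XT.nd (nat_lit 282) (nat_lit 0) (nat_lit 0) (XT.nd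 (nat_lit 94) (nat_lit 0) (nat_lit 0) (XT.lf (nat_lit 0) (nat_lit 24951839416) (nat_lit 168) (nat_lit 23920680719) (nat_lit 0) (nat_lit 9465591630) (nat_lit 3) (nat_lit 5) (nat_lit 5) (nat_lit 4) (nat_lit 3) (nat_lit 4) (nat_lit 406) (nat_lit 259) (nat_lit 199)) (XT.nd (nat_lit 94) (nat_lit 0) (nat_lit 0) (XT.lf (nat_lit 0) (nat_lit 27376017062) (nat_lit 168) (nat_lit 20897206962) (nat_lit 0) (nat_lit 11800988558) (nat_lit 3) (nat_lit 5) (nat_lit 5) (nat_lit 4) (nat_lit 3) (nat_lit 4) (nat_lit 407) (nat_lit 259) (nat_lit 198)) (XT.lf (nat_lit 0) (nat_lit 29859320690) (nat_lit 168) (nat_lit 17807152812) (nat_lit 0) (nat_lit 14198180917) (nat_lit 3) (nat_lit 5) (nat_lit 5) (nat_lit 4) (nat_lit 3) (nat_lit 4) (nat_lit 408) (nat_lit 259) (nat_lit 197)))) (XT.nd (nat_lit 94) (nat_lit 0) (nat_lit 0) (XT.lf (nat_lit 0) (nat_lit 32404064998) (nat_lit 168) (nat_lit 14647638013) (nat_lit 0) (nat_lit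 16659403141) (nat_lit 3) (nat_lit 5) (nat_lit 5) (nat_lit 4) (nat_lit 3) (nat_lit 4) (nat_lit 409) (nat_lit 259) (nat_lit 196)) (XT.nd (nat_lit 94) (nat_lit 0) (nat_lit 0) (XT.lf (nat_lit 0) (nat_lit 35012621956) (nat_lit 168) (nat_lit 11415717568) (nat_lit 0) (nat_lit 19186949348) (nat_lit 3) (nat_lit 5) (nat_lit 5) (nat_lit 4) (nat_lit 3) (nat_lit 4) (nat_lit 410) (nat_lit 259) (nat_lit 195)) (XT.lf (nat_lit 0) (nat_lit 37687423012) (nat_lit 168) (nat_lit 8108378987) (nat_lit 0) (nat_lit 21783175476) (nat_lit 3) (nat_lit 5) (nat_lit 5) (nat_lit 4) (nat_lit 3) (nat_lit 4) (nat_lit 411) (nat_lit 259) (nat_lit 194)))))) (XT.nd (nat_lit 564) (nat_lit 504) (nat_lit 0) (XT.nd (nat_lit 282) (nat_lit 252) (nat_lit 0) (XT.nd (nat_lit 94) (nat_lit 252) (nat_lit 0) (XT.lf (nat_lit 0) (nat_lit 1728570207) (nat_lit 252) (nat_lit 2039762694) (nat_lit 252) (nat_lit 2039762694) (nat_lit 32) (nat_lit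 4) (nat_lit 35) (nat_lit 5) (nat_lit 35) (nat_lit 4) (nat_lit 344) (nat_lit 260) (nat_lit 260)) (XT.nd (nat_lit 94) (nat_lit 252) (nat_lit 0) (XT.lf (nat_lit 0) (nat_lit 8948821212) (nat_lit 252) (nat_lit 1805047854) (nat_lit 252) (nat_lit 1097252197) (nat_lit 32) (nat_lit 4) (nat_lit 35) (nat_lit 5) (nat_lit 35) (nat_lit 4) (nat_lit 345) (nat_lit 260) (nat_lit 259)) (XT.lf (nat_lit 0) (nat_lit 1892267383) (nat_lit 252) (nat_lit 9662177546) (nat_lit 0) (nat_lit 539881945) (nat_lit 29) (nat_lit 5) (nat_lit 32) (nat_lit 4) (nat_lit 29) (nat_lit 4) (nat_lit 346) (nat_lit 260) (nat_lit 258)))) (XT.nd (nat_lit 94) (nat_lit 252) (nat_lit 0) (XT.lf (nat_lit 0) (nat_lit 4926568147) (nat_lit 252) (nat_lit 4490790344) (nat_lit 0) (nat_lit 2928332362) (nat_lit 29) (nat_lit 5) (nat_lit 32) (nat_lit 4) (nat_lit 29) (nat_lit 4) (nat_lit 347) (nat_lit 260) (nat_lit 257)) (XT.nd (nat_lit 94) (nat_lit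 0) (nat_lit 0) (XT.lf (nat_lit 0) (nat_lit 749158007) (nat_lit 252) (nat_lit 7241269298) (nat_lit 252) (nat_lit 4616602527) (nat_lit 26) (nat_lit 4) (nat_lit 29) (nat_lit 5) (nat_lit 29) (nat_lit 4) (nat_lit 348) (nat_lit 260) (nat_lit 256)) (XT.lf (nat_lit 0) (nat_lit 6140983150) (nat_lit 252) (nat_lit 4984334711) (nat_lit 252) (nat_lit 1752072414) (nat_lit 26) (nat_lit 4) (nat_lit 29) (nat_lit 5) (nat_lit 29) (nat_lit 4) (nat_lit 349) (nat_lit 260) (nat_lit 255))))) (XT.nd (nat_lit 282) (nat_lit 252) (nat_lit 0) (XT.nd (nat_lit 94) (nat_lit 168) (nat_lit 0) (XT.lf (nat_lit 0) (nat_lit 1107490751) (nat_lit 336) (nat_lit 1572274986) (nat_lit 84) (nat_lit 10478320288) (nat_lit 25) (nat_lit 5) (nat_lit 29) (nat_lit 5) (nat_lit 26) (nat_lit 4) (nat_lit 350) (nat_lit 260) (nat_lit 254)) (XT.nd (nat_lit 94) (nat_lit 0) (nat_lit 0) (XT.lf (nat_lit 0) (nat_lit 3707678299) (nat_lit 168) (nat_lit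 280934996) (nat_lit 252) (nat_lit 9459428027) (nat_lit 23) (nat_lit 5) (nat_lit 25) (nat_lit 5) (nat_lit 26) (nat_lit 4) (nat_lit 351) (nat_lit 260) (nat_lit 253)) (XT.lf (nat_lit 0) (nat_lit 6930607553) (nat_lit 252) (nat_lit 4685659545) (nat_lit 0) (nat_lit 2131757021) (nat_lit 23) (nat_lit 5) (nat_lit 26) (nat_lit 4) (nat_lit 23) (nat_lit 4) (nat_lit 352) (nat_lit 260) (nat_lit 252)))) (XT.nd (nat_lit 94) (nat_lit 84) (nat_lit 0) (XT.lf (nat_lit 0) (nat_lit 432740115) (nat_lit 168) (nat_lit 9473467536) (nat_lit 168) (nat_lit 4153036631) (nat_lit 21) (nat_lit 4) (nat_lit 23) (nat_lit 5) (nat_lit 23) (nat_lit 4) (nat_lit 353) (nat_lit 260) (nat_lit 251)) (XT.nd (nat_lit 94) (nat_lit 84) (nat_lit 0) (XT.lf (nat_lit 0) (nat_lit 5711299332) (nat_lit 168) (nat_lit 7247875206) (nat_lit 168) (nat_lit 1421546752) (nat_lit 21) (nat_lit 4) (nat_lit 23) (nat_lit 5) (nat_lit 23) (nat_lit 4) (nat_lit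 354) (nat_lit 260) (nat_lit 250)) (XT.lf (nat_lit 0) (nat_lit 1303879980) (nat_lit 252) (nat_lit 3668834487) (nat_lit 84) (nat_lit 9741101693) (nat_lit 20) (nat_lit 5) (nat_lit 23) (nat_lit 5) (nat_lit 21) (nat_lit 4) (nat_lit 355) (nat_lit 260) (nat_lit 249))))))) (XT.nd (nat_lit 1128) (nat_lit 420) (nat_lit 0) (XT.nd (nat_lit 564) (nat_lit 252) (nat_lit 0) (XT.nd (nat_lit 282) (nat_lit 252) (nat_lit 0) (XT.nd (nat_lit 94) (nat_lit 0) (nat_lit 0) (XT.lf (nat_lit 0) (nat_lit 1407149990) (nat_lit 168) (nat_lit 2630317802) (nat_lit 252) (nat_lit 11020904114) (nat_lit 18) (nat_lit 5) (nat_lit 20) (nat_lit 5) (nat_lit 21) (nat_lit 4) (nat_lit 356) (nat_lit 260) (nat_lit 248)) (XT.nd (nat_lit 94) (nat_lit 0) (nat_lit 0) (XT.lf (nat_lit 0) (nat_lit 6625780213) (nat_lit 168) (nat_lit 208463704) (nat_lit 252) (nat_lit 8580163951) (nat_lit 18) (nat_lit 5) (nat_lit 20) (nat_lit 5) (nat_lit 21)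 (nat_lit 4) (nat_lit 357) (nat_lit 260) (nat_lit 247)) (XT.lf (nat_lit 0) (nat_lit 9682059424) (nat_lit 252) (nat_lit 3889313467) (nat_lit 0) (nat_lit 2211340447) (nat_lit 18) (nat_lit 5) (nat_lit 21) (nat_lit 4) (nat_lit 18) (nat_lit 4) (nat_lit 358) (nat_lit 260) (nat_lit 246)))) (XT.nd (nat_lit 94) (nat_lit 84) (nat_lit 0) (XT.lf (nat_lit 0) (nat_lit 1093200061) (nat_lit 168) (nat_lit 11481326199) (nat_lit 168) (nat_lit 3589385671) (nat_lit 16) (nat_lit 4) (nat_lit 18) (nat_lit 5) (nat_lit 18) (nat_lit 4) (nat_lit 359) (nat_lit 260) (nat_lit 245)) (XT.nd (nat_lit 94) (nat_lit 84) (nat_lit 0) (XT.lf (nat_lit 0) (nat_lit 6224946779) (nat_lit 168) (nat_lit 9316533839) (nat_lit 168) (nat_lit 1016037005) (nat_lit 16) (nat_lit 4) (nat_lit 18) (nat_lit 5) (nat_lit 18) (nat_lit 4) (nat_lit 360) (nat_lit 260) (nat_lit 244)) (XT.lf (nat_lit 0) (nat_lit 1549336718) (nat_lit 252) (nat_lit 5550065837)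 (nat_lit 84) (nat_lit 9865229134) (nat_lit 15) (nat_lit 5) (nat_lit 18) (nat_lit 5) (nat_lit 16) (nat_lit 4) (nat_lit 361) (nat_lit 260) (nat_lit 243))))) (XT.nd (nat_lit 282) (nat_lit 168) (nat_lit 0) (XT.nd (nat_lit 94) (nat_lit 84) (nat_lit 0) (XT.lf (nat_lit 0) (nat_lit 4120013092) (nat_lit 252) (nat_lit 713378937) (nat_lit 84) (nat_lit 12552407738) (nat_lit 15) (nat_lit 5) (nat_lit 18) (nat_lit 5) (nat_lit 16) (nat_lit 4) (nat_lit 362) (nat_lit 260) (nat_lit 242)) (XT.nd (nat_lit 94) (nat_lit 0) (nat_lit 0) (XT.lf (nat_lit 0) (nat_lit 4278275076) (nat_lit 84) (nat_lit 2483025081) (nat_lit 168) (nat_lit 11059111057) (nat_lit 14) (nat_lit 5) (nat_lit 15) (nat_lit 5) (nat_lit 16) (nat_lit 4) (nat_lit 363) (nat_lit 260) (nat_lit 241)) (XT.lf (nat_lit 0) (nat_lit 9359447485) (nat_lit 84) (nat_lit 81696646) (nat_lit 168) (nat_lit 8828796988) (nat_lit 14) (nat_lit 5) (nat_lit 15) (nat_lit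 5) (nat_lit 16) (nat_lit 4) (nat_lit 364) (nat_lit 260) (nat_lit 240)))) (XT.nd (nat_lit 94) (nat_lit 168) (nat_lit 0) (XT.lf (nat_lit 0) (nat_lit 12178285507) (nat_lit 168) (nat_lit 4238291361) (nat_lit 0) (nat_lit 2317728106) (nat_lit 14) (nat_lit 5) (nat_lit 16) (nat_lit 4) (nat_lit 14) (nat_lit 4) (nat_lit 365) (nat_lit 260) (nat_lit 239)) (XT.nd (nat_lit 94) (nat_lit 0) (nat_lit 0) (XT.lf (nat_lit 0) (nat_lit 511327615) (nat_lit 168) (nat_lit 14446820564) (nat_lit 168) (nat_lit 4256318384) (nat_lit 12) (nat_lit 4) (nat_lit 14) (nat_lit 5) (nat_lit 14) (nat_lit 4) (nat_lit 366) (nat_lit 260) (nat_lit 238)) (XT.lf (nat_lit 0) (nat_lit 5421924638) (nat_lit 168) (nat_lit 12399152329) (nat_lit 168) (nat_lit 1888626114) (nat_lit 12) (nat_lit 4) (nat_lit 14) (nat_lit 5) (nat_lit 14) (nat_lit 4) (nat_lit 367) (nat_lit 260) (nat_lit 237)))))) (XT.nd (nat_lit 564) (nat_lit 252) (nat_lit 0)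 (XT.nd (nat_lit 282) (nat_lit 84) (nat_lit 0) (XT.nd (nat_lit 94) (nat_lit 0) (nat_lit 0) (XT.lf (nat_lit 0) (nat_lit 494850076) (nat_lit 252) (nat_lit 9815887295) (nat_lit 84) (nat_lit 9910913639) (nat_lit 11) (nat_lit 5) (nat_lit 14) (nat_lit 5) (nat_lit 12) (nat_lit 4) (nat_lit 368) (nat_lit 260) (nat_lit 236)) (XT.nd (nat_lit 94) (nat_lit 0) (nat_lit 0) (XT.lf (nat_lit 0) (nat_lit 2867896877) (nat_lit 252) (nat_lit 5297297704) (nat_lit 84) (nat_lit 12585158941) (nat_lit 11) (nat_lit 5) (nat_lit 14) (nat_lit 5) (nat_lit 12) (nat_lit 4) (nat_lit 369) (nat_lit 260) (nat_lit 235)) (XT.lf (nat_lit 0) (nat_lit 5270777824) (nat_lit 252) (nat_lit 709062468) (nat_lit 84) (nat_lit 15317043932) (nat_lit 11) (nat_lit 5) (nat_lit 14) (nat_lit 5) (nat_lit 12) (nat_lit 4) (nat_lit 370) (nat_lit 260) (nat_lit 234)))) (XT.nd (nat_lit 94) (nat_lit 0) (nat_lit 0) (XT.lf (nat_lit 0) (nat_lit 4034378872)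 (nat_lit 84) (nat_lit 3711375320) (nat_lit 168) (nat_lit 14114757680) (nat_lit 10) (nat_lit 5) (nat_lit 11) (nat_lit 5) (nat_lit 12) (nat_lit 4) (nat_lit 371) (nat_lit 260) (nat_lit 233)) (XT.nd (nat_lit 94) (nat_lit 0) (nat_lit 0) (XT.lf (nat_lit 0) (nat_lit 8872277322) (nat_lit 84) (nat_lit 1390767766) (nat_lit 168) (nat_lit 12179711457) (nat_lit 10) (nat_lit 5) (nat_lit 11) (nat_lit 5) (nat_lit 12) (nat_lit 4) (nat_lit 372) (nat_lit 260) (nat_lit 232)) (XT.lf (nat_lit 0) (nat_lit 12827507698) (nat_lit 168) (nat_lit 9259510391) (nat_lit 0) (nat_lit 957065037) (nat_lit 10) (nat_lit 5) (nat_lit 12) (nat_lit 4) (nat_lit 10) (nat_lit 4) (nat_lit 373) (nat_lit 260) (nat_lit 231))))) (XT.nd (nat_lit 282) (nat_lit 84) (nat_lit 0) (XT.nd (nat_lit 94) (nat_lit 168) (nat_lit 0) (XT.lf (nat_lit 0) (nat_lit 15446117689) (nat_lit 168) (nat_lit 4893793549) (nat_lit 0) (nat_lit 3324998729) (nat_lit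 10) (nat_lit 5) (nat_lit 12) (nat_lit 4) (nat_lit 10) (nat_lit 4) (nat_lit 374) (nat_lit 260) (nat_lit 230)) (XT.nd (nat_lit 94) (nat_lit 168) (nat_lit 0) (XT.lf (nat_lit 0) (nat_lit 18107519292) (nat_lit 168) (nat_lit 455462803) (nat_lit 0) (nat_lit 5743261342) (nat_lit 10) (nat_lit 5) (nat_lit 12) (nat_lit 4) (nat_lit 10) (nat_lit 4) (nat_lit 375) (nat_lit 260) (nat_lit 229)) (XT.lf (nat_lit 0) (nat_lit 4143092923) (nat_lit 168) (nat_lit 16712200283) (nat_lit 168) (nat_lit 4112114021) (nat_lit 8) (nat_lit 4) (nat_lit 10) (nat_lit 5) (nat_lit 10) (nat_lit 4) (nat_lit 376) (nat_lit 260) (nat_lit 228)))) (XT.nd (nat_lit 94) (nat_lit 84) (nat_lit 0) (XT.lf (nat_lit 0) (nat_lit 8833638013) (nat_lit 168) (nat_lit 14822655122) (nat_lit 168) (nat_lit 1993831410) (nat_lit 8) (nat_lit 4) (nat_lit 10) (nat_lit 5) (nat_lit 10) (nat_lit 4) (nat_lit 377) (nat_lit 260) (nat_lit 227)) (XT.nd (nat_lit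 94) (nat_lit 0) (nat_lit 0) (XT.lf (nat_lit 0) (nat_lit 150254511) (nat_lit 252) (nat_lit 12745516596) (nat_lit 84) (nat_lit 13459356435) (nat_lit 7) (nat_lit 5) (nat_lit 10) (nat_lit 5) (nat_lit 8) (nat_lit 4) (nat_lit 378) (nat_lit 260) (nat_lit 226)) (XT.lf (nat_lit 0) (nat_lit 2284440967) (nat_lit 252) (nat_lit 8626172845) (nat_lit 84) (nat_lit 16171884093) (nat_lit 7) (nat_lit 5) (nat_lit 10) (nat_lit 5) (nat_lit 8) (nat_lit 4) (nat_lit 379) (nat_lit 260) (nat_lit 225))))))))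
noncomputable def xc27 : XT := (XT.nd (nat_lit 2256) (nat_lit 0) (nat_lit 0) (XT.nd (nat_lit 1128) (nat_lit 168) (nat_lit 0) (XT.nd (nat_lit 564) (nat_lit 84) (nat_lit 0) (XT.nd (nat_lit 282) (nat_lit 0) (nat_lit 0) (XT.nd (nat_lit 94) (nat_lit 84) (nat_lit 0) (XT.lf (nat_lit 0) (nat_lit 4450888502) (nat_lit 252) (nat_lit 4434836564) (nat_lit 84) (nat_lit 18947801704) (nat_lit 7) (nat_lit 5) (nat_lit 10) (nat_lit 5) (nat_lit 8) (nat_lit 4) (nat_lit 380) (nat_lit 260) (nat_lit 224)) (XT.nd (nat_lit 94) (nat_lit 84) (nat_lit 0) (XT.lf (nat_lit 0) (nat_lit 6651616471) (nat_lit 252) (nat_lit 167600989) (nat_lit 84) (nat_lit 21789696714) (nat_lit 7) (nat_lit 5) (nat_lit 10) (nat_lit 5) (nat_lit 8) (nat_lit 4) (nat_lit 381) (nat_lit 260) (nat_lit 223)) (XT.lf (nat_lit 0) (nat_lit 4265450715) (nat_lit 84) (nat_lit 4665539268) (nat_lit 168) (nat_lit 20477081149) (nat_lit 6) (nat_lit 5) (nat_lit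 7) (nat_lit 5) (nat_lit 8) (nat_lit 4) (nat_lit 382) (nat_lit 260) (nat_lit 222)))) (XT.nd (nat_lit 94) (nat_lit 0) (nat_lit 0) (XT.lf (nat_lit 0) (nat_lit 8787603157) (nat_lit 84) (nat_lit 2463723769) (nat_lit 168) (nat_lit 18981649625) (nat_lit 6) (nat_lit 5) (nat_lit 7) (nat_lit 5) (nat_lit 8) (nat_lit 4) (nat_lit 383) (nat_lit 260) (nat_lit 221)) (XT.nd (nat_lit 94) (nat_lit 0) (nat_lit 0) (XT.lf (nat_lit 0) (nat_lit 13399625234) (nat_lit 84) (nat_lit 213468053) (nat_lit 168) (nat_lit 17471358642) (nat_lit 6) (nat_lit 5) (nat_lit 7) (nat_lit 5) (nat_lit 8) (nat_lit 4) (nat_lit 384) (nat_lit 260) (nat_lit 220)) (XT.lf (nat_lit 0) (nat_lit 16039197006) (nat_lit 168) (nat_lit 13878181623) (nat_lit 0) (nat_lit 2045270400) (nat_lit 6) (nat_lit 5) (nat_lit 8) (nat_lit 4) (nat_lit 6) (nat_lit 4) (nat_lit 385) (nat_lit 260) (nat_lit 219))))) (XT.nd (nat_lit 282) (nat_lit 84) (nat_lit 0)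 (XT.nd (nat_lit 94) (nat_lit 0) (nat_lit 0) (XT.lf (nat_lit 0) (nat_lit 18513813884) (nat_lit 168) (nat_lit 10003804402) (nat_lit 0) (nat_lit 4351328790) (nat_lit 6) (nat_lit 5) (nat_lit 8) (nat_lit 4) (nat_lit 6) (nat_lit 4) (nat_lit 386) (nat_lit 260) (nat_lit 218)) (XT.nd (nat_lit 94) (nat_lit 0) (nat_lit 0) (XT.lf (nat_lit 0) (nat_lit 21037132892) (nat_lit 168) (nat_lit 6055966079) (nat_lit 0) (nat_lit 6711157510) (nat_lit 6) (nat_lit 5) (nat_lit 8) (nat_lit 4) (nat_lit 6) (nat_lit 4) (nat_lit 387) (nat_lit 260) (nat_lit 217)) (XT.lf (nat_lit 0) (nat_lit 23611506028) (nat_lit 168) (nat_lit 2030986853) (nat_lit 0) (nat_lit 9126956167) (nat_lit 6) (nat_lit 5) (nat_lit 8) (nat_lit 4) (nat_lit 6) (nat_lit 4) (nat_lit 388) (nat_lit 260) (nat_lit 216)))) (XT.nd (nat_lit 94) (nat_lit 0) (nat_lit 0) (XT.lf (nat_lit 0) (nat_lit 2117548865) (nat_lit 84) (nat_lit 24142790360) (nat_lit 84) (nat_lit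 9504434020) (nat_lit 5) (nat_lit 4) (nat_lit 6) (nat_lit 5) (nat_lit 6) (nat_lit 4) (nat_lit 389) (nat_lit 260) (nat_lit 215)) (XT.nd (nat_lit 94) (nat_lit 0) (nat_lit 0) (XT.lf (nat_lit 0) (nat_lit 6394307558) (nat_lit 84) (nat_lit 22592187618) (nat_lit 84) (nat_lit 7804649436) (nat_lit 5) (nat_lit 4) (nat_lit 6) (nat_lit 5) (nat_lit 6) (nat_lit 4) (nat_lit 390) (nat_lit 260) (nat_lit 214)) (XT.lf (nat_lit 0) (nat_lit 10761514355) (nat_lit 84) (nat_lit 21010438668) (nat_lit 84) (nat_lit 6078204229) (nat_lit 5) (nat_lit 4) (nat_lit 6) (nat_lit 5) (nat_lit 6) (nat_lit 4) (nat_lit 391) (nat_lit 260) (nat_lit 213)))))) (XT.nd (nat_lit 564) (nat_lit 84) (nat_lit 0) (XT.nd (nat_lit 282) (nat_lit 84) (nat_lit 0) (XT.nd (nat_lit 94) (nat_lit 0) (nat_lit 0) (XT.lf (nat_lit 0) (nat_lit 15223239952) (nat_lit 84) (nat_lit 19396069156) (nat_lit 84) (nat_lit 4323489172) (nat_lit 5) (nat_lit 4) (nat_lit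 6) (nat_lit 5) (nat_lit 6) (nat_lit 4) (nat_lit 392) (nat_lit 260) (nat_lit 212)) (XT.nd (nat_lit 94) (nat_lit 0) (nat_lit 0) (XT.lf (nat_lit 0) (nat_lit 19783643143) (nat_lit 84) (nat_lit 17747574319) (nat_lit 84) (nat_lit 2538868685) (nat_lit 5) (nat_lit 4) (nat_lit 6) (nat_lit 5) (nat_lit 6) (nat_lit 4) (nat_lit 393) (nat_lit 260) (nat_lit 211)) (XT.lf (nat_lit 0) (nat_lit 24446974701) (nat_lit 84) (nat_lit 16063417589) (nat_lit 84) (nat_lit 722679316) (nat_lit 5) (nat_lit 4) (nat_lit 6) (nat_lit 5) (nat_lit 6) (nat_lit 4) (nat_lit 394) (nat_lit 260) (nat_lit 210)))) (XT.nd (nat_lit 94) (nat_lit 0) (nat_lit 0) (XT.lf (nat_lit 0) (nat_lit 1104069872) (nat_lit 168) (nat_lit 13226435056) (nat_lit 84) (nat_lit 28101987244) (nat_lit 4) (nat_lit 5) (nat_lit 6) (nat_lit 5) (nat_lit 5) (nat_lit 4) (nat_lit 395) (nat_lit 260) (nat_lit 209)) (XT.nd (nat_lit 94) (nat_lit 0) (nat_lit 0) (XT.lf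 (nat_lit 0) (nat_lit 2950539444) (nat_lit 168) (nat_lit 9600467474) (nat_lit 84) (nat_lit 31118572744) (nat_lit 4) (nat_lit 5) (nat_lit 6) (nat_lit 5) (nat_lit 5) (nat_lit 4) (nat_lit 396) (nat_lit 260) (nat_lit 208)) (XT.lf (nat_lit 0) (nat_lit 4833010880) (nat_lit 168) (nat_lit 5897645311) (nat_lit 84) (nat_lit 34215053223) (nat_lit 4) (nat_lit 5) (nat_lit 6) (nat_lit 5) (nat_lit 5) (nat_lit 4) (nat_lit 397) (nat_lit 260) (nat_lit 207))))) (XT.nd (nat_lit 282) (nat_lit 0) (nat_lit 0) (XT.nd (nat_lit 94) (nat_lit 84) (nat_lit 0) (XT.lf (nat_lit 0) (nat_lit 6753238840) (nat_lit 168) (nat_lit 2114517148) (nat_lit 84) (nat_lit 37394314925) (nat_lit 4) (nat_lit 5) (nat_lit 6) (nat_lit 5) (nat_lit 5) (nat_lit 4) (nat_lit 398) (nat_lit 260) (nat_lit 206)) (XT.nd (nat_lit 94) (nat_lit 0) (nat_lit 0) (XT.lf (nat_lit 0) (nat_lit 1788477114) (nat_lit 84) (nat_lit 6942277977) (nat_lit 168) (nat_lit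 38888586055) (nat_lit 3) (nat_lit 5) (nat_lit 4) (nat_lit 5) (nat_lit 5) (nat_lit 4) (nat_lit 399) (nat_lit 260) (nat_lit 205)) (XT.lf (nat_lit 0) (nat_lit 5824184748) (nat_lit 84) (nat_lit 4947752492) (nat_lit 168) (nat_lit 38246707427) (nat_lit 3) (nat_lit 5) (nat_lit 4) (nat_lit 5) (nat_lit 5) (nat_lit 4) (nat_lit 400) (nat_lit 260) (nat_lit 204)))) (XT.nd (nat_lit 94) (nat_lit 0) (nat_lit 0) (XT.lf (nat_lit 0) (nat_lit 9952888645) (nat_lit 84) (nat_lit 2904391650) (nat_lit 168) (nat_lit 37604669113) (nat_lit 3) (nat_lit 5) (nat_lit 4) (nat_lit 5) (nat_lit 5) (nat_lit 4) (nat_lit 401) (nat_lit 260) (nat_lit 203)) (XT.nd (nat_lit 94) (nat_lit 0) (nat_lit 0) (XT.lf (nat_lit 0) (nat_lit 14178437191) (nat_lit 84) (nat_lit 810290824) (nat_lit 168) (nat_lit 36961872667) (nat_lit 3) (nat_lit 5) (nat_lit 4) (nat_lit 5) (nat_lit 5) (nat_lit 4) (nat_lit 402) (nat_lit 260) (nat_lit 202)) (XT.lf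 (nat_lit 0) (nat_lit 17181525397) (nat_lit 168) (nat_lit 34994475293) (nat_lit 0) (nat_lit 1309574371) (nat_lit 3) (nat_lit 5) (nat_lit 5) (nat_lit 4) (nat_lit 3) (nat_lit 4) (nat_lit 403) (nat_lit 260) (nat_lit 201))))))) (XT.nd (nat_lit 48786) (nat_lit 0) (nat_lit 1260) (XT.nd (nat_lit 564) (nat_lit 0) (nat_lit 0) (XT.nd (nat_lit 282) (nat_lit 0) (nat_lit 0) (XT.nd (nat_lit 94) (nat_lit 0) (nat_lit 0) (XT.lf (nat_lit 0) (nat_lit 19433026480) (nat_lit 168) (nat_lit 32168717193) (nat_lit 0) (nat_lit 3466705013) (nat_lit 3) (nat_lit 5) (nat_lit 5) (nat_lit 4) (nat_lit 3) (nat_lit 4) (nat_lit 404) (nat_lit 260) (nat_lit 200)) (XT.nd (nat_lit 94) (nat_lit 0) (nat_lit 0) (XT.lf (nat_lit 0) (nat_lit 21737291714) (nat_lit 168) (nat_lit 29284217107) (nat_lit 0) (nat_lit 5679437326) (nat_lit 3) (nat_lit 5) (nat_lit 5) (nat_lit 4) (nat_lit 3) (nat_lit 4) (nat_lit 405) (nat_lit 260) (nat_lit 199))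 (XT.lf (nat_lit 0) (nat_lit 24096468916) (nat_lit 168) (nat_lit 26338286376) (nat_lit 0) (nat_lit 7949833810) (nat_lit 3) (nat_lit 5) (nat_lit 5) (nat_lit 4) (nat_lit 3) (nat_lit 4) (nat_lit 406) (nat_lit 260) (nat_lit 198)))) (XT.nd (nat_lit 94) (nat_lit 0) (nat_lit 0) (XT.lf (nat_lit 0) (nat_lit 26512757087) (nat_lit 168) (nat_lit 23328179085) (nat_lit 0) (nat_lit 10280010712) (nat_lit 3) (nat_lit 5) (nat_lit 5) (nat_lit 4) (nat_lit 3) (nat_lit 4) (nat_lit 407) (nat_lit 260) (nat_lit 197)) (XT.nd (nat_lit 94) (nat_lit 0) (nat_lit 0) (XT.lf (nat_lit 0) (nat_lit 28988408459) (nat_lit 168) (nat_lit 20251089499) (nat_lit 0) (nat_lit 12672139999) (nat_lit 3) (nat_lit 5) (nat_lit 5) (nat_lit 4) (nat_lit 3) (nat_lit 4) (nat_lit 408) (nat_lit 260) (nat_lit 196)) (XT.lf (nat_lit 0) (nat_lit 31525730599) (nat_lit 168) (nat_lit 17104149448) (nat_lit 0) (nat_lit 15128451389) (nat_lit 3) (nat_lit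 5) (nat_lit 5) (nat_lit 4) (nat_lit 3) (nat_lit 4) (nat_lit 409) (nat_lit 260) (nat_lit 195))))) (XT.nd (nat_lit 47940) (nat_lit 0) (nat_lit 2436) (XT.nd (nat_lit 94) (nat_lit 0) (nat_lit 0) (XT.lf (nat_lit 0) (nat_lit 34127088557) (nat_lit 168) (nat_lit 13884425654) (nat_lit 0) (nat_lit 17651234419) (nat_lit 3) (nat_lit 5) (nat_lit 5) (nat_lit 4) (nat_lit 3) (nat_lit 4) (nat_lit 410) (nat_lit 260) (nat_lit 194)) (XT.nd (nat_lit 47752) (nat_lit 0) (nat_lit 2688) (XT.lf (nat_lit 0) (nat_lit 36794907072) (nat_lit 168) (nat_lit 10588916997) (nat_lit 0) (nat_lit 20242840588) (nat_lit 3) (nat_lit 5) (nat_lit 5) (nat_lit 4) (nat_lit 3) (nat_lit 4) (nat_lit 411) (nat_lit 260) (nat_lit 193)) (XT.lf (nat_lit 0) (nat_lit 1004122622) (nat_lit 336) (nat_lit 3577379606) (nat_lit 0) (nat_lit 1004122622) (nat_lit 35) (nat_lit 5) (nat_lit 39) (nat_lit 4) (nat_lit 35) (nat_lit 4) (nat_lit 342) (nat_lit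 261) (nat_lit 261)))) (XT.nd (nat_lit 94) (nat_lit 252) (nat_lit 0) (XT.lf (nat_lit 0) (nat_lit 5091487172) (nat_lit 336) (nat_lit 1936976437) (nat_lit 0) (nat_lit 4361749850) (nat_lit 35) (nat_lit 5) (nat_lit 39) (nat_lit 4) (nat_lit 35) (nat_lit 4) (nat_lit 343) (nat_lit 261) (nat_lit 260)) (XT.nd (nat_lit 94) (nat_lit 0) (nat_lit 0) (XT.lf (nat_lit 0) (nat_lit 3402627091) (nat_lit 252) (nat_lit 4826182165) (nat_lit 252) (nat_lit 3388649187) (nat_lit 32) (nat_lit 4) (nat_lit 35) (nat_lit 5) (nat_lit 35) (nat_lit 4) (nat_lit 344) (nat_lit 261) (nat_lit 259)) (XT.lf (nat_lit 0) (nat_lit 8841433669) (nat_lit 252) (nat_lit 2568115352) (nat_lit 252) (nat_lit 444068644) (nat_lit 32) (nat_lit 4) (nat_lit 35) (nat_lit 5) (nat_lit 35) (nat_lit 4) (nat_lit 345) (nat_lit 261) (nat_lit 258)))))) (XT.nd (nat_lit 564) (nat_lit 420) (nat_lit 0) (XT.nd (nat_lit 282) (nat_lit 252) (nat_lit 0) (XT.nd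 (nat_lit 94) (nat_lit 252) (nat_lit 0) (XT.lf (nat_lit 0) (nat_lit 2265842816) (nat_lit 168) (nat_lit 223453703) (nat_lit 252) (nat_lit 9608751639) (nat_lit 29) (nat_lit 5) (nat_lit 31) (nat_lit 5) (nat_lit 32) (nat_lit 4) (nat_lit 346) (nat_lit 261) (nat_lit 257)) (XT.nd (nat_lit 94) (nat_lit 252) (nat_lit 0) (XT.lf (nat_lit 0) (nat_lit 5485961260) (nat_lit 252) (nat_lit 4711208895) (nat_lit 0) (nat_lit 2153498832) (nat_lit 29) (nat_lit 5) (nat_lit 32) (nat_lit 4) (nat_lit 29) (nat_lit 4) (nat_lit 347) (nat_lit 261) (nat_lit 256)) (XT.lf (nat_lit 0) (nat_lit 472132356) (nat_lit 252) (nat_lit 8040585582) (nat_lit 252) (nat_lit 4100527630) (nat_lit 26) (nat_lit 4) (nat_lit 29) (nat_lit 5) (nat_lit 29) (nat_lit 4) (nat_lit 348) (nat_lit 261) (nat_lit 255)))) (XT.nd (nat_lit 94) (nat_lit 252) (nat_lit 0) (XT.lf (nat_lit 0) (nat_lit 5813448439) (nat_lit 252) (nat_lit 5800337612) (nat_lit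 252) (nat_lit 1270953253) (nat_lit 26) (nat_lit 4) (nat_lit 29) (nat_lit 5) (nat_lit 29) (nat_lit 4) (nat_lit 349) (nat_lit 261) (nat_lit 254)) (XT.nd (nat_lit 94) (nat_lit 168) (nat_lit 0) (XT.lf (nat_lit 0) (nat_lit 1545694847) (nat_lit 336) (nat_lit 1961684725) (nat_lit 84) (nat_lit 9659017170) (nat_lit 25) (nat_lit 5) (nat_lit 29) (nat_lit 5) (nat_lit 26) (nat_lit 4) (nat_lit 350) (nat_lit 261) (nat_lit 253)) (XT.lf (nat_lit 0) (nat_lit 3261011968) (nat_lit 168) (nat_lit 1129151755) (nat_lit 252) (nat_lit 9067401955) (nat_lit 23) (nat_lit 5) (nat_lit 25) (nat_lit 5) (nat_lit 26) (nat_lit 4) (nat_lit 351) (nat_lit 261) (nat_lit 252))))) (XT.nd (nat_lit 282) (nat_lit 252) (nat_lit 0) (XT.nd (nat_lit 94) (nat_lit 168) (nat_lit 0) (XT.lf (nat_lit 0) (nat_lit 7291856751) (nat_lit 252) (nat_lit 5182103995) (nat_lit 0) (nat_lit 1284912115) (nat_lit 23) (nat_lit 5) (nat_lit 26) (nat_lit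 4) (nat_lit 23) (nat_lit 4) (nat_lit 352) (nat_lit 261) (nat_lit 251)) (XT.nd (nat_lit 94) (nat_lit 168) (nat_lit 0) (XT.lf (nat_lit 0) (nat_lit 10232235968) (nat_lit 252) (nat_lit 119627912) (nat_lit 0) (nat_lit 3719393784) (nat_lit 23) (nat_lit 5) (nat_lit 26) (nat_lit 4) (nat_lit 23) (nat_lit 4) (nat_lit 353) (nat_lit 261) (nat_lit 250)) (XT.lf (nat_lit 0) (nat_lit 5109744587) (nat_lit 168) (nat_lit 8143785502) (nat_lit 168) (nat_lit 1140257043) (nat_lit 21) (nat_lit 4) (nat_lit 23) (nat_lit 5) (nat_lit 23) (nat_lit 4) (nat_lit 354) (nat_lit 261) (nat_lit 249)))) (XT.nd (nat_lit 94) (nat_lit 168) (nat_lit 0) (XT.lf (nat_lit 0) (nat_lit 1549587320) (nat_lit 252) (nat_lit 4332248979) (nat_lit 84) (nat_lit 8845952984) (nat_lit 20) (nat_lit 5) (nat_lit 23) (nat_lit 5) (nat_lit 21) (nat_lit 4) (nat_lit 355) (nat_lit 261) (nat_lit 248)) (XT.nd (nat_lit 94) (nat_lit 0) (nat_lit 0) (XT.lf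 (nat_lit 0) (nat_lit 684556601) (nat_lit 168) (nat_lit 3562434789) (nat_lit 252) (nat_lit 10826539761) (nat_lit 18) (nat_lit 5) (nat_lit 20) (nat_lit 5) (nat_lit 21) (nat_lit 4) (nat_lit 356) (nat_lit 261) (nat_lit 247)) (XT.lf (nat_lit 0) (nat_lit 5859018314) (nat_lit 168) (nat_lit 1156167953) (nat_lit 252) (nat_lit 8415329352) (nat_lit 18) (nat_lit 5) (nat_lit 20) (nat_lit 5) (nat_lit 21) (nat_lit 4) (nat_lit 357) (nat_lit 261) (nat_lit 246))))))))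
noncomputable def xc28 : XT := (XT.nd (nat_lit 2256) (nat_lit 336) (nat_lit 0) (XT.nd (nat_lit 1128) (nat_lit 336) (nat_lit 0) (XT.nd (nat_lit 564) (nat_lit 252) (nat_lit 0) (XT.nd (nat_lit 282) (nat_lit 168) (nat_lit 0) (XT.nd (nat_lit 94) (nat_lit 168) (nat_lit 0) (XT.lf (nat_lit 0) (nat_lit 9825728582) (nat_lit 252) (nat_lit 4706392237) (nat_lit 0) (nat_lit 1267916346) (nat_lit 18) (nat_lit 5) (nat_lit 21) (nat_lit 4) (nat_lit 18) (nat_lit 4) (nat_lit 358) (nat_lit 261) (nat_lit 245)) (XT.nd (nat_lit 94) (nat_lit 0) (nat_lit 0) (XT.lf (nat_lit 0) (nat_lit 216151528) (nat_lit 168) (nat_lit 12466309659) (nat_lit 168) (nat_lit 3499941118) (nat_lit 16) (nat_lit 4) (nat_lit 18) (nat_lit 5) (nat_lit 18) (nat_lit 4) (nat_lit 359) (nat_lit 261) (nat_lit 244)) (XT.lf (nat_lit 0) (nat_lit 5306027299) (nat_lit 168) (nat_lit 10316751931) (nat_lit 168) (nat_lit 954111512) (nat_lit 16) (nat_lit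 4) (nat_lit 18) (nat_lit 5) (nat_lit 18) (nat_lit 4) (nat_lit 360) (nat_lit 261) (nat_lit 243)))) (XT.nd (nat_lit 94) (nat_lit 84) (nat_lit 0) (XT.lf (nat_lit 0) (nat_lit 1583860707) (nat_lit 252) (nat_lit 6530176139) (nat_lit 84) (nat_lit 8870813329) (nat_lit 15) (nat_lit 5) (nat_lit 18) (nat_lit 5) (nat_lit 16) (nat_lit 4) (nat_lit 361) (nat_lit 261) (nat_lit 242)) (XT.nd (nat_lit 94) (nat_lit 84) (nat_lit 0) (XT.lf (nat_lit 0) (nat_lit 4129169629) (nat_lit 252) (nat_lit 1733453733) (nat_lit 84) (nat_lit 11544233310) (nat_lit 15) (nat_lit 5) (nat_lit 18) (nat_lit 5) (nat_lit 16) (nat_lit 4) (nat_lit 362) (nat_lit 261) (nat_lit 241)) (XT.lf (nat_lit 0) (nat_lit 3197665559) (nat_lit 84) (nat_lit 3537466648) (nat_lit 168) (nat_lit 11107481435) (nat_lit 14) (nat_lit 5) (nat_lit 15) (nat_lit 5) (nat_lit 16) (nat_lit 4) (nat_lit 363) (nat_lit 261) (nat_lit 240))))) (XT.nd (nat_lit 282) (nat_lit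 252) (nat_lit 0) (XT.nd (nat_lit 94) (nat_lit 0) (nat_lit 0) (XT.lf (nat_lit 0) (nat_lit 8240467561) (nat_lit 84) (nat_lit 1150263088) (nat_lit 168) (nat_lit 8902213458) (nat_lit 14) (nat_lit 5) (nat_lit 15) (nat_lit 5) (nat_lit 16) (nat_lit 4) (nat_lit 364) (nat_lit 261) (nat_lit 239)) (XT.nd (nat_lit 94) (nat_lit 0) (nat_lit 0) (XT.lf (nat_lit 0) (nat_lit 12093619284) (nat_lit 168) (nat_lit 5407531231) (nat_lit 0) (nat_lit 1257266756) (nat_lit 14) (nat_lit 5) (nat_lit 16) (nat_lit 4) (nat_lit 14) (nat_lit 4) (nat_lit 365) (nat_lit 261) (nat_lit 238)) (XT.lf (nat_lit 0) (nat_lit 14845468272) (nat_lit 168) (nat_lit 704933347) (nat_lit 0) (nat_lit 3689091711) (nat_lit 14) (nat_lit 5) (nat_lit 16) (nat_lit 4) (nat_lit 14) (nat_lit 4) (nat_lit 366) (nat_lit 261) (nat_lit 237)))) (XT.nd (nat_lit 94) (nat_lit 84) (nat_lit 0) (XT.lf (nat_lit 0) (nat_lit 4154821565) (nat_lit 168) (nat_lit 13523826653)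 (nat_lit 168) (nat_lit 2057048507) (nat_lit 12) (nat_lit 4) (nat_lit 14) (nat_lit 5) (nat_lit 14) (nat_lit 4) (nat_lit 367) (nat_lit 261) (nat_lit 236)) (XT.nd (nat_lit 94) (nat_lit 0) (nat_lit 0) (XT.lf (nat_lit 0) (nat_lit 307622129) (nat_lit 252) (nat_lit 11143066063) (nat_lit 84) (nat_lit 8797738438) (nat_lit 11) (nat_lit 5) (nat_lit 14) (nat_lit 5) (nat_lit 12) (nat_lit 4) (nat_lit 368) (nat_lit 261) (nat_lit 235)) (XT.lf (nat_lit 0) (nat_lit 2659137515) (nat_lit 252) (nat_lit 6659154283) (nat_lit 84) (nat_lit 11459545574) (nat_lit 11) (nat_lit 5) (nat_lit 14) (nat_lit 5) (nat_lit 12) (nat_lit 4) (nat_lit 369) (nat_lit 261) (nat_lit 234)))))) (XT.nd (nat_lit 564) (nat_lit 252) (nat_lit 0) (XT.nd (nat_lit 282) (nat_lit 0) (nat_lit 0) (XT.nd (nat_lit 94) (nat_lit 84) (nat_lit 0) (XT.lf (nat_lit 0) (nat_lit 5041134451) (nat_lit 252) (nat_lit 2104554168) (nat_lit 84) (nat_lit 14179366388)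 (nat_lit 11) (nat_lit 5) (nat_lit 14) (nat_lit 5) (nat_lit 12) (nat_lit 4) (nat_lit 370) (nat_lit 261) (nat_lit 233)) (XT.nd (nat_lit 94) (nat_lit 0) (nat_lit 0) (XT.lf (nat_lit 0) (nat_lit 2576898405) (nat_lit 84) (nat_lit 4904497954) (nat_lit 168) (nat_lit 14408400783) (nat_lit 10) (nat_lit 5) (nat_lit 11) (nat_lit 5) (nat_lit 12) (nat_lit 4) (nat_lit 371) (nat_lit 261) (nat_lit 232)) (XT.lf (nat_lit 0) (nat_lit 7382503359) (nat_lit 84) (nat_lit 2596216527) (nat_lit 168) (nat_lit 12493978107) (nat_lit 10) (nat_lit 5) (nat_lit 11) (nat_lit 5) (nat_lit 12) (nat_lit 4) (nat_lit 372) (nat_lit 261) (nat_lit 231)))) (XT.nd (nat_lit 94) (nat_lit 0) (nat_lit 0) (XT.lf (nat_lit 0) (nat_lit 12273466069) (nat_lit 84) (nat_lit 240660008) (nat_lit 168) (nat_lit 10560835315) (nat_lit 10) (nat_lit 5) (nat_lit 11) (nat_lit 5) (nat_lit 12) (nat_lit 4) (nat_lit 373) (nat_lit 261) (nat_lit 230)) (XT.nd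 (nat_lit 94) (nat_lit 0) (nat_lit 0) (XT.lf (nat_lit 0) (nat_lit 15111448987) (nat_lit 168) (nat_lit 6464274077) (nat_lit 0) (nat_lit 2120760052) (nat_lit 10) (nat_lit 5) (nat_lit 12) (nat_lit 4) (nat_lit 10) (nat_lit 4) (nat_lit 374) (nat_lit 261) (nat_lit 229)) (XT.lf (nat_lit 0) (nat_lit 17754519161) (nat_lit 168) (nat_lit 2055897718) (nat_lit 0) (nat_lit 4528001913) (nat_lit 10) (nat_lit 5) (nat_lit 12) (nat_lit 4) (nat_lit 10) (nat_lit 4) (nat_lit 375) (nat_lit 261) (nat_lit 228))))) (XT.nd (nat_lit 282) (nat_lit 84) (nat_lit 0) (XT.nd (nat_lit 94) (nat_lit 0) (nat_lit 0) (XT.lf (nat_lit 0) (nat_lit 2480098657) (nat_lit 168) (nat_lit 17987917068) (nat_lit 168) (nat_lit 4532662368) (nat_lit 8) (nat_lit 4) (nat_lit 10) (nat_lit 5) (nat_lit 10) (nat_lit 4) (nat_lit 376) (nat_lit 261) (nat_lit 227)) (XT.nd (nat_lit 94) (nat_lit 0) (nat_lit 0) (XT.lf (nat_lit 0) (nat_lit 7141884168)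 (nat_lit 168) (nat_lit 16109600560) (nat_lit 168) (nat_lit 2432486064) (nat_lit 8) (nat_lit 4) (nat_lit 10) (nat_lit 5) (nat_lit 10) (nat_lit 4) (nat_lit 377) (nat_lit 261) (nat_lit 226)) (XT.lf (nat_lit 0) (nat_lit 11891530611) (nat_lit 168) (nat_lit 14195175926) (nat_lit 168) (nat_lit 302872489) (nat_lit 8) (nat_lit 4) (nat_lit 10) (nat_lit 5) (nat_lit 10) (nat_lit 4) (nat_lit 378) (nat_lit 261) (nat_lit 225)))) (XT.nd (nat_lit 94) (nat_lit 0) (nat_lit 0) (XT.lf (nat_lit 0) (nat_lit 1820725525) (nat_lit 252) (nat_lit 10403128555) (nat_lit 84) (nat_lit 14893734989) (nat_lit 7) (nat_lit 5) (nat_lit 10) (nat_lit 5) (nat_lit 8) (nat_lit 4) (nat_lit 379) (nat_lit 261) (nat_lit 224)) (XT.nd (nat_lit 94) (nat_lit 0) (nat_lit 0) (XT.lf (nat_lit 0) (nat_lit 3970984267) (nat_lit 252) (nat_lit 6238395982) (nat_lit 84) (nat_lit 17659767791) (nat_lit 7) (nat_lit 5) (nat_lit 10) (nat_lit 5) (nat_lit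 8) (nat_lit 4) (nat_lit 380) (nat_lit 261) (nat_lit 223)) (XT.lf (nat_lit 0) (nat_lit 6156010206) (nat_lit 252) (nat_lit 1996964198) (nat_lit 84) (nat_lit 20492075207) (nat_lit 7) (nat_lit 5) (nat_lit 10) (nat_lit 5) (nat_lit 8) (nat_lit 4) (nat_lit 381) (nat_lit 261) (nat_lit 222))))))) (XT.nd (nat_lit 1128) (nat_lit 168) (nat_lit 0) (XT.nd (nat_lit 564) (nat_lit 84) (nat_lit 0) (XT.nd (nat_lit 282) (nat_lit 0) (nat_lit 0) (XT.nd (nat_lit 94) (nat_lit 0) (nat_lit 0) (XT.lf (nat_lit 0) (nat_lit 2372929496) (nat_lit 84) (nat_lit 6028450273) (nat_lit 168) (nat_lit 21043907501) (nat_lit 6) (nat_lit 5) (nat_lit 7) (nat_lit 5) (nat_lit 8) (nat_lit 4) (nat_lit 382) (nat_lit 261) (nat_lit 221)) (XT.nd (nat_lit 94) (nat_lit 0) (nat_lit 0) (XT.lf (nat_lit 0) (nat_lit 6870307398) (nat_lit 84) (nat_lit 3836391576) (nat_lit 168) (nat_lit 19563985045) (nat_lit 6) (nat_lit 5) (nat_lit 7) (nat_lit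 5) (nat_lit 8) (nat_lit 4) (nat_lit 383) (nat_lit 261) (nat_lit 220)) (XT.lf (nat_lit 0) (nat_lit 11458299855) (nat_lit 84) (nat_lit 1595599294) (nat_lit 168) (nat_lit 18068736807) (nat_lit 6) (nat_lit 5) (nat_lit 7) (nat_lit 5) (nat_lit 8) (nat_lit 4) (nat_lit 384) (nat_lit 261) (nat_lit 219)))) (XT.nd (nat_lit 94) (nat_lit 0) (nat_lit 0) (XT.lf (nat_lit 0) (nat_lit 15452072687) (nat_lit 168) (nat_lit 15867658389) (nat_lit 0) (nat_lit 681992068) (nat_lit 6) (nat_lit 5) (nat_lit 8) (nat_lit 4) (nat_lit 6) (nat_lit 4) (nat_lit 385) (nat_lit 261) (nat_lit 218)) (XT.nd (nat_lit 94) (nat_lit 0) (nat_lit 0) (XT.lf (nat_lit 0) (nat_lit 17912897840) (nat_lit 168) (nat_lit 12016247486) (nat_lit 0) (nat_lit 2979326933) (nat_lit 6) (nat_lit 5) (nat_lit 8) (nat_lit 4) (nat_lit 6) (nat_lit 4) (nat_lit 386) (nat_lit 261) (nat_lit 217)) (XT.lf (nat_lit 0) (nat_lit 20422839812) (nat_lit 168) (nat_lit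 8090684931) (nat_lit 0) (nat_lit 5330694426) (nat_lit 6) (nat_lit 5) (nat_lit 8) (nat_lit 4) (nat_lit 6) (nat_lit 4) (nat_lit 387) (nat_lit 261) (nat_lit 216))))) (XT.nd (nat_lit 282) (nat_lit 0) (nat_lit 0) (XT.nd (nat_lit 94) (nat_lit 84) (nat_lit 0) (XT.lf (nat_lit 0) (nat_lit 22984238131) (nat_lit 168) (nat_lit 4087311689) (nat_lit 0) (nat_lit 7738286267) (nat_lit 6) (nat_lit 5) (nat_lit 8) (nat_lit 4) (nat_lit 6) (nat_lit 4) (nat_lit 388) (nat_lit 261) (nat_lit 215)) (XT.nd (nat_lit 94) (nat_lit 84) (nat_lit 0) (XT.lf (nat_lit 0) (nat_lit 25599480290) (nat_lit 168) (nat_lit 2396196) (nat_lit 0) (nat_lit 10204346584) (nat_lit 6) (nat_lit 5) (nat_lit 8) (nat_lit 4) (nat_lit 6) (nat_lit 4) (nat_lit 389) (nat_lit 261) (nat_lit 214)) (XT.lf (nat_lit 0) (nat_lit 4253569052) (nat_lit 84) (nat_lit 24059630848) (nat_lit 84) (nat_lit 8519800884) (nat_lit 5) (nat_lit 4) (nat_lit 6) (nat_lit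 5) (nat_lit 6) (nat_lit 4) (nat_lit 390) (nat_lit 261) (nat_lit 213)))) (XT.nd (nat_lit 94) (nat_lit 0) (nat_lit 0) (XT.lf (nat_lit 0) (nat_lit 8600655410) (nat_lit 84) (nat_lit 22485963461) (nat_lit 84) (nat_lit 6805787952) (nat_lit 5) (nat_lit 4) (nat_lit 6) (nat_lit 5) (nat_lit 6) (nat_lit 4) (nat_lit 391) (nat_lit 261) (nat_lit 212)) (XT.nd (nat_lit 94) (nat_lit 0) (nat_lit 0) (XT.lf (nat_lit 0) (nat_lit 13042865547) (nat_lit 84) (nat_lit 20879432517) (nat_lit 84) (nat_lit 5063131357) (nat_lit 5) (nat_lit 4) (nat_lit 6) (nat_lit 5) (nat_lit 6) (nat_lit 4) (nat_lit 392) (nat_lit 261) (nat_lit 211)) (XT.lf (nat_lit 0) (nat_lit 17584340066) (nat_lit 84) (nat_lit 19238540559) (nat_lit 84) (nat_lit 3290206760) (nat_lit 5) (nat_lit 4) (nat_lit 6) (nat_lit 5) (nat_lit 6) (nat_lit 4) (nat_lit 393) (nat_lit 261) (nat_lit 210)))))) (XT.nd (nat_lit 564) (nat_lit 84) (nat_lit 0) (XT.nd (nat_lit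 282) (nat_lit 0) (nat_lit 0) (XT.nd (nat_lit 94) (nat_lit 84) (nat_lit 0) (XT.lf (nat_lit 0) (nat_lit 22229312100) (nat_lit 84) (nat_lit 17561758104) (nat_lit 84) (nat_lit 1485361611) (nat_lit 5) (nat_lit 4) (nat_lit 6) (nat_lit 5) (nat_lit 6) (nat_lit 4) (nat_lit 394) (nat_lit 261) (nat_lit 209)) (XT.nd (nat_lit 94) (nat_lit 0) (nat_lit 0) (XT.lf (nat_lit 0) (nat_lit 345972492) (nat_lit 168) (nat_lit 15497938480) (nat_lit 84) (nat_lit 26632527511) (nat_lit 4) (nat_lit 5) (nat_lit 6) (nat_lit 5) (nat_lit 5) (nat_lit 4) (nat_lit 395) (nat_lit 261) (nat_lit 208)) (XT.lf (nat_lit 0) (nat_lit 2181984805) (nat_lit 168) (nat_lit 11889474795) (nat_lit 84) (nat_lit 29642407363) (nat_lit 4) (nat_lit 5) (nat_lit 6) (nat_lit 5) (nat_lit 5) (nat_lit 4) (nat_lit 396) (nat_lit 261) (nat_lit 207)))) (XT.nd (nat_lit 94) (nat_lit 0) (nat_lit 0) (XT.lf (nat_lit 0) (nat_lit 4054313409) (nat_lit 168) (nat_lit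 8203630222) (nat_lit 84) (nat_lit 32732383818) (nat_lit 4) (nat_lit 5) (nat_lit 6) (nat_lit 5) (nat_lit 5) (nat_lit 4) (nat_lit 397) (nat_lit 261) (nat_lit 206)) (XT.nd (nat_lit 94) (nat_lit 0) (nat_lit 0) (XT.lf (nat_lit 0) (nat_lit 5964703511) (nat_lit 168) (nat_lit 4436969170) (nat_lit 84) (nat_lit 35905337059) (nat_lit 4) (nat_lit 5) (nat_lit 6) (nat_lit 5) (nat_lit 5) (nat_lit 4) (nat_lit 398) (nat_lit 261) (nat_lit 205)) (XT.lf (nat_lit 0) (nat_lit 7914935794) (nat_lit 168) (nat_lit 585980714) (nat_lit 84) (nat_lit 39164224610) (nat_lit 4) (nat_lit 5) (nat_lit 6) (nat_lit 5) (nat_lit 5) (nat_lit 4) (nat_lit 399) (nat_lit 261) (nat_lit 204))))) (XT.nd (nat_lit 282) (nat_lit 0) (nat_lit 0) (XT.nd (nat_lit 94) (nat_lit 0) (nat_lit 0) (XT.lf (nat_lit 0) (nat_lit 3421867676) (nat_lit 84) (nat_lit 6518905754) (nat_lit 168) (nat_lit 39124161771) (nat_lit 3) (nat_lit 5) (nat_lit 4) (nat_lit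 5) (nat_lit 5) (nat_lit 4) (nat_lit 400) (nat_lit 261) (nat_lit 203)) (XT.nd (nat_lit 94) (nat_lit 0) (nat_lit 0) (XT.lf (nat_lit 0) (nat_lit 7535236679) (nat_lit 84) (nat_lit 4481750821) (nat_lit 168) (nat_lit 38491549875) (nat_lit 3) (nat_lit 5) (nat_lit 4) (nat_lit 5) (nat_lit 5) (nat_lit 4) (nat_lit 401) (nat_lit 261) (nat_lit 202)) (XT.lf (nat_lit 0) (nat_lit 11745911417) (nat_lit 84) (nat_lit 2393669306) (nat_lit 168) (nat_lit 37857896414) (nat_lit 3) (nat_lit 5) (nat_lit 4) (nat_lit 5) (nat_lit 5) (nat_lit 4) (nat_lit 402) (nat_lit 261) (nat_lit 201)))) (XT.nd (nat_lit 94) (nat_lit 0) (nat_lit 0) (XT.lf (nat_lit 0) (nat_lit 16057816682) (nat_lit 84) (nat_lit 252714898) (nat_lit 168) (nat_lit 37222610757) (nat_lit 3) (nat_lit 5) (nat_lit 4) (nat_lit 5) (nat_lit 5) (nat_lit 4) (nat_lit 403) (nat_lit 261) (nat_lit 200)) (XT.nd (nat_lit 94) (nat_lit 0) (nat_lit 0) (XT.lf (nat_lit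 0) (nat_lit 18551139495) (nat_lit 168) (nat_lit 34661268625) (nat_lit 0) (nat_lit 1903958701) (nat_lit 3) (nat_lit 5) (nat_lit 5) (nat_lit 4) (nat_lit 3) (nat_lit 4) (nat_lit 404) (nat_lit 261) (nat_lit 199)) (XT.lf (nat_lit 0) (nat_lit 20847270680) (nat_lit 168) (nat_lit 31790549365) (nat_lit 0) (nat_lit 4111309167) (nat_lit 3) (nat_lit 5) (nat_lit 5) (nat_lit 4) (nat_lit 3) (nat_lit 4) (nat_lit 405) (nat_lit 261) (nat_lit 198))))))))
noncomputable def xc29 : XT := (XT.nd (nat_lit 49726) (nat_lit 0) (nat_lit 336) (XT.nd (nat_lit 48598) (nat_lit 0) (nat_lit 1260) (XT.nd (nat_lit 48034) (nat_lit 0) (nat_lit 2352) (XT.nd (nat_lit 282) (nat_lit 0) (nat_lit 0) (XT.nd (nat_lit 94) (nat_lit 0) (nat_lit 0) (XT.lf (nat_lit 0) (nat_lit 23198558406) (nat_lit 168) (nat_lit 28857985100) (nat_lit 0) (nat_lit 6376485625) (nat_lit 3) (nat_lit 5) (nat_lit 5) (nat_lit 4) (nat_lit 3) (nat_lit 4) (nat_lit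 406) (nat_lit 261) (nat_lit 197)) (XT.nd (nat_lit 94) (nat_lit 0) (nat_lit 0) (XT.lf (nat_lit 0) (nat_lit 25607194320) (nat_lit 168) (nat_lit 25860842374) (nat_lit 0) (nat_lit 8701599455) (nat_lit 3) (nat_lit 5) (nat_lit 5) (nat_lit 4) (nat_lit 3) (nat_lit 4) (nat_lit 407) (nat_lit 261) (nat_lit 196)) (XT.lf (nat_lit 0) (nat_lit 28075423524) (nat_lit 168) (nat_lit 22796327535) (nat_lit 0) (nat_lit 11088817907) (nat_lit 3) (nat_lit 5) (nat_lit 5) (nat_lit 4) (nat_lit 3) (nat_lit 4) (nat_lit 408) (nat_lit 261) (nat_lit 195)))) (XT.nd (nat_lit 94) (nat_lit 0) (nat_lit 0) (XT.lf (nat_lit 0) (nat_lit 30605546664) (nat_lit 168) (nat_lit 19661584135) (nat_lit 0) (nat_lit 13540366120) (nat_lit 3) (nat_lit 5) (nat_lit 5) (nat_lit 4) (nat_lit 3) (nat_lit 4) (nat_lit 409) (nat_lit 261) (nat_lit 194)) (XT.nd (nat_lit 94) (nat_lit 0) (nat_lit 0) (XT.lf (nat_lit 0) (nat_lit 33199922082) (nat_lit 168)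 (nat_lit 16453690265) (nat_lit 0) (nat_lit 16058529192) (nat_lit 3) (nat_lit 5) (nat_lit 5) (nat_lit 4) (nat_lit 3) (nat_lit 4) (nat_lit 410) (nat_lit 261) (nat_lit 193)) (XT.lf (nat_lit 0) (nat_lit 35860968006) (nat_lit 168) (nat_lit 13169655831) (nat_lit 0) (nat_lit 18645654316) (nat_lit 3) (nat_lit 5) (nat_lit 5) (nat_lit 4) (nat_lit 3) (nat_lit 4) (nat_lit 411) (nat_lit 261) (nat_lit 192))))) (XT.nd (nat_lit 282) (nat_lit 336) (nat_lit 0) (XT.nd (nat_lit 94) (nat_lit 336) (nat_lit 0) (XT.lf (nat_lit 0) (nat_lit 2094119055) (nat_lit 252) (nat_lit 1641707079) (nat_lit 252) (nat_lit 1641707079) (nat_lit 39) (nat_lit 4) (nat_lit 42) (nat_lit 5) (nat_lit 42) (nat_lit 4) (nat_lit 340) (nat_lit 262) (nat_lit 262)) (XT.nd (nat_lit 94) (nat_lit 336) (nat_lit 0) (XT.lf (nat_lit 0) (nat_lit 9611632736) (nat_lit 252) (nat_lit 1062308264) (nat_lit 252) (nat_lit 286625950) (nat_lit 39) (nat_lit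 4) (nat_lit 42) (nat_lit 5) (nat_lit 42) (nat_lit 4) (nat_lit 341) (nat_lit 262) (nat_lit 261)) (XT.lf (nat_lit 0) (nat_lit 2722402689) (nat_lit 336) (nat_lit 7209830078) (nat_lit 0) (nat_lit 1240306189) (nat_lit 35) (nat_lit 5) (nat_lit 39) (nat_lit 4) (nat_lit 35) (nat_lit 4) (nat_lit 342) (nat_lit 262) (nat_lit 260)))) (XT.nd (nat_lit 94) (nat_lit 336) (nat_lit 0) (XT.lf (nat_lit 0) (nat_lit 5768591527) (nat_lit 336) (nat_lit 2045462303) (nat_lit 0) (nat_lit 3578699371) (nat_lit 35) (nat_lit 5) (nat_lit 39) (nat_lit 4) (nat_lit 35) (nat_lit 4) (nat_lit 343) (nat_lit 262) (nat_lit 259)) (XT.nd (nat_lit 94) (nat_lit 84) (nat_lit 0) (XT.lf (nat_lit 0) (nat_lit 3239036312) (nat_lit 252) (nat_lit 5629315479) (nat_lit 252) (nat_lit 2752909592) (nat_lit 32) (nat_lit 4) (nat_lit 35) (nat_lit 5) (nat_lit 35) (nat_lit 4) (nat_lit 344) (nat_lit 262) (nat_lit 258)) (XT.lf (nat_lit 0) (nat_lit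 151986487) (nat_lit 336) (nat_lit 3233593037) (nat_lit 84) (nat_lit 8472985570) (nat_lit 31) (nat_lit 5) (nat_lit 35) (nat_lit 5) (nat_lit 32) (nat_lit 4) (nat_lit 345) (nat_lit 262) (nat_lit 257)))))) (XT.nd (nat_lit 564) (nat_lit 420) (nat_lit 0) (XT.nd (nat_lit 282) (nat_lit 252) (nat_lit 0) (XT.nd (nat_lit 94) (nat_lit 252) (nat_lit 0) (XT.lf (nat_lit 0) (nat_lit 1983799038) (nat_lit 168) (nat_lit 1055062103) (nat_lit 252) (nat_lit 9065251868) (nat_lit 29) (nat_lit 5) (nat_lit 31) (nat_lit 5) (nat_lit 32) (nat_lit 4) (nat_lit 346) (nat_lit 262) (nat_lit 256)) (XT.nd (nat_lit 94) (nat_lit 252) (nat_lit 0) (XT.lf (nat_lit 0) (nat_lit 5992921874) (nat_lit 252) (nat_lit 5042093516) (nat_lit 0) (nat_lit 1323126600) (nat_lit 29) (nat_lit 5) (nat_lit 32) (nat_lit 4) (nat_lit 29) (nat_lit 4) (nat_lit 347) (nat_lit 262) (nat_lit 255)) (XT.lf (nat_lit 0) (nat_lit 83935009) (nat_lit 252) (nat_lit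 8898571190) (nat_lit 252) (nat_lit 3639449510) (nat_lit 26) (nat_lit 4) (nat_lit 29) (nat_lit 5) (nat_lit 29) (nat_lit 4) (nat_lit 348) (nat_lit 262) (nat_lit 254)))) (XT.nd (nat_lit 94) (nat_lit 252) (nat_lit 0) (XT.lf (nat_lit 0) (nat_lit 5376260733) (nat_lit 252) (nat_lit 6674508105) (nat_lit 252) (nat_lit 843779823) (nat_lit 26) (nat_lit 4) (nat_lit 29) (nat_lit 5) (nat_lit 29) (nat_lit 4) (nat_lit 349) (nat_lit 262) (nat_lit 253)) (XT.nd (nat_lit 94) (nat_lit 168) (nat_lit 0) (XT.lf (nat_lit 0) (nat_lit 1932039001) (nat_lit 336) (nat_lit 2461176664) (nat_lit 84) (nat_lit 8783935347) (nat_lit 25) (nat_lit 5) (nat_lit 29) (nat_lit 5) (nat_lit 26) (nat_lit 4) (nat_lit 350) (nat_lit 262) (nat_lit 252)) (XT.lf (nat_lit 0) (nat_lit 2703480750) (nat_lit 168) (nat_lit 2036242534) (nat_lit 252) (nat_lit 8729812035) (nat_lit 23) (nat_lit 5) (nat_lit 25) (nat_lit 5) (nat_lit 26) (nat_lit 4)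 (nat_lit 351) (nat_lit 262) (nat_lit 251))))) (XT.nd (nat_lit 282) (nat_lit 252) (nat_lit 0) (XT.nd (nat_lit 94) (nat_lit 168) (nat_lit 0) (XT.lf (nat_lit 0) (nat_lit 7601489813) (nat_lit 252) (nat_lit 5789811230) (nat_lit 0) (nat_lit 380851973) (nat_lit 23) (nat_lit 5) (nat_lit 26) (nat_lit 4) (nat_lit 23) (nat_lit 4) (nat_lit 352) (nat_lit 262) (nat_lit 250)) (XT.nd (nat_lit 94) (nat_lit 168) (nat_lit 0) (XT.lf (nat_lit 0) (nat_lit 10511870925) (nat_lit 252) (nat_lit 773120626) (nat_lit 0) (nat_lit 2800546811) (nat_lit 23) (nat_lit 5) (nat_lit 26) (nat_lit 4) (nat_lit 23) (nat_lit 4) (nat_lit 353) (nat_lit 262) (nat_lit 249)) (XT.lf (nat_lit 0) (nat_lit 4397492780) (nat_lit 168) (nat_lit 9099510516) (nat_lit 168) (nat_lit 912254031) (nat_lit 21) (nat_lit 4) (nat_lit 23) (nat_lit 5) (nat_lit 23) (nat_lit 4) (nat_lit 354) (nat_lit 262) (nat_lit 248)))) (XT.nd (nat_lit 94) (nat_lit 168)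 (nat_lit 0) (XT.lf (nat_lit 0) (nat_lit 1743981054) (nat_lit 252) (nat_lit 5106853049) (nat_lit 84) (nat_lit 7893319165) (nat_lit 20) (nat_lit 5) (nat_lit 23) (nat_lit 5) (nat_lit 21) (nat_lit 4) (nat_lit 355) (nat_lit 262) (nat_lit 247)) (XT.nd (nat_lit 94) (nat_lit 168) (nat_lit 0) (XT.lf (nat_lit 0) (nat_lit 4406451148) (nat_lit 252) (nat_lit 147118370) (nat_lit 84) (nat_lit 10537471058) (nat_lit 20) (nat_lit 5) (nat_lit 23) (nat_lit 5) (nat_lit 21) (nat_lit 4) (nat_lit 356) (nat_lit 262) (nat_lit 246)) (XT.lf (nat_lit 0) (nat_lit 4981477831) (nat_lit 168) (nat_lit 2163956881) (nat_lit 252) (nat_lit 8303556490) (nat_lit 18) (nat_lit 5) (nat_lit 20) (nat_lit 5) (nat_lit 21) (nat_lit 4) (nat_lit 357) (nat_lit 262) (nat_lit 245))))))) (XT.nd (nat_lit 1128) (nat_lit 336) (nat_lit 0) (XT.nd (nat_lit 564) (nat_lit 252) (nat_lit 0) (XT.nd (nat_lit 282) (nat_lit 168) (nat_lit 0) (XT.nd (nat_lit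 94) (nat_lit 168) (nat_lit 0) (XT.lf (nat_lit 0) (nat_lit 9918945836) (nat_lit 252) (nat_lit 5634710101) (nat_lit 0) (nat_lit 266063564) (nat_lit 18) (nat_lit 5) (nat_lit 21) (nat_lit 4) (nat_lit 18) (nat_lit 4) (nat_lit 358) (nat_lit 262) (nat_lit 244)) (XT.nd (nat_lit 94) (nat_lit 168) (nat_lit 0) (XT.lf (nat_lit 0) (nat_lit 12747313242) (nat_lit 252) (nat_lit 757548648) (nat_lit 0) (nat_lit 2698159092) (nat_lit 18) (nat_lit 5) (nat_lit 21) (nat_lit 4) (nat_lit 18) (nat_lit 4) (nat_lit 359) (nat_lit 262) (nat_lit 243)) (XT.lf (nat_lit 0) (nat_lit 4276138391) (nat_lit 168) (nat_lit 11377987975) (nat_lit 168) (nat_lit 944477008) (nat_lit 16) (nat_lit 4) (nat_lit 18) (nat_lit 5) (nat_lit 18) (nat_lit 4) (nat_lit 360) (nat_lit 262) (nat_lit 242)))) (XT.nd (nat_lit 94) (nat_lit 84) (nat_lit 0) (XT.lf (nat_lit 0) (nat_lit 1567933644) (nat_lit 252) (nat_lit 7621837749) (nat_lit 84) (nat_lit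 7817626870) (nat_lit 15) (nat_lit 5) (nat_lit 18) (nat_lit 5) (nat_lit 16) (nat_lit 4) (nat_lit 361) (nat_lit 262) (nat_lit 241)) (XT.nd (nat_lit 94) (nat_lit 84) (nat_lit 0) (XT.lf (nat_lit 0) (nat_lit 4088637860) (nat_lit 252) (nat_lit 2863878190) (nat_lit 84) (nat_lit 10477701920) (nat_lit 15) (nat_lit 5) (nat_lit 18) (nat_lit 5) (nat_lit 16) (nat_lit 4) (nat_lit 362) (nat_lit 262) (nat_lit 240)) (XT.lf (nat_lit 0) (nat_lit 2005626849) (nat_lit 84) (nat_lit 4653283523) (nat_lit 168) (nat_lit 11208219907) (nat_lit 14) (nat_lit 5) (nat_lit 15) (nat_lit 5) (nat_lit 16) (nat_lit 4) (nat_lit 363) (nat_lit 262) (nat_lit 239))))) (XT.nd (nat_lit 282) (nat_lit 252) (nat_lit 0) (XT.nd (nat_lit 94) (nat_lit 0) (nat_lit 0) (XT.lf (nat_lit 0) (nat_lit 7011212161) (nat_lit 84) (nat_lit 2279780131) (nat_lit 168) (nat_lit 9027244938) (nat_lit 14) (nat_lit 5) (nat_lit 15) (nat_lit 5) (nat_lit 16)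 (nat_lit 4) (nat_lit 364) (nat_lit 262) (nat_lit 238)) (XT.nd (nat_lit 94) (nat_lit 0) (nat_lit 0) (XT.lf (nat_lit 0) (nat_lit 11959734728) (nat_lit 168) (nat_lit 6687593787) (nat_lit 0) (nat_lit 137486459) (nat_lit 14) (nat_lit 5) (nat_lit 16) (nat_lit 4) (nat_lit 14) (nat_lit 4) (nat_lit 365) (nat_lit 262) (nat_lit 237)) (XT.lf (nat_lit 0) (nat_lit 14689332261) (nat_lit 168) (nat_lit 2020610823) (nat_lit 0) (nat_lit 2556682407) (nat_lit 14) (nat_lit 5) (nat_lit 16) (nat_lit 4) (nat_lit 14) (nat_lit 4) (nat_lit 366) (nat_lit 262) (nat_lit 236)))) (XT.nd (nat_lit 94) (nat_lit 84) (nat_lit 0) (XT.lf (nat_lit 0) (nat_lit 2776836712) (nat_lit 168) (nat_lit 14710423315) (nat_lit 168) (nat_lit 2276704998) (nat_lit 12) (nat_lit 4) (nat_lit 14) (nat_lit 5) (nat_lit 14) (nat_lit 4) (nat_lit 367) (nat_lit 262) (nat_lit 235)) (XT.nd (nat_lit 94) (nat_lit 0) (nat_lit 0) (XT.lf (nat_lit 0) (nat_lit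 70859812) (nat_lit 252) (nat_lit 12581818005) (nat_lit 84) (nat_lit 7624792890) (nat_lit 11) (nat_lit 5) (nat_lit 14) (nat_lit 5) (nat_lit 12) (nat_lit 4) (nat_lit 368) (nat_lit 262) (nat_lit 234)) (XT.lf (nat_lit 0) (nat_lit 2401491186) (nat_lit 252) (nat_lit 8131541346) (nat_lit 84) (nat_lit 10274535849) (nat_lit 11) (nat_lit 5) (nat_lit 14) (nat_lit 5) (nat_lit 12) (nat_lit 4) (nat_lit 369) (nat_lit 262) (nat_lit 233)))))) (XT.nd (nat_lit 564) (nat_lit 252) (nat_lit 0) (XT.nd (nat_lit 282) (nat_lit 0) (nat_lit 0) (XT.nd (nat_lit 94) (nat_lit 84) (nat_lit 0) (XT.lf (nat_lit 0) (nat_lit 4763232050) (nat_lit 252) (nat_lit 3609565014) (nat_lit 84) (nat_lit 12982655230) (nat_lit 11) (nat_lit 5) (nat_lit 14) (nat_lit 5) (nat_lit 12) (nat_lit 4) (nat_lit 370) (nat_lit 262) (nat_lit 232)) (XT.nd (nat_lit 94) (nat_lit 0) (nat_lit 0) (XT.lf (nat_lit 0) (nat_lit 1008647951) (nat_lit 84) (nat_lit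 6159641752) (nat_lit 168) (nat_lit 14753033245) (nat_lit 10) (nat_lit 5) (nat_lit 11) (nat_lit 5) (nat_lit 12) (nat_lit 4) (nat_lit 371) (nat_lit 262) (nat_lit 231)) (XT.lf (nat_lit 0) (nat_lit 5782930405) (nat_lit 84) (nat_lit 3863315831) (nat_lit 168) (nat_lit 12858614009) (nat_lit 10) (nat_lit 5) (nat_lit 11) (nat_lit 5) (nat_lit 12) (nat_lit 4) (nat_lit 372) (nat_lit 262) (nat_lit 230)))) (XT.nd (nat_lit 94) (nat_lit 0) (nat_lit 0) (XT.lf (nat_lit 0) (nat_lit 10643512417) (nat_lit 84) (nat_lit 1519355341) (nat_lit 168) (nat_lit 10944873195) (nat_lit 10) (nat_lit 5) (nat_lit 11) (nat_lit 5) (nat_lit 12) (nat_lit 4) (nat_lit 373) (nat_lit 262) (nat_lit 229)) (XT.nd (nat_lit 94) (nat_lit 0) (nat_lit 0) (XT.lf (nat_lit 0) (nat_lit 14729174423) (nat_lit 168) (nat_lit 8144276862) (nat_lit 0) (nat_lit 856806829) (nat_lit 10) (nat_lit 5) (nat_lit 12) (nat_lit 4) (nat_lit 10) (nat_lit 4)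 (nat_lit 374) (nat_lit 262) (nat_lit 228)) (XT.lf (nat_lit 0) (nat_lit 17354464356) (nat_lit 168) (nat_lit 3764954226) (nat_lit 0) (nat_lit 3253359310) (nat_lit 10) (nat_lit 5) (nat_lit 12) (nat_lit 4) (nat_lit 10) (nat_lit 4) (nat_lit 375) (nat_lit 262) (nat_lit 227))))) (XT.nd (nat_lit 282) (nat_lit 84) (nat_lit 0) (XT.nd (nat_lit 94) (nat_lit 0) (nat_lit 0) (XT.lf (nat_lit 0) (nat_lit 707140864) (nat_lit 168) (nat_lit 19325986468) (nat_lit 168) (nat_lit 5003021624) (nat_lit 8) (nat_lit 4) (nat_lit 10) (nat_lit 5) (nat_lit 10) (nat_lit 4) (nat_lit 376) (nat_lit 262) (nat_lit 226)) (XT.nd (nat_lit 94) (nat_lit 0) (nat_lit 0) (XT.lf (nat_lit 0) (nat_lit 5341031536) (nat_lit 168) (nat_lit 17458560992) (nat_lit 168) (nat_lit 2920407208) (nat_lit 8) (nat_lit 4) (nat_lit 10) (nat_lit 5) (nat_lit 10) (nat_lit 4) (nat_lit 377) (nat_lit 262) (nat_lit 225)) (XT.lf (nat_lit 0) (nat_lit 10063621879)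 (nat_lit 168) (nat_lit 15554699919) (nat_lit 168) (nat_lit 807827473) (nat_lit 8) (nat_lit 4) (nat_lit 10) (nat_lit 5) (nat_lit 10) (nat_lit 4) (nat_lit 378) (nat_lit 262) (nat_lit 224)))) (XT.nd (nat_lit 94) (nat_lit 0) (nat_lit 0) (XT.lf (nat_lit 0) (nat_lit 1309755466) (nat_lit 252) (nat_lit 12289202024) (nat_lit 84) (nat_lit 13555887215) (nat_lit 7) (nat_lit 5) (nat_lit 10) (nat_lit 5) (nat_lit 8) (nat_lit 4) (nat_lit 379) (nat_lit 262) (nat_lit 223)) (XT.nd (nat_lit 94) (nat_lit 0) (nat_lit 0) (XT.lf (nat_lit 0) (nat_lit 3444312177) (nat_lit 252) (nat_lit 8150273241) (nat_lit 84) (nat_lit 16312332423) (nat_lit 7) (nat_lit 5) (nat_lit 10) (nat_lit 5) (nat_lit 8) (nat_lit 4) (nat_lit 380) (nat_lit 262) (nat_lit 222)) (XT.lf (nat_lit 0) (nat_lit 5614108213) (nat_lit 252) (nat_lit 3933869382) (nat_lit 84) (nat_lit 19135340524) (nat_lit 7) (nat_lit 5) (nat_lit 10) (nat_lit 5) (nat_lit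 8) (nat_lit 4) (nat_lit 381) (nat_lit 262) (nat_lit 221))))))))
noncomputable def xc30 : XT := (XT.nd (nat_lit 2256) (nat_lit 0) (nat_lit 0) (XT.nd (nat_lit 1128) (nat_lit 168) (nat_lit 0) (XT.nd (nat_lit 564) (nat_lit 84) (nat_lit 0) (XT.nd (nat_lit 282) (nat_lit 0) (nat_lit 0) (XT.nd (nat_lit 94) (nat_lit 0) (nat_lit 0) (XT.lf (nat_lit 0) (nat_lit 371423030) (nat_lit 84) (nat_lit 7453427583) (nat_lit 168) (nat_lit 21659804389) (nat_lit 6) (nat_lit 5) (nat_lit 7) (nat_lit 5) (nat_lit 8) (nat_lit 4) (nat_lit 382) (nat_lit 262) (nat_lit 220)) (XT.nd (nat_lit 94) (nat_lit 0) (nat_lit 0) (XT.lf (nat_lit 0) (nat_lit 4844771311) (nat_lit 84) (nat_lit 5270832320) (nat_lit 168) (nat_lit 20194924677) (nat_lit 6) (nat_lit 5) (nat_lit 7) (nat_lit 5) (nat_lit 8) (nat_lit 4) (nat_lit 383) (nat_lit 262) (nat_lit 219)) (XT.lf (nat_lit 0) (nat_lit 9409456666) (nat_lit 84) (nat_lit 3039218927) (nat_lit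 168) (nat_lit 18714266878) (nat_lit 6) (nat_lit 5) (nat_lit 7) (nat_lit 5) (nat_lit 8) (nat_lit 4) (nat_lit 384) (nat_lit 262) (nat_lit 218)))) (XT.nd (nat_lit 94) (nat_lit 0) (nat_lit 0) (XT.lf (nat_lit 0) (nat_lit 14069733860) (nat_lit 84) (nat_lit 756507307) (nat_lit 168) (nat_lit 17216450864) (nat_lit 6) (nat_lit 5) (nat_lit 7) (nat_lit 5) (nat_lit 8) (nat_lit 4) (nat_lit 385) (nat_lit 262) (nat_lit 217)) (XT.nd (nat_lit 94) (nat_lit 0) (nat_lit 0) (XT.lf (nat_lit 0) (nat_lit 17266184638) (nat_lit 168) (nat_lit 14136318391) (nat_lit 0) (nat_lit 1547608266) (nat_lit 6) (nat_lit 5) (nat_lit 8) (nat_lit 4) (nat_lit 6) (nat_lit 4) (nat_lit 386) (nat_lit 262) (nat_lit 216)) (XT.lf (nat_lit 0) (nat_lit 19763151793) (nat_lit 168) (nat_lit 10232361820) (nat_lit 0) (nat_lit 3890768942) (nat_lit 6) (nat_lit 5) (nat_lit 8) (nat_lit 4) (nat_lit 6) (nat_lit 4) (nat_lit 387) (nat_lit 262) (nat_lit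 215))))) (XT.nd (nat_lit 282) (nat_lit 0) (nat_lit 0) (XT.nd (nat_lit 94) (nat_lit 84) (nat_lit 0) (XT.lf (nat_lit 0) (nat_lit 22311965421) (nat_lit 168) (nat_lit 6249944914) (nat_lit 0) (nat_lit 6290400729) (nat_lit 6) (nat_lit 5) (nat_lit 8) (nat_lit 4) (nat_lit 6) (nat_lit 4) (nat_lit 388) (nat_lit 262) (nat_lit 214)) (XT.nd (nat_lit 94) (nat_lit 84) (nat_lit 0) (XT.lf (nat_lit 0) (nat_lit 24915001284) (nat_lit 168) (nat_lit 2185355646) (nat_lit 0) (nat_lit 8748740334) (nat_lit 6) (nat_lit 5) (nat_lit 8) (nat_lit 4) (nat_lit 6) (nat_lit 4) (nat_lit 389) (nat_lit 262) (nat_lit 213)) (XT.lf (nat_lit 0) (nat_lit 2005603040) (nat_lit 84) (nat_lit 25588978473) (nat_lit 84) (nat_lit 9282371978) (nat_lit 5) (nat_lit 4) (nat_lit 6) (nat_lit 5) (nat_lit 6) (nat_lit 4) (nat_lit 390) (nat_lit 262) (nat_lit 212)))) (XT.nd (nat_lit 94) (nat_lit 0) (nat_lit 0) (XT.lf (nat_lit 0) (nat_lit 6333173939)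 (nat_lit 84) (nat_lit 24023149654) (nat_lit 84) (nat_lit 7580417508) (nat_lit 5) (nat_lit 4) (nat_lit 6) (nat_lit 5) (nat_lit 6) (nat_lit 4) (nat_lit 391) (nat_lit 262) (nat_lit 211)) (XT.nd (nat_lit 94) (nat_lit 0) (nat_lit 0) (XT.lf (nat_lit 0) (nat_lit 10756455404) (nat_lit 84) (nat_lit 22424221588) (nat_lit 84) (nat_lit 5849456803) (nat_lit 5) (nat_lit 4) (nat_lit 6) (nat_lit 5) (nat_lit 6) (nat_lit 4) (nat_lit 392) (nat_lit 262) (nat_lit 210)) (XT.lf (nat_lit 0) (nat_lit 15279570398) (nat_lit 84) (nat_lit 20790703905) (nat_lit 84) (nat_lit 4087876426) (nat_lit 5) (nat_lit 4) (nat_lit 6) (nat_lit 5) (nat_lit 6) (nat_lit 4) (nat_lit 393) (nat_lit 262) (nat_lit 209)))))) (XT.nd (nat_lit 564) (nat_lit 84) (nat_lit 0) (XT.nd (nat_lit 282) (nat_lit 0) (nat_lit 0) (XT.nd (nat_lit 94) (nat_lit 84) (nat_lit 0) (XT.lf (nat_lit 0) (nat_lit 19906734938) (nat_lit 84) (nat_lit 19121073997) (nat_lit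 84) (nat_lit 2294034399) (nat_lit 5) (nat_lit 4) (nat_lit 6) (nat_lit 5) (nat_lit 6) (nat_lit 4) (nat_lit 394) (nat_lit 262) (nat_lit 208)) (XT.nd (nat_lit 94) (nat_lit 84) (nat_lit 0) (XT.lf (nat_lit 0) (nat_lit 24642262025) (nat_lit 84) (nat_lit 17413775594) (nat_lit 84) (nat_lit 466258673) (nat_lit 5) (nat_lit 4) (nat_lit 6) (nat_lit 5) (nat_lit 6) (nat_lit 4) (nat_lit 395) (nat_lit 262) (nat_lit 207)) (XT.lf (nat_lit 0) (nat_lit 1369004881) (nat_lit 168) (nat_lit 14283922829) (nat_lit 84) (nat_lit 28107271183) (nat_lit 4) (nat_lit 5) (nat_lit 6) (nat_lit 5) (nat_lit 5) (nat_lit 4) (nat_lit 396) (nat_lit 262) (nat_lit 206)))) (XT.nd (nat_lit 94) (nat_lit 0) (nat_lit 0) (XT.lf (nat_lit 0) (nat_lit 3231495628) (nat_lit 168) (nat_lit 10614545367) (nat_lit 84) (nat_lit 31190939177) (nat_lit 4) (nat_lit 5) (nat_lit 6) (nat_lit 5) (nat_lit 5) (nat_lit 4) (nat_lit 397) (nat_lit 262) (nat_lit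 205)) (XT.nd (nat_lit 94) (nat_lit 0) (nat_lit 0) (XT.lf (nat_lit 0) (nat_lit 5132343675) (nat_lit 168) (nat_lit 6863856294) (nat_lit 84) (nat_lit 34357773639) (nat_lit 4) (nat_lit 5) (nat_lit 6) (nat_lit 5) (nat_lit 5) (nat_lit 4) (nat_lit 398) (nat_lit 262) (nat_lit 204)) (XT.lf (nat_lit 0) (nat_lit 7073320814) (nat_lit 168) (nat_lit 3028359573) (nat_lit 84) (nat_lit 37610726390) (nat_lit 4) (nat_lit 5) (nat_lit 6) (nat_lit 5) (nat_lit 5) (nat_lit 4) (nat_lit 399) (nat_lit 262) (nat_lit 203))))) (XT.nd (nat_lit 282) (nat_lit 0) (nat_lit 0) (XT.nd (nat_lit 94) (nat_lit 0) (nat_lit 0) (XT.lf (nat_lit 0) (nat_lit 913933603) (nat_lit 84) (nat_lit 8151368968) (nat_lit 168) (nat_lit 40047962254) (nat_lit 3) (nat_lit 5) (nat_lit 4) (nat_lit 5) (nat_lit 5) (nat_lit 4) (nat_lit 400) (nat_lit 262) (nat_lit 202)) (XT.nd (nat_lit 94) (nat_lit 0) (nat_lit 0) (XT.lf (nat_lit 0) (nat_lit 5012428798)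 (nat_lit 84) (nat_lit 6120233347) (nat_lit 168) (nat_lit 39424493344) (nat_lit 3) (nat_lit 5) (nat_lit 4) (nat_lit 5) (nat_lit 5) (nat_lit 4) (nat_lit 401) (nat_lit 262) (nat_lit 201)) (XT.lf (nat_lit 0) (nat_lit 9208676953) (nat_lit 84) (nat_lit 4037990155) (nat_lit 168) (nat_lit 38799707958) (nat_lit 3) (nat_lit 5) (nat_lit 4) (nat_lit 5) (nat_lit 5) (nat_lit 4) (nat_lit 402) (nat_lit 262) (nat_lit 200)))) (XT.nd (nat_lit 94) (nat_lit 0) (nat_lit 0) (XT.lf (nat_lit 0) (nat_lit 13506589412) (nat_lit 84) (nat_lit 1902698523) (nat_lit 168) (nat_lit 38173023732) (nat_lit 3) (nat_lit 5) (nat_lit 4) (nat_lit 5) (nat_lit 5) (nat_lit 4) (nat_lit 403) (nat_lit 262) (nat_lit 199)) (XT.nd (nat_lit 94) (nat_lit 0) (nat_lit 0) (XT.lf (nat_lit 0) (nat_lit 17625393759) (nat_lit 168) (nat_lit 37259078010) (nat_lit 0) (nat_lit 281836721) (nat_lit 3) (nat_lit 5) (nat_lit 5) (nat_lit 4) (nat_lit 3) (nat_lit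 4) (nat_lit 404) (nat_lit 262) (nat_lit 198)) (XT.lf (nat_lit 0) (nat_lit 19913635468) (nat_lit 168) (nat_lit 34401725216) (nat_lit 0) (nat_lit 2483967161) (nat_lit 3) (nat_lit 5) (nat_lit 5) (nat_lit 4) (nat_lit 3) (nat_lit 4) (nat_lit 405) (nat_lit 262) (nat_lit 197))))))) (XT.nd (nat_lit 48410) (nat_lit 0) (nat_lit 1428) (XT.nd (nat_lit 47846) (nat_lit 0) (nat_lit 2688) (XT.nd (nat_lit 282) (nat_lit 0) (nat_lit 0) (XT.nd (nat_lit 94) (nat_lit 0) (nat_lit 0) (XT.lf (nat_lit 0) (nat_lit 22257270938) (nat_lit 168) (nat_lit 31482125516) (nat_lit 0) (nat_lit 4744080548) (nat_lit 3) (nat_lit 5) (nat_lit 5) (nat_lit 4) (nat_lit 3) (nat_lit 4) (nat_lit 406) (nat_lit 262) (nat_lit 196)) (XT.nd (nat_lit 94) (nat_lit 0) (nat_lit 0) (XT.lf (nat_lit 0) (nat_lit 24658484684) (nat_lit 168) (nat_lit 28497557537) (nat_lit 0) (nat_lit 7064283543) (nat_lit 3) (nat_lit 5) (nat_lit 5) (nat_lit 4) (nat_lit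 3) (nat_lit 4) (nat_lit 407) (nat_lit 262) (nat_lit 195)) (XT.lf (nat_lit 0) (nat_lit 27119514888) (nat_lit 168) (nat_lit 25445239350) (nat_lit 0) (nat_lit 9446738818) (nat_lit 3) (nat_lit 5) (nat_lit 5) (nat_lit 4) (nat_lit 3) (nat_lit 4) (nat_lit 408) (nat_lit 262) (nat_lit 194)))) (XT.nd (nat_lit 94) (nat_lit 0) (nat_lit 0) (XT.lf (nat_lit 0) (nat_lit 29642655488) (nat_lit 168) (nat_lit 22322325873) (nat_lit 0) (nat_lit 11893667073) (nat_lit 3) (nat_lit 5) (nat_lit 5) (nat_lit 4) (nat_lit 3) (nat_lit 4) (nat_lit 409) (nat_lit 262) (nat_lit 193)) (XT.nd (nat_lit 94) (nat_lit 0) (nat_lit 0) (XT.lf (nat_lit 0) (nat_lit 32230258315) (nat_lit 168) (nat_lit 19125906225) (nat_lit 0) (nat_lit 14407349099) (nat_lit 3) (nat_lit 5) (nat_lit 5) (nat_lit 4) (nat_lit 3) (nat_lit 4) (nat_lit 410) (nat_lit 262) (nat_lit 192)) (XT.lf (nat_lit 0) (nat_lit 34884735287) (nat_lit 168) (nat_lit 15853001008)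 (nat_lit 0) (nat_lit 16990127913) (nat_lit 3) (nat_lit 5) (nat_lit 5) (nat_lit 4) (nat_lit 3) (nat_lit 4) (nat_lit 411) (nat_lit 262) (nat_lit 191))))) (XT.nd (nat_lit 282) (nat_lit 336) (nat_lit 0) (XT.nd (nat_lit 94) (nat_lit 252) (nat_lit 0) (XT.lf (nat_lit 0) (nat_lit 1015153771) (nat_lit 336) (nat_lit 3153071183) (nat_lit 0) (nat_lit 1015153771) (nat_lit 42) (nat_lit 5) (nat_lit 46) (nat_lit 4) (nat_lit 42) (nat_lit 4) (nat_lit 338) (nat_lit 263) (nat_lit 263)) (XT.nd (nat_lit 94) (nat_lit 252) (nat_lit 0) (XT.lf (nat_lit 0) (nat_lit 5101864621) (nat_lit 336) (nat_lit 1153932877) (nat_lit 0) (nat_lit 4302136156) (nat_lit 42) (nat_lit 5) (nat_lit 46) (nat_lit 4) (nat_lit 42) (nat_lit 4) (nat_lit 339) (nat_lit 263) (nat_lit 262)) (XT.lf (nat_lit 0) (nat_lit 4134645578) (nat_lit 252) (nat_lit 4098563283) (nat_lit 252) (nat_lit 2523152505) (nat_lit 39) (nat_lit 4) (nat_lit 42) (nat_lit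 5) (nat_lit 42) (nat_lit 4) (nat_lit 340) (nat_lit 263) (nat_lit 261)))) (XT.nd (nat_lit 94) (nat_lit 252) (nat_lit 0) (XT.lf (nat_lit 0) (nat_lit 426584129) (nat_lit 336) (nat_lit 1461377589) (nat_lit 84) (nat_lit 9075022291) (nat_lit 38) (nat_lit 5) (nat_lit 42) (nat_lit 5) (nat_lit 39) (nat_lit 4) (nat_lit 341) (nat_lit 263) (nat_lit 260)) (XT.nd (nat_lit 94) (nat_lit 0) (nat_lit 0) (XT.lf (nat_lit 0) (nat_lit 3383444191) (nat_lit 336) (nat_lit 7375094006) (nat_lit 0) (nat_lit 417869722) (nat_lit 35) (nat_lit 5) (nat_lit 39) (nat_lit 4) (nat_lit 35) (nat_lit 4) (nat_lit 342) (nat_lit 263) (nat_lit 259)) (XT.lf (nat_lit 0) (nat_lit 6393694049) (nat_lit 336) (nat_lit 2262535154) (nat_lit 0) (nat_lit 2741605849) (nat_lit 35) (nat_lit 5) (nat_lit 39) (nat_lit 4) (nat_lit 35) (nat_lit 4) (nat_lit 343) (nat_lit 263) (nat_lit 258)))))) (XT.nd (nat_lit 564) (nat_lit 504) (nat_lit 0) (XT.nd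 (nat_lit 282) (nat_lit 252) (nat_lit 0) (XT.nd (nat_lit 94) (nat_lit 252) (nat_lit 0) (XT.lf (nat_lit 0) (nat_lit 2966215593) (nat_lit 252) (nat_lit 6489673934) (nat_lit 252) (nat_lit 2171714026) (nat_lit 32) (nat_lit 4) (nat_lit 35) (nat_lit 5) (nat_lit 35) (nat_lit 4) (nat_lit 344) (nat_lit 263) (nat_lit 257)) (XT.nd (nat_lit 94) (nat_lit 168) (nat_lit 0) (XT.lf (nat_lit 0) (nat_lit 686726650) (nat_lit 336) (nat_lit 3569068426) (nat_lit 84) (nat_lit 7610100706) (nat_lit 31) (nat_lit 5) (nat_lit 35) (nat_lit 5) (nat_lit 32) (nat_lit 4) (nat_lit 345) (nat_lit 263) (nat_lit 256)) (XT.lf (nat_lit 0) (nat_lit 1591390363) (nat_lit 168) (nat_lit 1944617319) (nat_lit 252) (nat_lit 8576688843) (nat_lit 29) (nat_lit 5) (nat_lit 31) (nat_lit 5) (nat_lit 32) (nat_lit 4) (nat_lit 346) (nat_lit 263) (nat_lit 255)))) (XT.nd (nat_lit 94) (nat_lit 252) (nat_lit 0) (XT.lf (nat_lit 0) (nat_lit 6447922530)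 (nat_lit 252) (nat_lit 5483752624) (nat_lit 0) (nat_lit 436441670) (nat_lit 29) (nat_lit 5) (nat_lit 32) (nat_lit 4) (nat_lit 29) (nat_lit 4) (nat_lit 347) (nat_lit 263) (nat_lit 254)) (XT.nd (nat_lit 94) (nat_lit 252) (nat_lit 0) (XT.lf (nat_lit 0) (nat_lit 9404354727) (nat_lit 252) (nat_lit 407418514) (nat_lit 0) (nat_lit 2821267266) (nat_lit 29) (nat_lit 5) (nat_lit 32) (nat_lit 4) (nat_lit 29) (nat_lit 4) (nat_lit 348) (nat_lit 263) (nat_lit 253)) (XT.lf (nat_lit 0) (nat_lit 4829012527) (nat_lit 252) (nat_lit 7607661010) (nat_lit 252) (nat_lit 470153954) (nat_lit 26) (nat_lit 4) (nat_lit 29) (nat_lit 5) (nat_lit 29) (nat_lit 4) (nat_lit 349) (nat_lit 263) (nat_lit 252))))) (XT.nd (nat_lit 282) (nat_lit 252) (nat_lit 0) (XT.nd (nat_lit 94) (nat_lit 168) (nat_lit 0) (XT.lf (nat_lit 0) (nat_lit 2266883326) (nat_lit 336) (nat_lit 3071216382) (nat_lit 84) (nat_lit 7852259151) (nat_lit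 25) (nat_lit 5) (nat_lit 29) (nat_lit 5) (nat_lit 26) (nat_lit 4) (nat_lit 350) (nat_lit 263) (nat_lit 251)) (XT.nd (nat_lit 94) (nat_lit 0) (nat_lit 0) (XT.lf (nat_lit 0) (nat_lit 2034564968) (nat_lit 168) (nat_lit 3003052836) (nat_lit 252) (nat_lit 8446343600) (nat_lit 23) (nat_lit 5) (nat_lit 25) (nat_lit 5) (nat_lit 26) (nat_lit 4) (nat_lit 351) (nat_lit 263) (nat_lit 250)) (XT.lf (nat_lit 0) (nat_lit 7272462039) (nat_lit 168) (nat_lit 593218108) (nat_lit 252) (nat_lit 5922014386) (nat_lit 23) (nat_lit 5) (nat_lit 25) (nat_lit 5) (nat_lit 26) (nat_lit 4) (nat_lit 352) (nat_lit 263) (nat_lit 249)))) (XT.nd (nat_lit 94) (nat_lit 252) (nat_lit 0) (XT.lf (nat_lit 0) (nat_lit 10741080338) (nat_lit 252) (nat_lit 1537065900) (nat_lit 0) (nat_lit 1824086531) (nat_lit 23) (nat_lit 5) (nat_lit 26) (nat_lit 4) (nat_lit 23) (nat_lit 4) (nat_lit 353) (nat_lit 263) (nat_lit 248)) (XT.nd (nat_lit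 94) (nat_lit 84) (nat_lit 0) (XT.lf (nat_lit 0) (nat_lit 3573880018) (nat_lit 168) (nat_lit 10115941084) (nat_lit 168) (nat_lit 737325192) (nat_lit 21) (nat_lit 4) (nat_lit 23) (nat_lit 5) (nat_lit 23) (nat_lit 4) (nat_lit 354) (nat_lit 263) (nat_lit 247)) (XT.lf (nat_lit 0) (nat_lit 1887242376) (nat_lit 252) (nat_lit 5993368707) (nat_lit 84) (nat_lit 6882312281) (nat_lit 20) (nat_lit 5) (nat_lit 23) (nat_lit 5) (nat_lit 21) (nat_lit 4) (nat_lit 355) (nat_lit 263) (nat_lit 246))))))))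
noncomputable def xc31 : XT := (XT.nd (nat_lit 2256) (nat_lit 336) (nat_lit 0) (XT.nd (nat_lit 1128) (nat_lit 420) (nat_lit 0) (XT.nd (nat_lit 564) (nat_lit 252) (nat_lit 0) (XT.nd (nat_lit 282) (nat_lit 252) (nat_lit 0) (XT.nd (nat_lit 94) (nat_lit 168) (nat_lit 0) (XT.lf (nat_lit 0) (nat_lit 4522415582) (nat_lit 252) (nat_lit 1075611344) (nat_lit 84) (nat_lit 9512690558) (nat_lit 20) (nat_lit 5) (nat_lit 23) (nat_lit 5) (nat_lit 21) (nat_lit 4) (nat_lit 356) (nat_lit 263) (nat_lit 245)) (XT.nd (nat_lit 94) (nat_lit 0) (nat_lit 0) (XT.lf (nat_lit 0) (nat_lit 3992340804) (nat_lit 168) (nat_lit 3232769854) (nat_lit 252) (nat_lit 8244741181) (nat_lit 18) (nat_lit 5) (nat_lit 20) (nat_lit 5) (nat_lit 21) (nat_lit 4) (nat_lit 357) (nat_lit 263) (nat_lit 244)) (XT.lf (nat_lit 0) (nat_lit 9158346589) (nat_lit 168) (nat_lit 811501682) (nat_lit 252) (nat_lit 5871680865) (nat_lit 18) (nat_lit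 5) (nat_lit 20) (nat_lit 5) (nat_lit 21) (nat_lit 4) (nat_lit 358) (nat_lit 263) (nat_lit 243)))) (XT.nd (nat_lit 94) (nat_lit 252) (nat_lit 0) (XT.lf (nat_lit 0) (nat_lit 12764732937) (nat_lit 252) (nat_lit 1837764632) (nat_lit 0) (nat_lit 1623426315) (nat_lit 18) (nat_lit 5) (nat_lit 21) (nat_lit 4) (nat_lit 18) (nat_lit 4) (nat_lit 359) (nat_lit 263) (nat_lit 242)) (XT.nd (nat_lit 94) (nat_lit 84) (nat_lit 0) (XT.lf (nat_lit 0) (nat_lit 3134320091) (nat_lit 168) (nat_lit 12501231152) (nat_lit 168) (nat_lit 987124514) (nat_lit 16) (nat_lit 4) (nat_lit 18) (nat_lit 5) (nat_lit 18) (nat_lit 4) (nat_lit 360) (nat_lit 263) (nat_lit 241)) (XT.lf (nat_lit 0) (nat_lit 1501540684) (nat_lit 252) (nat_lit 8826068211) (nat_lit 84) (nat_lit 6704688077) (nat_lit 15) (nat_lit 5) (nat_lit 18) (nat_lit 5) (nat_lit 16) (nat_lit 4) (nat_lit 361) (nat_lit 263) (nat_lit 240))))) (XT.nd (nat_lit 282) (nat_lit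 168) (nat_lit 0) (XT.nd (nat_lit 94) (nat_lit 84) (nat_lit 0) (XT.lf (nat_lit 0) (nat_lit 3998380006) (nat_lit 252) (nat_lit 4105705982) (nat_lit 84) (nat_lit 9351819450) (nat_lit 15) (nat_lit 5) (nat_lit 18) (nat_lit 5) (nat_lit 16) (nat_lit 4) (nat_lit 362) (nat_lit 263) (nat_lit 239)) (XT.nd (nat_lit 94) (nat_lit 0) (nat_lit 0) (XT.lf (nat_lit 0) (nat_lit 701047841) (nat_lit 84) (nat_lit 5831515764) (nat_lit 168) (nat_lit 11361420372) (nat_lit 14) (nat_lit 5) (nat_lit 15) (nat_lit 5) (nat_lit 16) (nat_lit 4) (nat_lit 363) (nat_lit 263) (nat_lit 238)) (XT.lf (nat_lit 0) (nat_lit 5670535490) (nat_lit 84) (nat_lit 3471300605) (nat_lit 168) (nat_lit 9204007972) (nat_lit 14) (nat_lit 5) (nat_lit 15) (nat_lit 5) (nat_lit 16) (nat_lit 4) (nat_lit 364) (nat_lit 263) (nat_lit 237)))) (XT.nd (nat_lit 94) (nat_lit 168) (nat_lit 0) (XT.lf (nat_lit 0) (nat_lit 10722967312) (nat_lit 84) (nat_lit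 1064095695) (nat_lit 168) (nat_lit 7026132450) (nat_lit 14) (nat_lit 5) (nat_lit 15) (nat_lit 5) (nat_lit 16) (nat_lit 4) (nat_lit 365) (nat_lit 263) (nat_lit 236)) (XT.nd (nat_lit 94) (nat_lit 168) (nat_lit 0) (XT.lf (nat_lit 0) (nat_lit 14484522179) (nat_lit 168) (nat_lit 3447233273) (nat_lit 0) (nat_lit 1364290131) (nat_lit 14) (nat_lit 5) (nat_lit 16) (nat_lit 4) (nat_lit 14) (nat_lit 4) (nat_lit 366) (nat_lit 263) (nat_lit 235)) (XT.lf (nat_lit 0) (nat_lit 1286685653) (nat_lit 168) (nat_lit 15960048344) (nat_lit 168) (nat_lit 2547800329) (nat_lit 12) (nat_lit 4) (nat_lit 14) (nat_lit 5) (nat_lit 14) (nat_lit 4) (nat_lit 367) (nat_lit 263) (nat_lit 234)))))) (XT.nd (nat_lit 564) (nat_lit 252) (nat_lit 0) (XT.nd (nat_lit 282) (nat_lit 84) (nat_lit 0) (XT.nd (nat_lit 94) (nat_lit 84) (nat_lit 0) (XT.lf (nat_lit 0) (nat_lit 6173075100) (nat_lit 168) (nat_lit 13915575602) (nat_lit 168)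 (nat_lit 220091925) (nat_lit 12) (nat_lit 4) (nat_lit 14) (nat_lit 5) (nat_lit 14) (nat_lit 4) (nat_lit 368) (nat_lit 263) (nat_lit 233)) (XT.nd (nat_lit 94) (nat_lit 0) (nat_lit 0) (XT.lf (nat_lit 0) (nat_lit 2094717738) (nat_lit 252) (nat_lit 9715831313) (nat_lit 84) (nat_lit 9029025213) (nat_lit 11) (nat_lit 5) (nat_lit 14) (nat_lit 5) (nat_lit 12) (nat_lit 4) (nat_lit 369) (nat_lit 263) (nat_lit 232)) (XT.lf (nat_lit 0) (nat_lit 4436811586) (nat_lit 252) (nat_lit 5225497837) (nat_lit 84) (nat_lit 11725794999) (nat_lit 11) (nat_lit 5) (nat_lit 14) (nat_lit 5) (nat_lit 12) (nat_lit 4) (nat_lit 370) (nat_lit 263) (nat_lit 231)))) (XT.nd (nat_lit 94) (nat_lit 84) (nat_lit 0) (XT.lf (nat_lit 0) (nat_lit 6812807056) (nat_lit 252) (nat_lit 658298299) (nat_lit 84) (nat_lit 14483806717) (nat_lit 11) (nat_lit 5) (nat_lit 14) (nat_lit 5) (nat_lit 12) (nat_lit 4) (nat_lit 371) (nat_lit 263)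 (nat_lit 230)) (XT.nd (nat_lit 94) (nat_lit 0) (nat_lit 0) (XT.lf (nat_lit 0) (nat_lit 4072067492) (nat_lit 84) (nat_lit 5193246748) (nat_lit 168) (nat_lit 13273959043) (nat_lit 10) (nat_lit 5) (nat_lit 11) (nat_lit 5) (nat_lit 12) (nat_lit 4) (nat_lit 372) (nat_lit 263) (nat_lit 229)) (XT.lf (nat_lit 0) (nat_lit 8903182289) (nat_lit 84) (nat_lit 2860533618) (nat_lit 168) (nat_lit 11379036831) (nat_lit 10) (nat_lit 5) (nat_lit 11) (nat_lit 5) (nat_lit 12) (nat_lit 4) (nat_lit 373) (nat_lit 263) (nat_lit 228))))) (XT.nd (nat_lit 282) (nat_lit 252) (nat_lit 0) (XT.nd (nat_lit 94) (nat_lit 0) (nat_lit 0) (XT.lf (nat_lit 0) (nat_lit 13826013234) (nat_lit 84) (nat_lit 477662919) (nat_lit 168) (nat_lit 9462443399) (nat_lit 10) (nat_lit 5) (nat_lit 11) (nat_lit 5) (nat_lit 12) (nat_lit 4) (nat_lit 374) (nat_lit 263) (nat_lit 227)) (XT.nd (nat_lit 94) (nat_lit 0) (nat_lit 0) (XT.lf (nat_lit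 0) (nat_lit 16906981983) (nat_lit 168) (nat_lit 5584225344) (nat_lit 0) (nat_lit 1918145432) (nat_lit 10) (nat_lit 5) (nat_lit 12) (nat_lit 4) (nat_lit 10) (nat_lit 4) (nat_lit 375) (nat_lit 263) (nat_lit 226)) (XT.lf (nat_lit 0) (nat_lit 19561902947) (nat_lit 168) (nat_lit 1153710386) (nat_lit 0) (nat_lit 4357877455) (nat_lit 10) (nat_lit 5) (nat_lit 12) (nat_lit 4) (nat_lit 10) (nat_lit 4) (nat_lit 376) (nat_lit 263) (nat_lit 225)))) (XT.nd (nat_lit 94) (nat_lit 84) (nat_lit 0) (XT.lf (nat_lit 0) (nat_lit 3429401532) (nat_lit 168) (nat_lit 18870793789) (nat_lit 168) (nat_lit 3458049636) (nat_lit 8) (nat_lit 4) (nat_lit 10) (nat_lit 5) (nat_lit 10) (nat_lit 4) (nat_lit 377) (nat_lit 263) (nat_lit 224)) (XT.nd (nat_lit 94) (nat_lit 84) (nat_lit 0) (XT.lf (nat_lit 0) (nat_lit 8125749295) (nat_lit 168) (nat_lit 16977178654) (nat_lit 168) (nat_lit 1361991569) (nat_lit 8) (nat_lit 4) (nat_lit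 10) (nat_lit 5) (nat_lit 10) (nat_lit 4) (nat_lit 378) (nat_lit 263) (nat_lit 223)) (XT.lf (nat_lit 0) (nat_lit 751054511) (nat_lit 252) (nat_lit 14286151268) (nat_lit 84) (nat_lit 12157093757) (nat_lit 7) (nat_lit 5) (nat_lit 10) (nat_lit 5) (nat_lit 8) (nat_lit 4) (nat_lit 379) (nat_lit 263) (nat_lit 222))))))) (XT.nd (nat_lit 1128) (nat_lit 168) (nat_lit 0) (XT.nd (nat_lit 564) (nat_lit 84) (nat_lit 0) (XT.nd (nat_lit 282) (nat_lit 84) (nat_lit 0) (XT.nd (nat_lit 94) (nat_lit 0) (nat_lit 0) (XT.lf (nat_lit 0) (nat_lit 2870381320) (nat_lit 252) (nat_lit 10172250410) (nat_lit 84) (nat_lit 14904239651) (nat_lit 7) (nat_lit 5) (nat_lit 10) (nat_lit 5) (nat_lit 8) (nat_lit 4) (nat_lit 380) (nat_lit 263) (nat_lit 221)) (XT.nd (nat_lit 94) (nat_lit 0) (nat_lit 0) (XT.lf (nat_lit 0) (nat_lit 5025405384) (nat_lit 252) (nat_lit 5980121939) (nat_lit 84) (nat_lit 17718228047) (nat_lit 7) (nat_lit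 5) (nat_lit 10) (nat_lit 5) (nat_lit 8) (nat_lit 4) (nat_lit 381) (nat_lit 263) (nat_lit 220)) (XT.lf (nat_lit 0) (nat_lit 7218135411) (nat_lit 252) (nat_lit 1705858350) (nat_lit 84) (nat_lit 20601681879) (nat_lit 7) (nat_lit 5) (nat_lit 10) (nat_lit 5) (nat_lit 8) (nat_lit 4) (nat_lit 382) (nat_lit 263) (nat_lit 219)))) (XT.nd (nat_lit 94) (nat_lit 0) (nat_lit 0) (XT.lf (nat_lit 0) (nat_lit 2709106882) (nat_lit 84) (nat_lit 6768383050) (nat_lit 168) (nat_lit 20875056621) (nat_lit 6) (nat_lit 5) (nat_lit 7) (nat_lit 5) (nat_lit 8) (nat_lit 4) (nat_lit 383) (nat_lit 263) (nat_lit 218)) (XT.nd (nat_lit 94) (nat_lit 0) (nat_lit 0) (XT.lf (nat_lit 0) (nat_lit 7251185932) (nat_lit 84) (nat_lit 4545672557) (nat_lit 168) (nat_lit 19408550558) (nat_lit 6) (nat_lit 5) (nat_lit 7) (nat_lit 5) (nat_lit 8) (nat_lit 4) (nat_lit 384) (nat_lit 263) (nat_lit 217)) (XT.lf (nat_lit 0) (nat_lit 11889536544)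 (nat_lit 84) (nat_lit 2271596144) (nat_lit 168) (nat_lit 17924460768) (nat_lit 6) (nat_lit 5) (nat_lit 7) (nat_lit 5) (nat_lit 8) (nat_lit 4) (nat_lit 385) (nat_lit 263) (nat_lit 216))))) (XT.nd (nat_lit 282) (nat_lit 84) (nat_lit 0) (XT.nd (nat_lit 94) (nat_lit 0) (nat_lit 0) (XT.lf (nat_lit 0) (nat_lit 16573071474) (nat_lit 168) (nat_lit 16365993246) (nat_lit 0) (nat_lit 54838276) (nat_lit 6) (nat_lit 5) (nat_lit 8) (nat_lit 4) (nat_lit 6) (nat_lit 4) (nat_lit 386) (nat_lit 263) (nat_lit 215)) (XT.nd (nat_lit 94) (nat_lit 0) (nat_lit 0) (XT.lf (nat_lit 0) (nat_lit 19057453937) (nat_lit 168) (nat_lit 12482993012) (nat_lit 0) (nat_lit 2390038898) (nat_lit 6) (nat_lit 5) (nat_lit 8) (nat_lit 4) (nat_lit 6) (nat_lit 4) (nat_lit 387) (nat_lit 263) (nat_lit 214)) (XT.lf (nat_lit 0) (nat_lit 21594061269) (nat_lit 168) (nat_lit 8520902330) (nat_lit 0) (nat_lit 4781949972) (nat_lit 6) (nat_lit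 5) (nat_lit 8) (nat_lit 4) (nat_lit 6) (nat_lit 4) (nat_lit 388) (nat_lit 263) (nat_lit 213)))) (XT.nd (nat_lit 94) (nat_lit 84) (nat_lit 0) (XT.lf (nat_lit 0) (nat_lit 24185257853) (nat_lit 168) (nat_lit 4476028119) (nat_lit 0) (nat_lit 7232801010) (nat_lit 6) (nat_lit 5) (nat_lit 8) (nat_lit 4) (nat_lit 6) (nat_lit 4) (nat_lit 389) (nat_lit 263) (nat_lit 212)) (XT.nd (nat_lit 94) (nat_lit 84) (nat_lit 0) (XT.lf (nat_lit 0) (nat_lit 26833458956) (nat_lit 168) (nat_lit 344600130) (nat_lit 0) (nat_lit 9744876463) (nat_lit 6) (nat_lit 5) (nat_lit 8) (nat_lit 4) (nat_lit 6) (nat_lit 4) (nat_lit 390) (nat_lit 263) (nat_lit 211)) (XT.lf (nat_lit 0) (nat_lit 3956956411) (nat_lit 84) (nat_lit 25623430065) (nat_lit 84) (nat_lit 8402814933) (nat_lit 5) (nat_lit 4) (nat_lit 6) (nat_lit 5) (nat_lit 6) (nat_lit 4) (nat_lit 391) (nat_lit 263) (nat_lit 210)))))) (XT.nd (nat_lit 564) (nat_lit 84) (nat_lit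 0) (XT.nd (nat_lit 282) (nat_lit 84) (nat_lit 0) (XT.nd (nat_lit 94) (nat_lit 0) (nat_lit 0) (XT.lf (nat_lit 0) (nat_lit 8361878350) (nat_lit 84) (nat_lit 24031876274) (nat_lit 84) (nat_lit 6683198448) (nat_lit 5) (nat_lit 4) (nat_lit 6) (nat_lit 5) (nat_lit 6) (nat_lit 4) (nat_lit 392) (nat_lit 263) (nat_lit 209)) (XT.nd (nat_lit 94) (nat_lit 0) (nat_lit 0) (XT.lf (nat_lit 0) (nat_lit 12867185851) (nat_lit 84) (nat_lit 22405511138) (nat_lit 84) (nat_lit 4932621193) (nat_lit 5) (nat_lit 4) (nat_lit 6) (nat_lit 5) (nat_lit 6) (nat_lit 4) (nat_lit 393) (nat_lit 263) (nat_lit 208)) (XT.lf (nat_lit 0) (nat_lit 17477078331) (nat_lit 84) (nat_lit 20742818715) (nat_lit 84) (nat_lit 3149451447) (nat_lit 5) (nat_lit 4) (nat_lit 6) (nat_lit 5) (nat_lit 6) (nat_lit 4) (nat_lit 394) (nat_lit 263) (nat_lit 207)))) (XT.nd (nat_lit 94) (nat_lit 84) (nat_lit 0) (XT.lf (nat_lit 0) (nat_lit 22195852693)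 (nat_lit 84) (nat_lit 19042249201) (nat_lit 84) (nat_lit 1332027110) (nat_lit 5) (nat_lit 4) (nat_lit 6) (nat_lit 5) (nat_lit 6) (nat_lit 4) (nat_lit 395) (nat_lit 263) (nat_lit 206)) (XT.nd (nat_lit 94) (nat_lit 0) (nat_lit 0) (XT.lf (nat_lit 0) (nat_lit 510841891) (nat_lit 168) (nat_lit 16786043454) (nat_lit 84) (nat_lit 26511733297) (nat_lit 4) (nat_lit 5) (nat_lit 6) (nat_lit 5) (nat_lit 5) (nat_lit 4) (nat_lit 396) (nat_lit 263) (nat_lit 205)) (XT.lf (nat_lit 0) (nat_lit 2363790583) (nat_lit 168) (nat_lit 13132637971) (nat_lit 84) (nat_lit 29589282512) (nat_lit 4) (nat_lit 5) (nat_lit 6) (nat_lit 5) (nat_lit 5) (nat_lit 4) (nat_lit 397) (nat_lit 263) (nat_lit 204))))) (XT.nd (nat_lit 282) (nat_lit 84) (nat_lit 0) (XT.nd (nat_lit 94) (nat_lit 0) (nat_lit 0) (XT.lf (nat_lit 0) (nat_lit 4255383486) (nat_lit 168) (nat_lit 9397440633) (nat_lit 84) (nat_lit 32750182174) (nat_lit 4) (nat_lit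 5) (nat_lit 6) (nat_lit 5) (nat_lit 5) (nat_lit 4) (nat_lit 398) (nat_lit 263) (nat_lit 203)) (XT.nd (nat_lit 94) (nat_lit 0) (nat_lit 0) (XT.lf (nat_lit 0) (nat_lit 6187383763) (nat_lit 168) (nat_lit 5576969844) (nat_lit 84) (nat_lit 35997378572) (nat_lit 4) (nat_lit 5) (nat_lit 6) (nat_lit 5) (nat_lit 5) (nat_lit 4) (nat_lit 399) (nat_lit 263) (nat_lit 202)) (XT.lf (nat_lit 0) (nat_lit 8161592240) (nat_lit 168) (nat_lit 1667664525) (nat_lit 84) (nat_lit 39333898433) (nat_lit 4) (nat_lit 5) (nat_lit 6) (nat_lit 5) (nat_lit 5) (nat_lit 4) (nat_lit 400) (nat_lit 263) (nat_lit 201)))) (XT.nd (nat_lit 94) (nat_lit 0) (nat_lit 0) (XT.lf (nat_lit 0) (nat_lit 2382113483) (nat_lit 84) (nat_lit 7821366464) (nat_lit 168) (nat_lit 40404369121) (nat_lit 3) (nat_lit 5) (nat_lit 4) (nat_lit 5) (nat_lit 5) (nat_lit 4) (nat_lit 401) (nat_lit 263) (nat_lit 200)) (XT.nd (nat_lit 94) (nat_lit 0) (nat_lit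 0) (XT.lf (nat_lit 0) (nat_lit 6564368831) (nat_lit 84) (nat_lit 5744786049) (nat_lit 168) (nat_lit 39788185166) (nat_lit 3) (nat_lit 5) (nat_lit 4) (nat_lit 5) (nat_lit 5) (nat_lit 4) (nat_lit 402) (nat_lit 263) (nat_lit 199)) (XT.lf (nat_lit 0) (nat_lit 10848709218) (nat_lit 84) (nat_lit 3614986926) (nat_lit 168) (nat_lit 39169843744) (nat_lit 3) (nat_lit 5) (nat_lit 4) (nat_lit 5) (nat_lit 5) (nat_lit 4) (nat_lit 403) (nat_lit 263) (nat_lit 198))))))))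
noncomputable def xc32 : XT := (XT.nd (nat_lit 49256) (nat_lit 0) (nat_lit 588) (XT.nd (nat_lit 48128) (nat_lit 0) (nat_lit 1848) (XT.nd (nat_lit 470) (nat_lit 0) (nat_lit 0) (XT.nd (nat_lit 188) (nat_lit 0) (nat_lit 0) (XT.nd (nat_lit 94) (nat_lit 0) (nat_lit 0) (XT.lf (nat_lit 0) (nat_lit 15239128096) (nat_lit 84) (nat_lit 1429983901) (nat_lit 168) (nat_lit 38548768495) (nat_lit 3) (nat_lit 5) (nat_lit 4) (nat_lit 5) (nat_lit 5) (nat_lit 4) (nat_lit 404) (nat_lit 263) (nat_lit 197)) (XT.lf (nat_lit 0) (nat_lit 18935515833) (nat_lit 168) (nat_lit 37120178549) (nat_lit 0) (nat_lit 795894456) (nat_lit 3) (nat_lit 5) (nat_lit 5) (nat_lit 4) (nat_lit 3) (nat_lit 4) (nat_lit 405) (nat_lit 263) (nat_lit 196))) (XT.nd (nat_lit 94) (nat_lit 0) (nat_lit 0) (XT.lf (nat_lit 0) (nat_lit 21271729135) (nat_lit 168) (nat_lit 34213153596) (nat_lit 0) (nat_lit 3051097007) (nat_lit 3) (nat_lit 5) (nat_lit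 5) (nat_lit 4) (nat_lit 3) (nat_lit 4) (nat_lit 406) (nat_lit 263) (nat_lit 195)) (XT.nd (nat_lit 94) (nat_lit 0) (nat_lit 0) (XT.lf (nat_lit 0) (nat_lit 23665743881) (nat_lit 168) (nat_lit 31240782269) (nat_lit 0) (nat_lit 5366536825) (nat_lit 3) (nat_lit 5) (nat_lit 5) (nat_lit 4) (nat_lit 3) (nat_lit 4) (nat_lit 407) (nat_lit 263) (nat_lit 194)) (XT.lf (nat_lit 0) (nat_lit 26119791544) (nat_lit 168) (nat_lit 28200294005) (nat_lit 0) (nat_lit 7744372143) (nat_lit 3) (nat_lit 5) (nat_lit 5) (nat_lit 4) (nat_lit 3) (nat_lit 4) (nat_lit 408) (nat_lit 263) (nat_lit 193))))) (XT.nd (nat_lit 47376) (nat_lit 0) (nat_lit 3276) (XT.nd (nat_lit 94) (nat_lit 0) (nat_lit 0) (XT.lf (nat_lit 0) (nat_lit 28636159554) (nat_lit 168) (nat_lit 25088854751) (nat_lit 0) (nat_lit 10186819352) (nat_lit 3) (nat_lit 5) (nat_lit 5) (nat_lit 4) (nat_lit 3) (nat_lit 4) (nat_lit 409) (nat_lit 263) (nat_lit 192))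 (XT.nd (nat_lit 94) (nat_lit 0) (nat_lit 0) (XT.lf (nat_lit 0) (nat_lit 31217193428) (nat_lit 168) (nat_lit 21903564321) (nat_lit 0) (nat_lit 12696155068) (nat_lit 3) (nat_lit 5) (nat_lit 5) (nat_lit 4) (nat_lit 3) (nat_lit 4) (nat_lit 410) (nat_lit 263) (nat_lit 191)) (XT.lf (nat_lit 0) (nat_lit 33865298961) (nat_lit 168) (nat_lit 18641453688) (nat_lit 0) (nat_lit 15274718256) (nat_lit 3) (nat_lit 5) (nat_lit 5) (nat_lit 4) (nat_lit 3) (nat_lit 4) (nat_lit 411) (nat_lit 263) (nat_lit 190)))) (XT.nd (nat_lit 94) (nat_lit 336) (nat_lit 0) (XT.lf (nat_lit 0) (nat_lit 1831005288) (nat_lit 336) (nat_lit 1585484622) (nat_lit 336) (nat_lit 1585484622) (nat_lit 46) (nat_lit 4) (nat_lit 50) (nat_lit 5) (nat_lit 50) (nat_lit 4) (nat_lit 336) (nat_lit 264) (nat_lit 264)) (XT.nd (nat_lit 94) (nat_lit 336) (nat_lit 0) (XT.lf (nat_lit 0) (nat_lit 8969418659) (nat_lit 336) (nat_lit 1031914744) (nat_lit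 336) (nat_lit 181834575) (nat_lit 46) (nat_lit 4) (nat_lit 50) (nat_lit 5) (nat_lit 50) (nat_lit 4) (nat_lit 337) (nat_lit 264) (nat_lit 263)) (XT.lf (nat_lit 0) (nat_lit 2816020514) (nat_lit 336) (nat_lit 6360283025) (nat_lit 0) (nat_lit 1191772002) (nat_lit 42) (nat_lit 5) (nat_lit 46) (nat_lit 4) (nat_lit 42) (nat_lit 4) (nat_lit 338) (nat_lit 264) (nat_lit 262)))))) (XT.nd (nat_lit 564) (nat_lit 588) (nat_lit 0) (XT.nd (nat_lit 282) (nat_lit 504) (nat_lit 0) (XT.nd (nat_lit 94) (nat_lit 336) (nat_lit 0) (XT.lf (nat_lit 0) (nat_lit 5849937364) (nat_lit 336) (nat_lit 1260586299) (nat_lit 0) (nat_lit 3450006539) (nat_lit 42) (nat_lit 5) (nat_lit 46) (nat_lit 4) (nat_lit 42) (nat_lit 4) (nat_lit 339) (nat_lit 264) (nat_lit 261)) (XT.nd (nat_lit 94) (nat_lit 84) (nat_lit 0) (XT.lf (nat_lit 0) (nat_lit 3973818024) (nat_lit 252) (nat_lit 4969359684) (nat_lit 252) (nat_lit 1817069680) (nat_lit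 39) (nat_lit 4) (nat_lit 42) (nat_lit 5) (nat_lit 42) (nat_lit 4) (nat_lit 340) (nat_lit 264) (nat_lit 260)) (XT.lf (nat_lit 0) (nat_lit 1082059902) (nat_lit 336) (nat_lit 1684363662) (nat_lit 84) (nat_lit 8201458986) (nat_lit 38) (nat_lit 5) (nat_lit 42) (nat_lit 5) (nat_lit 39) (nat_lit 4) (nat_lit 341) (nat_lit 264) (nat_lit 259)))) (XT.nd (nat_lit 94) (nat_lit 252) (nat_lit 0) (XT.lf (nat_lit 0) (nat_lit 3527355468) (nat_lit 252) (nat_lit 469285816) (nat_lit 336) (nat_lit 7186074596) (nat_lit 35) (nat_lit 5) (nat_lit 38) (nat_lit 5) (nat_lit 39) (nat_lit 4) (nat_lit 342) (nat_lit 264) (nat_lit 258)) (XT.nd (nat_lit 94) (nat_lit 252) (nat_lit 0) (XT.lf (nat_lit 0) (nat_lit 6967377398) (nat_lit 336) (nat_lit 2588397326) (nat_lit 0) (nat_lit 1849689026) (nat_lit 35) (nat_lit 5) (nat_lit 39) (nat_lit 4) (nat_lit 35) (nat_lit 4) (nat_lit 343) (nat_lit 264) (nat_lit 257)) (XT.lf (nat_lit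 0) (nat_lit 2583910636) (nat_lit 252) (nat_lit 7408059475) (nat_lit 252) (nat_lit 1644520755) (nat_lit 32) (nat_lit 4) (nat_lit 35) (nat_lit 5) (nat_lit 35) (nat_lit 4) (nat_lit 344) (nat_lit 264) (nat_lit 256))))) (XT.nd (nat_lit 282) (nat_lit 336) (nat_lit 0) (XT.nd (nat_lit 94) (nat_lit 168) (nat_lit 0) (XT.lf (nat_lit 0) (nat_lit 1169597272) (nat_lit 336) (nat_lit 4014517645) (nat_lit 84) (nat_lit 6691638207) (nat_lit 31) (nat_lit 5) (nat_lit 35) (nat_lit 5) (nat_lit 32) (nat_lit 4) (nat_lit 345) (nat_lit 264) (nat_lit 255)) (XT.nd (nat_lit 94) (nat_lit 0) (nat_lit 0) (XT.lf (nat_lit 0) (nat_lit 1088251024) (nat_lit 168) (nat_lit 2892948510) (nat_lit 252) (nat_lit 8142607171) (nat_lit 29) (nat_lit 5) (nat_lit 31) (nat_lit 5) (nat_lit 32) (nat_lit 4) (nat_lit 346) (nat_lit 264) (nat_lit 254)) (XT.lf (nat_lit 0) (nat_lit 6338708865) (nat_lit 168) (nat_lit 517815262) (nat_lit 252) (nat_lit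 5523919421) (nat_lit 29) (nat_lit 5) (nat_lit 31) (nat_lit 5) (nat_lit 32) (nat_lit 4) (nat_lit 347) (nat_lit 264) (nat_lit 253)))) (XT.nd (nat_lit 94) (nat_lit 336) (nat_lit 0) (XT.lf (nat_lit 0) (nat_lit 9776471828) (nat_lit 252) (nat_lit 1006823736) (nat_lit 0) (nat_lit 1863282460) (nat_lit 29) (nat_lit 5) (nat_lit 32) (nat_lit 4) (nat_lit 29) (nat_lit 4) (nat_lit 348) (nat_lit 264) (nat_lit 252)) (XT.nd (nat_lit 94) (nat_lit 84) (nat_lit 0) (XT.lf (nat_lit 0) (nat_lit 4171193728) (nat_lit 252) (nat_lit 8600666121) (nat_lit 252) (nat_lit 149727389) (nat_lit 26) (nat_lit 4) (nat_lit 29) (nat_lit 5) (nat_lit 29) (nat_lit 4) (nat_lit 349) (nat_lit 264) (nat_lit 251)) (XT.lf (nat_lit 0) (nat_lit 2550539932) (nat_lit 336) (nat_lit 3792372501) (nat_lit 84) (nat_lit 6863120163) (nat_lit 25) (nat_lit 5) (nat_lit 29) (nat_lit 5) (nat_lit 26) (nat_lit 4) (nat_lit 350) (nat_lit 264) (nat_lit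 250))))))) (XT.nd (nat_lit 1128) (nat_lit 420) (nat_lit 0) (XT.nd (nat_lit 564) (nat_lit 420) (nat_lit 0) (XT.nd (nat_lit 282) (nat_lit 252) (nat_lit 0) (XT.nd (nat_lit 94) (nat_lit 0) (nat_lit 0) (XT.lf (nat_lit 0) (nat_lit 1253641121) (nat_lit 168) (nat_lit 4030483829) (nat_lit 252) (nat_lit 8216732427) (nat_lit 23) (nat_lit 5) (nat_lit 25) (nat_lit 5) (nat_lit 26) (nat_lit 4) (nat_lit 351) (nat_lit 264) (nat_lit 249)) (XT.nd (nat_lit 94) (nat_lit 0) (nat_lit 0) (XT.lf (nat_lit 0) (nat_lit 6447950144) (nat_lit 168) (nat_lit 1635286227) (nat_lit 252) (nat_lit 5722320095) (nat_lit 23) (nat_lit 5) (nat_lit 25) (nat_lit 5) (nat_lit 26) (nat_lit 4) (nat_lit 352) (nat_lit 264) (nat_lit 248)) (XT.lf (nat_lit 0) (nat_lit 10920077852) (nat_lit 252) (nat_lit 2412175809) (nat_lit 0) (nat_lit 789102781) (nat_lit 23) (nat_lit 5) (nat_lit 26) (nat_lit 4) (nat_lit 23) (nat_lit 4) (nat_lit 353) (nat_lit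 264) (nat_lit 247)))) (XT.nd (nat_lit 94) (nat_lit 84) (nat_lit 0) (XT.lf (nat_lit 0) (nat_lit 2638138608) (nat_lit 168) (nat_lit 11194024627) (nat_lit 168) (nat_lit 615307474) (nat_lit 21) (nat_lit 4) (nat_lit 23) (nat_lit 5) (nat_lit 23) (nat_lit 4) (nat_lit 354) (nat_lit 264) (nat_lit 246)) (XT.nd (nat_lit 94) (nat_lit 0) (nat_lit 0) (XT.lf (nat_lit 0) (nat_lit 1979504821) (nat_lit 252) (nat_lit 6992622279) (nat_lit 84) (nat_lit 5811989968) (nat_lit 20) (nat_lit 5) (nat_lit 23) (nat_lit 5) (nat_lit 21) (nat_lit 4) (nat_lit 355) (nat_lit 264) (nat_lit 245)) (XT.lf (nat_lit 0) (nat_lit 4588201900) (nat_lit 252) (nat_lit 2115580063) (nat_lit 84) (nat_lit 8429008771) (nat_lit 20) (nat_lit 5) (nat_lit 23) (nat_lit 5) (nat_lit 21) (nat_lit 4) (nat_lit 356) (nat_lit 264) (nat_lit 244))))) (XT.nd (nat_lit 282) (nat_lit 252) (nat_lit 0) (XT.nd (nat_lit 94) (nat_lit 0) (nat_lit 0) (XT.lf (nat_lit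 0) (nat_lit 2890685253) (nat_lit 168) (nat_lit 4363603117) (nat_lit 252) (nat_lit 8238828604) (nat_lit 18) (nat_lit 5) (nat_lit 20) (nat_lit 5) (nat_lit 21) (nat_lit 4) (nat_lit 357) (nat_lit 264) (nat_lit 243)) (XT.nd (nat_lit 94) (nat_lit 0) (nat_lit 0) (XT.lf (nat_lit 0) (nat_lit 8017599921) (nat_lit 168) (nat_lit 1956130372) (nat_lit 252) (nat_lit 5891903447) (nat_lit 18) (nat_lit 5) (nat_lit 20) (nat_lit 5) (nat_lit 21) (nat_lit 4) (nat_lit 358) (nat_lit 264) (nat_lit 242)) (XT.lf (nat_lit 0) (nat_lit 12732592263) (nat_lit 252) (nat_lit 3029858269) (nat_lit 0) (nat_lit 488748303) (nat_lit 18) (nat_lit 5) (nat_lit 21) (nat_lit 4) (nat_lit 18) (nat_lit 4) (nat_lit 359) (nat_lit 264) (nat_lit 241)))) (XT.nd (nat_lit 94) (nat_lit 84) (nat_lit 0) (XT.lf (nat_lit 0) (nat_lit 1879508104) (nat_lit 168) (nat_lit 13687528445) (nat_lit 168) (nat_lit 1082093781) (nat_lit 16) (nat_lit 4) (nat_lit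 18) (nat_lit 5) (nat_lit 18) (nat_lit 4) (nat_lit 360) (nat_lit 264) (nat_lit 240)) (XT.nd (nat_lit 94) (nat_lit 0) (nat_lit 0) (XT.lf (nat_lit 0) (nat_lit 1384619942) (nat_lit 252) (nat_lit 10143989993) (nat_lit 84) (nat_lit 5530959574) (nat_lit 15) (nat_lit 5) (nat_lit 18) (nat_lit 5) (nat_lit 16) (nat_lit 4) (nat_lit 361) (nat_lit 264) (nat_lit 239)) (XT.lf (nat_lit 0) (nat_lit 3858311936) (nat_lit 252) (nat_lit 5460094621) (nat_lit 84) (nat_lit 8165536460) (nat_lit 15) (nat_lit 5) (nat_lit 18) (nat_lit 5) (nat_lit 16) (nat_lit 4) (nat_lit 362) (nat_lit 264) (nat_lit 238)))))) (XT.nd (nat_lit 564) (nat_lit 168) (nat_lit 0) (XT.nd (nat_lit 282) (nat_lit 168) (nat_lit 0) (XT.nd (nat_lit 94) (nat_lit 84) (nat_lit 0) (XT.lf (nat_lit 0) (nat_lit 6363089718) (nat_lit 252) (nat_lit 702835724) (nat_lit 84) (nat_lit 10857053741) (nat_lit 15) (nat_lit 5) (nat_lit 18) (nat_lit 5) (nat_lit 16)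 (nat_lit 4) (nat_lit 363) (nat_lit 264) (nat_lit 237)) (XT.nd (nat_lit 94) (nat_lit 0) (nat_lit 0) (XT.lf (nat_lit 0) (nat_lit 4217187898) (nat_lit 84) (nat_lit 4725935132) (nat_lit 168) (nat_lit 9432667321) (nat_lit 14) (nat_lit 5) (nat_lit 15) (nat_lit 5) (nat_lit 16) (nat_lit 4) (nat_lit 364) (nat_lit 264) (nat_lit 236)) (XT.lf (nat_lit 0) (nat_lit 9235660184) (nat_lit 84) (nat_lit 2331231370) (nat_lit 168) (nat_lit 7276958716) (nat_lit 14) (nat_lit 5) (nat_lit 15) (nat_lit 5) (nat_lit 16) (nat_lit 4) (nat_lit 365) (nat_lit 264) (nat_lit 235)))) (XT.nd (nat_lit 94) (nat_lit 168) (nat_lit 0) (XT.lf (nat_lit 0) (nat_lit 14230847120) (nat_lit 168) (nat_lit 4986130458) (nat_lit 0) (nat_lit 110803448) (nat_lit 14) (nat_lit 5) (nat_lit 16) (nat_lit 4) (nat_lit 14) (nat_lit 4) (nat_lit 366) (nat_lit 264) (nat_lit 234)) (XT.nd (nat_lit 94) (nat_lit 168) (nat_lit 0) (XT.lf (nat_lit 0) (nat_lit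 16959990819) (nat_lit 168) (nat_lit 310633330) (nat_lit 0) (nat_lit 2556711486) (nat_lit 14) (nat_lit 5) (nat_lit 16) (nat_lit 4) (nat_lit 14) (nat_lit 4) (nat_lit 367) (nat_lit 264) (nat_lit 233)) (XT.lf (nat_lit 0) (nat_lit 4537199921) (nat_lit 168) (nat_lit 15241550061) (nat_lit 168) (nat_lit 563551366) (nat_lit 12) (nat_lit 4) (nat_lit 14) (nat_lit 5) (nat_lit 14) (nat_lit 4) (nat_lit 368) (nat_lit 264) (nat_lit 232))))) (XT.nd (nat_lit 282) (nat_lit 84) (nat_lit 0) (XT.nd (nat_lit 94) (nat_lit 0) (nat_lit 0) (XT.lf (nat_lit 0) (nat_lit 1738531224) (nat_lit 252) (nat_lit 11413500908) (nat_lit 84) (nat_lit 7721852719) (nat_lit 11) (nat_lit 5) (nat_lit 14) (nat_lit 5) (nat_lit 12) (nat_lit 4) (nat_lit 369) (nat_lit 264) (nat_lit 231)) (XT.nd (nat_lit 94) (nat_lit 0) (nat_lit 0) (XT.lf (nat_lit 0) (nat_lit 4061568801) (nat_lit 252) (nat_lit 6953858853) (nat_lit 84) (nat_lit 10407614169)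 (nat_lit 11) (nat_lit 5) (nat_lit 14) (nat_lit 5) (nat_lit 12) (nat_lit 4) (nat_lit 370) (nat_lit 264) (nat_lit 230)) (XT.lf (nat_lit 0) (nat_lit 6419080983) (nat_lit 252) (nat_lit 2416427910) (nat_lit 84) (nat_lit 13154948547) (nat_lit 11) (nat_lit 5) (nat_lit 14) (nat_lit 5) (nat_lit 12) (nat_lit 4) (nat_lit 371) (nat_lit 264) (nat_lit 229)))) (XT.nd (nat_lit 94) (nat_lit 0) (nat_lit 0) (XT.lf (nat_lit 0) (nat_lit 2248319916) (nat_lit 84) (nat_lit 6587248913) (nat_lit 168) (nat_lit 13740400354) (nat_lit 10) (nat_lit 5) (nat_lit 11) (nat_lit 5) (nat_lit 12) (nat_lit 4) (nat_lit 372) (nat_lit 264) (nat_lit 228)) (XT.nd (nat_lit 94) (nat_lit 0) (nat_lit 0) (XT.lf (nat_lit 0) (nat_lit 7050853516) (nat_lit 84) (nat_lit 4265444959) (nat_lit 168) (nat_lit 11863730908) (nat_lit 10) (nat_lit 5) (nat_lit 11) (nat_lit 5) (nat_lit 12) (nat_lit 4) (nat_lit 373) (nat_lit 264) (nat_lit 227)) (XT.lf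 (nat_lit 0) (nat_lit 11945962640) (nat_lit 84) (nat_lit 1893155420) (nat_lit 168) (nat_lit 9964841420) (nat_lit 10) (nat_lit 5) (nat_lit 11) (nat_lit 5) (nat_lit 12) (nat_lit 4) (nat_lit 374) (nat_lit 264) (nat_lit 226))))))))
noncomputable def xc33 : XT := (XT.nd (nat_lit 2256) (nat_lit 84) (nat_lit 0) (XT.nd (nat_lit 1128) (nat_lit 168) (nat_lit 0) (XT.nd (nat_lit 564) (nat_lit 84) (nat_lit 0) (XT.nd (nat_lit 282) (nat_lit 84) (nat_lit 0) (XT.nd (nat_lit 94) (nat_lit 168) (nat_lit 0) (XT.lf (nat_lit 0) (nat_lit 16411654942) (nat_lit 168) (nat_lit 7515406826) (nat_lit 0) (nat_lit 521115719) (nat_lit 10) (nat_lit 5) (nat_lit 12) (nat_lit 4) (nat_lit 10) (nat_lit 4) (nat_lit 375) (nat_lit 264) (nat_lit 225)) (XT.nd (nat_lit 94) (nat_lit 168) (nat_lit 0) (XT.lf (nat_lit 0) (nat_lit 19050351767) (nat_lit 168) (nat_lit 3111402848) (nat_lit 0) (nat_lit 2951093883) (nat_lit 10) (nat_lit 5)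 (nat_lit 12) (nat_lit 4) (nat_lit 10) (nat_lit 4) (nat_lit 376) (nat_lit 264) (nat_lit 224)) (XT.lf (nat_lit 0) (nat_lit 1405212319) (nat_lit 168) (nat_lit 20347615302) (nat_lit 168) (nat_lit 4045914487) (nat_lit 8) (nat_lit 4) (nat_lit 10) (nat_lit 5) (nat_lit 10) (nat_lit 4) (nat_lit 377) (nat_lit 264) (nat_lit 223)))) (XT.nd (nat_lit 94) (nat_lit 84) (nat_lit 0) (XT.lf (nat_lit 0) (nat_lit 6076106561) (nat_lit 168) (nat_lit 18463938029) (nat_lit 168) (nat_lit 1965881316) (nat_lit 8) (nat_lit 4) (nat_lit 10) (nat_lit 5) (nat_lit 10) (nat_lit 4) (nat_lit 378) (nat_lit 264) (nat_lit 222)) (XT.nd (nat_lit 94) (nat_lit 0) (nat_lit 0) (XT.lf (nat_lit 0) (nat_lit 144101894) (nat_lit 252) (nat_lit 16395837654) (nat_lit 84) (nat_lit 10696050794) (nat_lit 7) (nat_lit 5) (nat_lit 10) (nat_lit 5) (nat_lit 8) (nat_lit 4) (nat_lit 379) (nat_lit 264) (nat_lit 221)) (XT.lf (nat_lit 0) (nat_lit 2248656730)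 (nat_lit 252) (nat_lit 12306212184) (nat_lit 84) (nat_lit 13434176983) (nat_lit 7) (nat_lit 5) (nat_lit 10) (nat_lit 5) (nat_lit 8) (nat_lit 4) (nat_lit 380) (nat_lit 264) (nat_lit 220))))) (XT.nd (nat_lit 282) (nat_lit 0) (nat_lit 0) (XT.nd (nat_lit 94) (nat_lit 84) (nat_lit 0) (XT.lf (nat_lit 0) (nat_lit 4389352984) (nat_lit 252) (nat_lit 8137629191) (nat_lit 84) (nat_lit 16239416879) (nat_lit 7) (nat_lit 5) (nat_lit 10) (nat_lit 5) (nat_lit 8) (nat_lit 4) (nat_lit 381) (nat_lit 264) (nat_lit 219)) (XT.nd (nat_lit 94) (nat_lit 84) (nat_lit 0) (XT.lf (nat_lit 0) (nat_lit 6568186009) (nat_lit 252) (nat_lit 3886203117) (nat_lit 84) (nat_lit 19114385259) (nat_lit 7) (nat_lit 5) (nat_lit 10) (nat_lit 5) (nat_lit 8) (nat_lit 4) (nat_lit 382) (nat_lit 264) (nat_lit 218)) (XT.lf (nat_lit 0) (nat_lit 461323450) (nat_lit 84) (nat_lit 8330439642) (nat_lit 168) (nat_lit 21605014832) (nat_lit 6)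 (nat_lit 5) (nat_lit 7) (nat_lit 5) (nat_lit 8) (nat_lit 4) (nat_lit 383) (nat_lit 264) (nat_lit 217)))) (XT.nd (nat_lit 94) (nat_lit 0) (nat_lit 0) (XT.lf (nat_lit 0) (nat_lit 4981475918) (nat_lit 84) (nat_lit 6116364355) (nat_lit 168) (nat_lit 20152234993) (nat_lit 6) (nat_lit 5) (nat_lit 7) (nat_lit 5) (nat_lit 8) (nat_lit 4) (nat_lit 384) (nat_lit 264) (nat_lit 216)) (XT.nd (nat_lit 94) (nat_lit 0) (nat_lit 0) (XT.lf (nat_lit 0) (nat_lit 9598559235) (nat_lit 84) (nat_lit 3850663508) (nat_lit 168) (nat_lit 18681458707) (nat_lit 6) (nat_lit 5) (nat_lit 7) (nat_lit 5) (nat_lit 8) (nat_lit 4) (nat_lit 385) (nat_lit 264) (nat_lit 215)) (XT.lf (nat_lit 0) (nat_lit 14316877007) (nat_lit 84) (nat_lit 1531225229) (nat_lit 168) (nat_lit 17191315056) (nat_lit 6) (nat_lit 5) (nat_lit 7) (nat_lit 5) (nat_lit 8) (nat_lit 4) (nat_lit 386) (nat_lit 264) (nat_lit 214)))))) (XT.nd (nat_lit 564) (nat_lit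 84) (nat_lit 0) (XT.nd (nat_lit 282) (nat_lit 84) (nat_lit 0) (XT.nd (nat_lit 94) (nat_lit 0) (nat_lit 0) (XT.lf (nat_lit 0) (nat_lit 18305088460) (nat_lit 168) (nat_lit 14844676331) (nat_lit 0) (nat_lit 827105455) (nat_lit 6) (nat_lit 5) (nat_lit 8) (nat_lit 4) (nat_lit 6) (nat_lit 4) (nat_lit 387) (nat_lit 264) (nat_lit 213)) (XT.nd (nat_lit 94) (nat_lit 0) (nat_lit 0) (XT.lf (nat_lit 0) (nat_lit 20829856513) (nat_lit 168) (nat_lit 10902300707) (nat_lit 0) (nat_lit 3211527963) (nat_lit 6) (nat_lit 5) (nat_lit 8) (nat_lit 4) (nat_lit 6) (nat_lit 4) (nat_lit 388) (nat_lit 264) (nat_lit 212)) (XT.lf (nat_lit 0) (nat_lit 23409569800) (nat_lit 168) (nat_lit 6876548762) (nat_lit 0) (nat_lit 5655115600) (nat_lit 6) (nat_lit 5) (nat_lit 8) (nat_lit 4) (nat_lit 6) (nat_lit 4) (nat_lit 389) (nat_lit 264) (nat_lit 211)))) (XT.nd (nat_lit 94) (nat_lit 84) (nat_lit 0) (XT.lf (nat_lit 0) (nat_lit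 26046632885) (nat_lit 168) (nat_lit 2763668075) (nat_lit 0) (nat_lit 8160146046) (nat_lit 6) (nat_lit 5) (nat_lit 8) (nat_lit 4) (nat_lit 6) (nat_lit 4) (nat_lit 390) (nat_lit 264) (nat_lit 210)) (XT.nd (nat_lit 94) (nat_lit 0) (nat_lit 0) (XT.lf (nat_lit 0) (nat_lit 1469787942) (nat_lit 84) (nat_lit 27288296322) (nat_lit 84) (nat_lit 9273746788) (nat_lit 5) (nat_lit 4) (nat_lit 6) (nat_lit 5) (nat_lit 6) (nat_lit 4) (nat_lit 391) (nat_lit 264) (nat_lit 209)) (XT.lf (nat_lit 0) (nat_lit 5856902389) (nat_lit 84) (nat_lit 25703895078) (nat_lit 84) (nat_lit 7565133425) (nat_lit 5) (nat_lit 4) (nat_lit 6) (nat_lit 5) (nat_lit 6) (nat_lit 4) (nat_lit 392) (nat_lit 264) (nat_lit 208))))) (XT.nd (nat_lit 282) (nat_lit 84) (nat_lit 0) (XT.nd (nat_lit 94) (nat_lit 0) (nat_lit 0) (XT.lf (nat_lit 0) (nat_lit 10344937830) (nat_lit 84) (nat_lit 24084467427) (nat_lit 84) (nat_lit 5825228452) (nat_lit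 5) (nat_lit 4) (nat_lit 6) (nat_lit 5) (nat_lit 6) (nat_lit 4) (nat_lit 393) (nat_lit 264) (nat_lit 207)) (XT.nd (nat_lit 94) (nat_lit 0) (nat_lit 0) (XT.lf (nat_lit 0) (nat_lit 14938077585) (nat_lit 84) (nat_lit 22428503893) (nat_lit 84) (nat_lit 4052410095) (nat_lit 5) (nat_lit 4) (nat_lit 6) (nat_lit 5) (nat_lit 6) (nat_lit 4) (nat_lit 394) (nat_lit 264) (nat_lit 206)) (XT.lf (nat_lit 0) (nat_lit 19640602941) (nat_lit 84) (nat_lit 20734460945) (nat_lit 84) (nat_lit 2245025902) (nat_lit 5) (nat_lit 4) (nat_lit 6) (nat_lit 5) (nat_lit 6) (nat_lit 4) (nat_lit 395) (nat_lit 264) (nat_lit 205)))) (XT.nd (nat_lit 94) (nat_lit 84) (nat_lit 0) (XT.lf (nat_lit 0) (nat_lit 24456897145) (nat_lit 84) (nat_lit 19000759556) (nat_lit 84) (nat_lit 401391202) (nat_lit 5) (nat_lit 4) (nat_lit 6) (nat_lit 5) (nat_lit 6) (nat_lit 4) (nat_lit 396) (nat_lit 264) (nat_lit 204)) (XT.nd (nat_lit 94) (nat_lit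 0) (nat_lit 0) (XT.lf (nat_lit 0) (nat_lit 1450389484) (nat_lit 168) (nat_lit 15760255160) (nat_lit 84) (nat_lit 27925920912) (nat_lit 4) (nat_lit 5) (nat_lit 6) (nat_lit 5) (nat_lit 5) (nat_lit 4) (nat_lit 397) (nat_lit 264) (nat_lit 203)) (XT.lf (nat_lit 0) (nat_lit 3333005525) (nat_lit 168) (nat_lit 12040083753) (nat_lit 84) (nat_lit 31081064220) (nat_lit 4) (nat_lit 5) (nat_lit 6) (nat_lit 5) (nat_lit 5) (nat_lit 4) (nat_lit 398) (nat_lit 264) (nat_lit 202))))))) (XT.nd (nat_lit 1128) (nat_lit 0) (nat_lit 0) (XT.nd (nat_lit 564) (nat_lit 0) (nat_lit 0) (XT.nd (nat_lit 282) (nat_lit 84) (nat_lit 0) (XT.nd (nat_lit 94) (nat_lit 0) (nat_lit 0) (XT.lf (nat_lit 0) (nat_lit 5256298855) (nat_lit 168) (nat_lit 8234187098) (nat_lit 84) (nat_lit 34322677346) (nat_lit 4) (nat_lit 5) (nat_lit 6) (nat_lit 5) (nat_lit 5) (nat_lit 4) (nat_lit 399) (nat_lit 264) (nat_lit 201)) (XT.nd (nat_lit 94)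 (nat_lit 0) (nat_lit 0) (XT.lf (nat_lit 0) (nat_lit 7222062186) (nat_lit 168) (nat_lit 4339017699) (nat_lit 84) (nat_lit 37653781813) (nat_lit 4) (nat_lit 5) (nat_lit 6) (nat_lit 5) (nat_lit 5) (nat_lit 4) (nat_lit 400) (nat_lit 264) (nat_lit 200)) (XT.lf (nat_lit 0) (nat_lit 9232127813) (nat_lit 168) (nat_lit 350944850) (nat_lit 84) (nat_lit 41077482558) (nat_lit 4) (nat_lit 5) (nat_lit 6) (nat_lit 5) (nat_lit 5) (nat_lit 4) (nat_lit 401) (nat_lit 264) (nat_lit 199)))) (XT.nd (nat_lit 94) (nat_lit 0) (nat_lit 0) (XT.lf (nat_lit 0) (nat_lit 3810522279) (nat_lit 84) (nat_lit 7515647902) (nat_lit 168) (nat_lit 40824249403) (nat_lit 3) (nat_lit 5) (nat_lit 4) (nat_lit 5) (nat_lit 5) (nat_lit 4) (nat_lit 402) (nat_lit 264) (nat_lit 198)) (XT.nd (nat_lit 94) (nat_lit 0) (nat_lit 0) (XT.lf (nat_lit 0) (nat_lit 8081698677) (nat_lit 84) (nat_lit 5391176140) (nat_lit 168) (nat_lit 40213999934)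 (nat_lit 3) (nat_lit 5) (nat_lit 4) (nat_lit 5) (nat_lit 5) (nat_lit 4) (nat_lit 403) (nat_lit 264) (nat_lit 197)) (XT.lf (nat_lit 0) (nat_lit 12459349380) (nat_lit 84) (nat_lit 3211340293) (nat_lit 168) (nat_lit 39600773330) (nat_lit 3) (nat_lit 5) (nat_lit 4) (nat_lit 5) (nat_lit 5) (nat_lit 4) (nat_lit 404) (nat_lit 264) (nat_lit 196))))) (XT.nd (nat_lit 282) (nat_lit 0) (nat_lit 0) (XT.nd (nat_lit 94) (nat_lit 0) (nat_lit 0) (XT.lf (nat_lit 0) (nat_lit 16947554817) (nat_lit 84) (nat_lit 974108525) (nat_lit 168) (nat_lit 38983998000) (nat_lit 3) (nat_lit 5) (nat_lit 4) (nat_lit 5) (nat_lit 5) (nat_lit 4) (nat_lit 405) (nat_lit 264) (nat_lit 195)) (XT.nd (nat_lit 94) (nat_lit 0) (nat_lit 0) (XT.lf (nat_lit 0) (nat_lit 20241014367) (nat_lit 168) (nat_lit 37053614946) (nat_lit 0) (nat_lit 1295956965) (nat_lit 3) (nat_lit 5) (nat_lit 5) (nat_lit 4) (nat_lit 3) (nat_lit 4) (nat_lit 406)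 (nat_lit 264) (nat_lit 194)) (XT.lf (nat_lit 0) (nat_lit 22628046573) (nat_lit 168) (nat_lit 34093073542) (nat_lit 0) (nat_lit 3606776825) (nat_lit 3) (nat_lit 5) (nat_lit 5) (nat_lit 4) (nat_lit 3) (nat_lit 4) (nat_lit 407) (nat_lit 264) (nat_lit 193)))) (XT.nd (nat_lit 94) (nat_lit 0) (nat_lit 0) (XT.lf (nat_lit 0) (nat_lit 25075321646) (nat_lit 168) (nat_lit 31064059501) (nat_lit 0) (nat_lit 5980131097) (nat_lit 3) (nat_lit 5) (nat_lit 5) (nat_lit 4) (nat_lit 3) (nat_lit 4) (nat_lit 408) (nat_lit 264) (nat_lit 192)) (XT.nd (nat_lit 94) (nat_lit 0) (nat_lit 0) (XT.lf (nat_lit 0) (nat_lit 27585120702) (nat_lit 168) (nat_lit 27963749464) (nat_lit 0) (nat_lit 8418231995) (nat_lit 3) (nat_lit 5) (nat_lit 5) (nat_lit 4) (nat_lit 3) (nat_lit 4) (nat_lit 409) (nat_lit 264) (nat_lit 191)) (XT.lf (nat_lit 0) (nat_lit 30159783138) (nat_lit 168) (nat_lit 24789253618) (nat_lit 0) (nat_lit 10923352086)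 (nat_lit 3) (nat_lit 5) (nat_lit 5) (nat_lit 4) (nat_lit 3) (nat_lit 4) (nat_lit 410) (nat_lit 264) (nat_lit 190)))))) (XT.nd (nat_lit 47470) (nat_lit 0) (nat_lit 2436) (XT.nd (nat_lit 47188) (nat_lit 0) (nat_lit 3276) (XT.nd (nat_lit 47000) (nat_lit 0) (nat_lit 3948) (XT.lf (nat_lit 0) (nat_lit 32801708808) (nat_lit 168) (nat_lit 21537613000) (nat_lit 0) (nat_lit 13497826403) (nat_lit 3) (nat_lit 5) (nat_lit 5) (nat_lit 4) (nat_lit 3) (nat_lit 4) (nat_lit 411) (nat_lit 264) (nat_lit 189)) (XT.nd (nat_lit 94) (nat_lit 0) (nat_lit 0) (XT.lf (nat_lit 0) (nat_lit 766530255) (nat_lit 420) (nat_lit 3299895637) (nat_lit 0) (nat_lit 766530255) (nat_lit 50) (nat_lit 5) (nat_lit 55) (nat_lit 4) (nat_lit 50) (nat_lit 4) (nat_lit 334) (nat_lit 265) (nat_lit 265)) (XT.lf (nat_lit 0) (nat_lit 4575647829) (nat_lit 420) (nat_lit 1557377816) (nat_lit 0) (nat_lit 3699215175) (nat_lit 50) (nat_lit 5)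 (nat_lit 55) (nat_lit 4) (nat_lit 50) (nat_lit 4) (nat_lit 335) (nat_lit 265) (nat_lit 264)))) (XT.nd (nat_lit 94) (nat_lit 336) (nat_lit 0) (XT.lf (nat_lit 0) (nat_lit 3609427148) (nat_lit 336) (nat_lit 4061180009) (nat_lit 336) (nat_lit 2334667187) (nat_lit 46) (nat_lit 4) (nat_lit 50) (nat_lit 5) (nat_lit 50) (nat_lit 4) (nat_lit 336) (nat_lit 265) (nat_lit 263)) (XT.nd (nat_lit 94) (nat_lit 252) (nat_lit 0) (XT.lf (nat_lit 0) (nat_lit 603141696) (nat_lit 420) (nat_lit 1326052084) (nat_lit 84) (nat_lit 8256395616) (nat_lit 45) (nat_lit 5) (nat_lit 50) (nat_lit 5) (nat_lit 46) (nat_lit 4) (nat_lit 337) (nat_lit 265) (nat_lit 262)) (XT.lf (nat_lit 0) (nat_lit 3549643284) (nat_lit 336) (nat_lit 6522755466) (nat_lit 0) (nat_lit 299632290) (nat_lit 42) (nat_lit 5) (nat_lit 46) (nat_lit 4) (nat_lit 42) (nat_lit 4) (nat_lit 338) (nat_lit 265) (nat_lit 261))))) (XT.nd (nat_lit 282) (nat_lit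 504) (nat_lit 0) (XT.nd (nat_lit 94) (nat_lit 336) (nat_lit 0) (XT.lf (nat_lit 0) (nat_lit 6547051668) (nat_lit 336) (nat_lit 1473992555) (nat_lit 0) (nat_lit 2544681495) (nat_lit 42) (nat_lit 5) (nat_lit 46) (nat_lit 4) (nat_lit 42) (nat_lit 4) (nat_lit 339) (nat_lit 265) (nat_lit 260)) (XT.nd (nat_lit 94) (nat_lit 84) (nat_lit 0) (XT.lf (nat_lit 0) (nat_lit 3705605542) (nat_lit 252) (nat_lit 5896615035) (nat_lit 252) (nat_lit 1164507541) (nat_lit 39) (nat_lit 4) (nat_lit 42) (nat_lit 5) (nat_lit 42) (nat_lit 4) (nat_lit 340) (nat_lit 265) (nat_lit 259)) (XT.lf (nat_lit 0) (nat_lit 1686187215) (nat_lit 336) (nat_lit 2015256916) (nat_lit 84) (nat_lit 7273911155) (nat_lit 38) (nat_lit 5) (nat_lit 42) (nat_lit 5) (nat_lit 39) (nat_lit 4) (nat_lit 341) (nat_lit 265) (nat_lit 258)))) (XT.nd (nat_lit 94) (nat_lit 252) (nat_lit 0) (XT.lf (nat_lit 0) (nat_lit 3140435262) (nat_lit 252) (nat_lit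 1422268894) (nat_lit 336) (nat_lit 6628760266) (nat_lit 35) (nat_lit 5) (nat_lit 38) (nat_lit 5) (nat_lit 39) (nat_lit 4) (nat_lit 342) (nat_lit 265) (nat_lit 257)) (XT.nd (nat_lit 94) (nat_lit 252) (nat_lit 0) (XT.lf (nat_lit 0) (nat_lit 7490176307) (nat_lit 336) (nat_lit 3023352556) (nat_lit 0) (nat_lit 902117541) (nat_lit 35) (nat_lit 5) (nat_lit 39) (nat_lit 4) (nat_lit 35) (nat_lit 4) (nat_lit 343) (nat_lit 265) (nat_lit 256)) (XT.lf (nat_lit 0) (nat_lit 2091765092) (nat_lit 252) (nat_lit 8385328133) (nat_lit 252) (nat_lit 1170838380) (nat_lit 32) (nat_lit 4) (nat_lit 35) (nat_lit 5) (nat_lit 35) (nat_lit 4) (nat_lit 344) (nat_lit 265) (nat_lit 255))))))))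
noncomputable def xc34 : XT := (XT.nd (nat_lit 2256) (nat_lit 588) (nat_lit 0) (XT.nd (nat_lit 1128) (nat_lit 672) (nat_lit 0) (XT.nd (nat_lit 564) (nat_lit 420) (nat_lit 0) (XT.nd (nat_lit 282) (nat_lit 336) (nat_lit 0) (XT.nd (nat_lit 94) (nat_lit 168) (nat_lit 0) (XT.lf (nat_lit 0) (nat_lit 1601048438) (nat_lit 336) (nat_lit 4570355900) (nat_lit 84) (nat_lit 5716741968) (nat_lit 31) (nat_lit 5) (nat_lit 35) (nat_lit 5) (nat_lit 32) (nat_lit 4) (nat_lit 345) (nat_lit 265) (nat_lit 254)) (XT.nd (nat_lit 94) (nat_lit 0) (nat_lit 0) (XT.lf (nat_lit 0) (nat_lit 473912043) (nat_lit 168) (nat_lit 3900939619) (nat_lit 252) (nat_lit 7762602242) (nat_lit 29) (nat_lit 5) (nat_lit 31) (nat_lit 5) (nat_lit 32) (nat_lit 4) (nat_lit 346) (nat_lit 265) (nat_lit 253)) (XT.lf (nat_lit 0) (nat_lit 5678713673) (nat_lit 168) (nat_lit 1540258241) (nat_lit 252) (nat_lit 5176165941) (nat_lit 29) (nat_lit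 5) (nat_lit 31) (nat_lit 5) (nat_lit 32) (nat_lit 4) (nat_lit 347) (nat_lit 265) (nat_lit 252)))) (XT.nd (nat_lit 94) (nat_lit 336) (nat_lit 0) (XT.lf (nat_lit 0) (nat_lit 10098371711) (nat_lit 252) (nat_lit 1716530468) (nat_lit 0) (nat_lit 847704513) (nat_lit 29) (nat_lit 5) (nat_lit 32) (nat_lit 4) (nat_lit 29) (nat_lit 4) (nat_lit 348) (nat_lit 265) (nat_lit 251)) (XT.nd (nat_lit 94) (nat_lit 0) (nat_lit 0) (XT.lf (nat_lit 0) (nat_lit 115425166) (nat_lit 336) (nat_lit 9537819057) (nat_lit 84) (nat_lit 3285561212) (nat_lit 25) (nat_lit 5) (nat_lit 29) (nat_lit 5) (nat_lit 26) (nat_lit 4) (nat_lit 349) (nat_lit 265) (nat_lit 250)) (XT.lf (nat_lit 0) (nat_lit 2783273217) (nat_lit 336) (nat_lit 4625317213) (nat_lit 84) (nat_lit 5815596401) (nat_lit 25) (nat_lit 5) (nat_lit 29) (nat_lit 5) (nat_lit 26) (nat_lit 4) (nat_lit 350) (nat_lit 265) (nat_lit 249))))) (XT.nd (nat_lit 282) (nat_lit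 252) (nat_lit 0) (XT.nd (nat_lit 94) (nat_lit 0) (nat_lit 0) (XT.lf (nat_lit 0) (nat_lit 359981309) (nat_lit 168) (nat_lit 5119493186) (nat_lit 252) (nat_lit 8040764493) (nat_lit 23) (nat_lit 5) (nat_lit 25) (nat_lit 5) (nat_lit 26) (nat_lit 4) (nat_lit 351) (nat_lit 265) (nat_lit 248)) (XT.nd (nat_lit 94) (nat_lit 0) (nat_lit 0) (XT.lf (nat_lit 0) (nat_lit 5512012883) (nat_lit 168) (nat_lit 2738492604) (nat_lit 252) (nat_lit 5575369505) (nat_lit 23) (nat_lit 5) (nat_lit 25) (nat_lit 5) (nat_lit 26) (nat_lit 4) (nat_lit 352) (nat_lit 265) (nat_lit 247)) (XT.lf (nat_lit 0) (nat_lit 10740473734) (nat_lit 168) (nat_lit 311648167) (nat_lit 252) (nat_lit 3090709470) (nat_lit 23) (nat_lit 5) (nat_lit 25) (nat_lit 5) (nat_lit 26) (nat_lit 4) (nat_lit 353) (nat_lit 265) (nat_lit 246)))) (XT.nd (nat_lit 94) (nat_lit 84) (nat_lit 0) (XT.lf (nat_lit 0) (nat_lit 1589396341) (nat_lit 168) (nat_lit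 12334766030) (nat_lit 168) (nat_lit 546087146) (nat_lit 21) (nat_lit 4) (nat_lit 23) (nat_lit 5) (nat_lit 23) (nat_lit 4) (nat_lit 354) (nat_lit 265) (nat_lit 245)) (XT.nd (nat_lit 94) (nat_lit 0) (nat_lit 0) (XT.lf (nat_lit 0) (nat_lit 2020854387) (nat_lit 252) (nat_lit 8105545175) (nat_lit 84) (nat_lit 4681354573) (nat_lit 20) (nat_lit 5) (nat_lit 23) (nat_lit 5) (nat_lit 21) (nat_lit 4) (nat_lit 355) (nat_lit 265) (nat_lit 244)) (XT.lf (nat_lit 0) (nat_lit 4603871420) (nat_lit 252) (nat_lit 3267993886) (nat_lit 84) (nat_lit 7285415594) (nat_lit 20) (nat_lit 5) (nat_lit 23) (nat_lit 5) (nat_lit 21) (nat_lit 4) (nat_lit 356) (nat_lit 265) (nat_lit 243)))))) (XT.nd (nat_lit 564) (nat_lit 252) (nat_lit 0) (XT.nd (nat_lit 282) (nat_lit 252) (nat_lit 0) (XT.nd (nat_lit 94) (nat_lit 0) (nat_lit 0) (XT.lf (nat_lit 0) (nat_lit 1675484321) (nat_lit 168) (nat_lit 5557510725) (nat_lit 252) (nat_lit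 8285813247) (nat_lit 18) (nat_lit 5) (nat_lit 20) (nat_lit 5) (nat_lit 21) (nat_lit 4) (nat_lit 357) (nat_lit 265) (nat_lit 242)) (XT.nd (nat_lit 94) (nat_lit 0) (nat_lit 0) (XT.lf (nat_lit 0) (nat_lit 6764483258) (nat_lit 168) (nat_lit 3163418609) (nat_lit 252) (nat_lit 5964237421) (nat_lit 18) (nat_lit 5) (nat_lit 20) (nat_lit 5) (nat_lit 21) (nat_lit 4) (nat_lit 358) (nat_lit 265) (nat_lit 241)) (XT.lf (nat_lit 0) (nat_lit 11936549750) (nat_lit 168) (nat_lit 721468566) (nat_lit 252) (nat_lit 3620629206) (nat_lit 18) (nat_lit 5) (nat_lit 20) (nat_lit 5) (nat_lit 21) (nat_lit 4) (nat_lit 359) (nat_lit 265) (nat_lit 240)))) (XT.nd (nat_lit 94) (nat_lit 84) (nat_lit 0) (XT.lf (nat_lit 0) (nat_lit 510532815) (nat_lit 168) (nat_lit 14937985606) (nat_lit 168) (nat_lit 1229473331) (nat_lit 16) (nat_lit 4) (nat_lit 18) (nat_lit 5) (nat_lit 18) (nat_lit 4) (nat_lit 360) (nat_lit 265) (nat_lit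 239)) (XT.nd (nat_lit 94) (nat_lit 0) (nat_lit 0) (XT.lf (nat_lit 0) (nat_lit 1217062434) (nat_lit 252) (nat_lit 11576831537) (nat_lit 84) (nat_lit 4295347323) (nat_lit 15) (nat_lit 5) (nat_lit 18) (nat_lit 5) (nat_lit 16) (nat_lit 4) (nat_lit 361) (nat_lit 265) (nat_lit 238)) (XT.lf (nat_lit 0) (nat_lit 3668303092) (nat_lit 252) (nat_lit 6928306540) (nat_lit 84) (nat_lit 6917747208) (nat_lit 15) (nat_lit 5) (nat_lit 18) (nat_lit 5) (nat_lit 16) (nat_lit 4) (nat_lit 362) (nat_lit 265) (nat_lit 237))))) (XT.nd (nat_lit 282) (nat_lit 168) (nat_lit 0) (XT.nd (nat_lit 94) (nat_lit 84) (nat_lit 0) (XT.lf (nat_lit 0) (nat_lit 6151304603) (nat_lit 252) (nat_lit 2205354505) (nat_lit 84) (nat_lit 9597453626) (nat_lit 15) (nat_lit 5) (nat_lit 18) (nat_lit 5) (nat_lit 16) (nat_lit 4) (nat_lit 363) (nat_lit 265) (nat_lit 236)) (XT.nd (nat_lit 94) (nat_lit 0) (nat_lit 0) (XT.lf (nat_lit 0) (nat_lit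 2649814713) (nat_lit 84) (nat_lit 6044853161) (nat_lit 168) (nat_lit 9713436120) (nat_lit 14) (nat_lit 5) (nat_lit 15) (nat_lit 5) (nat_lit 16) (nat_lit 4) (nat_lit 364) (nat_lit 265) (nat_lit 235)) (XT.lf (nat_lit 0) (nat_lit 7635348554) (nat_lit 84) (nat_lit 3662274664) (nat_lit 168) (nat_lit 7579227920) (nat_lit 14) (nat_lit 5) (nat_lit 15) (nat_lit 5) (nat_lit 16) (nat_lit 4) (nat_lit 365) (nat_lit 265) (nat_lit 234)))) (XT.nd (nat_lit 94) (nat_lit 168) (nat_lit 0) (XT.lf (nat_lit 0) (nat_lit 12710547444) (nat_lit 84) (nat_lit 1229722184) (nat_lit 168) (nat_lit 5421213604) (nat_lit 14) (nat_lit 5) (nat_lit 15) (nat_lit 5) (nat_lit 16) (nat_lit 4) (nat_lit 366) (nat_lit 265) (nat_lit 233)) (XT.nd (nat_lit 94) (nat_lit 168) (nat_lit 0) (XT.lf (nat_lit 0) (nat_lit 16637520794) (nat_lit 168) (nat_lit 1994760469) (nat_lit 0) (nat_lit 1229784776) (nat_lit 14) (nat_lit 5) (nat_lit 16) (nat_lit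 4) (nat_lit 14) (nat_lit 4) (nat_lit 367) (nat_lit 265) (nat_lit 232)) (XT.lf (nat_lit 0) (nat_lit 2787241989) (nat_lit 168) (nat_lit 16632576773) (nat_lit 168) (nat_lit 958381627) (nat_lit 12) (nat_lit 4) (nat_lit 14) (nat_lit 5) (nat_lit 14) (nat_lit 4) (nat_lit 368) (nat_lit 265) (nat_lit 231))))))) (XT.nd (nat_lit 1128) (nat_lit 168) (nat_lit 0) (XT.nd (nat_lit 564) (nat_lit 252) (nat_lit 0) (XT.nd (nat_lit 282) (nat_lit 84) (nat_lit 0) (XT.nd (nat_lit 94) (nat_lit 0) (nat_lit 0) (XT.lf (nat_lit 0) (nat_lit 1332599642) (nat_lit 252) (nat_lit 13226132536) (nat_lit 84) (nat_lit 6351799946) (nat_lit 11) (nat_lit 5) (nat_lit 14) (nat_lit 5) (nat_lit 12) (nat_lit 4) (nat_lit 369) (nat_lit 265) (nat_lit 230)) (XT.nd (nat_lit 94) (nat_lit 0) (nat_lit 0) (XT.lf (nat_lit 0) (nat_lit 3637153930) (nat_lit 252) (nat_lit 8796259076) (nat_lit 84) (nat_lit 9026884057) (nat_lit 11) (nat_lit 5) (nat_lit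 14) (nat_lit 5) (nat_lit 12) (nat_lit 4) (nat_lit 370) (nat_lit 265) (nat_lit 229)) (XT.lf (nat_lit 0) (nat_lit 5976738576) (nat_lit 252) (nat_lit 4287701649) (nat_lit 84) (nat_lit 11763862141) (nat_lit 11) (nat_lit 5) (nat_lit 14) (nat_lit 5) (nat_lit 12) (nat_lit 4) (nat_lit 371) (nat_lit 265) (nat_lit 228)))) (XT.nd (nat_lit 94) (nat_lit 0) (nat_lit 0) (XT.lf (nat_lit 0) (nat_lit 309987754) (nat_lit 84) (nat_lit 8046621682) (nat_lit 168) (nat_lit 14258372713) (nat_lit 10) (nat_lit 5) (nat_lit 11) (nat_lit 5) (nat_lit 12) (nat_lit 4) (nat_lit 372) (nat_lit 265) (nat_lit 227)) (XT.nd (nat_lit 94) (nat_lit 0) (nat_lit 0) (XT.lf (nat_lit 0) (nat_lit 5084799533) (nat_lit 84) (nat_lit 5735398888) (nat_lit 168) (nat_lit 12399407211) (nat_lit 10) (nat_lit 5) (nat_lit 11) (nat_lit 5) (nat_lit 12) (nat_lit 4) (nat_lit 373) (nat_lit 265) (nat_lit 226)) (XT.lf (nat_lit 0) (nat_lit 9953020372)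 (nat_lit 84) (nat_lit 3373372356) (nat_lit 168) (nat_lit 10517689347) (nat_lit 10) (nat_lit 5) (nat_lit 11) (nat_lit 5) (nat_lit 12) (nat_lit 4) (nat_lit 374) (nat_lit 265) (nat_lit 225))))) (XT.nd (nat_lit 282) (nat_lit 252) (nat_lit 0) (XT.nd (nat_lit 94) (nat_lit 0) (nat_lit 0) (XT.lf (nat_lit 0) (nat_lit 14919187963) (nat_lit 84) (nat_lit 958340427) (nat_lit 168) (nat_lit 8611465161) (nat_lit 10) (nat_lit 5) (nat_lit 11) (nat_lit 5) (nat_lit 12) (nat_lit 4) (nat_lit 375) (nat_lit 265) (nat_lit 224)) (XT.nd (nat_lit 94) (nat_lit 0) (nat_lit 0) (XT.lf (nat_lit 0) (nat_lit 18490982047) (nat_lit 168) (nat_lit 5182008606) (nat_lit 0) (nat_lit 1481485576) (nat_lit 10) (nat_lit 5) (nat_lit 12) (nat_lit 4) (nat_lit 10) (nat_lit 4) (nat_lit 376) (nat_lit 265) (nat_lit 223)) (XT.lf (nat_lit 0) (nat_lit 21164254866) (nat_lit 168) (nat_lit 718646024) (nat_lit 0) (nat_lit 3958402497) (nat_lit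 10) (nat_lit 5) (nat_lit 12) (nat_lit 4) (nat_lit 10) (nat_lit 4) (nat_lit 377) (nat_lit 265) (nat_lit 222)))) (XT.nd (nat_lit 94) (nat_lit 84) (nat_lit 0) (XT.lf (nat_lit 0) (nat_lit 3912783194) (nat_lit 168) (nat_lit 20016363861) (nat_lit 168) (nat_lit 2620059602) (nat_lit 8) (nat_lit 4) (nat_lit 10) (nat_lit 5) (nat_lit 10) (nat_lit 4) (nat_lit 378) (nat_lit 265) (nat_lit 221)) (XT.nd (nat_lit 94) (nat_lit 84) (nat_lit 0) (XT.lf (nat_lit 0) (nat_lit 8654387584) (nat_lit 168) (nat_lit 18103218736) (nat_lit 168) (nat_lit 522189075) (nat_lit 8) (nat_lit 4) (nat_lit 10) (nat_lit 5) (nat_lit 10) (nat_lit 4) (nat_lit 379) (nat_lit 265) (nat_lit 220)) (XT.lf (nat_lit 0) (nat_lit 1578558896) (nat_lit 252) (nat_lit 14554147639) (nat_lit 84) (nat_lit 11900774168) (nat_lit 7) (nat_lit 5) (nat_lit 10) (nat_lit 5) (nat_lit 8) (nat_lit 4) (nat_lit 380) (nat_lit 265) (nat_lit 219)))))) (XT.nd (nat_lit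 564) (nat_lit 84) (nat_lit 0) (XT.nd (nat_lit 282) (nat_lit 84) (nat_lit 0) (XT.nd (nat_lit 94) (nat_lit 0) (nat_lit 0) (XT.lf (nat_lit 0) (nat_lit 3705358148) (nat_lit 252) (nat_lit 10408402160) (nat_lit 84) (nat_lit 14697528612) (nat_lit 7) (nat_lit 5) (nat_lit 10) (nat_lit 5) (nat_lit 8) (nat_lit 4) (nat_lit 381) (nat_lit 265) (nat_lit 218)) (XT.nd (nat_lit 94) (nat_lit 0) (nat_lit 0) (XT.lf (nat_lit 0) (nat_lit 5870712023) (nat_lit 252) (nat_lit 6179126925) (nat_lit 84) (nat_lit 17564266681) (nat_lit 7) (nat_lit 5) (nat_lit 10) (nat_lit 5) (nat_lit 8) (nat_lit 4) (nat_lit 382) (nat_lit 265) (nat_lit 217)) (XT.lf (nat_lit 0) (nat_lit 8076638861) (nat_lit 252) (nat_lit 1862379807) (nat_lit 84) (nat_lit 20503660473) (nat_lit 7) (nat_lit 5) (nat_lit 10) (nat_lit 5) (nat_lit 8) (nat_lit 4) (nat_lit 383) (nat_lit 265) (nat_lit 216)))) (XT.nd (nat_lit 94) (nat_lit 0) (nat_lit 0) (XT.lf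 (nat_lit 0) (nat_lit 2598211016) (nat_lit 84) (nat_lit 7752758373) (nat_lit 168) (nat_lit 20946013372) (nat_lit 6) (nat_lit 5) (nat_lit 7) (nat_lit 5) (nat_lit 8) (nat_lit 4) (nat_lit 384) (nat_lit 265) (nat_lit 215)) (XT.nd (nat_lit 94) (nat_lit 0) (nat_lit 0) (XT.lf (nat_lit 0) (nat_lit 7194666500) (nat_lit 84) (nat_lit 5495181255) (nat_lit 168) (nat_lit 19488150282) (nat_lit 6) (nat_lit 5) (nat_lit 7) (nat_lit 5) (nat_lit 8) (nat_lit 4) (nat_lit 385) (nat_lit 265) (nat_lit 214)) (XT.lf (nat_lit 0) (nat_lit 11892976675) (nat_lit 84) (nat_lit 3183622442) (nat_lit 168) (nat_lit 18010531555) (nat_lit 6) (nat_lit 5) (nat_lit 7) (nat_lit 5) (nat_lit 8) (nat_lit 4) (nat_lit 386) (nat_lit 265) (nat_lit 213))))) (XT.nd (nat_lit 282) (nat_lit 84) (nat_lit 0) (XT.nd (nat_lit 94) (nat_lit 0) (nat_lit 0) (XT.lf (nat_lit 0) (nat_lit 16697520858) (nat_lit 84) (nat_lit 815927319) (nat_lit 168) (nat_lit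 16511779895) (nat_lit 6) (nat_lit 5) (nat_lit 7) (nat_lit 5) (nat_lit 8) (nat_lit 4) (nat_lit 387) (nat_lit 265) (nat_lit 212)) (XT.nd (nat_lit 94) (nat_lit 0) (nat_lit 0) (XT.lf (nat_lit 0) (nat_lit 20018638834) (nat_lit 168) (nat_lit 13396359758) (nat_lit 0) (nat_lit 1577670903) (nat_lit 6) (nat_lit 5) (nat_lit 8) (nat_lit 4) (nat_lit 6) (nat_lit 4) (nat_lit 388) (nat_lit 265) (nat_lit 211)) (XT.lf (nat_lit 0) (nat_lit 22587214103) (nat_lit 168) (nat_lit 9389155113) (nat_lit 0) (nat_lit 4014213534) (nat_lit 6) (nat_lit 5) (nat_lit 8) (nat_lit 4) (nat_lit 6) (nat_lit 4) (nat_lit 389) (nat_lit 265) (nat_lit 210)))) (XT.nd (nat_lit 94) (nat_lit 84) (nat_lit 0) (XT.lf (nat_lit 0) (nat_lit 25213474067) (nat_lit 168) (nat_lit 5294264048) (nat_lit 0) (nat_lit 6512410803) (nat_lit 6) (nat_lit 5) (nat_lit 8) (nat_lit 4) (nat_lit 6) (nat_lit 4) (nat_lit 390) (nat_lit 265) (nat_lit 209)) (XT.nd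 (nat_lit 94) (nat_lit 84) (nat_lit 0) (XT.lf (nat_lit 0) (nat_lit 27899866674) (nat_lit 168) (nat_lit 1107869693) (nat_lit 0) (nat_lit 9074591290) (nat_lit 6) (nat_lit 5) (nat_lit 8) (nat_lit 4) (nat_lit 6) (nat_lit 4) (nat_lit 391) (nat_lit 265) (nat_lit 208)) (XT.lf (nat_lit 0) (nat_lit 3239192619) (nat_lit 84) (nat_lit 27441836497) (nat_lit 84) (nat_lit 8496083790) (nat_lit 5) (nat_lit 4) (nat_lit 6) (nat_lit 5) (nat_lit 6) (nat_lit 4) (nat_lit 392) (nat_lit 265) (nat_lit 207))))))))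
noncomputable def xc35 : XT := (XT.nd (nat_lit 48974) (nat_lit 0) (nat_lit 1260) (XT.nd (nat_lit 1128) (nat_lit 0) (nat_lit 0) (XT.nd (nat_lit 564) (nat_lit 84) (nat_lit 0) (XT.nd (nat_lit 282) (nat_lit 84) (nat_lit 0) (XT.nd (nat_lit 94) (nat_lit 0) (nat_lit 0) (XT.lf (nat_lit 0) (nat_lit 7710475335) (nat_lit 84) (nat_lit 25829137735) (nat_lit 84) (nat_lit 6766530206) (nat_lit 5) (nat_lit 4) (nat_lit 6) (nat_lit 5) (nat_lit 6) (nat_lit 4) (nat_lit 393) (nat_lit 265) (nat_lit 206)) (XT.nd (nat_lit 94) (nat_lit 0) (nat_lit 0) (XT.lf (nat_lit 0) (nat_lit 12287366084) (nat_lit 84) (nat_lit 24179700767) (nat_lit 84) (nat_lit 5003751993) (nat_lit 5) (nat_lit 4) (nat_lit 6) (nat_lit 5) (nat_lit 6) (nat_lit 4) (nat_lit 394) (nat_lit 265) (nat_lit 205)) (XT.lf (nat_lit 0) (nat_lit 16974131008) (nat_lit 84) (nat_lit 22491988144) (nat_lit 84) (nat_lit 3206106059) (nat_lit 5) (nat_lit 4) (nat_lit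 6) (nat_lit 5) (nat_lit 6) (nat_lit 4) (nat_lit 395) (nat_lit 265) (nat_lit 204)))) (XT.nd (nat_lit 94) (nat_lit 84) (nat_lit 0) (XT.lf (nat_lit 0) (nat_lit 21775138662) (nat_lit 84) (nat_lit 20764426741) (nat_lit 84) (nat_lit 1371916808) (nat_lit 5) (nat_lit 4) (nat_lit 6) (nat_lit 5) (nat_lit 6) (nat_lit 4) (nat_lit 396) (nat_lit 265) (nat_lit 203)) (XT.nd (nat_lit 94) (nat_lit 0) (nat_lit 0) (XT.lf (nat_lit 0) (nat_lit 490440944) (nat_lit 168) (nat_lit 18499846149) (nat_lit 84) (nat_lit 26199303948) (nat_lit 4) (nat_lit 5) (nat_lit 6) (nat_lit 5) (nat_lit 5) (nat_lit 4) (nat_lit 397) (nat_lit 265) (nat_lit 202)) (XT.lf (nat_lit 0) (nat_lit 2364350039) (nat_lit 168) (nat_lit 14794248875) (nat_lit 84) (nat_lit 29348863985) (nat_lit 4) (nat_lit 5) (nat_lit 6) (nat_lit 5) (nat_lit 5) (nat_lit 4) (nat_lit 398) (nat_lit 265) (nat_lit 201))))) (XT.nd (nat_lit 282) (nat_lit 84) (nat_lit 0)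 (XT.nd (nat_lit 94) (nat_lit 0) (nat_lit 0) (XT.lf (nat_lit 0) (nat_lit 4279198222) (nat_lit 168) (nat_lit 11002488139) (nat_lit 84) (nat_lit 32585061716) (nat_lit 4) (nat_lit 5) (nat_lit 6) (nat_lit 5) (nat_lit 5) (nat_lit 4) (nat_lit 399) (nat_lit 265) (nat_lit 200)) (XT.nd (nat_lit 94) (nat_lit 0) (nat_lit 0) (XT.lf (nat_lit 0) (nat_lit 6236770333) (nat_lit 168) (nat_lit 7121029623) (nat_lit 84) (nat_lit 35910913618) (nat_lit 4) (nat_lit 5) (nat_lit 6) (nat_lit 5) (nat_lit 5) (nat_lit 4) (nat_lit 400) (nat_lit 265) (nat_lit 199)) (XT.lf (nat_lit 0) (nat_lit 8238891034) (nat_lit 168) (nat_lit 3146255400) (nat_lit 84) (nat_lit 39329519731) (nat_lit 4) (nat_lit 5) (nat_lit 6) (nat_lit 5) (nat_lit 5) (nat_lit 4) (nat_lit 401) (nat_lit 265) (nat_lit 198)))) (XT.nd (nat_lit 94) (nat_lit 0) (nat_lit 0) (XT.lf (nat_lit 0) (nat_lit 944570424) (nat_lit 84) (nat_lit 9352226342) (nat_lit 168)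 (nat_lit 41908866388) (nat_lit 3) (nat_lit 5) (nat_lit 4) (nat_lit 5) (nat_lit 5) (nat_lit 4) (nat_lit 402) (nat_lit 265) (nat_lit 197)) (XT.nd (nat_lit 94) (nat_lit 0) (nat_lit 0) (XT.lf (nat_lit 0) (nat_lit 5202978647) (nat_lit 84) (nat_lit 7232921758) (nat_lit 168) (nat_lit 41306465564) (nat_lit 3) (nat_lit 5) (nat_lit 4) (nat_lit 5) (nat_lit 5) (nat_lit 4) (nat_lit 403) (nat_lit 265) (nat_lit 196)) (XT.lf (nat_lit 0) (nat_lit 9568245087) (nat_lit 84) (nat_lit 5058097723) (nat_lit 168) (nat_lit 40700851613) (nat_lit 3) (nat_lit 5) (nat_lit 4) (nat_lit 5) (nat_lit 5) (nat_lit 4) (nat_lit 404) (nat_lit 265) (nat_lit 195)))))) (XT.nd (nat_lit 564) (nat_lit 0) (nat_lit 0) (XT.nd (nat_lit 282) (nat_lit 0) (nat_lit 0) (XT.nd (nat_lit 94) (nat_lit 0) (nat_lit 0) (XT.lf (nat_lit 0) (nat_lit 14044438629) (nat_lit 84) (nat_lit 2825727073) (nat_lit 168) (nat_lit 40091460040) (nat_lit 3) (nat_lit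 5) (nat_lit 4) (nat_lit 5) (nat_lit 5) (nat_lit 4) (nat_lit 405) (nat_lit 265) (nat_lit 194)) (XT.nd (nat_lit 94) (nat_lit 0) (nat_lit 0) (XT.lf (nat_lit 0) (nat_lit 18635731556) (nat_lit 84) (nat_lit 533729003) (nat_lit 168) (nat_lit 39477722827) (nat_lit 3) (nat_lit 5) (nat_lit 4) (nat_lit 5) (nat_lit 5) (nat_lit 4) (nat_lit 406) (nat_lit 265) (nat_lit 193)) (XT.lf (nat_lit 0) (nat_lit 21544425517) (nat_lit 168) (nat_lit 37057089991) (nat_lit 0) (nat_lit 1783363260) (nat_lit 3) (nat_lit 5) (nat_lit 5) (nat_lit 4) (nat_lit 3) (nat_lit 4) (nat_lit 407) (nat_lit 265) (nat_lit 192)))) (XT.nd (nat_lit 94) (nat_lit 0) (nat_lit 0) (XT.lf (nat_lit 0) (nat_lit 23985131637) (nat_lit 168) (nat_lit 34039205167) (nat_lit 0) (nat_lit 4152371222) (nat_lit 3) (nat_lit 5) (nat_lit 5) (nat_lit 4) (nat_lit 3) (nat_lit 4) (nat_lit 408) (nat_lit 265) (nat_lit 191)) (XT.nd (nat_lit 94) (nat_lit 0) (nat_lit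 0) (XT.lf (nat_lit 0) (nat_lit 26488559255) (nat_lit 168) (nat_lit 30949689715) (nat_lit 0) (nat_lit 6586256495) (nat_lit 3) (nat_lit 5) (nat_lit 5) (nat_lit 4) (nat_lit 3) (nat_lit 4) (nat_lit 409) (nat_lit 265) (nat_lit 190)) (XT.lf (nat_lit 0) (nat_lit 29057041828) (nat_lit 168) (nat_lit 27785663884) (nat_lit 0) (nat_lit 9087287715) (nat_lit 3) (nat_lit 5) (nat_lit 5) (nat_lit 4) (nat_lit 3) (nat_lit 4) (nat_lit 410) (nat_lit 265) (nat_lit 189))))) (XT.nd (nat_lit 47000) (nat_lit 0) (nat_lit 3612) (XT.nd (nat_lit 46812) (nat_lit 0) (nat_lit 4368) (XT.lf (nat_lit 0) (nat_lit 31692973451) (nat_lit 168) (nat_lit 24544178469) (nat_lit 0) (nat_lit 11657796106) (nat_lit 3) (nat_lit 5) (nat_lit 5) (nat_lit 4) (nat_lit 3) (nat_lit 4) (nat_lit 411) (nat_lit 265) (nat_lit 188)) (XT.nd (nat_lit 94) (nat_lit 0) (nat_lit 0) (XT.lf (nat_lit 0) (nat_lit 1141827389) (nat_lit 336) (nat_lit 1766656804)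 (nat_lit 336) (nat_lit 1766656804) (nat_lit 55) (nat_lit 4) (nat_lit 59) (nat_lit 5) (nat_lit 59) (nat_lit 4) (nat_lit 332) (nat_lit 266) (nat_lit 266)) (XT.lf (nat_lit 0) (nat_lit 7439100378) (nat_lit 336) (nat_lit 1499233080) (nat_lit 336) (nat_lit 567619350) (nat_lit 55) (nat_lit 4) (nat_lit 59) (nat_lit 5) (nat_lit 59) (nat_lit 4) (nat_lit 333) (nat_lit 266) (nat_lit 265)))) (XT.nd (nat_lit 94) (nat_lit 336) (nat_lit 0) (XT.lf (nat_lit 0) (nat_lit 2397192101) (nat_lit 420) (nat_lit 6652912507) (nat_lit 0) (nat_lit 617157381) (nat_lit 50) (nat_lit 5) (nat_lit 55) (nat_lit 4) (nat_lit 50) (nat_lit 4) (nat_lit 334) (nat_lit 266) (nat_lit 264)) (XT.nd (nat_lit 94) (nat_lit 336) (nat_lit 0) (XT.lf (nat_lit 0) (nat_lit 5401495736) (nat_lit 420) (nat_lit 1662023039) (nat_lit 0) (nat_lit 2771380847) (nat_lit 50) (nat_lit 5) (nat_lit 55) (nat_lit 4) (nat_lit 50) (nat_lit 4) (nat_lit 335)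 (nat_lit 266) (nat_lit 263)) (XT.lf (nat_lit 0) (nat_lit 3451627849) (nat_lit 336) (nat_lit 5006129254) (nat_lit 336) (nat_lit 1551494318) (nat_lit 46) (nat_lit 4) (nat_lit 50) (nat_lit 5) (nat_lit 50) (nat_lit 4) (nat_lit 336) (nat_lit 266) (nat_lit 262))))))) (XT.nd (nat_lit 1128) (nat_lit 924) (nat_lit 0) (XT.nd (nat_lit 564) (nat_lit 504) (nat_lit 0) (XT.nd (nat_lit 282) (nat_lit 588) (nat_lit 0) (XT.nd (nat_lit 94) (nat_lit 252) (nat_lit 0) (XT.lf (nat_lit 0) (nat_lit 1333542435) (nat_lit 420) (nat_lit 1545938715) (nat_lit 84) (nat_lit 7311102870) (nat_lit 45) (nat_lit 5) (nat_lit 50) (nat_lit 5) (nat_lit 46) (nat_lit 4) (nat_lit 337) (nat_lit 266) (nat_lit 261)) (XT.nd (nat_lit 94) (nat_lit 0) (nat_lit 0) (XT.lf (nat_lit 0) (nat_lit 3578163744) (nat_lit 252) (nat_lit 660245639) (nat_lit 336) (nat_lit 6140015210) (nat_lit 42) (nat_lit 5) (nat_lit 45) (nat_lit 5) (nat_lit 46) (nat_lit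 4) (nat_lit 338) (nat_lit 266) (nat_lit 260)) (XT.lf (nat_lit 0) (nat_lit 7193857315) (nat_lit 336) (nat_lit 1794350561) (nat_lit 0) (nat_lit 1585317168) (nat_lit 42) (nat_lit 5) (nat_lit 46) (nat_lit 4) (nat_lit 42) (nat_lit 4) (nat_lit 339) (nat_lit 266) (nat_lit 259)))) (XT.nd (nat_lit 94) (nat_lit 336) (nat_lit 0) (XT.lf (nat_lit 0) (nat_lit 3329758130) (nat_lit 252) (nat_lit 6881193635) (nat_lit 252) (nat_lit 564857831) (nat_lit 39) (nat_lit 4) (nat_lit 42) (nat_lit 5) (nat_lit 42) (nat_lit 4) (nat_lit 340) (nat_lit 266) (nat_lit 258)) (XT.nd (nat_lit 94) (nat_lit 252) (nat_lit 0) (XT.lf (nat_lit 0) (nat_lit 2239529176) (nat_lit 336) (nat_lit 2454365777) (nat_lit 84) (nat_lit 6291514224) (nat_lit 38) (nat_lit 5) (nat_lit 42) (nat_lit 5) (nat_lit 39) (nat_lit 4) (nat_lit 341) (nat_lit 266) (nat_lit 257)) (XT.lf (nat_lit 0) (nat_lit 2644554349) (nat_lit 252) (nat_lit 2433375533) (nat_lit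 336) (nat_lit 6124862965) (nat_lit 35) (nat_lit 5) (nat_lit 38) (nat_lit 5) (nat_lit 39) (nat_lit 4) (nat_lit 342) (nat_lit 266) (nat_lit 256))))) (XT.nd (nat_lit 282) (nat_lit 168) (nat_lit 0) (XT.nd (nat_lit 94) (nat_lit 336) (nat_lit 0) (XT.lf (nat_lit 0) (nat_lit 7859521653) (nat_lit 252) (nat_lit 104089002) (nat_lit 336) (nat_lit 3464749842) (nat_lit 35) (nat_lit 5) (nat_lit 38) (nat_lit 5) (nat_lit 39) (nat_lit 4) (nat_lit 343) (nat_lit 266) (nat_lit 255)) (XT.nd (nat_lit 94) (nat_lit 84) (nat_lit 0) (XT.lf (nat_lit 0) (nat_lit 1489320231) (nat_lit 252) (nat_lit 9422390826) (nat_lit 252) (nat_lit 750225379) (nat_lit 32) (nat_lit 4) (nat_lit 35) (nat_lit 5) (nat_lit 35) (nat_lit 4) (nat_lit 344) (nat_lit 266) (nat_lit 254)) (XT.lf (nat_lit 0) (nat_lit 1981482305) (nat_lit 336) (nat_lit 5237101289) (nat_lit 84) (nat_lit 4684503286) (nat_lit 31) (nat_lit 5) (nat_lit 35) (nat_lit 5)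 (nat_lit 32) (nat_lit 4) (nat_lit 345) (nat_lit 266) (nat_lit 253)))) (XT.nd (nat_lit 94) (nat_lit 168) (nat_lit 0) (XT.lf (nat_lit 0) (nat_lit 4719832839) (nat_lit 336) (nat_lit 247117957) (nat_lit 84) (nat_lit 7186622490) (nat_lit 31) (nat_lit 5) (nat_lit 35) (nat_lit 5) (nat_lit 32) (nat_lit 4) (nat_lit 346) (nat_lit 266) (nat_lit 252)) (XT.nd (nat_lit 94) (nat_lit 0) (nat_lit 0) (XT.lf (nat_lit 0) (nat_lit 4908318997) (nat_lit 168) (nat_lit 2622866155) (nat_lit 252) (nat_lit 4881165266) (nat_lit 29) (nat_lit 5) (nat_lit 31) (nat_lit 5) (nat_lit 32) (nat_lit 4) (nat_lit 347) (nat_lit 266) (nat_lit 251)) (XT.lf (nat_lit 0) (nat_lit 10141577930) (nat_lit 168) (nat_lit 231068718) (nat_lit 252) (nat_lit 2308423743) (nat_lit 29) (nat_lit 5) (nat_lit 31) (nat_lit 5) (nat_lit 32) (nat_lit 4) (nat_lit 348) (nat_lit 266) (nat_lit 250)))))) (XT.nd (nat_lit 564) (nat_lit 252) (nat_lit 0) (XT.nd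 (nat_lit 282) (nat_lit 336) (nat_lit 0) (XT.nd (nat_lit 94) (nat_lit 0) (nat_lit 0) (XT.lf (nat_lit 0) (nat_lit 325970584) (nat_lit 336) (nat_lit 10440618907) (nat_lit 84) (nat_lit 2191915043) (nat_lit 25) (nat_lit 5) (nat_lit 29) (nat_lit 5) (nat_lit 26) (nat_lit 4) (nat_lit 349) (nat_lit 266) (nat_lit 249)) (XT.nd (nat_lit 94) (nat_lit 0) (nat_lit 0) (XT.lf (nat_lit 0) (nat_lit 2965300112) (nat_lit 336) (nat_lit 5570826910) (nat_lit 84) (nat_lit 4708711464) (nat_lit 25) (nat_lit 5) (nat_lit 29) (nat_lit 5) (nat_lit 26) (nat_lit 4) (nat_lit 350) (nat_lit 266) (nat_lit 248)) (XT.lf (nat_lit 0) (nat_lit 5630269300) (nat_lit 336) (nat_lit 634206861) (nat_lit 84) (nat_lit 7277449099) (nat_lit 25) (nat_lit 5) (nat_lit 29) (nat_lit 5) (nat_lit 26) (nat_lit 4) (nat_lit 351) (nat_lit 266) (nat_lit 247)))) (XT.nd (nat_lit 94) (nat_lit 168) (nat_lit 0) (XT.lf (nat_lit 0) (nat_lit 4463777865)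 (nat_lit 168) (nat_lit 3903865542) (nat_lit 252) (nat_lit 5481025645) (nat_lit 23) (nat_lit 5) (nat_lit 25) (nat_lit 5) (nat_lit 26) (nat_lit 4) (nat_lit 352) (nat_lit 266) (nat_lit 246)) (XT.nd (nat_lit 94) (nat_lit 168) (nat_lit 0) (XT.lf (nat_lit 0) (nat_lit 9652465433) (nat_lit 168) (nat_lit 1490377210) (nat_lit 252) (nat_lit 3023664206) (nat_lit 23) (nat_lit 5) (nat_lit 25) (nat_lit 5) (nat_lit 26) (nat_lit 4) (nat_lit 353) (nat_lit 266) (nat_lit 245)) (XT.lf (nat_lit 0) (nat_lit 426675679) (nat_lit 168) (nat_lit 13539228585) (nat_lit 168) (nat_lit 529599685) (nat_lit 21) (nat_lit 4) (nat_lit 23) (nat_lit 5) (nat_lit 23) (nat_lit 4) (nat_lit 354) (nat_lit 266) (nat_lit 244))))) (XT.nd (nat_lit 282) (nat_lit 0) (nat_lit 0) (XT.nd (nat_lit 94) (nat_lit 168) (nat_lit 0) (XT.lf (nat_lit 0) (nat_lit 2011329617) (nat_lit 252) (nat_lit 9333174754) (nat_lit 84) (nat_lit 3489352225) (nat_lit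 20) (nat_lit 5) (nat_lit 23) (nat_lit 5) (nat_lit 21) (nat_lit 4) (nat_lit 355) (nat_lit 266) (nat_lit 243)) (XT.nd (nat_lit 94) (nat_lit 168) (nat_lit 0) (XT.lf (nat_lit 0) (nat_lit 4569438749) (nat_lit 252) (nat_lit 4533926984) (nat_lit 84) (nat_lit 6080845078) (nat_lit 20) (nat_lit 5) (nat_lit 23) (nat_lit 5) (nat_lit 21) (nat_lit 4) (nat_lit 356) (nat_lit 266) (nat_lit 242)) (XT.lf (nat_lit 0) (nat_lit 345605312) (nat_lit 168) (nat_lit 6815605526) (nat_lit 252) (nat_lit 8385738904) (nat_lit 18) (nat_lit 5) (nat_lit 20) (nat_lit 5) (nat_lit 21) (nat_lit 4) (nat_lit 357) (nat_lit 266) (nat_lit 241)))) (XT.nd (nat_lit 94) (nat_lit 0) (nat_lit 0) (XT.lf (nat_lit 0) (nat_lit 5397828566) (nat_lit 168) (nat_lit 4434491710) (nat_lit 252) (nat_lit 6088750209) (nat_lit 18) (nat_lit 5) (nat_lit 20) (nat_lit 5) (nat_lit 21) (nat_lit 4) (nat_lit 358) (nat_lit 266) (nat_lit 240)) (XT.nd (nat_lit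 94) (nat_lit 0) (nat_lit 0) (XT.lf (nat_lit 0) (nat_lit 10534225141) (nat_lit 168) (nat_lit 2005129738) (nat_lit 252) (nat_lit 3768989840) (nat_lit 18) (nat_lit 5) (nat_lit 20) (nat_lit 5) (nat_lit 21) (nat_lit 4) (nat_lit 359) (nat_lit 266) (nat_lit 239)) (XT.lf (nat_lit 0) (nat_lit 15289547414) (nat_lit 252) (nat_lit 954260257) (nat_lit 0) (nat_lit 465179759) (nat_lit 18) (nat_lit 5) (nat_lit 21) (nat_lit 4) (nat_lit 18) (nat_lit 4) (nat_lit 360) (nat_lit 266) (nat_lit 238))))))))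
noncomputable def xc36 : XT := (XT.nd (nat_lit 2256) (nat_lit 252) (nat_lit 0) (XT.nd (nat_lit 1128) (nat_lit 420) (nat_lit 0) (XT.nd (nat_lit 564) (nat_lit 252) (nat_lit 0) (XT.nd (nat_lit 282) (nat_lit 84) (nat_lit 0) (XT.nd (nat_lit 94) (nat_lit 0) (nat_lit 0) (XT.lf (nat_lit 0) (nat_lit 998711981) (nat_lit 252) (nat_lit 13125928400) (nat_lit 84) (nat_lit 2996699605) (nat_lit 15) (nat_lit 5) (nat_lit 18) (nat_lit 5) (nat_lit 16) (nat_lit 4) (nat_lit 361) (nat_lit 266) (nat_lit 237)) (XT.nd (nat_lit 94) (nat_lit 0) (nat_lit 0) (XT.lf (nat_lit 0) (nat_lit 3428176367) (nat_lit 252) (nat_lit 8511710266) (nat_lit 84) (nat_lit 5607288626) (nat_lit 15) (nat_lit 5) (nat_lit 18) (nat_lit 5) (nat_lit 16) (nat_lit 4) (nat_lit 362) (nat_lit 266) (nat_lit 236)) (XT.lf (nat_lit 0) (nat_lit 5890056373) (nat_lit 252) (nat_lit 3822033558) (nat_lit 84) (nat_lit 8275539308) (nat_lit 15) (nat_lit 5)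 (nat_lit 18) (nat_lit 5) (nat_lit 16) (nat_lit 4) (nat_lit 363) (nat_lit 266) (nat_lit 235)))) (XT.nd (nat_lit 94) (nat_lit 0) (nat_lit 0) (XT.lf (nat_lit 0) (nat_lit 966954978) (nat_lit 84) (nat_lit 7429284064) (nat_lit 168) (nat_lit 10046576074) (nat_lit 14) (nat_lit 5) (nat_lit 15) (nat_lit 5) (nat_lit 16) (nat_lit 4) (nat_lit 364) (nat_lit 266) (nat_lit 234)) (XT.nd (nat_lit 94) (nat_lit 0) (nat_lit 0) (XT.lf (nat_lit 0) (nat_lit 5920540764) (nat_lit 84) (nat_lit 5058466251) (nat_lit 168) (nat_lit 7933221807) (nat_lit 14) (nat_lit 5) (nat_lit 15) (nat_lit 5) (nat_lit 16) (nat_lit 4) (nat_lit 365) (nat_lit 266) (nat_lit 233)) (XT.lf (nat_lit 0) (nat_lit 10964752210) (nat_lit 84) (nat_lit 2637320835) (nat_lit 168) (nat_lit 5795434390) (nat_lit 14) (nat_lit 5) (nat_lit 15) (nat_lit 5) (nat_lit 16) (nat_lit 4) (nat_lit 366) (nat_lit 266) (nat_lit 232))))) (XT.nd (nat_lit 282) (nat_lit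 0) (nat_lit 0) (XT.nd (nat_lit 94) (nat_lit 252) (nat_lit 0) (XT.lf (nat_lit 0) (nat_lit 16104291051) (nat_lit 84) (nat_lit 163591056) (nat_lit 168) (nat_lit 3631221181) (nat_lit 14) (nat_lit 5) (nat_lit 15) (nat_lit 5) (nat_lit 16) (nat_lit 4) (nat_lit 367) (nat_lit 266) (nat_lit 231)) (XT.nd (nat_lit 94) (nat_lit 84) (nat_lit 0) (XT.lf (nat_lit 0) (nat_lit 921570160) (nat_lit 168) (nat_lit 18089952320) (nat_lit 168) (nat_lit 1404950731) (nat_lit 12) (nat_lit 4) (nat_lit 14) (nat_lit 5) (nat_lit 14) (nat_lit 4) (nat_lit 368) (nat_lit 266) (nat_lit 230)) (XT.lf (nat_lit 0) (nat_lit 876544621) (nat_lit 252) (nat_lit 15155415761) (nat_lit 84) (nat_lit 4917589862) (nat_lit 11) (nat_lit 5) (nat_lit 14) (nat_lit 5) (nat_lit 12) (nat_lit 4) (nat_lit 369) (nat_lit 266) (nat_lit 229)))) (XT.nd (nat_lit 94) (nat_lit 0) (nat_lit 0) (XT.lf (nat_lit 0) (nat_lit 3163171373) (nat_lit 252) (nat_lit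 10754415817) (nat_lit 84) (nat_lit 7582317678) (nat_lit 11) (nat_lit 5) (nat_lit 14) (nat_lit 5) (nat_lit 12) (nat_lit 4) (nat_lit 370) (nat_lit 266) (nat_lit 228)) (XT.nd (nat_lit 94) (nat_lit 0) (nat_lit 0) (XT.lf (nat_lit 0) (nat_lit 5485367527) (nat_lit 252) (nat_lit 6273863740) (nat_lit 84) (nat_lit 10309250861) (nat_lit 11) (nat_lit 5) (nat_lit 14) (nat_lit 5) (nat_lit 12) (nat_lit 4) (nat_lit 371) (nat_lit 266) (nat_lit 227)) (XT.lf (nat_lit 0) (nat_lit 7845297613) (nat_lit 252) (nat_lit 1709583186) (nat_lit 84) (nat_lit 13100931197) (nat_lit 11) (nat_lit 5) (nat_lit 14) (nat_lit 5) (nat_lit 12) (nat_lit 4) (nat_lit 372) (nat_lit 266) (nat_lit 226)))))) (XT.nd (nat_lit 564) (nat_lit 168) (nat_lit 0) (XT.nd (nat_lit 282) (nat_lit 168) (nat_lit 0) (XT.nd (nat_lit 94) (nat_lit 0) (nat_lit 0) (XT.lf (nat_lit 0) (nat_lit 3003187771) (nat_lit 84) (nat_lit 7271765556) (nat_lit 168) (nat_lit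 12986565048) (nat_lit 10) (nat_lit 5) (nat_lit 11) (nat_lit 5) (nat_lit 12) (nat_lit 4) (nat_lit 373) (nat_lit 266) (nat_lit 225)) (XT.nd (nat_lit 94) (nat_lit 0) (nat_lit 0) (XT.lf (nat_lit 0) (nat_lit 7845328800) (nat_lit 84) (nat_lit 4919693444) (nat_lit 168) (nat_lit 11121502492) (nat_lit 10) (nat_lit 5) (nat_lit 11) (nat_lit 5) (nat_lit 12) (nat_lit 4) (nat_lit 374) (nat_lit 266) (nat_lit 224)) (XT.lf (nat_lit 0) (nat_lit 12786200747) (nat_lit 84) (nat_lit 2514316627) (nat_lit 168) (nat_lit 9231432825) (nat_lit 10) (nat_lit 5) (nat_lit 11) (nat_lit 5) (nat_lit 12) (nat_lit 4) (nat_lit 375) (nat_lit 266) (nat_lit 223)))) (XT.nd (nat_lit 94) (nat_lit 168) (nat_lit 0) (XT.lf (nat_lit 0) (nat_lit 17830409020) (nat_lit 84) (nat_lit 53393043) (nat_lit 168) (nat_lit 7314594304) (nat_lit 10) (nat_lit 5) (nat_lit 11) (nat_lit 5) (nat_lit 12) (nat_lit 4) (nat_lit 376) (nat_lit 266) (nat_lit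 222)) (XT.nd (nat_lit 94) (nat_lit 168) (nat_lit 0) (XT.lf (nat_lit 0) (nat_lit 20541740992) (nat_lit 168) (nat_lit 2928285876) (nat_lit 0) (nat_lit 2415699411) (nat_lit 10) (nat_lit 5) (nat_lit 12) (nat_lit 4) (nat_lit 10) (nat_lit 4) (nat_lit 377) (nat_lit 266) (nat_lit 221)) (XT.lf (nat_lit 0) (nat_lit 1633762750) (nat_lit 168) (nat_lit 21635903173) (nat_lit 168) (nat_lit 3325136191) (nat_lit 8) (nat_lit 4) (nat_lit 10) (nat_lit 5) (nat_lit 10) (nat_lit 4) (nat_lit 378) (nat_lit 266) (nat_lit 220))))) (XT.nd (nat_lit 282) (nat_lit 84) (nat_lit 0) (XT.nd (nat_lit 94) (nat_lit 84) (nat_lit 0) (XT.lf (nat_lit 0) (nat_lit 6352141277) (nat_lit 168) (nat_lit 19731826163) (nat_lit 168) (nat_lit 1241888082) (nat_lit 8) (nat_lit 4) (nat_lit 10) (nat_lit 5) (nat_lit 10) (nat_lit 4) (nat_lit 379) (nat_lit 266) (nat_lit 219)) (XT.nd (nat_lit 94) (nat_lit 0) (nat_lit 0) (XT.lf (nat_lit 0) (nat_lit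 859463217) (nat_lit 252) (nat_lit 16918152085) (nat_lit 84) (nat_lit 10302601913) (nat_lit 7) (nat_lit 5) (nat_lit 10) (nat_lit 5) (nat_lit 8) (nat_lit 4) (nat_lit 380) (nat_lit 266) (nat_lit 218)) (XT.lf (nat_lit 0) (nat_lit 2972783319) (nat_lit 252) (nat_lit 12794557446) (nat_lit 84) (nat_lit 13091126045) (nat_lit 7) (nat_lit 5) (nat_lit 10) (nat_lit 5) (nat_lit 8) (nat_lit 4) (nat_lit 381) (nat_lit 266) (nat_lit 217)))) (XT.nd (nat_lit 94) (nat_lit 84) (nat_lit 0) (XT.lf (nat_lit 0) (nat_lit 5125063335) (nat_lit 252) (nat_lit 8586767021) (nat_lit 84) (nat_lit 15949881270) (nat_lit 7) (nat_lit 5) (nat_lit 10) (nat_lit 5) (nat_lit 8) (nat_lit 4) (nat_lit 382) (nat_lit 266) (nat_lit 216)) (XT.nd (nat_lit 94) (nat_lit 84) (nat_lit 0) (XT.lf (nat_lit 0) (nat_lit 7318309416) (nat_lit 252) (nat_lit 4290858709) (nat_lit 84) (nat_lit 18881532246) (nat_lit 7) (nat_lit 5) (nat_lit 10) (nat_lit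 5) (nat_lit 8) (nat_lit 4) (nat_lit 383) (nat_lit 266) (nat_lit 215)) (XT.lf (nat_lit 0) (nat_lit 99169774) (nat_lit 84) (nat_lit 9456379899) (nat_lit 168) (nat_lit 21790625582) (nat_lit 6) (nat_lit 5) (nat_lit 7) (nat_lit 5) (nat_lit 8) (nat_lit 4) (nat_lit 384) (nat_lit 266) (nat_lit 214))))))) (XT.nd (nat_lit 1128) (nat_lit 168) (nat_lit 0) (XT.nd (nat_lit 564) (nat_lit 84) (nat_lit 0) (XT.nd (nat_lit 282) (nat_lit 0) (nat_lit 0) (XT.nd (nat_lit 94) (nat_lit 0) (nat_lit 0) (XT.lf (nat_lit 0) (nat_lit 4675617661) (nat_lit 84) (nat_lit 7206682248) (nat_lit 168) (nat_lit 20345287415) (nat_lit 6) (nat_lit 5) (nat_lit 7) (nat_lit 5) (nat_lit 8) (nat_lit 4) (nat_lit 385) (nat_lit 266) (nat_lit 213)) (XT.nd (nat_lit 94) (nat_lit 0) (nat_lit 0) (XT.lf (nat_lit 0) (nat_lit 9354521826) (nat_lit 84) (nat_lit 4902765982) (nat_lit 168) (nat_lit 18879817013) (nat_lit 6) (nat_lit 5) (nat_lit 7)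 (nat_lit 5) (nat_lit 8) (nat_lit 4) (nat_lit 386) (nat_lit 266) (nat_lit 212)) (XT.lf (nat_lit 0) (nat_lit 14140243495) (nat_lit 84) (nat_lit 2542483611) (nat_lit 168) (nat_lit 17392848404) (nat_lit 6) (nat_lit 5) (nat_lit 7) (nat_lit 5) (nat_lit 8) (nat_lit 4) (nat_lit 387) (nat_lit 266) (nat_lit 211)))) (XT.nd (nat_lit 94) (nat_lit 0) (nat_lit 0) (XT.lf (nat_lit 0) (nat_lit 19037243464) (nat_lit 84) (nat_lit 123635104) (nat_lit 168) (nat_lit 15882995577) (nat_lit 6) (nat_lit 5) (nat_lit 7) (nat_lit 5) (nat_lit 8) (nat_lit 4) (nat_lit 388) (nat_lit 266) (nat_lit 210)) (XT.nd (nat_lit 94) (nat_lit 0) (nat_lit 0) (XT.lf (nat_lit 0) (nat_lit 21717424241) (nat_lit 168) (nat_lit 12016189184) (nat_lit 0) (nat_lit 2308565320) (nat_lit 6) (nat_lit 5) (nat_lit 8) (nat_lit 4) (nat_lit 6) (nat_lit 4) (nat_lit 389) (nat_lit 266) (nat_lit 209)) (XT.lf (nat_lit 0) (nat_lit 24333205911) (nat_lit 168)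 (nat_lit 7938746830) (nat_lit 0) (nat_lit 4800134870) (nat_lit 6) (nat_lit 5) (nat_lit 8) (nat_lit 4) (nat_lit 6) (nat_lit 4) (nat_lit 390) (nat_lit 266) (nat_lit 208))))) (XT.nd (nat_lit 282) (nat_lit 0) (nat_lit 0) (XT.nd (nat_lit 94) (nat_lit 84) (nat_lit 0) (XT.lf (nat_lit 0) (nat_lit 27009435284) (nat_lit 168) (nat_lit 3769276542) (nat_lit 0) (nat_lit 7355886921) (nat_lit 6) (nat_lit 5) (nat_lit 8) (nat_lit 4) (nat_lit 6) (nat_lit 4) (nat_lit 391) (nat_lit 266) (nat_lit 207)) (XT.nd (nat_lit 94) (nat_lit 0) (nat_lit 0) (XT.lf (nat_lit 0) (nat_lit 506309062) (nat_lit 84) (nat_lit 29247320473) (nat_lit 84) (nat_lit 9476917288) (nat_lit 5) (nat_lit 4) (nat_lit 6) (nat_lit 5) (nat_lit 6) (nat_lit 4) (nat_lit 392) (nat_lit 266) (nat_lit 206)) (XT.lf (nat_lit 0) (nat_lit 4961342772) (nat_lit 84) (nat_lit 27641148277) (nat_lit 84) (nat_lit 7757403848) (nat_lit 5) (nat_lit 4) (nat_lit 6)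 (nat_lit 5) (nat_lit 6) (nat_lit 4) (nat_lit 393) (nat_lit 266) (nat_lit 205)))) (XT.nd (nat_lit 94) (nat_lit 0) (nat_lit 0) (XT.lf (nat_lit 0) (nat_lit 9522473089) (nat_lit 84) (nat_lit 25998041635) (nat_lit 84) (nat_lit 6004363893) (nat_lit 5) (nat_lit 4) (nat_lit 6) (nat_lit 5) (nat_lit 6) (nat_lit 4) (nat_lit 394) (nat_lit 266) (nat_lit 204)) (XT.nd (nat_lit 94) (nat_lit 0) (nat_lit 0) (XT.lf (nat_lit 0) (nat_lit 14193951463) (nat_lit 84) (nat_lit 24316468998) (nat_lit 84) (nat_lit 4216163408) (nat_lit 5) (nat_lit 4) (nat_lit 6) (nat_lit 5) (nat_lit 6) (nat_lit 4) (nat_lit 395) (nat_lit 266) (nat_lit 203)) (XT.lf (nat_lit 0) (nat_lit 18980132202) (nat_lit 84) (nat_lit 22594862964) (nat_lit 84) (nat_lit 2391135602) (nat_lit 5) (nat_lit 4) (nat_lit 6) (nat_lit 5) (nat_lit 6) (nat_lit 4) (nat_lit 396) (nat_lit 266) (nat_lit 202)))))) (XT.nd (nat_lit 564) (nat_lit 84) (nat_lit 0) (XT.nd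 (nat_lit 282) (nat_lit 0) (nat_lit 0) (XT.nd (nat_lit 94) (nat_lit 84) (nat_lit 0) (XT.lf (nat_lit 0) (nat_lit 23885476529) (nat_lit 84) (nat_lit 20831618818) (nat_lit 84) (nat_lit 527579357) (nat_lit 5) (nat_lit 4) (nat_lit 6) (nat_lit 5) (nat_lit 6) (nat_lit 4) (nat_lit 397) (nat_lit 266) (nat_lit 201)) (XT.nd (nat_lit 94) (nat_lit 0) (nat_lit 0) (XT.lf (nat_lit 0) (nat_lit 1348514139) (nat_lit 168) (nat_lit 17662503169) (nat_lit 84) (nat_lit 27551966875) (nat_lit 4) (nat_lit 5) (nat_lit 6) (nat_lit 5) (nat_lit 5) (nat_lit 4) (nat_lit 398) (nat_lit 266) (nat_lit 200)) (XT.lf (nat_lit 0) (nat_lit 3255171103) (nat_lit 168) (nat_lit 13884453315) (nat_lit 84) (nat_lit 30782912042) (nat_lit 4) (nat_lit 5) (nat_lit 6) (nat_lit 5) (nat_lit 5) (nat_lit 4) (nat_lit 399) (nat_lit 266) (nat_lit 199)))) (XT.nd (nat_lit 94) (nat_lit 0) (nat_lit 0) (XT.lf (nat_lit 0) (nat_lit 5204798287) (nat_lit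 168) (nat_lit 10016293424) (nat_lit 84) (nat_lit 34103669312) (nat_lit 4) (nat_lit 5) (nat_lit 6) (nat_lit 5) (nat_lit 5) (nat_lit 4) (nat_lit 400) (nat_lit 266) (nat_lit 198)) (XT.nd (nat_lit 94) (nat_lit 0) (nat_lit 0) (XT.lf (nat_lit 0) (nat_lit 7199212949) (nat_lit 168) (nat_lit 6054417964) (nat_lit 84) (nat_lit 37517333979) (nat_lit 4) (nat_lit 5) (nat_lit 6) (nat_lit 5) (nat_lit 5) (nat_lit 4) (nat_lit 401) (nat_lit 266) (nat_lit 197)) (XT.lf (nat_lit 0) (nat_lit 9240274091) (nat_lit 168) (nat_lit 1995134053) (nat_lit 84) (nat_lit 41027087936) (nat_lit 4) (nat_lit 5) (nat_lit 6) (nat_lit 5) (nat_lit 5) (nat_lit 4) (nat_lit 402) (nat_lit 266) (nat_lit 196))))) (XT.nd (nat_lit 282) (nat_lit 0) (nat_lit 0) (XT.nd (nat_lit 94) (nat_lit 0) (nat_lit 0) (XT.lf (nat_lit 0) (nat_lit 2209865858) (nat_lit 84) (nat_lit 9141940481) (nat_lit 168) (nat_lit 42448258927) (nat_lit 3) (nat_lit 5)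 (nat_lit 4) (nat_lit 5) (nat_lit 5) (nat_lit 4) (nat_lit 403) (nat_lit 266) (nat_lit 195)) (XT.nd (nat_lit 94) (nat_lit 0) (nat_lit 0) (XT.lf (nat_lit 0) (nat_lit 6563120403) (nat_lit 84) (nat_lit 6971977564) (nat_lit 168) (nat_lit 41850028733) (nat_lit 3) (nat_lit 5) (nat_lit 4) (nat_lit 5) (nat_lit 5) (nat_lit 4) (nat_lit 404) (nat_lit 266) (nat_lit 194)) (XT.lf (nat_lit 0) (nat_lit 11027663224) (nat_lit 84) (nat_lit 4744321867) (nat_lit 168) (nat_lit 41247798902) (nat_lit 3) (nat_lit 5) (nat_lit 4) (nat_lit 5) (nat_lit 5) (nat_lit 4) (nat_lit 405) (nat_lit 266) (nat_lit 193)))) (XT.nd (nat_lit 94) (nat_lit 0) (nat_lit 0) (XT.lf (nat_lit 0) (nat_lit 15607655742) (nat_lit 84) (nat_lit 2456896983) (nat_lit 168) (nat_lit 40641008094) (nat_lit 3) (nat_lit 5) (nat_lit 4) (nat_lit 5) (nat_lit 5) (nat_lit 4) (nat_lit 406) (nat_lit 266) (nat_lit 192)) (XT.nd (nat_lit 94) (nat_lit 0) (nat_lit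 0) (XT.lf (nat_lit 0) (nat_lit 20307366989) (nat_lit 84) (nat_lit 107570791) (nat_lit 168) (nat_lit 40029090714) (nat_lit 3) (nat_lit 5) (nat_lit 4) (nat_lit 5) (nat_lit 5) (nat_lit 4) (nat_lit 407) (nat_lit 266) (nat_lit 191)) (XT.lf (nat_lit 0) (nat_lit 22848205346) (nat_lit 168) (nat_lit 37128504151) (nat_lit 0) (nat_lit 2259388856) (nat_lit 3) (nat_lit 5) (nat_lit 5) (nat_lit 4) (nat_lit 3) (nat_lit 4) (nat_lit 408) (nat_lit 266) (nat_lit 190))))))))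
noncomputable def xc37 : XT := (XT.nd (nat_lit 48786) (nat_lit 0) (nat_lit 588) (XT.nd (nat_lit 47658) (nat_lit 0) (nat_lit 1848) (XT.nd (nat_lit 47094) (nat_lit 0) (nat_lit 3276) (XT.nd (nat_lit 46812) (nat_lit 0) (nat_lit 4368) (XT.nd (nat_lit 94) (nat_lit 0) (nat_lit 0) (XT.lf (nat_lit 0) (nat_lit 25345453101) (nat_lit 168) (nat_lit 34049458713) (nat_lit 0) (nat_lit 4689185258) (nat_lit 3) (nat_lit 5) (nat_lit 5) (nat_lit 4) (nat_lit 3) (nat_lit 4) (nat_lit 409) (nat_lit 266) (nat_lit 189)) (XT.nd (nat_lit 94) (nat_lit 0) (nat_lit 0) (XT.lf (nat_lit 0) (nat_lit 27907941628) (nat_lit 168) (nat_lit 30895588085) (nat_lit 0) (nat_lit 7186250552) (nat_lit 3) (nat_lit 5) (nat_lit 5) (nat_lit 4) (nat_lit 3) (nat_lit 4) (nat_lit 410) (nat_lit 266) (nat_lit 188)) (XT.lf (nat_lit 0) (nat_lit 30538059432) (nat_lit 168) (nat_lit 27663952528) (nat_lit 0) (nat_lit 9752912262) (nat_lit 3) (nat_lit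 5) (nat_lit 5) (nat_lit 4) (nat_lit 3) (nat_lit 4) (nat_lit 411) (nat_lit 266) (nat_lit 187)))) (XT.nd (nat_lit 94) (nat_lit 336) (nat_lit 0) (XT.lf (nat_lit 0) (nat_lit 349121287) (nat_lit 420) (nat_lit 3830291401) (nat_lit 0) (nat_lit 349121287) (nat_lit 59) (nat_lit 5) (nat_lit 64) (nat_lit 4) (nat_lit 59) (nat_lit 4) (nat_lit 330) (nat_lit 267) (nat_lit 267)) (XT.nd (nat_lit 94) (nat_lit 336) (nat_lit 0) (XT.lf (nat_lit 0) (nat_lit 3700095325) (nat_lit 420) (nat_lit 2761404536) (nat_lit 0) (nat_lit 2739601569) (nat_lit 59) (nat_lit 5) (nat_lit 64) (nat_lit 4) (nat_lit 59) (nat_lit 4) (nat_lit 331) (nat_lit 267) (nat_lit 266)) (XT.lf (nat_lit 0) (nat_lit 2232177240) (nat_lit 336) (nat_lit 4505785386) (nat_lit 336) (nat_lit 2613677900) (nat_lit 55) (nat_lit 4) (nat_lit 59) (nat_lit 5) (nat_lit 59) (nat_lit 4) (nat_lit 332) (nat_lit 267) (nat_lit 265))))) (XT.nd (nat_lit 282) (nat_lit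 672) (nat_lit 0) (XT.nd (nat_lit 94) (nat_lit 336) (nat_lit 0) (XT.lf (nat_lit 0) (nat_lit 306092926) (nat_lit 420) (nat_lit 2174034818) (nat_lit 84) (nat_lit 7028405214) (nat_lit 54) (nat_lit 5) (nat_lit 59) (nat_lit 5) (nat_lit 55) (nat_lit 4) (nat_lit 333) (nat_lit 267) (nat_lit 264)) (XT.nd (nat_lit 94) (nat_lit 0) (nat_lit 0) (XT.lf (nat_lit 0) (nat_lit 2855319010) (nat_lit 336) (nat_lit 358595916) (nat_lit 420) (nat_lit 6457287121) (nat_lit 50) (nat_lit 5) (nat_lit 54) (nat_lit 5) (nat_lit 55) (nat_lit 4) (nat_lit 334) (nat_lit 267) (nat_lit 263)) (XT.lf (nat_lit 0) (nat_lit 6177528672) (nat_lit 420) (nat_lit 1871411026) (nat_lit 0) (nat_lit 1791280006) (nat_lit 50) (nat_lit 5) (nat_lit 55) (nat_lit 4) (nat_lit 50) (nat_lit 4) (nat_lit 335) (nat_lit 267) (nat_lit 262)))) (XT.nd (nat_lit 94) (nat_lit 336) (nat_lit 0) (XT.lf (nat_lit 0) (nat_lit 3188465594) (nat_lit 336) (nat_lit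 6006697769) (nat_lit 336) (nat_lit 820720638) (nat_lit 46) (nat_lit 4) (nat_lit 50) (nat_lit 5) (nat_lit 50) (nat_lit 4) (nat_lit 336) (nat_lit 267) (nat_lit 261)) (XT.nd (nat_lit 94) (nat_lit 252) (nat_lit 0) (XT.lf (nat_lit 0) (nat_lit 2013712011) (nat_lit 420) (nat_lit 1871810348) (nat_lit 84) (nat_lit 6312690065) (nat_lit 45) (nat_lit 5) (nat_lit 50) (nat_lit 5) (nat_lit 46) (nat_lit 4) (nat_lit 337) (nat_lit 267) (nat_lit 260)) (XT.lf (nat_lit 0) (nat_lit 3197258422) (nat_lit 252) (nat_lit 1682740122) (nat_lit 336) (nat_lit 5507355445) (nat_lit 42) (nat_lit 5) (nat_lit 45) (nat_lit 5) (nat_lit 46) (nat_lit 4) (nat_lit 338) (nat_lit 267) (nat_lit 259)))))) (XT.nd (nat_lit 564) (nat_lit 588) (nat_lit 0) (XT.nd (nat_lit 282) (nat_lit 504) (nat_lit 0) (XT.nd (nat_lit 94) (nat_lit 336) (nat_lit 0) (XT.lf (nat_lit 0) (nat_lit 7790957198) (nat_lit 336) (nat_lit 2221958926) (nat_lit 0)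 (nat_lit 571019328) (nat_lit 42) (nat_lit 5) (nat_lit 46) (nat_lit 4) (nat_lit 42) (nat_lit 4) (nat_lit 339) (nat_lit 267) (nat_lit 258)) (XT.nd (nat_lit 94) (nat_lit 84) (nat_lit 0) (XT.lf (nat_lit 0) (nat_lit 2845925459) (nat_lit 252) (nat_lit 7924013214) (nat_lit 252) (nat_lit 17561614) (nat_lit 39) (nat_lit 4) (nat_lit 42) (nat_lit 5) (nat_lit 42) (nat_lit 4) (nat_lit 340) (nat_lit 267) (nat_lit 257)) (XT.lf (nat_lit 0) (nat_lit 2742601558) (nat_lit 336) (nat_lit 3002099542) (nat_lit 84) (nat_lit 5253352498) (nat_lit 38) (nat_lit 5) (nat_lit 42) (nat_lit 5) (nat_lit 39) (nat_lit 4) (nat_lit 341) (nat_lit 267) (nat_lit 256)))) (XT.nd (nat_lit 94) (nat_lit 252) (nat_lit 0) (XT.lf (nat_lit 0) (nat_lit 2039250516) (nat_lit 252) (nat_lit 3503548189) (nat_lit 336) (nat_lit 5673913009) (nat_lit 35) (nat_lit 5) (nat_lit 38) (nat_lit 5) (nat_lit 39) (nat_lit 4) (nat_lit 342) (nat_lit 267)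 (nat_lit 255)) (XT.nd (nat_lit 94) (nat_lit 252) (nat_lit 0) (XT.lf (nat_lit 0) (nat_lit 7209302652) (nat_lit 252) (nat_lit 1187500545) (nat_lit 336) (nat_lit 3046545558) (nat_lit 35) (nat_lit 5) (nat_lit 38) (nat_lit 5) (nat_lit 39) (nat_lit 4) (nat_lit 343) (nat_lit 267) (nat_lit 254)) (XT.lf (nat_lit 0) (nat_lit 776014511) (nat_lit 252) (nat_lit 10520214203) (nat_lit 252) (nat_lit 382289696) (nat_lit 32) (nat_lit 4) (nat_lit 35) (nat_lit 5) (nat_lit 35) (nat_lit 4) (nat_lit 344) (nat_lit 267) (nat_lit 253))))) (XT.nd (nat_lit 282) (nat_lit 336) (nat_lit 0) (XT.nd (nat_lit 94) (nat_lit 168) (nat_lit 0) (XT.lf (nat_lit 0) (nat_lit 2311253479) (nat_lit 336) (nat_lit 6015375291) (nat_lit 84) (nat_lit 3593960004) (nat_lit 31) (nat_lit 5) (nat_lit 35) (nat_lit 5) (nat_lit 32) (nat_lit 4) (nat_lit 345) (nat_lit 267) (nat_lit 252)) (XT.nd (nat_lit 94) (nat_lit 168) (nat_lit 0) (XT.lf (nat_lit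 0) (nat_lit 5019777219) (nat_lit 336) (nat_lit 1068783169) (nat_lit 84) (nat_lit 6083516797) (nat_lit 31) (nat_lit 5) (nat_lit 35) (nat_lit 5) (nat_lit 32) (nat_lit 4) (nat_lit 346) (nat_lit 267) (nat_lit 251)) (XT.lf (nat_lit 0) (nat_lit 4026806748) (nat_lit 168) (nat_lit 3766648109) (nat_lit 252) (nat_lit 4638642425) (nat_lit 29) (nat_lit 5) (nat_lit 31) (nat_lit 5) (nat_lit 32) (nat_lit 4) (nat_lit 347) (nat_lit 267) (nat_lit 250)))) (XT.nd (nat_lit 94) (nat_lit 336) (nat_lit 0) (XT.lf (nat_lit 0) (nat_lit 9218405240) (nat_lit 168) (nat_lit 1388037733) (nat_lit 252) (nat_lit 2095329748) (nat_lit 29) (nat_lit 5) (nat_lit 31) (nat_lit 5) (nat_lit 32) (nat_lit 4) (nat_lit 348) (nat_lit 267) (nat_lit 249)) (XT.nd (nat_lit 94) (nat_lit 0) (nat_lit 0) (XT.lf (nat_lit 0) (nat_lit 485121790) (nat_lit 336) (nat_lit 11458149252) (nat_lit 84) (nat_lit 1037477904) (nat_lit 25) (nat_lit 5) (nat_lit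 29) (nat_lit 5) (nat_lit 26) (nat_lit 4) (nat_lit 349) (nat_lit 267) (nat_lit 248)) (XT.lf (nat_lit 0) (nat_lit 3096790286) (nat_lit 336) (nat_lit 6629782907) (nat_lit 84) (nat_lit 3541433619) (nat_lit 25) (nat_lit 5) (nat_lit 29) (nat_lit 5) (nat_lit 26) (nat_lit 4) (nat_lit 350) (nat_lit 267) (nat_lit 247))))))) (XT.nd (nat_lit 1128) (nat_lit 420) (nat_lit 0) (XT.nd (nat_lit 564) (nat_lit 420) (nat_lit 0) (XT.nd (nat_lit 282) (nat_lit 252) (nat_lit 0) (XT.nd (nat_lit 94) (nat_lit 168) (nat_lit 0) (XT.lf (nat_lit 0) (nat_lit 5734930151) (nat_lit 336) (nat_lit 1733342927) (nat_lit 84) (nat_lit 6097716640) (nat_lit 25) (nat_lit 5) (nat_lit 29) (nat_lit 5) (nat_lit 26) (nat_lit 4) (nat_lit 351) (nat_lit 267) (nat_lit 246)) (XT.nd (nat_lit 94) (nat_lit 0) (nat_lit 0) (XT.lf (nat_lit 0) (nat_lit 3302268024) (nat_lit 168) (nat_lit 5132491291) (nat_lit 252) (nat_lit 5439200575) (nat_lit 23)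 (nat_lit 5) (nat_lit 25) (nat_lit 5) (nat_lit 26) (nat_lit 4) (nat_lit 352) (nat_lit 267) (nat_lit 245)) (XT.lf (nat_lit 0) (nat_lit 8452378209) (nat_lit 168) (nat_lit 2731957474) (nat_lit 252) (nat_lit 3008316922) (nat_lit 23) (nat_lit 5) (nat_lit 25) (nat_lit 5) (nat_lit 26) (nat_lit 4) (nat_lit 353) (nat_lit 267) (nat_lit 244)))) (XT.nd (nat_lit 94) (nat_lit 252) (nat_lit 0) (XT.lf (nat_lit 0) (nat_lit 13686146984) (nat_lit 168) (nat_lit 282526625) (nat_lit 252) (nat_lit 554235316) (nat_lit 23) (nat_lit 5) (nat_lit 25) (nat_lit 5) (nat_lit 26) (nat_lit 4) (nat_lit 354) (nat_lit 267) (nat_lit 243)) (XT.nd (nat_lit 94) (nat_lit 0) (nat_lit 0) (XT.lf (nat_lit 0) (nat_lit 1950921631) (nat_lit 252) (nat_lit 10676655297) (nat_lit 84) (nat_lit 2234871854) (nat_lit 20) (nat_lit 5) (nat_lit 23) (nat_lit 5) (nat_lit 21) (nat_lit 4) (nat_lit 355) (nat_lit 267) (nat_lit 242)) (XT.lf (nat_lit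 0) (nat_lit 4484871791) (nat_lit 252) (nat_lit 5914559339) (nat_lit 84) (nat_lit 4814174436) (nat_lit 20) (nat_lit 5) (nat_lit 23) (nat_lit 5) (nat_lit 21) (nat_lit 4) (nat_lit 356) (nat_lit 267) (nat_lit 241))))) (XT.nd (nat_lit 282) (nat_lit 252) (nat_lit 0) (XT.nd (nat_lit 94) (nat_lit 168) (nat_lit 0) (XT.lf (nat_lit 0) (nat_lit 7049782869) (nat_lit 252) (nat_lit 1078024955) (nat_lit 84) (nat_lit 7449421393) (nat_lit 20) (nat_lit 5) (nat_lit 23) (nat_lit 5) (nat_lit 21) (nat_lit 4) (nat_lit 357) (nat_lit 267) (nat_lit 240)) (XT.nd (nat_lit 94) (nat_lit 0) (nat_lit 0) (XT.lf (nat_lit 0) (nat_lit 3916361978) (nat_lit 168) (nat_lit 5770534449) (nat_lit 252) (nat_lit 6265557869) (nat_lit 18) (nat_lit 5) (nat_lit 20) (nat_lit 5) (nat_lit 21) (nat_lit 4) (nat_lit 358) (nat_lit 267) (nat_lit 239)) (XT.lf (nat_lit 0) (nat_lit 9018161156) (nat_lit 168) (nat_lit 3353382052) (nat_lit 252) (nat_lit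 3968928292) (nat_lit 18) (nat_lit 5) (nat_lit 20) (nat_lit 5) (nat_lit 21) (nat_lit 4) (nat_lit 359) (nat_lit 267) (nat_lit 238)))) (XT.nd (nat_lit 94) (nat_lit 252) (nat_lit 0) (XT.lf (nat_lit 0) (nat_lit 14209961585) (nat_lit 168) (nat_lit 885349962) (nat_lit 252) (nat_lit 1646669289) (nat_lit 18) (nat_lit 5) (nat_lit 20) (nat_lit 5) (nat_lit 21) (nat_lit 4) (nat_lit 360) (nat_lit 267) (nat_lit 237)) (XT.nd (nat_lit 94) (nat_lit 0) (nat_lit 0) (XT.lf (nat_lit 0) (nat_lit 729365056) (nat_lit 252) (nat_lit 14792724504) (nat_lit 84) (nat_lit 1633805943) (nat_lit 15) (nat_lit 5) (nat_lit 18) (nat_lit 5) (nat_lit 16) (nat_lit 4) (nat_lit 361) (nat_lit 267) (nat_lit 236)) (XT.lf (nat_lit 0) (nat_lit 3137707937) (nat_lit 252) (nat_lit 10211781697) (nat_lit 84) (nat_lit 4232939229) (nat_lit 15) (nat_lit 5) (nat_lit 18) (nat_lit 5) (nat_lit 16) (nat_lit 4) (nat_lit 362) (nat_lit 267) (nat_lit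 235)))))) (XT.nd (nat_lit 564) (nat_lit 336) (nat_lit 0) (XT.nd (nat_lit 282) (nat_lit 0) (nat_lit 0) (XT.nd (nat_lit 94) (nat_lit 84) (nat_lit 0) (XT.lf (nat_lit 0) (nat_lit 5579101518) (nat_lit 252) (nat_lit 5554379798) (nat_lit 84) (nat_lit 6890078625) (nat_lit 15) (nat_lit 5) (nat_lit 18) (nat_lit 5) (nat_lit 16) (nat_lit 4) (nat_lit 363) (nat_lit 267) (nat_lit 234)) (XT.nd (nat_lit 94) (nat_lit 84) (nat_lit 0) (XT.lf (nat_lit 0) (nat_lit 8055821431) (nat_lit 252) (nat_lit 816177621) (nat_lit 84) (nat_lit 9607700863) (nat_lit 15) (nat_lit 5) (nat_lit 18) (nat_lit 5) (nat_lit 16) (nat_lit 4) (nat_lit 364) (nat_lit 267) (nat_lit 233)) (XT.lf (nat_lit 0) (nat_lit 4089638434) (nat_lit 84) (nat_lit 6521107526) (nat_lit 168) (nat_lit 8339270337) (nat_lit 14) (nat_lit 5) (nat_lit 15) (nat_lit 5) (nat_lit 16) (nat_lit 4) (nat_lit 365) (nat_lit 267) (nat_lit 232)))) (XT.nd (nat_lit 94) (nat_lit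 0) (nat_lit 0) (XT.lf (nat_lit 0) (nat_lit 9103794163) (nat_lit 84) (nat_lit 4111026189) (nat_lit 168) (nat_lit 6221101639) (nat_lit 14) (nat_lit 5) (nat_lit 15) (nat_lit 5) (nat_lit 16) (nat_lit 4) (nat_lit 366) (nat_lit 267) (nat_lit 231)) (XT.nd (nat_lit 94) (nat_lit 0) (nat_lit 0) (XT.lf (nat_lit 0) (nat_lit 14214180999) (nat_lit 84) (nat_lit 1648027815) (nat_lit 168) (nat_lit 4075917256) (nat_lit 14) (nat_lit 5) (nat_lit 15) (nat_lit 5) (nat_lit 16) (nat_lit 4) (nat_lit 367) (nat_lit 267) (nat_lit 230)) (XT.lf (nat_lit 0) (nat_lit 18564011314) (nat_lit 168) (nat_lit 1040166608) (nat_lit 0) (nat_lit 852651113) (nat_lit 14) (nat_lit 5) (nat_lit 16) (nat_lit 4) (nat_lit 14) (nat_lit 4) (nat_lit 368) (nat_lit 267) (nat_lit 229))))) (XT.nd (nat_lit 282) (nat_lit 84) (nat_lit 0) (XT.nd (nat_lit 94) (nat_lit 0) (nat_lit 0) (XT.lf (nat_lit 0) (nat_lit 369941069) (nat_lit 252) (nat_lit 17203148877)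 (nat_lit 84) (nat_lit 3417885631) (nat_lit 11) (nat_lit 5) (nat_lit 14) (nat_lit 5) (nat_lit 12) (nat_lit 4) (nat_lit 369) (nat_lit 267) (nat_lit 228)) (XT.nd (nat_lit 94) (nat_lit 0) (nat_lit 0) (XT.lf (nat_lit 0) (nat_lit 2639179330) (nat_lit 252) (nat_lit 12830154282) (nat_lit 84) (nat_lit 6072568546) (nat_lit 11) (nat_lit 5) (nat_lit 14) (nat_lit 5) (nat_lit 12) (nat_lit 4) (nat_lit 370) (nat_lit 267) (nat_lit 227)) (XT.lf (nat_lit 0) (nat_lit 4944509827) (nat_lit 252) (nat_lit 8376765493) (nat_lit 84) (nat_lit 8789758855) (nat_lit 11) (nat_lit 5) (nat_lit 14) (nat_lit 5) (nat_lit 12) (nat_lit 4) (nat_lit 371) (nat_lit 267) (nat_lit 226)))) (XT.nd (nat_lit 94) (nat_lit 84) (nat_lit 0) (XT.lf (nat_lit 0) (nat_lit 7288081371) (nat_lit 252) (nat_lit 3838831485) (nat_lit 84) (nat_lit 11571989266) (nat_lit 11) (nat_lit 5) (nat_lit 14) (nat_lit 5) (nat_lit 12) (nat_lit 4) (nat_lit 372)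 (nat_lit 267) (nat_lit 225)) (XT.nd (nat_lit 94) (nat_lit 0) (nat_lit 0) (XT.lf (nat_lit 0) (nat_lit 804077951) (nat_lit 84) (nat_lit 8875977018) (nat_lit 168) (nat_lit 13625751710) (nat_lit 10) (nat_lit 5) (nat_lit 11) (nat_lit 5) (nat_lit 12) (nat_lit 4) (nat_lit 373) (nat_lit 267) (nat_lit 224)) (XT.lf (nat_lit 0) (nat_lit 5620923335) (nat_lit 84) (nat_lit 6533560017) (nat_lit 168) (nat_lit 11776843673) (nat_lit 10) (nat_lit 5) (nat_lit 11) (nat_lit 5) (nat_lit 12) (nat_lit 4) (nat_lit 374) (nat_lit 267) (nat_lit 223))))))))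
noncomputable def xc38 : XT := (XT.nd (nat_lit 2256) (nat_lit 84) (nat_lit 0) (XT.nd (nat_lit 1128) (nat_lit 168) (nat_lit 0) (XT.nd (nat_lit 564) (nat_lit 84) (nat_lit 0) (XT.nd (nat_lit 282) (nat_lit 252) (nat_lit 0) (XT.nd (nat_lit 94) (nat_lit 0) (nat_lit 0) (XT.lf (nat_lit 0) (nat_lit 10537260223) (nat_lit 84) (nat_lit 4137548002) (nat_lit 168) (nat_lit 9902442793) (nat_lit 10) (nat_lit 5) (nat_lit 11) (nat_lit 5) (nat_lit 12) (nat_lit 4) (nat_lit 375) (nat_lit 267) (nat_lit 222)) (XT.nd (nat_lit 94) (nat_lit 0) (nat_lit 0) (XT.lf (nat_lit 0) (nat_lit 15557671156) (nat_lit 84) (nat_lit 1685707641) (nat_lit 168) (nat_lit 8000801931) (nat_lit 10) (nat_lit 5) (nat_lit 11) (nat_lit 5) (nat_lit 12) (nat_lit 4) (nat_lit 376) (nat_lit 267) (nat_lit 221)) (XT.lf (nat_lit 0) (nat_lit 19870765870) (nat_lit 168) (nat_lit 5254078747) (nat_lit 0) (nat_lit 807639709) (nat_lit 10) (nat_lit 5)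 (nat_lit 12) (nat_lit 4) (nat_lit 10) (nat_lit 4) (nat_lit 377) (nat_lit 267) (nat_lit 220)))) (XT.nd (nat_lit 94) (nat_lit 252) (nat_lit 0) (XT.lf (nat_lit 0) (nat_lit 22568556328) (nat_lit 168) (nat_lit 747704713) (nat_lit 0) (nat_lit 3326259069) (nat_lit 10) (nat_lit 5) (nat_lit 12) (nat_lit 4) (nat_lit 10) (nat_lit 4) (nat_lit 378) (nat_lit 267) (nat_lit 219)) (XT.nd (nat_lit 94) (nat_lit 84) (nat_lit 0) (XT.lf (nat_lit 0) (nat_lit 3932771959) (nat_lit 168) (nat_lit 21428783992) (nat_lit 168) (nat_lit 2012702932) (nat_lit 8) (nat_lit 4) (nat_lit 10) (nat_lit 5) (nat_lit 10) (nat_lit 4) (nat_lit 379) (nat_lit 267) (nat_lit 218)) (XT.lf (nat_lit 0) (nat_lit 90699420) (nat_lit 252) (nat_lit 19400429024) (nat_lit 84) (nat_lit 8638170555) (nat_lit 7) (nat_lit 5) (nat_lit 10) (nat_lit 5) (nat_lit 8) (nat_lit 4) (nat_lit 380) (nat_lit 267) (nat_lit 217))))) (XT.nd (nat_lit 282) (nat_lit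 84) (nat_lit 0) (XT.nd (nat_lit 94) (nat_lit 0) (nat_lit 0) (XT.lf (nat_lit 0) (nat_lit 2190945662) (nat_lit 252) (nat_lit 15298319194) (nat_lit 84) (nat_lit 11418711843) (nat_lit 7) (nat_lit 5) (nat_lit 10) (nat_lit 5) (nat_lit 8) (nat_lit 4) (nat_lit 381) (nat_lit 267) (nat_lit 216)) (XT.nd (nat_lit 94) (nat_lit 0) (nat_lit 0) (XT.lf (nat_lit 0) (nat_lit 4330544922) (nat_lit 252) (nat_lit 11111367576) (nat_lit 84) (nat_lit 14269724251) (nat_lit 7) (nat_lit 5) (nat_lit 10) (nat_lit 5) (nat_lit 8) (nat_lit 4) (nat_lit 382) (nat_lit 267) (nat_lit 215)) (XT.lf (nat_lit 0) (nat_lit 6511491531) (nat_lit 252) (nat_lit 6835671492) (nat_lit 84) (nat_lit 17193865222) (nat_lit 7) (nat_lit 5) (nat_lit 10) (nat_lit 5) (nat_lit 8) (nat_lit 4) (nat_lit 383) (nat_lit 267) (nat_lit 214)))) (XT.nd (nat_lit 94) (nat_lit 84) (nat_lit 0) (XT.lf (nat_lit 0) (nat_lit 8735818358) (nat_lit 252) (nat_lit 2467245546)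 (nat_lit 84) (nat_lit 20193860359) (nat_lit 7) (nat_lit 5) (nat_lit 10) (nat_lit 5) (nat_lit 8) (nat_lit 4) (nat_lit 384) (nat_lit 267) (nat_lit 213)) (XT.nd (nat_lit 94) (nat_lit 0) (nat_lit 0) (XT.lf (nat_lit 0) (nat_lit 2039064701) (nat_lit 84) (nat_lit 8986761784) (nat_lit 168) (nat_lit 21253669047) (nat_lit 6) (nat_lit 5) (nat_lit 7) (nat_lit 5) (nat_lit 8) (nat_lit 4) (nat_lit 385) (nat_lit 267) (nat_lit 212)) (XT.lf (nat_lit 0) (nat_lit 6699146352) (nat_lit 84) (nat_lit 6690258270) (nat_lit 168) (nat_lit 19799981696) (nat_lit 6) (nat_lit 5) (nat_lit 7) (nat_lit 5) (nat_lit 8) (nat_lit 4) (nat_lit 386) (nat_lit 267) (nat_lit 211)))))) (XT.nd (nat_lit 564) (nat_lit 168) (nat_lit 0) (XT.nd (nat_lit 282) (nat_lit 0) (nat_lit 0) (XT.nd (nat_lit 94) (nat_lit 0) (nat_lit 0) (XT.lf (nat_lit 0) (nat_lit 11466611462) (nat_lit 84) (nat_lit 4337165765) (nat_lit 168) (nat_lit 18324441845)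 (nat_lit 6) (nat_lit 5) (nat_lit 7) (nat_lit 5) (nat_lit 8) (nat_lit 4) (nat_lit 387) (nat_lit 267) (nat_lit 210)) (XT.nd (nat_lit 94) (nat_lit 0) (nat_lit 0) (XT.lf (nat_lit 0) (nat_lit 16345903807) (nat_lit 84) (nat_lit 1925290940) (nat_lit 168) (nat_lit 16825674139) (nat_lit 6) (nat_lit 5) (nat_lit 7) (nat_lit 5) (nat_lit 8) (nat_lit 4) (nat_lit 388) (nat_lit 267) (nat_lit 209)) (XT.lf (nat_lit 0) (nat_lit 20799389477) (nat_lit 168) (nat_lit 14760099645) (nat_lit 0) (nat_lit 536581116) (nat_lit 6) (nat_lit 5) (nat_lit 8) (nat_lit 4) (nat_lit 6) (nat_lit 4) (nat_lit 389) (nat_lit 267) (nat_lit 208)))) (XT.nd (nat_lit 94) (nat_lit 0) (nat_lit 0) (XT.lf (nat_lit 0) (nat_lit 23405007913) (nat_lit 168) (nat_lit 10699581357) (nat_lit 0) (nat_lit 3021722229) (nat_lit 6) (nat_lit 5) (nat_lit 8) (nat_lit 4) (nat_lit 6) (nat_lit 4) (nat_lit 390) (nat_lit 267) (nat_lit 207)) (XT.nd (nat_lit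 94) (nat_lit 0) (nat_lit 0) (XT.lf (nat_lit 0) (nat_lit 26071379640) (nat_lit 168) (nat_lit 6546526264) (nat_lit 0) (nat_lit 5571239133) (nat_lit 6) (nat_lit 5) (nat_lit 8) (nat_lit 4) (nat_lit 6) (nat_lit 4) (nat_lit 391) (nat_lit 267) (nat_lit 206)) (XT.lf (nat_lit 0) (nat_lit 28800989995) (nat_lit 168) (nat_lit 2297063283) (nat_lit 0) (nat_lit 8187508244) (nat_lit 6) (nat_lit 5) (nat_lit 8) (nat_lit 4) (nat_lit 6) (nat_lit 4) (nat_lit 392) (nat_lit 267) (nat_lit 205))))) (XT.nd (nat_lit 282) (nat_lit 84) (nat_lit 0) (XT.nd (nat_lit 94) (nat_lit 0) (nat_lit 0) (XT.lf (nat_lit 0) (nat_lit 2094977661) (nat_lit 84) (nat_lit 29522188038) (nat_lit 84) (nat_lit 8798772975) (nat_lit 5) (nat_lit 4) (nat_lit 6) (nat_lit 5) (nat_lit 6) (nat_lit 4) (nat_lit 393) (nat_lit 267) (nat_lit 204)) (XT.nd (nat_lit 94) (nat_lit 0) (nat_lit 0) (XT.lf (nat_lit 0) (nat_lit 6640821428) (nat_lit 84) (nat_lit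 27885221381) (nat_lit 84) (nat_lit 7055178470) (nat_lit 5) (nat_lit 4) (nat_lit 6) (nat_lit 5) (nat_lit 6) (nat_lit 4) (nat_lit 394) (nat_lit 267) (nat_lit 203)) (XT.lf (nat_lit 0) (nat_lit 11297472888) (nat_lit 84) (nat_lit 26209604114) (nat_lit 84) (nat_lit 5276139429) (nat_lit 5) (nat_lit 4) (nat_lit 6) (nat_lit 5) (nat_lit 6) (nat_lit 4) (nat_lit 395) (nat_lit 267) (nat_lit 202)))) (XT.nd (nat_lit 94) (nat_lit 84) (nat_lit 0) (XT.lf (nat_lit 0) (nat_lit 16069272526) (nat_lit 84) (nat_lit 24493774384) (nat_lit 84) (nat_lit 3459997602) (nat_lit 5) (nat_lit 4) (nat_lit 6) (nat_lit 5) (nat_lit 6) (nat_lit 4) (nat_lit 396) (nat_lit 267) (nat_lit 201)) (XT.nd (nat_lit 94) (nat_lit 84) (nat_lit 0) (XT.lf (nat_lit 0) (nat_lit 20960668161) (nat_lit 84) (nat_lit 22736132861) (nat_lit 84) (nat_lit 1605060153) (nat_lit 5) (nat_lit 4) (nat_lit 6) (nat_lit 5) (nat_lit 6) (nat_lit 4) (nat_lit 397)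 (nat_lit 267) (nat_lit 200)) (XT.lf (nat_lit 0) (nat_lit 284550960) (nat_lit 168) (nat_lit 20647520148) (nat_lit 84) (nat_lit 25688697996) (nat_lit 4) (nat_lit 5) (nat_lit 6) (nat_lit 5) (nat_lit 5) (nat_lit 4) (nat_lit 398) (nat_lit 267) (nat_lit 199))))))) (XT.nd (nat_lit 1128) (nat_lit 0) (nat_lit 0) (XT.nd (nat_lit 564) (nat_lit 0) (nat_lit 0) (XT.nd (nat_lit 282) (nat_lit 84) (nat_lit 0) (XT.nd (nat_lit 94) (nat_lit 0) (nat_lit 0) (XT.lf (nat_lit 0) (nat_lit 2183262997) (nat_lit 168) (nat_lit 16882768920) (nat_lit 84) (nat_lit 28914548531) (nat_lit 4) (nat_lit 5) (nat_lit 6) (nat_lit 5) (nat_lit 5) (nat_lit 4) (nat_lit 399) (nat_lit 267) (nat_lit 198)) (XT.nd (nat_lit 94) (nat_lit 0) (nat_lit 0) (XT.lf (nat_lit 0) (nat_lit 4125184143) (nat_lit 168) (nat_lit 13027507791) (nat_lit 84) (nat_lit 32230364354) (nat_lit 4) (nat_lit 5) (nat_lit 6) (nat_lit 5) (nat_lit 5) (nat_lit 4) (nat_lit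 400) (nat_lit 267) (nat_lit 197)) (XT.lf (nat_lit 0) (nat_lit 6112124470) (nat_lit 168) (nat_lit 9078143257) (nat_lit 84) (nat_lit 35639236154) (nat_lit 4) (nat_lit 5) (nat_lit 6) (nat_lit 5) (nat_lit 5) (nat_lit 4) (nat_lit 401) (nat_lit 267) (nat_lit 196)))) (XT.nd (nat_lit 94) (nat_lit 84) (nat_lit 0) (XT.lf (nat_lit 0) (nat_lit 8145936014) (nat_lit 168) (nat_lit 5030994093) (nat_lit 84) (nat_lit 39144341355) (nat_lit 4) (nat_lit 5) (nat_lit 6) (nat_lit 5) (nat_lit 5) (nat_lit 4) (nat_lit 402) (nat_lit 267) (nat_lit 195)) (XT.nd (nat_lit 94) (nat_lit 84) (nat_lit 0) (XT.lf (nat_lit 0) (nat_lit 10228514502) (nat_lit 168) (nat_lit 882287935) (nat_lit 84) (nat_lit 42748947083) (nat_lit 4) (nat_lit 5) (nat_lit 6) (nat_lit 5) (nat_lit 5) (nat_lit 4) (nat_lit 403) (nat_lit 267) (nat_lit 194)) (XT.lf (nat_lit 0) (nat_lit 3441174239) (nat_lit 84) (nat_lit 8954763750) (nat_lit 168) (nat_lit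 43049375843) (nat_lit 3) (nat_lit 5) (nat_lit 4) (nat_lit 5) (nat_lit 5) (nat_lit 4) (nat_lit 404) (nat_lit 267) (nat_lit 193))))) (XT.nd (nat_lit 282) (nat_lit 0) (nat_lit 0) (XT.nd (nat_lit 94) (nat_lit 0) (nat_lit 0) (XT.lf (nat_lit 0) (nat_lit 7894416651) (nat_lit 84) (nat_lit 6731681239) (nat_lit 168) (nat_lit 42454092417) (nat_lit 3) (nat_lit 5) (nat_lit 4) (nat_lit 5) (nat_lit 5) (nat_lit 4) (nat_lit 405) (nat_lit 267) (nat_lit 192)) (XT.nd (nat_lit 94) (nat_lit 0) (nat_lit 0) (XT.lf (nat_lit 0) (nat_lit 12463448539) (nat_lit 84) (nat_lit 4448692034) (nat_lit 168) (nat_lit 41854039148) (nat_lit 3) (nat_lit 5) (nat_lit 4) (nat_lit 5) (nat_lit 5) (nat_lit 4) (nat_lit 406) (nat_lit 267) (nat_lit 191)) (XT.lf (nat_lit 0) (nat_lit 17152528719) (nat_lit 84) (nat_lit 2103668150) (nat_lit 168) (nat_lit 41248656725) (nat_lit 3) (nat_lit 5) (nat_lit 4) (nat_lit 5) (nat_lit 5) (nat_lit 4)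 (nat_lit 407) (nat_lit 267) (nat_lit 190)))) (XT.nd (nat_lit 94) (nat_lit 0) (nat_lit 0) (XT.lf (nat_lit 0) (nat_lit 21663483039) (nat_lit 168) (nat_lit 40334836002) (nat_lit 0) (nat_lit 299419540) (nat_lit 3) (nat_lit 5) (nat_lit 5) (nat_lit 4) (nat_lit 3) (nat_lit 4) (nat_lit 408) (nat_lit 267) (nat_lit 189)) (XT.nd (nat_lit 94) (nat_lit 0) (nat_lit 0) (XT.lf (nat_lit 0) (nat_lit 24154736748) (nat_lit 168) (nat_lit 37265945768) (nat_lit 0) (nat_lit 2725250015) (nat_lit 3) (nat_lit 5) (nat_lit 5) (nat_lit 4) (nat_lit 3) (nat_lit 4) (nat_lit 409) (nat_lit 267) (nat_lit 188)) (XT.lf (nat_lit 0) (nat_lit 26711411455) (nat_lit 168) (nat_lit 34121924997) (nat_lit 0) (nat_lit 5218468629) (nat_lit 3) (nat_lit 5) (nat_lit 5) (nat_lit 4) (nat_lit 3) (nat_lit 4) (nat_lit 410) (nat_lit 267) (nat_lit 187)))))) (XT.nd (nat_lit 46812) (nat_lit 0) (nat_lit 3528) (XT.nd (nat_lit 46530) (nat_lit 0)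 (nat_lit 4704) (XT.nd (nat_lit 94) (nat_lit 0) (nat_lit 0) (XT.lf (nat_lit 0) (nat_lit 29335890250) (nat_lit 168) (nat_lit 30899843133) (nat_lit 0) (nat_lit 7781399321) (nat_lit 3) (nat_lit 5) (nat_lit 5) (nat_lit 4) (nat_lit 3) (nat_lit 4) (nat_lit 411) (nat_lit 267) (nat_lit 186)) (XT.nd (nat_lit 46342) (nat_lit 0) (nat_lit 5124) (XT.lf (nat_lit 0) (nat_lit 32030619422) (nat_lit 168) (nat_lit 27596696857) (nat_lit 0) (nat_lit 10416431012) (nat_lit 3) (nat_lit 5) (nat_lit 5) (nat_lit 4) (nat_lit 3) (nat_lit 4) (nat_lit 412) (nat_lit 267) (nat_lit 185)) (XT.lf (nat_lit 0) (nat_lit 191327238) (nat_lit 420) (nat_lit 2100179527) (nat_lit 420) (nat_lit 2100179527) (nat_lit 64) (nat_lit 4) (nat_lit 69) (nat_lit 5) (nat_lit 69) (nat_lit 4) (nat_lit 328) (nat_lit 268) (nat_lit 268)))) (XT.nd (nat_lit 94) (nat_lit 420) (nat_lit 0) (XT.lf (nat_lit 0) (nat_lit 5359458728) (nat_lit 420) (nat_lit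 2289689222) (nat_lit 420) (nat_lit 1268721819) (nat_lit 64) (nat_lit 4) (nat_lit 69) (nat_lit 5) (nat_lit 69) (nat_lit 4) (nat_lit 329) (nat_lit 268) (nat_lit 267)) (XT.nd (nat_lit 94) (nat_lit 0) (nat_lit 0) (XT.lf (nat_lit 0) (nat_lit 1342708499) (nat_lit 336) (nat_lit 308667652) (nat_lit 420) (nat_lit 7406981204) (nat_lit 59) (nat_lit 5) (nat_lit 63) (nat_lit 5) (nat_lit 64) (nat_lit 4) (nat_lit 330) (nat_lit 268) (nat_lit 266)) (XT.lf (nat_lit 0) (nat_lit 4611178029) (nat_lit 420) (nat_lit 2863848949) (nat_lit 0) (nat_lit 1728801480) (nat_lit 59) (nat_lit 5) (nat_lit 64) (nat_lit 4) (nat_lit 59) (nat_lit 4) (nat_lit 331) (nat_lit 268) (nat_lit 265))))) (XT.nd (nat_lit 282) (nat_lit 420) (nat_lit 0) (XT.nd (nat_lit 94) (nat_lit 420) (nat_lit 0) (XT.lf (nat_lit 0) (nat_lit 2077696643) (nat_lit 336) (nat_lit 5531999680) (nat_lit 336) (nat_lit 1746021066) (nat_lit 55) (nat_lit 4) (nat_lit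 59) (nat_lit 5) (nat_lit 59) (nat_lit 4) (nat_lit 332) (nat_lit 268) (nat_lit 264)) (XT.nd (nat_lit 94) (nat_lit 336) (nat_lit 0) (XT.lf (nat_lit 0) (nat_lit 1118604892) (nat_lit 420) (nat_lit 2390524731) (nat_lit 84) (nat_lit 6004503257) (nat_lit 54) (nat_lit 5) (nat_lit 59) (nat_lit 5) (nat_lit 55) (nat_lit 4) (nat_lit 333) (nat_lit 268) (nat_lit 263)) (XT.lf (nat_lit 0) (nat_lit 2585551803) (nat_lit 336) (nat_lit 1401667911) (nat_lit 420) (nat_lit 5690416316) (nat_lit 50) (nat_lit 5) (nat_lit 54) (nat_lit 5) (nat_lit 55) (nat_lit 4) (nat_lit 334) (nat_lit 268) (nat_lit 262)))) (XT.nd (nat_lit 94) (nat_lit 420) (nat_lit 0) (XT.lf (nat_lit 0) (nat_lit 6904469983) (nat_lit 420) (nat_lit 2185736947) (nat_lit 0) (nat_lit 757999096) (nat_lit 50) (nat_lit 5) (nat_lit 55) (nat_lit 4) (nat_lit 50) (nat_lit 4) (nat_lit 335) (nat_lit 268) (nat_lit 261)) (XT.nd (nat_lit 94) (nat_lit 84) (nat_lit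 0) (XT.lf (nat_lit 0) (nat_lit 2819695088) (nat_lit 336) (nat_lit 7063818189) (nat_lit 336) (nat_lit 141664989) (nat_lit 46) (nat_lit 4) (nat_lit 50) (nat_lit 5) (nat_lit 50) (nat_lit 4) (nat_lit 336) (nat_lit 268) (nat_lit 260)) (XT.lf (nat_lit 0) (nat_lit 2644284415) (nat_lit 420) (nat_lit 2303970730) (nat_lit 84) (nat_lit 5260226574) (nat_lit 45) (nat_lit 5) (nat_lit 50) (nat_lit 5) (nat_lit 46) (nat_lit 4) (nat_lit 337) (nat_lit 268) (nat_lit 259))))))))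
noncomputable def xc39 : XT := (XT.nd (nat_lit 2256) (nat_lit 672) (nat_lit 0) (XT.nd (nat_lit 1128) (nat_lit 840) (nat_lit 0) (XT.nd (nat_lit 564) (nat_lit 840) (nat_lit 0) (XT.nd (nat_lit 282) (nat_lit 252) (nat_lit 0) (XT.nd (nat_lit 94) (nat_lit 336) (nat_lit 0) (XT.lf (nat_lit 0) (nat_lit 2709332111) (nat_lit 252) (nat_lit 2762643177) (nat_lit 336) (nat_lit 4926946305) (nat_lit 42) (nat_lit 5) (nat_lit 45) (nat_lit 5) (nat_lit 46) (nat_lit 4) (nat_lit 338) (nat_lit 268) (nat_lit 258)) (XT.nd (nat_lit 94) (nat_lit 336) (nat_lit 0) (XT.lf (nat_lit 0) (nat_lit 7834540239) (nat_lit 252) (nat_lit 509421156) (nat_lit 336) (nat_lit 2252848589) (nat_lit 42) (nat_lit 5) (nat_lit 45) (nat_lit 5) (nat_lit 46) (nat_lit 4) (nat_lit 339) (nat_lit 268) (nat_lit 257)) (XT.lf (nat_lit 0) (nat_lit 468262804) (nat_lit 336) (nat_lit 8552895283) (nat_lit 84) (nat_lit 1780506037) (nat_lit 38) (nat_lit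 5) (nat_lit 42) (nat_lit 5) (nat_lit 39) (nat_lit 4) (nat_lit 340) (nat_lit 268) (nat_lit 256)))) (XT.nd (nat_lit 94) (nat_lit 252) (nat_lit 0) (XT.lf (nat_lit 0) (nat_lit 3195873279) (nat_lit 336) (nat_lit 3658968754) (nat_lit 84) (nat_lit 4158458301) (nat_lit 38) (nat_lit 5) (nat_lit 42) (nat_lit 5) (nat_lit 39) (nat_lit 4) (nat_lit 341) (nat_lit 268) (nat_lit 255)) (XT.nd (nat_lit 94) (nat_lit 0) (nat_lit 0) (XT.lf (nat_lit 0) (nat_lit 1323959556) (nat_lit 252) (nat_lit 4633784376) (nat_lit 336) (nat_lit 5275490065) (nat_lit 35) (nat_lit 5) (nat_lit 38) (nat_lit 5) (nat_lit 39) (nat_lit 4) (nat_lit 342) (nat_lit 268) (nat_lit 254)) (XT.lf (nat_lit 0) (nat_lit 6450447028) (nat_lit 252) (nat_lit 2330577553) (nat_lit 336) (nat_lit 2679883692) (nat_lit 35) (nat_lit 5) (nat_lit 38) (nat_lit 5) (nat_lit 39) (nat_lit 4) (nat_lit 343) (nat_lit 268) (nat_lit 253))))) (XT.nd (nat_lit 282) (nat_lit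 504) (nat_lit 0) (XT.nd (nat_lit 94) (nat_lit 336) (nat_lit 0) (XT.lf (nat_lit 0) (nat_lit 11631488879) (nat_lit 336) (nat_lit 47833390) (nat_lit 0) (nat_lit 18355704) (nat_lit 35) (nat_lit 5) (nat_lit 39) (nat_lit 4) (nat_lit 35) (nat_lit 4) (nat_lit 344) (nat_lit 268) (nat_lit 252)) (XT.nd (nat_lit 94) (nat_lit 0) (nat_lit 0) (XT.lf (nat_lit 0) (nat_lit 2590669341) (nat_lit 336) (nat_lit 6905903337) (nat_lit 84) (nat_lit 2444095623) (nat_lit 31) (nat_lit 5) (nat_lit 35) (nat_lit 5) (nat_lit 32) (nat_lit 4) (nat_lit 345) (nat_lit 268) (nat_lit 251)) (XT.lf (nat_lit 0) (nat_lit 5270263115) (nat_lit 336) (nat_lit 2001397744) (nat_lit 84) (nat_lit 4921467730) (nat_lit 31) (nat_lit 5) (nat_lit 35) (nat_lit 5) (nat_lit 32) (nat_lit 4) (nat_lit 346) (nat_lit 268) (nat_lit 250)))) (XT.nd (nat_lit 94) (nat_lit 336) (nat_lit 0) (XT.lf (nat_lit 0) (nat_lit 3033355264) (nat_lit 168) (nat_lit 4972670225)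 (nat_lit 252) (nat_lit 4448371362) (nat_lit 29) (nat_lit 5) (nat_lit 31) (nat_lit 5) (nat_lit 32) (nat_lit 4) (nat_lit 347) (nat_lit 268) (nat_lit 249)) (XT.nd (nat_lit 94) (nat_lit 336) (nat_lit 0) (XT.lf (nat_lit 0) (nat_lit 8184545957) (nat_lit 168) (nat_lit 2606850404) (nat_lit 252) (nat_lit 1933602668) (nat_lit 29) (nat_lit 5) (nat_lit 31) (nat_lit 5) (nat_lit 32) (nat_lit 4) (nat_lit 348) (nat_lit 268) (nat_lit 248)) (XT.lf (nat_lit 0) (nat_lit 412334287) (nat_lit 252) (nat_lit 182503295) (nat_lit 336) (nat_lit 12410665696) (nat_lit 25) (nat_lit 5) (nat_lit 28) (nat_lit 5) (nat_lit 29) (nat_lit 5) (nat_lit 349) (nat_lit 268) (nat_lit 247)))))) (XT.nd (nat_lit 564) (nat_lit 420) (nat_lit 0) (XT.nd (nat_lit 282) (nat_lit 252) (nat_lit 0) (XT.nd (nat_lit 94) (nat_lit 168) (nat_lit 0) (XT.lf (nat_lit 0) (nat_lit 3177866301) (nat_lit 336) (nat_lit 7803172261) (nat_lit 84) (nat_lit 2312674840)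 (nat_lit 25) (nat_lit 5) (nat_lit 29) (nat_lit 5) (nat_lit 26) (nat_lit 4) (nat_lit 350) (nat_lit 268) (nat_lit 246)) (XT.nd (nat_lit 94) (nat_lit 168) (nat_lit 0) (XT.lf (nat_lit 0) (nat_lit 5789983544) (nat_lit 336) (nat_lit 2945704220) (nat_lit 84) (nat_lit 4856877732) (nat_lit 25) (nat_lit 5) (nat_lit 29) (nat_lit 5) (nat_lit 26) (nat_lit 4) (nat_lit 351) (nat_lit 268) (nat_lit 245)) (XT.lf (nat_lit 0) (nat_lit 2026400713) (nat_lit 168) (nat_lit 6425515058) (nat_lit 252) (nat_lit 5449855311) (nat_lit 23) (nat_lit 5) (nat_lit 25) (nat_lit 5) (nat_lit 26) (nat_lit 4) (nat_lit 352) (nat_lit 268) (nat_lit 244)))) (XT.nd (nat_lit 94) (nat_lit 252) (nat_lit 0) (XT.lf (nat_lit 0) (nat_lit 7139093455) (nat_lit 168) (nat_lit 4037546242) (nat_lit 252) (nat_lit 3044653313) (nat_lit 23) (nat_lit 5) (nat_lit 25) (nat_lit 5) (nat_lit 26) (nat_lit 4) (nat_lit 353) (nat_lit 268) (nat_lit 243)) (XT.nd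 (nat_lit 94) (nat_lit 252) (nat_lit 0) (XT.lf (nat_lit 0) (nat_lit 12336569850) (nat_lit 168) (nat_lit 1600302589) (nat_lit 252) (nat_lit 615481168) (nat_lit 23) (nat_lit 5) (nat_lit 25) (nat_lit 5) (nat_lit 26) (nat_lit 4) (nat_lit 354) (nat_lit 268) (nat_lit 242)) (XT.lf (nat_lit 0) (nat_lit 1839574125) (nat_lit 252) (nat_lit 12137239067) (nat_lit 84) (nat_lit 916744152) (nat_lit 20) (nat_lit 5) (nat_lit 23) (nat_lit 5) (nat_lit 21) (nat_lit 4) (nat_lit 355) (nat_lit 268) (nat_lit 241))))) (XT.nd (nat_lit 282) (nat_lit 252) (nat_lit 0) (XT.nd (nat_lit 94) (nat_lit 168) (nat_lit 0) (XT.lf (nat_lit 0) (nat_lit 4350091721) (nat_lit 252) (nat_lit 7411177845) (nat_lit 84) (nat_lit 3484223000) (nat_lit 20) (nat_lit 5) (nat_lit 23) (nat_lit 5) (nat_lit 21) (nat_lit 4) (nat_lit 356) (nat_lit 268) (nat_lit 240)) (XT.nd (nat_lit 94) (nat_lit 168) (nat_lit 0) (XT.lf (nat_lit 0) (nat_lit 6892274804)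 (nat_lit 252) (nat_lit 2609594708) (nat_lit 84) (nat_lit 6108001737) (nat_lit 20) (nat_lit 5) (nat_lit 23) (nat_lit 5) (nat_lit 21) (nat_lit 4) (nat_lit 357) (nat_lit 268) (nat_lit 239)) (XT.lf (nat_lit 0) (nat_lit 2318702612) (nat_lit 168) (nat_lit 7172792159) (nat_lit 252) (nat_lit 6494825206) (nat_lit 18) (nat_lit 5) (nat_lit 20) (nat_lit 5) (nat_lit 21) (nat_lit 4) (nat_lit 358) (nat_lit 268) (nat_lit 238)))) (XT.nd (nat_lit 94) (nat_lit 252) (nat_lit 0) (XT.lf (nat_lit 0) (nat_lit 7386944664) (nat_lit 168) (nat_lit 4767482219) (nat_lit 252) (nat_lit 4220630927) (nat_lit 18) (nat_lit 5) (nat_lit 20) (nat_lit 5) (nat_lit 21) (nat_lit 4) (nat_lit 359) (nat_lit 268) (nat_lit 237)) (XT.nd (nat_lit 94) (nat_lit 252) (nat_lit 0) (XT.lf (nat_lit 0) (nat_lit 12546196959) (nat_lit 168) (nat_lit 2310936509) (nat_lit 252) (nat_lit 1920132638) (nat_lit 18) (nat_lit 5) (nat_lit 20) (nat_lit 5)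 (nat_lit 21) (nat_lit 4) (nat_lit 360) (nat_lit 268) (nat_lit 236)) (XT.lf (nat_lit 0) (nat_lit 408770599) (nat_lit 252) (nat_lit 16578773477) (nat_lit 84) (nat_lit 205395978) (nat_lit 15) (nat_lit 5) (nat_lit 18) (nat_lit 5) (nat_lit 16) (nat_lit 4) (nat_lit 361) (nat_lit 268) (nat_lit 235))))))) (XT.nd (nat_lit 1128) (nat_lit 336) (nat_lit 0) (XT.nd (nat_lit 564) (nat_lit 252) (nat_lit 0) (XT.nd (nat_lit 282) (nat_lit 84) (nat_lit 0) (XT.nd (nat_lit 94) (nat_lit 0) (nat_lit 0) (XT.lf (nat_lit 0) (nat_lit 2796627055) (nat_lit 252) (nat_lit 12030105478) (nat_lit 84) (nat_lit 2793417978) (nat_lit 15) (nat_lit 5) (nat_lit 18) (nat_lit 5) (nat_lit 16) (nat_lit 4) (nat_lit 362) (nat_lit 268) (nat_lit 234)) (XT.nd (nat_lit 94) (nat_lit 0) (nat_lit 0) (XT.lf (nat_lit 0) (nat_lit 5218150194) (nat_lit 252) (nat_lit 7404007952) (nat_lit 84) (nat_lit 5439780181) (nat_lit 15) (nat_lit 5) (nat_lit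 18) (nat_lit 5) (nat_lit 16) (nat_lit 4) (nat_lit 363) (nat_lit 268) (nat_lit 233)) (XT.lf (nat_lit 0) (nat_lit 7675597128) (nat_lit 252) (nat_lit 2696168891) (nat_lit 84) (nat_lit 8146949273) (nat_lit 15) (nat_lit 5) (nat_lit 18) (nat_lit 5) (nat_lit 16) (nat_lit 4) (nat_lit 364) (nat_lit 268) (nat_lit 232)))) (XT.nd (nat_lit 94) (nat_lit 0) (nat_lit 0) (XT.lf (nat_lit 0) (nat_lit 2140934971) (nat_lit 84) (nat_lit 8051561824) (nat_lit 168) (nat_lit 8797751990) (nat_lit 14) (nat_lit 5) (nat_lit 15) (nat_lit 5) (nat_lit 16) (nat_lit 4) (nat_lit 365) (nat_lit 268) (nat_lit 231)) (XT.nd (nat_lit 94) (nat_lit 0) (nat_lit 0) (XT.lf (nat_lit 0) (nat_lit 7125938695) (nat_lit 84) (nat_lit 5652211892) (nat_lit 168) (nat_lit 6698612117) (nat_lit 14) (nat_lit 5) (nat_lit 15) (nat_lit 5) (nat_lit 16) (nat_lit 4) (nat_lit 366) (nat_lit 268) (nat_lit 230)) (XT.lf (nat_lit 0) (nat_lit 12208050066)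 (nat_lit 84) (nat_lit 3199622252) (nat_lit 168) (nat_lit 4571884403) (nat_lit 14) (nat_lit 5) (nat_lit 15) (nat_lit 5) (nat_lit 16) (nat_lit 4) (nat_lit 367) (nat_lit 268) (nat_lit 229))))) (XT.nd (nat_lit 282) (nat_lit 0) (nat_lit 0) (XT.nd (nat_lit 94) (nat_lit 252) (nat_lit 0) (XT.lf (nat_lit 0) (nat_lit 17392006142) (nat_lit 84) (nat_lit 691506833) (nat_lit 168) (nat_lit 2415586513) (nat_lit 14) (nat_lit 5) (nat_lit 15) (nat_lit 5) (nat_lit 16) (nat_lit 4) (nat_lit 368) (nat_lit 268) (nat_lit 228)) (XT.nd (nat_lit 94) (nat_lit 84) (nat_lit 0) (XT.lf (nat_lit 0) (nat_lit 1661647127) (nat_lit 168) (nat_lit 19181598338) (nat_lit 168) (nat_lit 191542370) (nat_lit 12) (nat_lit 4) (nat_lit 14) (nat_lit 5) (nat_lit 14) (nat_lit 4) (nat_lit 369) (nat_lit 268) (nat_lit 227)) (XT.lf (nat_lit 0) (nat_lit 2064689384) (nat_lit 252) (nat_lit 15025409278) (nat_lit 84) (nat_lit 4496229415) (nat_lit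 11) (nat_lit 5) (nat_lit 14) (nat_lit 5) (nat_lit 12) (nat_lit 4) (nat_lit 370) (nat_lit 268) (nat_lit 226)))) (XT.nd (nat_lit 94) (nat_lit 0) (nat_lit 0) (XT.lf (nat_lit 0) (nat_lit 4353661339) (nat_lit 252) (nat_lit 10598367034) (nat_lit 84) (nat_lit 7203969799) (nat_lit 11) (nat_lit 5) (nat_lit 14) (nat_lit 5) (nat_lit 12) (nat_lit 4) (nat_lit 371) (nat_lit 268) (nat_lit 225)) (XT.nd (nat_lit 94) (nat_lit 0) (nat_lit 0) (XT.lf (nat_lit 0) (nat_lit 6681366208) (nat_lit 252) (nat_lit 6085987386) (nat_lit 84) (nat_lit 9977034424) (nat_lit 11) (nat_lit 5) (nat_lit 14) (nat_lit 5) (nat_lit 12) (nat_lit 4) (nat_lit 372) (nat_lit 268) (nat_lit 224)) (XT.lf (nat_lit 0) (nat_lit 9049973656) (nat_lit 252) (nat_lit 1484064322) (nat_lit 84) (nat_lit 12818008076) (nat_lit 11) (nat_lit 5) (nat_lit 14) (nat_lit 5) (nat_lit 12) (nat_lit 4) (nat_lit 373) (nat_lit 268) (nat_lit 223)))))) (XT.nd (nat_lit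 564) (nat_lit 84) (nat_lit 0) (XT.nd (nat_lit 282) (nat_lit 168) (nat_lit 0) (XT.nd (nat_lit 94) (nat_lit 0) (nat_lit 0) (XT.lf (nat_lit 0) (nat_lit 3277730597) (nat_lit 84) (nat_lit 8216476367) (nat_lit 168) (nat_lit 12484323736) (nat_lit 10) (nat_lit 5) (nat_lit 11) (nat_lit 5) (nat_lit 12) (nat_lit 4) (nat_lit 374) (nat_lit 268) (nat_lit 222)) (XT.nd (nat_lit 94) (nat_lit 0) (nat_lit 0) (XT.lf (nat_lit 0) (nat_lit 8170270144) (nat_lit 84) (nat_lit 5829547576) (nat_lit 168) (nat_lit 10625120515) (nat_lit 10) (nat_lit 5) (nat_lit 11) (nat_lit 5) (nat_lit 12) (nat_lit 4) (nat_lit 375) (nat_lit 268) (nat_lit 221)) (XT.lf (nat_lit 0) (nat_lit 13167599272) (nat_lit 84) (nat_lit 3386517324) (nat_lit 168) (nat_lit 8738220351) (nat_lit 10) (nat_lit 5) (nat_lit 11) (nat_lit 5) (nat_lit 12) (nat_lit 4) (nat_lit 376) (nat_lit 268) (nat_lit 220)))) (XT.nd (nat_lit 94) (nat_lit 168) (nat_lit 0)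 (XT.lf (nat_lit 0) (nat_lit 18274376016) (nat_lit 84) (nat_lit 885108452) (nat_lit 168) (nat_lit 6821864454) (nat_lit 10) (nat_lit 5) (nat_lit 11) (nat_lit 5) (nat_lit 12) (nat_lit 4) (nat_lit 377) (nat_lit 268) (nat_lit 219)) (XT.nd (nat_lit 94) (nat_lit 168) (nat_lit 0) (XT.lf (nat_lit 0) (nat_lit 21834985961) (nat_lit 168) (nat_lit 3213892119) (nat_lit 0) (nat_lit 1643222589) (nat_lit 10) (nat_lit 5) (nat_lit 12) (nat_lit 4) (nat_lit 10) (nat_lit 4) (nat_lit 378) (nat_lit 268) (nat_lit 218)) (XT.lf (nat_lit 0) (nat_lit 1394024527) (nat_lit 168) (nat_lit 23195673964) (nat_lit 168) (nat_lit 2835352104) (nat_lit 8) (nat_lit 4) (nat_lit 10) (nat_lit 5) (nat_lit 10) (nat_lit 4) (nat_lit 379) (nat_lit 268) (nat_lit 217))))) (XT.nd (nat_lit 282) (nat_lit 0) (nat_lit 0) (XT.nd (nat_lit 94) (nat_lit 84) (nat_lit 0) (XT.lf (nat_lit 0) (nat_lit 6169876090) (nat_lit 168) (nat_lit 21267239618)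 (nat_lit 168) (nat_lit 743427470) (nat_lit 8) (nat_lit 4) (nat_lit 10) (nat_lit 5) (nat_lit 10) (nat_lit 4) (nat_lit 380) (nat_lit 268) (nat_lit 216)) (XT.nd (nat_lit 94) (nat_lit 0) (nat_lit 0) (XT.lf (nat_lit 0) (nat_lit 1359116422) (nat_lit 252) (nat_lit 17922021173) (nat_lit 84) (nat_lit 9678727141) (nat_lit 7) (nat_lit 5) (nat_lit 10) (nat_lit 5) (nat_lit 8) (nat_lit 4) (nat_lit 381) (nat_lit 268) (nat_lit 215)) (XT.lf (nat_lit 0) (nat_lit 3486416209) (nat_lit 252) (nat_lit 13755281783) (nat_lit 84) (nat_lit 12522229542) (nat_lit 7) (nat_lit 5) (nat_lit 10) (nat_lit 5) (nat_lit 8) (nat_lit 4) (nat_lit 382) (nat_lit 268) (nat_lit 214)))) (XT.nd (nat_lit 94) (nat_lit 0) (nat_lit 0) (XT.lf (nat_lit 0) (nat_lit 5655433165) (nat_lit 252) (nat_lit 9499190188) (nat_lit 84) (nat_lit 15439086316) (nat_lit 7) (nat_lit 5) (nat_lit 10) (nat_lit 5) (nat_lit 8) (nat_lit 4) (nat_lit 383) (nat_lit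 268) (nat_lit 213)) (XT.nd (nat_lit 94) (nat_lit 0) (nat_lit 0) (XT.lf (nat_lit 0) (nat_lit 7868189039) (nat_lit 252) (nat_lit 5149779265) (nat_lit 84) (nat_lit 18432016278) (nat_lit 7) (nat_lit 5) (nat_lit 10) (nat_lit 5) (nat_lit 8) (nat_lit 4) (nat_lit 384) (nat_lit 268) (nat_lit 212)) (XT.lf (nat_lit 0) (nat_lit 10126746352) (nat_lit 252) (nat_lit 702994908) (nat_lit 84) (nat_lit 21503809152) (nat_lit 7) (nat_lit 5) (nat_lit 10) (nat_lit 5) (nat_lit 8) (nat_lit 4) (nat_lit 385) (nat_lit 268) (nat_lit 211))))))))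
noncomputable def xc40 : XT := (XT.nd (nat_lit 2256) (nat_lit 0) (nat_lit 0) (XT.nd (nat_lit 1128) (nat_lit 168) (nat_lit 0) (XT.nd (nat_lit 564) (nat_lit 84) (nat_lit 0) (XT.nd (nat_lit 282) (nat_lit 0) (nat_lit 0) (XT.nd (nat_lit 94) (nat_lit 0) (nat_lit 0) (XT.lf (nat_lit 0) (nat_lit 3924375166) (nat_lit 84) (nat_lit 8547765437) (nat_lit 168) (nat_lit 20771883293) (nat_lit 6) (nat_lit 5) (nat_lit 7) (nat_lit 5) (nat_lit 8) (nat_lit 4) (nat_lit 386) (nat_lit 268) (nat_lit 210)) (XT.nd (nat_lit 94) (nat_lit 0) (nat_lit 0) (XT.lf (nat_lit 0) (nat_lit 8674132653) (nat_lit 84) (nat_lit 6201646614) (nat_lit 168) (nat_lit 19307428563) (nat_lit 6) (nat_lit 5) (nat_lit 7) (nat_lit 5) (nat_lit 8) (nat_lit 4) (nat_lit 387) (nat_lit 268) (nat_lit 209)) (XT.lf (nat_lit 0) (nat_lit 13536249806) (nat_lit 84) (nat_lit 3796535787) (nat_lit 168) (nat_lit 17819412670) (nat_lit 6) (nat_lit 5) (nat_lit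 7) (nat_lit 5) (nat_lit 8) (nat_lit 4) (nat_lit 388) (nat_lit 268) (nat_lit 208)))) (XT.nd (nat_lit 94) (nat_lit 0) (nat_lit 0) (XT.lf (nat_lit 0) (nat_lit 18515258628) (nat_lit 84) (nat_lit 1330191140) (nat_lit 168) (nat_lit 16306448628) (nat_lit 6) (nat_lit 5) (nat_lit 7) (nat_lit 5) (nat_lit 8) (nat_lit 4) (nat_lit 389) (nat_lit 268) (nat_lit 207)) (XT.nd (nat_lit 94) (nat_lit 0) (nat_lit 0) (XT.lf (nat_lit 0) (nat_lit 22428014897) (nat_lit 168) (nat_lit 13579341016) (nat_lit 0) (nat_lit 1175515212) (nat_lit 6) (nat_lit 5) (nat_lit 8) (nat_lit 4) (nat_lit 6) (nat_lit 4) (nat_lit 390) (nat_lit 268) (nat_lit 206)) (XT.lf (nat_lit 0) (nat_lit 25084825376) (nat_lit 168) (nat_lit 9442207548) (nat_lit 0) (nat_lit 3718984446) (nat_lit 6) (nat_lit 5) (nat_lit 8) (nat_lit 4) (nat_lit 6) (nat_lit 4) (nat_lit 391) (nat_lit 268) (nat_lit 205))))) (XT.nd (nat_lit 282) (nat_lit 0) (nat_lit 0) (XT.nd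 (nat_lit 94) (nat_lit 84) (nat_lit 0) (XT.lf (nat_lit 0) (nat_lit 27805161969) (nat_lit 168) (nat_lit 5208187461) (nat_lit 0) (nat_lit 6329387728) (nat_lit 6) (nat_lit 5) (nat_lit 8) (nat_lit 4) (nat_lit 6) (nat_lit 4) (nat_lit 392) (nat_lit 268) (nat_lit 204)) (XT.nd (nat_lit 94) (nat_lit 84) (nat_lit 0) (XT.lf (nat_lit 0) (nat_lit 30591560317) (nat_lit 168) (nat_lit 873334207) (nat_lit 0) (nat_lit 9009158228) (nat_lit 6) (nat_lit 5) (nat_lit 8) (nat_lit 4) (nat_lit 6) (nat_lit 4) (nat_lit 393) (nat_lit 268) (nat_lit 203)) (XT.lf (nat_lit 0) (nat_lit 3639725102) (nat_lit 84) (nat_lit 29842999055) (nat_lit 84) (nat_lit 8157175192) (nat_lit 5) (nat_lit 4) (nat_lit 6) (nat_lit 5) (nat_lit 6) (nat_lit 4) (nat_lit 394) (nat_lit 268) (nat_lit 202)))) (XT.nd (nat_lit 94) (nat_lit 0) (nat_lit 0) (XT.lf (nat_lit 0) (nat_lit 8281995460) (nat_lit 84) (nat_lit 28173158092) (nat_lit 84) (nat_lit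 6387022131) (nat_lit 5) (nat_lit 4) (nat_lit 6) (nat_lit 5) (nat_lit 6) (nat_lit 4) (nat_lit 395) (nat_lit 268) (nat_lit 201)) (XT.nd (nat_lit 94) (nat_lit 0) (nat_lit 0) (XT.lf (nat_lit 0) (nat_lit 13039846407) (nat_lit 84) (nat_lit 26462930986) (nat_lit 84) (nat_lit 4579499100) (nat_lit 5) (nat_lit 4) (nat_lit 6) (nat_lit 5) (nat_lit 6) (nat_lit 4) (nat_lit 396) (nat_lit 268) (nat_lit 200)) (XT.lf (nat_lit 0) (nat_lit 17917712758) (nat_lit 84) (nat_lit 24710723626) (nat_lit 84) (nat_lit 2732921299) (nat_lit 5) (nat_lit 4) (nat_lit 6) (nat_lit 5) (nat_lit 6) (nat_lit 4) (nat_lit 397) (nat_lit 268) (nat_lit 199)))))) (XT.nd (nat_lit 564) (nat_lit 84) (nat_lit 0) (XT.nd (nat_lit 282) (nat_lit 0) (nat_lit 0) (XT.nd (nat_lit 94) (nat_lit 84) (nat_lit 0) (XT.lf (nat_lit 0) (nat_lit 22920141195) (nat_lit 84) (nat_lit 22914902771) (nat_lit 84) (nat_lit 845567524) (nat_lit 5) (nat_lit 4) (nat_lit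 6) (nat_lit 5) (nat_lit 6) (nat_lit 4) (nat_lit 398) (nat_lit 268) (nat_lit 198)) (XT.nd (nat_lit 94) (nat_lit 0) (nat_lit 0) (XT.lf (nat_lit 0) (nat_lit 1062474775) (nat_lit 168) (nat_lit 20000229696) (nat_lit 84) (nat_lit 26978229673) (nat_lit 4) (nat_lit 5) (nat_lit 6) (nat_lit 5) (nat_lit 5) (nat_lit 4) (nat_lit 399) (nat_lit 268) (nat_lit 197)) (XT.lf (nat_lit 0) (nat_lit 2996921586) (nat_lit 168) (nat_lit 16157479492) (nat_lit 84) (nat_lit 30289252629) (nat_lit 4) (nat_lit 5) (nat_lit 6) (nat_lit 5) (nat_lit 5) (nat_lit 4) (nat_lit 400) (nat_lit 268) (nat_lit 196)))) (XT.nd (nat_lit 94) (nat_lit 0) (nat_lit 0) (XT.lf (nat_lit 0) (nat_lit 4976612315) (nat_lit 168) (nat_lit 12220249705) (nat_lit 84) (nat_lit 33693475672) (nat_lit 4) (nat_lit 5) (nat_lit 6) (nat_lit 5) (nat_lit 5) (nat_lit 4) (nat_lit 401) (nat_lit 268) (nat_lit 195)) (XT.nd (nat_lit 94) (nat_lit 0) (nat_lit 0) (XT.lf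 (nat_lit 0) (nat_lit 7003392243) (nat_lit 168) (nat_lit 8184870423) (nat_lit 84) (nat_lit 37194071895) (nat_lit 4) (nat_lit 5) (nat_lit 6) (nat_lit 5) (nat_lit 5) (nat_lit 4) (nat_lit 402) (nat_lit 268) (nat_lit 194)) (XT.lf (nat_lit 0) (nat_lit 9079150540) (nat_lit 168) (nat_lit 4047580250) (nat_lit 84) (nat_lit 40794304221) (nat_lit 4) (nat_lit 5) (nat_lit 6) (nat_lit 5) (nat_lit 5) (nat_lit 4) (nat_lit 403) (nat_lit 268) (nat_lit 193))))) (XT.nd (nat_lit 282) (nat_lit 0) (nat_lit 0) (XT.nd (nat_lit 94) (nat_lit 0) (nat_lit 0) (XT.lf (nat_lit 0) (nat_lit 199496612) (nat_lit 84) (nat_lit 11008304448) (nat_lit 168) (nat_lit 44300010860) (nat_lit 3) (nat_lit 5) (nat_lit 4) (nat_lit 5) (nat_lit 5) (nat_lit 4) (nat_lit 404) (nat_lit 268) (nat_lit 192)) (XT.nd (nat_lit 94) (nat_lit 0) (nat_lit 0) (XT.lf (nat_lit 0) (nat_lit 4641778395) (nat_lit 84) (nat_lit 8789657616) (nat_lit 168) (nat_lit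 43711464974) (nat_lit 3) (nat_lit 5) (nat_lit 4) (nat_lit 5) (nat_lit 5) (nat_lit 4) (nat_lit 405) (nat_lit 268) (nat_lit 191)) (XT.lf (nat_lit 0) (nat_lit 9200179216) (nat_lit 84) (nat_lit 6510970718) (nat_lit 168) (nat_lit 43117946662) (nat_lit 3) (nat_lit 5) (nat_lit 4) (nat_lit 5) (nat_lit 5) (nat_lit 4) (nat_lit 406) (nat_lit 268) (nat_lit 190)))) (XT.nd (nat_lit 94) (nat_lit 0) (nat_lit 0) (XT.lf (nat_lit 0) (nat_lit 13878947984) (nat_lit 84) (nat_lit 4170119780) (nat_lit 168) (nat_lit 42518902704) (nat_lit 3) (nat_lit 5) (nat_lit 4) (nat_lit 5) (nat_lit 5) (nat_lit 4) (nat_lit 407) (nat_lit 268) (nat_lit 189)) (XT.nd (nat_lit 94) (nat_lit 0) (nat_lit 0) (XT.lf (nat_lit 0) (nat_lit 18682445800) (nat_lit 84) (nat_lit 1764922884) (nat_lit 168) (nat_lit 41913774727) (nat_lit 3) (nat_lit 5) (nat_lit 4) (nat_lit 5) (nat_lit 5) (nat_lit 4) (nat_lit 408) (nat_lit 268) (nat_lit 188)) (XT.lf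 (nat_lit 0) (nat_lit 22915300321) (nat_lit 168) (nat_lit 40602148982) (nat_lit 0) (nat_lit 692620173) (nat_lit 3) (nat_lit 5) (nat_lit 5) (nat_lit 4) (nat_lit 3) (nat_lit 4) (nat_lit 409) (nat_lit 268) (nat_lit 187))))))) (XT.nd (nat_lit 47188) (nat_lit 0) (nat_lit 2352) (XT.nd (nat_lit 46624) (nat_lit 0) (nat_lit 3948) (XT.nd (nat_lit 46342) (nat_lit 0) (nat_lit 5124) (XT.nd (nat_lit 94) (nat_lit 0) (nat_lit 0) (XT.lf (nat_lit 0) (nat_lit 25466336019) (nat_lit 168) (nat_lit 37467681904) (nat_lit 0) (nat_lit 3182107768) (nat_lit 3) (nat_lit 5) (nat_lit 5) (nat_lit 4) (nat_lit 3) (nat_lit 4) (nat_lit 410) (nat_lit 268) (nat_lit 186)) (XT.nd (nat_lit 94) (nat_lit 0) (nat_lit 0) (XT.lf (nat_lit 0) (nat_lit 28085345358) (nat_lit 168) (nat_lit 34254866473) (nat_lit 0) (nat_lit 5741419626) (nat_lit 3) (nat_lit 5) (nat_lit 5) (nat_lit 4) (nat_lit 3) (nat_lit 4) (nat_lit 411) (nat_lit 268) (nat_lit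 185)) (XT.lf (nat_lit 0) (nat_lit 30774769528) (nat_lit 168) (nat_lit 30960708009) (nat_lit 0) (nat_lit 8372941294) (nat_lit 3) (nat_lit 5) (nat_lit 5) (nat_lit 4) (nat_lit 3) (nat_lit 4) (nat_lit 412) (nat_lit 268) (nat_lit 184)))) (XT.nd (nat_lit 94) (nat_lit 924) (nat_lit 0) (XT.lf (nat_lit 0) (nat_lit 3941900774) (nat_lit 420) (nat_lit 161527487) (nat_lit 420) (nat_lit 161527487) (nat_lit 75) (nat_lit 4) (nat_lit 80) (nat_lit 5) (nat_lit 80) (nat_lit 4) (nat_lit 326) (nat_lit 269) (nat_lit 269)) (XT.nd (nat_lit 94) (nat_lit 420) (nat_lit 0) (XT.lf (nat_lit 0) (nat_lit 2627451016) (nat_lit 504) (nat_lit 4451985569) (nat_lit 0) (nat_lit 1574833623) (nat_lit 69) (nat_lit 5) (nat_lit 75) (nat_lit 4) (nat_lit 69) (nat_lit 4) (nat_lit 327) (nat_lit 269) (nat_lit 268)) (XT.lf (nat_lit 0) (nat_lit 332388897) (nat_lit 420) (nat_lit 5262981729) (nat_lit 420) (nat_lit 3189396933) (nat_lit 64)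 (nat_lit 4) (nat_lit 69) (nat_lit 5) (nat_lit 69) (nat_lit 4) (nat_lit 328) (nat_lit 269) (nat_lit 267))))) (XT.nd (nat_lit 282) (nat_lit 756) (nat_lit 0) (XT.nd (nat_lit 94) (nat_lit 420) (nat_lit 0) (XT.lf (nat_lit 0) (nat_lit 5260438952) (nat_lit 420) (nat_lit 3362016340) (nat_lit 420) (nat_lit 298162481) (nat_lit 64) (nat_lit 4) (nat_lit 69) (nat_lit 5) (nat_lit 69) (nat_lit 4) (nat_lit 329) (nat_lit 269) (nat_lit 266)) (XT.nd (nat_lit 94) (nat_lit 0) (nat_lit 0) (XT.lf (nat_lit 0) (nat_lit 1179818930) (nat_lit 336) (nat_lit 1382547659) (nat_lit 420) (nat_lit 6499814789) (nat_lit 59) (nat_lit 5) (nat_lit 63) (nat_lit 5) (nat_lit 64) (nat_lit 4) (nat_lit 330) (nat_lit 269) (nat_lit 265)) (XT.lf (nat_lit 0) (nat_lit 5473698905) (nat_lit 420) (nat_lit 3068833263) (nat_lit 0) (nat_lit 666752887) (nat_lit 59) (nat_lit 5) (nat_lit 64) (nat_lit 4) (nat_lit 59) (nat_lit 4) (nat_lit 331)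 (nat_lit 269) (nat_lit 264)))) (XT.nd (nat_lit 94) (nat_lit 420) (nat_lit 0) (XT.lf (nat_lit 0) (nat_lit 1820068996) (nat_lit 336) (nat_lit 6612913029) (nat_lit 336) (nat_lit 929534358) (nat_lit 55) (nat_lit 4) (nat_lit 59) (nat_lit 5) (nat_lit 59) (nat_lit 4) (nat_lit 332) (nat_lit 269) (nat_lit 263)) (XT.nd (nat_lit 94) (nat_lit 336) (nat_lit 0) (XT.lf (nat_lit 0) (nat_lit 1882110159) (nat_lit 420) (nat_lit 2710893106) (nat_lit 84) (nat_lit 4928428621) (nat_lit 54) (nat_lit 5) (nat_lit 59) (nat_lit 5) (nat_lit 55) (nat_lit 4) (nat_lit 333) (nat_lit 269) (nat_lit 262)) (XT.lf (nat_lit 0) (nat_lit 2211238270) (nat_lit 336) (nat_lit 2500340832) (nat_lit 420) (nat_lit 4975184526) (nat_lit 50) (nat_lit 5) (nat_lit 54) (nat_lit 5) (nat_lit 55) (nat_lit 4) (nat_lit 334) (nat_lit 269) (nat_lit 261)))))) (XT.nd (nat_lit 564) (nat_lit 588) (nat_lit 0) (XT.nd (nat_lit 282) (nat_lit 588) (nat_lit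 0) (XT.nd (nat_lit 94) (nat_lit 420) (nat_lit 0) (XT.lf (nat_lit 0) (nat_lit 7250133721) (nat_lit 336) (nat_lit 336198663) (nat_lit 420) (nat_lit 2272430257) (nat_lit 50) (nat_lit 5) (nat_lit 54) (nat_lit 5) (nat_lit 55) (nat_lit 4) (nat_lit 335) (nat_lit 269) (nat_lit 260)) (XT.nd (nat_lit 94) (nat_lit 0) (nat_lit 0) (XT.lf (nat_lit 0) (nat_lit 476507605) (nat_lit 420) (nat_lit 7696994493) (nat_lit 84) (nat_lit 1863491231) (nat_lit 45) (nat_lit 5) (nat_lit 50) (nat_lit 5) (nat_lit 46) (nat_lit 4) (nat_lit 336) (nat_lit 269) (nat_lit 259)) (XT.lf (nat_lit 0) (nat_lit 3225847405) (nat_lit 420) (nat_lit 2842822680) (nat_lit 84) (nat_lit 4152731390) (nat_lit 45) (nat_lit 5) (nat_lit 50) (nat_lit 5) (nat_lit 46) (nat_lit 4) (nat_lit 337) (nat_lit 269) (nat_lit 258)))) (XT.nd (nat_lit 94) (nat_lit 336) (nat_lit 0) (XT.lf (nat_lit 0) (nat_lit 2113930013) (nat_lit 252) (nat_lit 3900961385)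 (nat_lit 336) (nat_lit 4398246785) (nat_lit 42) (nat_lit 5) (nat_lit 45) (nat_lit 5) (nat_lit 46) (nat_lit 4) (nat_lit 338) (nat_lit 269) (nat_lit 257)) (XT.nd (nat_lit 94) (nat_lit 336) (nat_lit 0) (XT.lf (nat_lit 0) (nat_lit 7195035089) (nat_lit 252) (nat_lit 1659648927) (nat_lit 336) (nat_lit 1757436369) (nat_lit 42) (nat_lit 5) (nat_lit 45) (nat_lit 5) (nat_lit 46) (nat_lit 4) (nat_lit 339) (nat_lit 269) (nat_lit 256)) (XT.lf (nat_lit 0) (nat_lit 903387077) (nat_lit 336) (nat_lit 9275501986) (nat_lit 84) (nat_lit 639582746) (nat_lit 38) (nat_lit 5) (nat_lit 42) (nat_lit 5) (nat_lit 39) (nat_lit 4) (nat_lit 340) (nat_lit 269) (nat_lit 255))))) (XT.nd (nat_lit 282) (nat_lit 336) (nat_lit 0) (XT.nd (nat_lit 94) (nat_lit 252) (nat_lit 0) (XT.lf (nat_lit 0) (nat_lit 3599766834) (nat_lit 336) (nat_lit 4425585686) (nat_lit 84) (nat_lit 3005811077) (nat_lit 38) (nat_lit 5) (nat_lit 42) (nat_lit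 5) (nat_lit 39) (nat_lit 4) (nat_lit 341) (nat_lit 269) (nat_lit 254)) (XT.nd (nat_lit 94) (nat_lit 0) (nat_lit 0) (XT.lf (nat_lit 0) (nat_lit 498014744) (nat_lit 252) (nat_lit 5825137592) (nat_lit 336) (nat_lit 4929222760) (nat_lit 35) (nat_lit 5) (nat_lit 38) (nat_lit 5) (nat_lit 39) (nat_lit 4) (nat_lit 342) (nat_lit 269) (nat_lit 253)) (XT.lf (nat_lit 0) (nat_lit 5582247449) (nat_lit 252) (nat_lit 3534385494) (nat_lit 336) (nat_lit 2364422477) (nat_lit 35) (nat_lit 5) (nat_lit 38) (nat_lit 5) (nat_lit 39) (nat_lit 4) (nat_lit 343) (nat_lit 269) (nat_lit 252)))) (XT.nd (nat_lit 94) (nat_lit 252) (nat_lit 0) (XT.lf (nat_lit 0) (nat_lit 214784301) (nat_lit 336) (nat_lit 980128833) (nat_lit 84) (nat_lit 10523826137) (nat_lit 34) (nat_lit 5) (nat_lit 38) (nat_lit 5) (nat_lit 35) (nat_lit 5) (nat_lit 344) (nat_lit 269) (nat_lit 251)) (XT.nd (nat_lit 94) (nat_lit 0) (nat_lit 0) (XT.lf (nat_lit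 0) (nat_lit 2819990335) (nat_lit 336) (nat_lit 7909515493) (nat_lit 84) (nat_lit 1233838349) (nat_lit 31) (nat_lit 5) (nat_lit 35) (nat_lit 5) (nat_lit 32) (nat_lit 4) (nat_lit 345) (nat_lit 269) (nat_lit 250)) (XT.lf (nat_lit 0) (nat_lit 5471524007) (nat_lit 336) (nat_lit 3045830976) (nat_lit 84) (nat_lit 3699392137) (nat_lit 31) (nat_lit 5) (nat_lit 35) (nat_lit 5) (nat_lit 32) (nat_lit 4) (nat_lit 346) (nat_lit 269) (nat_lit 249))))))))
noncomputable def xc41 : XT := (XT.nd (nat_lit 2256) (nat_lit 504) (nat_lit 0) (XT.nd (nat_lit 1128) (nat_lit 588) (nat_lit 0) (XT.nd (nat_lit 564) (nat_lit 420) (nat_lit 0) (XT.nd (nat_lit 282) (nat_lit 420) (nat_lit 0) (XT.nd (nat_lit 94) (nat_lit 84) (nat_lit 0) (XT.lf (nat_lit 0) (nat_lit 1927038544) (nat_lit 168) (nat_lit 6242056644) (nat_lit 252) (nat_lit 4310174724) (nat_lit 29) (nat_lit 5) (nat_lit 31) (nat_lit 5) (nat_lit 32) (nat_lit 4) (nat_lit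 347) (nat_lit 269) (nat_lit 248)) (XT.nd (nat_lit 94) (nat_lit 84) (nat_lit 0) (XT.lf (nat_lit 0) (nat_lit 7039036416) (nat_lit 168) (nat_lit 3888642793) (nat_lit 252) (nat_lit 1823091754) (nat_lit 29) (nat_lit 5) (nat_lit 31) (nat_lit 5) (nat_lit 32) (nat_lit 4) (nat_lit 348) (nat_lit 269) (nat_lit 247)) (XT.lf (nat_lit 0) (nat_lit 672719300) (nat_lit 252) (nat_lit 806970920) (nat_lit 84) (nat_lit 11552557914) (nat_lit 28) (nat_lit 5) (nat_lit 31) (nat_lit 5) (nat_lit 29) (nat_lit 5) (nat_lit 349) (nat_lit 269) (nat_lit 246)))) (XT.nd (nat_lit 94) (nat_lit 168) (nat_lit 0) (XT.lf (nat_lit 0) (nat_lit 3208603728) (nat_lit 336) (nat_lit 9092088693) (nat_lit 84) (nat_lit 1021289796) (nat_lit 25) (nat_lit 5) (nat_lit 29) (nat_lit 5) (nat_lit 26) (nat_lit 4) (nat_lit 350) (nat_lit 269) (nat_lit 245)) (XT.nd (nat_lit 94) (nat_lit 168) (nat_lit 0) (XT.lf (nat_lit 0) (nat_lit 5795480796) (nat_lit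 336) (nat_lit 4272420788) (nat_lit 84) (nat_lit 3553775782) (nat_lit 25) (nat_lit 5) (nat_lit 29) (nat_lit 5) (nat_lit 26) (nat_lit 4) (nat_lit 351) (nat_lit 269) (nat_lit 244)) (XT.lf (nat_lit 0) (nat_lit 634986689) (nat_lit 168) (nat_lit 7784142077) (nat_lit 252) (nat_lit 5512999784) (nat_lit 23) (nat_lit 5) (nat_lit 25) (nat_lit 5) (nat_lit 26) (nat_lit 4) (nat_lit 352) (nat_lit 269) (nat_lit 243))))) (XT.nd (nat_lit 282) (nat_lit 168) (nat_lit 0) (XT.nd (nat_lit 94) (nat_lit 252) (nat_lit 0) (XT.lf (nat_lit 0) (nat_lit 5711387052) (nat_lit 168) (nat_lit 5408360458) (nat_lit 252) (nat_lit 3132707246) (nat_lit 23) (nat_lit 5) (nat_lit 25) (nat_lit 5) (nat_lit 26) (nat_lit 4) (nat_lit 353) (nat_lit 269) (nat_lit 242)) (XT.nd (nat_lit 94) (nat_lit 252) (nat_lit 0) (XT.lf (nat_lit 0) (nat_lit 10873662303) (nat_lit 168) (nat_lit 2982937560) (nat_lit 252) (nat_lit 727695587) (nat_lit 23)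 (nat_lit 5) (nat_lit 25) (nat_lit 5) (nat_lit 26) (nat_lit 4) (nat_lit 354) (nat_lit 269) (nat_lit 241)) (XT.lf (nat_lit 0) (nat_lit 1206057004) (nat_lit 168) (nat_lit 475846764) (nat_lit 252) (nat_lit 13245161178) (nat_lit 20) (nat_lit 5) (nat_lit 22) (nat_lit 5) (nat_lit 23) (nat_lit 5) (nat_lit 355) (nat_lit 269) (nat_lit 240)))) (XT.nd (nat_lit 94) (nat_lit 168) (nat_lit 0) (XT.lf (nat_lit 0) (nat_lit 4164972910) (nat_lit 252) (nat_lit 9025177508) (nat_lit 84) (nat_lit 2089751115) (nat_lit 20) (nat_lit 5) (nat_lit 23) (nat_lit 5) (nat_lit 21) (nat_lit 4) (nat_lit 356) (nat_lit 269) (nat_lit 239)) (XT.nd (nat_lit 94) (nat_lit 168) (nat_lit 0) (XT.lf (nat_lit 0) (nat_lit 6685111381) (nat_lit 252) (nat_lit 4257494707) (nat_lit 84) (nat_lit 4702406458) (nat_lit 20) (nat_lit 5) (nat_lit 23) (nat_lit 5) (nat_lit 21) (nat_lit 4) (nat_lit 357) (nat_lit 269) (nat_lit 238)) (XT.lf (nat_lit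 0) (nat_lit 603361283) (nat_lit 168) (nat_lit 8642571889) (nat_lit 252) (nat_lit 6776765919) (nat_lit 18) (nat_lit 5) (nat_lit 20) (nat_lit 5) (nat_lit 21) (nat_lit 4) (nat_lit 358) (nat_lit 269) (nat_lit 237)))))) (XT.nd (nat_lit 564) (nat_lit 336) (nat_lit 0) (XT.nd (nat_lit 282) (nat_lit 168) (nat_lit 0) (XT.nd (nat_lit 94) (nat_lit 84) (nat_lit 0) (XT.lf (nat_lit 0) (nat_lit 5639055201) (nat_lit 168) (nat_lit 6248748329) (nat_lit 252) (nat_lit 4524332356) (nat_lit 18) (nat_lit 5) (nat_lit 20) (nat_lit 5) (nat_lit 21) (nat_lit 4) (nat_lit 359) (nat_lit 269) (nat_lit 236)) (XT.nd (nat_lit 94) (nat_lit 84) (nat_lit 0) (XT.lf (nat_lit 0) (nat_lit 10766738016) (nat_lit 168) (nat_lit 3803343627) (nat_lit 252) (nat_lit 2244940484) (nat_lit 18) (nat_lit 5) (nat_lit 20) (nat_lit 5) (nat_lit 21) (nat_lit 4) (nat_lit 360) (nat_lit 269) (nat_lit 235)) (XT.lf (nat_lit 0) (nat_lit 62254251) (nat_lit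 252) (nat_lit 1241174353) (nat_lit 84) (nat_lit 15928285208) (nat_lit 17) (nat_lit 5) (nat_lit 20) (nat_lit 5) (nat_lit 18) (nat_lit 5) (nat_lit 361) (nat_lit 269) (nat_lit 234)))) (XT.nd (nat_lit 94) (nat_lit 0) (nat_lit 0) (XT.lf (nat_lit 0) (nat_lit 2404615798) (nat_lit 252) (nat_lit 13968376478) (nat_lit 84) (nat_lit 1287383089) (nat_lit 15) (nat_lit 5) (nat_lit 18) (nat_lit 5) (nat_lit 16) (nat_lit 4) (nat_lit 362) (nat_lit 269) (nat_lit 233)) (XT.nd (nat_lit 94) (nat_lit 0) (nat_lit 0) (XT.lf (nat_lit 0) (nat_lit 4806865957) (nat_lit 252) (nat_lit 9372642068) (nat_lit 84) (nat_lit 3923292146) (nat_lit 15) (nat_lit 5) (nat_lit 18) (nat_lit 5) (nat_lit 16) (nat_lit 4) (nat_lit 363) (nat_lit 269) (nat_lit 232)) (XT.lf (nat_lit 0) (nat_lit 7245619409) (nat_lit 252) (nat_lit 4694253168) (nat_lit 84) (nat_lit 6620322398) (nat_lit 15) (nat_lit 5) (nat_lit 18) (nat_lit 5) (nat_lit 16)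 (nat_lit 4) (nat_lit 364) (nat_lit 269) (nat_lit 231))))) (XT.nd (nat_lit 282) (nat_lit 252) (nat_lit 0) (XT.nd (nat_lit 94) (nat_lit 0) (nat_lit 0) (XT.lf (nat_lit 0) (nat_lit 72613979) (nat_lit 84) (nat_lit 9651255689) (nat_lit 168) (nat_lit 9309094118) (nat_lit 14) (nat_lit 5) (nat_lit 15) (nat_lit 5) (nat_lit 16) (nat_lit 4) (nat_lit 365) (nat_lit 269) (nat_lit 230)) (XT.nd (nat_lit 94) (nat_lit 0) (nat_lit 0) (XT.lf (nat_lit 0) (nat_lit 5029342238) (nat_lit 84) (nat_lit 7262314492) (nat_lit 168) (nat_lit 7228410914) (nat_lit 14) (nat_lit 5) (nat_lit 15) (nat_lit 5) (nat_lit 16) (nat_lit 4) (nat_lit 366) (nat_lit 269) (nat_lit 229)) (XT.lf (nat_lit 0) (nat_lit 10084028327) (nat_lit 84) (nat_lit 4819820618) (nat_lit 168) (nat_lit 5119584915) (nat_lit 14) (nat_lit 5) (nat_lit 15) (nat_lit 5) (nat_lit 16) (nat_lit 4) (nat_lit 367) (nat_lit 269) (nat_lit 228)))) (XT.nd (nat_lit 94) (nat_lit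 252) (nat_lit 0) (XT.lf (nat_lit 0) (nat_lit 15241383742) (nat_lit 84) (nat_lit 2321497406) (nat_lit 168) (nat_lit 2980650474) (nat_lit 14) (nat_lit 5) (nat_lit 15) (nat_lit 5) (nat_lit 16) (nat_lit 4) (nat_lit 368) (nat_lit 269) (nat_lit 227)) (XT.nd (nat_lit 94) (nat_lit 252) (nat_lit 0) (XT.lf (nat_lit 0) (nat_lit 20273562906) (nat_lit 168) (nat_lit 576961107) (nat_lit 0) (nat_lit 230249440) (nat_lit 14) (nat_lit 5) (nat_lit 16) (nat_lit 4) (nat_lit 14) (nat_lit 4) (nat_lit 369) (nat_lit 269) (nat_lit 226)) (XT.lf (nat_lit 0) (nat_lit 1439166051) (nat_lit 252) (nat_lit 17342227012) (nat_lit 84) (nat_lit 2851830973) (nat_lit 11) (nat_lit 5) (nat_lit 14) (nat_lit 5) (nat_lit 12) (nat_lit 4) (nat_lit 370) (nat_lit 269) (nat_lit 225))))))) (XT.nd (nat_lit 1128) (nat_lit 168) (nat_lit 0) (XT.nd (nat_lit 564) (nat_lit 252) (nat_lit 0) (XT.nd (nat_lit 282) (nat_lit 84) (nat_lit 0) (XT.nd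 (nat_lit 94) (nat_lit 0) (nat_lit 0) (XT.lf (nat_lit 0) (nat_lit 3712271331) (nat_lit 252) (nat_lit 12940739128) (nat_lit 84) (nat_lit 5550405571) (nat_lit 11) (nat_lit 5) (nat_lit 14) (nat_lit 5) (nat_lit 12) (nat_lit 4) (nat_lit 371) (nat_lit 269) (nat_lit 224)) (XT.nd (nat_lit 94) (nat_lit 0) (nat_lit 0) (XT.lf (nat_lit 0) (nat_lit 6024586603) (nat_lit 252) (nat_lit 8453145473) (nat_lit 84) (nat_lit 8314580005) (nat_lit 11) (nat_lit 5) (nat_lit 14) (nat_lit 5) (nat_lit 12) (nat_lit 4) (nat_lit 372) (nat_lit 269) (nat_lit 223)) (XT.lf (nat_lit 0) (nat_lit 8378267185) (nat_lit 252) (nat_lit 3875263141) (nat_lit 84) (nat_lit 11146930777) (nat_lit 11) (nat_lit 5) (nat_lit 14) (nat_lit 5) (nat_lit 12) (nat_lit 4) (nat_lit 373) (nat_lit 269) (nat_lit 222)))) (XT.nd (nat_lit 94) (nat_lit 0) (nat_lit 0) (XT.lf (nat_lit 0) (nat_lit 813566485) (nat_lit 84) (nat_lit 9970011151) (nat_lit 168)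 (nat_lit 13244602127) (nat_lit 10) (nat_lit 5) (nat_lit 11) (nat_lit 5) (nat_lit 12) (nat_lit 4) (nat_lit 374) (nat_lit 269) (nat_lit 221)) (XT.nd (nat_lit 94) (nat_lit 0) (nat_lit 0) (XT.lf (nat_lit 0) (nat_lit 5683024228) (nat_lit 84) (nat_lit 7591892468) (nat_lit 168) (nat_lit 11400139603) (nat_lit 10) (nat_lit 5) (nat_lit 11) (nat_lit 5) (nat_lit 12) (nat_lit 4) (nat_lit 375) (nat_lit 269) (nat_lit 220)) (XT.lf (nat_lit 0) (nat_lit 10657965573) (nat_lit 84) (nat_lit 5157407424) (nat_lit 168) (nat_lit 9527536915) (nat_lit 10) (nat_lit 5) (nat_lit 11) (nat_lit 5) (nat_lit 12) (nat_lit 4) (nat_lit 376) (nat_lit 269) (nat_lit 219))))) (XT.nd (nat_lit 282) (nat_lit 252) (nat_lit 0) (XT.nd (nat_lit 94) (nat_lit 0) (nat_lit 0) (XT.lf (nat_lit 0) (nat_lit 15743027686) (nat_lit 84) (nat_lit 2664286823) (nat_lit 168) (nat_lit 7625048599) (nat_lit 10) (nat_lit 5) (nat_lit 11) (nat_lit 5) (nat_lit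 12) (nat_lit 4) (nat_lit 377) (nat_lit 269) (nat_lit 218)) (XT.nd (nat_lit 94) (nat_lit 0) (nat_lit 0) (XT.lf (nat_lit 0) (nat_lit 20942950378) (nat_lit 84) (nat_lit 110206816) (nat_lit 168) (nat_lit 5690901339) (nat_lit 10) (nat_lit 5) (nat_lit 11) (nat_lit 5) (nat_lit 12) (nat_lit 4) (nat_lit 378) (nat_lit 269) (nat_lit 217)) (XT.lf (nat_lit 0) (nat_lit 23780239120) (nat_lit 168) (nat_lit 1240950903) (nat_lit 0) (nat_lit 2456698508) (nat_lit 10) (nat_lit 5) (nat_lit 12) (nat_lit 4) (nat_lit 10) (nat_lit 4) (nat_lit 379) (nat_lit 269) (nat_lit 216)))) (XT.nd (nat_lit 94) (nat_lit 84) (nat_lit 0) (XT.lf (nat_lit 0) (nat_lit 3488828230) (nat_lit 168) (nat_lit 23113734350) (nat_lit 168) (nat_lit 1631619258) (nat_lit 8) (nat_lit 4) (nat_lit 10) (nat_lit 5) (nat_lit 10) (nat_lit 4) (nat_lit 380) (nat_lit 269) (nat_lit 215)) (XT.nd (nat_lit 94) (nat_lit 0) (nat_lit 0) (XT.lf (nat_lit 0) (nat_lit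 476520247) (nat_lit 252) (nat_lit 20668108948) (nat_lit 84) (nat_lit 7869550089) (nat_lit 7) (nat_lit 5) (nat_lit 10) (nat_lit 5) (nat_lit 8) (nat_lit 4) (nat_lit 381) (nat_lit 269) (nat_lit 214)) (XT.lf (nat_lit 0) (nat_lit 2591890381) (nat_lit 252) (nat_lit 16520974046) (nat_lit 84) (nat_lit 10705768295) (nat_lit 7) (nat_lit 5) (nat_lit 10) (nat_lit 5) (nat_lit 8) (nat_lit 4) (nat_lit 382) (nat_lit 269) (nat_lit 213)))))) (XT.nd (nat_lit 564) (nat_lit 84) (nat_lit 0) (XT.nd (nat_lit 282) (nat_lit 84) (nat_lit 0) (XT.nd (nat_lit 94) (nat_lit 0) (nat_lit 0) (XT.lf (nat_lit 0) (nat_lit 4749336383) (nat_lit 252) (nat_lit 12283897474) (nat_lit 84) (nat_lit 13615559893) (nat_lit 7) (nat_lit 5) (nat_lit 10) (nat_lit 5) (nat_lit 8) (nat_lit 4) (nat_lit 383) (nat_lit 269) (nat_lit 212)) (XT.nd (nat_lit 94) (nat_lit 0) (nat_lit 0) (XT.lf (nat_lit 0) (nat_lit 6950869217) (nat_lit 252) (nat_lit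 7952929833) (nat_lit 84) (nat_lit 16601637114) (nat_lit 7) (nat_lit 5) (nat_lit 10) (nat_lit 5) (nat_lit 8) (nat_lit 4) (nat_lit 384) (nat_lit 269) (nat_lit 211)) (XT.lf (nat_lit 0) (nat_lit 9198540944) (nat_lit 252) (nat_lit 3524034206) (nat_lit 84) (nat_lit 19666783295) (nat_lit 7) (nat_lit 5) (nat_lit 10) (nat_lit 5) (nat_lit 8) (nat_lit 4) (nat_lit 385) (nat_lit 269) (nat_lit 210)))) (XT.nd (nat_lit 94) (nat_lit 0) (nat_lit 0) (XT.lf (nat_lit 0) (nat_lit 1027621890) (nat_lit 84) (nat_lit 10477018874) (nat_lit 168) (nat_lit 21796427719) (nat_lit 6) (nat_lit 5) (nat_lit 7) (nat_lit 5) (nat_lit 8) (nat_lit 4) (nat_lit 386) (nat_lit 269) (nat_lit 209)) (XT.nd (nat_lit 94) (nat_lit 0) (nat_lit 0) (XT.lf (nat_lit 0) (nat_lit 5760204185) (nat_lit 84) (nat_lit 8137664049) (nat_lit 168) (nat_lit 20342724802) (nat_lit 6) (nat_lit 5) (nat_lit 7) (nat_lit 5) (nat_lit 8) (nat_lit 4) (nat_lit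 387) (nat_lit 269) (nat_lit 208)) (XT.lf (nat_lit 0) (nat_lit 10605662568) (nat_lit 84) (nat_lit 5739113840) (nat_lit 168) (nat_lit 18865137439) (nat_lit 6) (nat_lit 5) (nat_lit 7) (nat_lit 5) (nat_lit 8) (nat_lit 4) (nat_lit 388) (nat_lit 269) (nat_lit 207))))) (XT.nd (nat_lit 282) (nat_lit 84) (nat_lit 0) (XT.nd (nat_lit 94) (nat_lit 0) (nat_lit 0) (XT.lf (nat_lit 0) (nat_lit 15568513514) (nat_lit 84) (nat_lit 3279132549) (nat_lit 168) (nat_lit 17362288363) (nat_lit 6) (nat_lit 5) (nat_lit 7) (nat_lit 5) (nat_lit 8) (nat_lit 4) (nat_lit 389) (nat_lit 269) (nat_lit 206)) (XT.nd (nat_lit 94) (nat_lit 0) (nat_lit 0) (XT.lf (nat_lit 0) (nat_lit 20653382920) (nat_lit 84) (nat_lit 755427214) (nat_lit 168) (nat_lit 15832776761) (nat_lit 6) (nat_lit 5) (nat_lit 7) (nat_lit 5) (nat_lit 8) (nat_lit 4) (nat_lit 390) (nat_lit 269) (nat_lit 205)) (XT.lf (nat_lit 0) (nat_lit 24048852920) (nat_lit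 168) (nat_lit 12459019470) (nat_lit 0) (nat_lit 1797396366) (nat_lit 6) (nat_lit 5) (nat_lit 8) (nat_lit 4) (nat_lit 6) (nat_lit 4) (nat_lit 391) (nat_lit 269) (nat_lit 204)))) (XT.nd (nat_lit 94) (nat_lit 84) (nat_lit 0) (XT.lf (nat_lit 0) (nat_lit 26760194595) (nat_lit 168) (nat_lit 8239977943) (nat_lit 0) (nat_lit 4402110192) (nat_lit 6) (nat_lit 5) (nat_lit 8) (nat_lit 4) (nat_lit 6) (nat_lit 4) (nat_lit 392) (nat_lit 269) (nat_lit 203)) (XT.nd (nat_lit 94) (nat_lit 84) (nat_lit 0) (XT.lf (nat_lit 0) (nat_lit 29537868482) (nat_lit 168) (nat_lit 3919652875) (nat_lit 0) (nat_lit 7076362306) (nat_lit 6) (nat_lit 5) (nat_lit 8) (nat_lit 4) (nat_lit 6) (nat_lit 4) (nat_lit 393) (nat_lit 269) (nat_lit 202)) (XT.lf (nat_lit 0) (nat_lit 516386773) (nat_lit 84) (nat_lit 31873199511) (nat_lit 84) (nat_lit 9311381236) (nat_lit 5) (nat_lit 4) (nat_lit 6) (nat_lit 5) (nat_lit 6) (nat_lit 4) (nat_lit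 394) (nat_lit 269) (nat_lit 201))))))))
noncomputable def xc42 : XT := (XT.nd (nat_lit 48128) (nat_lit 0) (nat_lit 1680) (XT.nd (nat_lit 1128) (nat_lit 0) (nat_lit 0) (XT.nd (nat_lit 564) (nat_lit 84) (nat_lit 0) (XT.nd (nat_lit 282) (nat_lit 84) (nat_lit 0) (XT.nd (nat_lit 94) (nat_lit 0) (nat_lit 0) (XT.lf (nat_lit 0) (nat_lit 5144708440) (nat_lit 84) (nat_lit 30208961170) (nat_lit 84) (nat_lit 7549846971) (nat_lit 5) (nat_lit 4) (nat_lit 6) (nat_lit 5) (nat_lit 6) (nat_lit 4) (nat_lit 395) (nat_lit 269) (nat_lit 200)) (XT.nd (nat_lit 94) (nat_lit 0) (nat_lit 0) (XT.lf (nat_lit 0) (nat_lit 9889030103) (nat_lit 84) (nat_lit 28504168228) (nat_lit 84) (nat_lit 5750683588) (nat_lit 5) (nat_lit 4) (nat_lit 6) (nat_lit 5) (nat_lit 6) (nat_lit 4) (nat_lit 396) (nat_lit 269) (nat_lit 199)) (XT.lf (nat_lit 0) (nat_lit 14753773967) (nat_lit 84) (nat_lit 26757231638) (nat_lit 84) (nat_lit 3912214077)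 (nat_lit 5) (nat_lit 4) (nat_lit 6) (nat_lit 5) (nat_lit 6) (nat_lit 4) (nat_lit 397) (nat_lit 269) (nat_lit 198)))) (XT.nd (nat_lit 94) (nat_lit 84) (nat_lit 0) (XT.lf (nat_lit 0) (nat_lit 19743474483) (nat_lit 84) (nat_lit 24966523072) (nat_lit 84) (nat_lit 2032724794) (nat_lit 5) (nat_lit 4) (nat_lit 6) (nat_lit 5) (nat_lit 6) (nat_lit 4) (nat_lit 398) (nat_lit 269) (nat_lit 197)) (XT.nd (nat_lit 94) (nat_lit 84) (nat_lit 0) (XT.lf (nat_lit 0) (nat_lit 24862782575) (nat_lit 84) (nat_lit 23130373403) (nat_lit 84) (nat_lit 110463856) (nat_lit 5) (nat_lit 4) (nat_lit 6) (nat_lit 5) (nat_lit 6) (nat_lit 4) (nat_lit 399) (nat_lit 269) (nat_lit 196)) (XT.lf (nat_lit 0) (nat_lit 1818958957) (nat_lit 168) (nat_lit 19409125989) (nat_lit 84) (nat_lit 28278524816) (nat_lit 4) (nat_lit 5) (nat_lit 6) (nat_lit 5) (nat_lit 5) (nat_lit 4) (nat_lit 400) (nat_lit 269) (nat_lit 195))))) (XT.nd (nat_lit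 282) (nat_lit 84) (nat_lit 0) (XT.nd (nat_lit 94) (nat_lit 0) (nat_lit 0) (XT.lf (nat_lit 0) (nat_lit 3791618069) (nat_lit 168) (nat_lit 15483666082) (nat_lit 84) (nat_lit 31678238881) (nat_lit 4) (nat_lit 5) (nat_lit 6) (nat_lit 5) (nat_lit 5) (nat_lit 4) (nat_lit 401) (nat_lit 269) (nat_lit 194)) (XT.nd (nat_lit 94) (nat_lit 0) (nat_lit 0) (XT.lf (nat_lit 0) (nat_lit 5811577806) (nat_lit 168) (nat_lit 11459702786) (nat_lit 84) (nat_lit 35174461701) (nat_lit 4) (nat_lit 5) (nat_lit 6) (nat_lit 5) (nat_lit 5) (nat_lit 4) (nat_lit 402) (nat_lit 269) (nat_lit 193)) (XT.lf (nat_lit 0) (nat_lit 7880720980) (nat_lit 168) (nat_lit 7333485344) (nat_lit 84) (nat_lit 38770452124) (nat_lit 4) (nat_lit 5) (nat_lit 6) (nat_lit 5) (nat_lit 5) (nat_lit 4) (nat_lit 403) (nat_lit 269) (nat_lit 192)))) (XT.nd (nat_lit 94) (nat_lit 84) (nat_lit 0) (XT.lf (nat_lit 0) (nat_lit 10000976251) (nat_lit 168)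 (nat_lit 3101167690) (nat_lit 84) (nat_lit 42469561987) (nat_lit 4) (nat_lit 5) (nat_lit 6) (nat_lit 5) (nat_lit 5) (nat_lit 4) (nat_lit 404) (nat_lit 269) (nat_lit 191)) (XT.nd (nat_lit 94) (nat_lit 0) (nat_lit 0) (XT.lf (nat_lit 0) (nat_lit 1266716657) (nat_lit 84) (nat_lit 10920169247) (nat_lit 168) (nat_lit 45021088578) (nat_lit 3) (nat_lit 5) (nat_lit 4) (nat_lit 5) (nat_lit 5) (nat_lit 4) (nat_lit 405) (nat_lit 269) (nat_lit 190)) (XT.lf (nat_lit 0) (nat_lit 5814806065) (nat_lit 84) (nat_lit 8645655295) (nat_lit 168) (nat_lit 44433908731) (nat_lit 3) (nat_lit 5) (nat_lit 4) (nat_lit 5) (nat_lit 5) (nat_lit 4) (nat_lit 406) (nat_lit 269) (nat_lit 189)))))) (XT.nd (nat_lit 46436) (nat_lit 0) (nat_lit 5040) (XT.nd (nat_lit 282) (nat_lit 0) (nat_lit 0) (XT.nd (nat_lit 94) (nat_lit 0) (nat_lit 0) (XT.lf (nat_lit 0) (nat_lit 10483573463) (nat_lit 84) (nat_lit 6308851832) (nat_lit 168)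 (nat_lit 43841012652) (nat_lit 3) (nat_lit 5) (nat_lit 4) (nat_lit 5) (nat_lit 5) (nat_lit 4) (nat_lit 407) (nat_lit 269) (nat_lit 188)) (XT.nd (nat_lit 94) (nat_lit 0) (nat_lit 0) (XT.lf (nat_lit 0) (nat_lit 15277370629) (nat_lit 84) (nat_lit 3907580711) (nat_lit 168) (nat_lit 43241847702) (nat_lit 3) (nat_lit 5) (nat_lit 4) (nat_lit 5) (nat_lit 5) (nat_lit 4) (nat_lit 408) (nat_lit 269) (nat_lit 187)) (XT.lf (nat_lit 0) (nat_lit 20200665886) (nat_lit 84) (nat_lit 1439603697) (nat_lit 168) (nat_lit 42635855395) (nat_lit 3) (nat_lit 5) (nat_lit 4) (nat_lit 5) (nat_lit 5) (nat_lit 4) (nat_lit 409) (nat_lit 269) (nat_lit 186)))) (XT.nd (nat_lit 94) (nat_lit 0) (nat_lit 0) (XT.lf (nat_lit 0) (nat_lit 24171554779) (nat_lit 168) (nat_lit 40935977401) (nat_lit 0) (nat_lit 1075269869) (nat_lit 3) (nat_lit 5) (nat_lit 5) (nat_lit 4) (nat_lit 3) (nat_lit 4) (nat_lit 410) (nat_lit 269) (nat_lit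 185)) (XT.nd (nat_lit 94) (nat_lit 0) (nat_lit 0) (XT.lf (nat_lit 0) (nat_lit 26785259116) (nat_lit 168) (nat_lit 37732149782) (nat_lit 0) (nat_lit 3631071703) (nat_lit 3) (nat_lit 5) (nat_lit 5) (nat_lit 4) (nat_lit 3) (nat_lit 4) (nat_lit 411) (nat_lit 269) (nat_lit 184)) (XT.lf (nat_lit 0) (nat_lit 29469537796) (nat_lit 168) (nat_lit 34446708885) (nat_lit 0) (nat_lit 6259188885) (nat_lit 3) (nat_lit 5) (nat_lit 5) (nat_lit 4) (nat_lit 3) (nat_lit 4) (nat_lit 412) (nat_lit 269) (nat_lit 183))))) (XT.nd (nat_lit 282) (nat_lit 924) (nat_lit 0) (XT.nd (nat_lit 94) (nat_lit 504) (nat_lit 0) (XT.lf (nat_lit 0) (nat_lit 1639081386) (nat_lit 504) (nat_lit 868628498) (nat_lit 0) (nat_lit 1639081386) (nat_lit 80) (nat_lit 5) (nat_lit 86) (nat_lit 4) (nat_lit 80) (nat_lit 4) (nat_lit 324) (nat_lit 270) (nat_lit 270)) (XT.nd (nat_lit 94) (nat_lit 84) (nat_lit 0) (XT.lf (nat_lit 0) (nat_lit 3005808973)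 (nat_lit 420) (nat_lit 3261297981) (nat_lit 420) (nat_lit 2142406745) (nat_lit 75) (nat_lit 4) (nat_lit 80) (nat_lit 5) (nat_lit 80) (nat_lit 4) (nat_lit 325) (nat_lit 270) (nat_lit 269)) (XT.lf (nat_lit 0) (nat_lit 739382832) (nat_lit 504) (nat_lit 702453234) (nat_lit 84) (nat_lit 7089235143) (nat_lit 74) (nat_lit 5) (nat_lit 80) (nat_lit 5) (nat_lit 75) (nat_lit 4) (nat_lit 326) (nat_lit 270) (nat_lit 268)))) (XT.nd (nat_lit 94) (nat_lit 504) (nat_lit 0) (XT.lf (nat_lit 0) (nat_lit 3631943623) (nat_lit 504) (nat_lit 4552018085) (nat_lit 0) (nat_lit 473110295) (nat_lit 69) (nat_lit 5) (nat_lit 75) (nat_lit 4) (nat_lit 69) (nat_lit 4) (nat_lit 327) (nat_lit 270) (nat_lit 267)) (XT.nd (nat_lit 94) (nat_lit 84) (nat_lit 0) (XT.lf (nat_lit 0) (nat_lit 181545309) (nat_lit 420) (nat_lit 6378255430) (nat_lit 420) (nat_lit 2229153040) (nat_lit 64) (nat_lit 4) (nat_lit 69) (nat_lit 5) (nat_lit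 69) (nat_lit 4) (nat_lit 328) (nat_lit 270) (nat_lit 266)) (XT.lf (nat_lit 0) (nat_lit 610343538) (nat_lit 504) (nat_lit 3869988418) (nat_lit 84) (nat_lit 4445592828) (nat_lit 63) (nat_lit 5) (nat_lit 69) (nat_lit 5) (nat_lit 64) (nat_lit 4) (nat_lit 329) (nat_lit 270) (nat_lit 265))))))) (XT.nd (nat_lit 1128) (nat_lit 1260) (nat_lit 0) (XT.nd (nat_lit 564) (nat_lit 1008) (nat_lit 0) (XT.nd (nat_lit 282) (nat_lit 420) (nat_lit 0) (XT.nd (nat_lit 94) (nat_lit 336) (nat_lit 0) (XT.lf (nat_lit 0) (nat_lit 914952833) (nat_lit 336) (nat_lit 2510041115) (nat_lit 420) (nat_lit 5643768780) (nat_lit 59) (nat_lit 5) (nat_lit 63) (nat_lit 5) (nat_lit 64) (nat_lit 4) (nat_lit 330) (nat_lit 270) (nat_lit 264)) (XT.nd (nat_lit 94) (nat_lit 336) (nat_lit 0) (XT.lf (nat_lit 0) (nat_lit 5836256422) (nat_lit 336) (nat_lit 456736371) (nat_lit 420) (nat_lit 2924343055) (nat_lit 59) (nat_lit 5) (nat_lit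 63) (nat_lit 5) (nat_lit 64) (nat_lit 4) (nat_lit 331) (nat_lit 270) (nat_lit 263)) (XT.lf (nat_lit 0) (nat_lit 1459054163) (nat_lit 336) (nat_lit 7749532958) (nat_lit 336) (nat_lit 163456725) (nat_lit 55) (nat_lit 4) (nat_lit 59) (nat_lit 5) (nat_lit 59) (nat_lit 4) (nat_lit 332) (nat_lit 270) (nat_lit 262)))) (XT.nd (nat_lit 94) (nat_lit 336) (nat_lit 0) (XT.lf (nat_lit 0) (nat_lit 2597320392) (nat_lit 420) (nat_lit 3135438562) (nat_lit 84) (nat_lit 3799178289) (nat_lit 54) (nat_lit 5) (nat_lit 59) (nat_lit 5) (nat_lit 55) (nat_lit 4) (nat_lit 333) (nat_lit 270) (nat_lit 261)) (XT.nd (nat_lit 94) (nat_lit 0) (nat_lit 0) (XT.lf (nat_lit 0) (nat_lit 1732029509) (nat_lit 336) (nat_lit 3655638759) (nat_lit 420) (nat_lit 4310925082) (nat_lit 50) (nat_lit 5) (nat_lit 54) (nat_lit 5) (nat_lit 55) (nat_lit 4) (nat_lit 334) (nat_lit 270) (nat_lit 260)) (XT.lf (nat_lit 0) (nat_lit 6726372313)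 (nat_lit 336) (nat_lit 1502273364) (nat_lit 420) (nat_lit 1643101993) (nat_lit 50) (nat_lit 5) (nat_lit 54) (nat_lit 5) (nat_lit 55) (nat_lit 4) (nat_lit 335) (nat_lit 270) (nat_lit 259))))) (XT.nd (nat_lit 282) (nat_lit 336) (nat_lit 0) (XT.nd (nat_lit 94) (nat_lit 252) (nat_lit 0) (XT.lf (nat_lit 0) (nat_lit 1042343678) (nat_lit 420) (nat_lit 8298486154) (nat_lit 84) (nat_lit 710632027) (nat_lit 45) (nat_lit 5) (nat_lit 50) (nat_lit 5) (nat_lit 46) (nat_lit 4) (nat_lit 336) (nat_lit 270) (nat_lit 258)) (XT.nd (nat_lit 94) (nat_lit 252) (nat_lit 0) (XT.lf (nat_lit 0) (nat_lit 3758943061) (nat_lit 420) (nat_lit 3488868464) (nat_lit 84) (nat_lit 2989172214) (nat_lit 45) (nat_lit 5) (nat_lit 50) (nat_lit 5) (nat_lit 46) (nat_lit 4) (nat_lit 337) (nat_lit 270) (nat_lit 257)) (XT.lf (nat_lit 0) (nat_lit 1410497151) (nat_lit 252) (nat_lit 5098755780) (nat_lit 336) (nat_lit 3920764084) (nat_lit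 42) (nat_lit 5) (nat_lit 45) (nat_lit 5) (nat_lit 46) (nat_lit 4) (nat_lit 338) (nat_lit 270) (nat_lit 256)))) (XT.nd (nat_lit 94) (nat_lit 336) (nat_lit 0) (XT.lf (nat_lit 0) (nat_lit 6448825260) (nat_lit 252) (nat_lit 2868994789) (nat_lit 336) (nat_lit 1312240087) (nat_lit 42) (nat_lit 5) (nat_lit 45) (nat_lit 5) (nat_lit 46) (nat_lit 4) (nat_lit 339) (nat_lit 270) (nat_lit 255)) (XT.nd (nat_lit 94) (nat_lit 0) (nat_lit 0) (XT.lf (nat_lit 0) (nat_lit 722199456) (nat_lit 252) (nat_lit 572045924) (nat_lit 336) (nat_lit 9543523113) (nat_lit 38) (nat_lit 5) (nat_lit 41) (nat_lit 5) (nat_lit 42) (nat_lit 5) (nat_lit 340) (nat_lit 270) (nat_lit 254)) (XT.lf (nat_lit 0) (nat_lit 3954658695) (nat_lit 336) (nat_lit 5302664904) (nat_lit 84) (nat_lit 1794336438) (nat_lit 38) (nat_lit 5) (nat_lit 42) (nat_lit 5) (nat_lit 39) (nat_lit 4) (nat_lit 341) (nat_lit 270) (nat_lit 253)))))) (XT.nd (nat_lit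 564) (nat_lit 504) (nat_lit 0) (XT.nd (nat_lit 282) (nat_lit 420) (nat_lit 0) (XT.nd (nat_lit 94) (nat_lit 336) (nat_lit 0) (XT.lf (nat_lit 0) (nat_lit 6643722960) (nat_lit 336) (nat_lit 430501788) (nat_lit 84) (nat_lit 4199792994) (nat_lit 38) (nat_lit 5) (nat_lit 42) (nat_lit 5) (nat_lit 39) (nat_lit 4) (nat_lit 342) (nat_lit 270) (nat_lit 252)) (XT.nd (nat_lit 94) (nat_lit 84) (nat_lit 0) (XT.lf (nat_lit 0) (nat_lit 4603894662) (nat_lit 252) (nat_lit 4800046443) (nat_lit 336) (nat_lit 2099867871) (nat_lit 35) (nat_lit 5) (nat_lit 38) (nat_lit 5) (nat_lit 39) (nat_lit 4) (nat_lit 343) (nat_lit 270) (nat_lit 251)) (XT.lf (nat_lit 0) (nat_lit 445611240) (nat_lit 336) (nat_lit 2024270493) (nat_lit 84) (nat_lit 9272485107) (nat_lit 34) (nat_lit 5) (nat_lit 38) (nat_lit 5) (nat_lit 35) (nat_lit 5) (nat_lit 344) (nat_lit 270) (nat_lit 250)))) (XT.nd (nat_lit 94) (nat_lit 168) (nat_lit 0)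 (XT.lf (nat_lit 0) (nat_lit 2961094292) (nat_lit 252) (nat_lit 38720027) (nat_lit 336) (nat_lit 8988811310) (nat_lit 31) (nat_lit 5) (nat_lit 34) (nat_lit 5) (nat_lit 35) (nat_lit 5) (nat_lit 345) (nat_lit 270) (nat_lit 249)) (XT.nd (nat_lit 94) (nat_lit 168) (nat_lit 0) (XT.lf (nat_lit 0) (nat_lit 5623747491) (nat_lit 336) (nat_lit 4203056386) (nat_lit 84) (nat_lit 2416150916) (nat_lit 31) (nat_lit 5) (nat_lit 35) (nat_lit 5) (nat_lit 32) (nat_lit 4) (nat_lit 346) (nat_lit 270) (nat_lit 248)) (XT.lf (nat_lit 0) (nat_lit 706825385) (nat_lit 168) (nat_lit 7575990567) (nat_lit 252) (nat_lit 4223923697) (nat_lit 29) (nat_lit 5) (nat_lit 31) (nat_lit 5) (nat_lit 32) (nat_lit 4) (nat_lit 347) (nat_lit 270) (nat_lit 247))))) (XT.nd (nat_lit 282) (nat_lit 168) (nat_lit 0) (XT.nd (nat_lit 94) (nat_lit 336) (nat_lit 0) (XT.lf (nat_lit 0) (nat_lit 5780808881) (nat_lit 168) (nat_lit 5234609664)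 (nat_lit 252) (nat_lit 1763694001) (nat_lit 29) (nat_lit 5) (nat_lit 31) (nat_lit 5) (nat_lit 32) (nat_lit 4) (nat_lit 348) (nat_lit 270) (nat_lit 246)) (XT.nd (nat_lit 94) (nat_lit 252) (nat_lit 0) (XT.lf (nat_lit 0) (nat_lit 705399235) (nat_lit 252) (nat_lit 2131587887) (nat_lit 84) (nat_lit 10224437969) (nat_lit 28) (nat_lit 5) (nat_lit 31) (nat_lit 5) (nat_lit 29) (nat_lit 5) (nat_lit 349) (nat_lit 270) (nat_lit 245)) (XT.lf (nat_lit 0) (nat_lit 2851620505) (nat_lit 252) (nat_lit 340791406) (nat_lit 336) (nat_lit 10160322897) (nat_lit 25) (nat_lit 5) (nat_lit 28) (nat_lit 5) (nat_lit 29) (nat_lit 5) (nat_lit 350) (nat_lit 270) (nat_lit 244)))) (XT.nd (nat_lit 94) (nat_lit 168) (nat_lit 0) (XT.lf (nat_lit 0) (nat_lit 5751427029) (nat_lit 336) (nat_lit 5714729269) (nat_lit 84) (nat_lit 2187196164) (nat_lit 25) (nat_lit 5) (nat_lit 29) (nat_lit 5) (nat_lit 26) (nat_lit 4) (nat_lit 351)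 (nat_lit 270) (nat_lit 243)) (XT.nd (nat_lit 94) (nat_lit 168) (nat_lit 0) (XT.lf (nat_lit 0) (nat_lit 8345030696) (nat_lit 336) (nat_lit 855676527) (nat_lit 84) (nat_lit 4764084815) (nat_lit 25) (nat_lit 5) (nat_lit 29) (nat_lit 5) (nat_lit 26) (nat_lit 4) (nat_lit 352) (nat_lit 270) (nat_lit 242)) (XT.lf (nat_lit 0) (nat_lit 4167928227) (nat_lit 168) (nat_lit 6845677866) (nat_lit 252) (nat_lit 3272560799) (nat_lit 23) (nat_lit 5) (nat_lit 25) (nat_lit 5) (nat_lit 26) (nat_lit 4) (nat_lit 353) (nat_lit 270) (nat_lit 241))))))))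
noncomputable def xc43 : XT := (XT.nd (nat_lit 2256) (nat_lit 504) (nat_lit 0) (XT.nd (nat_lit 1128) (nat_lit 420) (nat_lit 0) (XT.nd (nat_lit 564) (nat_lit 252) (nat_lit 0) (XT.nd (nat_lit 282) (nat_lit 168) (nat_lit 0) (XT.nd (nat_lit 94) (nat_lit 252) (nat_lit 0) (XT.lf (nat_lit 0) (nat_lit 9296060759) (nat_lit 168) (nat_lit 4431720296) (nat_lit 252) (nat_lit 890983171) (nat_lit 23) (nat_lit 5) (nat_lit 25) (nat_lit 5) (nat_lit 26) (nat_lit 4) (nat_lit 354) (nat_lit 270) (nat_lit 240)) (XT.nd (nat_lit 94) (nat_lit 168) (nat_lit 0) (XT.lf (nat_lit 0) (nat_lit 1487670359) (nat_lit 252) (nat_lit 462317374) (nat_lit 84) (nat_lit 13012707975) (nat_lit 22) (nat_lit 5) (nat_lit 25) (nat_lit 5) (nat_lit 23) (nat_lit 5) (nat_lit 355) (nat_lit 270) (nat_lit 239)) (XT.lf (nat_lit 0) (nat_lit 3929342808) (nat_lit 252) (nat_lit 10758062744) (nat_lit 84) (nat_lit 629458987) (nat_lit 20) (nat_lit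 5) (nat_lit 23) (nat_lit 5) (nat_lit 21) (nat_lit 4) (nat_lit 356) (nat_lit 270) (nat_lit 238)))) (XT.nd (nat_lit 94) (nat_lit 168) (nat_lit 0) (XT.lf (nat_lit 0) (nat_lit 6428099501) (nat_lit 252) (nat_lit 6023260968) (nat_lit 84) (nat_lit 3231325392) (nat_lit 20) (nat_lit 5) (nat_lit 23) (nat_lit 5) (nat_lit 21) (nat_lit 4) (nat_lit 357) (nat_lit 270) (nat_lit 237)) (XT.nd (nat_lit 94) (nat_lit 168) (nat_lit 0) (XT.lf (nat_lit 0) (nat_lit 8962197002) (nat_lit 252) (nat_lit 1206453723) (nat_lit 84) (nat_lit 5892596182) (nat_lit 20) (nat_lit 5) (nat_lit 23) (nat_lit 5) (nat_lit 21) (nat_lit 4) (nat_lit 358) (nat_lit 270) (nat_lit 236)) (XT.lf (nat_lit 0) (nat_lit 3772863551) (nat_lit 168) (nat_lit 7798561077) (nat_lit 252) (nat_lit 4880315662) (nat_lit 18) (nat_lit 5) (nat_lit 20) (nat_lit 5) (nat_lit 21) (nat_lit 4) (nat_lit 359) (nat_lit 270) (nat_lit 235))))) (XT.nd (nat_lit 282)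 (nat_lit 0) (nat_lit 0) (XT.nd (nat_lit 94) (nat_lit 252) (nat_lit 0) (XT.lf (nat_lit 0) (nat_lit 8869926114) (nat_lit 168) (nat_lit 5363962398) (nat_lit 252) (nat_lit 2621395581) (nat_lit 18) (nat_lit 5) (nat_lit 20) (nat_lit 5) (nat_lit 21) (nat_lit 4) (nat_lit 360) (nat_lit 270) (nat_lit 234)) (XT.nd (nat_lit 94) (nat_lit 252) (nat_lit 0) (XT.lf (nat_lit 0) (nat_lit 14064677798) (nat_lit 168) (nat_lit 2875178290) (nat_lit 252) (nat_lit 332777017) (nat_lit 18) (nat_lit 5) (nat_lit 20) (nat_lit 5) (nat_lit 21) (nat_lit 4) (nat_lit 361) (nat_lit 270) (nat_lit 233)) (XT.lf (nat_lit 0) (nat_lit 1671748356) (nat_lit 168) (nat_lit 292461670) (nat_lit 252) (nat_lit 15738840953) (nat_lit 15) (nat_lit 5) (nat_lit 17) (nat_lit 5) (nat_lit 18) (nat_lit 5) (nat_lit 362) (nat_lit 270) (nat_lit 232)))) (XT.nd (nat_lit 94) (nat_lit 0) (nat_lit 0) (XT.lf (nat_lit 0) (nat_lit 4344865448) (nat_lit 252)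 (nat_lit 11462117118) (nat_lit 84) (nat_lit 2339200996) (nat_lit 15) (nat_lit 5) (nat_lit 18) (nat_lit 5) (nat_lit 16) (nat_lit 4) (nat_lit 363) (nat_lit 270) (nat_lit 231)) (XT.nd (nat_lit 94) (nat_lit 0) (nat_lit 0) (XT.lf (nat_lit 0) (nat_lit 6765487492) (nat_lit 252) (nat_lit 6812292875) (nat_lit 84) (nat_lit 5026397260) (nat_lit 15) (nat_lit 5) (nat_lit 18) (nat_lit 5) (nat_lit 16) (nat_lit 4) (nat_lit 364) (nat_lit 270) (nat_lit 230)) (XT.lf (nat_lit 0) (nat_lit 9225431177) (nat_lit 252) (nat_lit 2074594515) (nat_lit 84) (nat_lit 7777524319) (nat_lit 15) (nat_lit 5) (nat_lit 18) (nat_lit 5) (nat_lit 16) (nat_lit 4) (nat_lit 365) (nat_lit 270) (nat_lit 229)))))) (XT.nd (nat_lit 564) (nat_lit 84) (nat_lit 0) (XT.nd (nat_lit 282) (nat_lit 252) (nat_lit 0) (XT.nd (nat_lit 94) (nat_lit 0) (nat_lit 0) (XT.lf (nat_lit 0) (nat_lit 2812050544) (nat_lit 84) (nat_lit 8942834772) (nat_lit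 168) (nat_lit 7810991858) (nat_lit 14) (nat_lit 5) (nat_lit 15) (nat_lit 5) (nat_lit 16) (nat_lit 4) (nat_lit 366) (nat_lit 270) (nat_lit 228)) (XT.nd (nat_lit 94) (nat_lit 0) (nat_lit 0) (XT.lf (nat_lit 0) (nat_lit 7840135971) (nat_lit 84) (nat_lit 6510133105) (nat_lit 168) (nat_lit 5719529307) (nat_lit 14) (nat_lit 5) (nat_lit 15) (nat_lit 5) (nat_lit 16) (nat_lit 4) (nat_lit 367) (nat_lit 270) (nat_lit 227)) (XT.lf (nat_lit 0) (nat_lit 12971690551) (nat_lit 84) (nat_lit 4021307670) (nat_lit 168) (nat_lit 3597436233) (nat_lit 14) (nat_lit 5) (nat_lit 15) (nat_lit 5) (nat_lit 16) (nat_lit 4) (nat_lit 368) (nat_lit 270) (nat_lit 226)))) (XT.nd (nat_lit 94) (nat_lit 252) (nat_lit 0) (XT.lf (nat_lit 0) (nat_lit 18211497430) (nat_lit 84) (nat_lit 1474038620) (nat_lit 168) (nat_lit 1442734620) (nat_lit 14) (nat_lit 5) (nat_lit 15) (nat_lit 5) (nat_lit 16) (nat_lit 4) (nat_lit 369) (nat_lit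 270) (nat_lit 225)) (XT.nd (nat_lit 94) (nat_lit 0) (nat_lit 0) (XT.lf (nat_lit 0) (nat_lit 762026278) (nat_lit 252) (nat_lit 19782767000) (nat_lit 84) (nat_lit 1137840467) (nat_lit 11) (nat_lit 5) (nat_lit 14) (nat_lit 5) (nat_lit 12) (nat_lit 4) (nat_lit 370) (nat_lit 270) (nat_lit 224)) (XT.lf (nat_lit 0) (nat_lit 3019741961) (nat_lit 252) (nat_lit 15406065110) (nat_lit 84) (nat_lit 3827524875) (nat_lit 11) (nat_lit 5) (nat_lit 14) (nat_lit 5) (nat_lit 12) (nat_lit 4) (nat_lit 371) (nat_lit 270) (nat_lit 223))))) (XT.nd (nat_lit 282) (nat_lit 84) (nat_lit 0) (XT.nd (nat_lit 94) (nat_lit 0) (nat_lit 0) (XT.lf (nat_lit 0) (nat_lit 5317130367) (nat_lit 252) (nat_lit 10942512187) (nat_lit 84) (nat_lit 6583076429) (nat_lit 11) (nat_lit 5) (nat_lit 14) (nat_lit 5) (nat_lit 12) (nat_lit 4) (nat_lit 372) (nat_lit 270) (nat_lit 222)) (XT.nd (nat_lit 94) (nat_lit 0) (nat_lit 0) (XT.lf (nat_lit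 0) (nat_lit 7656332905) (nat_lit 252) (nat_lit 6387947733) (nat_lit 84) (nat_lit 9407063592) (nat_lit 11) (nat_lit 5) (nat_lit 14) (nat_lit 5) (nat_lit 12) (nat_lit 4) (nat_lit 373) (nat_lit 270) (nat_lit 221)) (XT.lf (nat_lit 0) (nat_lit 10039529954) (nat_lit 252) (nat_lit 1738126414) (nat_lit 84) (nat_lit 12302118614) (nat_lit 11) (nat_lit 5) (nat_lit 14) (nat_lit 5) (nat_lit 12) (nat_lit 4) (nat_lit 374) (nat_lit 270) (nat_lit 220)))) (XT.nd (nat_lit 94) (nat_lit 0) (nat_lit 0) (XT.lf (nat_lit 0) (nat_lit 3073204100) (nat_lit 84) (nat_lit 9426225370) (nat_lit 168) (nat_lit 12228222456) (nat_lit 10) (nat_lit 5) (nat_lit 11) (nat_lit 5) (nat_lit 12) (nat_lit 4) (nat_lit 375) (nat_lit 270) (nat_lit 219)) (XT.nd (nat_lit 94) (nat_lit 0) (nat_lit 0) (XT.lf (nat_lit 0) (nat_lit 8026430815) (nat_lit 84) (nat_lit 7000028597) (nat_lit 168) (nat_lit 10369487349) (nat_lit 10) (nat_lit 5) (nat_lit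 11) (nat_lit 5) (nat_lit 12) (nat_lit 4) (nat_lit 376) (nat_lit 270) (nat_lit 218)) (XT.lf (nat_lit 0) (nat_lit 13090431212) (nat_lit 84) (nat_lit 4514947057) (nat_lit 168) (nat_lit 8480449645) (nat_lit 10) (nat_lit 5) (nat_lit 11) (nat_lit 5) (nat_lit 12) (nat_lit 4) (nat_lit 377) (nat_lit 270) (nat_lit 217))))))) (XT.nd (nat_lit 1128) (nat_lit 168) (nat_lit 0) (XT.nd (nat_lit 564) (nat_lit 84) (nat_lit 0) (XT.nd (nat_lit 282) (nat_lit 84) (nat_lit 0) (XT.nd (nat_lit 94) (nat_lit 168) (nat_lit 0) (XT.lf (nat_lit 0) (nat_lit 18269925469) (nat_lit 84) (nat_lit 1968664392) (nat_lit 168) (nat_lit 6559348565) (nat_lit 10) (nat_lit 5) (nat_lit 11) (nat_lit 5) (nat_lit 12) (nat_lit 4) (nat_lit 378) (nat_lit 270) (nat_lit 216)) (XT.nd (nat_lit 94) (nat_lit 168) (nat_lit 0) (XT.lf (nat_lit 0) (nat_lit 22934909331) (nat_lit 168) (nat_lit 3969561354) (nat_lit 0) (nat_lit 628274192) (nat_lit 10)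 (nat_lit 5) (nat_lit 12) (nat_lit 4) (nat_lit 10) (nat_lit 4) (nat_lit 379) (nat_lit 270) (nat_lit 215)) (XT.lf (nat_lit 0) (nat_lit 684174092) (nat_lit 168) (nat_lit 25033280482) (nat_lit 168) (nat_lit 2572838865) (nat_lit 8) (nat_lit 4) (nat_lit 10) (nat_lit 5) (nat_lit 10) (nat_lit 4) (nat_lit 380) (nat_lit 270) (nat_lit 214)))) (XT.nd (nat_lit 94) (nat_lit 84) (nat_lit 0) (XT.lf (nat_lit 0) (nat_lit 5527051722) (nat_lit 168) (nat_lit 23076699536) (nat_lit 168) (nat_lit 467076077) (nat_lit 8) (nat_lit 4) (nat_lit 10) (nat_lit 5) (nat_lit 10) (nat_lit 4) (nat_lit 381) (nat_lit 270) (nat_lit 213)) (XT.nd (nat_lit 94) (nat_lit 0) (nat_lit 0) (XT.lf (nat_lit 0) (nat_lit 1646133645) (nat_lit 252) (nat_lit 19411022282) (nat_lit 84) (nat_lit 8818647377) (nat_lit 7) (nat_lit 5) (nat_lit 10) (nat_lit 5) (nat_lit 8) (nat_lit 4) (nat_lit 382) (nat_lit 270) (nat_lit 212)) (XT.lf (nat_lit 0) (nat_lit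 3792356607) (nat_lit 252) (nat_lit 15192388991) (nat_lit 84) (nat_lit 11721586234) (nat_lit 7) (nat_lit 5) (nat_lit 10) (nat_lit 5) (nat_lit 8) (nat_lit 4) (nat_lit 383) (nat_lit 270) (nat_lit 211))))) (XT.nd (nat_lit 282) (nat_lit 84) (nat_lit 0) (XT.nd (nat_lit 94) (nat_lit 0) (nat_lit 0) (XT.lf (nat_lit 0) (nat_lit 5983003856) (nat_lit 252) (nat_lit 10879310080) (nat_lit 84) (nat_lit 14701016762) (nat_lit 7) (nat_lit 5) (nat_lit 10) (nat_lit 5) (nat_lit 8) (nat_lit 4) (nat_lit 384) (nat_lit 270) (nat_lit 210)) (XT.nd (nat_lit 94) (nat_lit 0) (nat_lit 0) (XT.lf (nat_lit 0) (nat_lit 8220117303) (nat_lit 252) (nat_lit 6467765307) (nat_lit 84) (nat_lit 17759716102) (nat_lit 7) (nat_lit 5) (nat_lit 10) (nat_lit 5) (nat_lit 8) (nat_lit 4) (nat_lit 385) (nat_lit 270) (nat_lit 209)) (XT.lf (nat_lit 0) (nat_lit 10505782173) (nat_lit 252) (nat_lit 1953642651) (nat_lit 84) (nat_lit 20900535281)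 (nat_lit 7) (nat_lit 5) (nat_lit 10) (nat_lit 5) (nat_lit 8) (nat_lit 4) (nat_lit 386) (nat_lit 270) (nat_lit 208)))) (XT.nd (nat_lit 94) (nat_lit 0) (nat_lit 0) (XT.lf (nat_lit 0) (nat_lit 2722109972) (nat_lit 84) (nat_lit 10147022640) (nat_lit 168) (nat_lit 21431295569) (nat_lit 6) (nat_lit 5) (nat_lit 7) (nat_lit 5) (nat_lit 8) (nat_lit 4) (nat_lit 387) (nat_lit 270) (nat_lit 207)) (XT.nd (nat_lit 94) (nat_lit 0) (nat_lit 0) (XT.lf (nat_lit 0) (nat_lit 7551410479) (nat_lit 84) (nat_lit 7754835787) (nat_lit 168) (nat_lit 19963823172) (nat_lit 6) (nat_lit 5) (nat_lit 7) (nat_lit 5) (nat_lit 8) (nat_lit 4) (nat_lit 388) (nat_lit 270) (nat_lit 206)) (XT.lf (nat_lit 0) (nat_lit 12498589382) (nat_lit 84) (nat_lit 5301026517) (nat_lit 168) (nat_lit 18470784925) (nat_lit 6) (nat_lit 5) (nat_lit 7) (nat_lit 5) (nat_lit 8) (nat_lit 4) (nat_lit 389) (nat_lit 270) (nat_lit 205)))))) (XT.nd (nat_lit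 564) (nat_lit 84) (nat_lit 0) (XT.nd (nat_lit 282) (nat_lit 84) (nat_lit 0) (XT.nd (nat_lit 94) (nat_lit 0) (nat_lit 0) (XT.lf (nat_lit 0) (nat_lit 17568257971) (nat_lit 84) (nat_lit 2783307625) (nat_lit 168) (nat_lit 16950789162) (nat_lit 6) (nat_lit 5) (nat_lit 7) (nat_lit 5) (nat_lit 8) (nat_lit 4) (nat_lit 390) (nat_lit 270) (nat_lit 204)) (XT.nd (nat_lit 94) (nat_lit 0) (nat_lit 0) (XT.lf (nat_lit 0) (nat_lit 22765141707) (nat_lit 84) (nat_lit 199332331) (nat_lit 168) (nat_lit 15402419086) (nat_lit 6) (nat_lit 5) (nat_lit 7) (nat_lit 5) (nat_lit 8) (nat_lit 4) (nat_lit 391) (nat_lit 270) (nat_lit 203)) (XT.lf (nat_lit 0) (nat_lit 25665113852) (nat_lit 168) (nat_lit 11395260676) (nat_lit 0) (nat_lit 2403879211) (nat_lit 6) (nat_lit 5) (nat_lit 8) (nat_lit 4) (nat_lit 6) (nat_lit 4) (nat_lit 392) (nat_lit 270) (nat_lit 202)))) (XT.nd (nat_lit 94) (nat_lit 84) (nat_lit 0) (XT.lf (nat_lit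 0) (nat_lit 28434325604) (nat_lit 168) (nat_lit 7089026961) (nat_lit 0) (nat_lit 5072778865) (nat_lit 6) (nat_lit 5) (nat_lit 8) (nat_lit 4) (nat_lit 6) (nat_lit 4) (nat_lit 393) (nat_lit 270) (nat_lit 201)) (XT.nd (nat_lit 94) (nat_lit 84) (nat_lit 0) (XT.lf (nat_lit 0) (nat_lit 31272713090) (nat_lit 168) (nat_lit 2677059011) (nat_lit 0) (nat_lit 7813870426) (nat_lit 6) (nat_lit 5) (nat_lit 8) (nat_lit 4) (nat_lit 6) (nat_lit 4) (nat_lit 394) (nat_lit 270) (nat_lit 200)) (XT.lf (nat_lit 0) (nat_lit 1882687547) (nat_lit 84) (nat_lit 32318910931) (nat_lit 84) (nat_lit 8765697826) (nat_lit 5) (nat_lit 4) (nat_lit 6) (nat_lit 5) (nat_lit 6) (nat_lit 4) (nat_lit 395) (nat_lit 270) (nat_lit 199))))) (XT.nd (nat_lit 282) (nat_lit 84) (nat_lit 0) (XT.nd (nat_lit 94) (nat_lit 0) (nat_lit 0) (XT.lf (nat_lit 0) (nat_lit 6613886723) (nat_lit 84) (nat_lit 30619388758) (nat_lit 84) (nat_lit 6974642733)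 (nat_lit 5) (nat_lit 4) (nat_lit 6) (nat_lit 5) (nat_lit 6) (nat_lit 4) (nat_lit 396) (nat_lit 270) (nat_lit 198)) (XT.nd (nat_lit 94) (nat_lit 0) (nat_lit 0) (XT.lf (nat_lit 0) (nat_lit 11465902666) (nat_lit 84) (nat_lit 28877564457) (nat_lit 84) (nat_lit 5144037714) (nat_lit 5) (nat_lit 4) (nat_lit 6) (nat_lit 5) (nat_lit 6) (nat_lit 4) (nat_lit 397) (nat_lit 270) (nat_lit 197)) (XT.lf (nat_lit 0) (nat_lit 16443257963) (nat_lit 84) (nat_lit 27091814465) (nat_lit 84) (nat_lit 3272176453) (nat_lit 5) (nat_lit 4) (nat_lit 6) (nat_lit 5) (nat_lit 6) (nat_lit 4) (nat_lit 398) (nat_lit 270) (nat_lit 196)))) (XT.nd (nat_lit 94) (nat_lit 84) (nat_lit 0) (XT.lf (nat_lit 0) (nat_lit 21550592030) (nat_lit 84) (nat_lit 25260474275) (nat_lit 84) (nat_lit 1357314179) (nat_lit 5) (nat_lit 4) (nat_lit 6) (nat_lit 5) (nat_lit 6) (nat_lit 4) (nat_lit 399) (nat_lit 270) (nat_lit 195)) (XT.nd (nat_lit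 94) (nat_lit 0) (nat_lit 0) (XT.lf (nat_lit 0) (nat_lit 590198272) (nat_lit 168) (nat_lit 22785478155) (nat_lit 84) (nat_lit 26196306706) (nat_lit 4) (nat_lit 5) (nat_lit 6) (nat_lit 5) (nat_lit 5) (nat_lit 4) (nat_lit 400) (nat_lit 270) (nat_lit 194)) (XT.lf (nat_lit 0) (nat_lit 2556037193) (nat_lit 168) (nat_lit 18871434234) (nat_lit 84) (nat_lit 29591647369) (nat_lit 4) (nat_lit 5) (nat_lit 6) (nat_lit 5) (nat_lit 5) (nat_lit 4) (nat_lit 401) (nat_lit 270) (nat_lit 193))))))))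
noncomputable def xc44 : XT := (XT.nd (nat_lit 47940) (nat_lit 0) (nat_lit 1428) (XT.nd (nat_lit 46812) (nat_lit 0) (nat_lit 3948) (XT.nd (nat_lit 564) (nat_lit 0) (nat_lit 0) (XT.nd (nat_lit 282) (nat_lit 84) (nat_lit 0) (XT.nd (nat_lit 94) (nat_lit 0) (nat_lit 0) (XT.lf (nat_lit 0) (nat_lit 4569381807) (nat_lit 168) (nat_lit 14858543669) (nat_lit 84) (nat_lit 33083628286) (nat_lit 4) (nat_lit 5) (nat_lit 6) (nat_lit 5) (nat_lit 5) (nat_lit 4) (nat_lit 402) (nat_lit 270) (nat_lit 192)) (XT.nd (nat_lit 94) (nat_lit 0) (nat_lit 0) (XT.lf (nat_lit 0) (nat_lit 6632108762) (nat_lit 168) (nat_lit 10743066024) (nat_lit 84) (nat_lit 36675504350) (nat_lit 4) (nat_lit 5) (nat_lit 6) (nat_lit 5) (nat_lit 5) (nat_lit 4) (nat_lit 403) (nat_lit 270) (nat_lit 191)) (XT.lf (nat_lit 0) (nat_lit 8746140735) (nat_lit 168) (nat_lit 6521165244) (nat_lit 84) (nat_lit 40370623565) (nat_lit 4) (nat_lit 5)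 (nat_lit 6) (nat_lit 5) (nat_lit 5) (nat_lit 4) (nat_lit 404) (nat_lit 270) (nat_lit 190)))) (XT.nd (nat_lit 94) (nat_lit 84) (nat_lit 0) (XT.lf (nat_lit 0) (nat_lit 10913448226) (nat_lit 168) (nat_lit 2188906075) (nat_lit 84) (nat_lit 44172430169) (nat_lit 4) (nat_lit 5) (nat_lit 6) (nat_lit 5) (nat_lit 5) (nat_lit 4) (nat_lit 405) (nat_lit 270) (nat_lit 189)) (XT.nd (nat_lit 94) (nat_lit 0) (nat_lit 0) (XT.lf (nat_lit 0) (nat_lit 2304173564) (nat_lit 84) (nat_lit 10854735515) (nat_lit 168) (nat_lit 45803151967) (nat_lit 3) (nat_lit 5) (nat_lit 4) (nat_lit 5) (nat_lit 5) (nat_lit 4) (nat_lit 406) (nat_lit 270) (nat_lit 188)) (XT.lf (nat_lit 0) (nat_lit 6963240312) (nat_lit 84) (nat_lit 8521857827) (nat_lit 168) (nat_lit 45216218915) (nat_lit 3) (nat_lit 5) (nat_lit 4) (nat_lit 5) (nat_lit 5) (nat_lit 4) (nat_lit 407) (nat_lit 270) (nat_lit 187))))) (XT.nd (nat_lit 282) (nat_lit 0) (nat_lit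 0) (XT.nd (nat_lit 94) (nat_lit 0) (nat_lit 0) (XT.lf (nat_lit 0) (nat_lit 11747628506) (nat_lit 84) (nat_lit 6124394443) (nat_lit 168) (nat_lit 44622837695) (nat_lit 3) (nat_lit 5) (nat_lit 4) (nat_lit 5) (nat_lit 5) (nat_lit 4) (nat_lit 408) (nat_lit 270) (nat_lit 186)) (XT.nd (nat_lit 94) (nat_lit 0) (nat_lit 0) (XT.lf (nat_lit 0) (nat_lit 16661797699) (nat_lit 84) (nat_lit 3660110674) (nat_lit 168) (nat_lit 44022455214) (nat_lit 3) (nat_lit 5) (nat_lit 4) (nat_lit 5) (nat_lit 5) (nat_lit 4) (nat_lit 409) (nat_lit 270) (nat_lit 185)) (XT.lf (nat_lit 0) (nat_lit 21710328410) (nat_lit 84) (nat_lit 1126709550) (nat_lit 168) (nat_lit 43414511852) (nat_lit 3) (nat_lit 5) (nat_lit 4) (nat_lit 5) (nat_lit 5) (nat_lit 4) (nat_lit 410) (nat_lit 270) (nat_lit 184)))) (XT.nd (nat_lit 94) (nat_lit 0) (nat_lit 0) (XT.lf (nat_lit 0) (nat_lit 25434419708) (nat_lit 168) (nat_lit 41334934252) (nat_lit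 0) (nat_lit 1448388485) (nat_lit 3) (nat_lit 5) (nat_lit 5) (nat_lit 4) (nat_lit 3) (nat_lit 4) (nat_lit 411) (nat_lit 270) (nat_lit 183)) (XT.nd (nat_lit 45778) (nat_lit 0) (nat_lit 6972) (XT.lf (nat_lit 0) (nat_lit 28113707611) (nat_lit 168) (nat_lit 38057948803) (nat_lit 0) (nat_lit 4073203549) (nat_lit 3) (nat_lit 5) (nat_lit 5) (nat_lit 4) (nat_lit 3) (nat_lit 4) (nat_lit 412) (nat_lit 270) (nat_lit 182)) (XT.lf (nat_lit 0) (nat_lit 2631661408) (nat_lit 504) (nat_lit 703039309) (nat_lit 504) (nat_lit 703039309) (nat_lit 86) (nat_lit 4) (nat_lit 92) (nat_lit 5) (nat_lit 92) (nat_lit 4) (nat_lit 322) (nat_lit 271) (nat_lit 271)))))) (XT.nd (nat_lit 564) (nat_lit 1596) (nat_lit 0) (XT.nd (nat_lit 282) (nat_lit 504) (nat_lit 0) (XT.nd (nat_lit 94) (nat_lit 420) (nat_lit 0) (XT.lf (nat_lit 0) (nat_lit 1481591996) (nat_lit 504) (nat_lit 6373430524) (nat_lit 0) (nat_lit 328015131) (nat_lit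 80) (nat_lit 5) (nat_lit 86) (nat_lit 4) (nat_lit 80) (nat_lit 4) (nat_lit 323) (nat_lit 271) (nat_lit 270)) (XT.nd (nat_lit 94) (nat_lit 420) (nat_lit 0) (XT.lf (nat_lit 0) (nat_lit 4391131054) (nat_lit 504) (nat_lit 1785208394) (nat_lit 0) (nat_lit 2118662953) (nat_lit 80) (nat_lit 5) (nat_lit 86) (nat_lit 4) (nat_lit 80) (nat_lit 4) (nat_lit 324) (nat_lit 271) (nat_lit 269)) (XT.lf (nat_lit 0) (nat_lit 2909405664) (nat_lit 420) (nat_lit 4430325671) (nat_lit 420) (nat_lit 1072609038) (nat_lit 75) (nat_lit 4) (nat_lit 80) (nat_lit 5) (nat_lit 80) (nat_lit 4) (nat_lit 325) (nat_lit 271) (nat_lit 268)))) (XT.nd (nat_lit 94) (nat_lit 420) (nat_lit 0) (XT.lf (nat_lit 0) (nat_lit 1748422716) (nat_lit 504) (nat_lit 859287489) (nat_lit 84) (nat_lit 5927220912) (nat_lit 74) (nat_lit 5) (nat_lit 80) (nat_lit 5) (nat_lit 75) (nat_lit 4) (nat_lit 326) (nat_lit 271) (nat_lit 267)) (XT.nd (nat_lit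 94) (nat_lit 0) (nat_lit 0) (XT.lf (nat_lit 0) (nat_lit 3903417135) (nat_lit 420) (nat_lit 692702295) (nat_lit 504) (nat_lit 4066345755) (nat_lit 69) (nat_lit 5) (nat_lit 74) (nat_lit 5) (nat_lit 75) (nat_lit 4) (nat_lit 327) (nat_lit 271) (nat_lit 266)) (XT.lf (nat_lit 0) (nat_lit 7477897397) (nat_lit 504) (nat_lit 68606205) (nat_lit 0) (nat_lit 1249410015) (nat_lit 69) (nat_lit 5) (nat_lit 75) (nat_lit 4) (nat_lit 69) (nat_lit 4) (nat_lit 328) (nat_lit 271) (nat_lit 265))))) (XT.nd (nat_lit 282) (nat_lit 756) (nat_lit 0) (XT.nd (nat_lit 94) (nat_lit 336) (nat_lit 0) (XT.lf (nat_lit 0) (nat_lit 1465177453) (nat_lit 504) (nat_lit 4184325703) (nat_lit 84) (nat_lit 3284407597) (nat_lit 63) (nat_lit 5) (nat_lit 69) (nat_lit 5) (nat_lit 64) (nat_lit 4) (nat_lit 329) (nat_lit 271) (nat_lit 264)) (XT.nd (nat_lit 94) (nat_lit 0) (nat_lit 0) (XT.lf (nat_lit 0) (nat_lit 547863324) (nat_lit 336)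 (nat_lit 3692198961) (nat_lit 420) (nat_lit 4838045252) (nat_lit 59) (nat_lit 5) (nat_lit 63) (nat_lit 5) (nat_lit 64) (nat_lit 4) (nat_lit 330) (nat_lit 271) (nat_lit 263)) (XT.lf (nat_lit 0) (nat_lit 5424269916) (nat_lit 336) (nat_lit 1648308000) (nat_lit 420) (nat_lit 2155325037) (nat_lit 59) (nat_lit 5) (nat_lit 63) (nat_lit 5) (nat_lit 64) (nat_lit 4) (nat_lit 331) (nat_lit 271) (nat_lit 262)))) (XT.nd (nat_lit 94) (nat_lit 336) (nat_lit 0) (XT.lf (nat_lit 0) (nat_lit 541785672) (nat_lit 420) (nat_lit 8395478111) (nat_lit 84) (nat_lit 446874836) (nat_lit 54) (nat_lit 5) (nat_lit 59) (nat_lit 5) (nat_lit 55) (nat_lit 4) (nat_lit 332) (nat_lit 271) (nat_lit 261)) (XT.nd (nat_lit 94) (nat_lit 336) (nat_lit 0) (XT.lf (nat_lit 0) (nat_lit 3264902244) (nat_lit 420) (nat_lit 3664556817) (nat_lit 84) (nat_lit 2615699684) (nat_lit 54) (nat_lit 5) (nat_lit 59) (nat_lit 5) (nat_lit 55) (nat_lit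 4) (nat_lit 333) (nat_lit 271) (nat_lit 260)) (XT.lf (nat_lit 0) (nat_lit 1147478849) (nat_lit 336) (nat_lit 4868638550) (nat_lit 420) (nat_lit 3697018822) (nat_lit 50) (nat_lit 5) (nat_lit 54) (nat_lit 5) (nat_lit 55) (nat_lit 4) (nat_lit 334) (nat_lit 271) (nat_lit 259))))))) (XT.nd (nat_lit 1128) (nat_lit 924) (nat_lit 0) (XT.nd (nat_lit 564) (nat_lit 840) (nat_lit 0) (XT.nd (nat_lit 282) (nat_lit 336) (nat_lit 0) (XT.nd (nat_lit 94) (nat_lit 420) (nat_lit 0) (XT.lf (nat_lit 0) (nat_lit 6098608609) (nat_lit 336) (nat_lit 2725725894) (nat_lit 420) (nat_lit 1063076607) (nat_lit 50) (nat_lit 5) (nat_lit 54) (nat_lit 5) (nat_lit 55) (nat_lit 4) (nat_lit 335) (nat_lit 271) (nat_lit 258)) (XT.nd (nat_lit 94) (nat_lit 0) (nat_lit 0) (XT.lf (nat_lit 0) (nat_lit 1054311609) (nat_lit 336) (nat_lit 509972259) (nat_lit 420) (nat_lit 8504200209) (nat_lit 45) (nat_lit 5) (nat_lit 49) (nat_lit 5)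 (nat_lit 50) (nat_lit 5) (nat_lit 336) (nat_lit 271) (nat_lit 257)) (XT.lf (nat_lit 0) (nat_lit 4244068281) (nat_lit 420) (nat_lit 4242710264) (nat_lit 84) (nat_lit 1768464485) (nat_lit 45) (nat_lit 5) (nat_lit 50) (nat_lit 5) (nat_lit 46) (nat_lit 4) (nat_lit 337) (nat_lit 271) (nat_lit 256)))) (XT.nd (nat_lit 94) (nat_lit 84) (nat_lit 0) (XT.lf (nat_lit 0) (nat_lit 598377850) (nat_lit 252) (nat_lit 6357142830) (nat_lit 336) (nat_lit 3494053138) (nat_lit 42) (nat_lit 5) (nat_lit 45) (nat_lit 5) (nat_lit 46) (nat_lit 4) (nat_lit 338) (nat_lit 271) (nat_lit 255)) (XT.nd (nat_lit 94) (nat_lit 84) (nat_lit 0) (XT.lf (nat_lit 0) (nat_lit 5595215206) (nat_lit 252) (nat_lit 4138585978) (nat_lit 336) (nat_lit 916844775) (nat_lit 42) (nat_lit 5) (nat_lit 45) (nat_lit 5) (nat_lit 46) (nat_lit 4) (nat_lit 339) (nat_lit 271) (nat_lit 254)) (XT.lf (nat_lit 0) (nat_lit 1644747980) (nat_lit 336) (nat_lit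 211409480) (nat_lit 84) (nat_lit 9003304778) (nat_lit 41) (nat_lit 5) (nat_lit 45) (nat_lit 5) (nat_lit 42) (nat_lit 5) (nat_lit 340) (nat_lit 271) (nat_lit 253))))) (XT.nd (nat_lit 282) (nat_lit 336) (nat_lit 0) (XT.nd (nat_lit 94) (nat_lit 252) (nat_lit 0) (XT.lf (nat_lit 0) (nat_lit 4260879657) (nat_lit 336) (nat_lit 6291023939) (nat_lit 84) (nat_lit 522905163) (nat_lit 38) (nat_lit 5) (nat_lit 42) (nat_lit 5) (nat_lit 39) (nat_lit 4) (nat_lit 341) (nat_lit 271) (nat_lit 252)) (XT.nd (nat_lit 94) (nat_lit 252) (nat_lit 0) (XT.lf (nat_lit 0) (nat_lit 6921446474) (nat_lit 336) (nat_lit 1459019335) (nat_lit 84) (nat_lit 2917663848) (nat_lit 38) (nat_lit 5) (nat_lit 42) (nat_lit 5) (nat_lit 39) (nat_lit 4) (nat_lit 342) (nat_lit 271) (nat_lit 251)) (XT.lf (nat_lit 0) (nat_lit 3514476740) (nat_lit 252) (nat_lit 6128740128) (nat_lit 336) (nat_lit 1885973280) (nat_lit 35) (nat_lit 5) (nat_lit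 38) (nat_lit 5) (nat_lit 39) (nat_lit 4) (nat_lit 343) (nat_lit 271) (nat_lit 250)))) (XT.nd (nat_lit 94) (nat_lit 252) (nat_lit 0) (XT.lf (nat_lit 0) (nat_lit 627652702) (nat_lit 336) (nat_lit 3180387281) (nat_lit 84) (nat_lit 7960568896) (nat_lit 34) (nat_lit 5) (nat_lit 38) (nat_lit 5) (nat_lit 35) (nat_lit 5) (nat_lit 344) (nat_lit 271) (nat_lit 249)) (XT.nd (nat_lit 94) (nat_lit 0) (nat_lit 0) (XT.lf (nat_lit 0) (nat_lit 1742406361) (nat_lit 252) (nat_lit 1400644434) (nat_lit 336) (nat_lit 8873090431) (nat_lit 31) (nat_lit 5) (nat_lit 34) (nat_lit 5) (nat_lit 35) (nat_lit 5) (nat_lit 345) (nat_lit 271) (nat_lit 248)) (XT.lf (nat_lit 0) (nat_lit 5727075454) (nat_lit 336) (nat_lit 5474152628) (nat_lit 84) (nat_lit 1070547952) (nat_lit 31) (nat_lit 5) (nat_lit 35) (nat_lit 5) (nat_lit 32) (nat_lit 4) (nat_lit 346) (nat_lit 271) (nat_lit 247)))))) (XT.nd (nat_lit 564) (nat_lit 420)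 (nat_lit 0) (XT.nd (nat_lit 282) (nat_lit 252) (nat_lit 0) (XT.nd (nat_lit 94) (nat_lit 252) (nat_lit 0) (XT.lf (nat_lit 0) (nat_lit 8353527800) (nat_lit 336) (nat_lit 615760284) (nat_lit 84) (nat_lit 3567350328) (nat_lit 31) (nat_lit 5) (nat_lit 35) (nat_lit 5) (nat_lit 32) (nat_lit 4) (nat_lit 347) (nat_lit 271) (nat_lit 246)) (XT.nd (nat_lit 94) (nat_lit 84) (nat_lit 0) (XT.lf (nat_lit 0) (nat_lit 4408690553) (nat_lit 168) (nat_lit 6646005599) (nat_lit 252) (nat_lit 1755354042) (nat_lit 29) (nat_lit 5) (nat_lit 31) (nat_lit 5) (nat_lit 32) (nat_lit 4) (nat_lit 348) (nat_lit 271) (nat_lit 245)) (XT.lf (nat_lit 0) (nat_lit 688817442) (nat_lit 252) (nat_lit 3571058912) (nat_lit 84) (nat_lit 8833311795) (nat_lit 28) (nat_lit 5) (nat_lit 31) (nat_lit 5) (nat_lit 29) (nat_lit 5) (nat_lit 349) (nat_lit 271) (nat_lit 244)))) (XT.nd (nat_lit 94) (nat_lit 0) (nat_lit 0) (XT.lf (nat_lit 0) (nat_lit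 1346586520) (nat_lit 252) (nat_lit 1790304045) (nat_lit 336) (nat_lit 10248873212) (nat_lit 25) (nat_lit 5) (nat_lit 28) (nat_lit 5) (nat_lit 29) (nat_lit 5) (nat_lit 350) (nat_lit 271) (nat_lit 243)) (XT.nd (nat_lit 94) (nat_lit 0) (nat_lit 0) (XT.lf (nat_lit 0) (nat_lit 5657781182) (nat_lit 336) (nat_lit 7273974047) (nat_lit 84) (nat_lit 755865082) (nat_lit 25) (nat_lit 5) (nat_lit 29) (nat_lit 5) (nat_lit 26) (nat_lit 4) (nat_lit 351) (nat_lit 271) (nat_lit 242)) (XT.lf (nat_lit 0) (nat_lit 8228353659) (nat_lit 336) (nat_lit 2449413224) (nat_lit 84) (nat_lit 3322062274) (nat_lit 25) (nat_lit 5) (nat_lit 29) (nat_lit 5) (nat_lit 26) (nat_lit 4) (nat_lit 352) (nat_lit 271) (nat_lit 241))))) (XT.nd (nat_lit 282) (nat_lit 168) (nat_lit 0) (XT.nd (nat_lit 94) (nat_lit 84) (nat_lit 0) (XT.lf (nat_lit 0) (nat_lit 2507278316) (nat_lit 168) (nat_lit 8350838197) (nat_lit 252) (nat_lit 3464344328)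 (nat_lit 23) (nat_lit 5) (nat_lit 25) (nat_lit 5) (nat_lit 26) (nat_lit 4) (nat_lit 353) (nat_lit 271) (nat_lit 240)) (XT.nd (nat_lit 94) (nat_lit 84) (nat_lit 0) (XT.lf (nat_lit 0) (nat_lit 7602294729) (nat_lit 168) (nat_lit 5948001217) (nat_lit 252) (nat_lit 1105496119) (nat_lit 23) (nat_lit 5) (nat_lit 25) (nat_lit 5) (nat_lit 26) (nat_lit 4) (nat_lit 354) (nat_lit 271) (nat_lit 239)) (XT.lf (nat_lit 0) (nat_lit 1255877553) (nat_lit 252) (nat_lit 2223596760) (nat_lit 84) (nat_lit 11521033804) (nat_lit 22) (nat_lit 5) (nat_lit 25) (nat_lit 5) (nat_lit 23) (nat_lit 5) (nat_lit 355) (nat_lit 271) (nat_lit 238)))) (XT.nd (nat_lit 94) (nat_lit 0) (nat_lit 0) (XT.lf (nat_lit 0) (nat_lit 2735593825) (nat_lit 168) (nat_lit 916479548) (nat_lit 252) (nat_lit 11704060825) (nat_lit 20) (nat_lit 5) (nat_lit 22) (nat_lit 5) (nat_lit 23) (nat_lit 5) (nat_lit 356) (nat_lit 271) (nat_lit 237)) (XT.nd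 (nat_lit 94) (nat_lit 0) (nat_lit 0) (XT.lf (nat_lit 0) (nat_lit 6120999604) (nat_lit 252) (nat_lit 7908539369) (nat_lit 84) (nat_lit 1693387340) (nat_lit 20) (nat_lit 5) (nat_lit 23) (nat_lit 5) (nat_lit 21) (nat_lit 4) (nat_lit 357) (nat_lit 271) (nat_lit 236)) (XT.lf (nat_lit 0) (nat_lit 8634981806) (nat_lit 252) (nat_lit 3122665550) (nat_lit 84) (nat_lit 4344508239) (nat_lit 20) (nat_lit 5) (nat_lit 23) (nat_lit 5) (nat_lit 21) (nat_lit 4) (nat_lit 358) (nat_lit 271) (nat_lit 235))))))))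
noncomputable def xc45 : XT := (XT.nd (nat_lit 2256) (nat_lit 252) (nat_lit 0) (XT.nd (nat_lit 1128) (nat_lit 504) (nat_lit 0) (XT.nd (nat_lit 564) (nat_lit 168) (nat_lit 0) (XT.nd (nat_lit 282) (nat_lit 252) (nat_lit 0) (XT.nd (nat_lit 94) (nat_lit 0) (nat_lit 0) (XT.lf (nat_lit 0) (nat_lit 1786630227) (nat_lit 168) (nat_lit 9418365052) (nat_lit 252) (nat_lit 5288912658) (nat_lit 18) (nat_lit 5) (nat_lit 20) (nat_lit 5) (nat_lit 21) (nat_lit 4) (nat_lit 359) (nat_lit 271) (nat_lit 234)) (XT.nd (nat_lit 94) (nat_lit 0) (nat_lit 0) (XT.lf (nat_lit 0) (nat_lit 6853993224) (nat_lit 168) (nat_lit 6994247480) (nat_lit 252) (nat_lit 3049848825) (nat_lit 18) (nat_lit 5) (nat_lit 20) (nat_lit 5) (nat_lit 21) (nat_lit 4) (nat_lit 360) (nat_lit 271) (nat_lit 233)) (XT.lf (nat_lit 0) (nat_lit 12019938346) (nat_lit 168) (nat_lit 4515629335) (nat_lit 252) (nat_lit 780489472) (nat_lit 18) (nat_lit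 5) (nat_lit 20) (nat_lit 5) (nat_lit 21) (nat_lit 4) (nat_lit 361) (nat_lit 271) (nat_lit 232)))) (XT.nd (nat_lit 94) (nat_lit 168) (nat_lit 0) (XT.lf (nat_lit 0) (nat_lit 1490630264) (nat_lit 252) (nat_lit 474010897) (nat_lit 84) (nat_lit 15783091409) (nat_lit 17) (nat_lit 5) (nat_lit 20) (nat_lit 5) (nat_lit 18) (nat_lit 5) (nat_lit 362) (nat_lit 271) (nat_lit 231)) (XT.nd (nat_lit 94) (nat_lit 0) (nat_lit 0) (XT.lf (nat_lit 0) (nat_lit 3831718033) (nat_lit 252) (nat_lit 13674380713) (nat_lit 84) (nat_lit 686030191) (nat_lit 15) (nat_lit 5) (nat_lit 18) (nat_lit 5) (nat_lit 16) (nat_lit 4) (nat_lit 363) (nat_lit 271) (nat_lit 230)) (XT.lf (nat_lit 0) (nat_lit 6234753842) (nat_lit 252) (nat_lit 9052262248) (nat_lit 84) (nat_lit 3363688154) (nat_lit 15) (nat_lit 5) (nat_lit 18) (nat_lit 5) (nat_lit 16) (nat_lit 4) (nat_lit 364) (nat_lit 271) (nat_lit 229))))) (XT.nd (nat_lit 282) (nat_lit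 84) (nat_lit 0) (XT.nd (nat_lit 94) (nat_lit 84) (nat_lit 0) (XT.lf (nat_lit 0) (nat_lit 8677640073) (nat_lit 252) (nat_lit 4341436611) (nat_lit 84) (nat_lit 6105563709) (nat_lit 15) (nat_lit 5) (nat_lit 18) (nat_lit 5) (nat_lit 16) (nat_lit 4) (nat_lit 365) (nat_lit 271) (nat_lit 228)) (XT.nd (nat_lit 94) (nat_lit 0) (nat_lit 0) (XT.lf (nat_lit 0) (nat_lit 471996864) (nat_lit 84) (nat_lit 10695339154) (nat_lit 168) (nat_lit 8446897975) (nat_lit 14) (nat_lit 5) (nat_lit 15) (nat_lit 5) (nat_lit 16) (nat_lit 4) (nat_lit 366) (nat_lit 271) (nat_lit 227)) (XT.lf (nat_lit 0) (nat_lit 5474281457) (nat_lit 84) (nat_lit 8272135263) (nat_lit 168) (nat_lit 6372276791) (nat_lit 14) (nat_lit 5) (nat_lit 15) (nat_lit 5) (nat_lit 16) (nat_lit 4) (nat_lit 367) (nat_lit 271) (nat_lit 226)))) (XT.nd (nat_lit 94) (nat_lit 84) (nat_lit 0) (XT.lf (nat_lit 0) (nat_lit 10580810978) (nat_lit 84) (nat_lit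 5792522026) (nat_lit 168) (nat_lit 4266518698) (nat_lit 14) (nat_lit 5) (nat_lit 15) (nat_lit 5) (nat_lit 16) (nat_lit 4) (nat_lit 368) (nat_lit 271) (nat_lit 225)) (XT.nd (nat_lit 94) (nat_lit 84) (nat_lit 0) (XT.lf (nat_lit 0) (nat_lit 15796345249) (nat_lit 84) (nat_lit 3254188182) (nat_lit 168) (nat_lit 2127660909) (nat_lit 14) (nat_lit 5) (nat_lit 15) (nat_lit 5) (nat_lit 16) (nat_lit 4) (nat_lit 369) (nat_lit 271) (nat_lit 224)) (XT.lf (nat_lit 0) (nat_lit 45357570) (nat_lit 168) (nat_lit 608936730) (nat_lit 84) (nat_lit 21079914683) (nat_lit 13) (nat_lit 5) (nat_lit 15) (nat_lit 5) (nat_lit 14) (nat_lit 5) (nat_lit 370) (nat_lit 271) (nat_lit 223)))))) (XT.nd (nat_lit 564) (nat_lit 252) (nat_lit 0) (XT.nd (nat_lit 282) (nat_lit 84) (nat_lit 0) (XT.nd (nat_lit 94) (nat_lit 0) (nat_lit 0) (XT.lf (nat_lit 0) (nat_lit 2275427717) (nat_lit 252) (nat_lit 17996642924) (nat_lit 84) (nat_lit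 2033721808) (nat_lit 11) (nat_lit 5) (nat_lit 14) (nat_lit 5) (nat_lit 12) (nat_lit 4) (nat_lit 371) (nat_lit 271) (nat_lit 222)) (XT.nd (nat_lit 94) (nat_lit 0) (nat_lit 0) (XT.lf (nat_lit 0) (nat_lit 4558338078) (nat_lit 252) (nat_lit 13556407878) (nat_lit 84) (nat_lit 4780909753) (nat_lit 11) (nat_lit 5) (nat_lit 14) (nat_lit 5) (nat_lit 12) (nat_lit 4) (nat_lit 372) (nat_lit 271) (nat_lit 221)) (XT.lf (nat_lit 0) (nat_lit 6883497895) (nat_lit 252) (nat_lit 9024460181) (nat_lit 84) (nat_lit 7596784782) (nat_lit 11) (nat_lit 5) (nat_lit 14) (nat_lit 5) (nat_lit 12) (nat_lit 4) (nat_lit 373) (nat_lit 271) (nat_lit 220)))) (XT.nd (nat_lit 94) (nat_lit 84) (nat_lit 0) (XT.lf (nat_lit 0) (nat_lit 9253074458) (nat_lit 252) (nat_lit 4396575582) (nat_lit 84) (nat_lit 10483971587) (nat_lit 11) (nat_lit 5) (nat_lit 14) (nat_lit 5) (nat_lit 12) (nat_lit 4) (nat_lit 374) (nat_lit 271) (nat_lit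 219)) (XT.nd (nat_lit 94) (nat_lit 0) (nat_lit 0) (XT.lf (nat_lit 0) (nat_lit 338377135) (nat_lit 84) (nat_lit 11334256070) (nat_lit 168) (nat_lit 13110140935) (nat_lit 10) (nat_lit 5) (nat_lit 11) (nat_lit 5) (nat_lit 12) (nat_lit 4) (nat_lit 375) (nat_lit 271) (nat_lit 218)) (XT.lf (nat_lit 0) (nat_lit 5270542133) (nat_lit 84) (nat_lit 8916098358) (nat_lit 168) (nat_lit 11264856439) (nat_lit 10) (nat_lit 5) (nat_lit 11) (nat_lit 5) (nat_lit 12) (nat_lit 4) (nat_lit 376) (nat_lit 271) (nat_lit 217))))) (XT.nd (nat_lit 282) (nat_lit 252) (nat_lit 0) (XT.nd (nat_lit 94) (nat_lit 0) (nat_lit 0) (XT.lf (nat_lit 0) (nat_lit 10314114095) (nat_lit 84) (nat_lit 6438814161) (nat_lit 168) (nat_lit 9388864915) (nat_lit 10) (nat_lit 5) (nat_lit 11) (nat_lit 5) (nat_lit 12) (nat_lit 4) (nat_lit 377) (nat_lit 271) (nat_lit 216)) (XT.nd (nat_lit 94) (nat_lit 0) (nat_lit 0) (XT.lf (nat_lit 0) (nat_lit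 15473794157) (nat_lit 84) (nat_lit 3900094390) (nat_lit 168) (nat_lit 7480417744) (nat_lit 10) (nat_lit 5) (nat_lit 11) (nat_lit 5) (nat_lit 12) (nat_lit 4) (nat_lit 378) (nat_lit 271) (nat_lit 215)) (XT.lf (nat_lit 0) (nat_lit 20754391682) (nat_lit 84) (nat_lit 1297572692) (nat_lit 168) (nat_lit 5537736052) (nat_lit 10) (nat_lit 5) (nat_lit 11) (nat_lit 5) (nat_lit 12) (nat_lit 4) (nat_lit 379) (nat_lit 271) (nat_lit 214)))) (XT.nd (nat_lit 94) (nat_lit 252) (nat_lit 0) (XT.lf (nat_lit 0) (nat_lit 24803254227) (nat_lit 168) (nat_lit 2201434544) (nat_lit 0) (nat_lit 1343550599) (nat_lit 10) (nat_lit 5) (nat_lit 12) (nat_lit 4) (nat_lit 10) (nat_lit 4) (nat_lit 380) (nat_lit 271) (nat_lit 213)) (XT.nd (nat_lit 94) (nat_lit 84) (nat_lit 0) (XT.lf (nat_lit 0) (nat_lit 2577420169) (nat_lit 168) (nat_lit 25078409579) (nat_lit 168) (nat_lit 1474009694) (nat_lit 8) (nat_lit 4) (nat_lit 10)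 (nat_lit 5) (nat_lit 10) (nat_lit 4) (nat_lit 381) (nat_lit 271) (nat_lit 212)) (XT.lf (nat_lit 0) (nat_lit 648264457) (nat_lit 252) (nat_lit 22428120317) (nat_lit 84) (nat_lit 6859107794) (nat_lit 7) (nat_lit 5) (nat_lit 10) (nat_lit 5) (nat_lit 8) (nat_lit 4) (nat_lit 382) (nat_lit 271) (nat_lit 211))))))) (XT.nd (nat_lit 1128) (nat_lit 168) (nat_lit 0) (XT.nd (nat_lit 564) (nat_lit 0) (nat_lit 0) (XT.nd (nat_lit 282) (nat_lit 84) (nat_lit 0) (XT.nd (nat_lit 94) (nat_lit 0) (nat_lit 0) (XT.lf (nat_lit 0) (nat_lit 2783601833) (nat_lit 252) (nat_lit 18227375757) (nat_lit 84) (nat_lit 9755399958) (nat_lit 7) (nat_lit 5) (nat_lit 10) (nat_lit 5) (nat_lit 8) (nat_lit 4) (nat_lit 383) (nat_lit 271) (nat_lit 210)) (XT.nd (nat_lit 94) (nat_lit 0) (nat_lit 0) (XT.lf (nat_lit 0) (nat_lit 4963690802) (nat_lit 252) (nat_lit 13931647700) (nat_lit 84) (nat_lit 12728383644) (nat_lit 7) (nat_lit 5)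 (nat_lit 10) (nat_lit 5) (nat_lit 8) (nat_lit 4) (nat_lit 384) (nat_lit 271) (nat_lit 209)) (XT.lf (nat_lit 0) (nat_lit 7190563435) (nat_lit 252) (nat_lit 9536932077) (nat_lit 84) (nat_lit 15780829986) (nat_lit 7) (nat_lit 5) (nat_lit 10) (nat_lit 5) (nat_lit 8) (nat_lit 4) (nat_lit 385) (nat_lit 271) (nat_lit 208)))) (XT.nd (nat_lit 94) (nat_lit 84) (nat_lit 0) (XT.lf (nat_lit 0) (nat_lit 9466295410) (nat_lit 252) (nat_lit 5039132555) (nat_lit 84) (nat_lit 18915584182) (nat_lit 7) (nat_lit 5) (nat_lit 10) (nat_lit 5) (nat_lit 8) (nat_lit 4) (nat_lit 386) (nat_lit 271) (nat_lit 207)) (XT.nd (nat_lit 94) (nat_lit 84) (nat_lit 0) (XT.lf (nat_lit 0) (nat_lit 11793007949) (nat_lit 252) (nat_lit 434056711) (nat_lit 84) (nat_lit 22135568151) (nat_lit 7) (nat_lit 5) (nat_lit 10) (nat_lit 5) (nat_lit 8) (nat_lit 4) (nat_lit 387) (nat_lit 271) (nat_lit 206)) (XT.lf (nat_lit 0) (nat_lit 4370646656)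 (nat_lit 84) (nat_lit 9845580490) (nat_lit 168) (nat_lit 21116493957) (nat_lit 6) (nat_lit 5) (nat_lit 7) (nat_lit 5) (nat_lit 8) (nat_lit 4) (nat_lit 388) (nat_lit 271) (nat_lit 205))))) (XT.nd (nat_lit 282) (nat_lit 0) (nat_lit 0) (XT.nd (nat_lit 94) (nat_lit 0) (nat_lit 0) (XT.lf (nat_lit 0) (nat_lit 9302624741) (nat_lit 84) (nat_lit 7397757663) (nat_lit 168) (nat_lit 19632971549) (nat_lit 6) (nat_lit 5) (nat_lit 7) (nat_lit 5) (nat_lit 8) (nat_lit 4) (nat_lit 389) (nat_lit 271) (nat_lit 204)) (XT.nd (nat_lit 94) (nat_lit 0) (nat_lit 0) (XT.lf (nat_lit 0) (nat_lit 14357549569) (nat_lit 84) (nat_lit 4885845213) (nat_lit 168) (nat_lit 18122205504) (nat_lit 6) (nat_lit 5) (nat_lit 7) (nat_lit 5) (nat_lit 8) (nat_lit 4) (nat_lit 390) (nat_lit 271) (nat_lit 203)) (XT.lf (nat_lit 0) (nat_lit 19540132859) (nat_lit 84) (nat_lit 2307501775) (nat_lit 168) (nat_lit 16582787628) (nat_lit 6) (nat_lit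 5) (nat_lit 7) (nat_lit 5) (nat_lit 8) (nat_lit 4) (nat_lit 391) (nat_lit 271) (nat_lit 202)))) (XT.nd (nat_lit 94) (nat_lit 0) (nat_lit 0) (XT.lf (nat_lit 0) (nat_lit 24518899010) (nat_lit 168) (nat_lit 14676976713) (nat_lit 0) (nat_lit 332832224) (nat_lit 6) (nat_lit 5) (nat_lit 8) (nat_lit 4) (nat_lit 6) (nat_lit 4) (nat_lit 392) (nat_lit 271) (nat_lit 201)) (XT.nd (nat_lit 94) (nat_lit 0) (nat_lit 0) (XT.lf (nat_lit 0) (nat_lit 27279903066) (nat_lit 168) (nat_lit 10384410654) (nat_lit 0) (nat_lit 2996540356) (nat_lit 6) (nat_lit 5) (nat_lit 8) (nat_lit 4) (nat_lit 6) (nat_lit 4) (nat_lit 393) (nat_lit 271) (nat_lit 200)) (XT.lf (nat_lit 0) (nat_lit 30110329645) (nat_lit 168) (nat_lit 5985699404) (nat_lit 0) (nat_lit 5732596493) (nat_lit 6) (nat_lit 5) (nat_lit 8) (nat_lit 4) (nat_lit 6) (nat_lit 4) (nat_lit 394) (nat_lit 271) (nat_lit 199)))))) (XT.nd (nat_lit 564) (nat_lit 84) (nat_lit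 0) (XT.nd (nat_lit 282) (nat_lit 0) (nat_lit 0) (XT.nd (nat_lit 94) (nat_lit 84) (nat_lit 0) (XT.lf (nat_lit 0) (nat_lit 33012816999) (nat_lit 168) (nat_lit 1476742901) (nat_lit 0) (nat_lit 8543550927) (nat_lit 6) (nat_lit 5) (nat_lit 8) (nat_lit 4) (nat_lit 6) (nat_lit 4) (nat_lit 395) (nat_lit 271) (nat_lit 198)) (XT.nd (nat_lit 94) (nat_lit 0) (nat_lit 0) (XT.lf (nat_lit 0) (nat_lit 3211363491) (nat_lit 84) (nat_lit 32810564184) (nat_lit 84) (nat_lit 8252517393) (nat_lit 5) (nat_lit 4) (nat_lit 6) (nat_lit 5) (nat_lit 6) (nat_lit 4) (nat_lit 396) (nat_lit 271) (nat_lit 197)) (XT.lf (nat_lit 0) (nat_lit 8051034215) (nat_lit 84) (nat_lit 31073698456) (nat_lit 84) (nat_lit 6429540397) (nat_lit 5) (nat_lit 4) (nat_lit 6) (nat_lit 5) (nat_lit 6) (nat_lit 4) (nat_lit 397) (nat_lit 271) (nat_lit 196)))) (XT.nd (nat_lit 94) (nat_lit 0) (nat_lit 0) (XT.lf (nat_lit 0) (nat_lit 13016415487)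 (nat_lit 84) (nat_lit 29292757943) (nat_lit 84) (nat_lit 4565077799) (nat_lit 5) (nat_lit 4) (nat_lit 6) (nat_lit 5) (nat_lit 6) (nat_lit 4) (nat_lit 398) (nat_lit 271) (nat_lit 195)) (XT.nd (nat_lit 94) (nat_lit 0) (nat_lit 0) (XT.lf (nat_lit 0) (nat_lit 18112135563) (nat_lit 84) (nat_lit 27466082621) (nat_lit 84) (nat_lit 2657391727) (nat_lit 5) (nat_lit 4) (nat_lit 6) (nat_lit 5) (nat_lit 6) (nat_lit 4) (nat_lit 399) (nat_lit 271) (nat_lit 194)) (XT.lf (nat_lit 0) (nat_lit 23342944189) (nat_lit 84) (nat_lit 25591969839) (nat_lit 84) (nat_lit 704704017) (nat_lit 5) (nat_lit 4) (nat_lit 6) (nat_lit 5) (nat_lit 6) (nat_lit 4) (nat_lit 400) (nat_lit 271) (nat_lit 193))))) (XT.nd (nat_lit 282) (nat_lit 0) (nat_lit 0) (XT.nd (nat_lit 94) (nat_lit 0) (nat_lit 0) (XT.lf (nat_lit 0) (nat_lit 1268717997) (nat_lit 168) (nat_lit 22386711916) (nat_lit 84) (nat_lit 27431756214) (nat_lit 4) (nat_lit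 5) (nat_lit 6) (nat_lit 5) (nat_lit 5) (nat_lit 4) (nat_lit 401) (nat_lit 271) (nat_lit 192)) (XT.nd (nat_lit 94) (nat_lit 0) (nat_lit 0) (XT.lf (nat_lit 0) (nat_lit 3275646391) (nat_lit 168) (nat_lit 18384561148) (nat_lit 84) (nat_lit 30919622773) (nat_lit 4) (nat_lit 5) (nat_lit 6) (nat_lit 5) (nat_lit 5) (nat_lit 4) (nat_lit 402) (nat_lit 271) (nat_lit 191)) (XT.lf (nat_lit 0) (nat_lit 5332150048) (nat_lit 168) (nat_lit 14279500377) (nat_lit 84) (nat_lit 34507508188) (nat_lit 4) (nat_lit 5) (nat_lit 6) (nat_lit 5) (nat_lit 5) (nat_lit 4) (nat_lit 403) (nat_lit 271) (nat_lit 190)))) (XT.nd (nat_lit 94) (nat_lit 0) (nat_lit 0) (XT.lf (nat_lit 0) (nat_lit 7440145845) (nat_lit 168) (nat_lit 10067703258) (nat_lit 84) (nat_lit 38198756745) (nat_lit 4) (nat_lit 5) (nat_lit 6) (nat_lit 5) (nat_lit 5) (nat_lit 4) (nat_lit 404) (nat_lit 271) (nat_lit 189)) (XT.nd (nat_lit 94) (nat_lit 0) (nat_lit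 0) (XT.lf (nat_lit 0) (nat_lit 9601598656) (nat_lit 168) (nat_lit 5745243953) (nat_lit 84) (nat_lit 41996809074) (nat_lit 4) (nat_lit 5) (nat_lit 6) (nat_lit 5) (nat_lit 5) (nat_lit 4) (nat_lit 405) (nat_lit 271) (nat_lit 188)) (XT.lf (nat_lit 0) (nat_lit 11818523179) (nat_lit 168) (nat_lit 1308093479) (nat_lit 84) (nat_lit 45905205358) (nat_lit 4) (nat_lit 5) (nat_lit 6) (nat_lit 5) (nat_lit 5) (nat_lit 4) (nat_lit 406) (nat_lit 271) (nat_lit 187))))))))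
noncomputable def xc46 : XT := (XT.nd (nat_lit 47752) (nat_lit 0) (nat_lit 1260) (XT.nd (nat_lit 46624) (nat_lit 0) (nat_lit 3528) (XT.nd (nat_lit 46060) (nat_lit 0) (nat_lit 6048) (XT.nd (nat_lit 282) (nat_lit 0) (nat_lit 0) (XT.nd (nat_lit 94) (nat_lit 0) (nat_lit 0) (XT.lf (nat_lit 0) (nat_lit 3314667211) (nat_lit 84) (nat_lit 10811200520) (nat_lit 168) (nat_lit 46645803329) (nat_lit 3) (nat_lit 5) (nat_lit 4) (nat_lit 5) (nat_lit 5) (nat_lit 4) (nat_lit 407) (nat_lit 271) (nat_lit 186)) (XT.nd (nat_lit 94) (nat_lit 0) (nat_lit 0) (XT.lf (nat_lit 0) (nat_lit 8089929341) (nat_lit 84) (nat_lit 8417430380) (nat_lit 168) (nat_lit 46058031935) (nat_lit 3) (nat_lit 5) (nat_lit 4) (nat_lit 5) (nat_lit 5) (nat_lit 4) (nat_lit 408) (nat_lit 271) (nat_lit 185)) (XT.lf (nat_lit 0) (nat_lit 12995246871) (nat_lit 84) (nat_lit 5956728808) (nat_lit 168) (nat_lit 45463090604) (nat_lit 3) (nat_lit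 5) (nat_lit 4) (nat_lit 5) (nat_lit 5) (nat_lit 4) (nat_lit 409) (nat_lit 271) (nat_lit 184)))) (XT.nd (nat_lit 94) (nat_lit 0) (nat_lit 0) (XT.lf (nat_lit 0) (nat_lit 18035192071) (nat_lit 84) (nat_lit 3426802172) (nat_lit 168) (nat_lit 44860424789) (nat_lit 3) (nat_lit 5) (nat_lit 4) (nat_lit 5) (nat_lit 5) (nat_lit 4) (nat_lit 410) (nat_lit 271) (nat_lit 183)) (XT.nd (nat_lit 94) (nat_lit 0) (nat_lit 0) (XT.lf (nat_lit 0) (nat_lit 23214462697) (nat_lit 84) (nat_lit 825292316) (nat_lit 168) (nat_lit 44249472741) (nat_lit 3) (nat_lit 5) (nat_lit 4) (nat_lit 5) (nat_lit 5) (nat_lit 4) (nat_lit 411) (nat_lit 271) (nat_lit 182)) (XT.lf (nat_lit 0) (nat_lit 26706015199) (nat_lit 168) (nat_lit 41797793816) (nat_lit 0) (nat_lit 1812947717) (nat_lit 3) (nat_lit 5) (nat_lit 5) (nat_lit 4) (nat_lit 3) (nat_lit 4) (nat_lit 412) (nat_lit 271) (nat_lit 181))))) (XT.nd (nat_lit 282) (nat_lit 924)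 (nat_lit 0) (XT.nd (nat_lit 94) (nat_lit 504) (nat_lit 0) (XT.lf (nat_lit 0) (nat_lit 997149096) (nat_lit 588) (nat_lit 1942508103) (nat_lit 0) (nat_lit 997149096) (nat_lit 92) (nat_lit 5) (nat_lit 99) (nat_lit 4) (nat_lit 92) (nat_lit 4) (nat_lit 320) (nat_lit 272) (nat_lit 272)) (XT.nd (nat_lit 94) (nat_lit 0) (nat_lit 0) (XT.lf (nat_lit 0) (nat_lit 602162771) (nat_lit 504) (nat_lit 4298470540) (nat_lit 504) (nat_lit 3072263323) (nat_lit 86) (nat_lit 4) (nat_lit 92) (nat_lit 5) (nat_lit 92) (nat_lit 4) (nat_lit 321) (nat_lit 272) (nat_lit 271)) (XT.lf (nat_lit 0) (nat_lit 5217268712) (nat_lit 504) (nat_lit 2637595262) (nat_lit 504) (nat_lit 222050297) (nat_lit 86) (nat_lit 4) (nat_lit 92) (nat_lit 5) (nat_lit 92) (nat_lit 4) (nat_lit 322) (nat_lit 272) (nat_lit 270)))) (XT.nd (nat_lit 94) (nat_lit 420) (nat_lit 0) (XT.lf (nat_lit 0) (nat_lit 1705985571) (nat_lit 420) (nat_lit 891310046)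 (nat_lit 504) (nat_lit 5588351671) (nat_lit 80) (nat_lit 5) (nat_lit 85) (nat_lit 5) (nat_lit 86) (nat_lit 4) (nat_lit 323) (nat_lit 272) (nat_lit 269)) (XT.nd (nat_lit 94) (nat_lit 420) (nat_lit 0) (XT.lf (nat_lit 0) (nat_lit 5458605202) (nat_lit 504) (nat_lit 1929107281) (nat_lit 0) (nat_lit 911550821) (nat_lit 80) (nat_lit 5) (nat_lit 86) (nat_lit 4) (nat_lit 80) (nat_lit 4) (nat_lit 324) (nat_lit 272) (nat_lit 268)) (XT.lf (nat_lit 0) (nat_lit 2716509189) (nat_lit 420) (nat_lit 5650579470) (nat_lit 420) (nat_lit 50907697) (nat_lit 75) (nat_lit 4) (nat_lit 80) (nat_lit 5) (nat_lit 80) (nat_lit 4) (nat_lit 325) (nat_lit 272) (nat_lit 267)))))) (XT.nd (nat_lit 564) (nat_lit 1176) (nat_lit 0) (XT.nd (nat_lit 282) (nat_lit 840) (nat_lit 0) (XT.nd (nat_lit 94) (nat_lit 420) (nat_lit 0) (XT.lf (nat_lit 0) (nat_lit 2711514043) (nat_lit 504) (nat_lit 1113554154) (nat_lit 84) (nat_lit 4716525968)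 (nat_lit 74) (nat_lit 5) (nat_lit 80) (nat_lit 5) (nat_lit 75) (nat_lit 4) (nat_lit 326) (nat_lit 272) (nat_lit 266)) (XT.nd (nat_lit 94) (nat_lit 0) (nat_lit 0) (XT.lf (nat_lit 0) (nat_lit 3598804866) (nat_lit 420) (nat_lit 1920502422) (nat_lit 504) (nat_lit 3151196155) (nat_lit 69) (nat_lit 5) (nat_lit 74) (nat_lit 5) (nat_lit 75) (nat_lit 4) (nat_lit 327) (nat_lit 272) (nat_lit 265)) (XT.lf (nat_lit 0) (nat_lit 8352623556) (nat_lit 504) (nat_lit 414019100) (nat_lit 0) (nat_lit 38945579) (nat_lit 69) (nat_lit 5) (nat_lit 75) (nat_lit 4) (nat_lit 69) (nat_lit 4) (nat_lit 328) (nat_lit 272) (nat_lit 264)))) (XT.nd (nat_lit 94) (nat_lit 336) (nat_lit 0) (XT.lf (nat_lit 0) (nat_lit 2273143367) (nat_lit 504) (nat_lit 4600525863) (nat_lit 84) (nat_lit 2071005586) (nat_lit 63) (nat_lit 5) (nat_lit 69) (nat_lit 5) (nat_lit 64) (nat_lit 4) (nat_lit 329) (nat_lit 272) (nat_lit 263)) (XT.nd (nat_lit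 94) (nat_lit 0) (nat_lit 0) (XT.lf (nat_lit 0) (nat_lit 78208238) (nat_lit 336) (nat_lit 4930123093) (nat_lit 420) (nat_lit 4081893186) (nat_lit 59) (nat_lit 5) (nat_lit 63) (nat_lit 5) (nat_lit 64) (nat_lit 4) (nat_lit 330) (nat_lit 272) (nat_lit 262)) (XT.lf (nat_lit 0) (nat_lit 4911067791) (nat_lit 336) (nat_lit 2895362862) (nat_lit 420) (nat_lit 1434774824) (nat_lit 59) (nat_lit 5) (nat_lit 63) (nat_lit 5) (nat_lit 64) (nat_lit 4) (nat_lit 331) (nat_lit 272) (nat_lit 261))))) (XT.nd (nat_lit 282) (nat_lit 420) (nat_lit 0) (XT.nd (nat_lit 94) (nat_lit 336) (nat_lit 0) (XT.lf (nat_lit 0) (nat_lit 404769270) (nat_lit 336) (nat_lit 798850732) (nat_lit 420) (nat_lit 8195081315) (nat_lit 54) (nat_lit 5) (nat_lit 58) (nat_lit 5) (nat_lit 59) (nat_lit 5) (nat_lit 332) (nat_lit 272) (nat_lit 260)) (XT.nd (nat_lit 94) (nat_lit 336) (nat_lit 0) (XT.lf (nat_lit 0) (nat_lit 3885477970) (nat_lit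 420) (nat_lit 4298741067) (nat_lit 84) (nat_lit 1376889678) (nat_lit 54) (nat_lit 5) (nat_lit 59) (nat_lit 5) (nat_lit 55) (nat_lit 4) (nat_lit 333) (nat_lit 272) (nat_lit 259)) (XT.lf (nat_lit 0) (nat_lit 457041426) (nat_lit 336) (nat_lit 6140470848) (nat_lit 420) (nat_lit 3132893523) (nat_lit 50) (nat_lit 5) (nat_lit 54) (nat_lit 5) (nat_lit 55) (nat_lit 4) (nat_lit 334) (nat_lit 272) (nat_lit 258)))) (XT.nd (nat_lit 94) (nat_lit 420) (nat_lit 0) (XT.lf (nat_lit 0) (nat_lit 5366257468) (nat_lit 336) (nat_lit 4007696640) (nat_lit 420) (nat_lit 531813455) (nat_lit 50) (nat_lit 5) (nat_lit 54) (nat_lit 5) (nat_lit 55) (nat_lit 4) (nat_lit 335) (nat_lit 272) (nat_lit 257)) (XT.nd (nat_lit 94) (nat_lit 0) (nat_lit 0) (XT.lf (nat_lit 0) (nat_lit 240546809) (nat_lit 336) (nat_lit 1804991934) (nat_lit 420) (nat_lit 8042452659) (nat_lit 45) (nat_lit 5) (nat_lit 49) (nat_lit 5) (nat_lit 50)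 (nat_lit 5) (nat_lit 336) (nat_lit 272) (nat_lit 256)) (XT.lf (nat_lit 0) (nat_lit 4681675255) (nat_lit 420) (nat_lit 5105050741) (nat_lit 84) (nat_lit 489470377) (nat_lit 45) (nat_lit 5) (nat_lit 50) (nat_lit 5) (nat_lit 46) (nat_lit 4) (nat_lit 337) (nat_lit 272) (nat_lit 255))))))) (XT.nd (nat_lit 1128) (nat_lit 840) (nat_lit 0) (XT.nd (nat_lit 564) (nat_lit 588) (nat_lit 0) (XT.nd (nat_lit 282) (nat_lit 504) (nat_lit 0) (XT.nd (nat_lit 94) (nat_lit 336) (nat_lit 0) (XT.lf (nat_lit 0) (nat_lit 7357316651) (nat_lit 420) (nat_lit 316673412) (nat_lit 84) (nat_lit 2797737373) (nat_lit 45) (nat_lit 5) (nat_lit 50) (nat_lit 5) (nat_lit 46) (nat_lit 4) (nat_lit 338) (nat_lit 272) (nat_lit 254)) (XT.nd (nat_lit 94) (nat_lit 84) (nat_lit 0) (XT.lf (nat_lit 0) (nat_lit 4633409275) (nat_lit 252) (nat_lit 5469605886) (nat_lit 336) (nat_lit 570881883) (nat_lit 42) (nat_lit 5) (nat_lit 45) (nat_lit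 5) (nat_lit 46) (nat_lit 4) (nat_lit 339) (nat_lit 272) (nat_lit 253)) (XT.lf (nat_lit 0) (nat_lit 1954873303) (nat_lit 336) (nat_lit 1239607491) (nat_lit 84) (nat_lit 7689103266) (nat_lit 41) (nat_lit 5) (nat_lit 45) (nat_lit 5) (nat_lit 42) (nat_lit 5) (nat_lit 340) (nat_lit 272) (nat_lit 252)))) (XT.nd (nat_lit 94) (nat_lit 252) (nat_lit 0) (XT.lf (nat_lit 0) (nat_lit 3700596025) (nat_lit 252) (nat_lit 826316286) (nat_lit 336) (nat_lit 6573464917) (nat_lit 38) (nat_lit 5) (nat_lit 41) (nat_lit 5) (nat_lit 42) (nat_lit 5) (nat_lit 341) (nat_lit 272) (nat_lit 251)) (XT.nd (nat_lit 94) (nat_lit 252) (nat_lit 0) (XT.lf (nat_lit 0) (nat_lit 7151641379) (nat_lit 336) (nat_lit 2598530472) (nat_lit 84) (nat_lit 1574714622) (nat_lit 38) (nat_lit 5) (nat_lit 42) (nat_lit 5) (nat_lit 39) (nat_lit 4) (nat_lit 342) (nat_lit 272) (nat_lit 250)) (XT.lf (nat_lit 0) (nat_lit 2312978230) (nat_lit 252)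 (nat_lit 7521705032) (nat_lit 336) (nat_lit 1722539332) (nat_lit 35) (nat_lit 5) (nat_lit 38) (nat_lit 5) (nat_lit 39) (nat_lit 4) (nat_lit 343) (nat_lit 272) (nat_lit 249))))) (XT.nd (nat_lit 282) (nat_lit 252) (nat_lit 0) (XT.nd (nat_lit 94) (nat_lit 252) (nat_lit 0) (XT.lf (nat_lit 0) (nat_lit 761078369) (nat_lit 336) (nat_lit 4449556819) (nat_lit 84) (nat_lit 6586854661) (nat_lit 34) (nat_lit 5) (nat_lit 38) (nat_lit 5) (nat_lit 35) (nat_lit 5) (nat_lit 344) (nat_lit 272) (nat_lit 248)) (XT.nd (nat_lit 94) (nat_lit 0) (nat_lit 0) (XT.lf (nat_lit 0) (nat_lit 409507689) (nat_lit 252) (nat_lit 2827834080) (nat_lit 336) (nat_lit 8808962083) (nat_lit 31) (nat_lit 5) (nat_lit 34) (nat_lit 5) (nat_lit 35) (nat_lit 5) (nat_lit 345) (nat_lit 272) (nat_lit 247)) (XT.lf (nat_lit 0) (nat_lit 5439398181) (nat_lit 252) (nat_lit 345634768) (nat_lit 336) (nat_lit 6518098470) (nat_lit 31) (nat_lit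 5) (nat_lit 34) (nat_lit 5) (nat_lit 35) (nat_lit 5) (nat_lit 346) (nat_lit 272) (nat_lit 246)))) (XT.nd (nat_lit 94) (nat_lit 252) (nat_lit 0) (XT.lf (nat_lit 0) (nat_lit 8383222104) (nat_lit 336) (nat_lit 2038040642) (nat_lit 84) (nat_lit 2147671634) (nat_lit 31) (nat_lit 5) (nat_lit 35) (nat_lit 5) (nat_lit 32) (nat_lit 4) (nat_lit 347) (nat_lit 272) (nat_lit 245)) (XT.nd (nat_lit 94) (nat_lit 84) (nat_lit 0) (XT.lf (nat_lit 0) (nat_lit 2921402474) (nat_lit 168) (nat_lit 8124146167) (nat_lit 252) (nat_lit 1798064105) (nat_lit 29) (nat_lit 5) (nat_lit 31) (nat_lit 5) (nat_lit 32) (nat_lit 4) (nat_lit 348) (nat_lit 272) (nat_lit 244)) (XT.lf (nat_lit 0) (nat_lit 622958463) (nat_lit 252) (nat_lit 5126725732) (nat_lit 84) (nat_lit 7377882718) (nat_lit 28) (nat_lit 5) (nat_lit 31) (nat_lit 5) (nat_lit 29) (nat_lit 5) (nat_lit 349) (nat_lit 272) (nat_lit 243)))))) (XT.nd (nat_lit 564) (nat_lit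 336) (nat_lit 0) (XT.nd (nat_lit 282) (nat_lit 252) (nat_lit 0) (XT.nd (nat_lit 94) (nat_lit 252) (nat_lit 0) (XT.lf (nat_lit 0) (nat_lit 3034385767) (nat_lit 252) (nat_lit 270391306) (nat_lit 84) (nat_lit 10116558508) (nat_lit 28) (nat_lit 5) (nat_lit 31) (nat_lit 5) (nat_lit 29) (nat_lit 5) (nat_lit 350) (nat_lit 272) (nat_lit 242)) (XT.nd (nat_lit 94) (nat_lit 0) (nat_lit 0) (XT.lf (nat_lit 0) (nat_lit 4765164073) (nat_lit 252) (nat_lit 756799437) (nat_lit 336) (nat_lit 8202316607) (nat_lit 25) (nat_lit 5) (nat_lit 28) (nat_lit 5) (nat_lit 29) (nat_lit 5) (nat_lit 351) (nat_lit 272) (nat_lit 241)) (XT.lf (nat_lit 0) (nat_lit 8062689752) (nat_lit 336) (nat_lit 4160502497) (nat_lit 84) (nat_lit 1814275589) (nat_lit 25) (nat_lit 5) (nat_lit 29) (nat_lit 5) (nat_lit 26) (nat_lit 4) (nat_lit 352) (nat_lit 272) (nat_lit 240)))) (XT.nd (nat_lit 94) (nat_lit 84) (nat_lit 0) (XT.lf (nat_lit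 0) (nat_lit 727889419) (nat_lit 168) (nat_lit 9925244416) (nat_lit 252) (nat_lit 3708236598) (nat_lit 23) (nat_lit 5) (nat_lit 25) (nat_lit 5) (nat_lit 26) (nat_lit 4) (nat_lit 353) (nat_lit 272) (nat_lit 239)) (XT.nd (nat_lit 94) (nat_lit 84) (nat_lit 0) (XT.lf (nat_lit 0) (nat_lit 5790785444) (nat_lit 168) (nat_lit 7533193654) (nat_lit 252) (nat_lit 1371434382) (nat_lit 23) (nat_lit 5) (nat_lit 25) (nat_lit 5) (nat_lit 26) (nat_lit 4) (nat_lit 354) (nat_lit 272) (nat_lit 238)) (XT.lf (nat_lit 0) (nat_lit 974345059) (nat_lit 252) (nat_lit 4103722210) (nat_lit 84) (nat_lit 9962841039) (nat_lit 22) (nat_lit 5) (nat_lit 25) (nat_lit 5) (nat_lit 23) (nat_lit 5) (nat_lit 355) (nat_lit 272) (nat_lit 237))))) (XT.nd (nat_lit 282) (nat_lit 168) (nat_lit 0) (XT.nd (nat_lit 94) (nat_lit 0) (nat_lit 0) (XT.lf (nat_lit 0) (nat_lit 785496502) (nat_lit 168) (nat_lit 2545376868) (nat_lit 252) (nat_lit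 12066936761) (nat_lit 20) (nat_lit 5) (nat_lit 22) (nat_lit 5) (nat_lit 23) (nat_lit 5) (nat_lit 356) (nat_lit 272) (nat_lit 236)) (XT.nd (nat_lit 94) (nat_lit 0) (nat_lit 0) (XT.lf (nat_lit 0) (nat_lit 5763525439) (nat_lit 252) (nat_lit 9915087187) (nat_lit 84) (nat_lit 87158780) (nat_lit 20) (nat_lit 5) (nat_lit 23) (nat_lit 5) (nat_lit 21) (nat_lit 4) (nat_lit 357) (nat_lit 272) (nat_lit 235)) (XT.lf (nat_lit 0) (nat_lit 8257997168) (nat_lit 252) (nat_lit 5159216690) (nat_lit 84) (nat_lit 2728434975) (nat_lit 20) (nat_lit 5) (nat_lit 23) (nat_lit 5) (nat_lit 21) (nat_lit 4) (nat_lit 358) (nat_lit 272) (nat_lit 234)))) (XT.nd (nat_lit 94) (nat_lit 168) (nat_lit 0) (XT.lf (nat_lit 0) (nat_lit 10791363213) (nat_lit 252) (nat_lit 315018716) (nat_lit 84) (nat_lit 5432197333) (nat_lit 20) (nat_lit 5) (nat_lit 23) (nat_lit 5) (nat_lit 21) (nat_lit 4) (nat_lit 359) (nat_lit 272) (nat_lit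 233)) (XT.nd (nat_lit 94) (nat_lit 0) (nat_lit 0) (XT.lf (nat_lit 0) (nat_lit 4717060287) (nat_lit 168) (nat_lit 8695718471) (nat_lit 252) (nat_lit 3530699578) (nat_lit 18) (nat_lit 5) (nat_lit 20) (nat_lit 5) (nat_lit 21) (nat_lit 4) (nat_lit 360) (nat_lit 272) (nat_lit 232)) (XT.lf (nat_lit 0) (nat_lit 9855065000) (nat_lit 168) (nat_lit 6226960619) (nat_lit 252) (nat_lit 1280020354) (nat_lit 18) (nat_lit 5) (nat_lit 20) (nat_lit 5) (nat_lit 21) (nat_lit 4) (nat_lit 361) (nat_lit 272) (nat_lit 231))))))))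
noncomputable def xc47 : XT := (XT.nd (nat_lit 2256) (nat_lit 336) (nat_lit 0) (XT.nd (nat_lit 1128) (nat_lit 336) (nat_lit 0) (XT.nd (nat_lit 564) (nat_lit 252) (nat_lit 0) (XT.nd (nat_lit 282) (nat_lit 84) (nat_lit 0) (XT.nd (nat_lit 94) (nat_lit 168) (nat_lit 0) (XT.lf (nat_lit 0) (nat_lit 983410407) (nat_lit 252) (nat_lit 2707420188) (nat_lit 84) (nat_lit 14103631953) (nat_lit 17) (nat_lit 5) (nat_lit 20) (nat_lit 5) (nat_lit 18) (nat_lit 5) (nat_lit 362) (nat_lit 272) (nat_lit 230)) (XT.nd (nat_lit 94) (nat_lit 0) (nat_lit 0) (XT.lf (nat_lit 0) (nat_lit 2218352109) (nat_lit 168) (nat_lit 1059099695) (nat_lit 252) (nat_lit 14962901618) (nat_lit 15) (nat_lit 5) (nat_lit 17) (nat_lit 5) (nat_lit 18) (nat_lit 5) (nat_lit 363) (nat_lit 272) (nat_lit 229)) (XT.lf (nat_lit 0) (nat_lit 5652923761) (nat_lit 252) (nat_lit 11416249172) (nat_lit 84) (nat_lit 1630645262) (nat_lit 15) (nat_lit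 5) (nat_lit 18) (nat_lit 5) (nat_lit 16) (nat_lit 4) (nat_lit 364) (nat_lit 272) (nat_lit 228)))) (XT.nd (nat_lit 94) (nat_lit 84) (nat_lit 0) (XT.lf (nat_lit 0) (nat_lit 8079265420) (nat_lit 252) (nat_lit 6731488252) (nat_lit 84) (nat_lit 4363547486) (nat_lit 15) (nat_lit 5) (nat_lit 18) (nat_lit 5) (nat_lit 16) (nat_lit 4) (nat_lit 365) (nat_lit 272) (nat_lit 227)) (XT.nd (nat_lit 94) (nat_lit 84) (nat_lit 0) (XT.lf (nat_lit 0) (nat_lit 10548231987) (nat_lit 252) (nat_lit 1952845466) (nat_lit 84) (nat_lit 7163492828) (nat_lit 15) (nat_lit 5) (nat_lit 18) (nat_lit 5) (nat_lit 16) (nat_lit 4) (nat_lit 366) (nat_lit 272) (nat_lit 226)) (XT.lf (nat_lit 0) (nat_lit 2984259559) (nat_lit 84) (nat_lit 10107469462) (nat_lit 168) (nat_lit 7078435794) (nat_lit 14) (nat_lit 5) (nat_lit 15) (nat_lit 5) (nat_lit 16) (nat_lit 4) (nat_lit 367) (nat_lit 272) (nat_lit 225))))) (XT.nd (nat_lit 282) (nat_lit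 252) (nat_lit 0) (XT.nd (nat_lit 94) (nat_lit 0) (nat_lit 0) (XT.lf (nat_lit 0) (nat_lit 8066516473) (nat_lit 84) (nat_lit 7636791431) (nat_lit 168) (nat_lit 4988521524) (nat_lit 14) (nat_lit 5) (nat_lit 15) (nat_lit 5) (nat_lit 16) (nat_lit 4) (nat_lit 368) (nat_lit 272) (nat_lit 224)) (XT.nd (nat_lit 94) (nat_lit 0) (nat_lit 0) (XT.lf (nat_lit 0) (nat_lit 13258507962) (nat_lit 84) (nat_lit 5107124132) (nat_lit 168) (nat_lit 2865031168) (nat_lit 14) (nat_lit 5) (nat_lit 15) (nat_lit 5) (nat_lit 16) (nat_lit 4) (nat_lit 369) (nat_lit 272) (nat_lit 223)) (XT.lf (nat_lit 0) (nat_lit 18565073507) (nat_lit 84) (nat_lit 2516109649) (nat_lit 168) (nat_lit 705985410) (nat_lit 14) (nat_lit 5) (nat_lit 15) (nat_lit 5) (nat_lit 16) (nat_lit 4) (nat_lit 370) (nat_lit 272) (nat_lit 222)))) (XT.nd (nat_lit 94) (nat_lit 0) (nat_lit 0) (XT.lf (nat_lit 0) (nat_lit 1478634822) (nat_lit 252) (nat_lit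 20714887258) (nat_lit 84) (nat_lit 167324355) (nat_lit 11) (nat_lit 5) (nat_lit 14) (nat_lit 5) (nat_lit 12) (nat_lit 4) (nat_lit 371) (nat_lit 272) (nat_lit 221)) (XT.nd (nat_lit 94) (nat_lit 0) (nat_lit 0) (XT.lf (nat_lit 0) (nat_lit 3747502462) (nat_lit 252) (nat_lit 16297268970) (nat_lit 84) (nat_lit 2906400167) (nat_lit 11) (nat_lit 5) (nat_lit 14) (nat_lit 5) (nat_lit 12) (nat_lit 4) (nat_lit 372) (nat_lit 272) (nat_lit 220)) (XT.lf (nat_lit 0) (nat_lit 6059041793) (nat_lit 252) (nat_lit 11787257993) (nat_lit 84) (nat_lit 5714406979) (nat_lit 11) (nat_lit 5) (nat_lit 14) (nat_lit 5) (nat_lit 12) (nat_lit 4) (nat_lit 373) (nat_lit 272) (nat_lit 219)))))) (XT.nd (nat_lit 564) (nat_lit 252) (nat_lit 0) (XT.nd (nat_lit 282) (nat_lit 0) (nat_lit 0) (XT.nd (nat_lit 94) (nat_lit 84) (nat_lit 0) (XT.lf (nat_lit 0) (nat_lit 8415407410) (nat_lit 252) (nat_lit 7180650523) (nat_lit 84) (nat_lit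 8593962146) (nat_lit 11) (nat_lit 5) (nat_lit 14) (nat_lit 5) (nat_lit 12) (nat_lit 4) (nat_lit 374) (nat_lit 272) (nat_lit 218)) (XT.nd (nat_lit 94) (nat_lit 84) (nat_lit 0) (XT.lf (nat_lit 0) (nat_lit 10818795693) (nat_lit 252) (nat_lit 2473152719) (nat_lit 84) (nat_lit 11547749716) (nat_lit 11) (nat_lit 5) (nat_lit 14) (nat_lit 5) (nat_lit 12) (nat_lit 4) (nat_lit 375) (nat_lit 272) (nat_lit 217)) (XT.lf (nat_lit 0) (nat_lit 2387730751) (nat_lit 84) (nat_lit 10907402686) (nat_lit 168) (nat_lit 12214478762) (nat_lit 10) (nat_lit 5) (nat_lit 11) (nat_lit 5) (nat_lit 12) (nat_lit 4) (nat_lit 376) (nat_lit 272) (nat_lit 216)))) (XT.nd (nat_lit 94) (nat_lit 0) (nat_lit 0) (XT.lf (nat_lit 0) (nat_lit 7411488517) (nat_lit 84) (nat_lit 8437681382) (nat_lit 168) (nat_lit 10351141148) (nat_lit 10) (nat_lit 5) (nat_lit 11) (nat_lit 5) (nat_lit 12) (nat_lit 4) (nat_lit 377) (nat_lit 272) (nat_lit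 215)) (XT.nd (nat_lit 94) (nat_lit 0) (nat_lit 0) (XT.lf (nat_lit 0) (nat_lit 12551950155) (nat_lit 84) (nat_lit 5906297103) (nat_lit 168) (nat_lit 8454967409) (nat_lit 10) (nat_lit 5) (nat_lit 11) (nat_lit 5) (nat_lit 12) (nat_lit 4) (nat_lit 378) (nat_lit 272) (nat_lit 214)) (XT.lf (nat_lit 0) (nat_lit 17813907113) (nat_lit 84) (nat_lit 3310890335) (nat_lit 168) (nat_lit 6524190114) (nat_lit 10) (nat_lit 5) (nat_lit 11) (nat_lit 5) (nat_lit 12) (nat_lit 4) (nat_lit 379) (nat_lit 272) (nat_lit 213))))) (XT.nd (nat_lit 282) (nat_lit 84) (nat_lit 0) (XT.nd (nat_lit 94) (nat_lit 168) (nat_lit 0) (XT.lf (nat_lit 0) (nat_lit 23202264087) (nat_lit 84) (nat_lit 649041887) (nat_lit 168) (nat_lit 4557009574) (nat_lit 10) (nat_lit 5) (nat_lit 11) (nat_lit 5) (nat_lit 12) (nat_lit 4) (nat_lit 380) (nat_lit 272) (nat_lit 212)) (XT.nd (nat_lit 94) (nat_lit 168) (nat_lit 0) (XT.lf (nat_lit 0) (nat_lit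 26660965240) (nat_lit 168) (nat_lit 490513823) (nat_lit 0) (nat_lit 2039787155) (nat_lit 10) (nat_lit 5) (nat_lit 12) (nat_lit 4) (nat_lit 10) (nat_lit 4) (nat_lit 381) (nat_lit 272) (nat_lit 211)) (XT.lf (nat_lit 0) (nat_lit 4418472937) (nat_lit 168) (nat_lit 25168230290) (nat_lit 168) (nat_lit 410926555) (nat_lit 8) (nat_lit 4) (nat_lit 10) (nat_lit 5) (nat_lit 10) (nat_lit 4) (nat_lit 382) (nat_lit 272) (nat_lit 210)))) (XT.nd (nat_lit 94) (nat_lit 0) (nat_lit 0) (XT.lf (nat_lit 0) (nat_lit 1722131795) (nat_lit 252) (nat_lit 21391686696) (nat_lit 84) (nat_lit 7715168372) (nat_lit 7) (nat_lit 5) (nat_lit 10) (nat_lit 5) (nat_lit 8) (nat_lit 4) (nat_lit 383) (nat_lit 272) (nat_lit 209)) (XT.nd (nat_lit 94) (nat_lit 0) (nat_lit 0) (XT.lf (nat_lit 0) (nat_lit 3891979949) (nat_lit 252) (nat_lit 17112787790) (nat_lit 84) (nat_lit 10681899061) (nat_lit 7) (nat_lit 5) (nat_lit 10) (nat_lit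 5) (nat_lit 8) (nat_lit 4) (nat_lit 384) (nat_lit 272) (nat_lit 208)) (XT.lf (nat_lit 0) (nat_lit 6108919688) (nat_lit 252) (nat_lit 12734395301) (nat_lit 84) (nat_lit 13728280418) (nat_lit 7) (nat_lit 5) (nat_lit 10) (nat_lit 5) (nat_lit 8) (nat_lit 4) (nat_lit 385) (nat_lit 272) (nat_lit 207))))))) (XT.nd (nat_lit 1128) (nat_lit 168) (nat_lit 0) (XT.nd (nat_lit 564) (nat_lit 84) (nat_lit 0) (XT.nd (nat_lit 282) (nat_lit 0) (nat_lit 0) (XT.nd (nat_lit 94) (nat_lit 84) (nat_lit 0) (XT.lf (nat_lit 0) (nat_lit 8375017430) (nat_lit 252) (nat_lit 8252428109) (nat_lit 84) (nat_lit 16857151992) (nat_lit 7) (nat_lit 5) (nat_lit 10) (nat_lit 5) (nat_lit 8) (nat_lit 4) (nat_lit 386) (nat_lit 272) (nat_lit 206)) (XT.nd (nat_lit 94) (nat_lit 84) (nat_lit 0) (XT.lf (nat_lit 0) (nat_lit 10692385416) (nat_lit 252) (nat_lit 3662708552) (nat_lit 84) (nat_lit 20071430217) (nat_lit 7) (nat_lit 5) (nat_lit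 10) (nat_lit 5) (nat_lit 8) (nat_lit 4) (nat_lit 387) (nat_lit 272) (nat_lit 205)) (XT.lf (nat_lit 0) (nat_lit 1060406294) (nat_lit 84) (nat_lit 12013296744) (nat_lit 168) (nat_lit 22324224205) (nat_lit 6) (nat_lit 5) (nat_lit 7) (nat_lit 5) (nat_lit 8) (nat_lit 4) (nat_lit 388) (nat_lit 272) (nat_lit 204)))) (XT.nd (nat_lit 94) (nat_lit 0) (nat_lit 0) (XT.lf (nat_lit 0) (nat_lit 5977640618) (nat_lit 84) (nat_lit 9571280359) (nat_lit 168) (nat_lit 20849931516) (nat_lit 6) (nat_lit 5) (nat_lit 7) (nat_lit 5) (nat_lit 8) (nat_lit 4) (nat_lit 389) (nat_lit 272) (nat_lit 203)) (XT.nd (nat_lit 94) (nat_lit 0) (nat_lit 0) (XT.lf (nat_lit 0) (nat_lit 11018264999) (nat_lit 84) (nat_lit 7064999764) (nat_lit 168) (nat_lit 19348117669) (nat_lit 6) (nat_lit 5) (nat_lit 7) (nat_lit 5) (nat_lit 8) (nat_lit 4) (nat_lit 390) (nat_lit 272) (nat_lit 202)) (XT.lf (nat_lit 0) (nat_lit 16186977826) (nat_lit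 84) (nat_lit 4492118843) (nat_lit 168) (nat_lit 17817382819) (nat_lit 6) (nat_lit 5) (nat_lit 7) (nat_lit 5) (nat_lit 8) (nat_lit 4) (nat_lit 391) (nat_lit 272) (nat_lit 201))))) (XT.nd (nat_lit 282) (nat_lit 84) (nat_lit 0) (XT.nd (nat_lit 94) (nat_lit 0) (nat_lit 0) (XT.lf (nat_lit 0) (nat_lit 21488596880) (nat_lit 84) (nat_lit 1850239401) (nat_lit 168) (nat_lit 16256300159) (nat_lit 6) (nat_lit 5) (nat_lit 7) (nat_lit 5) (nat_lit 8) (nat_lit 4) (nat_lit 392) (nat_lit 272) (nat_lit 200)) (XT.nd (nat_lit 94) (nat_lit 0) (nat_lit 0) (XT.lf (nat_lit 0) (nat_lit 26073524827) (nat_lit 168) (nat_lit 13808875598) (nat_lit 0) (nat_lit 845711506) (nat_lit 6) (nat_lit 5) (nat_lit 8) (nat_lit 4) (nat_lit 6) (nat_lit 4) (nat_lit 393) (nat_lit 272) (nat_lit 199)) (XT.lf (nat_lit 0) (nat_lit 28896229865) (nat_lit 168) (nat_lit 9423022445) (nat_lit 0) (nat_lit 3576883624) (nat_lit 6) (nat_lit 5)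 (nat_lit 8) (nat_lit 4) (nat_lit 6) (nat_lit 4) (nat_lit 394) (nat_lit 272) (nat_lit 198)))) (XT.nd (nat_lit 94) (nat_lit 84) (nat_lit 0) (XT.lf (nat_lit 0) (nat_lit 31791227849) (nat_lit 168) (nat_lit 4926537424) (nat_lit 0) (nat_lit 6383100890) (nat_lit 6) (nat_lit 5) (nat_lit 8) (nat_lit 4) (nat_lit 6) (nat_lit 4) (nat_lit 395) (nat_lit 272) (nat_lit 197)) (XT.nd (nat_lit 94) (nat_lit 84) (nat_lit 0) (XT.lf (nat_lit 0) (nat_lit 34761217222) (nat_lit 168) (nat_lit 315229339) (nat_lit 0) (nat_lit 9266978994) (nat_lit 6) (nat_lit 5) (nat_lit 8) (nat_lit 4) (nat_lit 6) (nat_lit 4) (nat_lit 396) (nat_lit 272) (nat_lit 196)) (XT.lf (nat_lit 0) (nat_lit 4505985597) (nat_lit 84) (nat_lit 33347680661) (nat_lit 84) (nat_lit 7769920349) (nat_lit 5) (nat_lit 4) (nat_lit 6) (nat_lit 5) (nat_lit 6) (nat_lit 4) (nat_lit 397) (nat_lit 272) (nat_lit 195)))))) (XT.nd (nat_lit 564) (nat_lit 84) (nat_lit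 0) (XT.nd (nat_lit 282) (nat_lit 84) (nat_lit 0) (XT.nd (nat_lit 94) (nat_lit 0) (nat_lit 0) (XT.lf (nat_lit 0) (nat_lit 9459752879) (nat_lit 84) (nat_lit 31571405016) (nat_lit 84) (nat_lit 5912633953) (nat_lit 5) (nat_lit 4) (nat_lit 6) (nat_lit 5) (nat_lit 6) (nat_lit 4) (nat_lit 398) (nat_lit 272) (nat_lit 194)) (XT.nd (nat_lit 94) (nat_lit 0) (nat_lit 0) (XT.lf (nat_lit 0) (nat_lit 14544208172) (nat_lit 84) (nat_lit 29749254301) (nat_lit 84) (nat_lit 4011908309) (nat_lit 5) (nat_lit 4) (nat_lit 6) (nat_lit 5) (nat_lit 6) (nat_lit 4) (nat_lit 399) (nat_lit 272) (nat_lit 193)) (XT.lf (nat_lit 0) (nat_lit 19764090724) (nat_lit 84) (nat_lit 27879530079) (nat_lit 84) (nat_lit 2065971742) (nat_lit 5) (nat_lit 4) (nat_lit 6) (nat_lit 5) (nat_lit 6) (nat_lit 4) (nat_lit 400) (nat_lit 272) (nat_lit 192)))) (XT.nd (nat_lit 94) (nat_lit 84) (nat_lit 0) (XT.lf (nat_lit 0) (nat_lit 25124266009)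 (nat_lit 84) (nat_lit 25960489571) (nat_lit 84) (nat_lit 73010434) (nat_lit 5) (nat_lit 4) (nat_lit 6) (nat_lit 5) (nat_lit 6) (nat_lit 4) (nat_lit 401) (nat_lit 272) (nat_lit 191)) (XT.nd (nat_lit 94) (nat_lit 0) (nat_lit 0) (XT.lf (nat_lit 0) (nat_lit 1929165659) (nat_lit 168) (nat_lit 22041041839) (nat_lit 84) (nat_lit 28680428082) (nat_lit 4) (nat_lit 5) (nat_lit 6) (nat_lit 5) (nat_lit 5) (nat_lit 4) (nat_lit 402) (nat_lit 272) (nat_lit 190)) (XT.lf (nat_lit 0) (nat_lit 3979633141) (nat_lit 168) (nat_lit 17946084730) (nat_lit 84) (nat_lit 32264442839) (nat_lit 4) (nat_lit 5) (nat_lit 6) (nat_lit 5) (nat_lit 5) (nat_lit 4) (nat_lit 403) (nat_lit 272) (nat_lit 189))))) (XT.nd (nat_lit 282) (nat_lit 84) (nat_lit 0) (XT.nd (nat_lit 94) (nat_lit 0) (nat_lit 0) (XT.lf (nat_lit 0) (nat_lit 6081774257) (nat_lit 168) (nat_lit 13744087475) (nat_lit 84) (nat_lit 35951937121) (nat_lit 4) (nat_lit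 5) (nat_lit 6) (nat_lit 5) (nat_lit 5) (nat_lit 4) (nat_lit 404) (nat_lit 272) (nat_lit 188)) (XT.nd (nat_lit 94) (nat_lit 0) (nat_lit 0) (XT.lf (nat_lit 0) (nat_lit 8237548424) (nat_lit 168) (nat_lit 9431133375) (nat_lit 84) (nat_lit 39746348058) (nat_lit 4) (nat_lit 5) (nat_lit 6) (nat_lit 5) (nat_lit 5) (nat_lit 4) (nat_lit 405) (nat_lit 272) (nat_lit 187)) (XT.lf (nat_lit 0) (nat_lit 10448965050) (nat_lit 168) (nat_lit 5003202302) (nat_lit 84) (nat_lit 43651212438) (nat_lit 4) (nat_lit 5) (nat_lit 6) (nat_lit 5) (nat_lit 5) (nat_lit 4) (nat_lit 406) (nat_lit 272) (nat_lit 186)))) (XT.nd (nat_lit 94) (nat_lit 84) (nat_lit 0) (XT.lf (nat_lit 0) (nat_lit 12718085405) (nat_lit 168) (nat_lit 456166963) (nat_lit 84) (nat_lit 47670170005) (nat_lit 4) (nat_lit 5) (nat_lit 6) (nat_lit 5) (nat_lit 5) (nat_lit 4) (nat_lit 407) (nat_lit 272) (nat_lit 185)) (XT.nd (nat_lit 94) (nat_lit 0) (nat_lit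 0) (XT.lf (nat_lit 0) (nat_lit 4300863776) (nat_lit 84) (nat_lit 10788825874) (nat_lit 168) (nat_lit 47548768173) (nat_lit 3) (nat_lit 5) (nat_lit 4) (nat_lit 5) (nat_lit 5) (nat_lit 4) (nat_lit 408) (nat_lit 272) (nat_lit 184)) (XT.lf (nat_lit 0) (nat_lit 9197595794) (nat_lit 84) (nat_lit 8331598790) (nat_lit 168) (nat_lit 46959104388) (nat_lit 3) (nat_lit 5) (nat_lit 4) (nat_lit 5) (nat_lit 5) (nat_lit 4) (nat_lit 409) (nat_lit 272) (nat_lit 183))))))))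
noncomputable def xc48 : XT := (XT.nd (nat_lit 47376) (nat_lit 0) (nat_lit 1260) (XT.nd (nat_lit 46248) (nat_lit 0) (nat_lit 3864) (XT.nd (nat_lit 45684) (nat_lit 0) (nat_lit 6468) (XT.nd (nat_lit 188) (nat_lit 0) (nat_lit 0) (XT.nd (nat_lit 94) (nat_lit 0) (nat_lit 0) (XT.lf (nat_lit 0) (nat_lit 14229213631) (nat_lit 84) (nat_lit 5805042171) (nat_lit 168) (nat_lit 46361557434) (nat_lit 3) (nat_lit 5) (nat_lit 4) (nat_lit 5) (nat_lit 5) (nat_lit 4) (nat_lit 410) (nat_lit 272) (nat_lit 182)) (XT.lf (nat_lit 0) (nat_lit 19400407280) (nat_lit 84) (nat_lit 3206801002) (nat_lit 168) (nat_lit 45755570335) (nat_lit 3) (nat_lit 5) (nat_lit 4) (nat_lit 5) (nat_lit 5) (nat_lit 4) (nat_lit 411) (nat_lit 272) (nat_lit 181))) (XT.nd (nat_lit 94) (nat_lit 0) (nat_lit 0) (XT.lf (nat_lit 0) (nat_lit 24715996836) (nat_lit 84) (nat_lit 534453451) (nat_lit 168) (nat_lit 45140578246) (nat_lit 3) (nat_lit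 5) (nat_lit 4) (nat_lit 5) (nat_lit 5) (nat_lit 4) (nat_lit 412) (nat_lit 272) (nat_lit 180)) (XT.nd (nat_lit 45308) (nat_lit 0) (nat_lit 8064) (XT.lf (nat_lit 0) (nat_lit 27988413623) (nat_lit 168) (nat_lit 42323484570) (nat_lit 0) (nat_lit 2169874324) (nat_lit 3) (nat_lit 5) (nat_lit 5) (nat_lit 4) (nat_lit 3) (nat_lit 4) (nat_lit 413) (nat_lit 272) (nat_lit 179)) (XT.lf (nat_lit 0) (nat_lit 1383052270) (nat_lit 588) (nat_lit 1230380974) (nat_lit 588) (nat_lit 1230380974) (nat_lit 99) (nat_lit 4) (nat_lit 106) (nat_lit 5) (nat_lit 106) (nat_lit 4) (nat_lit 318) (nat_lit 273) (nat_lit 273))))) (XT.nd (nat_lit 282) (nat_lit 504) (nat_lit 0) (XT.nd (nat_lit 94) (nat_lit 1008) (nat_lit 0) (XT.lf (nat_lit 0) (nat_lit 378079799) (nat_lit 672) (nat_lit 535530378) (nat_lit 84) (nat_lit 6865957404) (nat_lit 98) (nat_lit 5) (nat_lit 106) (nat_lit 5) (nat_lit 99) (nat_lit 4) (nat_lit 319) (nat_lit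 273) (nat_lit 272)) (XT.nd (nat_lit 94) (nat_lit 504) (nat_lit 0) (XT.lf (nat_lit 0) (nat_lit 3216981095) (nat_lit 588) (nat_lit 3931541338) (nat_lit 0) (nat_lit 726554235) (nat_lit 92) (nat_lit 5) (nat_lit 99) (nat_lit 4) (nat_lit 92) (nat_lit 4) (nat_lit 320) (nat_lit 273) (nat_lit 271)) (XT.lf (nat_lit 0) (nat_lit 508626883) (nat_lit 504) (nat_lit 5573473624) (nat_lit 504) (nat_lit 1893709018) (nat_lit 86) (nat_lit 4) (nat_lit 92) (nat_lit 5) (nat_lit 92) (nat_lit 4) (nat_lit 321) (nat_lit 273) (nat_lit 270)))) (XT.nd (nat_lit 94) (nat_lit 420) (nat_lit 0) (XT.lf (nat_lit 0) (nat_lit 897146177) (nat_lit 588) (nat_lit 3011237585) (nat_lit 84) (nat_lit 4172552926) (nat_lit 85) (nat_lit 5) (nat_lit 92) (nat_lit 5) (nat_lit 86) (nat_lit 4) (nat_lit 322) (nat_lit 273) (nat_lit 269)) (XT.nd (nat_lit 94) (nat_lit 0) (nat_lit 0) (XT.lf (nat_lit 0) (nat_lit 1503836046) (nat_lit 420) (nat_lit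 2167295787) (nat_lit 504) (nat_lit 4519893219) (nat_lit 80) (nat_lit 5) (nat_lit 85) (nat_lit 5) (nat_lit 86) (nat_lit 4) (nat_lit 323) (nat_lit 273) (nat_lit 268)) (XT.lf (nat_lit 0) (nat_lit 6133687664) (nat_lit 420) (nat_lit 351378265) (nat_lit 504) (nat_lit 1821195238) (nat_lit 80) (nat_lit 5) (nat_lit 85) (nat_lit 5) (nat_lit 86) (nat_lit 4) (nat_lit 324) (nat_lit 273) (nat_lit 267)))))) (XT.nd (nat_lit 564) (nat_lit 1176) (nat_lit 0) (XT.nd (nat_lit 282) (nat_lit 504) (nat_lit 0) (XT.nd (nat_lit 94) (nat_lit 420) (nat_lit 0) (XT.lf (nat_lit 0) (nat_lit 905040128) (nat_lit 504) (nat_lit 6008709893) (nat_lit 84) (nat_lit 1512452857) (nat_lit 74) (nat_lit 5) (nat_lit 80) (nat_lit 5) (nat_lit 75) (nat_lit 4) (nat_lit 325) (nat_lit 273) (nat_lit 266)) (XT.nd (nat_lit 94) (nat_lit 420) (nat_lit 0) (XT.lf (nat_lit 0) (nat_lit 3629554515) (nat_lit 504) (nat_lit 1465490234) (nat_lit 84)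 (nat_lit 3456021815) (nat_lit 74) (nat_lit 5) (nat_lit 80) (nat_lit 5) (nat_lit 75) (nat_lit 4) (nat_lit 326) (nat_lit 273) (nat_lit 265)) (XT.lf (nat_lit 0) (nat_lit 3195871484) (nat_lit 420) (nat_lit 3201706406) (nat_lit 504) (nat_lit 2283764866) (nat_lit 69) (nat_lit 5) (nat_lit 74) (nat_lit 5) (nat_lit 75) (nat_lit 4) (nat_lit 327) (nat_lit 273) (nat_lit 264)))) (XT.nd (nat_lit 94) (nat_lit 420) (nat_lit 0) (XT.lf (nat_lit 0) (nat_lit 370112963) (nat_lit 504) (nat_lit 874808228) (nat_lit 84) (nat_lit 7572621101) (nat_lit 68) (nat_lit 5) (nat_lit 74) (nat_lit 5) (nat_lit 69) (nat_lit 5) (nat_lit 328) (nat_lit 273) (nat_lit 263)) (XT.nd (nat_lit 94) (nat_lit 0) (nat_lit 0) (XT.lf (nat_lit 0) (nat_lit 3034994389) (nat_lit 504) (nat_lit 5118976838) (nat_lit 84) (nat_lit 804255776) (nat_lit 63) (nat_lit 5) (nat_lit 69) (nat_lit 5) (nat_lit 64) (nat_lit 4) (nat_lit 329) (nat_lit 273) (nat_lit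 262)) (XT.lf (nat_lit 0) (nat_lit 5735422201) (nat_lit 504) (nat_lit 484488122) (nat_lit 84) (nat_lit 2885062585) (nat_lit 63) (nat_lit 5) (nat_lit 69) (nat_lit 5) (nat_lit 64) (nat_lit 4) (nat_lit 330) (nat_lit 273) (nat_lit 261))))) (XT.nd (nat_lit 282) (nat_lit 420) (nat_lit 0) (XT.nd (nat_lit 94) (nat_lit 420) (nat_lit 0) (XT.lf (nat_lit 0) (nat_lit 4296171688) (nat_lit 336) (nat_lit 4199063342) (nat_lit 420) (nat_lit 762020788) (nat_lit 59) (nat_lit 5) (nat_lit 63) (nat_lit 5) (nat_lit 64) (nat_lit 4) (nat_lit 331) (nat_lit 273) (nat_lit 260)) (XT.nd (nat_lit 94) (nat_lit 336) (nat_lit 0) (XT.lf (nat_lit 0) (nat_lit 1825985899) (nat_lit 420) (nat_lit 282756915) (nat_lit 84) (nat_lit 7307052054) (nat_lit 58) (nat_lit 5) (nat_lit 63) (nat_lit 5) (nat_lit 59) (nat_lit 5) (nat_lit 332) (nat_lit 273) (nat_lit 259)) (XT.lf (nat_lit 0) (nat_lit 4459626012) (nat_lit 420) (nat_lit 5038582437)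 (nat_lit 84) (nat_lit 81593571) (nat_lit 54) (nat_lit 5) (nat_lit 59) (nat_lit 5) (nat_lit 55) (nat_lit 4) (nat_lit 333) (nat_lit 273) (nat_lit 258)))) (XT.nd (nat_lit 94) (nat_lit 420) (nat_lit 0) (XT.lf (nat_lit 0) (nat_lit 7135766928) (nat_lit 420) (nat_lit 333077559) (nat_lit 84) (nat_lit 2281469153) (nat_lit 54) (nat_lit 5) (nat_lit 59) (nat_lit 5) (nat_lit 55) (nat_lit 4) (nat_lit 334) (nat_lit 273) (nat_lit 257)) (XT.nd (nat_lit 94) (nat_lit 84) (nat_lit 0) (XT.lf (nat_lit 0) (nat_lit 4528636262) (nat_lit 336) (nat_lit 5349380531) (nat_lit 420) (nat_lit 48817343) (nat_lit 50) (nat_lit 5) (nat_lit 54) (nat_lit 5) (nat_lit 55) (nat_lit 4) (nat_lit 335) (nat_lit 273) (nat_lit 256)) (XT.lf (nat_lit 0) (nat_lit 2486124522) (nat_lit 420) (nat_lit 667925742) (nat_lit 84) (nat_lit 6955965161) (nat_lit 49) (nat_lit 5) (nat_lit 54) (nat_lit 5) (nat_lit 50) (nat_lit 5) (nat_lit 336) (nat_lit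 273) (nat_lit 255))))))) (XT.nd (nat_lit 1128) (nat_lit 924) (nat_lit 0) (XT.nd (nat_lit 564) (nat_lit 756) (nat_lit 0) (XT.nd (nat_lit 282) (nat_lit 336) (nat_lit 0) (XT.nd (nat_lit 94) (nat_lit 252) (nat_lit 0) (XT.lf (nat_lit 0) (nat_lit 4214307766) (nat_lit 336) (nat_lit 866459495) (nat_lit 420) (nat_lit 5218829574) (nat_lit 45) (nat_lit 5) (nat_lit 49) (nat_lit 5) (nat_lit 50) (nat_lit 5) (nat_lit 337) (nat_lit 273) (nat_lit 254)) (XT.nd (nat_lit 94) (nat_lit 252) (nat_lit 0) (XT.lf (nat_lit 0) (nat_lit 7718836531) (nat_lit 420) (nat_lit 1327748758) (nat_lit 84) (nat_lit 1449794771) (nat_lit 45) (nat_lit 5) (nat_lit 50) (nat_lit 5) (nat_lit 46) (nat_lit 4) (nat_lit 338) (nat_lit 273) (nat_lit 253)) (XT.lf (nat_lit 0) (nat_lit 3562510961) (nat_lit 252) (nat_lit 6863295163) (nat_lit 336) (nat_lit 274028937) (nat_lit 42) (nat_lit 5) (nat_lit 45) (nat_lit 5) (nat_lit 46) (nat_lit 4)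 (nat_lit 339) (nat_lit 273) (nat_lit 252)))) (XT.nd (nat_lit 94) (nat_lit 252) (nat_lit 0) (XT.lf (nat_lit 0) (nat_lit 2217746111) (nat_lit 336) (nat_lit 2377903674) (nat_lit 84) (nat_lit 6314728752) (nat_lit 41) (nat_lit 5) (nat_lit 45) (nat_lit 5) (nat_lit 42) (nat_lit 5) (nat_lit 340) (nat_lit 273) (nat_lit 251)) (XT.nd (nat_lit 94) (nat_lit 0) (nat_lit 0) (XT.lf (nat_lit 0) (nat_lit 2500769033) (nat_lit 252) (nat_lit 2249956320) (nat_lit 336) (nat_lit 6377734582) (nat_lit 38) (nat_lit 5) (nat_lit 41) (nat_lit 5) (nat_lit 42) (nat_lit 5) (nat_lit 341) (nat_lit 273) (nat_lit 250)) (XT.lf (nat_lit 0) (nat_lit 7334522239) (nat_lit 336) (nat_lit 3850097340) (nat_lit 84) (nat_lit 169693546) (nat_lit 38) (nat_lit 5) (nat_lit 42) (nat_lit 5) (nat_lit 39) (nat_lit 4) (nat_lit 342) (nat_lit 273) (nat_lit 249))))) (XT.nd (nat_lit 282) (nat_lit 420) (nat_lit 0) (XT.nd (nat_lit 94) (nat_lit 84)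 (nat_lit 0) (XT.lf (nat_lit 0) (nat_lit 998279212) (nat_lit 252) (nat_lit 8980239544) (nat_lit 336) (nat_lit 1609413690) (nat_lit 35) (nat_lit 5) (nat_lit 38) (nat_lit 5) (nat_lit 39) (nat_lit 4) (nat_lit 343) (nat_lit 273) (nat_lit 248)) (XT.nd (nat_lit 94) (nat_lit 0) (nat_lit 0) (XT.lf (nat_lit 0) (nat_lit 846012608) (nat_lit 336) (nat_lit 5832962105) (nat_lit 84) (nat_lit 5150061956) (nat_lit 34) (nat_lit 5) (nat_lit 38) (nat_lit 5) (nat_lit 35) (nat_lit 5) (nat_lit 344) (nat_lit 273) (nat_lit 247)) (XT.lf (nat_lit 0) (nat_lit 3293080593) (nat_lit 336) (nat_lit 1017913730) (nat_lit 84) (nat_lit 7767827828) (nat_lit 34) (nat_lit 5) (nat_lit 38) (nat_lit 5) (nat_lit 35) (nat_lit 5) (nat_lit 345) (nat_lit 273) (nat_lit 246)))) (XT.nd (nat_lit 94) (nat_lit 168) (nat_lit 0) (XT.lf (nat_lit 0) (nat_lit 3955642993) (nat_lit 252) (nat_lit 1850094761) (nat_lit 336) (nat_lit 6531062444) (nat_lit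 31) (nat_lit 5) (nat_lit 34) (nat_lit 5) (nat_lit 35) (nat_lit 5) (nat_lit 346) (nat_lit 273) (nat_lit 245)) (XT.nd (nat_lit 94) (nat_lit 168) (nat_lit 0) (XT.lf (nat_lit 0) (nat_lit 8364914746) (nat_lit 336) (nat_lit 3575582359) (nat_lit 84) (nat_lit 663377917) (nat_lit 31) (nat_lit 5) (nat_lit 35) (nat_lit 5) (nat_lit 32) (nat_lit 4) (nat_lit 347) (nat_lit 273) (nat_lit 244)) (XT.lf (nat_lit 0) (nat_lit 1317558336) (nat_lit 168) (nat_lit 9670409150) (nat_lit 252) (nat_lit 1891863998) (nat_lit 29) (nat_lit 5) (nat_lit 31) (nat_lit 5) (nat_lit 32) (nat_lit 4) (nat_lit 348) (nat_lit 273) (nat_lit 243)))))) (XT.nd (nat_lit 564) (nat_lit 420) (nat_lit 0) (XT.nd (nat_lit 282) (nat_lit 168) (nat_lit 0) (XT.nd (nat_lit 94) (nat_lit 252) (nat_lit 0) (XT.lf (nat_lit 0) (nat_lit 507760913) (nat_lit 252) (nat_lit 6800038392) (nat_lit 84) (nat_lit 5856794124) (nat_lit 28) (nat_lit 5) (nat_lit 31)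 (nat_lit 5) (nat_lit 29) (nat_lit 5) (nat_lit 349) (nat_lit 273) (nat_lit 242)) (XT.nd (nat_lit 94) (nat_lit 252) (nat_lit 0) (XT.lf (nat_lit 0) (nat_lit 2896600907) (nat_lit 252) (nat_lit 1976856526) (nat_lit 84) (nat_lit 8585660173) (nat_lit 28) (nat_lit 5) (nat_lit 31) (nat_lit 5) (nat_lit 29) (nat_lit 5) (nat_lit 350) (nat_lit 273) (nat_lit 241)) (XT.lf (nat_lit 0) (nat_lit 2990793507) (nat_lit 252) (nat_lit 2353875011) (nat_lit 336) (nat_lit 8418672080) (nat_lit 25) (nat_lit 5) (nat_lit 28) (nat_lit 5) (nat_lit 29) (nat_lit 5) (nat_lit 351) (nat_lit 273) (nat_lit 240)))) (XT.nd (nat_lit 94) (nat_lit 168) (nat_lit 0) (XT.lf (nat_lit 0) (nat_lit 7847884560) (nat_lit 336) (nat_lit 5990539260) (nat_lit 84) (nat_lit 239319343) (nat_lit 25) (nat_lit 5) (nat_lit 29) (nat_lit 5) (nat_lit 26) (nat_lit 4) (nat_lit 352) (nat_lit 273) (nat_lit 239)) (XT.nd (nat_lit 94) (nat_lit 168) (nat_lit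 0) (XT.lf (nat_lit 0) (nat_lit 10410092358) (nat_lit 336) (nat_lit 1148285927) (nat_lit 84) (nat_lit 2844193262) (nat_lit 25) (nat_lit 5) (nat_lit 29) (nat_lit 5) (nat_lit 26) (nat_lit 4) (nat_lit 353) (nat_lit 273) (nat_lit 238)) (XT.lf (nat_lit 0) (nat_lit 3859844388) (nat_lit 168) (nat_lit 9188775172) (nat_lit 252) (nat_lit 1689045840) (nat_lit 23) (nat_lit 5) (nat_lit 25) (nat_lit 5) (nat_lit 26) (nat_lit 4) (nat_lit 354) (nat_lit 273) (nat_lit 237))))) (XT.nd (nat_lit 282) (nat_lit 168) (nat_lit 0) (XT.nd (nat_lit 94) (nat_lit 168) (nat_lit 0) (XT.lf (nat_lit 0) (nat_lit 642810461) (nat_lit 252) (nat_lit 6104446200) (nat_lit 84) (nat_lit 8336677281) (nat_lit 22) (nat_lit 5) (nat_lit 25) (nat_lit 5) (nat_lit 23) (nat_lit 5) (nat_lit 355) (nat_lit 273) (nat_lit 236)) (XT.nd (nat_lit 94) (nat_lit 168) (nat_lit 0) (XT.lf (nat_lit 0) (nat_lit 2971835295) (nat_lit 252) (nat_lit 1260812713)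 (nat_lit 84) (nat_lit 11209085027) (nat_lit 22) (nat_lit 5) (nat_lit 25) (nat_lit 5) (nat_lit 23) (nat_lit 5) (nat_lit 356) (nat_lit 273) (nat_lit 235)) (XT.lf (nat_lit 0) (nat_lit 3749901932) (nat_lit 168) (nat_lit 1621527626) (nat_lit 252) (nat_lit 10439332864) (nat_lit 20) (nat_lit 5) (nat_lit 22) (nat_lit 5) (nat_lit 23) (nat_lit 5) (nat_lit 357) (nat_lit 273) (nat_lit 234)))) (XT.nd (nat_lit 94) (nat_lit 168) (nat_lit 0) (XT.lf (nat_lit 0) (nat_lit 7830891699) (nat_lit 252) (nat_lit 7318005424) (nat_lit 84) (nat_lit 1042870041) (nat_lit 20) (nat_lit 5) (nat_lit 23) (nat_lit 5) (nat_lit 21) (nat_lit 4) (nat_lit 358) (nat_lit 273) (nat_lit 233)) (XT.nd (nat_lit 94) (nat_lit 168) (nat_lit 0) (XT.lf (nat_lit 0) (nat_lit 10345902909) (nat_lit 252) (nat_lit 2502033624) (nat_lit 84) (nat_lit 3737370813) (nat_lit 20) (nat_lit 5) (nat_lit 23) (nat_lit 5) (nat_lit 21) (nat_lit 4) (nat_lit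 359) (nat_lit 273) (nat_lit 232)) (XT.lf (nat_lit 0) (nat_lit 2457135457) (nat_lit 168) (nat_lit 10469961319) (nat_lit 252) (nat_lit 4064396045) (nat_lit 18) (nat_lit 5) (nat_lit 20) (nat_lit 5) (nat_lit 21) (nat_lit 4) (nat_lit 360) (nat_lit 273) (nat_lit 231))))))))
noncomputable def xc49 : XT := (XT.nd (nat_lit 2256) (nat_lit 336) (nat_lit 0) (XT.nd (nat_lit 1128) (nat_lit 336) (nat_lit 0) (XT.nd (nat_lit 564) (nat_lit 336) (nat_lit 0) (XT.nd (nat_lit 282) (nat_lit 168) (nat_lit 0) (XT.nd (nat_lit 94) (nat_lit 84) (nat_lit 0) (XT.lf (nat_lit 0) (nat_lit 7568039869) (nat_lit 168) (nat_lit 8010767283) (nat_lit 252) (nat_lit 1831835276) (nat_lit 18) (nat_lit 5) (nat_lit 20) (nat_lit 5) (nat_lit 21) (nat_lit 4) (nat_lit 361) (nat_lit 273) (nat_lit 230)) (XT.nd (nat_lit 94) (nat_lit 0) (nat_lit 0) (XT.lf (nat_lit 0) (nat_lit 425493724) (nat_lit 252) (nat_lit 5064243293) (nat_lit 84) (nat_lit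 12354061561) (nat_lit 17) (nat_lit 5) (nat_lit 20) (nat_lit 5) (nat_lit 18) (nat_lit 5) (nat_lit 362) (nat_lit 273) (nat_lit 229)) (XT.lf (nat_lit 0) (nat_lit 2680826950) (nat_lit 252) (nat_lit 209039357) (nat_lit 84) (nat_lit 15401058082) (nat_lit 17) (nat_lit 5) (nat_lit 20) (nat_lit 5) (nat_lit 18) (nat_lit 5) (nat_lit 363) (nat_lit 273) (nat_lit 228)))) (XT.nd (nat_lit 94) (nat_lit 0) (nat_lit 0) (XT.lf (nat_lit 0) (nat_lit 4843288304) (nat_lit 168) (nat_lit 177931722) (nat_lit 252) (nat_lit 13730290513) (nat_lit 15) (nat_lit 5) (nat_lit 17) (nat_lit 5) (nat_lit 18) (nat_lit 5) (nat_lit 364) (nat_lit 273) (nat_lit 227)) (XT.nd (nat_lit 94) (nat_lit 0) (nat_lit 0) (XT.lf (nat_lit 0) (nat_lit 7429749469) (nat_lit 252) (nat_lit 9246977217) (nat_lit 84) (nat_lit 2549851908) (nat_lit 15) (nat_lit 5) (nat_lit 18) (nat_lit 5) (nat_lit 16) (nat_lit 4) (nat_lit 365) (nat_lit 273) (nat_lit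 226)) (XT.lf (nat_lit 0) (nat_lit 9883151427) (nat_lit 252) (nat_lit 4492855290) (nat_lit 84) (nat_lit 5341355425) (nat_lit 15) (nat_lit 5) (nat_lit 18) (nat_lit 5) (nat_lit 16) (nat_lit 4) (nat_lit 366) (nat_lit 273) (nat_lit 225))))) (XT.nd (nat_lit 282) (nat_lit 252) (nat_lit 0) (XT.nd (nat_lit 94) (nat_lit 0) (nat_lit 0) (XT.lf (nat_lit 0) (nat_lit 367749316) (nat_lit 84) (nat_lit 12017846426) (nat_lit 168) (nat_lit 7838664531) (nat_lit 14) (nat_lit 5) (nat_lit 15) (nat_lit 5) (nat_lit 16) (nat_lit 4) (nat_lit 367) (nat_lit 273) (nat_lit 224)) (XT.nd (nat_lit 94) (nat_lit 0) (nat_lit 0) (XT.lf (nat_lit 0) (nat_lit 5426463449) (nat_lit 84) (nat_lit 9555834939) (nat_lit 168) (nat_lit 5764117694) (nat_lit 14) (nat_lit 5) (nat_lit 15) (nat_lit 5) (nat_lit 16) (nat_lit 4) (nat_lit 368) (nat_lit 273) (nat_lit 223)) (XT.lf (nat_lit 0) (nat_lit 10595620039) (nat_lit 84) (nat_lit 7034573599)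 (nat_lit 168) (nat_lit 3655532705) (nat_lit 14) (nat_lit 5) (nat_lit 15) (nat_lit 5) (nat_lit 16) (nat_lit 4) (nat_lit 369) (nat_lit 273) (nat_lit 222)))) (XT.nd (nat_lit 94) (nat_lit 252) (nat_lit 0) (XT.lf (nat_lit 0) (nat_lit 15880037282) (nat_lit 84) (nat_lit 4451712325) (nat_lit 168) (nat_lit 1510944141) (nat_lit 14) (nat_lit 5) (nat_lit 15) (nat_lit 5) (nat_lit 16) (nat_lit 4) (nat_lit 370) (nat_lit 273) (nat_lit 221)) (XT.nd (nat_lit 94) (nat_lit 168) (nat_lit 0) (XT.lf (nat_lit 0) (nat_lit 658114789) (nat_lit 168) (nat_lit 1139859463) (nat_lit 84) (nat_lit 20619656650) (nat_lit 13) (nat_lit 5) (nat_lit 15) (nat_lit 5) (nat_lit 14) (nat_lit 5) (nat_lit 371) (nat_lit 273) (nat_lit 220)) (XT.lf (nat_lit 0) (nat_lit 2883867735) (nat_lit 252) (nat_lit 19167650234) (nat_lit 84) (nat_lit 957800434) (nat_lit 11) (nat_lit 5) (nat_lit 14) (nat_lit 5) (nat_lit 12) (nat_lit 4) (nat_lit 372)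 (nat_lit 273) (nat_lit 219)))))) (XT.nd (nat_lit 564) (nat_lit 252) (nat_lit 0) (XT.nd (nat_lit 282) (nat_lit 84) (nat_lit 0) (XT.nd (nat_lit 94) (nat_lit 0) (nat_lit 0) (XT.lf (nat_lit 0) (nat_lit 5182196119) (nat_lit 252) (nat_lit 14678916384) (nat_lit 84) (nat_lit 3758175608) (nat_lit 11) (nat_lit 5) (nat_lit 14) (nat_lit 5) (nat_lit 12) (nat_lit 4) (nat_lit 373) (nat_lit 273) (nat_lit 218)) (XT.nd (nat_lit 94) (nat_lit 0) (nat_lit 0) (XT.lf (nat_lit 0) (nat_lit 7525748015) (nat_lit 252) (nat_lit 10092946284) (nat_lit 84) (nat_lit 6630328605) (nat_lit 11) (nat_lit 5) (nat_lit 14) (nat_lit 5) (nat_lit 12) (nat_lit 4) (nat_lit 374) (nat_lit 273) (nat_lit 217)) (XT.lf (nat_lit 0) (nat_lit 9916707858) (nat_lit 252) (nat_lit 5405465329) (nat_lit 84) (nat_lit 9576936573) (nat_lit 11) (nat_lit 5) (nat_lit 14) (nat_lit 5) (nat_lit 12) (nat_lit 4) (nat_lit 375) (nat_lit 273) (nat_lit 216))))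 (XT.nd (nat_lit 94) (nat_lit 84) (nat_lit 0) (XT.lf (nat_lit 0) (nat_lit 12357304275) (nat_lit 252) (nat_lit 612104294) (nat_lit 84) (nat_lit 12600746059) (nat_lit 11) (nat_lit 5) (nat_lit 14) (nat_lit 5) (nat_lit 12) (nat_lit 4) (nat_lit 376) (nat_lit 273) (nat_lit 215)) (XT.nd (nat_lit 94) (nat_lit 0) (nat_lit 0) (XT.lf (nat_lit 0) (nat_lit 4379848927) (nat_lit 84) (nat_lit 10513411872) (nat_lit 168) (nat_lit 11368175286) (nat_lit 10) (nat_lit 5) (nat_lit 11) (nat_lit 5) (nat_lit 12) (nat_lit 4) (nat_lit 377) (nat_lit 273) (nat_lit 214)) (XT.lf (nat_lit 0) (nat_lit 9501669999) (nat_lit 84) (nat_lit 7989142524) (nat_lit 168) (nat_lit 9483905943) (nat_lit 10) (nat_lit 5) (nat_lit 11) (nat_lit 5) (nat_lit 12) (nat_lit 4) (nat_lit 378) (nat_lit 273) (nat_lit 213))))) (XT.nd (nat_lit 282) (nat_lit 252) (nat_lit 0) (XT.nd (nat_lit 94) (nat_lit 0) (nat_lit 0) (XT.lf (nat_lit 0) (nat_lit 14745546873)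 (nat_lit 84) (nat_lit 5400636755) (nat_lit 168) (nat_lit 7564675104) (nat_lit 10) (nat_lit 5) (nat_lit 11) (nat_lit 5) (nat_lit 12) (nat_lit 4) (nat_lit 379) (nat_lit 273) (nat_lit 212)) (XT.nd (nat_lit 94) (nat_lit 0) (nat_lit 0) (XT.lf (nat_lit 0) (nat_lit 20116367394) (nat_lit 84) (nat_lit 2745481807) (nat_lit 168) (nat_lit 5608693843) (nat_lit 10) (nat_lit 5) (nat_lit 11) (nat_lit 5) (nat_lit 12) (nat_lit 4) (nat_lit 380) (nat_lit 273) (nat_lit 211)) (XT.lf (nat_lit 0) (nat_lit 25619137727) (nat_lit 84) (nat_lit 21202798) (nat_lit 168) (nat_lit 3614138982) (nat_lit 10) (nat_lit 5) (nat_lit 11) (nat_lit 5) (nat_lit 12) (nat_lit 4) (nat_lit 381) (nat_lit 273) (nat_lit 210)))) (XT.nd (nat_lit 94) (nat_lit 84) (nat_lit 0) (XT.lf (nat_lit 0) (nat_lit 1192080198) (nat_lit 168) (nat_lit 27331518590) (nat_lit 168) (nat_lit 1538580151) (nat_lit 8) (nat_lit 4) (nat_lit 10) (nat_lit 5) (nat_lit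 10) (nat_lit 4) (nat_lit 382) (nat_lit 273) (nat_lit 209)) (XT.nd (nat_lit 94) (nat_lit 0) (nat_lit 0) (XT.lf (nat_lit 0) (nat_lit 606957092) (nat_lit 252) (nat_lit 24688271280) (nat_lit 84) (nat_lit 5598989768) (nat_lit 7) (nat_lit 5) (nat_lit 10) (nat_lit 5) (nat_lit 8) (nat_lit 4) (nat_lit 383) (nat_lit 273) (nat_lit 208)) (XT.lf (nat_lit 0) (nat_lit 2766872351) (nat_lit 252) (nat_lit 20425695507) (nat_lit 84) (nat_lit 8559655473) (nat_lit 7) (nat_lit 5) (nat_lit 10) (nat_lit 5) (nat_lit 8) (nat_lit 4) (nat_lit 384) (nat_lit 273) (nat_lit 207))))))) (XT.nd (nat_lit 1128) (nat_lit 252) (nat_lit 0) (XT.nd (nat_lit 564) (nat_lit 0) (nat_lit 0) (XT.nd (nat_lit 282) (nat_lit 84) (nat_lit 0) (XT.nd (nat_lit 94) (nat_lit 0) (nat_lit 0) (XT.lf (nat_lit 0) (nat_lit 4974177856) (nat_lit 252) (nat_lit 16063135349) (nat_lit 84) (nat_lit 11600154208) (nat_lit 7) (nat_lit 5) (nat_lit 10) (nat_lit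 5) (nat_lit 8) (nat_lit 4) (nat_lit 385) (nat_lit 273) (nat_lit 206)) (XT.nd (nat_lit 94) (nat_lit 0) (nat_lit 0) (XT.lf (nat_lit 0) (nat_lit 7230931046) (nat_lit 252) (nat_lit 11596524443) (nat_lit 84) (nat_lit 14723320037) (nat_lit 7) (nat_lit 5) (nat_lit 10) (nat_lit 5) (nat_lit 8) (nat_lit 4) (nat_lit 386) (nat_lit 273) (nat_lit 205)) (XT.lf (nat_lit 0) (nat_lit 9539235451) (nat_lit 252) (nat_lit 7021699441) (nat_lit 84) (nat_lit 17932064077) (nat_lit 7) (nat_lit 5) (nat_lit 10) (nat_lit 5) (nat_lit 8) (nat_lit 4) (nat_lit 387) (nat_lit 273) (nat_lit 204)))) (XT.nd (nat_lit 94) (nat_lit 84) (nat_lit 0) (XT.lf (nat_lit 0) (nat_lit 11901242653) (nat_lit 252) (nat_lit 2334396125) (nat_lit 84) (nat_lit 21229377215) (nat_lit 7) (nat_lit 5) (nat_lit 10) (nat_lit 5) (nat_lit 8) (nat_lit 4) (nat_lit 388) (nat_lit 273) (nat_lit 203)) (XT.nd (nat_lit 94) (nat_lit 0) (nat_lit 0) (XT.lf (nat_lit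 0) (nat_lit 2520537780) (nat_lit 84) (nat_lit 11823620557) (nat_lit 168) (nat_lit 22122799158) (nat_lit 6) (nat_lit 5) (nat_lit 7) (nat_lit 5) (nat_lit 8) (nat_lit 4) (nat_lit 389) (nat_lit 273) (nat_lit 202)) (XT.lf (nat_lit 0) (nat_lit 7547291698) (nat_lit 84) (nat_lit 9322802479) (nat_lit 168) (nat_lit 20629668337) (nat_lit 6) (nat_lit 5) (nat_lit 7) (nat_lit 5) (nat_lit 8) (nat_lit 4) (nat_lit 390) (nat_lit 273) (nat_lit 201))))) (XT.nd (nat_lit 282) (nat_lit 0) (nat_lit 0) (XT.nd (nat_lit 94) (nat_lit 0) (nat_lit 0) (XT.lf (nat_lit 0) (nat_lit 12702551117) (nat_lit 84) (nat_lit 6755219829) (nat_lit 168) (nat_lit 19107355432) (nat_lit 6) (nat_lit 5) (nat_lit 7) (nat_lit 5) (nat_lit 8) (nat_lit 4) (nat_lit 391) (nat_lit 273) (nat_lit 200)) (XT.nd (nat_lit 94) (nat_lit 0) (nat_lit 0) (XT.lf (nat_lit 0) (nat_lit 17991121280) (nat_lit 84) (nat_lit 4118479349) (nat_lit 168) (nat_lit 17554441488)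 (nat_lit 6) (nat_lit 5) (nat_lit 7) (nat_lit 5) (nat_lit 8) (nat_lit 4) (nat_lit 392) (nat_lit 273) (nat_lit 199)) (XT.lf (nat_lit 0) (nat_lit 23417931688) (nat_lit 84) (nat_lit 1410123323) (nat_lit 168) (nat_lit 15969479025) (nat_lit 6) (nat_lit 5) (nat_lit 7) (nat_lit 5) (nat_lit 8) (nat_lit 4) (nat_lit 393) (nat_lit 273) (nat_lit 198)))) (XT.nd (nat_lit 94) (nat_lit 0) (nat_lit 0) (XT.lf (nat_lit 0) (nat_lit 27629282082) (nat_lit 168) (nat_lit 12992232080) (nat_lit 0) (nat_lit 1344722469) (nat_lit 6) (nat_lit 5) (nat_lit 8) (nat_lit 4) (nat_lit 6) (nat_lit 4) (nat_lit 394) (nat_lit 273) (nat_lit 197)) (XT.nd (nat_lit 94) (nat_lit 0) (nat_lit 0) (XT.lf (nat_lit 0) (nat_lit 30517015887) (nat_lit 168) (nat_lit 8507843549) (nat_lit 0) (nat_lit 4146345005) (nat_lit 6) (nat_lit 5) (nat_lit 8) (nat_lit 4) (nat_lit 6) (nat_lit 4) (nat_lit 395) (nat_lit 273) (nat_lit 196)) (XT.lf (nat_lit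 0) (nat_lit 33479959498) (nat_lit 168) (nat_lit 3908268240) (nat_lit 0) (nat_lit 7025766532) (nat_lit 6) (nat_lit 5) (nat_lit 8) (nat_lit 4) (nat_lit 6) (nat_lit 4) (nat_lit 396) (nat_lit 273) (nat_lit 195)))))) (XT.nd (nat_lit 564) (nat_lit 84) (nat_lit 0) (XT.nd (nat_lit 282) (nat_lit 84) (nat_lit 0) (XT.nd (nat_lit 94) (nat_lit 0) (nat_lit 0) (XT.lf (nat_lit 0) (nat_lit 827452457) (nat_lit 84) (nat_lit 35701630662) (nat_lit 84) (nat_lit 9166426945) (nat_lit 5) (nat_lit 4) (nat_lit 6) (nat_lit 5) (nat_lit 6) (nat_lit 4) (nat_lit 397) (nat_lit 273) (nat_lit 194)) (XT.nd (nat_lit 94) (nat_lit 0) (nat_lit 0) (XT.lf (nat_lit 0) (nat_lit 5769954956) (nat_lit 84) (nat_lit 33929879623) (nat_lit 84) (nat_lit 7316100978) (nat_lit 5) (nat_lit 4) (nat_lit 6) (nat_lit 5) (nat_lit 6) (nat_lit 4) (nat_lit 398) (nat_lit 273) (nat_lit 193)) (XT.lf (nat_lit 0) (nat_lit 10843484176) (nat_lit 84) (nat_lit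 32112117468) (nat_lit 84) (nat_lit 5422126477) (nat_lit 5) (nat_lit 4) (nat_lit 6) (nat_lit 5) (nat_lit 6) (nat_lit 4) (nat_lit 399) (nat_lit 273) (nat_lit 192)))) (XT.nd (nat_lit 94) (nat_lit 84) (nat_lit 0) (XT.lf (nat_lit 0) (nat_lit 16052769176) (nat_lit 84) (nat_lit 30246649851) (nat_lit 84) (nat_lit 3482738060) (nat_lit 5) (nat_lit 4) (nat_lit 6) (nat_lit 5) (nat_lit 6) (nat_lit 4) (nat_lit 400) (nat_lit 273) (nat_lit 191)) (XT.nd (nat_lit 94) (nat_lit 84) (nat_lit 0) (XT.lf (nat_lit 0) (nat_lit 21402665558) (nat_lit 84) (nat_lit 28331737962) (nat_lit 84) (nat_lit 1496128013) (nat_lit 5) (nat_lit 4) (nat_lit 6) (nat_lit 5) (nat_lit 6) (nat_lit 4) (nat_lit 401) (nat_lit 273) (nat_lit 190)) (XT.lf (nat_lit 0) (nat_lit 528684552) (nat_lit 168) (nat_lit 25831393968) (nat_lit 84) (nat_lit 26363957049) (nat_lit 4) (nat_lit 5) (nat_lit 6) (nat_lit 5) (nat_lit 5) (nat_lit 4) (nat_lit 402)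 (nat_lit 273) (nat_lit 189))))) (XT.nd (nat_lit 282) (nat_lit 84) (nat_lit 0) (XT.nd (nat_lit 94) (nat_lit 0) (nat_lit 0) (XT.lf (nat_lit 0) (nat_lit 2573297352) (nat_lit 168) (nat_lit 21746236723) (nat_lit 84) (nat_lit 29944217531) (nat_lit 4) (nat_lit 5) (nat_lit 6) (nat_lit 5) (nat_lit 5) (nat_lit 4) (nat_lit 403) (nat_lit 273) (nat_lit 188)) (XT.nd (nat_lit 94) (nat_lit 0) (nat_lit 0) (XT.lf (nat_lit 0) (nat_lit 4669759826) (nat_lit 168) (nat_lit 17553744672) (nat_lit 84) (nat_lit 33628070421) (nat_lit 4) (nat_lit 5) (nat_lit 6) (nat_lit 5) (nat_lit 5) (nat_lit 4) (nat_lit 404) (nat_lit 273) (nat_lit 187)) (XT.lf (nat_lit 0) (nat_lit 6820026095) (nat_lit 168) (nat_lit 13250009974) (nat_lit 84) (nat_lit 37418949455) (nat_lit 4) (nat_lit 5) (nat_lit 6) (nat_lit 5) (nat_lit 5) (nat_lit 4) (nat_lit 405) (nat_lit 273) (nat_lit 186)))) (XT.nd (nat_lit 94) (nat_lit 84) (nat_lit 0) (XT.lf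 (nat_lit 0) (nat_lit 9026100433) (nat_lit 168) (nat_lit 8831021095) (nat_lit 84) (nat_lit 41320388129) (nat_lit 4) (nat_lit 5) (nat_lit 6) (nat_lit 5) (nat_lit 5) (nat_lit 4) (nat_lit 406) (nat_lit 273) (nat_lit 185)) (XT.nd (nat_lit 94) (nat_lit 84) (nat_lit 0) (XT.lf (nat_lit 0) (nat_lit 11290039133) (nat_lit 168) (nat_lit 4292659077) (nat_lit 84) (nat_lit 45336022993) (nat_lit 4) (nat_lit 5) (nat_lit 6) (nat_lit 5) (nat_lit 5) (nat_lit 4) (nat_lit 407) (nat_lit 273) (nat_lit 184)) (XT.lf (nat_lit 0) (nat_lit 376900004) (nat_lit 84) (nat_lit 13240791312) (nat_lit 168) (nat_lit 49096435930) (nat_lit 3) (nat_lit 5) (nat_lit 4) (nat_lit 5) (nat_lit 5) (nat_lit 4) (nat_lit 408) (nat_lit 273) (nat_lit 183))))))))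
noncomputable def xc50 : XT := (XT.nd (nat_lit 47000) (nat_lit 0) (nat_lit 1596) (XT.nd (nat_lit 45872) (nat_lit 0) (nat_lit 4704) (XT.nd (nat_lit 564) (nat_lit 0) (nat_lit 0) (XT.nd (nat_lit 282) (nat_lit 0) (nat_lit 0) (XT.nd (nat_lit 94) (nat_lit 0) (nat_lit 0) (XT.lf (nat_lit 0) (nat_lit 5265304659) (nat_lit 84) (nat_lit 10786934246) (nat_lit 168) (nat_lit 48511891007) (nat_lit 3) (nat_lit 5) (nat_lit 4) (nat_lit 5) (nat_lit 5) (nat_lit 4) (nat_lit 409) (nat_lit 273) (nat_lit 182)) (XT.nd (nat_lit 94) (nat_lit 0) (nat_lit 0) (XT.lf (nat_lit 0) (nat_lit 10288845518) (nat_lit 84) (nat_lit 8263646315) (nat_lit 168) (nat_lit 47919309002) (nat_lit 3) (nat_lit 5) (nat_lit 4) (nat_lit 5) (nat_lit 5) (nat_lit 4) (nat_lit 410) (nat_lit 273) (nat_lit 181)) (XT.lf (nat_lit 0) (nat_lit 15452205048) (nat_lit 84) (nat_lit 5668575552) (nat_lit 168) (nat_lit 47318137565) (nat_lit 3) (nat_lit 5)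 (nat_lit 4) (nat_lit 5) (nat_lit 5) (nat_lit 4) (nat_lit 411) (nat_lit 273) (nat_lit 180)))) (XT.nd (nat_lit 94) (nat_lit 0) (nat_lit 0) (XT.lf (nat_lit 0) (nat_lit 20760196040) (nat_lit 84) (nat_lit 2999303078) (nat_lit 168) (nat_lit 46707816342) (nat_lit 3) (nat_lit 5) (nat_lit 4) (nat_lit 5) (nat_lit 5) (nat_lit 4) (nat_lit 412) (nat_lit 273) (nat_lit 179)) (XT.nd (nat_lit 94) (nat_lit 0) (nat_lit 0) (XT.lf (nat_lit 0) (nat_lit 26217766098) (nat_lit 84) (nat_lit 253340853) (nat_lit 168) (nat_lit 46087776450) (nat_lit 3) (nat_lit 5) (nat_lit 4) (nat_lit 5) (nat_lit 5) (nat_lit 4) (nat_lit 413) (nat_lit 273) (nat_lit 178)) (XT.lf (nat_lit 0) (nat_lit 29283644876) (nat_lit 168) (nat_lit 42911082575) (nat_lit 0) (nat_lit 2520053185) (nat_lit 3) (nat_lit 5) (nat_lit 5) (nat_lit 4) (nat_lit 3) (nat_lit 4) (nat_lit 414) (nat_lit 273) (nat_lit 177))))) (XT.nd (nat_lit 45026) (nat_lit 0) (nat_lit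 7980) (XT.nd (nat_lit 94) (nat_lit 0) (nat_lit 0) (XT.lf (nat_lit 0) (nat_lit 32177522875) (nat_lit 168) (nat_lit 39391606484) (nat_lit 0) (nat_lit 5368575887) (nat_lit 3) (nat_lit 5) (nat_lit 5) (nat_lit 4) (nat_lit 3) (nat_lit 4) (nat_lit 415) (nat_lit 273) (nat_lit 176)) (XT.nd (nat_lit 44838) (nat_lit 0) (nat_lit 8652) (XT.lf (nat_lit 0) (nat_lit 35152925174) (nat_lit 168) (nat_lit 35776895338) (nat_lit 0) (nat_lit 8299986626) (nat_lit 3) (nat_lit 5) (nat_lit 5) (nat_lit 4) (nat_lit 3) (nat_lit 4) (nat_lit 416) (nat_lit 273) (nat_lit 175)) (XT.lf (nat_lit 0) (nat_lit 405911846) (nat_lit 588) (nat_lit 2946731730) (nat_lit 0) (nat_lit 405911846) (nat_lit 106) (nat_lit 5) (nat_lit 113) (nat_lit 4) (nat_lit 106) (nat_lit 4) (nat_lit 316) (nat_lit 274) (nat_lit 274)))) (XT.nd (nat_lit 94) (nat_lit 672) (nat_lit 0) (XT.lf (nat_lit 0) (nat_lit 3654744810) (nat_lit 588) (nat_lit 1635068962)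 (nat_lit 0) (nat_lit 2310928636) (nat_lit 106) (nat_lit 5) (nat_lit 113) (nat_lit 4) (nat_lit 106) (nat_lit 4) (nat_lit 317) (nat_lit 274) (nat_lit 273)) (XT.nd (nat_lit 94) (nat_lit 84) (nat_lit 0) (XT.lf (nat_lit 0) (nat_lit 2721597675) (nat_lit 588) (nat_lit 3807369062) (nat_lit 588) (nat_lit 1160142437) (nat_lit 99) (nat_lit 4) (nat_lit 106) (nat_lit 5) (nat_lit 106) (nat_lit 4) (nat_lit 318) (nat_lit 274) (nat_lit 272)) (XT.lf (nat_lit 0) (nat_lit 1611441041) (nat_lit 672) (nat_lit 638609510) (nat_lit 84) (nat_lit 5532046895) (nat_lit 98) (nat_lit 5) (nat_lit 106) (nat_lit 5) (nat_lit 99) (nat_lit 4) (nat_lit 319) (nat_lit 274) (nat_lit 271)))))) (XT.nd (nat_lit 564) (nat_lit 1260) (nat_lit 0) (XT.nd (nat_lit 282) (nat_lit 924) (nat_lit 0) (XT.nd (nat_lit 94) (nat_lit 588) (nat_lit 0) (XT.lf (nat_lit 0) (nat_lit 3802178571) (nat_lit 504) (nat_lit 599511263) (nat_lit 588) (nat_lit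 3477596058) (nat_lit 92) (nat_lit 5) (nat_lit 98) (nat_lit 5) (nat_lit 99) (nat_lit 4) (nat_lit 320) (nat_lit 274) (nat_lit 270)) (XT.nd (nat_lit 94) (nat_lit 84) (nat_lit 0) (XT.lf (nat_lit 0) (nat_lit 321467922) (nat_lit 504) (nat_lit 6898461012) (nat_lit 504) (nat_lit 761709090) (nat_lit 86) (nat_lit 4) (nat_lit 92) (nat_lit 5) (nat_lit 92) (nat_lit 4) (nat_lit 321) (nat_lit 274) (nat_lit 269)) (XT.lf (nat_lit 0) (nat_lit 1967457736) (nat_lit 588) (nat_lit 3259736495) (nat_lit 84) (nat_lit 2860584306) (nat_lit 85) (nat_lit 5) (nat_lit 92) (nat_lit 5) (nat_lit 86) (nat_lit 4) (nat_lit 322) (nat_lit 274) (nat_lit 268)))) (XT.nd (nat_lit 94) (nat_lit 504) (nat_lit 0) (XT.lf (nat_lit 0) (nat_lit 1206393934) (nat_lit 420) (nat_lit 3494386776) (nat_lit 504) (nat_lit 3498498192) (nat_lit 80) (nat_lit 5) (nat_lit 85) (nat_lit 5) (nat_lit 86) (nat_lit 4) (nat_lit 323) (nat_lit 274) (nat_lit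 267)) (XT.nd (nat_lit 94) (nat_lit 504) (nat_lit 0) (XT.lf (nat_lit 0) (nat_lit 5793729978) (nat_lit 420) (nat_lit 1683984970) (nat_lit 504) (nat_lit 838093969) (nat_lit 80) (nat_lit 5) (nat_lit 85) (nat_lit 5) (nat_lit 86) (nat_lit 4) (nat_lit 324) (nat_lit 274) (nat_lit 266)) (XT.lf (nat_lit 0) (nat_lit 1814658179) (nat_lit 504) (nat_lit 6415764336) (nat_lit 84) (nat_lit 206827942) (nat_lit 74) (nat_lit 5) (nat_lit 80) (nat_lit 5) (nat_lit 75) (nat_lit 4) (nat_lit 325) (nat_lit 274) (nat_lit 265))))) (XT.nd (nat_lit 282) (nat_lit 756) (nat_lit 0) (XT.nd (nat_lit 94) (nat_lit 504) (nat_lit 0) (XT.lf (nat_lit 0) (nat_lit 4503399844) (nat_lit 504) (nat_lit 1915423769) (nat_lit 84) (nat_lit 2144533532) (nat_lit 74) (nat_lit 5) (nat_lit 80) (nat_lit 5) (nat_lit 75) (nat_lit 4) (nat_lit 326) (nat_lit 274) (nat_lit 264)) (XT.nd (nat_lit 94) (nat_lit 84) (nat_lit 0) (XT.lf (nat_lit 0) (nat_lit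 2694241412) (nat_lit 420) (nat_lit 4537508462) (nat_lit 504) (nat_lit 1463243353) (nat_lit 69) (nat_lit 5) (nat_lit 74) (nat_lit 5) (nat_lit 75) (nat_lit 4) (nat_lit 327) (nat_lit 274) (nat_lit 263)) (XT.lf (nat_lit 0) (nat_lit 1139568611) (nat_lit 504) (nat_lit 1440229604) (nat_lit 84) (nat_lit 6252335093) (nat_lit 68) (nat_lit 5) (nat_lit 74) (nat_lit 5) (nat_lit 69) (nat_lit 5) (nat_lit 328) (nat_lit 274) (nat_lit 262)))) (XT.nd (nat_lit 94) (nat_lit 336) (nat_lit 0) (XT.lf (nat_lit 0) (nat_lit 3229021413) (nat_lit 420) (nat_lit 527653620) (nat_lit 504) (nat_lit 5217742650) (nat_lit 63) (nat_lit 5) (nat_lit 68) (nat_lit 5) (nat_lit 69) (nat_lit 5) (nat_lit 329) (nat_lit 274) (nat_lit 261)) (XT.nd (nat_lit 94) (nat_lit 336) (nat_lit 0) (XT.lf (nat_lit 0) (nat_lit 6418905975) (nat_lit 504) (nat_lit 1147059842) (nat_lit 84) (nat_lit 1556496944) (nat_lit 63) (nat_lit 5) (nat_lit 69) (nat_lit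 5) (nat_lit 64) (nat_lit 4) (nat_lit 330) (nat_lit 274) (nat_lit 260)) (XT.lf (nat_lit 0) (nat_lit 3579008461) (nat_lit 336) (nat_lit 5560624627) (nat_lit 420) (nat_lit 136435851) (nat_lit 59) (nat_lit 5) (nat_lit 63) (nat_lit 5) (nat_lit 64) (nat_lit 4) (nat_lit 331) (nat_lit 274) (nat_lit 259))))))) (XT.nd (nat_lit 1128) (nat_lit 1344) (nat_lit 0) (XT.nd (nat_lit 564) (nat_lit 588) (nat_lit 0) (XT.nd (nat_lit 282) (nat_lit 756) (nat_lit 0) (XT.nd (nat_lit 94) (nat_lit 336) (nat_lit 0) (XT.lf (nat_lit 0) (nat_lit 2407135187) (nat_lit 420) (nat_lit 1065434526) (nat_lit 84) (nat_lit 5962937671) (nat_lit 58) (nat_lit 5) (nat_lit 63) (nat_lit 5) (nat_lit 59) (nat_lit 5) (nat_lit 332) (nat_lit 274) (nat_lit 258)) (XT.nd (nat_lit 94) (nat_lit 0) (nat_lit 0) (XT.lf (nat_lit 0) (nat_lit 3703214782) (nat_lit 336) (nat_lit 1297538496) (nat_lit 420) (nat_lit 4600103784) (nat_lit 54) (nat_lit 5)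 (nat_lit 58) (nat_lit 5) (nat_lit 59) (nat_lit 5) (nat_lit 333) (nat_lit 274) (nat_lit 257)) (XT.lf (nat_lit 0) (nat_lit 7633605884) (nat_lit 420) (nat_lit 1219100044) (nat_lit 84) (nat_lit 920103472) (nat_lit 54) (nat_lit 5) (nat_lit 59) (nat_lit 5) (nat_lit 55) (nat_lit 4) (nat_lit 334) (nat_lit 274) (nat_lit 256)))) (XT.nd (nat_lit 94) (nat_lit 336) (nat_lit 0) (XT.lf (nat_lit 0) (nat_lit 378577597) (nat_lit 420) (nat_lit 6369498988) (nat_lit 84) (nat_lit 3202435070) (nat_lit 49) (nat_lit 5) (nat_lit 54) (nat_lit 5) (nat_lit 50) (nat_lit 5) (nat_lit 335) (nat_lit 274) (nat_lit 255)) (XT.nd (nat_lit 94) (nat_lit 336) (nat_lit 0) (XT.lf (nat_lit 0) (nat_lit 2883153959) (nat_lit 420) (nat_lit 1678650903) (nat_lit 84) (nat_lit 5572874043) (nat_lit 49) (nat_lit 5) (nat_lit 54) (nat_lit 5) (nat_lit 50) (nat_lit 5) (nat_lit 336) (nat_lit 274) (nat_lit 254)) (XT.lf (nat_lit 0) (nat_lit 3144254477)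 (nat_lit 336) (nat_lit 2294428670) (nat_lit 420) (nat_lit 4886877115) (nat_lit 45) (nat_lit 5) (nat_lit 49) (nat_lit 5) (nat_lit 50) (nat_lit 5) (nat_lit 337) (nat_lit 274) (nat_lit 253))))) (XT.nd (nat_lit 282) (nat_lit 252) (nat_lit 0) (XT.nd (nat_lit 94) (nat_lit 336) (nat_lit 0) (XT.lf (nat_lit 0) (nat_lit 8034481313) (nat_lit 420) (nat_lit 2447846596) (nat_lit 84) (nat_lit 41410779) (nat_lit 45) (nat_lit 5) (nat_lit 50) (nat_lit 5) (nat_lit 46) (nat_lit 4) (nat_lit 338) (nat_lit 274) (nat_lit 252)) (XT.nd (nat_lit 94) (nat_lit 84) (nat_lit 0) (XT.lf (nat_lit 0) (nat_lit 2381522076) (nat_lit 252) (nat_lit 8320952875) (nat_lit 336) (nat_lit 26009239) (nat_lit 42) (nat_lit 5) (nat_lit 45) (nat_lit 5) (nat_lit 46) (nat_lit 4) (nat_lit 339) (nat_lit 274) (nat_lit 251)) (XT.lf (nat_lit 0) (nat_lit 2433611431) (nat_lit 336) (nat_lit 3627359042) (nat_lit 84) (nat_lit 4878900174) (nat_lit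 41) (nat_lit 5) (nat_lit 45) (nat_lit 5) (nat_lit 42) (nat_lit 5) (nat_lit 340) (nat_lit 274) (nat_lit 250)))) (XT.nd (nat_lit 94) (nat_lit 0) (nat_lit 0) (XT.lf (nat_lit 0) (nat_lit 1188643538) (nat_lit 252) (nat_lit 3738589916) (nat_lit 336) (nat_lit 6232013712) (nat_lit 38) (nat_lit 5) (nat_lit 41) (nat_lit 5) (nat_lit 42) (nat_lit 5) (nat_lit 341) (nat_lit 274) (nat_lit 249)) (XT.nd (nat_lit 94) (nat_lit 0) (nat_lit 0) (XT.lf (nat_lit 0) (nat_lit 6157994655) (nat_lit 252) (nat_lit 1325413127) (nat_lit 336) (nat_lit 3902621666) (nat_lit 38) (nat_lit 5) (nat_lit 41) (nat_lit 5) (nat_lit 42) (nat_lit 5) (nat_lit 342) (nat_lit 274) (nat_lit 248)) (XT.lf (nat_lit 0) (nat_lit 10079131460) (nat_lit 336) (nat_lit 422165171) (nat_lit 84) (nat_lit 1119919200) (nat_lit 38) (nat_lit 5) (nat_lit 42) (nat_lit 5) (nat_lit 39) (nat_lit 4) (nat_lit 343) (nat_lit 274) (nat_lit 247)))))) (XT.nd (nat_lit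 564) (nat_lit 504) (nat_lit 0) (XT.nd (nat_lit 282) (nat_lit 252) (nat_lit 0) (XT.nd (nat_lit 94) (nat_lit 252) (nat_lit 0) (XT.lf (nat_lit 0) (nat_lit 882534587) (nat_lit 336) (nat_lit 7331892618) (nat_lit 84) (nat_lit 3648851539) (nat_lit 34) (nat_lit 5) (nat_lit 38) (nat_lit 5) (nat_lit 35) (nat_lit 5) (nat_lit 344) (nat_lit 274) (nat_lit 246)) (XT.nd (nat_lit 94) (nat_lit 252) (nat_lit 0) (XT.lf (nat_lit 0) (nat_lit 3305225221) (nat_lit 336) (nat_lit 2551534318) (nat_lit 84) (nat_lit 6257124810) (nat_lit 34) (nat_lit 5) (nat_lit 38) (nat_lit 5) (nat_lit 35) (nat_lit 5) (nat_lit 345) (nat_lit 274) (nat_lit 245)) (XT.lf (nat_lit 0) (nat_lit 2356149151) (nat_lit 252) (nat_lit 3422221678) (nat_lit 336) (nat_lit 6594778911) (nat_lit 31) (nat_lit 5) (nat_lit 34) (nat_lit 5) (nat_lit 35) (nat_lit 5) (nat_lit 346) (nat_lit 274) (nat_lit 244)))) (XT.nd (nat_lit 94) (nat_lit 252) (nat_lit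 0) (XT.lf (nat_lit 0) (nat_lit 7402416756) (nat_lit 252) (nat_lit 905151117) (nat_lit 336) (nat_lit 4333646679) (nat_lit 31) (nat_lit 5) (nat_lit 34) (nat_lit 5) (nat_lit 35) (nat_lit 5) (nat_lit 347) (nat_lit 274) (nat_lit 243)) (XT.nd (nat_lit 94) (nat_lit 252) (nat_lit 0) (XT.lf (nat_lit 0) (nat_lit 10885910087) (nat_lit 336) (nat_lit 396190325) (nat_lit 84) (nat_lit 1636515415) (nat_lit 31) (nat_lit 5) (nat_lit 35) (nat_lit 5) (nat_lit 32) (nat_lit 4) (nat_lit 348) (nat_lit 274) (nat_lit 242)) (XT.lf (nat_lit 0) (nat_lit 343117414) (nat_lit 252) (nat_lit 8592556595) (nat_lit 84) (nat_lit 4268628200) (nat_lit 28) (nat_lit 5) (nat_lit 31) (nat_lit 5) (nat_lit 29) (nat_lit 5) (nat_lit 349) (nat_lit 274) (nat_lit 241))))) (XT.nd (nat_lit 282) (nat_lit 252) (nat_lit 0) (XT.nd (nat_lit 94) (nat_lit 252) (nat_lit 0) (XT.lf (nat_lit 0) (nat_lit 2710049253) (nat_lit 252) (nat_lit 3801530462)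 (nat_lit 84) (nat_lit 6987979466) (nat_lit 28) (nat_lit 5) (nat_lit 31) (nat_lit 5) (nat_lit 29) (nat_lit 5) (nat_lit 350) (nat_lit 274) (nat_lit 240)) (XT.nd (nat_lit 94) (nat_lit 0) (nat_lit 0) (XT.lf (nat_lit 0) (nat_lit 1096770349) (nat_lit 252) (nat_lit 4021308147) (nat_lit 336) (nat_lit 8686996894) (nat_lit 25) (nat_lit 5) (nat_lit 28) (nat_lit 5) (nat_lit 29) (nat_lit 5) (nat_lit 351) (nat_lit 274) (nat_lit 239)) (XT.lf (nat_lit 0) (nat_lit 6164805631) (nat_lit 252) (nat_lit 1433149249) (nat_lit 336) (nat_lit 6522297068) (nat_lit 25) (nat_lit 5) (nat_lit 28) (nat_lit 5) (nat_lit 29) (nat_lit 5) (nat_lit 352) (nat_lit 274) (nat_lit 238)))) (XT.nd (nat_lit 94) (nat_lit 252) (nat_lit 0) (XT.lf (nat_lit 0) (nat_lit 10125562021) (nat_lit 336) (nat_lit 3129502866) (nat_lit 84) (nat_lit 1191137011) (nat_lit 25) (nat_lit 5) (nat_lit 29) (nat_lit 5) (nat_lit 26) (nat_lit 4) (nat_lit 353)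 (nat_lit 274) (nat_lit 237)) (XT.nd (nat_lit 94) (nat_lit 84) (nat_lit 0) (XT.lf (nat_lit 0) (nat_lit 1807671723) (nat_lit 168) (nat_lit 10916288948) (nat_lit 252) (nat_lit 2058626541) (nat_lit 23) (nat_lit 5) (nat_lit 25) (nat_lit 5) (nat_lit 26) (nat_lit 4) (nat_lit 354) (nat_lit 274) (nat_lit 236)) (XT.lf (nat_lit 0) (nat_lit 260964733) (nat_lit 252) (nat_lit 8227633612) (nat_lit 84) (nat_lit 6641026775) (nat_lit 22) (nat_lit 5) (nat_lit 25) (nat_lit 5) (nat_lit 23) (nat_lit 5) (nat_lit 355) (nat_lit 274) (nat_lit 235))))))))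
noncomputable def xc51 : XT := (XT.nd (nat_lit 2256) (nat_lit 504) (nat_lit 0) (XT.nd (nat_lit 1128) (nat_lit 420) (nat_lit 0) (XT.nd (nat_lit 564) (nat_lit 252) (nat_lit 0) (XT.nd (nat_lit 282) (nat_lit 168) (nat_lit 0) (XT.nd (nat_lit 94) (nat_lit 168) (nat_lit 0) (XT.lf (nat_lit 0) (nat_lit 2570870989) (nat_lit 252) (nat_lit 3412864549) (nat_lit 84) (nat_lit 9504324670) (nat_lit 22) (nat_lit 5) (nat_lit 25) (nat_lit 5) (nat_lit 23) (nat_lit 5) (nat_lit 356) (nat_lit 274) (nat_lit 234)) (XT.nd (nat_lit 94) (nat_lit 0) (nat_lit 0) (XT.lf (nat_lit 0) (nat_lit 1525027298) (nat_lit 168) (nat_lit 3404823200) (nat_lit 252) (nat_lit 10928540174) (nat_lit 20) (nat_lit 5) (nat_lit 22) (nat_lit 5) (nat_lit 23) (nat_lit 5) (nat_lit 357) (nat_lit 274) (nat_lit 233)) (XT.lf (nat_lit 0) (nat_lit 6632059438) (nat_lit 168) (nat_lit 728434007) (nat_lit 252) (nat_lit 8879836117) (nat_lit 20) (nat_lit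 5) (nat_lit 22) (nat_lit 5) (nat_lit 23) (nat_lit 5) (nat_lit 358) (nat_lit 274) (nat_lit 232)))) (XT.nd (nat_lit 94) (nat_lit 168) (nat_lit 0) (XT.lf (nat_lit 0) (nat_lit 9850475557) (nat_lit 252) (nat_lit 4812449642) (nat_lit 84) (nat_lit 1971759976) (nat_lit 20) (nat_lit 5) (nat_lit 23) (nat_lit 5) (nat_lit 21) (nat_lit 4) (nat_lit 359) (nat_lit 274) (nat_lit 231)) (XT.nd (nat_lit 94) (nat_lit 0) (nat_lit 0) (XT.lf (nat_lit 0) (nat_lit 72112248) (nat_lit 168) (nat_lit 12318629804) (nat_lit 252) (nat_lit 4651435686) (nat_lit 18) (nat_lit 5) (nat_lit 20) (nat_lit 5) (nat_lit 21) (nat_lit 4) (nat_lit 360) (nat_lit 274) (nat_lit 230)) (XT.lf (nat_lit 0) (nat_lit 5156731209) (nat_lit 168) (nat_lit 9868712020) (nat_lit 252) (nat_lit 2436448589) (nat_lit 18) (nat_lit 5) (nat_lit 20) (nat_lit 5) (nat_lit 21) (nat_lit 4) (nat_lit 361) (nat_lit 274) (nat_lit 229))))) (XT.nd (nat_lit 282) (nat_lit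 0) (nat_lit 0) (XT.nd (nat_lit 94) (nat_lit 252) (nat_lit 0) (XT.lf (nat_lit 0) (nat_lit 10347192803) (nat_lit 168) (nat_lit 7361120370) (nat_lit 252) (nat_lit 187415833) (nat_lit 18) (nat_lit 5) (nat_lit 20) (nat_lit 5) (nat_lit 21) (nat_lit 4) (nat_lit 362) (nat_lit 274) (nat_lit 228)) (XT.nd (nat_lit 94) (nat_lit 168) (nat_lit 0) (XT.lf (nat_lit 0) (nat_lit 2055493748) (nat_lit 252) (nat_lit 2716568630) (nat_lit 84) (nat_lit 13571386197) (nat_lit 17) (nat_lit 5) (nat_lit 20) (nat_lit 5) (nat_lit 18) (nat_lit 5) (nat_lit 363) (nat_lit 274) (nat_lit 227)) (XT.lf (nat_lit 0) (nat_lit 2259357606) (nat_lit 168) (nat_lit 2095183739) (nat_lit 252) (nat_lit 14450808001) (nat_lit 15) (nat_lit 5) (nat_lit 17) (nat_lit 5) (nat_lit 18) (nat_lit 5) (nat_lit 364) (nat_lit 274) (nat_lit 226)))) (XT.nd (nat_lit 94) (nat_lit 0) (nat_lit 0) (XT.lf (nat_lit 0) (nat_lit 6728486803) (nat_lit 252) (nat_lit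 11890248204) (nat_lit 84) (nat_lit 662786421) (nat_lit 15) (nat_lit 5) (nat_lit 18) (nat_lit 5) (nat_lit 16) (nat_lit 4) (nat_lit 365) (nat_lit 274) (nat_lit 225)) (XT.nd (nat_lit 94) (nat_lit 0) (nat_lit 0) (XT.lf (nat_lit 0) (nat_lit 9166792148) (nat_lit 252) (nat_lit 7159909846) (nat_lit 84) (nat_lit 3446101941) (nat_lit 15) (nat_lit 5) (nat_lit 18) (nat_lit 5) (nat_lit 16) (nat_lit 4) (nat_lit 366) (nat_lit 274) (nat_lit 224)) (XT.lf (nat_lit 0) (nat_lit 11650945654) (nat_lit 252) (nat_lit 2329783015) (nat_lit 84) (nat_lit 6299570444) (nat_lit 15) (nat_lit 5) (nat_lit 18) (nat_lit 5) (nat_lit 16) (nat_lit 4) (nat_lit 367) (nat_lit 274) (nat_lit 223)))))) (XT.nd (nat_lit 564) (nat_lit 84) (nat_lit 0) (XT.nd (nat_lit 282) (nat_lit 252) (nat_lit 0) (XT.nd (nat_lit 94) (nat_lit 0) (nat_lit 0) (XT.lf (nat_lit 0) (nat_lit 2658191100) (nat_lit 84) (nat_lit 11551441298) (nat_lit 168) (nat_lit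 6594030145) (nat_lit 14) (nat_lit 5) (nat_lit 15) (nat_lit 5) (nat_lit 16) (nat_lit 4) (nat_lit 368) (nat_lit 274) (nat_lit 222)) (XT.nd (nat_lit 94) (nat_lit 0) (nat_lit 0) (XT.lf (nat_lit 0) (nat_lit 7805199388) (nat_lit 84) (nat_lit 9038333167) (nat_lit 168) (nat_lit 4499902349) (nat_lit 14) (nat_lit 5) (nat_lit 15) (nat_lit 5) (nat_lit 16) (nat_lit 4) (nat_lit 369) (nat_lit 274) (nat_lit 221)) (XT.lf (nat_lit 0) (nat_lit 13068134282) (nat_lit 84) (nat_lit 6463379953) (nat_lit 168) (nat_lit 2369336281) (nat_lit 14) (nat_lit 5) (nat_lit 15) (nat_lit 5) (nat_lit 16) (nat_lit 4) (nat_lit 370) (nat_lit 274) (nat_lit 220)))) (XT.nd (nat_lit 94) (nat_lit 252) (nat_lit 0) (XT.lf (nat_lit 0) (nat_lit 18451901388) (nat_lit 84) (nat_lit 3824181531) (nat_lit 168) (nat_lit 200346030) (nat_lit 14) (nat_lit 5) (nat_lit 15) (nat_lit 5) (nat_lit 16) (nat_lit 4) (nat_lit 371) (nat_lit 274) (nat_lit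 219)) (XT.nd (nat_lit 94) (nat_lit 0) (nat_lit 0) (XT.lf (nat_lit 0) (nat_lit 888788933) (nat_lit 168) (nat_lit 1088639403) (nat_lit 252) (nat_lit 21092387198) (nat_lit 11) (nat_lit 5) (nat_lit 13) (nat_lit 5) (nat_lit 14) (nat_lit 5) (nat_lit 372) (nat_lit 274) (nat_lit 218)) (XT.lf (nat_lit 0) (nat_lit 4252143561) (nat_lit 252) (nat_lit 17702130685) (nat_lit 84) (nat_lit 1726267258) (nat_lit 11) (nat_lit 5) (nat_lit 14) (nat_lit 5) (nat_lit 12) (nat_lit 4) (nat_lit 373) (nat_lit 274) (nat_lit 217))))) (XT.nd (nat_lit 282) (nat_lit 84) (nat_lit 0) (XT.nd (nat_lit 94) (nat_lit 0) (nat_lit 0) (XT.lf (nat_lit 0) (nat_lit 6583267018) (nat_lit 252) (nat_lit 13136177432) (nat_lit 84) (nat_lit 4591240653) (nat_lit 11) (nat_lit 5) (nat_lit 14) (nat_lit 5) (nat_lit 12) (nat_lit 4) (nat_lit 374) (nat_lit 274) (nat_lit 216)) (XT.nd (nat_lit 94) (nat_lit 0) (nat_lit 0) (XT.lf (nat_lit 0) (nat_lit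 8962172119) (nat_lit 252) (nat_lit 8468111460) (nat_lit 84) (nat_lit 7530884894) (nat_lit 11) (nat_lit 5) (nat_lit 14) (nat_lit 5) (nat_lit 12) (nat_lit 4) (nat_lit 375) (nat_lit 274) (nat_lit 215)) (XT.lf (nat_lit 0) (nat_lit 11391076254) (nat_lit 252) (nat_lit 3693581641) (nat_lit 84) (nat_lit 10547940037) (nat_lit 11) (nat_lit 5) (nat_lit 14) (nat_lit 5) (nat_lit 12) (nat_lit 4) (nat_lit 376) (nat_lit 274) (nat_lit 214)))) (XT.nd (nat_lit 94) (nat_lit 0) (nat_lit 0) (XT.lf (nat_lit 0) (nat_lit 1216369520) (nat_lit 84) (nat_lit 12667940431) (nat_lit 168) (nat_lit 12440915311) (nat_lit 10) (nat_lit 5) (nat_lit 11) (nat_lit 5) (nat_lit 12) (nat_lit 4) (nat_lit 377) (nat_lit 274) (nat_lit 213)) (XT.nd (nat_lit 94) (nat_lit 0) (nat_lit 0) (XT.lf (nat_lit 0) (nat_lit 6320110508) (nat_lit 84) (nat_lit 10150572082) (nat_lit 168) (nat_lit 10568192424) (nat_lit 10) (nat_lit 5) (nat_lit 11)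 (nat_lit 5) (nat_lit 12) (nat_lit 4) (nat_lit 378) (nat_lit 274) (nat_lit 212)) (XT.lf (nat_lit 0) (nat_lit 11546450929) (nat_lit 84) (nat_lit 7568759814) (nat_lit 168) (nat_lit 8660160864) (nat_lit 10) (nat_lit 5) (nat_lit 11) (nat_lit 5) (nat_lit 12) (nat_lit 4) (nat_lit 379) (nat_lit 274) (nat_lit 211))))))) (XT.nd (nat_lit 1128) (nat_lit 168) (nat_lit 0) (XT.nd (nat_lit 564) (nat_lit 84) (nat_lit 0) (XT.nd (nat_lit 282) (nat_lit 252) (nat_lit 0) (XT.nd (nat_lit 94) (nat_lit 0) (nat_lit 0) (XT.lf (nat_lit 0) (nat_lit 16900262279) (nat_lit 84) (nat_lit 4920097108) (nat_lit 168) (nat_lit 6715042143) (nat_lit 10) (nat_lit 5) (nat_lit 11) (nat_lit 5) (nat_lit 12) (nat_lit 4) (nat_lit 380) (nat_lit 274) (nat_lit 210)) (XT.nd (nat_lit 94) (nat_lit 0) (nat_lit 0) (XT.lf (nat_lit 0) (nat_lit 22386534873) (nat_lit 84) (nat_lit 2202115131) (nat_lit 168) (nat_lit 4731023207) (nat_lit 10) (nat_lit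 5) (nat_lit 11) (nat_lit 5) (nat_lit 12) (nat_lit 4) (nat_lit 381) (nat_lit 274) (nat_lit 209)) (XT.lf (nat_lit 0) (nat_lit 27428493183) (nat_lit 168) (nat_lit 2124365437) (nat_lit 0) (nat_lit 575878318) (nat_lit 10) (nat_lit 5) (nat_lit 12) (nat_lit 4) (nat_lit 10) (nat_lit 4) (nat_lit 382) (nat_lit 274) (nat_lit 208)))) (XT.nd (nat_lit 94) (nat_lit 84) (nat_lit 0) (XT.lf (nat_lit 0) (nat_lit 2836053743) (nat_lit 168) (nat_lit 27551364367) (nat_lit 168) (nat_lit 574537383) (nat_lit 8) (nat_lit 4) (nat_lit 10) (nat_lit 5) (nat_lit 10) (nat_lit 4) (nat_lit 383) (nat_lit 274) (nat_lit 207)) (XT.nd (nat_lit 94) (nat_lit 0) (nat_lit 0) (XT.lf (nat_lit 0) (nat_lit 1587319290) (nat_lit 252) (nat_lit 23873458827) (nat_lit 84) (nat_lit 6359674727) (nat_lit 7) (nat_lit 5) (nat_lit 10) (nat_lit 5) (nat_lit 8) (nat_lit 4) (nat_lit 384) (nat_lit 274) (nat_lit 206)) (XT.lf (nat_lit 0) (nat_lit 3785280243)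 (nat_lit 252) (nat_lit 19526254955) (nat_lit 84) (nat_lit 9394467718) (nat_lit 7) (nat_lit 5) (nat_lit 10) (nat_lit 5) (nat_lit 8) (nat_lit 4) (nat_lit 385) (nat_lit 274) (nat_lit 205))))) (XT.nd (nat_lit 282) (nat_lit 84) (nat_lit 0) (XT.nd (nat_lit 94) (nat_lit 0) (nat_lit 0) (XT.lf (nat_lit 0) (nat_lit 6032969851) (nat_lit 252) (nat_lit 15074538605) (nat_lit 84) (nat_lit 12512099362) (nat_lit 7) (nat_lit 5) (nat_lit 10) (nat_lit 5) (nat_lit 8) (nat_lit 4) (nat_lit 386) (nat_lit 274) (nat_lit 204)) (XT.nd (nat_lit 94) (nat_lit 0) (nat_lit 0) (XT.lf (nat_lit 0) (nat_lit 8332483198) (nat_lit 252) (nat_lit 10514160309) (nat_lit 84) (nat_lit 15715475619) (nat_lit 7) (nat_lit 5) (nat_lit 10) (nat_lit 5) (nat_lit 8) (nat_lit 4) (nat_lit 387) (nat_lit 274) (nat_lit 203)) (XT.lf (nat_lit 0) (nat_lit 10685963670) (nat_lit 252) (nat_lit 5840869318) (nat_lit 84) (nat_lit 19007582372) (nat_lit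 7) (nat_lit 5) (nat_lit 10) (nat_lit 5) (nat_lit 8) (nat_lit 4) (nat_lit 388) (nat_lit 274) (nat_lit 202)))) (XT.nd (nat_lit 94) (nat_lit 84) (nat_lit 0) (XT.lf (nat_lit 0) (nat_lit 13095604958) (nat_lit 252) (nat_lit 1050309636) (nat_lit 84) (nat_lit 22391488207) (nat_lit 7) (nat_lit 5) (nat_lit 10) (nat_lit 5) (nat_lit 8) (nat_lit 4) (nat_lit 389) (nat_lit 274) (nat_lit 201)) (XT.nd (nat_lit 94) (nat_lit 0) (nat_lit 0) (XT.lf (nat_lit 0) (nat_lit 3941394354) (nat_lit 84) (nat_lit 11661357866) (nat_lit 168) (nat_lit 21968052047) (nat_lit 6) (nat_lit 5) (nat_lit 7) (nat_lit 5) (nat_lit 8) (nat_lit 4) (nat_lit 390) (nat_lit 274) (nat_lit 200)) (XT.lf (nat_lit 0) (nat_lit 9083604882) (nat_lit 84) (nat_lit 9098914178) (nat_lit 168) (nat_lit 20453907857) (nat_lit 6) (nat_lit 5) (nat_lit 7) (nat_lit 5) (nat_lit 8) (nat_lit 4) (nat_lit 391) (nat_lit 274) (nat_lit 199)))))) (XT.nd (nat_lit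 564) (nat_lit 168) (nat_lit 0) (XT.nd (nat_lit 282) (nat_lit 0) (nat_lit 0) (XT.nd (nat_lit 94) (nat_lit 0) (nat_lit 0) (XT.lf (nat_lit 0) (nat_lit 14359518506) (nat_lit 84) (nat_lit 6467158144) (nat_lit 168) (nat_lit 18908917012) (nat_lit 6) (nat_lit 5) (nat_lit 7) (nat_lit 5) (nat_lit 8) (nat_lit 4) (nat_lit 392) (nat_lit 274) (nat_lit 198)) (XT.nd (nat_lit 94) (nat_lit 0) (nat_lit 0) (XT.lf (nat_lit 0) (nat_lit 19774052930) (nat_lit 84) (nat_lit 3763636691) (nat_lit 168) (nat_lit 17331639417) (nat_lit 6) (nat_lit 5) (nat_lit 7) (nat_lit 5) (nat_lit 8) (nat_lit 4) (nat_lit 393) (nat_lit 274) (nat_lit 197)) (XT.lf (nat_lit 0) (nat_lit 25332255068) (nat_lit 84) (nat_lit 985829854) (nat_lit 168) (nat_lit 15720604886) (nat_lit 6) (nat_lit 5) (nat_lit 7) (nat_lit 5) (nat_lit 8) (nat_lit 4) (nat_lit 394) (nat_lit 274) (nat_lit 196)))) (XT.nd (nat_lit 94) (nat_lit 0) (nat_lit 0) (XT.lf (nat_lit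 0) (nat_lit 29188993411) (nat_lit 168) (nat_lit 12223999430) (nat_lit 0) (nat_lit 1831198379) (nat_lit 6) (nat_lit 5) (nat_lit 8) (nat_lit 4) (nat_lit 6) (nat_lit 4) (nat_lit 395) (nat_lit 274) (nat_lit 195)) (XT.nd (nat_lit 94) (nat_lit 0) (nat_lit 0) (XT.lf (nat_lit 0) (nat_lit 32145103112) (nat_lit 168) (nat_lit 7635804115) (nat_lit 0) (nat_lit 4706297329) (nat_lit 6) (nat_lit 5) (nat_lit 8) (nat_lit 4) (nat_lit 6) (nat_lit 4) (nat_lit 396) (nat_lit 274) (nat_lit 194)) (XT.lf (nat_lit 0) (nat_lit 35179389875) (nat_lit 168) (nat_lit 2927792563) (nat_lit 0) (nat_lit 7662009163) (nat_lit 6) (nat_lit 5) (nat_lit 8) (nat_lit 4) (nat_lit 6) (nat_lit 4) (nat_lit 397) (nat_lit 274) (nat_lit 193))))) (XT.nd (nat_lit 282) (nat_lit 84) (nat_lit 0) (XT.nd (nat_lit 94) (nat_lit 0) (nat_lit 0) (XT.lf (nat_lit 0) (nat_lit 1943582441) (nat_lit 84) (nat_lit 36370380109) (nat_lit 84) (nat_lit 8776787052)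 (nat_lit 5) (nat_lit 4) (nat_lit 6) (nat_lit 5) (nat_lit 6) (nat_lit 4) (nat_lit 398) (nat_lit 274) (nat_lit 192)) (XT.nd (nat_lit 94) (nat_lit 0) (nat_lit 0) (XT.lf (nat_lit 0) (nat_lit 7006514110) (nat_lit 84) (nat_lit 34556874559) (nat_lit 84) (nat_lit 6889360701) (nat_lit 5) (nat_lit 4) (nat_lit 6) (nat_lit 5) (nat_lit 6) (nat_lit 4) (nat_lit 399) (nat_lit 274) (nat_lit 191)) (XT.lf (nat_lit 0) (nat_lit 12205520207) (nat_lit 84) (nat_lit 32695535560) (nat_lit 84) (nat_lit 4956323545) (nat_lit 5) (nat_lit 4) (nat_lit 6) (nat_lit 5) (nat_lit 6) (nat_lit 4) (nat_lit 400) (nat_lit 274) (nat_lit 190)))) (XT.nd (nat_lit 94) (nat_lit 84) (nat_lit 0) (XT.lf (nat_lit 0) (nat_lit 17545446749) (nat_lit 84) (nat_lit 30784628151) (nat_lit 84) (nat_lit 2975873791) (nat_lit 5) (nat_lit 4) (nat_lit 6) (nat_lit 5) (nat_lit 6) (nat_lit 4) (nat_lit 401) (nat_lit 274) (nat_lit 189)) (XT.nd (nat_lit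 94) (nat_lit 84) (nat_lit 0) (XT.lf (nat_lit 0) (nat_lit 23031271108) (nat_lit 84) (nat_lit 28822371164) (nat_lit 84) (nat_lit 946165451) (nat_lit 5) (nat_lit 4) (nat_lit 6) (nat_lit 5) (nat_lit 6) (nat_lit 4) (nat_lit 402) (nat_lit 274) (nat_lit 188)) (XT.lf (nat_lit 0) (nat_lit 1111831831) (nat_lit 168) (nat_lit 25683498496) (nat_lit 84) (nat_lit 27544669571) (nat_lit 4) (nat_lit 5) (nat_lit 6) (nat_lit 5) (nat_lit 5) (nat_lit 4) (nat_lit 403) (nat_lit 274) (nat_lit 187))))))))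
noncomputable def xc52 : XT := (XT.nd (nat_lit 46812) (nat_lit 0) (nat_lit 2352) (XT.nd (nat_lit 1128) (nat_lit 0) (nat_lit 0) (XT.nd (nat_lit 564) (nat_lit 0) (nat_lit 0) (XT.nd (nat_lit 282) (nat_lit 84) (nat_lit 0) (XT.nd (nat_lit 94) (nat_lit 0) (nat_lit 0) (XT.lf (nat_lit 0) (nat_lit 3202786406) (nat_lit 168) (nat_lit 21500225848) (nat_lit 84) (nat_lit 31224990558) (nat_lit 4) (nat_lit 5) (nat_lit 6) (nat_lit 5) (nat_lit 5) (nat_lit 4) (nat_lit 404) (nat_lit 274) (nat_lit 186)) (XT.nd (nat_lit 94) (nat_lit 0) (nat_lit 0) (XT.lf (nat_lit 0) (nat_lit 5347710388) (nat_lit 168) (nat_lit 17205433343) (nat_lit 84) (nat_lit 35012443885) (nat_lit 4) (nat_lit 5) (nat_lit 6) (nat_lit 5) (nat_lit 5) (nat_lit 4) (nat_lit 405) (nat_lit 274) (nat_lit 185)) (XT.lf (nat_lit 0) (nat_lit 7548603070) (nat_lit 168) (nat_lit 12795117786) (nat_lit 84) (nat_lit 38910559857) (nat_lit 4) (nat_lit 5) (nat_lit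 6) (nat_lit 5) (nat_lit 5) (nat_lit 4) (nat_lit 406) (nat_lit 274) (nat_lit 184)))) (XT.nd (nat_lit 94) (nat_lit 84) (nat_lit 0) (XT.lf (nat_lit 0) (nat_lit 9807515916) (nat_lit 168) (nat_lit 8265168301) (nat_lit 84) (nat_lit 42922971925) (nat_lit 4) (nat_lit 5) (nat_lit 6) (nat_lit 5) (nat_lit 5) (nat_lit 4) (nat_lit 407) (nat_lit 274) (nat_lit 183)) (XT.nd (nat_lit 94) (nat_lit 84) (nat_lit 0) (XT.lf (nat_lit 0) (nat_lit 12126554467) (nat_lit 168) (nat_lit 3611362500) (nat_lit 84) (nat_lit 47053420079) (nat_lit 4) (nat_lit 5) (nat_lit 6) (nat_lit 5) (nat_lit 5) (nat_lit 4) (nat_lit 408) (nat_lit 274) (nat_lit 182)) (XT.lf (nat_lit 0) (nat_lit 1194708158) (nat_lit 84) (nat_lit 13325023806) (nat_lit 168) (nat_lit 50122897822) (nat_lit 3) (nat_lit 5) (nat_lit 4) (nat_lit 5) (nat_lit 5) (nat_lit 4) (nat_lit 409) (nat_lit 274) (nat_lit 181))))) (XT.nd (nat_lit 282) (nat_lit 0) (nat_lit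 0) (XT.nd (nat_lit 94) (nat_lit 0) (nat_lit 0) (XT.lf (nat_lit 0) (nat_lit 6210414898) (nat_lit 84) (nat_lit 10804906281) (nat_lit 168) (nat_lit 49535131479) (nat_lit 3) (nat_lit 5) (nat_lit 4) (nat_lit 5) (nat_lit 5) (nat_lit 4) (nat_lit 410) (nat_lit 274) (nat_lit 180)) (XT.nd (nat_lit 94) (nat_lit 0) (nat_lit 0) (XT.lf (nat_lit 0) (nat_lit 11366175864) (nat_lit 84) (nat_lit 8212910596) (nat_lit 168) (nat_lit 48938630908) (nat_lit 3) (nat_lit 5) (nat_lit 4) (nat_lit 5) (nat_lit 5) (nat_lit 4) (nat_lit 411) (nat_lit 274) (nat_lit 179)) (XT.lf (nat_lit 0) (nat_lit 16666796765) (nat_lit 84) (nat_lit 5546620739) (nat_lit 168) (nat_lit 48332840108) (nat_lit 3) (nat_lit 5) (nat_lit 4) (nat_lit 5) (nat_lit 5) (nat_lit 4) (nat_lit 412) (nat_lit 274) (nat_lit 178)))) (XT.nd (nat_lit 94) (nat_lit 0) (nat_lit 0) (XT.lf (nat_lit 0) (nat_lit 22117218335) (nat_lit 84) (nat_lit 2803551450) (nat_lit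 168) (nat_lit 47717194419) (nat_lit 3) (nat_lit 5) (nat_lit 4) (nat_lit 5) (nat_lit 5) (nat_lit 4) (nat_lit 413) (nat_lit 274) (nat_lit 177)) (XT.nd (nat_lit 94) (nat_lit 0) (nat_lit 0) (XT.lf (nat_lit 0) (nat_lit 27703853873) (nat_lit 168) (nat_lit 47072452929) (nat_lit 0) (nat_lit 18474231) (nat_lit 3) (nat_lit 5) (nat_lit 5) (nat_lit 4) (nat_lit 3) (nat_lit 4) (nat_lit 414) (nat_lit 274) (nat_lit 176)) (XT.lf (nat_lit 0) (nat_lit 30593701386) (nat_lit 168) (nat_lit 43559805348) (nat_lit 0) (nat_lit 2864330184) (nat_lit 3) (nat_lit 5) (nat_lit 5) (nat_lit 4) (nat_lit 3) (nat_lit 4) (nat_lit 415) (nat_lit 274) (nat_lit 175)))))) (XT.nd (nat_lit 45120) (nat_lit 0) (nat_lit 6384) (XT.nd (nat_lit 44838) (nat_lit 0) (nat_lit 7980) (XT.nd (nat_lit 44650) (nat_lit 0) (nat_lit 9240) (XT.lf (nat_lit 0) (nat_lit 33565194385) (nat_lit 168) (nat_lit 39951717394) (nat_lit 0) (nat_lit 5793154359)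 (nat_lit 3) (nat_lit 5) (nat_lit 5) (nat_lit 4) (nat_lit 3) (nat_lit 4) (nat_lit 416) (nat_lit 274) (nat_lit 174)) (XT.nd (nat_lit 94) (nat_lit 0) (nat_lit 0) (XT.lf (nat_lit 0) (nat_lit 272709232) (nat_lit 1092) (nat_lit 1703755771) (nat_lit 1092) (nat_lit 1703755771) (nat_lit 113) (nat_lit 4) (nat_lit 126) (nat_lit 5) (nat_lit 126) (nat_lit 4) (nat_lit 314) (nat_lit 275) (nat_lit 275)) (XT.lf (nat_lit 0) (nat_lit 4790970829) (nat_lit 1092) (nat_lit 2037386991) (nat_lit 1092) (nat_lit 608962806) (nat_lit 113) (nat_lit 4) (nat_lit 126) (nat_lit 5) (nat_lit 126) (nat_lit 4) (nat_lit 315) (nat_lit 275) (nat_lit 274)))) (XT.nd (nat_lit 94) (nat_lit 672) (nat_lit 0) (XT.lf (nat_lit 0) (nat_lit 1574200761) (nat_lit 504) (nat_lit 586360253) (nat_lit 588) (nat_lit 5357882040) (nat_lit 106) (nat_lit 5) (nat_lit 112) (nat_lit 5) (nat_lit 113) (nat_lit 4) (nat_lit 316) (nat_lit 275) (nat_lit 273))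 (XT.nd (nat_lit 94) (nat_lit 672) (nat_lit 0) (XT.lf (nat_lit 0) (nat_lit 4956390954) (nat_lit 588) (nat_lit 1723641181) (nat_lit 0) (nat_lit 923689854) (nat_lit 106) (nat_lit 5) (nat_lit 113) (nat_lit 4) (nat_lit 106) (nat_lit 4) (nat_lit 317) (nat_lit 275) (nat_lit 272)) (XT.lf (nat_lit 0) (nat_lit 93773604) (nat_lit 672) (nat_lit 5106466550) (nat_lit 84) (nat_lit 2493283182) (nat_lit 98) (nat_lit 5) (nat_lit 106) (nat_lit 5) (nat_lit 99) (nat_lit 4) (nat_lit 318) (nat_lit 275) (nat_lit 271))))) (XT.nd (nat_lit 282) (nat_lit 504) (nat_lit 0) (XT.nd (nat_lit 94) (nat_lit 1092) (nat_lit 0) (XT.lf (nat_lit 0) (nat_lit 2802163514) (nat_lit 672) (nat_lit 831933862) (nat_lit 84) (nat_lit 4153462991) (nat_lit 98) (nat_lit 5) (nat_lit 106) (nat_lit 5) (nat_lit 99) (nat_lit 4) (nat_lit 319) (nat_lit 275) (nat_lit 270)) (XT.nd (nat_lit 94) (nat_lit 588) (nat_lit 0) (XT.lf (nat_lit 0) (nat_lit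 3562452454) (nat_lit 504) (nat_lit 1988959737) (nat_lit 588) (nat_lit 2334773609) (nat_lit 92) (nat_lit 5) (nat_lit 98) (nat_lit 5) (nat_lit 99) (nat_lit 4) (nat_lit 320) (nat_lit 275) (nat_lit 269)) (XT.lf (nat_lit 0) (nat_lit 34255910) (nat_lit 504) (nat_lit 286837326) (nat_lit 588) (nat_lit 7669106235) (nat_lit 85) (nat_lit 5) (nat_lit 91) (nat_lit 5) (nat_lit 92) (nat_lit 5) (nat_lit 321) (nat_lit 275) (nat_lit 268)))) (XT.nd (nat_lit 94) (nat_lit 504) (nat_lit 0) (XT.lf (nat_lit 0) (nat_lit 2994355842) (nat_lit 588) (nat_lit 3603171148) (nat_lit 84) (nat_lit 1499987491) (nat_lit 85) (nat_lit 5) (nat_lit 92) (nat_lit 5) (nat_lit 86) (nat_lit 4) (nat_lit 322) (nat_lit 275) (nat_lit 267)) (XT.nd (nat_lit 94) (nat_lit 84) (nat_lit 0) (XT.lf (nat_lit 0) (nat_lit 813381987) (nat_lit 420) (nat_lit 4873820003) (nat_lit 504) (nat_lit 2523214542) (nat_lit 80) (nat_lit 5) (nat_lit 85) (nat_lit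 5) (nat_lit 86) (nat_lit 4) (nat_lit 323) (nat_lit 275) (nat_lit 266)) (XT.lf (nat_lit 0) (nat_lit 98031604) (nat_lit 504) (nat_lit 2969713212) (nat_lit 84) (nat_lit 5260425958) (nat_lit 79) (nat_lit 5) (nat_lit 85) (nat_lit 5) (nat_lit 80) (nat_lit 5) (nat_lit 324) (nat_lit 275) (nat_lit 265))))))) (XT.nd (nat_lit 1128) (nat_lit 1512) (nat_lit 0) (XT.nd (nat_lit 564) (nat_lit 1176) (nat_lit 0) (XT.nd (nat_lit 282) (nat_lit 504) (nat_lit 0) (XT.nd (nat_lit 94) (nat_lit 420) (nat_lit 0) (XT.lf (nat_lit 0) (nat_lit 1516624188) (nat_lit 420) (nat_lit 1174850464) (nat_lit 504) (nat_lit 5759329101) (nat_lit 74) (nat_lit 5) (nat_lit 79) (nat_lit 5) (nat_lit 80) (nat_lit 5) (nat_lit 325) (nat_lit 275) (nat_lit 264)) (XT.nd (nat_lit 94) (nat_lit 420) (nat_lit 0) (XT.lf (nat_lit 0) (nat_lit 5333864543) (nat_lit 504) (nat_lit 2463774145) (nat_lit 84) (nat_lit 780838675) (nat_lit 74) (nat_lit 5)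 (nat_lit 80) (nat_lit 5) (nat_lit 75) (nat_lit 4) (nat_lit 326) (nat_lit 275) (nat_lit 263)) (XT.lf (nat_lit 0) (nat_lit 2093447079) (nat_lit 420) (nat_lit 5929153698) (nat_lit 504) (nat_lit 688866803) (nat_lit 69) (nat_lit 5) (nat_lit 74) (nat_lit 5) (nat_lit 75) (nat_lit 4) (nat_lit 327) (nat_lit 275) (nat_lit 262)))) (XT.nd (nat_lit 94) (nat_lit 420) (nat_lit 0) (XT.lf (nat_lit 0) (nat_lit 1864847385) (nat_lit 504) (nat_lit 2105918473) (nat_lit 84) (nat_lit 4878760672) (nat_lit 68) (nat_lit 5) (nat_lit 74) (nat_lit 5) (nat_lit 69) (nat_lit 5) (nat_lit 328) (nat_lit 275) (nat_lit 261)) (XT.nd (nat_lit 94) (nat_lit 0) (nat_lit 0) (XT.lf (nat_lit 0) (nat_lit 2509318782) (nat_lit 420) (nat_lit 1933006819) (nat_lit 504) (nat_lit 4550828849) (nat_lit 63) (nat_lit 5) (nat_lit 68) (nat_lit 5) (nat_lit 69) (nat_lit 5) (nat_lit 329) (nat_lit 275) (nat_lit 260)) (XT.lf (nat_lit 0) (nat_lit 7058643897)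 (nat_lit 504) (nat_lit 1911700228) (nat_lit 84) (nat_lit 172390305) (nat_lit 63) (nat_lit 5) (nat_lit 69) (nat_lit 5) (nat_lit 64) (nat_lit 4) (nat_lit 330) (nat_lit 275) (nat_lit 259))))) (XT.nd (nat_lit 282) (nat_lit 420) (nat_lit 0) (XT.nd (nat_lit 94) (nat_lit 336) (nat_lit 0) (XT.lf (nat_lit 0) (nat_lit 433646436) (nat_lit 420) (nat_lit 6543143018) (nat_lit 84) (nat_lit 2320736823) (nat_lit 58) (nat_lit 5) (nat_lit 63) (nat_lit 5) (nat_lit 59) (nat_lit 5) (nat_lit 331) (nat_lit 275) (nat_lit 258)) (XT.nd (nat_lit 94) (nat_lit 336) (nat_lit 0) (XT.lf (nat_lit 0) (nat_lit 2943594197) (nat_lit 420) (nat_lit 1952148298) (nat_lit 84) (nat_lit 4562239218) (nat_lit 58) (nat_lit 5) (nat_lit 63) (nat_lit 5) (nat_lit 59) (nat_lit 5) (nat_lit 332) (nat_lit 275) (nat_lit 257)) (XT.lf (nat_lit 0) (nat_lit 2759388237) (nat_lit 336) (nat_lit 2738515103) (nat_lit 420) (nat_lit 4126745409) (nat_lit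 54) (nat_lit 5) (nat_lit 58) (nat_lit 5) (nat_lit 59) (nat_lit 5) (nat_lit 333) (nat_lit 275) (nat_lit 256)))) (XT.nd (nat_lit 94) (nat_lit 420) (nat_lit 0) (XT.lf (nat_lit 0) (nat_lit 7581775727) (nat_lit 336) (nat_lit 510245241) (nat_lit 420) (nat_lit 1705876712) (nat_lit 54) (nat_lit 5) (nat_lit 58) (nat_lit 5) (nat_lit 59) (nat_lit 5) (nat_lit 334) (nat_lit 275) (nat_lit 255)) (XT.nd (nat_lit 94) (nat_lit 0) (nat_lit 0) (XT.lf (nat_lit 0) (nat_lit 758533003) (nat_lit 420) (nat_lit 7450496405) (nat_lit 84) (nat_lit 1767911271) (nat_lit 49) (nat_lit 5) (nat_lit 54) (nat_lit 5) (nat_lit 50) (nat_lit 5) (nat_lit 335) (nat_lit 275) (nat_lit 254)) (XT.lf (nat_lit 0) (nat_lit 3234610875) (nat_lit 420) (nat_lit 2797417259) (nat_lit 84) (nat_lit 4130050675) (nat_lit 49) (nat_lit 5) (nat_lit 54) (nat_lit 5) (nat_lit 50) (nat_lit 5) (nat_lit 336) (nat_lit 275) (nat_lit 253)))))) (XT.nd (nat_lit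 564) (nat_lit 588) (nat_lit 0) (XT.nd (nat_lit 282) (nat_lit 252) (nat_lit 0) (XT.nd (nat_lit 94) (nat_lit 336) (nat_lit 0) (XT.lf (nat_lit 0) (nat_lit 1965097429) (nat_lit 336) (nat_lit 3785703648) (nat_lit 420) (nat_lit 4603463392) (nat_lit 45) (nat_lit 5) (nat_lit 49) (nat_lit 5) (nat_lit 50) (nat_lit 5) (nat_lit 337) (nat_lit 275) (nat_lit 252)) (XT.nd (nat_lit 94) (nat_lit 336) (nat_lit 0) (XT.lf (nat_lit 0) (nat_lit 6860904861) (nat_lit 336) (nat_lit 1458104931) (nat_lit 420) (nat_lit 2234370623) (nat_lit 45) (nat_lit 5) (nat_lit 49) (nat_lit 5) (nat_lit 50) (nat_lit 5) (nat_lit 338) (nat_lit 275) (nat_lit 251)) (XT.lf (nat_lit 0) (nat_lit 169914597) (nat_lit 336) (nat_lit 9672249552) (nat_lit 84) (nat_lit 917653656) (nat_lit 41) (nat_lit 5) (nat_lit 45) (nat_lit 5) (nat_lit 42) (nat_lit 5) (nat_lit 339) (nat_lit 275) (nat_lit 250)))) (XT.nd (nat_lit 94) (nat_lit 252) (nat_lit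 0) (XT.lf (nat_lit 0) (nat_lit 2602670469) (nat_lit 336) (nat_lit 4989138217) (nat_lit 84) (nat_lit 3380279190) (nat_lit 41) (nat_lit 5) (nat_lit 45) (nat_lit 5) (nat_lit 42) (nat_lit 5) (nat_lit 340) (nat_lit 275) (nat_lit 249)) (XT.nd (nat_lit 94) (nat_lit 252) (nat_lit 0) (XT.lf (nat_lit 0) (nat_lit 5058952243) (nat_lit 336) (nat_lit 232228405) (nat_lit 84) (nat_lit 5901514088) (nat_lit 41) (nat_lit 5) (nat_lit 45) (nat_lit 5) (nat_lit 42) (nat_lit 5) (nat_lit 341) (nat_lit 275) (nat_lit 248)) (XT.lf (nat_lit 0) (nat_lit 4697559171) (nat_lit 252) (nat_lit 2890090628) (nat_lit 336) (nat_lit 3832749602) (nat_lit 38) (nat_lit 5) (nat_lit 41) (nat_lit 5) (nat_lit 42) (nat_lit 5) (nat_lit 342) (nat_lit 275) (nat_lit 247))))) (XT.nd (nat_lit 282) (nat_lit 252) (nat_lit 0) (XT.nd (nat_lit 94) (nat_lit 336) (nat_lit 0) (XT.lf (nat_lit 0) (nat_lit 9716562404) (nat_lit 252) (nat_lit 431102704)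 (nat_lit 336) (nat_lit 1509096114) (nat_lit 38) (nat_lit 5) (nat_lit 41) (nat_lit 5) (nat_lit 42) (nat_lit 5) (nat_lit 343) (nat_lit 275) (nat_lit 246)) (XT.nd (nat_lit 94) (nat_lit 0) (nat_lit 0) (XT.lf (nat_lit 0) (nat_lit 870678347) (nat_lit 336) (nat_lit 8947745519) (nat_lit 84) (nat_lit 2081824126) (nat_lit 34) (nat_lit 5) (nat_lit 38) (nat_lit 5) (nat_lit 35) (nat_lit 5) (nat_lit 344) (nat_lit 275) (nat_lit 245)) (XT.lf (nat_lit 0) (nat_lit 3269724606) (nat_lit 336) (nat_lit 4201034236) (nat_lit 84) (nat_lit 4680890218) (nat_lit 34) (nat_lit 5) (nat_lit 38) (nat_lit 5) (nat_lit 35) (nat_lit 5) (nat_lit 345) (nat_lit 275) (nat_lit 244)))) (XT.nd (nat_lit 94) (nat_lit 0) (nat_lit 0) (XT.lf (nat_lit 0) (nat_lit 639425761) (nat_lit 252) (nat_lit 5063480906) (nat_lit 336) (nat_lit 6709307263) (nat_lit 31) (nat_lit 5) (nat_lit 34) (nat_lit 5) (nat_lit 35) (nat_lit 5) (nat_lit 346) (nat_lit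 275) (nat_lit 243)) (XT.nd (nat_lit 94) (nat_lit 0) (nat_lit 0) (XT.lf (nat_lit 0) (nat_lit 5653388447) (nat_lit 252) (nat_lit 2556150917) (nat_lit 336) (nat_lit 4471497659) (nat_lit 31) (nat_lit 5) (nat_lit 34) (nat_lit 5) (nat_lit 35) (nat_lit 5) (nat_lit 347) (nat_lit 275) (nat_lit 242)) (XT.lf (nat_lit 0) (nat_lit 10749523848) (nat_lit 336) (nat_lit 2200638319) (nat_lit 84) (nat_lit 9522238) (nat_lit 31) (nat_lit 5) (nat_lit 35) (nat_lit 5) (nat_lit 32) (nat_lit 4) (nat_lit 348) (nat_lit 275) (nat_lit 241))))))))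
noncomputable def xc53 : XT := (XT.nd (nat_lit 2256) (nat_lit 588) (nat_lit 0) (XT.nd (nat_lit 1128) (nat_lit 588) (nat_lit 0) (XT.nd (nat_lit 564) (nat_lit 420) (nat_lit 0) (XT.nd (nat_lit 282) (nat_lit 252) (nat_lit 0) (XT.nd (nat_lit 94) (nat_lit 0) (nat_lit 0) (XT.lf (nat_lit 0) (nat_lit 128874502) (nat_lit 252) (nat_lit 10505951155) (nat_lit 84) (nat_lit 2611904609) (nat_lit 28) (nat_lit 5) (nat_lit 31) (nat_lit 5) (nat_lit 29) (nat_lit 5) (nat_lit 349) (nat_lit 275) (nat_lit 240)) (XT.nd (nat_lit 94) (nat_lit 0) (nat_lit 0) (XT.lf (nat_lit 0) (nat_lit 2474556917) (nat_lit 252) (nat_lit 5746113899) (nat_lit 84) (nat_lit 5322027182) (nat_lit 28) (nat_lit 5) (nat_lit 31) (nat_lit 5) (nat_lit 29) (nat_lit 5) (nat_lit 350) (nat_lit 275) (nat_lit 239)) (XT.lf (nat_lit 0) (nat_lit 4851095564) (nat_lit 252) (nat_lit 900161660) (nat_lit 84) (nat_lit 8097983656) (nat_lit 28) (nat_lit 5)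 (nat_lit 31) (nat_lit 5) (nat_lit 29) (nat_lit 5) (nat_lit 351) (nat_lit 275) (nat_lit 238)))) (XT.nd (nat_lit 94) (nat_lit 0) (nat_lit 0) (XT.lf (nat_lit 0) (nat_lit 4119419623) (nat_lit 252) (nat_lit 3182151156) (nat_lit 336) (nat_lit 6863807042) (nat_lit 25) (nat_lit 5) (nat_lit 28) (nat_lit 5) (nat_lit 29) (nat_lit 5) (nat_lit 352) (nat_lit 275) (nat_lit 237)) (XT.nd (nat_lit 94) (nat_lit 0) (nat_lit 0) (XT.lf (nat_lit 0) (nat_lit 9254701602) (nat_lit 252) (nat_lit 542739297) (nat_lit 336) (nat_lit 4694918194) (nat_lit 25) (nat_lit 5) (nat_lit 28) (nat_lit 5) (nat_lit 29) (nat_lit 5) (nat_lit 353) (nat_lit 275) (nat_lit 236)) (XT.lf (nat_lit 0) (nat_lit 12353346900) (nat_lit 336) (nat_lit 360238156) (nat_lit 84) (nat_lit 2116522670) (nat_lit 25) (nat_lit 5) (nat_lit 29) (nat_lit 5) (nat_lit 26) (nat_lit 4) (nat_lit 354) (nat_lit 275) (nat_lit 235))))) (XT.nd (nat_lit 282) (nat_lit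 168) (nat_lit 0) (XT.nd (nat_lit 94) (nat_lit 84) (nat_lit 0) (XT.lf (nat_lit 0) (nat_lit 4700970343) (nat_lit 168) (nat_lit 10301924826) (nat_lit 252) (nat_lit 175075424) (nat_lit 23) (nat_lit 5) (nat_lit 25) (nat_lit 5) (nat_lit 26) (nat_lit 4) (nat_lit 355) (nat_lit 275) (nat_lit 234)) (XT.nd (nat_lit 94) (nat_lit 0) (nat_lit 0) (XT.lf (nat_lit 0) (nat_lit 2119814488) (nat_lit 252) (nat_lit 5688490950) (nat_lit 84) (nat_lit 7728770955) (nat_lit 22) (nat_lit 5) (nat_lit 25) (nat_lit 5) (nat_lit 23) (nat_lit 5) (nat_lit 356) (nat_lit 275) (nat_lit 233)) (XT.lf (nat_lit 0) (nat_lit 4445679385) (nat_lit 252) (nat_lit 808479739) (nat_lit 84) (nat_lit 10654315039) (nat_lit 22) (nat_lit 5) (nat_lit 25) (nat_lit 5) (nat_lit 23) (nat_lit 5) (nat_lit 357) (nat_lit 275) (nat_lit 232)))) (XT.nd (nat_lit 94) (nat_lit 0) (nat_lit 0) (XT.lf (nat_lit 0) (nat_lit 4255048581) (nat_lit 168) (nat_lit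 2595376623) (nat_lit 252) (nat_lit 9440830190) (nat_lit 20) (nat_lit 5) (nat_lit 22) (nat_lit 5) (nat_lit 23) (nat_lit 5) (nat_lit 358) (nat_lit 275) (nat_lit 231)) (XT.nd (nat_lit 94) (nat_lit 0) (nat_lit 0) (XT.lf (nat_lit 0) (nat_lit 9304619367) (nat_lit 252) (nat_lit 7248420318) (nat_lit 84) (nat_lit 133719088) (nat_lit 20) (nat_lit 5) (nat_lit 23) (nat_lit 5) (nat_lit 21) (nat_lit 4) (nat_lit 359) (nat_lit 275) (nat_lit 230)) (XT.lf (nat_lit 0) (nat_lit 11827422055) (nat_lit 252) (nat_lit 2391067187) (nat_lit 84) (nat_lit 2876340658) (nat_lit 20) (nat_lit 5) (nat_lit 23) (nat_lit 5) (nat_lit 21) (nat_lit 4) (nat_lit 360) (nat_lit 275) (nat_lit 229)))))) (XT.nd (nat_lit 564) (nat_lit 168) (nat_lit 0) (XT.nd (nat_lit 282) (nat_lit 168) (nat_lit 0) (XT.nd (nat_lit 94) (nat_lit 84) (nat_lit 0) (XT.lf (nat_lit 0) (nat_lit 2618891425) (nat_lit 168) (nat_lit 11802526630) (nat_lit 252)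 (nat_lit 3094423855) (nat_lit 18) (nat_lit 5) (nat_lit 20) (nat_lit 5) (nat_lit 21) (nat_lit 4) (nat_lit 361) (nat_lit 275) (nat_lit 228)) (XT.nd (nat_lit 94) (nat_lit 84) (nat_lit 0) (XT.lf (nat_lit 0) (nat_lit 7784624501) (nat_lit 168) (nat_lit 9303661784) (nat_lit 252) (nat_lit 861923852) (nat_lit 18) (nat_lit 5) (nat_lit 20) (nat_lit 5) (nat_lit 21) (nat_lit 4) (nat_lit 362) (nat_lit 275) (nat_lit 227)) (XT.lf (nat_lit 0) (nat_lit 1378862997) (nat_lit 252) (nat_lit 5351267839) (nat_lit 84) (nat_lit 11668526299) (nat_lit 17) (nat_lit 5) (nat_lit 20) (nat_lit 5) (nat_lit 18) (nat_lit 5) (nat_lit 363) (nat_lit 275) (nat_lit 226)))) (XT.nd (nat_lit 94) (nat_lit 168) (nat_lit 0) (XT.lf (nat_lit 0) (nat_lit 3640257366) (nat_lit 252) (nat_lit 444471720) (nat_lit 84) (nat_lit 14777027994) (nat_lit 17) (nat_lit 5) (nat_lit 20) (nat_lit 5) (nat_lit 18) (nat_lit 5) (nat_lit 364) (nat_lit 275)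 (nat_lit 225)) (XT.nd (nat_lit 94) (nat_lit 0) (nat_lit 0) (XT.lf (nat_lit 0) (nat_lit 4661852701) (nat_lit 168) (nat_lit 1326126409) (nat_lit 252) (nat_lit 13350793949) (nat_lit 15) (nat_lit 5) (nat_lit 17) (nat_lit 5) (nat_lit 18) (nat_lit 5) (nat_lit 365) (nat_lit 275) (nat_lit 224)) (XT.lf (nat_lit 0) (nat_lit 8398486427) (nat_lit 252) (nat_lit 9956495109) (nat_lit 84) (nat_lit 1475965801) (nat_lit 15) (nat_lit 5) (nat_lit 18) (nat_lit 5) (nat_lit 16) (nat_lit 4) (nat_lit 366) (nat_lit 275) (nat_lit 223))))) (XT.nd (nat_lit 282) (nat_lit 84) (nat_lit 0) (XT.nd (nat_lit 94) (nat_lit 84) (nat_lit 0) (XT.lf (nat_lit 0) (nat_lit 10868437518) (nat_lit 252) (nat_lit 5148743105) (nat_lit 84) (nat_lit 4321731296) (nat_lit 15) (nat_lit 5) (nat_lit 18) (nat_lit 5) (nat_lit 16) (nat_lit 4) (nat_lit 367) (nat_lit 275) (nat_lit 222)) (XT.nd (nat_lit 94) (nat_lit 84) (nat_lit 0) (XT.lf (nat_lit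 0) (nat_lit 13386979299) (nat_lit 252) (nat_lit 236027678) (nat_lit 84) (nat_lit 7240541118) (nat_lit 15) (nat_lit 5) (nat_lit 18) (nat_lit 5) (nat_lit 16) (nat_lit 4) (nat_lit 368) (nat_lit 275) (nat_lit 221)) (XT.lf (nat_lit 0) (nat_lit 4884645046) (nat_lit 84) (nat_lit 11120270552) (nat_lit 168) (nat_lit 5398927142) (nat_lit 14) (nat_lit 5) (nat_lit 15) (nat_lit 5) (nat_lit 16) (nat_lit 4) (nat_lit 369) (nat_lit 275) (nat_lit 220)))) (XT.nd (nat_lit 94) (nat_lit 84) (nat_lit 0) (XT.lf (nat_lit 0) (nat_lit 10126743520) (nat_lit 84) (nat_lit 8552987619) (nat_lit 168) (nat_lit 3281961943) (nat_lit 14) (nat_lit 5) (nat_lit 15) (nat_lit 5) (nat_lit 16) (nat_lit 4) (nat_lit 370) (nat_lit 275) (nat_lit 219)) (XT.nd (nat_lit 94) (nat_lit 84) (nat_lit 0) (XT.lf (nat_lit 0) (nat_lit 15490300713) (nat_lit 84) (nat_lit 5921228848) (nat_lit 168) (nat_lit 1126163612) (nat_lit 14) (nat_lit 5) (nat_lit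 15) (nat_lit 5) (nat_lit 16) (nat_lit 4) (nat_lit 371) (nat_lit 275) (nat_lit 218)) (XT.lf (nat_lit 0) (nat_lit 1048909549) (nat_lit 168) (nat_lit 2162683150) (nat_lit 84) (nat_lit 19920458008) (nat_lit 13) (nat_lit 5) (nat_lit 15) (nat_lit 5) (nat_lit 14) (nat_lit 5) (nat_lit 372) (nat_lit 275) (nat_lit 217))))))) (XT.nd (nat_lit 1128) (nat_lit 84) (nat_lit 0) (XT.nd (nat_lit 564) (nat_lit 252) (nat_lit 0) (XT.nd (nat_lit 282) (nat_lit 84) (nat_lit 0) (XT.nd (nat_lit 94) (nat_lit 0) (nat_lit 0) (XT.lf (nat_lit 0) (nat_lit 2880805243) (nat_lit 168) (nat_lit 391091648) (nat_lit 252) (nat_lit 20472506875) (nat_lit 11) (nat_lit 5) (nat_lit 13) (nat_lit 5) (nat_lit 14) (nat_lit 5) (nat_lit 373) (nat_lit 275) (nat_lit 216)) (XT.nd (nat_lit 94) (nat_lit 0) (nat_lit 0) (XT.lf (nat_lit 0) (nat_lit 5587085927) (nat_lit 252) (nat_lit 16313180577) (nat_lit 84) (nat_lit 2474797644) (nat_lit 11)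 (nat_lit 5) (nat_lit 14) (nat_lit 5) (nat_lit 12) (nat_lit 4) (nat_lit 374) (nat_lit 275) (nat_lit 215)) (XT.lf (nat_lit 0) (nat_lit 7954298747) (nat_lit 252) (nat_lit 11663945820) (nat_lit 84) (nat_lit 5407687543) (nat_lit 11) (nat_lit 5) (nat_lit 14) (nat_lit 5) (nat_lit 12) (nat_lit 4) (nat_lit 375) (nat_lit 275) (nat_lit 214)))) (XT.nd (nat_lit 94) (nat_lit 84) (nat_lit 0) (XT.lf (nat_lit 0) (nat_lit 10371862162) (nat_lit 252) (nat_lit 6907681002) (nat_lit 84) (nat_lit 8418191433) (nat_lit 11) (nat_lit 5) (nat_lit 14) (nat_lit 5) (nat_lit 12) (nat_lit 4) (nat_lit 376) (nat_lit 275) (nat_lit 213)) (XT.nd (nat_lit 94) (nat_lit 84) (nat_lit 0) (XT.lf (nat_lit 0) (nat_lit 12842029596) (nat_lit 252) (nat_lit 2039952785) (nat_lit 84) (nat_lit 11509115420) (nat_lit 11) (nat_lit 5) (nat_lit 14) (nat_lit 5) (nat_lit 12) (nat_lit 4) (nat_lit 377) (nat_lit 275) (nat_lit 212)) (XT.lf (nat_lit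 0) (nat_lit 3004306135) (nat_lit 84) (nat_lit 12392600456) (nat_lit 168) (nat_lit 11708837521) (nat_lit 10) (nat_lit 5) (nat_lit 11) (nat_lit 5) (nat_lit 12) (nat_lit 4) (nat_lit 378) (nat_lit 275) (nat_lit 211))))) (XT.nd (nat_lit 282) (nat_lit 252) (nat_lit 0) (XT.nd (nat_lit 94) (nat_lit 0) (nat_lit 0) (XT.lf (nat_lit 0) (nat_lit 8213637386) (nat_lit 84) (nat_lit 9817280430) (nat_lit 168) (nat_lit 9811668500) (nat_lit 10) (nat_lit 5) (nat_lit 11) (nat_lit 5) (nat_lit 12) (nat_lit 4) (nat_lit 379) (nat_lit 275) (nat_lit 210)) (XT.nd (nat_lit 94) (nat_lit 0) (nat_lit 0) (XT.lf (nat_lit 0) (nat_lit 13550950997) (nat_lit 84) (nat_lit 7174914756) (nat_lit 168) (nat_lit 7877085705) (nat_lit 10) (nat_lit 5) (nat_lit 11) (nat_lit 5) (nat_lit 12) (nat_lit 4) (nat_lit 380) (nat_lit 275) (nat_lit 209)) (XT.lf (nat_lit 0) (nat_lit 19021221904) (nat_lit 84) (nat_lit 4463040475) (nat_lit 168) (nat_lit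 5903285903) (nat_lit 10) (nat_lit 5) (nat_lit 11) (nat_lit 5) (nat_lit 12) (nat_lit 4) (nat_lit 381) (nat_lit 275) (nat_lit 208)))) (XT.nd (nat_lit 94) (nat_lit 252) (nat_lit 0) (XT.lf (nat_lit 0) (nat_lit 24629548970) (nat_lit 84) (nat_lit 1679129834) (nat_lit 168) (nat_lit 3888429305) (nat_lit 10) (nat_lit 5) (nat_lit 11) (nat_lit 5) (nat_lit 12) (nat_lit 4) (nat_lit 382) (nat_lit 275) (nat_lit 207)) (XT.nd (nat_lit 94) (nat_lit 252) (nat_lit 0) (XT.lf (nat_lit 0) (nat_lit 29213447599) (nat_lit 168) (nat_lit 662925706) (nat_lit 0) (nat_lit 1155649536) (nat_lit 10) (nat_lit 5) (nat_lit 12) (nat_lit 4) (nat_lit 10) (nat_lit 4) (nat_lit 383) (nat_lit 275) (nat_lit 206)) (XT.lf (nat_lit 0) (nat_lit 352221298) (nat_lit 252) (nat_lit 27459291427) (nat_lit 84) (nat_lit 4079906212) (nat_lit 7) (nat_lit 5) (nat_lit 10) (nat_lit 5) (nat_lit 8) (nat_lit 4) (nat_lit 384) (nat_lit 275) (nat_lit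 205)))))) (XT.nd (nat_lit 564) (nat_lit 0) (nat_lit 0) (XT.nd (nat_lit 282) (nat_lit 84) (nat_lit 0) (XT.nd (nat_lit 94) (nat_lit 0) (nat_lit 0) (XT.lf (nat_lit 0) (nat_lit 2541118669) (nat_lit 252) (nat_lit 23126982111) (nat_lit 84) (nat_lit 7109165018) (nat_lit 7) (nat_lit 5) (nat_lit 10) (nat_lit 5) (nat_lit 8) (nat_lit 4) (nat_lit 385) (nat_lit 275) (nat_lit 204)) (XT.nd (nat_lit 94) (nat_lit 0) (nat_lit 0) (XT.lf (nat_lit 0) (nat_lit 4780017219) (nat_lit 252) (nat_lit 18689712467) (nat_lit 84) (nat_lit 10221428879) (nat_lit 7) (nat_lit 5) (nat_lit 10) (nat_lit 5) (nat_lit 8) (nat_lit 4) (nat_lit 386) (nat_lit 275) (nat_lit 203)) (XT.lf (nat_lit 0) (nat_lit 7071003836) (nat_lit 252) (nat_lit 14143346496) (nat_lit 84) (nat_lit 13419598750) (nat_lit 7) (nat_lit 5) (nat_lit 10) (nat_lit 5) (nat_lit 8) (nat_lit 4) (nat_lit 387) (nat_lit 275) (nat_lit 202)))) (XT.nd (nat_lit 94) (nat_lit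 84) (nat_lit 0) (XT.lf (nat_lit 0) (nat_lit 9416213959) (nat_lit 252) (nat_lit 9483646510) (nat_lit 84) (nat_lit 16706655662) (nat_lit 7) (nat_lit 5) (nat_lit 10) (nat_lit 5) (nat_lit 8) (nat_lit 4) (nat_lit 388) (nat_lit 275) (nat_lit 201)) (XT.nd (nat_lit 94) (nat_lit 84) (nat_lit 0) (XT.lf (nat_lit 0) (nat_lit 11817833570) (nat_lit 252) (nat_lit 4706269178) (nat_lit 84) (nat_lit 20085663495) (nat_lit 7) (nat_lit 5) (nat_lit 10) (nat_lit 5) (nat_lit 8) (nat_lit 4) (nat_lit 389) (nat_lit 275) (nat_lit 200)) (XT.lf (nat_lit 0) (nat_lit 197211894) (nat_lit 84) (nat_lit 14082845702) (nat_lit 168) (nat_lit 23364516312) (nat_lit 6) (nat_lit 5) (nat_lit 7) (nat_lit 5) (nat_lit 8) (nat_lit 4) (nat_lit 390) (nat_lit 275) (nat_lit 199))))) (XT.nd (nat_lit 282) (nat_lit 0) (nat_lit 0) (XT.nd (nat_lit 94) (nat_lit 0) (nat_lit 0) (XT.lf (nat_lit 0) (nat_lit 5326765883) (nat_lit 84) (nat_lit 11525386460)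 (nat_lit 168) (nat_lit 21858295221) (nat_lit 6) (nat_lit 5) (nat_lit 7) (nat_lit 5) (nat_lit 8) (nat_lit 4) (nat_lit 391) (nat_lit 275) (nat_lit 198)) (XT.nd (nat_lit 94) (nat_lit 0) (nat_lit 0) (XT.lf (nat_lit 0) (nat_lit 10590403524) (nat_lit 84) (nat_lit 8898464999) (nat_lit 168) (nat_lit 20320989244) (nat_lit 6) (nat_lit 5) (nat_lit 7) (nat_lit 5) (nat_lit 8) (nat_lit 4) (nat_lit 392) (nat_lit 275) (nat_lit 197)) (XT.lf (nat_lit 0) (nat_lit 15993031078) (nat_lit 84) (nat_lit 6199632754) (nat_lit 168) (nat_lit 18751165450) (nat_lit 6) (nat_lit 5) (nat_lit 7) (nat_lit 5) (nat_lit 8) (nat_lit 4) (nat_lit 393) (nat_lit 275) (nat_lit 196)))) (XT.nd (nat_lit 94) (nat_lit 0) (nat_lit 0) (XT.lf (nat_lit 0) (nat_lit 21539684360) (nat_lit 84) (nat_lit 3426374130) (nat_lit 168) (nat_lit 17147360599) (nat_lit 6) (nat_lit 5) (nat_lit 7) (nat_lit 5) (nat_lit 8) (nat_lit 4) (nat_lit 394) (nat_lit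 275) (nat_lit 195)) (XT.nd (nat_lit 94) (nat_lit 0) (nat_lit 0) (XT.lf (nat_lit 0) (nat_lit 27235533432) (nat_lit 84) (nat_lit 576104160) (nat_lit 168) (nat_lit 15508079777) (nat_lit 6) (nat_lit 5) (nat_lit 7) (nat_lit 5) (nat_lit 8) (nat_lit 4) (nat_lit 395) (nat_lit 275) (nat_lit 194)) (XT.lf (nat_lit 0) (nat_lit 30755403839) (nat_lit 168) (nat_lit 11501311420) (nat_lit 0) (nat_lit 2306409398) (nat_lit 6) (nat_lit 5) (nat_lit 8) (nat_lit 4) (nat_lit 6) (nat_lit 4) (nat_lit 396) (nat_lit 275) (nat_lit 193))))))))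
noncomputable def xc54 : XT := (XT.nd (nat_lit 46624) (nat_lit 0) (nat_lit 3444) (XT.nd (nat_lit 1128) (nat_lit 84) (nat_lit 0) (XT.nd (nat_lit 564) (nat_lit 84) (nat_lit 0) (XT.nd (nat_lit 282) (nat_lit 0) (nat_lit 0) (XT.nd (nat_lit 94) (nat_lit 84) (nat_lit 0) (XT.lf (nat_lit 0) (nat_lit 33783261476) (nat_lit 168) (nat_lit 6804005806) (nat_lit 0) (nat_lit 5258054689) (nat_lit 6) (nat_lit 5) (nat_lit 8) (nat_lit 4) (nat_lit 6) (nat_lit 4) (nat_lit 397) (nat_lit 275) (nat_lit 192)) (XT.nd (nat_lit 94) (nat_lit 84) (nat_lit 0) (XT.lf (nat_lit 0) (nat_lit 36892317757) (nat_lit 168) (nat_lit 1982173689) (nat_lit 0) (nat_lit 8293190170) (nat_lit 6) (nat_lit 5) (nat_lit 8) (nat_lit 4) (nat_lit 6) (nat_lit 4) (nat_lit 398) (nat_lit 275) (nat_lit 191)) (XT.lf (nat_lit 0) (nat_lit 3029721519) (nat_lit 84) (nat_lit 37085804343) (nat_lit 84) (nat_lit 8414978598) (nat_lit 5) (nat_lit 4) (nat_lit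 6) (nat_lit 5) (nat_lit 6) (nat_lit 4) (nat_lit 399) (nat_lit 275) (nat_lit 190)))) (XT.nd (nat_lit 94) (nat_lit 0) (nat_lit 0) (XT.lf (nat_lit 0) (nat_lit 8218757776) (nat_lit 84) (nat_lit 35228469824) (nat_lit 84) (nat_lit 6488101734) (nat_lit 5) (nat_lit 4) (nat_lit 6) (nat_lit 5) (nat_lit 6) (nat_lit 4) (nat_lit 400) (nat_lit 275) (nat_lit 189)) (XT.nd (nat_lit 94) (nat_lit 0) (nat_lit 0) (XT.lf (nat_lit 0) (nat_lit 13549014251) (nat_lit 84) (nat_lit 33321446488) (nat_lit 84) (nat_lit 4513627045) (nat_lit 5) (nat_lit 4) (nat_lit 6) (nat_lit 5) (nat_lit 6) (nat_lit 4) (nat_lit 401) (nat_lit 275) (nat_lit 188)) (XT.lf (nat_lit 0) (nat_lit 19025459302) (nat_lit 84) (nat_lit 31362956789) (nat_lit 84) (nat_lit 2489714113) (nat_lit 5) (nat_lit 4) (nat_lit 6) (nat_lit 5) (nat_lit 6) (nat_lit 4) (nat_lit 402) (nat_lit 275) (nat_lit 187))))) (XT.nd (nat_lit 282) (nat_lit 0) (nat_lit 0) (XT.nd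 (nat_lit 94) (nat_lit 84) (nat_lit 0) (XT.lf (nat_lit 0) (nat_lit 24653197547) (nat_lit 84) (nat_lit 29351175209) (nat_lit 84) (nat_lit 414476439) (nat_lit 5) (nat_lit 4) (nat_lit 6) (nat_lit 5) (nat_lit 6) (nat_lit 4) (nat_lit 403) (nat_lit 275) (nat_lit 186)) (XT.nd (nat_lit 94) (nat_lit 0) (nat_lit 0) (XT.lf (nat_lit 0) (nat_lit 1679486625) (nat_lit 168) (nat_lit 25587209536) (nat_lit 84) (nat_lit 28740457609) (nat_lit 4) (nat_lit 5) (nat_lit 6) (nat_lit 5) (nat_lit 5) (nat_lit 4) (nat_lit 404) (nat_lit 275) (nat_lit 185)) (XT.lf (nat_lit 0) (nat_lit 3819228951) (nat_lit 168) (nat_lit 21301090353) (nat_lit 84) (nat_lit 32524588234) (nat_lit 4) (nat_lit 5) (nat_lit 6) (nat_lit 5) (nat_lit 5) (nat_lit 4) (nat_lit 405) (nat_lit 275) (nat_lit 184)))) (XT.nd (nat_lit 94) (nat_lit 0) (nat_lit 0) (XT.lf (nat_lit 0) (nat_lit 6015095779) (nat_lit 168) (nat_lit 16899187328) (nat_lit 84) (nat_lit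 36419481410) (nat_lit 4) (nat_lit 5) (nat_lit 6) (nat_lit 5) (nat_lit 5) (nat_lit 4) (nat_lit 406) (nat_lit 275) (nat_lit 183)) (XT.nd (nat_lit 94) (nat_lit 0) (nat_lit 0) (XT.lf (nat_lit 0) (nat_lit 8269133887) (nat_lit 168) (nat_lit 12377397428) (nat_lit 84) (nat_lit 40428767585) (nat_lit 4) (nat_lit 5) (nat_lit 6) (nat_lit 5) (nat_lit 5) (nat_lit 4) (nat_lit 407) (nat_lit 275) (nat_lit 182)) (XT.lf (nat_lit 0) (nat_lit 10583444274) (nat_lit 168) (nat_lit 7731505871) (nat_lit 84) (nat_lit 44556183834) (nat_lit 4) (nat_lit 5) (nat_lit 6) (nat_lit 5) (nat_lit 5) (nat_lit 4) (nat_lit 408) (nat_lit 275) (nat_lit 181)))))) (XT.nd (nat_lit 564) (nat_lit 0) (nat_lit 0) (XT.nd (nat_lit 282) (nat_lit 0) (nat_lit 0) (XT.nd (nat_lit 94) (nat_lit 84) (nat_lit 0) (XT.lf (nat_lit 0) (nat_lit 12960184120) (nat_lit 168) (nat_lit 2957182199) (nat_lit 84) (nat_lit 48805577342) (nat_lit 4) (nat_lit 5)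 (nat_lit 6) (nat_lit 5) (nat_lit 5) (nat_lit 4) (nat_lit 409) (nat_lit 275) (nat_lit 180)) (XT.nd (nat_lit 94) (nat_lit 0) (nat_lit 0) (XT.lf (nat_lit 0) (nat_lit 1990120246) (nat_lit 84) (nat_lit 13431190789) (nat_lit 168) (nat_lit 51210530982) (nat_lit 3) (nat_lit 5) (nat_lit 4) (nat_lit 5) (nat_lit 5) (nat_lit 4) (nat_lit 410) (nat_lit 275) (nat_lit 179)) (XT.lf (nat_lit 0) (nat_lit 7138511120) (nat_lit 84) (nat_lit 10842177721) (nat_lit 168) (nat_lit 50618560833) (nat_lit 3) (nat_lit 5) (nat_lit 4) (nat_lit 5) (nat_lit 5) (nat_lit 4) (nat_lit 411) (nat_lit 275) (nat_lit 178)))) (XT.nd (nat_lit 94) (nat_lit 0) (nat_lit 0) (XT.lf (nat_lit 0) (nat_lit 12431983534) (nat_lit 84) (nat_lit 8178780800) (nat_lit 168) (nat_lit 50017164236) (nat_lit 3) (nat_lit 5) (nat_lit 4) (nat_lit 5) (nat_lit 5) (nat_lit 4) (nat_lit 412) (nat_lit 275) (nat_lit 177)) (XT.nd (nat_lit 94) (nat_lit 0) (nat_lit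 0) (XT.lf (nat_lit 0) (nat_lit 17875471556) (nat_lit 84) (nat_lit 5438517462) (nat_lit 168) (nat_lit 49405780625) (nat_lit 3) (nat_lit 5) (nat_lit 4) (nat_lit 5) (nat_lit 5) (nat_lit 4) (nat_lit 413) (nat_lit 275) (nat_lit 176)) (XT.lf (nat_lit 0) (nat_lit 23474049088) (nat_lit 84) (nat_lit 2618833495) (nat_lit 168) (nat_lit 48783840126) (nat_lit 3) (nat_lit 5) (nat_lit 4) (nat_lit 5) (nat_lit 5) (nat_lit 4) (nat_lit 414) (nat_lit 275) (nat_lit 175))))) (XT.nd (nat_lit 44650) (nat_lit 0) (nat_lit 9156) (XT.nd (nat_lit 94) (nat_lit 0) (nat_lit 0) (XT.lf (nat_lit 0) (nat_lit 28952841644) (nat_lit 168) (nat_lit 47870670079) (nat_lit 0) (nat_lit 277199551) (nat_lit 3) (nat_lit 5) (nat_lit 5) (nat_lit 4) (nat_lit 3) (nat_lit 4) (nat_lit 415) (nat_lit 275) (nat_lit 174)) (XT.nd (nat_lit 44462) (nat_lit 0) (nat_lit 11424) (XT.lf (nat_lit 0) (nat_lit 31920542890) (nat_lit 168) (nat_lit 44269006171)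 (nat_lit 0) (nat_lit 3203514933) (nat_lit 3) (nat_lit 5) (nat_lit 5) (nat_lit 4) (nat_lit 3) (nat_lit 4) (nat_lit 416) (nat_lit 275) (nat_lit 173)) (XT.lf (nat_lit 0) (nat_lit 3411112046) (nat_lit 924) (nat_lit 99040439) (nat_lit 924) (nat_lit 99040439) (nat_lit 139) (nat_lit 4) (nat_lit 150) (nat_lit 5) (nat_lit 150) (nat_lit 4) (nat_lit 312) (nat_lit 276) (nat_lit 276)))) (XT.nd (nat_lit 94) (nat_lit 1176) (nat_lit 0) (XT.lf (nat_lit 0) (nat_lit 2588667302) (nat_lit 1092) (nat_lit 3583137626) (nat_lit 0) (nat_lit 1115961968) (nat_lit 126) (nat_lit 5) (nat_lit 139) (nat_lit 4) (nat_lit 126) (nat_lit 4) (nat_lit 313) (nat_lit 276) (nat_lit 275)) (XT.nd (nat_lit 94) (nat_lit 84) (nat_lit 0) (XT.lf (nat_lit 0) (nat_lit 502607239) (nat_lit 1092) (nat_lit 4880247776) (nat_lit 1092) (nat_lit 1979118257) (nat_lit 113) (nat_lit 4) (nat_lit 126) (nat_lit 5) (nat_lit 126) (nat_lit 4) (nat_lit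 314) (nat_lit 276) (nat_lit 274)) (XT.lf (nat_lit 0) (nat_lit 760807045) (nat_lit 1176) (nat_lit 2741404884) (nat_lit 84) (nat_lit 3937887309) (nat_lit 112) (nat_lit 5) (nat_lit 126) (nat_lit 5) (nat_lit 113) (nat_lit 4) (nat_lit 315) (nat_lit 276) (nat_lit 273))))))) (XT.nd (nat_lit 1128) (nat_lit 2016) (nat_lit 0) (XT.nd (nat_lit 564) (nat_lit 1932) (nat_lit 0) (XT.nd (nat_lit 282) (nat_lit 588) (nat_lit 0) (XT.nd (nat_lit 94) (nat_lit 672) (nat_lit 0) (XT.lf (nat_lit 0) (nat_lit 1428873777) (nat_lit 504) (nat_lit 2046898721) (nat_lit 588) (nat_lit 4046760403) (nat_lit 106) (nat_lit 5) (nat_lit 112) (nat_lit 5) (nat_lit 113) (nat_lit 4) (nat_lit 316) (nat_lit 276) (nat_lit 272)) (XT.nd (nat_lit 94) (nat_lit 672) (nat_lit 0) (XT.lf (nat_lit 0) (nat_lit 5703510510) (nat_lit 504) (nat_lit 518715550) (nat_lit 588) (nat_lit 1387298348) (nat_lit 106) (nat_lit 5) (nat_lit 112) (nat_lit 5)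 (nat_lit 113) (nat_lit 4) (nat_lit 317) (nat_lit 276) (nat_lit 271)) (XT.lf (nat_lit 0) (nat_lit 1281589188) (nat_lit 672) (nat_lit 5348644501) (nat_lit 84) (nat_lit 1070327446) (nat_lit 98) (nat_lit 5) (nat_lit 106) (nat_lit 5) (nat_lit 99) (nat_lit 4) (nat_lit 318) (nat_lit 276) (nat_lit 270)))) (XT.nd (nat_lit 94) (nat_lit 588) (nat_lit 0) (XT.lf (nat_lit 0) (nat_lit 3951357094) (nat_lit 672) (nat_lit 1115683631) (nat_lit 84) (nat_lit 2728920706) (nat_lit 98) (nat_lit 5) (nat_lit 106) (nat_lit 5) (nat_lit 99) (nat_lit 4) (nat_lit 319) (nat_lit 276) (nat_lit 269)) (XT.nd (nat_lit 94) (nat_lit 84) (nat_lit 0) (XT.lf (nat_lit 0) (nat_lit 3231717266) (nat_lit 504) (nat_lit 3428146850) (nat_lit 588) (nat_lit 1236146734) (nat_lit 92) (nat_lit 5) (nat_lit 98) (nat_lit 5) (nat_lit 99) (nat_lit 4) (nat_lit 320) (nat_lit 276) (nat_lit 268)) (XT.lf (nat_lit 0) (nat_lit 1359986430) (nat_lit 588)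 (nat_lit 358724220) (nat_lit 84) (nat_lit 6282293039) (nat_lit 91) (nat_lit 5) (nat_lit 98) (nat_lit 5) (nat_lit 92) (nat_lit 5) (nat_lit 321) (nat_lit 276) (nat_lit 267))))) (XT.nd (nat_lit 282) (nat_lit 924) (nat_lit 0) (XT.nd (nat_lit 94) (nat_lit 504) (nat_lit 0) (XT.lf (nat_lit 0) (nat_lit 3978797671) (nat_lit 588) (nat_lit 4041861662) (nat_lit 84) (nat_lit 89494262) (nat_lit 85) (nat_lit 5) (nat_lit 92) (nat_lit 5) (nat_lit 86) (nat_lit 4) (nat_lit 322) (nat_lit 276) (nat_lit 266)) (XT.nd (nat_lit 94) (nat_lit 84) (nat_lit 0) (XT.lf (nat_lit 0) (nat_lit 324433876) (nat_lit 420) (nat_lit 6306881244) (nat_lit 504) (nat_lit 1593133202) (nat_lit 80) (nat_lit 5) (nat_lit 85) (nat_lit 5) (nat_lit 86) (nat_lit 4) (nat_lit 323) (nat_lit 276) (nat_lit 265)) (XT.lf (nat_lit 0) (nat_lit 974074159) (nat_lit 504) (nat_lit 3522776820) (nat_lit 84) (nat_lit 3846293902) (nat_lit 79) (nat_lit 5)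 (nat_lit 85) (nat_lit 5) (nat_lit 80) (nat_lit 5) (nat_lit 324) (nat_lit 276) (nat_lit 264)))) (XT.nd (nat_lit 94) (nat_lit 504) (nat_lit 0) (XT.lf (nat_lit 0) (nat_lit 911744915) (nat_lit 420) (nat_lit 2615533484) (nat_lit 504) (nat_lit 4939876880) (nat_lit 74) (nat_lit 5) (nat_lit 79) (nat_lit 5) (nat_lit 80) (nat_lit 5) (nat_lit 325) (nat_lit 276) (nat_lit 263)) (XT.nd (nat_lit 94) (nat_lit 504) (nat_lit 0) (XT.lf (nat_lit 0) (nat_lit 5478746809) (nat_lit 420) (nat_lit 649418193) (nat_lit 504) (nat_lit 2468076597) (nat_lit 74) (nat_lit 5) (nat_lit 79) (nat_lit 5) (nat_lit 80) (nat_lit 5) (nat_lit 326) (nat_lit 276) (nat_lit 262)) (XT.lf (nat_lit 0) (nat_lit 39278927) (nat_lit 504) (nat_lit 7338250353) (nat_lit 84) (nat_lit 1353239562) (nat_lit 68) (nat_lit 5) (nat_lit 74) (nat_lit 5) (nat_lit 69) (nat_lit 5) (nat_lit 327) (nat_lit 276) (nat_lit 261)))))) (XT.nd (nat_lit 564) (nat_lit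 840) (nat_lit 0) (XT.nd (nat_lit 282) (nat_lit 756) (nat_lit 0) (XT.nd (nat_lit 94) (nat_lit 420) (nat_lit 0) (XT.lf (nat_lit 0) (nat_lit 2546625319) (nat_lit 504) (nat_lit 2872495327) (nat_lit 84) (nat_lit 3450617523) (nat_lit 68) (nat_lit 5) (nat_lit 74) (nat_lit 5) (nat_lit 69) (nat_lit 5) (nat_lit 328) (nat_lit 276) (nat_lit 260)) (XT.nd (nat_lit 94) (nat_lit 0) (nat_lit 0) (XT.lf (nat_lit 0) (nat_lit 1687866215) (nat_lit 420) (nat_lit 3396576609) (nat_lit 504) (nat_lit 3930264357) (nat_lit 63) (nat_lit 5) (nat_lit 68) (nat_lit 5) (nat_lit 69) (nat_lit 5) (nat_lit 329) (nat_lit 276) (nat_lit 259)) (XT.lf (nat_lit 0) (nat_lit 6373443772) (nat_lit 420) (nat_lit 1294631402) (nat_lit 504) (nat_lit 1497333507) (nat_lit 63) (nat_lit 5) (nat_lit 68) (nat_lit 5) (nat_lit 69) (nat_lit 5) (nat_lit 330) (nat_lit 276) (nat_lit 258)))) (XT.nd (nat_lit 94) (nat_lit 336) (nat_lit 0) (XT.lf (nat_lit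 0) (nat_lit 955861275) (nat_lit 420) (nat_lit 7496622689) (nat_lit 84) (nat_lit 869272295) (nat_lit 58) (nat_lit 5) (nat_lit 63) (nat_lit 5) (nat_lit 59) (nat_lit 5) (nat_lit 331) (nat_lit 276) (nat_lit 257)) (XT.nd (nat_lit 94) (nat_lit 336) (nat_lit 0) (XT.lf (nat_lit 0) (nat_lit 3435862964) (nat_lit 420) (nat_lit 2943724741) (nat_lit 84) (nat_lit 3103651099) (nat_lit 58) (nat_lit 5) (nat_lit 63) (nat_lit 5) (nat_lit 59) (nat_lit 5) (nat_lit 332) (nat_lit 276) (nat_lit 256)) (XT.lf (nat_lit 0) (nat_lit 1709711872) (nat_lit 336) (nat_lit 4241001659) (nat_lit 420) (nat_lit 3700511335) (nat_lit 54) (nat_lit 5) (nat_lit 58) (nat_lit 5) (nat_lit 59) (nat_lit 5) (nat_lit 333) (nat_lit 276) (nat_lit 255))))) (XT.nd (nat_lit 282) (nat_lit 420) (nat_lit 0) (XT.nd (nat_lit 94) (nat_lit 420) (nat_lit 0) (XT.lf (nat_lit 0) (nat_lit 6495522178) (nat_lit 336) (nat_lit 2020773816) (nat_lit 420) (nat_lit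 1309155323) (nat_lit 54) (nat_lit 5) (nat_lit 58) (nat_lit 5) (nat_lit 59) (nat_lit 5) (nat_lit 334) (nat_lit 276) (nat_lit 254)) (XT.nd (nat_lit 94) (nat_lit 0) (nat_lit 0) (XT.lf (nat_lit 0) (nat_lit 1092386592) (nat_lit 420) (nat_lit 8641713456) (nat_lit 84) (nat_lit 272060809) (nat_lit 49) (nat_lit 5) (nat_lit 54) (nat_lit 5) (nat_lit 50) (nat_lit 5) (nat_lit 335) (nat_lit 276) (nat_lit 253)) (XT.lf (nat_lit 0) (nat_lit 3540822863) (nat_lit 420) (nat_lit 4025267616) (nat_lit 84) (nat_lit 2626150194) (nat_lit 49) (nat_lit 5) (nat_lit 54) (nat_lit 5) (nat_lit 50) (nat_lit 5) (nat_lit 336) (nat_lit 276) (nat_lit 252)))) (XT.nd (nat_lit 94) (nat_lit 84) (nat_lit 0) (XT.lf (nat_lit 0) (nat_lit 675737524) (nat_lit 336) (nat_lit 5341674455) (nat_lit 420) (nat_lit 4368324235) (nat_lit 45) (nat_lit 5) (nat_lit 49) (nat_lit 5) (nat_lit 50) (nat_lit 5) (nat_lit 337) (nat_lit 276) (nat_lit 251))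 (XT.nd (nat_lit 94) (nat_lit 84) (nat_lit 0) (XT.lf (nat_lit 0) (nat_lit 5536372865) (nat_lit 336) (nat_lit 3022894576) (nat_lit 420) (nat_lit 2026481444) (nat_lit 45) (nat_lit 5) (nat_lit 49) (nat_lit 5) (nat_lit 50) (nat_lit 5) (nat_lit 338) (nat_lit 276) (nat_lit 250)) (XT.lf (nat_lit 0) (nat_lit 327542913) (nat_lit 420) (nat_lit 318643244) (nat_lit 84) (nat_lit 10147439479) (nat_lit 44) (nat_lit 5) (nat_lit 49) (nat_lit 5) (nat_lit 45) (nat_lit 5) (nat_lit 339) (nat_lit 276) (nat_lit 249))))))))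
noncomputable def xc55 : XT := (XT.nd (nat_lit 2256) (nat_lit 840) (nat_lit 0) (XT.nd (nat_lit 1128) (nat_lit 924) (nat_lit 0) (XT.nd (nat_lit 564) (nat_lit 504) (nat_lit 0) (XT.nd (nat_lit 282) (nat_lit 336) (nat_lit 0) (XT.nd (nat_lit 94) (nat_lit 252) (nat_lit 0) (XT.lf (nat_lit 0) (nat_lit 2725080808) (nat_lit 336) (nat_lit 6464510520) (nat_lit 84) (nat_lit 1817468928) (nat_lit 41) (nat_lit 5) (nat_lit 45) (nat_lit 5) (nat_lit 42) (nat_lit 5) (nat_lit 340) (nat_lit 276) (nat_lit 248)) (XT.nd (nat_lit 94) (nat_lit 252) (nat_lit 0) (XT.lf (nat_lit 0) (nat_lit 5156582020) (nat_lit 336) (nat_lit 1741688245) (nat_lit 84) (nat_lit 4330235651) (nat_lit 41) (nat_lit 5) (nat_lit 45) (nat_lit 5) (nat_lit 42) (nat_lit 5) (nat_lit 341) (nat_lit 276) (nat_lit 247)) (XT.lf (nat_lit 0) (nat_lit 3123319309) (nat_lit 252) (nat_lit 4522308150) (nat_lit 336) (nat_lit 3811880819) (nat_lit 38) (nat_lit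 5) (nat_lit 41) (nat_lit 5) (nat_lit 42) (nat_lit 5) (nat_lit 342) (nat_lit 276) (nat_lit 246)))) (XT.nd (nat_lit 94) (nat_lit 336) (nat_lit 0) (XT.lf (nat_lit 0) (nat_lit 8109594675) (nat_lit 252) (nat_lit 2072410663) (nat_lit 336) (nat_lit 1512663944) (nat_lit 38) (nat_lit 5) (nat_lit 41) (nat_lit 5) (nat_lit 42) (nat_lit 5) (nat_lit 343) (nat_lit 276) (nat_lit 245)) (XT.nd (nat_lit 94) (nat_lit 0) (nat_lit 0) (XT.lf (nat_lit 0) (nat_lit 810432838) (nat_lit 336) (nat_lit 10682026952) (nat_lit 84) (nat_lit 447519082) (nat_lit 34) (nat_lit 5) (nat_lit 38) (nat_lit 5) (nat_lit 35) (nat_lit 5) (nat_lit 344) (nat_lit 276) (nat_lit 244)) (XT.lf (nat_lit 0) (nat_lit 3186545658) (nat_lit 336) (nat_lit 5967950991) (nat_lit 84) (nat_lit 3037654836) (nat_lit 34) (nat_lit 5) (nat_lit 38) (nat_lit 5) (nat_lit 35) (nat_lit 5) (nat_lit 345) (nat_lit 276) (nat_lit 243))))) (XT.nd (nat_lit 282) (nat_lit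 252) (nat_lit 0) (XT.nd (nat_lit 94) (nat_lit 252) (nat_lit 0) (XT.lf (nat_lit 0) (nat_lit 5591140658) (nat_lit 336) (nat_lit 1172028044) (nat_lit 84) (nat_lit 5690492637) (nat_lit 34) (nat_lit 5) (nat_lit 38) (nat_lit 5) (nat_lit 35) (nat_lit 5) (nat_lit 346) (nat_lit 276) (nat_lit 242)) (XT.nd (nat_lit 94) (nat_lit 0) (nat_lit 0) (XT.lf (nat_lit 0) (nat_lit 3786501763) (nat_lit 252) (nat_lit 4277519976) (nat_lit 336) (nat_lit 4659566012) (nat_lit 31) (nat_lit 5) (nat_lit 34) (nat_lit 5) (nat_lit 35) (nat_lit 5) (nat_lit 347) (nat_lit 276) (nat_lit 241)) (XT.lf (nat_lit 0) (nat_lit 8861867352) (nat_lit 252) (nat_lit 1720814643) (nat_lit 336) (nat_lit 2420269492) (nat_lit 31) (nat_lit 5) (nat_lit 34) (nat_lit 5) (nat_lit 35) (nat_lit 5) (nat_lit 348) (nat_lit 276) (nat_lit 240)))) (XT.nd (nat_lit 94) (nat_lit 84) (nat_lit 0) (XT.lf (nat_lit 0) (nat_lit 748500719) (nat_lit 168) (nat_lit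 12405427164) (nat_lit 252) (nat_lit 137946841) (nat_lit 29) (nat_lit 5) (nat_lit 31) (nat_lit 5) (nat_lit 32) (nat_lit 4) (nat_lit 349) (nat_lit 276) (nat_lit 239)) (XT.nd (nat_lit 94) (nat_lit 0) (nat_lit 0) (XT.lf (nat_lit 0) (nat_lit 2189904396) (nat_lit 252) (nat_lit 7812419394) (nat_lit 84) (nat_lit 3586250478) (nat_lit 28) (nat_lit 5) (nat_lit 31) (nat_lit 5) (nat_lit 29) (nat_lit 5) (nat_lit 350) (nat_lit 276) (nat_lit 238)) (XT.lf (nat_lit 0) (nat_lit 4546452259) (nat_lit 252) (nat_lit 2995808661) (nat_lit 84) (nat_lit 6353524890) (nat_lit 28) (nat_lit 5) (nat_lit 31) (nat_lit 5) (nat_lit 29) (nat_lit 5) (nat_lit 351) (nat_lit 276) (nat_lit 237)))))) (XT.nd (nat_lit 564) (nat_lit 420) (nat_lit 0) (XT.nd (nat_lit 282) (nat_lit 252) (nat_lit 0) (XT.nd (nat_lit 94) (nat_lit 0) (nat_lit 0) (XT.lf (nat_lit 0) (nat_lit 1951637371) (nat_lit 252) (nat_lit 5004395732) (nat_lit 336) (nat_lit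 7257204849) (nat_lit 25) (nat_lit 5) (nat_lit 28) (nat_lit 5) (nat_lit 29) (nat_lit 5) (nat_lit 352) (nat_lit 276) (nat_lit 236)) (XT.nd (nat_lit 94) (nat_lit 0) (nat_lit 0) (XT.lf (nat_lit 0) (nat_lit 7058748204) (nat_lit 252) (nat_lit 2374068861) (nat_lit 336) (nat_lit 5108039877) (nat_lit 25) (nat_lit 5) (nat_lit 28) (nat_lit 5) (nat_lit 29) (nat_lit 5) (nat_lit 353) (nat_lit 276) (nat_lit 235)) (XT.lf (nat_lit 0) (nat_lit 11951956360) (nat_lit 336) (nat_lit 2614377614) (nat_lit 84) (nat_lit 313456033) (nat_lit 25) (nat_lit 5) (nat_lit 29) (nat_lit 5) (nat_lit 26) (nat_lit 4) (nat_lit 354) (nat_lit 276) (nat_lit 234)))) (XT.nd (nat_lit 94) (nat_lit 84) (nat_lit 0) (XT.lf (nat_lit 0) (nat_lit 2372907936) (nat_lit 168) (nat_lit 12187461587) (nat_lit 252) (nat_lit 668601857) (nat_lit 23) (nat_lit 5) (nat_lit 25) (nat_lit 5) (nat_lit 26) (nat_lit 4) (nat_lit 355) (nat_lit 276) (nat_lit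 233)) (XT.nd (nat_lit 94) (nat_lit 0) (nat_lit 0) (XT.lf (nat_lit 0) (nat_lit 1618245361) (nat_lit 252) (nat_lit 8089813036) (nat_lit 84) (nat_lit 5880768881) (nat_lit 22) (nat_lit 5) (nat_lit 25) (nat_lit 5) (nat_lit 23) (nat_lit 5) (nat_lit 356) (nat_lit 276) (nat_lit 232)) (XT.lf (nat_lit 0) (nat_lit 3926664911) (nat_lit 252) (nat_lit 3236140075) (nat_lit 84) (nat_lit 8798000396) (nat_lit 22) (nat_lit 5) (nat_lit 25) (nat_lit 5) (nat_lit 23) (nat_lit 5) (nat_lit 357) (nat_lit 276) (nat_lit 231))))) (XT.nd (nat_lit 282) (nat_lit 252) (nat_lit 0) (XT.nd (nat_lit 94) (nat_lit 0) (nat_lit 0) (XT.lf (nat_lit 0) (nat_lit 1751398971) (nat_lit 168) (nat_lit 4538254443) (nat_lit 252) (nat_lit 10055266015) (nat_lit 20) (nat_lit 5) (nat_lit 22) (nat_lit 5) (nat_lit 23) (nat_lit 5) (nat_lit 358) (nat_lit 276) (nat_lit 230)) (XT.nd (nat_lit 94) (nat_lit 0) (nat_lit 0) (XT.lf (nat_lit 0) (nat_lit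 6910796918) (nat_lit 168) (nat_lit 1815033987) (nat_lit 252) (nat_lit 8015187607) (nat_lit 20) (nat_lit 5) (nat_lit 22) (nat_lit 5) (nat_lit 23) (nat_lit 5) (nat_lit 359) (nat_lit 276) (nat_lit 229)) (XT.lf (nat_lit 0) (nat_lit 11214383379) (nat_lit 252) (nat_lit 4979844535) (nat_lit 84) (nat_lit 955959552) (nat_lit 20) (nat_lit 5) (nat_lit 23) (nat_lit 5) (nat_lit 21) (nat_lit 4) (nat_lit 360) (nat_lit 276) (nat_lit 228)))) (XT.nd (nat_lit 94) (nat_lit 252) (nat_lit 0) (XT.lf (nat_lit 0) (nat_lit 13766643246) (nat_lit 252) (nat_lit 46881043) (nat_lit 84) (nat_lit 3759003991) (nat_lit 20) (nat_lit 5) (nat_lit 23) (nat_lit 5) (nat_lit 21) (nat_lit 4) (nat_lit 361) (nat_lit 276) (nat_lit 227)) (XT.nd (nat_lit 94) (nat_lit 84) (nat_lit 0) (XT.lf (nat_lit 0) (nat_lit 5093903077) (nat_lit 168) (nat_lit 11323613192) (nat_lit 252) (nat_lit 1589910022) (nat_lit 18) (nat_lit 5) (nat_lit 20) (nat_lit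 5) (nat_lit 21) (nat_lit 4) (nat_lit 362) (nat_lit 276) (nat_lit 226)) (XT.lf (nat_lit 0) (nat_lit 650304004) (nat_lit 252) (nat_lit 8115592801) (nat_lit 84) (nat_lit 9690704723) (nat_lit 17) (nat_lit 5) (nat_lit 20) (nat_lit 5) (nat_lit 18) (nat_lit 5) (nat_lit 363) (nat_lit 276) (nat_lit 225))))))) (XT.nd (nat_lit 1128) (nat_lit 336) (nat_lit 0) (XT.nd (nat_lit 564) (nat_lit 252) (nat_lit 0) (XT.nd (nat_lit 282) (nat_lit 84) (nat_lit 0) (XT.nd (nat_lit 94) (nat_lit 168) (nat_lit 0) (XT.lf (nat_lit 0) (nat_lit 2896916490) (nat_lit 252) (nat_lit 3231695904) (nat_lit 84) (nat_lit 12791578281) (nat_lit 17) (nat_lit 5) (nat_lit 20) (nat_lit 5) (nat_lit 18) (nat_lit 5) (nat_lit 364) (nat_lit 276) (nat_lit 224)) (XT.nd (nat_lit 94) (nat_lit 0) (nat_lit 0) (XT.lf (nat_lit 0) (nat_lit 1794650085) (nat_lit 168) (nat_lit 3407207721) (nat_lit 252) (nat_lit 14196705073) (nat_lit 15) (nat_lit 5)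 (nat_lit 17) (nat_lit 5) (nat_lit 18) (nat_lit 5) (nat_lit 365) (nat_lit 276) (nat_lit 223)) (XT.lf (nat_lit 0) (nat_lit 7000669841) (nat_lit 168) (nat_lit 582628024) (nat_lit 252) (nat_lit 12308369506) (nat_lit 15) (nat_lit 5) (nat_lit 17) (nat_lit 5) (nat_lit 18) (nat_lit 5) (nat_lit 366) (nat_lit 276) (nat_lit 222)))) (XT.nd (nat_lit 94) (nat_lit 84) (nat_lit 0) (XT.lf (nat_lit 0) (nat_lit 10033693836) (nat_lit 252) (nat_lit 8099167847) (nat_lit 84) (nat_lit 2267404731) (nat_lit 15) (nat_lit 5) (nat_lit 18) (nat_lit 5) (nat_lit 16) (nat_lit 4) (nat_lit 367) (nat_lit 276) (nat_lit 221)) (XT.nd (nat_lit 94) (nat_lit 84) (nat_lit 0) (XT.lf (nat_lit 0) (nat_lit 12538874435) (nat_lit 252) (nat_lit 3207501949) (nat_lit 84) (nat_lit 5178967808) (nat_lit 15) (nat_lit 5) (nat_lit 18) (nat_lit 5) (nat_lit 16) (nat_lit 4) (nat_lit 368) (nat_lit 276) (nat_lit 220)) (XT.lf (nat_lit 0) (nat_lit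 1831234750) (nat_lit 84) (nat_lit 13282326336) (nat_lit 168) (nat_lit 6353445069) (nat_lit 14) (nat_lit 5) (nat_lit 15) (nat_lit 5) (nat_lit 16) (nat_lit 4) (nat_lit 369) (nat_lit 276) (nat_lit 219))))) (XT.nd (nat_lit 282) (nat_lit 168) (nat_lit 0) (XT.nd (nat_lit 94) (nat_lit 84) (nat_lit 0) (XT.lf (nat_lit 0) (nat_lit 7053123311) (nat_lit 84) (nat_lit 10722483055) (nat_lit 168) (nat_lit 4249671789) (nat_lit 14) (nat_lit 5) (nat_lit 15) (nat_lit 5) (nat_lit 16) (nat_lit 4) (nat_lit 370) (nat_lit 276) (nat_lit 218)) (XT.nd (nat_lit 94) (nat_lit 84) (nat_lit 0) (XT.lf (nat_lit 0) (nat_lit 12397078261) (nat_lit 84) (nat_lit 8097940241) (nat_lit 168) (nat_lit 2106668725) (nat_lit 14) (nat_lit 5) (nat_lit 15) (nat_lit 5) (nat_lit 16) (nat_lit 4) (nat_lit 371) (nat_lit 276) (nat_lit 217)) (XT.lf (nat_lit 0) (nat_lit 75998934) (nat_lit 168) (nat_lit 5329459337) (nat_lit 84) (nat_lit 17791288517)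 (nat_lit 13) (nat_lit 5) (nat_lit 15) (nat_lit 5) (nat_lit 14) (nat_lit 5) (nat_lit 372) (nat_lit 276) (nat_lit 216)))) (XT.nd (nat_lit 94) (nat_lit 168) (nat_lit 0) (XT.lf (nat_lit 0) (nat_lit 2258613477) (nat_lit 168) (nat_lit 362719262) (nat_lit 84) (nat_lit 21189041482) (nat_lit 13) (nat_lit 5) (nat_lit 15) (nat_lit 5) (nat_lit 14) (nat_lit 5) (nat_lit 373) (nat_lit 276) (nat_lit 215)) (XT.nd (nat_lit 94) (nat_lit 0) (nat_lit 0) (XT.lf (nat_lit 0) (nat_lit 4536276199) (nat_lit 252) (nat_lit 19626917018) (nat_lit 84) (nat_lit 279026834) (nat_lit 11) (nat_lit 5) (nat_lit 14) (nat_lit 5) (nat_lit 12) (nat_lit 4) (nat_lit 374) (nat_lit 276) (nat_lit 214)) (XT.lf (nat_lit 0) (nat_lit 6892148299) (nat_lit 252) (nat_lit 14995947261) (nat_lit 84) (nat_lit 3205365479) (nat_lit 11) (nat_lit 5) (nat_lit 14) (nat_lit 5) (nat_lit 12) (nat_lit 4) (nat_lit 375) (nat_lit 276) (nat_lit 213))))))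 (XT.nd (nat_lit 564) (nat_lit 252) (nat_lit 0) (XT.nd (nat_lit 282) (nat_lit 84) (nat_lit 0) (XT.nd (nat_lit 94) (nat_lit 0) (nat_lit 0) (XT.lf (nat_lit 0) (nat_lit 9298711986) (nat_lit 252) (nat_lit 10257398254) (nat_lit 84) (nat_lit 6209515098) (nat_lit 11) (nat_lit 5) (nat_lit 14) (nat_lit 5) (nat_lit 12) (nat_lit 4) (nat_lit 376) (nat_lit 276) (nat_lit 212)) (XT.nd (nat_lit 94) (nat_lit 0) (nat_lit 0) (XT.lf (nat_lit 0) (nat_lit 11758210431) (nat_lit 252) (nat_lit 5406853170) (nat_lit 84) (nat_lit 9294275874) (nat_lit 11) (nat_lit 5) (nat_lit 14) (nat_lit 5) (nat_lit 12) (nat_lit 4) (nat_lit 377) (nat_lit 276) (nat_lit 211)) (XT.lf (nat_lit 0) (nat_lit 14272936143) (nat_lit 252) (nat_lit 439790795) (nat_lit 84) (nat_lit 12462523125) (nat_lit 11) (nat_lit 5) (nat_lit 14) (nat_lit 5) (nat_lit 12) (nat_lit 4) (nat_lit 378) (nat_lit 276) (nat_lit 210)))) (XT.nd (nat_lit 94) (nat_lit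 0) (nat_lit 0) (XT.lf (nat_lit 0) (nat_lit 4743999715) (nat_lit 84) (nat_lit 12148294458) (nat_lit 168) (nat_lit 11020271339) (nat_lit 10) (nat_lit 5) (nat_lit 11) (nat_lit 5) (nat_lit 12) (nat_lit 4) (nat_lit 379) (nat_lit 276) (nat_lit 209)) (XT.nd (nat_lit 94) (nat_lit 0) (nat_lit 0) (XT.lf (nat_lit 0) (nat_lit 10065311639) (nat_lit 84) (nat_lit 9512036480) (nat_lit 168) (nat_lit 9095907678) (nat_lit 10) (nat_lit 5) (nat_lit 11) (nat_lit 5) (nat_lit 12) (nat_lit 4) (nat_lit 380) (nat_lit 276) (nat_lit 208)) (XT.lf (nat_lit 0) (nat_lit 15520061995) (nat_lit 84) (nat_lit 6806086247) (nat_lit 168) (nat_lit 7132019740) (nat_lit 10) (nat_lit 5) (nat_lit 11) (nat_lit 5) (nat_lit 12) (nat_lit 4) (nat_lit 381) (nat_lit 276) (nat_lit 207))))) (XT.nd (nat_lit 282) (nat_lit 84) (nat_lit 0) (XT.nd (nat_lit 94) (nat_lit 168) (nat_lit 0) (XT.lf (nat_lit 0) (nat_lit 21113335182) (nat_lit 84) (nat_lit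 4027921532) (nat_lit 168) (nat_lit 5126776979) (nat_lit 10) (nat_lit 5) (nat_lit 11) (nat_lit 5) (nat_lit 12) (nat_lit 4) (nat_lit 382) (nat_lit 276) (nat_lit 206)) (XT.nd (nat_lit 94) (nat_lit 168) (nat_lit 0) (XT.lf (nat_lit 0) (nat_lit 26850344716) (nat_lit 84) (nat_lit 1174952794) (nat_lit 168) (nat_lit 3078310296) (nat_lit 10) (nat_lit 5) (nat_lit 11) (nat_lit 5) (nat_lit 12) (nat_lit 4) (nat_lit 383) (nat_lit 276) (nat_lit 205)) (XT.lf (nat_lit 0) (nat_lit 768844865) (nat_lit 168) (nat_lit 30237155601) (nat_lit 168) (nat_lit 958892409) (nat_lit 8) (nat_lit 4) (nat_lit 10) (nat_lit 5) (nat_lit 10) (nat_lit 4) (nat_lit 384) (nat_lit 276) (nat_lit 204)))) (XT.nd (nat_lit 94) (nat_lit 0) (nat_lit 0) (XT.lf (nat_lit 0) (nat_lit 1240533448) (nat_lit 252) (nat_lit 26868673070) (nat_lit 84) (nat_lit 4742115966) (nat_lit 7) (nat_lit 5) (nat_lit 10) (nat_lit 5) (nat_lit 8) (nat_lit 4) (nat_lit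 385) (nat_lit 276) (nat_lit 203)) (XT.nd (nat_lit 94) (nat_lit 0) (nat_lit 0) (XT.lf (nat_lit 0) (nat_lit 3470905268) (nat_lit 252) (nat_lit 22445415751) (nat_lit 84) (nat_lit 7849173441) (nat_lit 7) (nat_lit 5) (nat_lit 10) (nat_lit 5) (nat_lit 8) (nat_lit 4) (nat_lit 386) (nat_lit 276) (nat_lit 202)) (XT.lf (nat_lit 0) (nat_lit 5753621536) (nat_lit 252) (nat_lit 17912640784) (nat_lit 84) (nat_lit 11042293472) (nat_lit 7) (nat_lit 5) (nat_lit 10) (nat_lit 5) (nat_lit 8) (nat_lit 4) (nat_lit 387) (nat_lit 276) (nat_lit 201))))))))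
noncomputable def xc56 : XT := (XT.nd (nat_lit 2256) (nat_lit 0) (nat_lit 0) (XT.nd (nat_lit 1128) (nat_lit 252) (nat_lit 0) (XT.nd (nat_lit 564) (nat_lit 0) (nat_lit 0) (XT.nd (nat_lit 282) (nat_lit 84) (nat_lit 0) (XT.nd (nat_lit 94) (nat_lit 0) (nat_lit 0) (XT.lf (nat_lit 0) (nat_lit 8090809982) (nat_lit 252) (nat_lit 13266123149) (nat_lit 84) (nat_lit 14324452382) (nat_lit 7) (nat_lit 5) (nat_lit 10) (nat_lit 5) (nat_lit 8) (nat_lit 4) (nat_lit 388) (nat_lit 276) (nat_lit 200)) (XT.nd (nat_lit 94) (nat_lit 0) (nat_lit 0) (XT.lf (nat_lit 0) (nat_lit 10484649111) (nat_lit 252) (nat_lit 8501531802) (nat_lit 84) (nat_lit 17698709486) (nat_lit 7) (nat_lit 5) (nat_lit 10) (nat_lit 5) (nat_lit 8) (nat_lit 4) (nat_lit 389) (nat_lit 276) (nat_lit 199)) (XT.lf (nat_lit 0) (nat_lit 12937370231) (nat_lit 252) (nat_lit 3614425648) (nat_lit 84) (nat_lit 21168209945) (nat_lit 7) (nat_lit 5) (nat_lit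 10) (nat_lit 5) (nat_lit 8) (nat_lit 4) (nat_lit 390) (nat_lit 276) (nat_lit 198)))) (XT.nd (nat_lit 94) (nat_lit 0) (nat_lit 0) (XT.lf (nat_lit 0) (nat_lit 1428532353) (nat_lit 84) (nat_lit 14036898401) (nat_lit 168) (nat_lit 23321826561) (nat_lit 6) (nat_lit 5) (nat_lit 7) (nat_lit 5) (nat_lit 8) (nat_lit 4) (nat_lit 391) (nat_lit 276) (nat_lit 197)) (XT.nd (nat_lit 94) (nat_lit 0) (nat_lit 0) (XT.lf (nat_lit 0) (nat_lit 6680263124) (nat_lit 84) (nat_lit 11414666148) (nat_lit 168) (nat_lit 21791974384) (nat_lit 6) (nat_lit 5) (nat_lit 7) (nat_lit 5) (nat_lit 8) (nat_lit 4) (nat_lit 392) (nat_lit 276) (nat_lit 196)) (XT.lf (nat_lit 0) (nat_lit 12071341822) (nat_lit 84) (nat_lit 8720382116) (nat_lit 168) (nat_lit 20229380270) (nat_lit 6) (nat_lit 5) (nat_lit 7) (nat_lit 5) (nat_lit 8) (nat_lit 4) (nat_lit 393) (nat_lit 276) (nat_lit 195))))) (XT.nd (nat_lit 282) (nat_lit 0) (nat_lit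 0) (XT.nd (nat_lit 94) (nat_lit 0) (nat_lit 0) (XT.lf (nat_lit 0) (nat_lit 17606793498) (nat_lit 84) (nat_lit 5951534950) (nat_lit 168) (nat_lit 18632587718) (nat_lit 6) (nat_lit 5) (nat_lit 7) (nat_lit 5) (nat_lit 8) (nat_lit 4) (nat_lit 394) (nat_lit 276) (nat_lit 194)) (XT.nd (nat_lit 94) (nat_lit 0) (nat_lit 0) (XT.lf (nat_lit 0) (nat_lit 23291777772) (nat_lit 84) (nat_lit 3105543794) (nat_lit 168) (nat_lit 17000108350) (nat_lit 6) (nat_lit 5) (nat_lit 7) (nat_lit 5) (nat_lit 8) (nat_lit 4) (nat_lit 395) (nat_lit 276) (nat_lit 193)) (XT.lf (nat_lit 0) (nat_lit 29131593647) (nat_lit 84) (nat_lit 179755888) (nat_lit 168) (nat_lit 15330420524) (nat_lit 6) (nat_lit 5) (nat_lit 7) (nat_lit 5) (nat_lit 8) (nat_lit 4) (nat_lit 396) (nat_lit 276) (nat_lit 192)))) (XT.nd (nat_lit 94) (nat_lit 0) (nat_lit 0) (XT.lf (nat_lit 0) (nat_lit 32331188155) (nat_lit 168) (nat_lit 10821471631) (nat_lit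 0) (nat_lit 2771566812) (nat_lit 6) (nat_lit 5) (nat_lit 8) (nat_lit 4) (nat_lit 6) (nat_lit 4) (nat_lit 397) (nat_lit 276) (nat_lit 191)) (XT.nd (nat_lit 94) (nat_lit 0) (nat_lit 0) (XT.lf (nat_lit 0) (nat_lit 35434196119) (nat_lit 168) (nat_lit 6009711322) (nat_lit 0) (nat_lit 5802876617) (nat_lit 6) (nat_lit 5) (nat_lit 8) (nat_lit 4) (nat_lit 6) (nat_lit 4) (nat_lit 398) (nat_lit 276) (nat_lit 190)) (XT.lf (nat_lit 0) (nat_lit 38621482553) (nat_lit 168) (nat_lit 1068627219) (nat_lit 0) (nat_lit 8920620707) (nat_lit 6) (nat_lit 5) (nat_lit 8) (nat_lit 4) (nat_lit 6) (nat_lit 4) (nat_lit 399) (nat_lit 276) (nat_lit 189)))))) (XT.nd (nat_lit 564) (nat_lit 84) (nat_lit 0) (XT.nd (nat_lit 282) (nat_lit 84) (nat_lit 0) (XT.nd (nat_lit 94) (nat_lit 0) (nat_lit 0) (XT.lf (nat_lit 0) (nat_lit 4088765803) (nat_lit 84) (nat_lit 37847813603) (nat_lit 84) (nat_lit 8079500404) (nat_lit 5) (nat_lit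 4) (nat_lit 6) (nat_lit 5) (nat_lit 6) (nat_lit 4) (nat_lit 400) (nat_lit 276) (nat_lit 188)) (XT.nd (nat_lit 94) (nat_lit 0) (nat_lit 0) (XT.lf (nat_lit 0) (nat_lit 9409642970) (nat_lit 84) (nat_lit 35944557554) (nat_lit 84) (nat_lit 6110821122) (nat_lit 5) (nat_lit 4) (nat_lit 6) (nat_lit 5) (nat_lit 6) (nat_lit 4) (nat_lit 401) (nat_lit 276) (nat_lit 187)) (XT.lf (nat_lit 0) (nat_lit 14876990728) (nat_lit 84) (nat_lit 33989721868) (nat_lit 84) (nat_lit 4092529342) (nat_lit 5) (nat_lit 4) (nat_lit 6) (nat_lit 5) (nat_lit 6) (nat_lit 4) (nat_lit 402) (nat_lit 276) (nat_lit 186)))) (XT.nd (nat_lit 94) (nat_lit 84) (nat_lit 0) (XT.lf (nat_lit 0) (nat_lit 20495905218) (nat_lit 84) (nat_lit 31981484432) (nat_lit 84) (nat_lit 2022743803) (nat_lit 5) (nat_lit 4) (nat_lit 6) (nat_lit 5) (nat_lit 6) (nat_lit 4) (nat_lit 403) (nat_lit 276) (nat_lit 185)) (XT.nd (nat_lit 94) (nat_lit 0) (nat_lit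 0) (XT.lf (nat_lit 0) (nat_lit 98440608) (nat_lit 168) (nat_lit 29818505234) (nat_lit 84) (nat_lit 26172155730) (nat_lit 4) (nat_lit 5) (nat_lit 6) (nat_lit 5) (nat_lit 5) (nat_lit 4) (nat_lit 404) (nat_lit 276) (nat_lit 184)) (XT.lf (nat_lit 0) (nat_lit 2233157079) (nat_lit 168) (nat_lit 25540798583) (nat_lit 84) (nat_lit 29953063559) (nat_lit 4) (nat_lit 5) (nat_lit 6) (nat_lit 5) (nat_lit 5) (nat_lit 4) (nat_lit 405) (nat_lit 276) (nat_lit 183))))) (XT.nd (nat_lit 282) (nat_lit 84) (nat_lit 0) (XT.nd (nat_lit 94) (nat_lit 0) (nat_lit 0) (XT.lf (nat_lit 0) (nat_lit 4424149170) (nat_lit 168) (nat_lit 21147055144) (nat_lit 84) (nat_lit 33844830842) (nat_lit 4) (nat_lit 5) (nat_lit 6) (nat_lit 5) (nat_lit 5) (nat_lit 4) (nat_lit 406) (nat_lit 276) (nat_lit 182)) (XT.nd (nat_lit 94) (nat_lit 0) (nat_lit 0) (XT.lf (nat_lit 0) (nat_lit 6673459113) (nat_lit 168) (nat_lit 16633179488) (nat_lit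 84) (nat_lit 37851085113) (nat_lit 4) (nat_lit 5) (nat_lit 6) (nat_lit 5) (nat_lit 5) (nat_lit 4) (nat_lit 407) (nat_lit 276) (nat_lit 181)) (XT.lf (nat_lit 0) (nat_lit 8983183502) (nat_lit 168) (nat_lit 11994964210) (nat_lit 84) (nat_lit 41975560621) (nat_lit 4) (nat_lit 5) (nat_lit 6) (nat_lit 5) (nat_lit 5) (nat_lit 4) (nat_lit 408) (nat_lit 276) (nat_lit 180)))) (XT.nd (nat_lit 94) (nat_lit 84) (nat_lit 0) (XT.lf (nat_lit 0) (nat_lit 11355475241) (nat_lit 168) (nat_lit 7228086007) (nat_lit 84) (nat_lit 46222101810) (nat_lit 4) (nat_lit 5) (nat_lit 6) (nat_lit 5) (nat_lit 5) (nat_lit 4) (nat_lit 409) (nat_lit 276) (nat_lit 179)) (XT.nd (nat_lit 94) (nat_lit 84) (nat_lit 0) (XT.lf (nat_lit 0) (nat_lit 13792545555) (nat_lit 168) (nat_lit 2328101650) (nat_lit 84) (nat_lit 50594666900) (nat_lit 4) (nat_lit 5) (nat_lit 6) (nat_lit 5) (nat_lit 5) (nat_lit 4) (nat_lit 410) (nat_lit 276)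 (nat_lit 178)) (XT.lf (nat_lit 0) (nat_lit 2765270191) (nat_lit 84) (nat_lit 13558827680) (nat_lit 168) (nat_lit 52359493212) (nat_lit 3) (nat_lit 5) (nat_lit 4) (nat_lit 5) (nat_lit 5) (nat_lit 4) (nat_lit 411) (nat_lit 276) (nat_lit 177))))))) (XT.nd (nat_lit 45308) (nat_lit 0) (nat_lit 5460) (XT.nd (nat_lit 44744) (nat_lit 0) (nat_lit 8652) (XT.nd (nat_lit 282) (nat_lit 0) (nat_lit 0) (XT.nd (nat_lit 94) (nat_lit 0) (nat_lit 0) (XT.lf (nat_lit 0) (nat_lit 8051809056) (nat_lit 84) (nat_lit 10898236710) (nat_lit 168) (nat_lit 51762358692) (nat_lit 3) (nat_lit 5) (nat_lit 4) (nat_lit 5) (nat_lit 5) (nat_lit 4) (nat_lit 412) (nat_lit 276) (nat_lit 176)) (XT.nd (nat_lit 94) (nat_lit 0) (nat_lit 0) (XT.lf (nat_lit 0) (nat_lit 13488572007) (nat_lit 84) (nat_lit 8160694955) (nat_lit 168) (nat_lit 51155109007) (nat_lit 3) (nat_lit 5) (nat_lit 4) (nat_lit 5) (nat_lit 5) (nat_lit 4) (nat_lit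 413) (nat_lit 276) (nat_lit 175)) (XT.lf (nat_lit 0) (nat_lit 19080626678) (nat_lit 84) (nat_lit 5343650737) (nat_lit 168) (nat_lit 50537178136) (nat_lit 3) (nat_lit 5) (nat_lit 4) (nat_lit 5) (nat_lit 5) (nat_lit 4) (nat_lit 414) (nat_lit 276) (nat_lit 174)))) (XT.nd (nat_lit 94) (nat_lit 0) (nat_lit 0) (XT.lf (nat_lit 0) (nat_lit 24833185447) (nat_lit 84) (nat_lit 2444478277) (nat_lit 168) (nat_lit 49907990103) (nat_lit 3) (nat_lit 5) (nat_lit 4) (nat_lit 5) (nat_lit 5) (nat_lit 4) (nat_lit 415) (nat_lit 276) (nat_lit 173)) (XT.nd (nat_lit 44274) (nat_lit 0) (nat_lit 12348) (XT.lf (nat_lit 0) (nat_lit 30217437699) (nat_lit 168) (nat_lit 48732785834) (nat_lit 0) (nat_lit 528654535) (nat_lit 3) (nat_lit 5) (nat_lit 5) (nat_lit 4) (nat_lit 3) (nat_lit 4) (nat_lit 416) (nat_lit 276) (nat_lit 172)) (XT.lf (nat_lit 0) (nat_lit 1460474061) (nat_lit 924) (nat_lit 623335575) (nat_lit 0) (nat_lit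 1460474061) (nat_lit 150) (nat_lit 5) (nat_lit 161) (nat_lit 4) (nat_lit 150) (nat_lit 4) (nat_lit 310) (nat_lit 277) (nat_lit 277))))) (XT.nd (nat_lit 282) (nat_lit 1680) (nat_lit 0) (XT.nd (nat_lit 94) (nat_lit 1092) (nat_lit 0) (XT.lf (nat_lit 0) (nat_lit 2733348260) (nat_lit 924) (nat_lit 2991991449) (nat_lit 924) (nat_lit 1426563114) (nat_lit 139) (nat_lit 4) (nat_lit 150) (nat_lit 5) (nat_lit 150) (nat_lit 4) (nat_lit 311) (nat_lit 277) (nat_lit 276)) (XT.nd (nat_lit 94) (nat_lit 1008) (nat_lit 0) (XT.lf (nat_lit 0) (nat_lit 1296522992) (nat_lit 1008) (nat_lit 450549335) (nat_lit 84) (nat_lit 5472446475) (nat_lit 138) (nat_lit 5) (nat_lit 150) (nat_lit 5) (nat_lit 139) (nat_lit 4) (nat_lit 312) (nat_lit 277) (nat_lit 275)) (XT.lf (nat_lit 0) (nat_lit 3618356317) (nat_lit 1008) (nat_lit 406680209) (nat_lit 1092) (nat_lit 3265689495) (nat_lit 126) (nat_lit 5) (nat_lit 138) (nat_lit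 5) (nat_lit 139) (nat_lit 4) (nat_lit 313) (nat_lit 277) (nat_lit 274)))) (XT.nd (nat_lit 94) (nat_lit 588) (nat_lit 0) (XT.lf (nat_lit 0) (nat_lit 374133654) (nat_lit 1092) (nat_lit 6398699703) (nat_lit 1092) (nat_lit 593736509) (nat_lit 113) (nat_lit 4) (nat_lit 126) (nat_lit 5) (nat_lit 126) (nat_lit 4) (nat_lit 314) (nat_lit 277) (nat_lit 273)) (XT.nd (nat_lit 94) (nat_lit 504) (nat_lit 0) (XT.lf (nat_lit 0) (nat_lit 2077428976) (nat_lit 1176) (nat_lit 2929521117) (nat_lit 84) (nat_lit 2438773517) (nat_lit 112) (nat_lit 5) (nat_lit 126) (nat_lit 5) (nat_lit 113) (nat_lit 4) (nat_lit 315) (nat_lit 277) (nat_lit 272)) (XT.lf (nat_lit 0) (nat_lit 1196004747) (nat_lit 504) (nat_lit 3554460326) (nat_lit 588) (nat_lit 2779173915) (nat_lit 106) (nat_lit 5) (nat_lit 112) (nat_lit 5) (nat_lit 113) (nat_lit 4) (nat_lit 316) (nat_lit 277) (nat_lit 271)))))) (XT.nd (nat_lit 564) (nat_lit 1428)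 (nat_lit 0) (XT.nd (nat_lit 282) (nat_lit 1092) (nat_lit 0) (XT.nd (nat_lit 94) (nat_lit 672) (nat_lit 0) (XT.lf (nat_lit 0) (nat_lit 5430986057) (nat_lit 504) (nat_lit 2027111193) (nat_lit 588) (nat_lit 159913143) (nat_lit 106) (nat_lit 5) (nat_lit 112) (nat_lit 5) (nat_lit 113) (nat_lit 4) (nat_lit 317) (nat_lit 277) (nat_lit 270)) (XT.nd (nat_lit 94) (nat_lit 0) (nat_lit 0) (XT.lf (nat_lit 0) (nat_lit 2023648784) (nat_lit 588) (nat_lit 408186240) (nat_lit 672) (nat_lit 5278625350) (nat_lit 98) (nat_lit 5) (nat_lit 105) (nat_lit 5) (nat_lit 106) (nat_lit 5) (nat_lit 318) (nat_lit 277) (nat_lit 269)) (XT.lf (nat_lit 0) (nat_lit 5060092952) (nat_lit 672) (nat_lit 1490123303) (nat_lit 84) (nat_lit 1257092219) (nat_lit 98) (nat_lit 5) (nat_lit 106) (nat_lit 5) (nat_lit 99) (nat_lit 4) (nat_lit 319) (nat_lit 277) (nat_lit 268)))) (XT.nd (nat_lit 94) (nat_lit 588) (nat_lit 0) (XT.lf (nat_lit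 0) (nat_lit 2809664727) (nat_lit 504) (nat_lit 4918414077) (nat_lit 588) (nat_lit 180691398) (nat_lit 92) (nat_lit 5) (nat_lit 98) (nat_lit 5) (nat_lit 99) (nat_lit 4) (nat_lit 320) (nat_lit 277) (nat_lit 267)) (XT.nd (nat_lit 94) (nat_lit 504) (nat_lit 0) (XT.lf (nat_lit 0) (nat_lit 2358038017) (nat_lit 588) (nat_lit 843609848) (nat_lit 84) (nat_lit 4813057801) (nat_lit 91) (nat_lit 5) (nat_lit 98) (nat_lit 5) (nat_lit 92) (nat_lit 5) (nat_lit 321) (nat_lit 277) (nat_lit 266)) (XT.lf (nat_lit 0) (nat_lit 3535167659) (nat_lit 504) (nat_lit 1400425561) (nat_lit 588) (nat_lit 3189683776) (nat_lit 85) (nat_lit 5) (nat_lit 91) (nat_lit 5) (nat_lit 92) (nat_lit 5) (nat_lit 322) (nat_lit 277) (nat_lit 265))))) (XT.nd (nat_lit 282) (nat_lit 504) (nat_lit 0) (XT.nd (nat_lit 94) (nat_lit 924) (nat_lit 0) (XT.lf (nat_lit 0) (nat_lit 7536588337) (nat_lit 588) (nat_lit 255649469) (nat_lit 84) (nat_lit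 449069314) (nat_lit 85) (nat_lit 5) (nat_lit 92) (nat_lit 5) (nat_lit 86) (nat_lit 4) (nat_lit 323) (nat_lit 277) (nat_lit 264)) (XT.nd (nat_lit 94) (nat_lit 420) (nat_lit 0) (XT.lf (nat_lit 0) (nat_lit 1807735984) (nat_lit 504) (nat_lit 4173471280) (nat_lit 84) (nat_lit 2379795665) (nat_lit 79) (nat_lit 5) (nat_lit 85) (nat_lit 5) (nat_lit 80) (nat_lit 5) (nat_lit 324) (nat_lit 277) (nat_lit 263)) (XT.lf (nat_lit 0) (nat_lit 208443352) (nat_lit 420) (nat_lit 4112311178) (nat_lit 504) (nat_lit 4165630662) (nat_lit 74) (nat_lit 5) (nat_lit 79) (nat_lit 5) (nat_lit 80) (nat_lit 5) (nat_lit 325) (nat_lit 277) (nat_lit 262)))) (XT.nd (nat_lit 94) (nat_lit 504) (nat_lit 0) (XT.lf (nat_lit 0) (nat_lit 4737397244) (nat_lit 420) (nat_lit 2151656113) (nat_lit 504) (nat_lit 1727550692) (nat_lit 74) (nat_lit 5) (nat_lit 79) (nat_lit 5) (nat_lit 80) (nat_lit 5) (nat_lit 326) (nat_lit 277) (nat_lit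 261)) (XT.nd (nat_lit 94) (nat_lit 0) (nat_lit 0) (XT.lf (nat_lit 0) (nat_lit 583319252) (nat_lit 420) (nat_lit 127650367) (nat_lit 504) (nat_lit 8041720387) (nat_lit 68) (nat_lit 5) (nat_lit 73) (nat_lit 5) (nat_lit 74) (nat_lit 5) (nat_lit 327) (nat_lit 277) (nat_lit 260)) (XT.lf (nat_lit 0) (nat_lit 3185537903) (nat_lit 504) (nat_lit 3740674695) (nat_lit 84) (nat_lit 1966574466) (nat_lit 68) (nat_lit 5) (nat_lit 74) (nat_lit 5) (nat_lit 69) (nat_lit 5) (nat_lit 328) (nat_lit 277) (nat_lit 259))))))))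
noncomputable def xc57 : XT := (XT.nd (nat_lit 2256) (nat_lit 1428) (nat_lit 0) (XT.nd (nat_lit 1128) (nat_lit 1092) (nat_lit 0) (XT.nd (nat_lit 564) (nat_lit 1092) (nat_lit 0) (XT.nd (nat_lit 282) (nat_lit 336) (nat_lit 0) (XT.nd (nat_lit 94) (nat_lit 420) (nat_lit 0) (XT.lf (nat_lit 0) (nat_lit 763898033) (nat_lit 420) (nat_lit 4919727189) (nat_lit 504) (nat_lit 3355470745) (nat_lit 63) (nat_lit 5) (nat_lit 68) (nat_lit 5) (nat_lit 69) (nat_lit 5) (nat_lit 329) (nat_lit 277) (nat_lit 258)) (XT.nd (nat_lit 94) (nat_lit 420) (nat_lit 0) (XT.lf (nat_lit 0) (nat_lit 5412679018) (nat_lit 420) (nat_lit 2824568225) (nat_lit 504) (nat_lit 953585544) (nat_lit 63) (nat_lit 5) (nat_lit 68) (nat_lit 5) (nat_lit 69) (nat_lit 5) (nat_lit 330) (nat_lit 277) (nat_lit 257)) (XT.lf (nat_lit 0) (nat_lit 785091087) (nat_lit 336) (nat_lit 654849402) (nat_lit 420) (nat_lit 7908681559) (nat_lit 58) (nat_lit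 5) (nat_lit 62) (nat_lit 5) (nat_lit 63) (nat_lit 5) (nat_lit 331) (nat_lit 277) (nat_lit 256)))) (XT.nd (nat_lit 94) (nat_lit 336) (nat_lit 0) (XT.lf (nat_lit 0) (nat_lit 3884400335) (nat_lit 420) (nat_lit 4041088108) (nat_lit 84) (nat_lit 1585813757) (nat_lit 58) (nat_lit 5) (nat_lit 63) (nat_lit 5) (nat_lit 59) (nat_lit 5) (nat_lit 332) (nat_lit 277) (nat_lit 255)) (XT.nd (nat_lit 94) (nat_lit 0) (nat_lit 0) (XT.lf (nat_lit 0) (nat_lit 553207280) (nat_lit 336) (nat_lit 5806398639) (nat_lit 420) (nat_lit 3321004267) (nat_lit 54) (nat_lit 5) (nat_lit 58) (nat_lit 5) (nat_lit 59) (nat_lit 5) (nat_lit 333) (nat_lit 277) (nat_lit 254)) (XT.lf (nat_lit 0) (nat_lit 5303540201) (nat_lit 336) (nat_lit 3593971008) (nat_lit 420) (nat_lit 958273555) (nat_lit 54) (nat_lit 5) (nat_lit 58) (nat_lit 5) (nat_lit 59) (nat_lit 5) (nat_lit 334) (nat_lit 277) (nat_lit 253))))) (XT.nd (nat_lit 282) (nat_lit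 672) (nat_lit 0) (XT.nd (nat_lit 94) (nat_lit 0) (nat_lit 0) (XT.lf (nat_lit 0) (nat_lit 80510414) (nat_lit 336) (nat_lit 1312963901) (nat_lit 420) (nat_lit 8644321343) (nat_lit 49) (nat_lit 5) (nat_lit 53) (nat_lit 5) (nat_lit 54) (nat_lit 5) (nat_lit 335) (nat_lit 277) (nat_lit 252)) (XT.nd (nat_lit 94) (nat_lit 0) (nat_lit 0) (XT.lf (nat_lit 0) (nat_lit 3802075345) (nat_lit 420) (nat_lit 5363346459) (nat_lit 84) (nat_lit 1059770808) (nat_lit 49) (nat_lit 5) (nat_lit 54) (nat_lit 5) (nat_lit 50) (nat_lit 5) (nat_lit 336) (nat_lit 277) (nat_lit 251)) (XT.lf (nat_lit 0) (nat_lit 6245956721) (nat_lit 420) (nat_lit 710419375) (nat_lit 84) (nat_lit 3463405772) (nat_lit 49) (nat_lit 5) (nat_lit 54) (nat_lit 5) (nat_lit 50) (nat_lit 5) (nat_lit 337) (nat_lit 277) (nat_lit 250)))) (XT.nd (nat_lit 94) (nat_lit 336) (nat_lit 0) (XT.lf (nat_lit 0) (nat_lit 4101493744) (nat_lit 336) (nat_lit 4653565213)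 (nat_lit 420) (nat_lit 1865828306) (nat_lit 45) (nat_lit 5) (nat_lit 49) (nat_lit 5) (nat_lit 50) (nat_lit 5) (nat_lit 338) (nat_lit 277) (nat_lit 249)) (XT.nd (nat_lit 94) (nat_lit 252) (nat_lit 0) (XT.lf (nat_lit 0) (nat_lit 459839839) (nat_lit 420) (nat_lit 1823932530) (nat_lit 84) (nat_lit 8545793734) (nat_lit 44) (nat_lit 5) (nat_lit 49) (nat_lit 5) (nat_lit 45) (nat_lit 5) (nat_lit 339) (nat_lit 277) (nat_lit 248)) (XT.lf (nat_lit 0) (nat_lit 2800956546) (nat_lit 336) (nat_lit 8054851153) (nat_lit 84) (nat_lit 189012685) (nat_lit 41) (nat_lit 5) (nat_lit 45) (nat_lit 5) (nat_lit 42) (nat_lit 5) (nat_lit 340) (nat_lit 277) (nat_lit 247)))))) (XT.nd (nat_lit 564) (nat_lit 504) (nat_lit 0) (XT.nd (nat_lit 282) (nat_lit 336) (nat_lit 0) (XT.nd (nat_lit 94) (nat_lit 252) (nat_lit 0) (XT.lf (nat_lit 0) (nat_lit 5208422296) (nat_lit 336) (nat_lit 3365091475) (nat_lit 84) (nat_lit 2693565854)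 (nat_lit 41) (nat_lit 5) (nat_lit 45) (nat_lit 5) (nat_lit 42) (nat_lit 5) (nat_lit 341) (nat_lit 277) (nat_lit 246)) (XT.nd (nat_lit 94) (nat_lit 0) (nat_lit 0) (XT.lf (nat_lit 0) (nat_lit 1433807712) (nat_lit 252) (nat_lit 6223587092) (nat_lit 336) (nat_lit 3839995864) (nat_lit 38) (nat_lit 5) (nat_lit 41) (nat_lit 5) (nat_lit 42) (nat_lit 5) (nat_lit 342) (nat_lit 277) (nat_lit 245)) (XT.lf (nat_lit 0) (nat_lit 6388339268) (nat_lit 252) (nat_lit 3782506711) (nat_lit 336) (nat_lit 1564480845) (nat_lit 38) (nat_lit 5) (nat_lit 41) (nat_lit 5) (nat_lit 42) (nat_lit 5) (nat_lit 343) (nat_lit 277) (nat_lit 244)))) (XT.nd (nat_lit 94) (nat_lit 252) (nat_lit 0) (XT.lf (nat_lit 0) (nat_lit 720077816) (nat_lit 336) (nat_lit 555527987) (nat_lit 84) (nat_lit 10706334201) (nat_lit 37) (nat_lit 5) (nat_lit 41) (nat_lit 5) (nat_lit 38) (nat_lit 5) (nat_lit 344) (nat_lit 277) (nat_lit 243)) (XT.nd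 (nat_lit 94) (nat_lit 0) (nat_lit 0) (XT.lf (nat_lit 0) (nat_lit 3055610845) (nat_lit 336) (nat_lit 7853931534) (nat_lit 84) (nat_lit 1325886997) (nat_lit 34) (nat_lit 5) (nat_lit 38) (nat_lit 5) (nat_lit 35) (nat_lit 5) (nat_lit 345) (nat_lit 277) (nat_lit 242)) (XT.lf (nat_lit 0) (nat_lit 5438630794) (nat_lit 336) (nat_lit 3088710863) (nat_lit 84) (nat_lit 3970323419) (nat_lit 34) (nat_lit 5) (nat_lit 38) (nat_lit 5) (nat_lit 35) (nat_lit 5) (nat_lit 346) (nat_lit 277) (nat_lit 241))))) (XT.nd (nat_lit 282) (nat_lit 252) (nat_lit 0) (XT.nd (nat_lit 94) (nat_lit 0) (nat_lit 0) (XT.lf (nat_lit 0) (nat_lit 1800016571) (nat_lit 252) (nat_lit 6070862789) (nat_lit 336) (nat_lit 4898027039) (nat_lit 31) (nat_lit 5) (nat_lit 34) (nat_lit 5) (nat_lit 35) (nat_lit 5) (nat_lit 347) (nat_lit 277) (nat_lit 240)) (XT.nd (nat_lit 94) (nat_lit 0) (nat_lit 0) (XT.lf (nat_lit 0) (nat_lit 6845904524)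 (nat_lit 252) (nat_lit 3523045547) (nat_lit 336) (nat_lit 2680011983) (nat_lit 31) (nat_lit 5) (nat_lit 34) (nat_lit 5) (nat_lit 35) (nat_lit 5) (nat_lit 348) (nat_lit 277) (nat_lit 239)) (XT.lf (nat_lit 0) (nat_lit 11990146061) (nat_lit 252) (nat_lit 913754903) (nat_lit 336) (nat_lit 435161498) (nat_lit 31) (nat_lit 5) (nat_lit 34) (nat_lit 5) (nat_lit 35) (nat_lit 5) (nat_lit 349) (nat_lit 277) (nat_lit 238)))) (XT.nd (nat_lit 94) (nat_lit 0) (nat_lit 0) (XT.lf (nat_lit 0) (nat_lit 1855826364) (nat_lit 252) (nat_lit 10002372960) (nat_lit 84) (nat_lit 1779031428) (nat_lit 28) (nat_lit 5) (nat_lit 31) (nat_lit 5) (nat_lit 29) (nat_lit 5) (nat_lit 350) (nat_lit 277) (nat_lit 237)) (XT.nd (nat_lit 94) (nat_lit 0) (nat_lit 0) (XT.lf (nat_lit 0) (nat_lit 4192984524) (nat_lit 252) (nat_lit 5214221496) (nat_lit 84) (nat_lit 4537884830) (nat_lit 28) (nat_lit 5) (nat_lit 31) (nat_lit 5) (nat_lit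 29) (nat_lit 5) (nat_lit 351) (nat_lit 277) (nat_lit 236)) (XT.lf (nat_lit 0) (nat_lit 6564398188) (nat_lit 252) (nat_lit 333700166) (nat_lit 84) (nat_lit 7365673868) (nat_lit 28) (nat_lit 5) (nat_lit 31) (nat_lit 5) (nat_lit 29) (nat_lit 5) (nat_lit 352) (nat_lit 277) (nat_lit 235))))))) (XT.nd (nat_lit 1128) (nat_lit 504) (nat_lit 0) (XT.nd (nat_lit 564) (nat_lit 420) (nat_lit 0) (XT.nd (nat_lit 282) (nat_lit 252) (nat_lit 0) (XT.nd (nat_lit 94) (nat_lit 0) (nat_lit 0) (XT.lf (nat_lit 0) (nat_lit 4739225009) (nat_lit 252) (nat_lit 4280066451) (nat_lit 336) (nat_lit 5572823027) (nat_lit 25) (nat_lit 5) (nat_lit 28) (nat_lit 5) (nat_lit 29) (nat_lit 5) (nat_lit 353) (nat_lit 277) (nat_lit 234)) (XT.nd (nat_lit 94) (nat_lit 0) (nat_lit 0) (XT.lf (nat_lit 0) (nat_lit 9922658516) (nat_lit 252) (nat_lit 1594643126) (nat_lit 336) (nat_lit 3414444231) (nat_lit 25) (nat_lit 5) (nat_lit 28)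 (nat_lit 5) (nat_lit 29) (nat_lit 5) (nat_lit 354) (nat_lit 277) (nat_lit 233)) (XT.lf (nat_lit 0) (nat_lit 14068858209) (nat_lit 336) (nat_lit 79996870) (nat_lit 84) (nat_lit 1133876740) (nat_lit 25) (nat_lit 5) (nat_lit 29) (nat_lit 5) (nat_lit 26) (nat_lit 4) (nat_lit 355) (nat_lit 277) (nat_lit 232)))) (XT.nd (nat_lit 94) (nat_lit 0) (nat_lit 0) (XT.lf (nat_lit 0) (nat_lit 1065696092) (nat_lit 252) (nat_lit 10619069092) (nat_lit 84) (nat_lit 3958595914) (nat_lit 22) (nat_lit 5) (nat_lit 25) (nat_lit 5) (nat_lit 23) (nat_lit 5) (nat_lit 356) (nat_lit 277) (nat_lit 231)) (XT.nd (nat_lit 94) (nat_lit 0) (nat_lit 0) (XT.lf (nat_lit 0) (nat_lit 3357194841) (nat_lit 252) (nat_lit 5790942444) (nat_lit 84) (nat_lit 6867764802) (nat_lit 22) (nat_lit 5) (nat_lit 25) (nat_lit 5) (nat_lit 23) (nat_lit 5) (nat_lit 357) (nat_lit 277) (nat_lit 230)) (XT.lf (nat_lit 0) (nat_lit 5686397221) (nat_lit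 252) (nat_lit 863468374) (nat_lit 84) (nat_lit 9851235097) (nat_lit 22) (nat_lit 5) (nat_lit 25) (nat_lit 5) (nat_lit 23) (nat_lit 5) (nat_lit 358) (nat_lit 277) (nat_lit 229))))) (XT.nd (nat_lit 282) (nat_lit 252) (nat_lit 0) (XT.nd (nat_lit 94) (nat_lit 0) (nat_lit 0) (XT.lf (nat_lit 0) (nat_lit 4253647559) (nat_lit 168) (nat_lit 3844023444) (nat_lit 252) (nat_lit 8700336857) (nat_lit 20) (nat_lit 5) (nat_lit 22) (nat_lit 5) (nat_lit 23) (nat_lit 5) (nat_lit 359) (nat_lit 277) (nat_lit 228)) (XT.nd (nat_lit 94) (nat_lit 0) (nat_lit 0) (XT.lf (nat_lit 0) (nat_lit 9499381981) (nat_lit 168) (nat_lit 1061487347) (nat_lit 252) (nat_lit 6647128447) (nat_lit 20) (nat_lit 5) (nat_lit 22) (nat_lit 5) (nat_lit 23) (nat_lit 5) (nat_lit 360) (nat_lit 277) (nat_lit 227)) (XT.lf (nat_lit 0) (nat_lit 13087316467) (nat_lit 252) (nat_lit 2788623957) (nat_lit 84) (nat_lit 1755232293) (nat_lit 20) (nat_lit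 5) (nat_lit 23) (nat_lit 5) (nat_lit 21) (nat_lit 4) (nat_lit 361) (nat_lit 277) (nat_lit 226)))) (XT.nd (nat_lit 94) (nat_lit 84) (nat_lit 0) (XT.lf (nat_lit 0) (nat_lit 2272520498) (nat_lit 168) (nat_lit 13422857400) (nat_lit 252) (nat_lit 2372052901) (nat_lit 18) (nat_lit 5) (nat_lit 20) (nat_lit 5) (nat_lit 21) (nat_lit 4) (nat_lit 362) (nat_lit 277) (nat_lit 225)) (XT.nd (nat_lit 94) (nat_lit 84) (nat_lit 0) (XT.lf (nat_lit 0) (nat_lit 7503849677) (nat_lit 168) (nat_lit 10879891900) (nat_lit 252) (nat_lit 133553119) (nat_lit 18) (nat_lit 5) (nat_lit 20) (nat_lit 5) (nat_lit 21) (nat_lit 4) (nat_lit 363) (nat_lit 277) (nat_lit 224)) (XT.lf (nat_lit 0) (nat_lit 2101412740) (nat_lit 252) (nat_lit 6150433949) (nat_lit 84) (nat_lit 10729552716) (nat_lit 17) (nat_lit 5) (nat_lit 20) (nat_lit 5) (nat_lit 18) (nat_lit 5) (nat_lit 364) (nat_lit 277) (nat_lit 223)))))) (XT.nd (nat_lit 564)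 (nat_lit 252) (nat_lit 0) (XT.nd (nat_lit 282) (nat_lit 84) (nat_lit 0) (XT.nd (nat_lit 94) (nat_lit 168) (nat_lit 0) (XT.lf (nat_lit 0) (nat_lit 4374644578) (nat_lit 252) (nat_lit 1181789020) (nat_lit 84) (nat_lit 13904350133) (nat_lit 17) (nat_lit 5) (nat_lit 20) (nat_lit 5) (nat_lit 18) (nat_lit 5) (nat_lit 365) (nat_lit 277) (nat_lit 222)) (XT.nd (nat_lit 94) (nat_lit 0) (nat_lit 0) (XT.lf (nat_lit 0) (nat_lit 3978605969) (nat_lit 168) (nat_lit 2751814378) (nat_lit 252) (nat_lit 13224291723) (nat_lit 15) (nat_lit 5) (nat_lit 17) (nat_lit 5) (nat_lit 18) (nat_lit 5) (nat_lit 366) (nat_lit 277) (nat_lit 221)) (XT.lf (nat_lit 0) (nat_lit 9145936539) (nat_lit 252) (nat_lit 11183807348) (nat_lit 84) (nat_lit 134675903) (nat_lit 15) (nat_lit 5) (nat_lit 18) (nat_lit 5) (nat_lit 16) (nat_lit 4) (nat_lit 367) (nat_lit 277) (nat_lit 220)))) (XT.nd (nat_lit 94) (nat_lit 84) (nat_lit 0) (XT.lf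 (nat_lit 0) (nat_lit 11638157698) (nat_lit 252) (nat_lit 6312558062) (nat_lit 84) (nat_lit 3039210129) (nat_lit 15) (nat_lit 5) (nat_lit 18) (nat_lit 5) (nat_lit 16) (nat_lit 4) (nat_lit 368) (nat_lit 277) (nat_lit 219)) (XT.nd (nat_lit 94) (nat_lit 84) (nat_lit 0) (XT.lf (nat_lit 0) (nat_lit 14182108498) (nat_lit 252) (nat_lit 1330519389) (nat_lit 84) (nat_lit 6019938557) (nat_lit 15) (nat_lit 5) (nat_lit 18) (nat_lit 5) (nat_lit 16) (nat_lit 4) (nat_lit 369) (nat_lit 277) (nat_lit 218)) (XT.lf (nat_lit 0) (nat_lit 3844408719) (nat_lit 84) (nat_lit 12973888458) (nat_lit 168) (nat_lit 5273367827) (nat_lit 14) (nat_lit 5) (nat_lit 15) (nat_lit 5) (nat_lit 16) (nat_lit 4) (nat_lit 370) (nat_lit 277) (nat_lit 217))))) (XT.nd (nat_lit 282) (nat_lit 168) (nat_lit 0) (XT.nd (nat_lit 94) (nat_lit 84) (nat_lit 0) (XT.lf (nat_lit 0) (nat_lit 9169350824) (nat_lit 84) (nat_lit 10356344632) (nat_lit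 168) (nat_lit 3142775302) (nat_lit 14) (nat_lit 5) (nat_lit 15) (nat_lit 5) (nat_lit 16) (nat_lit 4) (nat_lit 371) (nat_lit 277) (nat_lit 216)) (XT.nd (nat_lit 94) (nat_lit 84) (nat_lit 0) (XT.lf (nat_lit 0) (nat_lit 14621912120) (nat_lit 84) (nat_lit 7671444480) (nat_lit 168) (nat_lit 970582329) (nat_lit 14) (nat_lit 5) (nat_lit 15) (nat_lit 5) (nat_lit 16) (nat_lit 4) (nat_lit 372) (nat_lit 277) (nat_lit 215)) (XT.lf (nat_lit 0) (nat_lit 1220147076) (nat_lit 168) (nat_lit 3683802484) (nat_lit 84) (nat_lit 18974292055) (nat_lit 13) (nat_lit 5) (nat_lit 15) (nat_lit 5) (nat_lit 14) (nat_lit 5) (nat_lit 373) (nat_lit 277) (nat_lit 214)))) (XT.nd (nat_lit 94) (nat_lit 0) (nat_lit 0) (XT.lf (nat_lit 0) (nat_lit 1410883642) (nat_lit 168) (nat_lit 2039203880) (nat_lit 252) (nat_lit 21061500778) (nat_lit 11) (nat_lit 5) (nat_lit 13) (nat_lit 5) (nat_lit 14) (nat_lit 5) (nat_lit 374) (nat_lit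 277) (nat_lit 213)) (XT.nd (nat_lit 94) (nat_lit 0) (nat_lit 0) (XT.lf (nat_lit 0) (nat_lit 5774730740) (nat_lit 252) (nat_lit 18467221558) (nat_lit 84) (nat_lit 921865907) (nat_lit 11) (nat_lit 5) (nat_lit 14) (nat_lit 5) (nat_lit 12) (nat_lit 4) (nat_lit 375) (nat_lit 277) (nat_lit 212)) (XT.lf (nat_lit 0) (nat_lit 8170625438) (nat_lit 252) (nat_lit 13745855684) (nat_lit 84) (nat_lit 3919852315) (nat_lit 11) (nat_lit 5) (nat_lit 14) (nat_lit 5) (nat_lit 12) (nat_lit 4) (nat_lit 376) (nat_lit 277) (nat_lit 211))))))))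
noncomputable def xc58 : XT := (XT.nd (nat_lit 2256) (nat_lit 252) (nat_lit 0) (XT.nd (nat_lit 1128) (nat_lit 84) (nat_lit 0) (XT.nd (nat_lit 564) (nat_lit 252) (nat_lit 0) (XT.nd (nat_lit 282) (nat_lit 0) (nat_lit 0) (XT.nd (nat_lit 94) (nat_lit 84) (nat_lit 0) (XT.lf (nat_lit 0) (nat_lit 10619775687) (nat_lit 252) (nat_lit 8911977073) (nat_lit 84) (nat_lit 6998635193) (nat_lit 11) (nat_lit 5) (nat_lit 14) (nat_lit 5) (nat_lit 12) (nat_lit 4) (nat_lit 377) (nat_lit 277) (nat_lit 210)) (XT.nd (nat_lit 94) (nat_lit 84) (nat_lit 0) (XT.lf (nat_lit 0) (nat_lit 13124464352) (nat_lit 252) (nat_lit 3961080045) (nat_lit 84) (nat_lit 10161084291) (nat_lit 11) (nat_lit 5) (nat_lit 14) (nat_lit 5) (nat_lit 12) (nat_lit 4) (nat_lit 378) (nat_lit 277) (nat_lit 209)) (XT.lf (nat_lit 0) (nat_lit 1134303849) (nat_lit 84) (nat_lit 14563974650) (nat_lit 168) (nat_lit 12287095926) (nat_lit 10) (nat_lit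 5) (nat_lit 11) (nat_lit 5) (nat_lit 12) (nat_lit 4) (nat_lit 379) (nat_lit 277) (nat_lit 208)))) (XT.nd (nat_lit 94) (nat_lit 0) (nat_lit 0) (XT.lf (nat_lit 0) (nat_lit 6440095223) (nat_lit 84) (nat_lit 11933640720) (nat_lit 168) (nat_lit 10372644129) (nat_lit 10) (nat_lit 5) (nat_lit 11) (nat_lit 5) (nat_lit 12) (nat_lit 4) (nat_lit 380) (nat_lit 277) (nat_lit 207)) (XT.nd (nat_lit 94) (nat_lit 0) (nat_lit 0) (XT.lf (nat_lit 0) (nat_lit 11879791699) (nat_lit 84) (nat_lit 9233436413) (nat_lit 168) (nat_lit 8418370028) (nat_lit 10) (nat_lit 5) (nat_lit 11) (nat_lit 5) (nat_lit 12) (nat_lit 4) (nat_lit 381) (nat_lit 277) (nat_lit 206)) (XT.lf (nat_lit 0) (nat_lit 17458463644) (nat_lit 84) (nat_lit 6460844856) (nat_lit 168) (nat_lit 6422452035) (nat_lit 10) (nat_lit 5) (nat_lit 11) (nat_lit 5) (nat_lit 12) (nat_lit 4) (nat_lit 382) (nat_lit 277) (nat_lit 205))))) (XT.nd (nat_lit 282) (nat_lit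 84) (nat_lit 0) (XT.nd (nat_lit 94) (nat_lit 168) (nat_lit 0) (XT.lf (nat_lit 0) (nat_lit 23181310966) (nat_lit 84) (nat_lit 3613281702) (nat_lit 168) (nat_lit 4383029744) (nat_lit 10) (nat_lit 5) (nat_lit 11) (nat_lit 5) (nat_lit 12) (nat_lit 4) (nat_lit 383) (nat_lit 277) (nat_lit 204)) (XT.nd (nat_lit 94) (nat_lit 168) (nat_lit 0) (XT.lf (nat_lit 0) (nat_lit 29053667957) (nat_lit 84) (nat_lit 688092724) (nat_lit 168) (nat_lit 2298202202) (nat_lit 10) (nat_lit 5) (nat_lit 11) (nat_lit 5) (nat_lit 12) (nat_lit 4) (nat_lit 384) (nat_lit 277) (nat_lit 203)) (XT.lf (nat_lit 0) (nat_lit 2172198102) (nat_lit 168) (nat_lit 30635899359) (nat_lit 168) (nat_lit 120107604) (nat_lit 8) (nat_lit 4) (nat_lit 10) (nat_lit 5) (nat_lit 10) (nat_lit 4) (nat_lit 385) (nat_lit 277) (nat_lit 202)))) (XT.nd (nat_lit 94) (nat_lit 0) (nat_lit 0) (XT.lf (nat_lit 0) (nat_lit 2104413767) (nat_lit 252) (nat_lit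 26345149166) (nat_lit 84) (nat_lit 5393121859) (nat_lit 7) (nat_lit 5) (nat_lit 10) (nat_lit 5) (nat_lit 8) (nat_lit 4) (nat_lit 386) (nat_lit 277) (nat_lit 201)) (XT.nd (nat_lit 94) (nat_lit 0) (nat_lit 0) (XT.lf (nat_lit 0) (nat_lit 4379108358) (nat_lit 252) (nat_lit 21825556550) (nat_lit 84) (nat_lit 8581343888) (nat_lit 7) (nat_lit 5) (nat_lit 10) (nat_lit 5) (nat_lit 8) (nat_lit 4) (nat_lit 387) (nat_lit 277) (nat_lit 200)) (XT.lf (nat_lit 0) (nat_lit 6708516322) (nat_lit 252) (nat_lit 17191824900) (nat_lit 84) (nat_lit 11858752068) (nat_lit 7) (nat_lit 5) (nat_lit 10) (nat_lit 5) (nat_lit 8) (nat_lit 4) (nat_lit 388) (nat_lit 277) (nat_lit 199)))))) (XT.nd (nat_lit 564) (nat_lit 0) (nat_lit 0) (XT.nd (nat_lit 282) (nat_lit 84) (nat_lit 0) (XT.nd (nat_lit 94) (nat_lit 0) (nat_lit 0) (XT.lf (nat_lit 0) (nat_lit 9094808912) (nat_lit 252) (nat_lit 12439635091) (nat_lit 84) (nat_lit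 15228401286) (nat_lit 7) (nat_lit 5) (nat_lit 10) (nat_lit 5) (nat_lit 8) (nat_lit 4) (nat_lit 389) (nat_lit 277) (nat_lit 198)) (XT.nd (nat_lit 94) (nat_lit 0) (nat_lit 0) (XT.lf (nat_lit 0) (nat_lit 11540210401) (nat_lit 252) (nat_lit 7564557586) (nat_lit 84) (nat_lit 18693432410) (nat_lit 7) (nat_lit 5) (nat_lit 10) (nat_lit 5) (nat_lit 8) (nat_lit 4) (nat_lit 390) (nat_lit 277) (nat_lit 197)) (XT.lf (nat_lit 0) (nat_lit 14047000161) (nat_lit 252) (nat_lit 2562048301) (nat_lit 84) (nat_lit 22257075209) (nat_lit 7) (nat_lit 5) (nat_lit 10) (nat_lit 5) (nat_lit 8) (nat_lit 4) (nat_lit 391) (nat_lit 277) (nat_lit 196)))) (XT.nd (nat_lit 94) (nat_lit 0) (nat_lit 0) (XT.lf (nat_lit 0) (nat_lit 2625452645) (nat_lit 84) (nat_lit 14018106953) (nat_lit 168) (nat_lit 23323243544) (nat_lit 6) (nat_lit 5) (nat_lit 7) (nat_lit 5) (nat_lit 8) (nat_lit 4) (nat_lit 392) (nat_lit 277) (nat_lit 195))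 (XT.nd (nat_lit 94) (nat_lit 0) (nat_lit 0) (XT.lf (nat_lit 0) (nat_lit 8005329737) (nat_lit 84) (nat_lit 11328234379) (nat_lit 168) (nat_lit 21767661729) (nat_lit 6) (nat_lit 5) (nat_lit 7) (nat_lit 5) (nat_lit 8) (nat_lit 4) (nat_lit 393) (nat_lit 277) (nat_lit 194)) (XT.lf (nat_lit 0) (nat_lit 13529916616) (nat_lit 84) (nat_lit 8563666028) (nat_lit 168) (nat_lit 20177670631) (nat_lit 6) (nat_lit 5) (nat_lit 7) (nat_lit 5) (nat_lit 8) (nat_lit 4) (nat_lit 394) (nat_lit 277) (nat_lit 193))))) (XT.nd (nat_lit 282) (nat_lit 0) (nat_lit 0) (XT.nd (nat_lit 94) (nat_lit 0) (nat_lit 0) (XT.lf (nat_lit 0) (nat_lit 19204362775) (nat_lit 84) (nat_lit 5721825032) (nat_lit 168) (nat_lit 18551788212) (nat_lit 6) (nat_lit 5) (nat_lit 7) (nat_lit 5) (nat_lit 8) (nat_lit 4) (nat_lit 395) (nat_lit 277) (nat_lit 192)) (XT.nd (nat_lit 94) (nat_lit 0) (nat_lit 0) (XT.lf (nat_lit 0) (nat_lit 25033957392)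 (nat_lit 84) (nat_lit 2800062499) (nat_lit 168) (nat_lit 16888498978) (nat_lit 6) (nat_lit 5) (nat_lit 7) (nat_lit 5) (nat_lit 8) (nat_lit 4) (nat_lit 396) (nat_lit 277) (nat_lit 191)) (XT.lf (nat_lit 0) (nat_lit 30821816428) (nat_lit 168) (nat_lit 14983934737) (nat_lit 0) (nat_lit 200227864) (nat_lit 6) (nat_lit 5) (nat_lit 8) (nat_lit 4) (nat_lit 6) (nat_lit 4) (nat_lit 397) (nat_lit 277) (nat_lit 190)))) (XT.nd (nat_lit 94) (nat_lit 0) (nat_lit 0) (XT.lf (nat_lit 0) (nat_lit 33918957934) (nat_lit 168) (nat_lit 10181943397) (nat_lit 0) (nat_lit 3227827025) (nat_lit 6) (nat_lit 5) (nat_lit 8) (nat_lit 4) (nat_lit 6) (nat_lit 4) (nat_lit 398) (nat_lit 277) (nat_lit 189)) (XT.nd (nat_lit 94) (nat_lit 0) (nat_lit 0) (XT.lf (nat_lit 0) (nat_lit 37100554303) (nat_lit 168) (nat_lit 5250334531) (nat_lit 0) (nat_lit 6341972041) (nat_lit 6) (nat_lit 5) (nat_lit 8) (nat_lit 4) (nat_lit 6) (nat_lit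 4) (nat_lit 399) (nat_lit 277) (nat_lit 188)) (XT.lf (nat_lit 0) (nat_lit 40369571116) (nat_lit 168) (nat_lit 184511363) (nat_lit 0) (nat_lit 9545565622) (nat_lit 6) (nat_lit 5) (nat_lit 8) (nat_lit 4) (nat_lit 6) (nat_lit 4) (nat_lit 400) (nat_lit 277) (nat_lit 187))))))) (XT.nd (nat_lit 1128) (nat_lit 0) (nat_lit 0) (XT.nd (nat_lit 564) (nat_lit 84) (nat_lit 0) (XT.nd (nat_lit 282) (nat_lit 84) (nat_lit 0) (XT.nd (nat_lit 94) (nat_lit 0) (nat_lit 0) (XT.lf (nat_lit 0) (nat_lit 5123474578) (nat_lit 84) (nat_lit 38656406364) (nat_lit 84) (nat_lit 7768944775) (nat_lit 5) (nat_lit 4) (nat_lit 6) (nat_lit 5) (nat_lit 6) (nat_lit 4) (nat_lit 401) (nat_lit 277) (nat_lit 186)) (XT.nd (nat_lit 94) (nat_lit 0) (nat_lit 0) (XT.lf (nat_lit 0) (nat_lit 10581998580) (nat_lit 84) (nat_lit 36705114821) (nat_lit 84) (nat_lit 5756105130) (nat_lit 5) (nat_lit 4) (nat_lit 6) (nat_lit 5) (nat_lit 6) (nat_lit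 4) (nat_lit 402) (nat_lit 277) (nat_lit 185)) (XT.lf (nat_lit 0) (nat_lit 16192354626) (nat_lit 84) (nat_lit 34700314965) (nat_lit 84) (nat_lit 3691607793) (nat_lit 5) (nat_lit 4) (nat_lit 6) (nat_lit 5) (nat_lit 6) (nat_lit 4) (nat_lit 403) (nat_lit 277) (nat_lit 184)))) (XT.nd (nat_lit 94) (nat_lit 84) (nat_lit 0) (XT.lf (nat_lit 0) (nat_lit 21959772155) (nat_lit 84) (nat_lit 32640138112) (nat_lit 84) (nat_lit 1573528437) (nat_lit 5) (nat_lit 4) (nat_lit 6) (nat_lit 5) (nat_lit 6) (nat_lit 4) (nat_lit 404) (nat_lit 277) (nat_lit 183)) (XT.nd (nat_lit 94) (nat_lit 0) (nat_lit 0) (XT.lf (nat_lit 0) (nat_lit 588016388) (nat_lit 168) (nat_lit 29928509887) (nat_lit 84) (nat_lit 27295472931) (nat_lit 4) (nat_lit 5) (nat_lit 6) (nat_lit 5) (nat_lit 5) (nat_lit 4) (nat_lit 405) (nat_lit 277) (nat_lit 182)) (XT.lf (nat_lit 0) (nat_lit 2774280314) (nat_lit 168) (nat_lit 25542680692) (nat_lit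 84) (nat_lit 31184208309) (nat_lit 4) (nat_lit 5) (nat_lit 6) (nat_lit 5) (nat_lit 5) (nat_lit 4) (nat_lit 406) (nat_lit 277) (nat_lit 181))))) (XT.nd (nat_lit 282) (nat_lit 84) (nat_lit 0) (XT.nd (nat_lit 94) (nat_lit 0) (nat_lit 0) (XT.lf (nat_lit 0) (nat_lit 5019004259) (nat_lit 168) (nat_lit 21036481315) (nat_lit 84) (nat_lit 35187521839) (nat_lit 4) (nat_lit 5) (nat_lit 6) (nat_lit 5) (nat_lit 5) (nat_lit 4) (nat_lit 407) (nat_lit 277) (nat_lit 180)) (XT.nd (nat_lit 94) (nat_lit 0) (nat_lit 0) (XT.lf (nat_lit 0) (nat_lit 7324280540) (nat_lit 168) (nat_lit 16405711507) (nat_lit 84) (nat_lit 39309145028) (nat_lit 4) (nat_lit 5) (nat_lit 6) (nat_lit 5) (nat_lit 5) (nat_lit 4) (nat_lit 408) (nat_lit 277) (nat_lit 179)) (XT.lf (nat_lit 0) (nat_lit 9692257917) (nat_lit 168) (nat_lit 11646054904) (nat_lit 84) (nat_lit 43552919661) (nat_lit 4) (nat_lit 5) (nat_lit 6) (nat_lit 5) (nat_lit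 5) (nat_lit 4) (nat_lit 409) (nat_lit 277) (nat_lit 178)))) (XT.nd (nat_lit 94) (nat_lit 84) (nat_lit 0) (XT.lf (nat_lit 0) (nat_lit 12125143593) (nat_lit 168) (nat_lit 6753075009) (nat_lit 84) (nat_lit 47922801379) (nat_lit 4) (nat_lit 5) (nat_lit 6) (nat_lit 5) (nat_lit 5) (nat_lit 4) (nat_lit 410) (nat_lit 277) (nat_lit 177)) (XT.nd (nat_lit 94) (nat_lit 84) (nat_lit 0) (XT.lf (nat_lit 0) (nat_lit 14625205272) (nat_lit 168) (nat_lit 1722211051) (nat_lit 84) (nat_lit 52422863372) (nat_lit 4) (nat_lit 5) (nat_lit 6) (nat_lit 5) (nat_lit 5) (nat_lit 4) (nat_lit 411) (nat_lit 277) (nat_lit 176)) (XT.lf (nat_lit 0) (nat_lit 3522190551) (nat_lit 84) (nat_lit 13707523288) (nat_lit 168) (nat_lit 53570050181) (nat_lit 3) (nat_lit 5) (nat_lit 4) (nat_lit 5) (nat_lit 5) (nat_lit 4) (nat_lit 412) (nat_lit 277) (nat_lit 175)))))) (XT.nd (nat_lit 44556) (nat_lit 0) (nat_lit 9156) (XT.nd (nat_lit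 282) (nat_lit 0) (nat_lit 0) (XT.nd (nat_lit 94) (nat_lit 0) (nat_lit 0) (XT.lf (nat_lit 0) (nat_lit 8952430641) (nat_lit 84) (nat_lit 10972621282) (nat_lit 168) (nat_lit 52966810124) (nat_lit 3) (nat_lit 5) (nat_lit 4) (nat_lit 5) (nat_lit 5) (nat_lit 4) (nat_lit 413) (nat_lit 277) (nat_lit 174)) (XT.nd (nat_lit 94) (nat_lit 0) (nat_lit 0) (XT.lf (nat_lit 0) (nat_lit 14538158577) (nat_lit 84) (nat_lit 8158137443) (nat_lit 168) (nat_lit 52352768320) (nat_lit 3) (nat_lit 5) (nat_lit 4) (nat_lit 5) (nat_lit 5) (nat_lit 4) (nat_lit 414) (nat_lit 277) (nat_lit 173)) (XT.lf (nat_lit 0) (nat_lit 20284580845) (nat_lit 84) (nat_lit 5261448376) (nat_lit 168) (nat_lit 51727352417) (nat_lit 3) (nat_lit 5) (nat_lit 4) (nat_lit 5) (nat_lit 5) (nat_lit 4) (nat_lit 415) (nat_lit 277) (nat_lit 172)))) (XT.nd (nat_lit 44086) (nat_lit 0) (nat_lit 12348) (XT.lf (nat_lit 0) (nat_lit 26197053712) (nat_lit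 84) (nat_lit 2279854064) (nat_lit 168) (nat_lit 51089979463) (nat_lit 3) (nat_lit 5) (nat_lit 4) (nat_lit 5) (nat_lit 5) (nat_lit 4) (nat_lit 416) (nat_lit 277) (nat_lit 171)) (XT.nd (nat_lit 94) (nat_lit 924) (nat_lit 0) (XT.lf (nat_lit 0) (nat_lit 2512027863) (nat_lit 756) (nat_lit 487090166) (nat_lit 756) (nat_lit 487090166) (nat_lit 161) (nat_lit 4) (nat_lit 170) (nat_lit 5) (nat_lit 170) (nat_lit 4) (nat_lit 308) (nat_lit 278) (nat_lit 278)) (XT.lf (nat_lit 0) (nat_lit 1755363212) (nat_lit 924) (nat_lit 5132653873) (nat_lit 0) (nat_lit 141406599) (nat_lit 150) (nat_lit 5) (nat_lit 161) (nat_lit 4) (nat_lit 150) (nat_lit 4) (nat_lit 309) (nat_lit 278) (nat_lit 277))))) (XT.nd (nat_lit 282) (nat_lit 2184) (nat_lit 0) (XT.nd (nat_lit 94) (nat_lit 1008) (nat_lit 0) (XT.lf (nat_lit 0) (nat_lit 4491364176) (nat_lit 924) (nat_lit 1286798994) (nat_lit 0) (nat_lit 1311979228) (nat_lit 150)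 (nat_lit 5) (nat_lit 161) (nat_lit 4) (nat_lit 150) (nat_lit 4) (nat_lit 310) (nat_lit 278) (nat_lit 276)) (XT.nd (nat_lit 94) (nat_lit 0) (nat_lit 0) (XT.lf (nat_lit 0) (nat_lit 95725481) (nat_lit 1008) (nat_lit 4503325694) (nat_lit 84) (nat_lit 2555949062) (nat_lit 138) (nat_lit 5) (nat_lit 150) (nat_lit 5) (nat_lit 139) (nat_lit 4) (nat_lit 311) (nat_lit 278) (nat_lit 275)) (XT.lf (nat_lit 0) (nat_lit 2748095265) (nat_lit 1008) (nat_lit 589067997) (nat_lit 84) (nat_lit 3886520986) (nat_lit 138) (nat_lit 5) (nat_lit 150) (nat_lit 5) (nat_lit 139) (nat_lit 4) (nat_lit 312) (nat_lit 278) (nat_lit 274)))) (XT.nd (nat_lit 94) (nat_lit 1176) (nat_lit 0) (XT.lf (nat_lit 0) (nat_lit 3437794450) (nat_lit 1008) (nat_lit 1996310973) (nat_lit 1092) (nat_lit 1862303000) (nat_lit 126) (nat_lit 5) (nat_lit 138) (nat_lit 5) (nat_lit 139) (nat_lit 4) (nat_lit 313) (nat_lit 278) (nat_lit 273)) (XT.nd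 (nat_lit 94) (nat_lit 0) (nat_lit 0) (XT.lf (nat_lit 0) (nat_lit 146126762) (nat_lit 1092) (nat_lit 594587322) (nat_lit 1176) (nat_lit 6633108062) (nat_lit 112) (nat_lit 5) (nat_lit 125) (nat_lit 5) (nat_lit 126) (nat_lit 5) (nat_lit 314) (nat_lit 278) (nat_lit 272)) (XT.lf (nat_lit 0) (nat_lit 3354399457) (nat_lit 1176) (nat_lit 3204832854) (nat_lit 84) (nat_lit 895153942) (nat_lit 112) (nat_lit 5) (nat_lit 126) (nat_lit 5) (nat_lit 113) (nat_lit 4) (nat_lit 315) (nat_lit 278) (nat_lit 271))))))))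
noncomputable def xc59 : XT := (XT.nd (nat_lit 2256) (nat_lit 2184) (nat_lit 0) (XT.nd (nat_lit 1128) (nat_lit 2436) (nat_lit 0) (XT.nd (nat_lit 564) (nat_lit 1512) (nat_lit 0) (XT.nd (nat_lit 282) (nat_lit 588) (nat_lit 0) (XT.nd (nat_lit 94) (nat_lit 672) (nat_lit 0) (XT.lf (nat_lit 0) (nat_lit 875376612) (nat_lit 504) (nat_lit 5110450274) (nat_lit 588) (nat_lit 1553941051) (nat_lit 106) (nat_lit 5) (nat_lit 112) (nat_lit 5) (nat_lit 113) (nat_lit 4) (nat_lit 316) (nat_lit 278) (nat_lit 270)) (XT.nd (nat_lit 94) (nat_lit 588) (nat_lit 0) (XT.lf (nat_lit 0) (nat_lit 1005648999) (nat_lit 588) (nat_lit 2567764189) (nat_lit 84) (nat_lit 4055748942) (nat_lit 105) (nat_lit 5) (nat_lit 112) (nat_lit 5) (nat_lit 106) (nat_lit 5) (nat_lit 317) (nat_lit 278) (nat_lit 269)) (XT.lf (nat_lit 0) (nat_lit 1594445536) (nat_lit 588) (nat_lit 1958413887) (nat_lit 672) (nat_lit 4170145296) (nat_lit 98)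 (nat_lit 5) (nat_lit 105) (nat_lit 5) (nat_lit 106) (nat_lit 5) (nat_lit 318) (nat_lit 278) (nat_lit 268)))) (XT.nd (nat_lit 94) (nat_lit 588) (nat_lit 0) (XT.lf (nat_lit 0) (nat_lit 5863260877) (nat_lit 588) (nat_lit 268810298) (nat_lit 672) (nat_lit 1689458228) (nat_lit 98) (nat_lit 5) (nat_lit 105) (nat_lit 5) (nat_lit 106) (nat_lit 5) (nat_lit 319) (nat_lit 278) (nat_lit 267)) (XT.nd (nat_lit 94) (nat_lit 0) (nat_lit 0) (XT.lf (nat_lit 0) (nat_lit 815801640) (nat_lit 588) (nat_lit 5636833567) (nat_lit 84) (nat_lit 1471584505) (nat_lit 91) (nat_lit 5) (nat_lit 98) (nat_lit 5) (nat_lit 92) (nat_lit 5) (nat_lit 320) (nat_lit 278) (nat_lit 266)) (XT.lf (nat_lit 0) (nat_lit 3315838463) (nat_lit 588) (nat_lit 1421543116) (nat_lit 84) (nat_lit 3293947129) (nat_lit 91) (nat_lit 5) (nat_lit 98) (nat_lit 5) (nat_lit 92) (nat_lit 5) (nat_lit 321) (nat_lit 278) (nat_lit 265))))) (XT.nd (nat_lit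 282) (nat_lit 504) (nat_lit 0) (XT.nd (nat_lit 94) (nat_lit 504) (nat_lit 0) (XT.lf (nat_lit 0) (nat_lit 2907327095) (nat_lit 504) (nat_lit 2945840194) (nat_lit 588) (nat_lit 2290117969) (nat_lit 85) (nat_lit 5) (nat_lit 91) (nat_lit 5) (nat_lit 92) (nat_lit 5) (nat_lit 322) (nat_lit 278) (nat_lit 264)) (XT.nd (nat_lit 94) (nat_lit 420) (nat_lit 0) (XT.lf (nat_lit 0) (nat_lit 152514284) (nat_lit 588) (nat_lit 936544090) (nat_lit 84) (nat_lit 7171517722) (nat_lit 84) (nat_lit 5) (nat_lit 91) (nat_lit 5) (nat_lit 85) (nat_lit 5) (nat_lit 323) (nat_lit 278) (nat_lit 263)) (XT.lf (nat_lit 0) (nat_lit 2599794140) (nat_lit 504) (nat_lit 4922403108) (nat_lit 84) (nat_lit 859564316) (nat_lit 79) (nat_lit 5) (nat_lit 85) (nat_lit 5) (nat_lit 80) (nat_lit 5) (nat_lit 324) (nat_lit 278) (nat_lit 262)))) (XT.nd (nat_lit 94) (nat_lit 504) (nat_lit 0) (XT.lf (nat_lit 0) (nat_lit 5078534566) (nat_lit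 504) (nat_lit 581969564) (nat_lit 84) (nat_lit 2847824633) (nat_lit 79) (nat_lit 5) (nat_lit 85) (nat_lit 5) (nat_lit 80) (nat_lit 5) (nat_lit 325) (nat_lit 278) (nat_lit 261)) (XT.nd (nat_lit 94) (nat_lit 84) (nat_lit 0) (XT.lf (nat_lit 0) (nat_lit 3898113861) (nat_lit 420) (nat_lit 3711219683) (nat_lit 504) (nat_lit 1030495210) (nat_lit 74) (nat_lit 5) (nat_lit 79) (nat_lit 5) (nat_lit 80) (nat_lit 5) (nat_lit 326) (nat_lit 278) (nat_lit 260)) (XT.lf (nat_lit 0) (nat_lit 1357110533) (nat_lit 504) (nat_lit 334401408) (nat_lit 84) (nat_lit 7085443003) (nat_lit 73) (nat_lit 5) (nat_lit 79) (nat_lit 5) (nat_lit 74) (nat_lit 5) (nat_lit 327) (nat_lit 278) (nat_lit 259)))))) (XT.nd (nat_lit 564) (nat_lit 1176) (nat_lit 0) (XT.nd (nat_lit 282) (nat_lit 420) (nat_lit 0) (XT.nd (nat_lit 94) (nat_lit 420) (nat_lit 0) (XT.lf (nat_lit 0) (nat_lit 3782180670) (nat_lit 504) (nat_lit 4711265812)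 (nat_lit 84) (nat_lit 425248218) (nat_lit 68) (nat_lit 5) (nat_lit 74) (nat_lit 5) (nat_lit 69) (nat_lit 5) (nat_lit 328) (nat_lit 278) (nat_lit 258)) (XT.nd (nat_lit 94) (nat_lit 420) (nat_lit 0) (XT.lf (nat_lit 0) (nat_lit 6243044725) (nat_lit 504) (nat_lit 258139128) (nat_lit 84) (nat_lit 2565078672) (nat_lit 68) (nat_lit 5) (nat_lit 74) (nat_lit 5) (nat_lit 69) (nat_lit 5) (nat_lit 329) (nat_lit 278) (nat_lit 257)) (XT.lf (nat_lit 0) (nat_lit 4349643810) (nat_lit 420) (nat_lit 4415301527) (nat_lit 504) (nat_lit 454139214) (nat_lit 63) (nat_lit 5) (nat_lit 68) (nat_lit 5) (nat_lit 69) (nat_lit 5) (nat_lit 330) (nat_lit 278) (nat_lit 256)))) (XT.nd (nat_lit 94) (nat_lit 336) (nat_lit 0) (XT.lf (nat_lit 0) (nat_lit 1892917576) (nat_lit 504) (nat_lit 362269599) (nat_lit 84) (nat_lit 7122757456) (nat_lit 62) (nat_lit 5) (nat_lit 68) (nat_lit 5) (nat_lit 63) (nat_lit 5) (nat_lit 331) (nat_lit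 278) (nat_lit 255)) (XT.nd (nat_lit 94) (nat_lit 0) (nat_lit 0) (XT.lf (nat_lit 0) (nat_lit 4289624393) (nat_lit 420) (nat_lit 5245261257) (nat_lit 84) (nat_lit 7312407) (nat_lit 58) (nat_lit 5) (nat_lit 63) (nat_lit 5) (nat_lit 59) (nat_lit 5) (nat_lit 332) (nat_lit 278) (nat_lit 254)) (XT.lf (nat_lit 0) (nat_lit 6732016860) (nat_lit 420) (nat_lit 696874357) (nat_lit 84) (nat_lit 2283722169) (nat_lit 58) (nat_lit 5) (nat_lit 63) (nat_lit 5) (nat_lit 59) (nat_lit 5) (nat_lit 333) (nat_lit 278) (nat_lit 253))))) (XT.nd (nat_lit 282) (nat_lit 420) (nat_lit 0) (XT.nd (nat_lit 94) (nat_lit 420) (nat_lit 0) (XT.lf (nat_lit 0) (nat_lit 4004718744) (nat_lit 336) (nat_lit 5231303202) (nat_lit 420) (nat_lit 652904351) (nat_lit 54) (nat_lit 5) (nat_lit 58) (nat_lit 5) (nat_lit 59) (nat_lit 5) (nat_lit 334) (nat_lit 278) (nat_lit 252)) (XT.nd (nat_lit 94) (nat_lit 336) (nat_lit 0) (XT.lf (nat_lit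 0) (nat_lit 1665505138) (nat_lit 420) (nat_lit 1290104800) (nat_lit 84) (nat_lit 7116158352) (nat_lit 53) (nat_lit 5) (nat_lit 58) (nat_lit 5) (nat_lit 54) (nat_lit 5) (nat_lit 335) (nat_lit 278) (nat_lit 251)) (XT.lf (nat_lit 0) (nat_lit 3442108979) (nat_lit 336) (nat_lit 582279138) (nat_lit 420) (nat_lit 6236398160) (nat_lit 49) (nat_lit 5) (nat_lit 53) (nat_lit 5) (nat_lit 54) (nat_lit 5) (nat_lit 336) (nat_lit 278) (nat_lit 250)))) (XT.nd (nat_lit 94) (nat_lit 420) (nat_lit 0) (XT.lf (nat_lit 0) (nat_lit 6437270767) (nat_lit 420) (nat_lit 2193401143) (nat_lit 84) (nat_lit 1825741959) (nat_lit 49) (nat_lit 5) (nat_lit 54) (nat_lit 5) (nat_lit 50) (nat_lit 5) (nat_lit 337) (nat_lit 278) (nat_lit 249)) (XT.nd (nat_lit 94) (nat_lit 84) (nat_lit 0) (XT.lf (nat_lit 0) (nat_lit 2554930041) (nat_lit 336) (nat_lit 6351636799) (nat_lit 420) (nat_lit 1752261464) (nat_lit 45) (nat_lit 5) (nat_lit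 49) (nat_lit 5) (nat_lit 50) (nat_lit 5) (nat_lit 338) (nat_lit 278) (nat_lit 248)) (XT.lf (nat_lit 0) (nat_lit 546754441) (nat_lit 420) (nat_lit 3442229329) (nat_lit 84) (nat_lit 6879314341) (nat_lit 44) (nat_lit 5) (nat_lit 49) (nat_lit 5) (nat_lit 45) (nat_lit 5) (nat_lit 339) (nat_lit 278) (nat_lit 247))))))) (XT.nd (nat_lit 1128) (nat_lit 840) (nat_lit 0) (XT.nd (nat_lit 564) (nat_lit 504) (nat_lit 0) (XT.nd (nat_lit 282) (nat_lit 588) (nat_lit 0) (XT.nd (nat_lit 94) (nat_lit 0) (nat_lit 0) (XT.lf (nat_lit 0) (nat_lit 1308035087) (nat_lit 252) (nat_lit 1537586368) (nat_lit 336) (nat_lit 8239309158) (nat_lit 41) (nat_lit 5) (nat_lit 44) (nat_lit 5) (nat_lit 45) (nat_lit 5) (nat_lit 340) (nat_lit 278) (nat_lit 246)) (XT.nd (nat_lit 94) (nat_lit 0) (nat_lit 0) (XT.lf (nat_lit 0) (nat_lit 5214521391) (nat_lit 336) (nat_lit 5103951275) (nat_lit 84) (nat_lit 989979149) (nat_lit 41) (nat_lit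 5) (nat_lit 45) (nat_lit 5) (nat_lit 42) (nat_lit 5) (nat_lit 341) (nat_lit 278) (nat_lit 245)) (XT.lf (nat_lit 0) (nat_lit 7626658549) (nat_lit 336) (nat_lit 365044360) (nat_lit 84) (nat_lit 3548266270) (nat_lit 41) (nat_lit 5) (nat_lit 45) (nat_lit 5) (nat_lit 42) (nat_lit 5) (nat_lit 342) (nat_lit 278) (nat_lit 244)))) (XT.nd (nat_lit 94) (nat_lit 336) (nat_lit 0) (XT.lf (nat_lit 0) (nat_lit 4551191794) (nat_lit 252) (nat_lit 5562984837) (nat_lit 336) (nat_lit 1664595117) (nat_lit 38) (nat_lit 5) (nat_lit 41) (nat_lit 5) (nat_lit 42) (nat_lit 5) (nat_lit 343) (nat_lit 278) (nat_lit 243)) (XT.nd (nat_lit 94) (nat_lit 252) (nat_lit 0) (XT.lf (nat_lit 0) (nat_lit 600131924) (nat_lit 336) (nat_lit 2465498848) (nat_lit 84) (nat_lit 8960521038) (nat_lit 37) (nat_lit 5) (nat_lit 41) (nat_lit 5) (nat_lit 38) (nat_lit 5) (nat_lit 344) (nat_lit 278) (nat_lit 242)) (XT.lf (nat_lit 0) (nat_lit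 2416029480) (nat_lit 252) (nat_lit 465385323) (nat_lit 336) (nat_lit 9399965153) (nat_lit 34) (nat_lit 5) (nat_lit 37) (nat_lit 5) (nat_lit 38) (nat_lit 5) (nat_lit 345) (nat_lit 278) (nat_lit 241))))) (XT.nd (nat_lit 282) (nat_lit 252) (nat_lit 0) (XT.nd (nat_lit 94) (nat_lit 252) (nat_lit 0) (XT.lf (nat_lit 0) (nat_lit 5238891736) (nat_lit 336) (nat_lit 5125292249) (nat_lit 84) (nat_lit 2180278808) (nat_lit 34) (nat_lit 5) (nat_lit 38) (nat_lit 5) (nat_lit 35) (nat_lit 5) (nat_lit 346) (nat_lit 278) (nat_lit 240)) (XT.nd (nat_lit 94) (nat_lit 252) (nat_lit 0) (XT.lf (nat_lit 0) (nat_lit 7632986792) (nat_lit 336) (nat_lit 301714864) (nat_lit 84) (nat_lit 4882238861) (nat_lit 34) (nat_lit 5) (nat_lit 38) (nat_lit 5) (nat_lit 35) (nat_lit 5) (nat_lit 347) (nat_lit 278) (nat_lit 239)) (XT.lf (nat_lit 0) (nat_lit 4709377906) (nat_lit 252) (nat_lit 5398654542) (nat_lit 336) (nat_lit 2989729528)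 (nat_lit 31) (nat_lit 5) (nat_lit 34) (nat_lit 5) (nat_lit 35) (nat_lit 5) (nat_lit 348) (nat_lit 278) (nat_lit 238)))) (XT.nd (nat_lit 94) (nat_lit 252) (nat_lit 0) (XT.lf (nat_lit 0) (nat_lit 9825887817) (nat_lit 252) (nat_lit 2797725532) (nat_lit 336) (nat_lit 764899969) (nat_lit 31) (nat_lit 5) (nat_lit 34) (nat_lit 5) (nat_lit 35) (nat_lit 5) (nat_lit 349) (nat_lit 278) (nat_lit 237)) (XT.nd (nat_lit 94) (nat_lit 0) (nat_lit 0) (XT.lf (nat_lit 0) (nat_lit 1369639427) (nat_lit 168) (nat_lit 103397717) (nat_lit 252) (nat_lit 12215643863) (nat_lit 28) (nat_lit 5) (nat_lit 30) (nat_lit 5) (nat_lit 31) (nat_lit 5) (nat_lit 350) (nat_lit 278) (nat_lit 236)) (XT.lf (nat_lit 0) (nat_lit 3790362891) (nat_lit 252) (nat_lit 7557467958) (nat_lit 84) (nat_lit 2649371109) (nat_lit 28) (nat_lit 5) (nat_lit 31) (nat_lit 5) (nat_lit 29) (nat_lit 5) (nat_lit 351) (nat_lit 278) (nat_lit 235))))))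 (XT.nd (nat_lit 564) (nat_lit 336) (nat_lit 0) (XT.nd (nat_lit 282) (nat_lit 252) (nat_lit 0) (XT.nd (nat_lit 94) (nat_lit 252) (nat_lit 0) (XT.lf (nat_lit 0) (nat_lit 6143535337) (nat_lit 252) (nat_lit 2703720206) (nat_lit 84) (nat_lit 5469237927) (nat_lit 28) (nat_lit 5) (nat_lit 31) (nat_lit 5) (nat_lit 29) (nat_lit 5) (nat_lit 352) (nat_lit 278) (nat_lit 234)) (XT.nd (nat_lit 94) (nat_lit 0) (nat_lit 0) (XT.lf (nat_lit 0) (nat_lit 2293969976) (nat_lit 252) (nat_lit 6262508657) (nat_lit 336) (nat_lit 6089700871) (nat_lit 25) (nat_lit 5) (nat_lit 28) (nat_lit 5) (nat_lit 29) (nat_lit 5) (nat_lit 353) (nat_lit 278) (nat_lit 233)) (XT.lf (nat_lit 0) (nat_lit 7451697839) (nat_lit 252) (nat_lit 3585375213) (nat_lit 336) (nat_lit 3949319744) (nat_lit 25) (nat_lit 5) (nat_lit 28) (nat_lit 5) (nat_lit 29) (nat_lit 5) (nat_lit 354) (nat_lit 278) (nat_lit 232)))) (XT.nd (nat_lit 94) (nat_lit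 252) (nat_lit 0) (XT.lf (nat_lit 0) (nat_lit 12718676890) (nat_lit 252) (nat_lit 841581138) (nat_lit 336) (nat_lit 1778040987) (nat_lit 25) (nat_lit 5) (nat_lit 28) (nat_lit 5) (nat_lit 29) (nat_lit 5) (nat_lit 355) (nat_lit 278) (nat_lit 231)) (XT.nd (nat_lit 94) (nat_lit 0) (nat_lit 0) (XT.lf (nat_lit 0) (nat_lit 461651647) (nat_lit 252) (nat_lit 13278616649) (nat_lit 84) (nat_lit 1960460390) (nat_lit 22) (nat_lit 5) (nat_lit 25) (nat_lit 5) (nat_lit 23) (nat_lit 5) (nat_lit 356) (nat_lit 278) (nat_lit 230)) (XT.lf (nat_lit 0) (nat_lit 2736738368) (nat_lit 252) (nat_lit 8475268191) (nat_lit 84) (nat_lit 4861809076) (nat_lit 22) (nat_lit 5) (nat_lit 25) (nat_lit 5) (nat_lit 23) (nat_lit 5) (nat_lit 357) (nat_lit 278) (nat_lit 229))))) (XT.nd (nat_lit 282) (nat_lit 168) (nat_lit 0) (XT.nd (nat_lit 94) (nat_lit 168) (nat_lit 0) (XT.lf (nat_lit 0) (nat_lit 5050022194) (nat_lit 252) (nat_lit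 3571827283) (nat_lit 84) (nat_lit 7837694307) (nat_lit 22) (nat_lit 5) (nat_lit 25) (nat_lit 5) (nat_lit 23) (nat_lit 5) (nat_lit 358) (nat_lit 278) (nat_lit 228)) (XT.nd (nat_lit 94) (nat_lit 0) (nat_lit 0) (XT.lf (nat_lit 0) (nat_lit 1465809388) (nat_lit 168) (nat_lit 5952390972) (nat_lit 252) (nat_lit 9439621540) (nat_lit 20) (nat_lit 5) (nat_lit 22) (nat_lit 5) (nat_lit 23) (nat_lit 5) (nat_lit 359) (nat_lit 278) (nat_lit 227)) (XT.lf (nat_lit 0) (nat_lit 6688469274) (nat_lit 168) (nat_lit 3177724840) (nat_lit 252) (nat_lit 7402122978) (nat_lit 20) (nat_lit 5) (nat_lit 22) (nat_lit 5) (nat_lit 23) (nat_lit 5) (nat_lit 360) (nat_lit 278) (nat_lit 226)))) (XT.nd (nat_lit 94) (nat_lit 168) (nat_lit 0) (XT.lf (nat_lit 0) (nat_lit 12027576344) (nat_lit 168) (nat_lit 332547354) (nat_lit 252) (nat_lit 5332409292) (nat_lit 20) (nat_lit 5) (nat_lit 22) (nat_lit 5) (nat_lit 23) (nat_lit 5)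 (nat_lit 361) (nat_lit 278) (nat_lit 225)) (XT.nd (nat_lit 94) (nat_lit 168) (nat_lit 0) (XT.lf (nat_lit 0) (nat_lit 14927965109) (nat_lit 252) (nat_lit 668409194) (nat_lit 84) (nat_lit 2533695513) (nat_lit 20) (nat_lit 5) (nat_lit 23) (nat_lit 5) (nat_lit 21) (nat_lit 4) (nat_lit 362) (nat_lit 278) (nat_lit 224)) (XT.lf (nat_lit 0) (nat_lit 4527290267) (nat_lit 168) (nat_lit 13068109238) (nat_lit 252) (nat_lit 985213977) (nat_lit 18) (nat_lit 5) (nat_lit 20) (nat_lit 5) (nat_lit 21) (nat_lit 4) (nat_lit 363) (nat_lit 278) (nat_lit 223))))))))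
noncomputable def xc60 : XT := (XT.nd (nat_lit 2256) (nat_lit 252) (nat_lit 0) (XT.nd (nat_lit 1128) (nat_lit 336) (nat_lit 0) (XT.nd (nat_lit 564) (nat_lit 336) (nat_lit 0) (XT.nd (nat_lit 282) (nat_lit 0) (nat_lit 0) (XT.nd (nat_lit 94) (nat_lit 168) (nat_lit 0) (XT.lf (nat_lit 0) (nat_lit 1253004623) (nat_lit 252) (nat_lit 9203406424) (nat_lit 84) (nat_lit 8589029274) (nat_lit 17) (nat_lit 5) (nat_lit 20) (nat_lit 5) (nat_lit 18) (nat_lit 5) (nat_lit 364) (nat_lit 278) (nat_lit 222)) (XT.nd (nat_lit 94) (nat_lit 168) (nat_lit 0) (XT.lf (nat_lit 0) (nat_lit 3512748268) (nat_lit 252) (nat_lit 4255656609) (nat_lit 84) (nat_lit 11756866159) (nat_lit 17) (nat_lit 5) (nat_lit 20) (nat_lit 5) (nat_lit 18) (nat_lit 5) (nat_lit 365) (nat_lit 278) (nat_lit 221)) (XT.lf (nat_lit 0) (nat_lit 820849790) (nat_lit 168) (nat_lit 5003266283) (nat_lit 252) (nat_lit 14196487351) (nat_lit 15) (nat_lit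 5) (nat_lit 17) (nat_lit 5) (nat_lit 18) (nat_lit 5) (nat_lit 366) (nat_lit 278) (nat_lit 220)))) (XT.nd (nat_lit 94) (nat_lit 0) (nat_lit 0) (XT.lf (nat_lit 0) (nat_lit 6104200346) (nat_lit 168) (nat_lit 2121180168) (nat_lit 252) (nat_lit 12305399015) (nat_lit 15) (nat_lit 5) (nat_lit 17) (nat_lit 5) (nat_lit 18) (nat_lit 5) (nat_lit 367) (nat_lit 278) (nat_lit 219)) (XT.nd (nat_lit 94) (nat_lit 0) (nat_lit 0) (XT.lf (nat_lit 0) (nat_lit 10683989527) (nat_lit 252) (nat_lit 9554090256) (nat_lit 84) (nat_lit 819273602) (nat_lit 15) (nat_lit 5) (nat_lit 18) (nat_lit 5) (nat_lit 16) (nat_lit 4) (nat_lit 368) (nat_lit 278) (nat_lit 218)) (XT.lf (nat_lit 0) (nat_lit 13215748498) (nat_lit 252) (nat_lit 4591258885) (nat_lit 84) (nat_lit 3793389509) (nat_lit 15) (nat_lit 5) (nat_lit 18) (nat_lit 5) (nat_lit 16) (nat_lit 4) (nat_lit 369) (nat_lit 278) (nat_lit 217))))) (XT.nd (nat_lit 282) (nat_lit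 252) (nat_lit 0) (XT.nd (nat_lit 94) (nat_lit 0) (nat_lit 0) (XT.lf (nat_lit 0) (nat_lit 497608887) (nat_lit 84) (nat_lit 15309302374) (nat_lit 168) (nat_lit 6354004248) (nat_lit 14) (nat_lit 5) (nat_lit 15) (nat_lit 5) (nat_lit 16) (nat_lit 4) (nat_lit 370) (nat_lit 278) (nat_lit 216)) (XT.nd (nat_lit 94) (nat_lit 0) (nat_lit 0) (XT.lf (nat_lit 0) (nat_lit 5804109822) (nat_lit 84) (nat_lit 12698547092) (nat_lit 168) (nat_lit 4235449104) (nat_lit 14) (nat_lit 5) (nat_lit 15) (nat_lit 5) (nat_lit 16) (nat_lit 4) (nat_lit 371) (nat_lit 278) (nat_lit 215)) (XT.lf (nat_lit 0) (nat_lit 11238784436) (nat_lit 84) (nat_lit 10020231367) (nat_lit 168) (nat_lit 2074931573) (nat_lit 14) (nat_lit 5) (nat_lit 15) (nat_lit 5) (nat_lit 16) (nat_lit 4) (nat_lit 372) (nat_lit 278) (nat_lit 214)))) (XT.nd (nat_lit 94) (nat_lit 168) (nat_lit 0) (XT.lf (nat_lit 0) (nat_lit 126951783) (nat_lit 168) (nat_lit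 7143581826) (nat_lit 84) (nat_lit 16678421515) (nat_lit 13) (nat_lit 5) (nat_lit 15) (nat_lit 5) (nat_lit 14) (nat_lit 5) (nat_lit 373) (nat_lit 278) (nat_lit 213)) (XT.nd (nat_lit 94) (nat_lit 168) (nat_lit 0) (XT.lf (nat_lit 0) (nat_lit 2332133505) (nat_lit 168) (nat_lit 2094391204) (nat_lit 84) (nat_lit 20156565441) (nat_lit 13) (nat_lit 5) (nat_lit 15) (nat_lit 5) (nat_lit 14) (nat_lit 5) (nat_lit 374) (nat_lit 278) (nat_lit 212)) (XT.lf (nat_lit 0) (nat_lit 3140982679) (nat_lit 168) (nat_lit 1474650556) (nat_lit 252) (nat_lit 20620982462) (nat_lit 11) (nat_lit 5) (nat_lit 13) (nat_lit 5) (nat_lit 14) (nat_lit 5) (nat_lit 375) (nat_lit 278) (nat_lit 211)))))) (XT.nd (nat_lit 564) (nat_lit 252) (nat_lit 0) (XT.nd (nat_lit 282) (nat_lit 84) (nat_lit 0) (XT.nd (nat_lit 94) (nat_lit 0) (nat_lit 0) (XT.lf (nat_lit 0) (nat_lit 6986551022) (nat_lit 252) (nat_lit 17376304900) (nat_lit 84)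 (nat_lit 1547068877) (nat_lit 11) (nat_lit 5) (nat_lit 14) (nat_lit 5) (nat_lit 12) (nat_lit 4) (nat_lit 376) (nat_lit 278) (nat_lit 210)) (XT.nd (nat_lit 94) (nat_lit 0) (nat_lit 0) (XT.lf (nat_lit 0) (nat_lit 9425664224) (nat_lit 252) (nat_lit 12558591636) (nat_lit 84) (nat_lit 4620053601) (nat_lit 11) (nat_lit 5) (nat_lit 14) (nat_lit 5) (nat_lit 12) (nat_lit 4) (nat_lit 377) (nat_lit 278) (nat_lit 209)) (XT.lf (nat_lit 0) (nat_lit 11920617635) (nat_lit 252) (nat_lit 7623373897) (nat_lit 84) (nat_lit 7776878883) (nat_lit 11) (nat_lit 5) (nat_lit 14) (nat_lit 5) (nat_lit 12) (nat_lit 4) (nat_lit 378) (nat_lit 278) (nat_lit 208)))) (XT.nd (nat_lit 94) (nat_lit 84) (nat_lit 0) (XT.lf (nat_lit 0) (nat_lit 14473736813) (nat_lit 252) (nat_lit 2566051543) (nat_lit 84) (nat_lit 11020487214) (nat_lit 11) (nat_lit 5) (nat_lit 14) (nat_lit 5) (nat_lit 12) (nat_lit 4) (nat_lit 379) (nat_lit 278)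 (nat_lit 207)) (XT.nd (nat_lit 94) (nat_lit 0) (nat_lit 0) (XT.lf (nat_lit 0) (nat_lit 2671922667) (nat_lit 84) (nat_lit 14441984667) (nat_lit 168) (nat_lit 11708485112) (nat_lit 10) (nat_lit 5) (nat_lit 11) (nat_lit 5) (nat_lit 12) (nat_lit 4) (nat_lit 380) (nat_lit 278) (nat_lit 206)) (XT.lf (nat_lit 0) (nat_lit 8097017902) (nat_lit 84) (nat_lit 11747353517) (nat_lit 168) (nat_lit 9763535780) (nat_lit 10) (nat_lit 5) (nat_lit 11) (nat_lit 5) (nat_lit 12) (nat_lit 4) (nat_lit 381) (nat_lit 278) (nat_lit 205))))) (XT.nd (nat_lit 282) (nat_lit 252) (nat_lit 0) (XT.nd (nat_lit 94) (nat_lit 0) (nat_lit 0) (XT.lf (nat_lit 0) (nat_lit 13661527635) (nat_lit 84) (nat_lit 8980167544) (nat_lit 168) (nat_lit 7776662179) (nat_lit 10) (nat_lit 5) (nat_lit 11) (nat_lit 5) (nat_lit 12) (nat_lit 4) (nat_lit 382) (nat_lit 278) (nat_lit 204)) (XT.nd (nat_lit 94) (nat_lit 0) (nat_lit 0) (XT.lf (nat_lit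 0) (nat_lit 19370638572) (nat_lit 84) (nat_lit 6137847440) (nat_lit 168) (nat_lit 5746012335) (nat_lit 10) (nat_lit 5) (nat_lit 11) (nat_lit 5) (nat_lit 12) (nat_lit 4) (nat_lit 383) (nat_lit 278) (nat_lit 203)) (XT.lf (nat_lit 0) (nat_lit 25229672202) (nat_lit 84) (nat_lit 3217743865) (nat_lit 168) (nat_lit 3669693469) (nat_lit 10) (nat_lit 5) (nat_lit 11) (nat_lit 5) (nat_lit 12) (nat_lit 4) (nat_lit 384) (nat_lit 278) (nat_lit 202)))) (XT.nd (nat_lit 94) (nat_lit 252) (nat_lit 0) (XT.lf (nat_lit 0) (nat_lit 31244089758) (nat_lit 84) (nat_lit 217134976) (nat_lit 168) (nat_lit 1545770236) (nat_lit 10) (nat_lit 5) (nat_lit 11) (nat_lit 5) (nat_lit 12) (nat_lit 4) (nat_lit 385) (nat_lit 278) (nat_lit 201)) (XT.nd (nat_lit 94) (nat_lit 0) (nat_lit 0) (XT.lf (nat_lit 0) (nat_lit 679269004) (nat_lit 252) (nat_lit 30392547671) (nat_lit 84) (nat_lit 2850984836) (nat_lit 7) (nat_lit 5) (nat_lit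 10) (nat_lit 5) (nat_lit 8) (nat_lit 4) (nat_lit 386) (nat_lit 278) (nat_lit 200)) (XT.lf (nat_lit 0) (nat_lit 2946183112) (nat_lit 252) (nat_lit 25885741041) (nat_lit 84) (nat_lit 6034456135) (nat_lit 7) (nat_lit 5) (nat_lit 10) (nat_lit 5) (nat_lit 8) (nat_lit 4) (nat_lit 387) (nat_lit 278) (nat_lit 199))))))) (XT.nd (nat_lit 1128) (nat_lit 168) (nat_lit 0) (XT.nd (nat_lit 564) (nat_lit 0) (nat_lit 0) (XT.nd (nat_lit 282) (nat_lit 84) (nat_lit 0) (XT.nd (nat_lit 94) (nat_lit 0) (nat_lit 0) (XT.lf (nat_lit 0) (nat_lit 5268044537) (nat_lit 252) (nat_lit 21264410928) (nat_lit 84) (nat_lit 9307256429) (nat_lit 7) (nat_lit 5) (nat_lit 10) (nat_lit 5) (nat_lit 8) (nat_lit 4) (nat_lit 388) (nat_lit 278) (nat_lit 198)) (XT.nd (nat_lit 94) (nat_lit 0) (nat_lit 0) (XT.lf (nat_lit 0) (nat_lit 7647017496) (nat_lit 252) (nat_lit 16524249769) (nat_lit 84) (nat_lit 12672436312) (nat_lit 7) (nat_lit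 5) (nat_lit 10) (nat_lit 5) (nat_lit 8) (nat_lit 4) (nat_lit 389) (nat_lit 278) (nat_lit 197)) (XT.lf (nat_lit 0) (nat_lit 10085319441) (nat_lit 252) (nat_lit 11660839238) (nat_lit 84) (nat_lit 16133132483) (nat_lit 7) (nat_lit 5) (nat_lit 10) (nat_lit 5) (nat_lit 8) (nat_lit 4) (nat_lit 390) (nat_lit 278) (nat_lit 196)))) (XT.nd (nat_lit 94) (nat_lit 84) (nat_lit 0) (XT.lf (nat_lit 0) (nat_lit 12585223124) (nat_lit 252) (nat_lit 6669646125) (nat_lit 84) (nat_lit 19692570673) (nat_lit 7) (nat_lit 5) (nat_lit 10) (nat_lit 5) (nat_lit 8) (nat_lit 4) (nat_lit 391) (nat_lit 278) (nat_lit 195)) (XT.nd (nat_lit 94) (nat_lit 84) (nat_lit 0) (XT.lf (nat_lit 0) (nat_lit 15149058719) (nat_lit 252) (nat_lit 1546018116) (nat_lit 84) (nat_lit 23354068652) (nat_lit 7) (nat_lit 5) (nat_lit 10) (nat_lit 5) (nat_lit 8) (nat_lit 4) (nat_lit 392) (nat_lit 278) (nat_lit 194)) (XT.lf (nat_lit 0) (nat_lit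 3791204874) (nat_lit 84) (nat_lit 14025620335) (nat_lit 168) (nat_lit 23367443667) (nat_lit 6) (nat_lit 5) (nat_lit 7) (nat_lit 5) (nat_lit 8) (nat_lit 4) (nat_lit 393) (nat_lit 278) (nat_lit 193))))) (XT.nd (nat_lit 282) (nat_lit 0) (nat_lit 0) (XT.nd (nat_lit 94) (nat_lit 0) (nat_lit 0) (XT.lf (nat_lit 0) (nat_lit 9305253637) (nat_lit 84) (nat_lit 11265202144) (nat_lit 168) (nat_lit 21784049517) (nat_lit 6) (nat_lit 5) (nat_lit 7) (nat_lit 5) (nat_lit 8) (nat_lit 4) (nat_lit 394) (nat_lit 278) (nat_lit 192)) (XT.nd (nat_lit 94) (nat_lit 0) (nat_lit 0) (XT.lf (nat_lit 0) (nat_lit 14969478539) (nat_lit 84) (nat_lit 8427386522) (nat_lit 168) (nat_lit 20164565690) (nat_lit 6) (nat_lit 5) (nat_lit 7) (nat_lit 5) (nat_lit 8) (nat_lit 4) (nat_lit 395) (nat_lit 278) (nat_lit 191)) (XT.lf (nat_lit 0) (nat_lit 20789159232) (nat_lit 84) (nat_lit 5509528327) (nat_lit 168) (nat_lit 18507482656)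 (nat_lit 6) (nat_lit 5) (nat_lit 7) (nat_lit 5) (nat_lit 8) (nat_lit 4) (nat_lit 396) (nat_lit 278) (nat_lit 190)))) (XT.nd (nat_lit 94) (nat_lit 0) (nat_lit 0) (XT.lf (nat_lit 0) (nat_lit 26769720266) (nat_lit 84) (nat_lit 2508907811) (nat_lit 168) (nat_lit 16811255841) (nat_lit 6) (nat_lit 5) (nat_lit 7) (nat_lit 5) (nat_lit 8) (nat_lit 4) (nat_lit 397) (nat_lit 278) (nat_lit 189)) (XT.nd (nat_lit 94) (nat_lit 0) (nat_lit 0) (XT.lf (nat_lit 0) (nat_lit 32345190841) (nat_lit 168) (nat_lit 14502758872) (nat_lit 0) (nat_lit 565641177) (nat_lit 6) (nat_lit 5) (nat_lit 8) (nat_lit 4) (nat_lit 6) (nat_lit 4) (nat_lit 398) (nat_lit 278) (nat_lit 188)) (XT.lf (nat_lit 0) (nat_lit 35521268233) (nat_lit 168) (nat_lit 9580340342) (nat_lit 0) (nat_lit 3676295335) (nat_lit 6) (nat_lit 5) (nat_lit 8) (nat_lit 4) (nat_lit 6) (nat_lit 4) (nat_lit 399) (nat_lit 278) (nat_lit 187)))))) (XT.nd (nat_lit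 564) (nat_lit 84) (nat_lit 0) (XT.nd (nat_lit 282) (nat_lit 0) (nat_lit 0) (XT.nd (nat_lit 94) (nat_lit 84) (nat_lit 0) (XT.lf (nat_lit 0) (nat_lit 38784932013) (nat_lit 168) (nat_lit 4523431177) (nat_lit 0) (nat_lit 6876503022) (nat_lit 6) (nat_lit 5) (nat_lit 8) (nat_lit 4) (nat_lit 6) (nat_lit 4) (nat_lit 400) (nat_lit 278) (nat_lit 186)) (XT.nd (nat_lit 94) (nat_lit 0) (nat_lit 0) (XT.lf (nat_lit 0) (nat_lit 686513918) (nat_lit 84) (nat_lit 41459520643) (nat_lit 84) (nat_lit 9489543549) (nat_lit 5) (nat_lit 4) (nat_lit 6) (nat_lit 5) (nat_lit 6) (nat_lit 4) (nat_lit 401) (nat_lit 278) (nat_lit 185)) (XT.lf (nat_lit 0) (nat_lit 6136479476) (nat_lit 84) (nat_lit 39511666681) (nat_lit 84) (nat_lit 7481992105) (nat_lit 5) (nat_lit 4) (nat_lit 6) (nat_lit 5) (nat_lit 6) (nat_lit 4) (nat_lit 402) (nat_lit 278) (nat_lit 184)))) (XT.nd (nat_lit 94) (nat_lit 0) (nat_lit 0) (XT.lf (nat_lit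 0) (nat_lit 11738534411) (nat_lit 84) (nat_lit 37510201043) (nat_lit 84) (nat_lit 5422623965) (nat_lit 5) (nat_lit 4) (nat_lit 6) (nat_lit 5) (nat_lit 6) (nat_lit 4) (nat_lit 403) (nat_lit 278) (nat_lit 183)) (XT.nd (nat_lit 94) (nat_lit 0) (nat_lit 0) (XT.lf (nat_lit 0) (nat_lit 17497900427) (nat_lit 84) (nat_lit 35453258155) (nat_lit 84) (nat_lit 3309519580) (nat_lit 5) (nat_lit 4) (nat_lit 6) (nat_lit 5) (nat_lit 6) (nat_lit 4) (nat_lit 404) (nat_lit 278) (nat_lit 182)) (XT.lf (nat_lit 0) (nat_lit 23419945856) (nat_lit 84) (nat_lit 33338920731) (nat_lit 84) (nat_lit 1140709317) (nat_lit 5) (nat_lit 4) (nat_lit 6) (nat_lit 5) (nat_lit 6) (nat_lit 4) (nat_lit 405) (nat_lit 278) (nat_lit 181))))) (XT.nd (nat_lit 282) (nat_lit 0) (nat_lit 0) (XT.nd (nat_lit 94) (nat_lit 0) (nat_lit 0) (XT.lf (nat_lit 0) (nat_lit 1063951360) (nat_lit 168) (nat_lit 30090161155) (nat_lit 84) (nat_lit 28435133833)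 (nat_lit 4) (nat_lit 5) (nat_lit 6) (nat_lit 5) (nat_lit 5) (nat_lit 4) (nat_lit 406) (nat_lit 278) (nat_lit 180)) (XT.nd (nat_lit 94) (nat_lit 0) (nat_lit 0) (XT.lf (nat_lit 0) (nat_lit 3304227198) (nat_lit 168) (nat_lit 25591407248) (nat_lit 84) (nat_lit 32435595044) (nat_lit 4) (nat_lit 5) (nat_lit 6) (nat_lit 5) (nat_lit 5) (nat_lit 4) (nat_lit 407) (nat_lit 278) (nat_lit 179)) (XT.lf (nat_lit 0) (nat_lit 5605189118) (nat_lit 168) (nat_lit 20967859040) (nat_lit 84) (nat_lit 36554451677) (nat_lit 4) (nat_lit 5) (nat_lit 6) (nat_lit 5) (nat_lit 5) (nat_lit 4) (nat_lit 408) (nat_lit 278) (nat_lit 178)))) (XT.nd (nat_lit 94) (nat_lit 0) (nat_lit 0) (XT.lf (nat_lit 0) (nat_lit 7968981857) (nat_lit 168) (nat_lit 16215206899) (nat_lit 84) (nat_lit 40795542938) (nat_lit 4) (nat_lit 5) (nat_lit 6) (nat_lit 5) (nat_lit 5) (nat_lit 4) (nat_lit 409) (nat_lit 278) (nat_lit 177)) (XT.nd (nat_lit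 94) (nat_lit 0) (nat_lit 0) (XT.lf (nat_lit 0) (nat_lit 10397808718) (nat_lit 168) (nat_lit 11329020856) (nat_lit 84) (nat_lit 45162821968) (nat_lit 4) (nat_lit 5) (nat_lit 6) (nat_lit 5) (nat_lit 5) (nat_lit 4) (nat_lit 410) (nat_lit 278) (nat_lit 176)) (XT.lf (nat_lit 0) (nat_lit 12893933622) (nat_lit 168) (nat_lit 6304746473) (nat_lit 84) (nat_lit 49660359529) (nat_lit 4) (nat_lit 5) (nat_lit 6) (nat_lit 5) (nat_lit 5) (nat_lit 4) (nat_lit 411) (nat_lit 278) (nat_lit 175))))))))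
noncomputable def xc61 : XT := (XT.nd (nat_lit 46060) (nat_lit 0) (nat_lit 2352) (XT.nd (nat_lit 44932) (nat_lit 0) (nat_lit 6384) (XT.nd (nat_lit 44368) (nat_lit 0) (nat_lit 11340) (XT.nd (nat_lit 282) (nat_lit 0) (nat_lit 0) (XT.nd (nat_lit 94) (nat_lit 84) (nat_lit 0) (XT.lf (nat_lit 0) (nat_lit 15459683218) (nat_lit 168) (nat_lit 1137700601) (nat_lit 84) (nat_lit 54292347798) (nat_lit 4) (nat_lit 5) (nat_lit 6) (nat_lit 5) (nat_lit 5) (nat_lit 4) (nat_lit 412) (nat_lit 278) (nat_lit 174)) (XT.nd (nat_lit 94) (nat_lit 0) (nat_lit 0) (XT.lf (nat_lit 0) (nat_lit 4262819296) (nat_lit 84) (nat_lit 13876917454) (nat_lit 168) (nat_lit 54842572670) (nat_lit 3) (nat_lit 5) (nat_lit 4) (nat_lit 5) (nat_lit 5) (nat_lit 4) (nat_lit 413) (nat_lit 278) (nat_lit 173)) (XT.lf (nat_lit 0) (nat_lit 9842410731) (nat_lit 84) (nat_lit 11064917008) (nat_lit 168) (nat_lit 54232302997) (nat_lit 3) (nat_lit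 5) (nat_lit 4) (nat_lit 5) (nat_lit 5) (nat_lit 4) (nat_lit 414) (nat_lit 278) (nat_lit 172)))) (XT.nd (nat_lit 94) (nat_lit 0) (nat_lit 0) (XT.lf (nat_lit 0) (nat_lit 15582881009) (nat_lit 84) (nat_lit 8170636664) (nat_lit 168) (nat_lit 53610545805) (nat_lit 3) (nat_lit 5) (nat_lit 4) (nat_lit 5) (nat_lit 5) (nat_lit 4) (nat_lit 415) (nat_lit 278) (nat_lit 171)) (XT.nd (nat_lit 43898) (nat_lit 0) (nat_lit 14028) (XT.lf (nat_lit 0) (nat_lit 21489580849) (nat_lit 84) (nat_lit 5191378649) (nat_lit 168) (nat_lit 52976721552) (nat_lit 3) (nat_lit 5) (nat_lit 4) (nat_lit 5) (nat_lit 5) (nat_lit 4) (nat_lit 416) (nat_lit 278) (nat_lit 170)) (XT.lf (nat_lit 0) (nat_lit 1084684978) (nat_lit 756) (nat_lit 1264761722) (nat_lit 0) (nat_lit 1084684978) (nat_lit 170) (nat_lit 5) (nat_lit 179) (nat_lit 4) (nat_lit 170) (nat_lit 4) (nat_lit 306) (nat_lit 279) (nat_lit 279))))) (XT.nd (nat_lit 282)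 (nat_lit 1008) (nat_lit 0) (XT.nd (nat_lit 94) (nat_lit 924) (nat_lit 0) (XT.lf (nat_lit 0) (nat_lit 1182377615) (nat_lit 756) (nat_lit 3726165750) (nat_lit 756) (nat_lit 2010592814) (nat_lit 161) (nat_lit 4) (nat_lit 170) (nat_lit 5) (nat_lit 170) (nat_lit 4) (nat_lit 307) (nat_lit 279) (nat_lit 278)) (XT.nd (nat_lit 94) (nat_lit 840) (nat_lit 0) (XT.lf (nat_lit 0) (nat_lit 681906587) (nat_lit 840) (nat_lit 1994609924) (nat_lit 84) (nat_lit 4297285121) (nat_lit 160) (nat_lit 5) (nat_lit 170) (nat_lit 5) (nat_lit 161) (nat_lit 4) (nat_lit 308) (nat_lit 279) (nat_lit 277)) (XT.lf (nat_lit 0) (nat_lit 1802682089) (nat_lit 840) (nat_lit 1543551738) (nat_lit 924) (nat_lit 3685914007) (nat_lit 150) (nat_lit 5) (nat_lit 160) (nat_lit 5) (nat_lit 161) (nat_lit 4) (nat_lit 309) (nat_lit 279) (nat_lit 276)))) (XT.nd (nat_lit 94) (nat_lit 1008) (nat_lit 0) (XT.lf (nat_lit 0) (nat_lit 5684130918)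 (nat_lit 840) (nat_lit 343972513) (nat_lit 924) (nat_lit 1066659664) (nat_lit 150) (nat_lit 5) (nat_lit 160) (nat_lit 5) (nat_lit 161) (nat_lit 4) (nat_lit 310) (nat_lit 279) (nat_lit 275)) (XT.nd (nat_lit 94) (nat_lit 0) (nat_lit 0) (XT.lf (nat_lit 0) (nat_lit 1550322237) (nat_lit 1008) (nat_lit 4685734284) (nat_lit 84) (nat_lit 924745025) (nat_lit 138) (nat_lit 5) (nat_lit 150) (nat_lit 5) (nat_lit 139) (nat_lit 4) (nat_lit 311) (nat_lit 279) (nat_lit 274)) (XT.lf (nat_lit 0) (nat_lit 4161979843) (nat_lit 1008) (nat_lit 809881872) (nat_lit 84) (nat_lit 2259085272) (nat_lit 138) (nat_lit 5) (nat_lit 150) (nat_lit 5) (nat_lit 139) (nat_lit 4) (nat_lit 312) (nat_lit 279) (nat_lit 273)))))) (XT.nd (nat_lit 564) (nat_lit 1596) (nat_lit 0) (XT.nd (nat_lit 282) (nat_lit 1176) (nat_lit 0) (XT.nd (nat_lit 94) (nat_lit 1176) (nat_lit 0) (XT.lf (nat_lit 0) (nat_lit 3174423723) (nat_lit 1008)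 (nat_lit 3631465558) (nat_lit 1092) (nat_lit 499280359) (nat_lit 126) (nat_lit 5) (nat_lit 138) (nat_lit 5) (nat_lit 139) (nat_lit 4) (nat_lit 313) (nat_lit 279) (nat_lit 272)) (XT.nd (nat_lit 94) (nat_lit 1092) (nat_lit 0) (XT.lf (nat_lit 0) (nat_lit 2035579513) (nat_lit 1092) (nat_lit 180332933) (nat_lit 84) (nat_lit 5167695217) (nat_lit 125) (nat_lit 5) (nat_lit 138) (nat_lit 5) (nat_lit 126) (nat_lit 5) (nat_lit 314) (nat_lit 279) (nat_lit 271)) (XT.lf (nat_lit 0) (nat_lit 3891250312) (nat_lit 1092) (nat_lit 708688727) (nat_lit 1176) (nat_lit 2865938268) (nat_lit 112) (nat_lit 5) (nat_lit 125) (nat_lit 5) (nat_lit 126) (nat_lit 5) (nat_lit 315) (nat_lit 279) (nat_lit 270)))) (XT.nd (nat_lit 94) (nat_lit 672) (nat_lit 0) (XT.lf (nat_lit 0) (nat_lit 466690514) (nat_lit 504) (nat_lit 6716318909) (nat_lit 588) (nat_lit 369919766) (nat_lit 106) (nat_lit 5) (nat_lit 112) (nat_lit 5) (nat_lit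 113) (nat_lit 4) (nat_lit 316) (nat_lit 279) (nat_lit 269)) (XT.nd (nat_lit 94) (nat_lit 588) (nat_lit 0) (XT.lf (nat_lit 0) (nat_lit 2128756792) (nat_lit 588) (nat_lit 3039586726) (nat_lit 84) (nat_lit 2474925544) (nat_lit 105) (nat_lit 5) (nat_lit 112) (nat_lit 5) (nat_lit 106) (nat_lit 5) (nat_lit 317) (nat_lit 279) (nat_lit 268)) (XT.lf (nat_lit 0) (nat_lit 1075078849) (nat_lit 588) (nat_lit 3559792341) (nat_lit 672) (nat_lit 3103670591) (nat_lit 98) (nat_lit 5) (nat_lit 105) (nat_lit 5) (nat_lit 106) (nat_lit 5) (nat_lit 318) (nat_lit 279) (nat_lit 267))))) (XT.nd (nat_lit 282) (nat_lit 1008) (nat_lit 0) (XT.nd (nat_lit 94) (nat_lit 588) (nat_lit 0) (XT.lf (nat_lit 0) (nat_lit 5307189526) (nat_lit 588) (nat_lit 1871666216) (nat_lit 672) (nat_lit 659454226) (nat_lit 98) (nat_lit 5) (nat_lit 105) (nat_lit 5) (nat_lit 106) (nat_lit 5) (nat_lit 319) (nat_lit 279) (nat_lit 266)) (XT.nd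 (nat_lit 94) (nat_lit 0) (nat_lit 0) (XT.lf (nat_lit 0) (nat_lit 1670481834) (nat_lit 504) (nat_lit 98739511) (nat_lit 588) (nat_lit 6173335459) (nat_lit 91) (nat_lit 5) (nat_lit 97) (nat_lit 5) (nat_lit 98) (nat_lit 5) (nat_lit 320) (nat_lit 279) (nat_lit 265)) (XT.lf (nat_lit 0) (nat_lit 4234280540) (nat_lit 588) (nat_lit 2093062719) (nat_lit 84) (nat_lit 1723545051) (nat_lit 91) (nat_lit 5) (nat_lit 98) (nat_lit 5) (nat_lit 92) (nat_lit 5) (nat_lit 321) (nat_lit 279) (nat_lit 264)))) (XT.nd (nat_lit 94) (nat_lit 504) (nat_lit 0) (XT.lf (nat_lit 0) (nat_lit 2185119166) (nat_lit 504) (nat_lit 4546349939) (nat_lit 588) (nat_lit 1432754151) (nat_lit 85) (nat_lit 5) (nat_lit 91) (nat_lit 5) (nat_lit 92) (nat_lit 5) (nat_lit 322) (nat_lit 279) (nat_lit 263)) (XT.nd (nat_lit 94) (nat_lit 420) (nat_lit 0) (XT.lf (nat_lit 0) (nat_lit 959806768) (nat_lit 588) (nat_lit 1724767248) (nat_lit 84)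 (nat_lit 5597819244) (nat_lit 84) (nat_lit 5) (nat_lit 91) (nat_lit 5) (nat_lit 85) (nat_lit 5) (nat_lit 323) (nat_lit 279) (nat_lit 262)) (XT.lf (nat_lit 0) (nat_lit 2627698086) (nat_lit 420) (nat_lit 730535826) (nat_lit 504) (nat_lit 5046981565) (nat_lit 79) (nat_lit 5) (nat_lit 84) (nat_lit 5) (nat_lit 85) (nat_lit 5) (nat_lit 324) (nat_lit 279) (nat_lit 261))))))) (XT.nd (nat_lit 1128) (nat_lit 1512) (nat_lit 0) (XT.nd (nat_lit 564) (nat_lit 1092) (nat_lit 0) (XT.nd (nat_lit 282) (nat_lit 924) (nat_lit 0) (XT.nd (nat_lit 94) (nat_lit 504) (nat_lit 0) (XT.lf (nat_lit 0) (nat_lit 5798485494) (nat_lit 504) (nat_lit 1465997288) (nat_lit 84) (nat_lit 1268611686) (nat_lit 79) (nat_lit 5) (nat_lit 85) (nat_lit 5) (nat_lit 80) (nat_lit 5) (nat_lit 325) (nat_lit 279) (nat_lit 260)) (XT.nd (nat_lit 94) (nat_lit 84) (nat_lit 0) (XT.lf (nat_lit 0) (nat_lit 2960114359) (nat_lit 420) (nat_lit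 5329562579) (nat_lit 504) (nat_lit 376260425) (nat_lit 74) (nat_lit 5) (nat_lit 79) (nat_lit 5) (nat_lit 80) (nat_lit 5) (nat_lit 326) (nat_lit 279) (nat_lit 259)) (XT.lf (nat_lit 0) (nat_lit 1968014719) (nat_lit 504) (nat_lit 1340445886) (nat_lit 84) (nat_lit 5495444637) (nat_lit 73) (nat_lit 5) (nat_lit 79) (nat_lit 5) (nat_lit 74) (nat_lit 5) (nat_lit 327) (nat_lit 279) (nat_lit 258)))) (XT.nd (nat_lit 94) (nat_lit 504) (nat_lit 0) (XT.lf (nat_lit 0) (nat_lit 3150049376) (nat_lit 420) (nat_lit 1198954151) (nat_lit 504) (nat_lit 4598112992) (nat_lit 68) (nat_lit 5) (nat_lit 73) (nat_lit 5) (nat_lit 74) (nat_lit 5) (nat_lit 328) (nat_lit 279) (nat_lit 257)) (XT.nd (nat_lit 94) (nat_lit 504) (nat_lit 0) (XT.lf (nat_lit 0) (nat_lit 6769219878) (nat_lit 504) (nat_lit 1367017785) (nat_lit 84) (nat_lit 959808602) (nat_lit 68) (nat_lit 5) (nat_lit 74) (nat_lit 5) (nat_lit 69) (nat_lit 5)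 (nat_lit 329) (nat_lit 279) (nat_lit 256)) (XT.lf (nat_lit 0) (nat_lit 1441379) (nat_lit 504) (nat_lit 6066857612) (nat_lit 84) (nat_lit 3181890861) (nat_lit 62) (nat_lit 5) (nat_lit 68) (nat_lit 5) (nat_lit 63) (nat_lit 5) (nat_lit 330) (nat_lit 279) (nat_lit 255))))) (XT.nd (nat_lit 282) (nat_lit 756) (nat_lit 0) (XT.nd (nat_lit 94) (nat_lit 336) (nat_lit 0) (XT.lf (nat_lit 0) (nat_lit 2311590459) (nat_lit 504) (nat_lit 1598431461) (nat_lit 84) (nat_lit 5499841777) (nat_lit 62) (nat_lit 5) (nat_lit 68) (nat_lit 5) (nat_lit 63) (nat_lit 5) (nat_lit 331) (nat_lit 279) (nat_lit 254)) (XT.nd (nat_lit 94) (nat_lit 0) (nat_lit 0) (XT.lf (nat_lit 0) (nat_lit 3001540018) (nat_lit 336) (nat_lit 1666908773) (nat_lit 420) (nat_lit 4906993771) (nat_lit 58) (nat_lit 5) (nat_lit 62) (nat_lit 5) (nat_lit 63) (nat_lit 5) (nat_lit 332) (nat_lit 279) (nat_lit 253)) (XT.lf (nat_lit 0) (nat_lit 7067801696)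 (nat_lit 420) (nat_lit 2042697059) (nat_lit 84) (nat_lit 636780785) (nat_lit 58) (nat_lit 5) (nat_lit 63) (nat_lit 5) (nat_lit 59) (nat_lit 5) (nat_lit 333) (nat_lit 279) (nat_lit 252)))) (XT.nd (nat_lit 94) (nat_lit 420) (nat_lit 0) (XT.lf (nat_lit 0) (nat_lit 2597847167) (nat_lit 336) (nat_lit 6934296562) (nat_lit 420) (nat_lit 392763073) (nat_lit 54) (nat_lit 5) (nat_lit 58) (nat_lit 5) (nat_lit 59) (nat_lit 5) (nat_lit 334) (nat_lit 279) (nat_lit 251)) (XT.nd (nat_lit 94) (nat_lit 336) (nat_lit 0) (XT.lf (nat_lit 0) (nat_lit 1894811356) (nat_lit 420) (nat_lit 2768516004) (nat_lit 84) (nat_lit 5445214618) (nat_lit 53) (nat_lit 5) (nat_lit 58) (nat_lit 5) (nat_lit 54) (nat_lit 5) (nat_lit 335) (nat_lit 279) (nat_lit 250)) (XT.lf (nat_lit 0) (nat_lit 1900653999) (nat_lit 336) (nat_lit 2312924671) (nat_lit 420) (nat_lit 6085302256) (nat_lit 49) (nat_lit 5) (nat_lit 53) (nat_lit 5) (nat_lit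 54) (nat_lit 5) (nat_lit 336) (nat_lit 279) (nat_lit 249)))))) (XT.nd (nat_lit 564) (nat_lit 840) (nat_lit 0) (XT.nd (nat_lit 282) (nat_lit 252) (nat_lit 0) (XT.nd (nat_lit 94) (nat_lit 420) (nat_lit 0) (XT.lf (nat_lit 0) (nat_lit 6584829042) (nat_lit 420) (nat_lit 3788204678) (nat_lit 84) (nat_lit 122840448) (nat_lit 49) (nat_lit 5) (nat_lit 54) (nat_lit 5) (nat_lit 50) (nat_lit 5) (nat_lit 337) (nat_lit 279) (nat_lit 248)) (XT.nd (nat_lit 94) (nat_lit 84) (nat_lit 0) (XT.lf (nat_lit 0) (nat_lit 895240197) (nat_lit 336) (nat_lit 8118692113) (nat_lit 420) (nat_lit 1685675063) (nat_lit 45) (nat_lit 5) (nat_lit 49) (nat_lit 5) (nat_lit 50) (nat_lit 5) (nat_lit 338) (nat_lit 279) (nat_lit 247)) (XT.lf (nat_lit 0) (nat_lit 588367733) (nat_lit 420) (nat_lit 5175042063) (nat_lit 84) (nat_lit 5146447965) (nat_lit 44) (nat_lit 5) (nat_lit 49) (nat_lit 5) (nat_lit 45) (nat_lit 5) (nat_lit 339)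 (nat_lit 279) (nat_lit 246)))) (XT.nd (nat_lit 94) (nat_lit 252) (nat_lit 0) (XT.lf (nat_lit 0) (nat_lit 2851337884) (nat_lit 420) (nat_lit 481862265) (nat_lit 84) (nat_lit 7794469337) (nat_lit 44) (nat_lit 5) (nat_lit 49) (nat_lit 5) (nat_lit 45) (nat_lit 5) (nat_lit 340) (nat_lit 279) (nat_lit 245)) (XT.nd (nat_lit 94) (nat_lit 0) (nat_lit 0) (XT.lf (nat_lit 0) (nat_lit 4384608956) (nat_lit 252) (nat_lit 798194220) (nat_lit 336) (nat_lit 6169612411) (nat_lit 41) (nat_lit 5) (nat_lit 44) (nat_lit 5) (nat_lit 45) (nat_lit 5) (nat_lit 341) (nat_lit 279) (nat_lit 244)) (XT.lf (nat_lit 0) (nat_lit 7565090237) (nat_lit 336) (nat_lit 2251150535) (nat_lit 84) (nat_lit 1768680020) (nat_lit 41) (nat_lit 5) (nat_lit 45) (nat_lit 5) (nat_lit 42) (nat_lit 5) (nat_lit 342) (nat_lit 279) (nat_lit 243))))) (XT.nd (nat_lit 282) (nat_lit 252) (nat_lit 0) (XT.nd (nat_lit 94) (nat_lit 336) (nat_lit 0)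 (XT.lf (nat_lit 0) (nat_lit 2596439839) (nat_lit 252) (nat_lit 7415504634) (nat_lit 336) (nat_lit 1813100075) (nat_lit 38) (nat_lit 5) (nat_lit 41) (nat_lit 5) (nat_lit 42) (nat_lit 5) (nat_lit 343) (nat_lit 279) (nat_lit 242)) (XT.nd (nat_lit 94) (nat_lit 252) (nat_lit 0) (XT.lf (nat_lit 0) (nat_lit 433427254) (nat_lit 336) (nat_lit 4494508815) (nat_lit 84) (nat_lit 7145248173) (nat_lit 37) (nat_lit 5) (nat_lit 41) (nat_lit 5) (nat_lit 38) (nat_lit 5) (nat_lit 344) (nat_lit 279) (nat_lit 241)) (XT.lf (nat_lit 0) (nat_lit 316138748) (nat_lit 252) (nat_lit 2357185645) (nat_lit 336) (nat_lit 9656426256) (nat_lit 34) (nat_lit 5) (nat_lit 37) (nat_lit 5) (nat_lit 38) (nat_lit 5) (nat_lit 345) (nat_lit 279) (nat_lit 240)))) (XT.nd (nat_lit 94) (nat_lit 252) (nat_lit 0) (XT.lf (nat_lit 0) (nat_lit 4991737308) (nat_lit 336) (nat_lit 7283670508) (nat_lit 84) (nat_lit 318690295) (nat_lit 34)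 (nat_lit 5) (nat_lit 38) (nat_lit 5) (nat_lit 35) (nat_lit 5) (nat_lit 346) (nat_lit 279) (nat_lit 239)) (XT.nd (nat_lit 94) (nat_lit 252) (nat_lit 0) (XT.lf (nat_lit 0) (nat_lit 7366145531) (nat_lit 336) (nat_lit 2488108379) (nat_lit 84) (nat_lit 3012984246) (nat_lit 34) (nat_lit 5) (nat_lit 38) (nat_lit 5) (nat_lit 35) (nat_lit 5) (nat_lit 347) (nat_lit 279) (nat_lit 238)) (XT.lf (nat_lit 0) (nat_lit 2450296031) (nat_lit 252) (nat_lit 7349389893) (nat_lit 336) (nat_lit 3349710818) (nat_lit 31) (nat_lit 5) (nat_lit 34) (nat_lit 5) (nat_lit 35) (nat_lit 5) (nat_lit 348) (nat_lit 279) (nat_lit 237))))))))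
noncomputable def xc62 : XT := (XT.nd (nat_lit 2256) (nat_lit 672) (nat_lit 0) (XT.nd (nat_lit 1128) (nat_lit 504) (nat_lit 0) (XT.nd (nat_lit 564) (nat_lit 420) (nat_lit 0) (XT.nd (nat_lit 282) (nat_lit 252) (nat_lit 0) (XT.nd (nat_lit 94) (nat_lit 252) (nat_lit 0) (XT.lf (nat_lit 0) (nat_lit 7539908149) (nat_lit 252) (nat_lit 4756571100) (nat_lit 336) (nat_lit 1144300198) (nat_lit 31) (nat_lit 5) (nat_lit 34) (nat_lit 5) (nat_lit 35) (nat_lit 5) (nat_lit 349) (nat_lit 279) (nat_lit 236)) (XT.nd (nat_lit 94) (nat_lit 168) (nat_lit 0) (XT.lf (nat_lit 0) (nat_lit 1069238425) (nat_lit 336) (nat_lit 1018952419) (nat_lit 84) (nat_lit 11653912333) (nat_lit 30) (nat_lit 5) (nat_lit 34) (nat_lit 5) (nat_lit 31) (nat_lit 5) (nat_lit 350) (nat_lit 279) (nat_lit 235)) (XT.lf (nat_lit 0) (nat_lit 3338212073) (nat_lit 252) (nat_lit 10027732197) (nat_lit 84) (nat_lit 686223434) (nat_lit 28) (nat_lit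 5) (nat_lit 31) (nat_lit 5) (nat_lit 29) (nat_lit 5) (nat_lit 351) (nat_lit 279) (nat_lit 234)))) (XT.nd (nat_lit 94) (nat_lit 252) (nat_lit 0) (XT.lf (nat_lit 0) (nat_lit 5673691776) (nat_lit 252) (nat_lit 5199952999) (nat_lit 84) (nat_lit 3498406237) (nat_lit 28) (nat_lit 5) (nat_lit 31) (nat_lit 5) (nat_lit 29) (nat_lit 5) (nat_lit 352) (nat_lit 279) (nat_lit 233)) (XT.nd (nat_lit 94) (nat_lit 252) (nat_lit 0) (XT.lf (nat_lit 0) (nat_lit 8046717847) (nat_lit 252) (nat_lit 273668931) (nat_lit 84) (nat_lit 6382629719) (nat_lit 28) (nat_lit 5) (nat_lit 31) (nat_lit 5) (nat_lit 29) (nat_lit 5) (nat_lit 353) (nat_lit 279) (nat_lit 232)) (XT.lf (nat_lit 0) (nat_lit 4853499005) (nat_lit 252) (nat_lit 5654150501) (nat_lit 336) (nat_lit 4536230583) (nat_lit 25) (nat_lit 5) (nat_lit 28) (nat_lit 5) (nat_lit 29) (nat_lit 5) (nat_lit 354) (nat_lit 279) (nat_lit 231))))) (XT.nd (nat_lit 282) (nat_lit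 168) (nat_lit 0) (XT.nd (nat_lit 94) (nat_lit 252) (nat_lit 0) (XT.lf (nat_lit 0) (nat_lit 10096295001) (nat_lit 252) (nat_lit 2918155284) (nat_lit 336) (nat_lit 2381883462) (nat_lit 25) (nat_lit 5) (nat_lit 28) (nat_lit 5) (nat_lit 29) (nat_lit 5) (nat_lit 355) (nat_lit 279) (nat_lit 230)) (XT.nd (nat_lit 94) (nat_lit 252) (nat_lit 0) (XT.lf (nat_lit 0) (nat_lit 15453978695) (nat_lit 252) (nat_lit 112707437) (nat_lit 336) (nat_lit 194105753) (nat_lit 25) (nat_lit 5) (nat_lit 28) (nat_lit 5) (nat_lit 29) (nat_lit 5) (nat_lit 356) (nat_lit 279) (nat_lit 229)) (XT.lf (nat_lit 0) (nat_lit 2064717162) (nat_lit 252) (nat_lit 11291619388) (nat_lit 84) (nat_lit 2778263458) (nat_lit 22) (nat_lit 5) (nat_lit 25) (nat_lit 5) (nat_lit 23) (nat_lit 5) (nat_lit 357) (nat_lit 279) (nat_lit 228)))) (XT.nd (nat_lit 94) (nat_lit 168) (nat_lit 0) (XT.lf (nat_lit 0) (nat_lit 4362561072) (nat_lit 252) (nat_lit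 6411489015) (nat_lit 84) (nat_lit 5746791691) (nat_lit 22) (nat_lit 5) (nat_lit 25) (nat_lit 5) (nat_lit 23) (nat_lit 5) (nat_lit 358) (nat_lit 279) (nat_lit 227)) (XT.nd (nat_lit 94) (nat_lit 168) (nat_lit 0) (XT.lf (nat_lit 0) (nat_lit 6701222558) (nat_lit 252) (nat_lit 1425994772) (nat_lit 84) (nat_lit 8792851515) (nat_lit 22) (nat_lit 5) (nat_lit 25) (nat_lit 5) (nat_lit 23) (nat_lit 5) (nat_lit 359) (nat_lit 279) (nat_lit 226)) (XT.lf (nat_lit 0) (nat_lit 3744963001) (nat_lit 168) (nat_lit 5375068991) (nat_lit 252) (nat_lit 8211469671) (nat_lit 20) (nat_lit 5) (nat_lit 22) (nat_lit 5) (nat_lit 23) (nat_lit 5) (nat_lit 360) (nat_lit 279) (nat_lit 225)))))) (XT.nd (nat_lit 564) (nat_lit 252) (nat_lit 0) (XT.nd (nat_lit 282) (nat_lit 84) (nat_lit 0) (XT.nd (nat_lit 94) (nat_lit 168) (nat_lit 0) (XT.lf (nat_lit 0) (nat_lit 9062362278) (nat_lit 168) (nat_lit 2537295318) (nat_lit 252)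 (nat_lit 6156535311) (nat_lit 20) (nat_lit 5) (nat_lit 22) (nat_lit 5) (nat_lit 23) (nat_lit 5) (nat_lit 361) (nat_lit 279) (nat_lit 224)) (XT.nd (nat_lit 94) (nat_lit 168) (nat_lit 0) (XT.lf (nat_lit 0) (nat_lit 14131682506) (nat_lit 252) (nat_lit 3696856705) (nat_lit 84) (nat_lit 366331796) (nat_lit 20) (nat_lit 5) (nat_lit 23) (nat_lit 5) (nat_lit 21) (nat_lit 4) (nat_lit 362) (nat_lit 279) (nat_lit 223)) (XT.lf (nat_lit 0) (nat_lit 1415343875) (nat_lit 168) (nat_lit 15339376307) (nat_lit 252) (nat_lit 1892100821) (nat_lit 18) (nat_lit 5) (nat_lit 20) (nat_lit 5) (nat_lit 21) (nat_lit 4) (nat_lit 363) (nat_lit 279) (nat_lit 222)))) (XT.nd (nat_lit 94) (nat_lit 0) (nat_lit 0) (XT.lf (nat_lit 0) (nat_lit 350901334) (nat_lit 252) (nat_lit 12393459022) (nat_lit 84) (nat_lit 6368012764) (nat_lit 17) (nat_lit 5) (nat_lit 20) (nat_lit 5) (nat_lit 18) (nat_lit 5) (nat_lit 364) (nat_lit 279)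 (nat_lit 221)) (XT.nd (nat_lit 94) (nat_lit 0) (nat_lit 0) (XT.lf (nat_lit 0) (nat_lit 2597562348) (nat_lit 252) (nat_lit 7465976047) (nat_lit 84) (nat_lit 9529098404) (nat_lit 17) (nat_lit 5) (nat_lit 20) (nat_lit 5) (nat_lit 18) (nat_lit 5) (nat_lit 365) (nat_lit 279) (nat_lit 220)) (XT.lf (nat_lit 0) (nat_lit 4888097957) (nat_lit 252) (nat_lit 2425665401) (nat_lit 84) (nat_lit 12774878207) (nat_lit 17) (nat_lit 5) (nat_lit 20) (nat_lit 5) (nat_lit 18) (nat_lit 5) (nat_lit 366) (nat_lit 279) (nat_lit 219))))) (XT.nd (nat_lit 282) (nat_lit 84) (nat_lit 0) (XT.nd (nat_lit 94) (nat_lit 0) (nat_lit 0) (XT.lf (nat_lit 0) (nat_lit 2788350053) (nat_lit 168) (nat_lit 4463953905) (nat_lit 252) (nat_lit 13347688304) (nat_lit 15) (nat_lit 5) (nat_lit 17) (nat_lit 5) (nat_lit 18) (nat_lit 5) (nat_lit 367) (nat_lit 279) (nat_lit 218)) (XT.nd (nat_lit 94) (nat_lit 0) (nat_lit 0) (XT.lf (nat_lit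 0) (nat_lit 8177091003) (nat_lit 168) (nat_lit 1513402676) (nat_lit 252) (nat_lit 11436730443) (nat_lit 15) (nat_lit 5) (nat_lit 17) (nat_lit 5) (nat_lit 18) (nat_lit 5) (nat_lit 368) (nat_lit 279) (nat_lit 217)) (XT.lf (nat_lit 0) (nat_lit 12195414260) (nat_lit 252) (nat_lit 7990918386) (nat_lit 84) (nat_lit 1484791226) (nat_lit 15) (nat_lit 5) (nat_lit 18) (nat_lit 5) (nat_lit 16) (nat_lit 4) (nat_lit 369) (nat_lit 279) (nat_lit 216)))) (XT.nd (nat_lit 94) (nat_lit 84) (nat_lit 0) (XT.lf (nat_lit 0) (nat_lit 14770170996) (nat_lit 252) (nat_lit 2930145943) (nat_lit 84) (nat_lit 4531857661) (nat_lit 15) (nat_lit 5) (nat_lit 18) (nat_lit 5) (nat_lit 16) (nat_lit 4) (nat_lit 370) (nat_lit 279) (nat_lit 215)) (XT.nd (nat_lit 94) (nat_lit 0) (nat_lit 0) (XT.lf (nat_lit 0) (nat_lit 2298218499) (nat_lit 84) (nat_lit 15126730798) (nat_lit 168) (nat_lit 5385708616) (nat_lit 14) (nat_lit 5) (nat_lit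 15) (nat_lit 5) (nat_lit 16) (nat_lit 4) (nat_lit 371) (nat_lit 279) (nat_lit 214)) (XT.lf (nat_lit 0) (nat_lit 7715544246) (nat_lit 84) (nat_lit 12454801519) (nat_lit 168) (nat_lit 3236515471) (nat_lit 14) (nat_lit 5) (nat_lit 15) (nat_lit 5) (nat_lit 16) (nat_lit 4) (nat_lit 372) (nat_lit 279) (nat_lit 213))))))) (XT.nd (nat_lit 1128) (nat_lit 336) (nat_lit 0) (XT.nd (nat_lit 564) (nat_lit 84) (nat_lit 0) (XT.nd (nat_lit 282) (nat_lit 168) (nat_lit 0) (XT.nd (nat_lit 94) (nat_lit 84) (nat_lit 0) (XT.lf (nat_lit 0) (nat_lit 13266631002) (nat_lit 84) (nat_lit 9712623298) (nat_lit 168) (nat_lit 1043005611) (nat_lit 14) (nat_lit 5) (nat_lit 15) (nat_lit 5) (nat_lit 16) (nat_lit 4) (nat_lit 373) (nat_lit 279) (nat_lit 212)) (XT.nd (nat_lit 94) (nat_lit 0) (nat_lit 0) (XT.lf (nat_lit 0) (nat_lit 1172751371) (nat_lit 168) (nat_lit 5712647648) (nat_lit 84) (nat_lit 17771660469) (nat_lit 13)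 (nat_lit 5) (nat_lit 15) (nat_lit 5) (nat_lit 14) (nat_lit 5) (nat_lit 374) (nat_lit 279) (nat_lit 211)) (XT.lf (nat_lit 0) (nat_lit 3414967066) (nat_lit 168) (nat_lit 556615862) (nat_lit 84) (nat_lit 21340301498) (nat_lit 13) (nat_lit 5) (nat_lit 15) (nat_lit 5) (nat_lit 14) (nat_lit 5) (nat_lit 375) (nat_lit 279) (nat_lit 210)))) (XT.nd (nat_lit 94) (nat_lit 0) (nat_lit 0) (XT.lf (nat_lit 0) (nat_lit 4824828698) (nat_lit 168) (nat_lit 929779890) (nat_lit 252) (nat_lit 20231573503) (nat_lit 11) (nat_lit 5) (nat_lit 13) (nat_lit 5) (nat_lit 14) (nat_lit 5) (nat_lit 376) (nat_lit 279) (nat_lit 209)) (XT.nd (nat_lit 94) (nat_lit 0) (nat_lit 0) (XT.lf (nat_lit 0) (nat_lit 8174763005) (nat_lit 252) (nat_lit 16350095887) (nat_lit 84) (nat_lit 2156314011) (nat_lit 11) (nat_lit 5) (nat_lit 14) (nat_lit 5) (nat_lit 12) (nat_lit 4) (nat_lit 377) (nat_lit 279) (nat_lit 208)) (XT.lf (nat_lit 0)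 (nat_lit 10660273881) (nat_lit 252) (nat_lit 11430085994) (nat_lit 84) (nat_lit 5307684574) (nat_lit 11) (nat_lit 5) (nat_lit 14) (nat_lit 5) (nat_lit 12) (nat_lit 4) (nat_lit 378) (nat_lit 279) (nat_lit 207))))) (XT.nd (nat_lit 282) (nat_lit 0) (nat_lit 0) (XT.nd (nat_lit 94) (nat_lit 84) (nat_lit 0) (XT.lf (nat_lit 0) (nat_lit 13204234440) (nat_lit 252) (nat_lit 6387514217) (nat_lit 84) (nat_lit 8546002197) (nat_lit 11) (nat_lit 5) (nat_lit 14) (nat_lit 5) (nat_lit 12) (nat_lit 4) (nat_lit 379) (nat_lit 279) (nat_lit 206)) (XT.nd (nat_lit 94) (nat_lit 84) (nat_lit 0) (XT.lf (nat_lit 0) (nat_lit 15809015921) (nat_lit 252) (nat_lit 1217680352) (nat_lit 84) (nat_lit 11874285333) (nat_lit 11) (nat_lit 5) (nat_lit 14) (nat_lit 5) (nat_lit 12) (nat_lit 4) (nat_lit 380) (nat_lit 279) (nat_lit 205)) (XT.lf (nat_lit 0) (nat_lit 4168214664) (nat_lit 84) (nat_lit 14350180794) (nat_lit 168) (nat_lit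 11168770830) (nat_lit 10) (nat_lit 5) (nat_lit 11) (nat_lit 5) (nat_lit 12) (nat_lit 4) (nat_lit 381) (nat_lit 279) (nat_lit 204)))) (XT.nd (nat_lit 94) (nat_lit 0) (nat_lit 0) (XT.lf (nat_lit 0) (nat_lit 9718988011) (nat_lit 84) (nat_lit 11588237870) (nat_lit 168) (nat_lit 9190669675) (nat_lit 10) (nat_lit 5) (nat_lit 11) (nat_lit 5) (nat_lit 12) (nat_lit 4) (nat_lit 382) (nat_lit 279) (nat_lit 203)) (XT.nd (nat_lit 94) (nat_lit 0) (nat_lit 0) (XT.lf (nat_lit 0) (nat_lit 15414775587) (nat_lit 84) (nat_lit 8751003169) (nat_lit 168) (nat_lit 7168528509) (nat_lit 10) (nat_lit 5) (nat_lit 11) (nat_lit 5) (nat_lit 12) (nat_lit 4) (nat_lit 383) (nat_lit 279) (nat_lit 202)) (XT.lf (nat_lit 0) (nat_lit 21260886462) (nat_lit 84) (nat_lit 5835832089) (nat_lit 168) (nat_lit 5100462483) (nat_lit 10) (nat_lit 5) (nat_lit 11) (nat_lit 5) (nat_lit 12) (nat_lit 4) (nat_lit 384) (nat_lit 279) (nat_lit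 201)))))) (XT.nd (nat_lit 564) (nat_lit 84) (nat_lit 0) (XT.nd (nat_lit 282) (nat_lit 0) (nat_lit 0) (XT.nd (nat_lit 94) (nat_lit 252) (nat_lit 0) (XT.lf (nat_lit 0) (nat_lit 27262769824) (nat_lit 84) (nat_lit 2840007385) (nat_lit 168) (nat_lit 2984543943) (nat_lit 10) (nat_lit 5) (nat_lit 11) (nat_lit 5) (nat_lit 12) (nat_lit 4) (nat_lit 385) (nat_lit 279) (nat_lit 200)) (XT.nd (nat_lit 94) (nat_lit 252) (nat_lit 0) (XT.lf (nat_lit 0) (nat_lit 33189130215) (nat_lit 168) (nat_lit 581910792) (nat_lit 0) (nat_lit 234442739) (nat_lit 10) (nat_lit 5) (nat_lit 12) (nat_lit 4) (nat_lit 10) (nat_lit 4) (nat_lit 386) (nat_lit 279) (nat_lit 199)) (XT.lf (nat_lit 0) (nat_lit 1453510163) (nat_lit 252) (nat_lit 30096978774) (nat_lit 84) (nat_lit 3399256246) (nat_lit 7) (nat_lit 5) (nat_lit 10) (nat_lit 5) (nat_lit 8) (nat_lit 4) (nat_lit 387) (nat_lit 279) (nat_lit 198)))) (XT.nd (nat_lit 94) (nat_lit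 0) (nat_lit 0) (XT.lf (nat_lit 0) (nat_lit 3768051957) (nat_lit 252) (nat_lit 25487677311) (nat_lit 84) (nat_lit 6667587205) (nat_lit 7) (nat_lit 5) (nat_lit 10) (nat_lit 5) (nat_lit 8) (nat_lit 4) (nat_lit 388) (nat_lit 279) (nat_lit 197)) (XT.nd (nat_lit 94) (nat_lit 0) (nat_lit 0) (XT.lf (nat_lit 0) (nat_lit 6139925371) (nat_lit 252) (nat_lit 20759183126) (nat_lit 84) (nat_lit 10028432135) (nat_lit 7) (nat_lit 5) (nat_lit 10) (nat_lit 5) (nat_lit 8) (nat_lit 4) (nat_lit 389) (nat_lit 279) (nat_lit 196)) (XT.lf (nat_lit 0) (nat_lit 8571341239) (nat_lit 252) (nat_lit 15907088766) (nat_lit 84) (nat_lit 13484923696) (nat_lit 7) (nat_lit 5) (nat_lit 10) (nat_lit 5) (nat_lit 8) (nat_lit 4) (nat_lit 390) (nat_lit 279) (nat_lit 195))))) (XT.nd (nat_lit 282) (nat_lit 84) (nat_lit 0) (XT.nd (nat_lit 94) (nat_lit 0) (nat_lit 0) (XT.lf (nat_lit 0) (nat_lit 11064565896) (nat_lit 252) (nat_lit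 10926871572) (nat_lit 84) (nat_lit 17040283701) (nat_lit 7) (nat_lit 5) (nat_lit 10) (nat_lit 5) (nat_lit 8) (nat_lit 4) (nat_lit 391) (nat_lit 279) (nat_lit 194)) (XT.nd (nat_lit 94) (nat_lit 0) (nat_lit 0) (XT.lf (nat_lit 0) (nat_lit 13621923288) (nat_lit 252) (nat_lit 5813889459) (nat_lit 84) (nat_lit 20697826117) (nat_lit 7) (nat_lit 5) (nat_lit 10) (nat_lit 5) (nat_lit 8) (nat_lit 4) (nat_lit 392) (nat_lit 279) (nat_lit 193)) (XT.lf (nat_lit 0) (nat_lit 16245797141) (nat_lit 252) (nat_lit 563376593) (nat_lit 84) (nat_lit 24460960157) (nat_lit 7) (nat_lit 5) (nat_lit 10) (nat_lit 5) (nat_lit 8) (nat_lit 4) (nat_lit 393) (nat_lit 279) (nat_lit 192)))) (XT.nd (nat_lit 94) (nat_lit 0) (nat_lit 0) (XT.lf (nat_lit 0) (nat_lit 4928866734) (nat_lit 84) (nat_lit 14058661412) (nat_lit 168) (nat_lit 23453221689) (nat_lit 6) (nat_lit 5) (nat_lit 7) (nat_lit 5) (nat_lit 8) (nat_lit 4) (nat_lit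 394) (nat_lit 279) (nat_lit 191)) (XT.nd (nat_lit 94) (nat_lit 0) (nat_lit 0) (XT.lf (nat_lit 0) (nat_lit 10583177711) (nat_lit 84) (nat_lit 11224750129) (nat_lit 168) (nat_lit 21839944062) (nat_lit 6) (nat_lit 5) (nat_lit 7) (nat_lit 5) (nat_lit 8) (nat_lit 4) (nat_lit 395) (nat_lit 279) (nat_lit 190)) (XT.lf (nat_lit 0) (nat_lit 16393242569) (nat_lit 84) (nat_lit 8310678878) (nat_lit 168) (nat_lit 20188880621) (nat_lit 6) (nat_lit 5) (nat_lit 7) (nat_lit 5) (nat_lit 8) (nat_lit 4) (nat_lit 396) (nat_lit 279) (nat_lit 189))))))))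
noncomputable def xc63 : XT := (XT.nd (nat_lit 45872) (nat_lit 0) (nat_lit 4956) (XT.nd (nat_lit 1128) (nat_lit 84) (nat_lit 0) (XT.nd (nat_lit 564) (nat_lit 84) (nat_lit 0) (XT.nd (nat_lit 282) (nat_lit 84) (nat_lit 0) (XT.nd (nat_lit 94) (nat_lit 0) (nat_lit 0) (XT.lf (nat_lit 0) (nat_lit 22364476897) (nat_lit 84) (nat_lit 5313731440) (nat_lit 168) (nat_lit 18498492402) (nat_lit 6) (nat_lit 5) (nat_lit 7) (nat_lit 5) (nat_lit 8) (nat_lit 4) (nat_lit 397) (nat_lit 279) (nat_lit 188)) (XT.nd (nat_lit 94) (nat_lit 0) (nat_lit 0) (XT.lf (nat_lit 0) (nat_lit 28502446511) (nat_lit 84) (nat_lit 2231114345) (nat_lit 168) (nat_lit 16767203786) (nat_lit 6) (nat_lit 5) (nat_lit 7) (nat_lit 5) (nat_lit 8) (nat_lit 4) (nat_lit 398) (nat_lit 279) (nat_lit 187)) (XT.lf (nat_lit 0) (nat_lit 33882152285) (nat_lit 168) (nat_lit 14062680673) (nat_lit 0) (nat_lit 921105900) (nat_lit 6) (nat_lit 5) (nat_lit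 8) (nat_lit 4) (nat_lit 6) (nat_lit 4) (nat_lit 399) (nat_lit 279) (nat_lit 186)))) (XT.nd (nat_lit 94) (nat_lit 84) (nat_lit 0) (XT.lf (nat_lit 0) (nat_lit 37140623986) (nat_lit 168) (nat_lit 9014417485) (nat_lit 0) (nat_lit 4118029499) (nat_lit 6) (nat_lit 5) (nat_lit 8) (nat_lit 4) (nat_lit 6) (nat_lit 4) (nat_lit 400) (nat_lit 279) (nat_lit 185)) (XT.nd (nat_lit 94) (nat_lit 84) (nat_lit 0) (XT.lf (nat_lit 0) (nat_lit 40489880267) (nat_lit 168) (nat_lit 3826690125) (nat_lit 0) (nat_lit 7407588299) (nat_lit 6) (nat_lit 5) (nat_lit 8) (nat_lit 4) (nat_lit 6) (nat_lit 4) (nat_lit 401) (nat_lit 279) (nat_lit 184)) (XT.lf (nat_lit 0) (nat_lit 1536289725) (nat_lit 84) (nat_lit 42411993445) (nat_lit 84) (nat_lit 9271798974) (nat_lit 5) (nat_lit 4) (nat_lit 6) (nat_lit 5) (nat_lit 6) (nat_lit 4) (nat_lit 402) (nat_lit 279) (nat_lit 183))))) (XT.nd (nat_lit 282) (nat_lit 84) (nat_lit 0) (XT.nd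 (nat_lit 94) (nat_lit 0) (nat_lit 0) (XT.lf (nat_lit 0) (nat_lit 7130293147) (nat_lit 84) (nat_lit 40413761774) (nat_lit 84) (nat_lit 7217405806) (nat_lit 5) (nat_lit 4) (nat_lit 6) (nat_lit 5) (nat_lit 6) (nat_lit 4) (nat_lit 403) (nat_lit 279) (nat_lit 182)) (XT.nd (nat_lit 94) (nat_lit 0) (nat_lit 0) (XT.lf (nat_lit 0) (nat_lit 12881849743) (nat_lit 84) (nat_lit 38359955613) (nat_lit 84) (nat_lit 5109126806) (nat_lit 5) (nat_lit 4) (nat_lit 6) (nat_lit 5) (nat_lit 6) (nat_lit 4) (nat_lit 404) (nat_lit 279) (nat_lit 181)) (XT.lf (nat_lit 0) (nat_lit 18796320563) (nat_lit 84) (nat_lit 36248660601) (nat_lit 84) (nat_lit 2944996839) (nat_lit 5) (nat_lit 4) (nat_lit 6) (nat_lit 5) (nat_lit 6) (nat_lit 4) (nat_lit 405) (nat_lit 279) (nat_lit 180)))) (XT.nd (nat_lit 94) (nat_lit 84) (nat_lit 0) (XT.lf (nat_lit 0) (nat_lit 24879218516) (nat_lit 84) (nat_lit 34077908790) (nat_lit 84) (nat_lit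 722998708) (nat_lit 5) (nat_lit 4) (nat_lit 6) (nat_lit 5) (nat_lit 6) (nat_lit 4) (nat_lit 406) (nat_lit 279) (nat_lit 179)) (XT.nd (nat_lit 94) (nat_lit 0) (nat_lit 0) (XT.lf (nat_lit 0) (nat_lit 1527529580) (nat_lit 168) (nat_lit 30302202954) (nat_lit 84) (nat_lit 29592739642) (nat_lit 4) (nat_lit 5) (nat_lit 6) (nat_lit 5) (nat_lit 5) (nat_lit 4) (nat_lit 407) (nat_lit 279) (nat_lit 178)) (XT.lf (nat_lit 0) (nat_lit 3824306861) (nat_lit 168) (nat_lit 25685659208) (nat_lit 84) (nat_lit 33708912903) (nat_lit 4) (nat_lit 5) (nat_lit 6) (nat_lit 5) (nat_lit 5) (nat_lit 4) (nat_lit 408) (nat_lit 279) (nat_lit 177)))))) (XT.nd (nat_lit 564) (nat_lit 0) (nat_lit 0) (XT.nd (nat_lit 282) (nat_lit 84) (nat_lit 0) (XT.nd (nat_lit 94) (nat_lit 0) (nat_lit 0) (XT.lf (nat_lit 0) (nat_lit 6184040785) (nat_lit 168) (nat_lit 20939800919) (nat_lit 84) (nat_lit 37947401476) (nat_lit 4) (nat_lit 5)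 (nat_lit 6) (nat_lit 5) (nat_lit 5) (nat_lit 4) (nat_lit 409) (nat_lit 279) (nat_lit 176)) (XT.nd (nat_lit 94) (nat_lit 0) (nat_lit 0) (XT.lf (nat_lit 0) (nat_lit 8608930871) (nat_lit 168) (nat_lit 16060204452) (nat_lit 84) (nat_lit 42312156076) (nat_lit 4) (nat_lit 5) (nat_lit 6) (nat_lit 5) (nat_lit 5) (nat_lit 4) (nat_lit 410) (nat_lit 279) (nat_lit 175)) (XT.lf (nat_lit 0) (nat_lit 11101237371) (nat_lit 168) (nat_lit 11042321510) (nat_lit 84) (nat_lit 46807245111) (nat_lit 4) (nat_lit 5) (nat_lit 6) (nat_lit 5) (nat_lit 5) (nat_lit 4) (nat_lit 411) (nat_lit 279) (nat_lit 174)))) (XT.nd (nat_lit 94) (nat_lit 84) (nat_lit 0) (XT.lf (nat_lit 0) (nat_lit 13663283375) (nat_lit 168) (nat_lit 5881474902) (nat_lit 84) (nat_lit 51436858475) (nat_lit 4) (nat_lit 5) (nat_lit 6) (nat_lit 5) (nat_lit 5) (nat_lit 4) (nat_lit 412) (nat_lit 279) (nat_lit 173)) (XT.nd (nat_lit 94) (nat_lit 84) (nat_lit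 0) (XT.lf (nat_lit 0) (nat_lit 16297456978) (nat_lit 168) (nat_lit 572854177) (nat_lit 84) (nat_lit 56205311452) (nat_lit 4) (nat_lit 5) (nat_lit 6) (nat_lit 5) (nat_lit 5) (nat_lit 4) (nat_lit 413) (nat_lit 279) (nat_lit 172)) (XT.lf (nat_lit 0) (nat_lit 4989006210) (nat_lit 84) (nat_lit 14066698855) (nat_lit 168) (nat_lit 56177534090) (nat_lit 3) (nat_lit 5) (nat_lit 4) (nat_lit 5) (nat_lit 5) (nat_lit 4) (nat_lit 414) (nat_lit 279) (nat_lit 171))))) (XT.nd (nat_lit 43898) (nat_lit 0) (nat_lit 13272) (XT.nd (nat_lit 94) (nat_lit 0) (nat_lit 0) (XT.lf (nat_lit 0) (nat_lit 10723703462) (nat_lit 84) (nat_lit 11174754808) (nat_lit 168) (nat_lit 55559325599) (nat_lit 3) (nat_lit 5) (nat_lit 4) (nat_lit 5) (nat_lit 5) (nat_lit 4) (nat_lit 415) (nat_lit 279) (nat_lit 170)) (XT.nd (nat_lit 43710) (nat_lit 0) (nat_lit 14784) (XT.lf (nat_lit 0) (nat_lit 16624803859) (nat_lit 84) (nat_lit 8197762844)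 (nat_lit 168) (nat_lit 54928943345) (nat_lit 3) (nat_lit 5) (nat_lit 4) (nat_lit 5) (nat_lit 5) (nat_lit 4) (nat_lit 416) (nat_lit 279) (nat_lit 169)) (XT.lf (nat_lit 0) (nat_lit 1911314415) (nat_lit 588) (nat_lit 738470261) (nat_lit 588) (nat_lit 738470261) (nat_lit 179) (nat_lit 4) (nat_lit 186) (nat_lit 5) (nat_lit 186) (nat_lit 4) (nat_lit 304) (nat_lit 280) (nat_lit 280)))) (XT.nd (nat_lit 94) (nat_lit 756) (nat_lit 0) (XT.lf (nat_lit 0) (nat_lit 634073229) (nat_lit 672) (nat_lit 576000799) (nat_lit 756) (nat_lit 5611540844) (nat_lit 170) (nat_lit 5) (nat_lit 178) (nat_lit 5) (nat_lit 179) (nat_lit 4) (nat_lit 305) (nat_lit 280) (nat_lit 279)) (XT.nd (nat_lit 94) (nat_lit 756) (nat_lit 0) (XT.lf (nat_lit 0) (nat_lit 3893286518) (nat_lit 756) (nat_lit 2567655814) (nat_lit 0) (nat_lit 408957887) (nat_lit 170) (nat_lit 5) (nat_lit 179) (nat_lit 4) (nat_lit 170) (nat_lit 4) (nat_lit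 306) (nat_lit 280) (nat_lit 278)) (XT.lf (nat_lit 0) (nat_lit 1105714853) (nat_lit 756) (nat_lit 5482493654) (nat_lit 756) (nat_lit 334175754) (nat_lit 161) (nat_lit 4) (nat_lit 170) (nat_lit 5) (nat_lit 170) (nat_lit 4) (nat_lit 307) (nat_lit 280) (nat_lit 277))))))) (XT.nd (nat_lit 1128) (nat_lit 2940) (nat_lit 0) (XT.nd (nat_lit 564) (nat_lit 2352) (nat_lit 0) (XT.nd (nat_lit 282) (nat_lit 2016) (nat_lit 0) (XT.nd (nat_lit 94) (nat_lit 924) (nat_lit 0) (XT.lf (nat_lit 0) (nat_lit 2281338456) (nat_lit 840) (nat_lit 2128876108) (nat_lit 84) (nat_lit 2567884340) (nat_lit 160) (nat_lit 5) (nat_lit 170) (nat_lit 5) (nat_lit 161) (nat_lit 4) (nat_lit 308) (nat_lit 280) (nat_lit 276)) (XT.nd (nat_lit 94) (nat_lit 84) (nat_lit 0) (XT.lf (nat_lit 0) (nat_lit 1628311976) (nat_lit 840) (nat_lit 3273714032) (nat_lit 924) (nat_lit 2135990403) (nat_lit 150) (nat_lit 5) (nat_lit 160) (nat_lit 5)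 (nat_lit 161) (nat_lit 4) (nat_lit 309) (nat_lit 280) (nat_lit 275)) (XT.lf (nat_lit 0) (nat_lit 431891105) (nat_lit 924) (nat_lit 1632946873) (nat_lit 84) (nat_lit 5037141329) (nat_lit 149) (nat_lit 5) (nat_lit 160) (nat_lit 5) (nat_lit 150) (nat_lit 5) (nat_lit 310) (nat_lit 280) (nat_lit 274)))) (XT.nd (nat_lit 94) (nat_lit 1092) (nat_lit 0) (XT.lf (nat_lit 0) (nat_lit 2210130269) (nat_lit 924) (nat_lit 764781516) (nat_lit 1008) (nat_lit 4194603884) (nat_lit 138) (nat_lit 5) (nat_lit 149) (nat_lit 5) (nat_lit 150) (nat_lit 5) (nat_lit 311) (nat_lit 280) (nat_lit 273)) (XT.nd (nat_lit 94) (nat_lit 1092) (nat_lit 0) (XT.lf (nat_lit 0) (nat_lit 5539494615) (nat_lit 1008) (nat_lit 1113196781) (nat_lit 84) (nat_lit 588622390) (nat_lit 138) (nat_lit 5) (nat_lit 150) (nat_lit 5) (nat_lit 139) (nat_lit 4) (nat_lit 312) (nat_lit 280) (nat_lit 272)) (XT.lf (nat_lit 0) (nat_lit 808034068) (nat_lit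 1092) (nat_lit 4497199814) (nat_lit 84) (nat_lit 2011530360) (nat_lit 125) (nat_lit 5) (nat_lit 138) (nat_lit 5) (nat_lit 126) (nat_lit 5) (nat_lit 313) (nat_lit 280) (nat_lit 271))))) (XT.nd (nat_lit 282) (nat_lit 1176) (nat_lit 0) (XT.nd (nat_lit 94) (nat_lit 1176) (nat_lit 0) (XT.lf (nat_lit 0) (nat_lit 3294768843) (nat_lit 1092) (nat_lit 588463583) (nat_lit 84) (nat_lit 3513172771) (nat_lit 125) (nat_lit 5) (nat_lit 138) (nat_lit 5) (nat_lit 126) (nat_lit 5) (nat_lit 314) (nat_lit 280) (nat_lit 270)) (XT.nd (nat_lit 94) (nat_lit 84) (nat_lit 0) (XT.lf (nat_lit 0) (nat_lit 3438375625) (nat_lit 1092) (nat_lit 2379339016) (nat_lit 1176) (nat_lit 1662415156) (nat_lit 112) (nat_lit 5) (nat_lit 125) (nat_lit 5) (nat_lit 126) (nat_lit 5) (nat_lit 315) (nat_lit 280) (nat_lit 269)) (XT.lf (nat_lit 0) (nat_lit 766928645) (nat_lit 1176) (nat_lit 45726817) (nat_lit 84) (nat_lit 6755977121) (nat_lit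 111) (nat_lit 5) (nat_lit 125) (nat_lit 5) (nat_lit 112) (nat_lit 5) (nat_lit 316) (nat_lit 280) (nat_lit 268)))) (XT.nd (nat_lit 94) (nat_lit 672) (nat_lit 0) (XT.lf (nat_lit 0) (nat_lit 3213678982) (nat_lit 588) (nat_lit 3601345379) (nat_lit 84) (nat_lit 845369157) (nat_lit 105) (nat_lit 5) (nat_lit 112) (nat_lit 5) (nat_lit 106) (nat_lit 5) (nat_lit 317) (nat_lit 280) (nat_lit 267)) (XT.nd (nat_lit 94) (nat_lit 84) (nat_lit 0) (XT.lf (nat_lit 0) (nat_lit 465064622) (nat_lit 588) (nat_lit 5213814256) (nat_lit 672) (nat_lit 2078207167) (nat_lit 98) (nat_lit 5) (nat_lit 105) (nat_lit 5) (nat_lit 106) (nat_lit 5) (nat_lit 318) (nat_lit 280) (nat_lit 266)) (XT.lf (nat_lit 0) (nat_lit 323973531) (nat_lit 672) (nat_lit 3199766019) (nat_lit 84) (nat_lit 4334219115) (nat_lit 97) (nat_lit 5) (nat_lit 105) (nat_lit 5) (nat_lit 98) (nat_lit 5) (nat_lit 319) (nat_lit 280) (nat_lit 265)))))) (XT.nd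 (nat_lit 564) (nat_lit 1428) (nat_lit 0) (XT.nd (nat_lit 282) (nat_lit 504) (nat_lit 0) (XT.nd (nat_lit 94) (nat_lit 504) (nat_lit 0) (XT.lf (nat_lit 0) (nat_lit 945324008) (nat_lit 504) (nat_lit 1753225705) (nat_lit 588) (nat_lit 5264856391) (nat_lit 91) (nat_lit 5) (nat_lit 97) (nat_lit 5) (nat_lit 98) (nat_lit 5) (nat_lit 320) (nat_lit 280) (nat_lit 264)) (XT.nd (nat_lit 94) (nat_lit 504) (nat_lit 0) (XT.lf (nat_lit 0) (nat_lit 5114220331) (nat_lit 588) (nat_lit 2858794584) (nat_lit 84) (nat_lit 100387789) (nat_lit 91) (nat_lit 5) (nat_lit 98) (nat_lit 5) (nat_lit 92) (nat_lit 5) (nat_lit 321) (nat_lit 280) (nat_lit 263)) (XT.lf (nat_lit 0) (nat_lit 1367870696) (nat_lit 504) (nat_lit 6203446640) (nat_lit 588) (nat_lit 616793169) (nat_lit 85) (nat_lit 5) (nat_lit 91) (nat_lit 5) (nat_lit 92) (nat_lit 5) (nat_lit 322) (nat_lit 280) (nat_lit 262)))) (XT.nd (nat_lit 94) (nat_lit 420)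 (nat_lit 0) (XT.lf (nat_lit 0) (nat_lit 1727516738) (nat_lit 588) (nat_lit 2609469830) (nat_lit 84) (nat_lit 3970151475) (nat_lit 84) (nat_lit 5) (nat_lit 91) (nat_lit 5) (nat_lit 85) (nat_lit 5) (nat_lit 323) (nat_lit 280) (nat_lit 261)) (XT.nd (nat_lit 94) (nat_lit 0) (nat_lit 0) (XT.lf (nat_lit 0) (nat_lit 1689690900) (nat_lit 420) (nat_lit 2396093115) (nat_lit 504) (nat_lit 4345539840) (nat_lit 79) (nat_lit 5) (nat_lit 84) (nat_lit 5) (nat_lit 85) (nat_lit 5) (nat_lit 324) (nat_lit 280) (nat_lit 260)) (XT.lf (nat_lit 0) (nat_lit 6108274178) (nat_lit 420) (nat_lit 374653026) (nat_lit 504) (nat_lit 2077727073) (nat_lit 79) (nat_lit 5) (nat_lit 84) (nat_lit 5) (nat_lit 85) (nat_lit 5) (nat_lit 325) (nat_lit 280) (nat_lit 259))))) (XT.nd (nat_lit 282) (nat_lit 504) (nat_lit 0) (XT.nd (nat_lit 94) (nat_lit 420) (nat_lit 0) (XT.lf (nat_lit 0) (nat_lit 231013371) (nat_lit 504) (nat_lit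 6774768589) (nat_lit 84) (nat_lit 1689099749) (nat_lit 73) (nat_lit 5) (nat_lit 79) (nat_lit 5) (nat_lit 74) (nat_lit 5) (nat_lit 326) (nat_lit 280) (nat_lit 258)) (XT.nd (nat_lit 94) (nat_lit 420) (nat_lit 0) (XT.lf (nat_lit 0) (nat_lit 2538465003) (nat_lit 504) (nat_lit 2447504505) (nat_lit 84) (nat_lit 3847775895) (nat_lit 73) (nat_lit 5) (nat_lit 79) (nat_lit 5) (nat_lit 74) (nat_lit 5) (nat_lit 327) (nat_lit 280) (nat_lit 257)) (XT.lf (nat_lit 0) (nat_lit 1986194951) (nat_lit 420) (nat_lit 2893349844) (nat_lit 504) (nat_lit 4098750908) (nat_lit 68) (nat_lit 5) (nat_lit 73) (nat_lit 5) (nat_lit 74) (nat_lit 5) (nat_lit 328) (nat_lit 280) (nat_lit 256)))) (XT.nd (nat_lit 94) (nat_lit 504) (nat_lit 0) (XT.lf (nat_lit 0) (nat_lit 6542183359) (nat_lit 420) (nat_lit 720022522) (nat_lit 504) (nat_lit 1866282560) (nat_lit 68) (nat_lit 5) (nat_lit 73) (nat_lit 5) (nat_lit 74) (nat_lit 5)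 (nat_lit 329) (nat_lit 280) (nat_lit 255)) (XT.nd (nat_lit 94) (nat_lit 0) (nat_lit 0) (XT.lf (nat_lit 0) (nat_lit 405335303) (nat_lit 504) (nat_lit 7375580365) (nat_lit 84) (nat_lit 1503136164) (nat_lit 62) (nat_lit 5) (nat_lit 68) (nat_lit 5) (nat_lit 63) (nat_lit 5) (nat_lit 330) (nat_lit 280) (nat_lit 254)) (XT.lf (nat_lit 0) (nat_lit 2688561183) (nat_lit 504) (nat_lit 2940364565) (nat_lit 84) (nat_lit 3815724681) (nat_lit 62) (nat_lit 5) (nat_lit 68) (nat_lit 5) (nat_lit 63) (nat_lit 5) (nat_lit 331) (nat_lit 280) (nat_lit 253))))))))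
noncomputable def xc64 : XT := (XT.nd (nat_lit 2162) (nat_lit 1176) (nat_lit 0) (XT.nd (nat_lit 1034) (nat_lit 1344) (nat_lit 0) (XT.nd (nat_lit 470) (nat_lit 672) (nat_lit 0) (XT.nd (nat_lit 188) (nat_lit 756) (nat_lit 0) (XT.nd (nat_lit 94) (nat_lit 0) (nat_lit 0) (XT.lf (nat_lit 0) (nat_lit 1599139889) (nat_lit 336) (nat_lit 3406253968) (nat_lit 420) (nat_lit 4606163658) (nat_lit 58) (nat_lit 5) (nat_lit 62) (nat_lit 5) (nat_lit 63) (nat_lit 5) (nat_lit 332) (nat_lit 280) (nat_lit 252)) (XT.lf (nat_lit 0) (nat_lit 6276943367) (nat_lit 336) (nat_lit 1095711759) (nat_lit 420) (nat_lit 2411819005) (nat_lit 58) (nat_lit 5) (nat_lit 62) (nat_lit 5) (nat_lit 63) (nat_lit 5) (nat_lit 333) (nat_lit 280) (nat_lit 251))) (XT.nd (nat_lit 94) (nat_lit 420) (nat_lit 0) (XT.lf (nat_lit 0) (nat_lit 1081614121) (nat_lit 336) (nat_lit 8704538458) (nat_lit 420) (nat_lit 177607244) (nat_lit 54) (nat_lit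 5) (nat_lit 58) (nat_lit 5) (nat_lit 59) (nat_lit 5) (nat_lit 334) (nat_lit 280) (nat_lit 250)) (XT.nd (nat_lit 94) (nat_lit 336) (nat_lit 0) (XT.lf (nat_lit 0) (nat_lit 2080808034) (nat_lit 420) (nat_lit 4357723336) (nat_lit 84) (nat_lit 3709644389) (nat_lit 53) (nat_lit 5) (nat_lit 58) (nat_lit 5) (nat_lit 54) (nat_lit 5) (nat_lit 335) (nat_lit 280) (nat_lit 249)) (XT.lf (nat_lit 0) (nat_lit 247106250) (nat_lit 336) (nat_lit 4111987872) (nat_lit 420) (nat_lit 5980750552) (nat_lit 49) (nat_lit 5) (nat_lit 53) (nat_lit 5) (nat_lit 54) (nat_lit 5) (nat_lit 336) (nat_lit 280) (nat_lit 248))))) (XT.nd (nat_lit 282) (nat_lit 252) (nat_lit 0) (XT.nd (nat_lit 94) (nat_lit 420) (nat_lit 0) (XT.lf (nat_lit 0) (nat_lit 5024692930) (nat_lit 336) (nat_lit 1680749399) (nat_lit 420) (nat_lit 3832240346) (nat_lit 49) (nat_lit 5) (nat_lit 53) (nat_lit 5) (nat_lit 54) (nat_lit 5) (nat_lit 337) (nat_lit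 280) (nat_lit 247)) (XT.nd (nat_lit 94) (nat_lit 420) (nat_lit 0) (XT.lf (nat_lit 0) (nat_lit 9085976449) (nat_lit 420) (nat_lit 861410428) (nat_lit 84) (nat_lit 795605249) (nat_lit 49) (nat_lit 5) (nat_lit 54) (nat_lit 5) (nat_lit 50) (nat_lit 5) (nat_lit 338) (nat_lit 280) (nat_lit 246)) (XT.lf (nat_lit 0) (nat_lit 584718501) (nat_lit 420) (nat_lit 7023985895) (nat_lit 84) (nat_lit 3345579394) (nat_lit 44) (nat_lit 5) (nat_lit 49) (nat_lit 5) (nat_lit 45) (nat_lit 5) (nat_lit 339) (nat_lit 280) (nat_lit 245)))) (XT.nd (nat_lit 94) (nat_lit 252) (nat_lit 0) (XT.lf (nat_lit 0) (nat_lit 2825456846) (nat_lit 420) (nat_lit 2360612719) (nat_lit 84) (nat_lit 5986779561) (nat_lit 44) (nat_lit 5) (nat_lit 49) (nat_lit 5) (nat_lit 45) (nat_lit 5) (nat_lit 340) (nat_lit 280) (nat_lit 244)) (XT.nd (nat_lit 94) (nat_lit 0) (nat_lit 0) (XT.lf (nat_lit 0) (nat_lit 2437722683) (nat_lit 252) (nat_lit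 2678322760) (nat_lit 336) (nat_lit 6282879449) (nat_lit 41) (nat_lit 5) (nat_lit 44) (nat_lit 5) (nat_lit 45) (nat_lit 5) (nat_lit 341) (nat_lit 280) (nat_lit 243)) (XT.lf (nat_lit 0) (nat_lit 7376727668) (nat_lit 252) (nat_lit 82499668) (nat_lit 336) (nat_lit 4173475627) (nat_lit 41) (nat_lit 5) (nat_lit 44) (nat_lit 5) (nat_lit 45) (nat_lit 5) (nat_lit 342) (nat_lit 280) (nat_lit 242)))))) (XT.nd (nat_lit 564) (nat_lit 504) (nat_lit 0) (XT.nd (nat_lit 282) (nat_lit 504) (nat_lit 0) (XT.nd (nat_lit 94) (nat_lit 84) (nat_lit 0) (XT.lf (nat_lit 0) (nat_lit 522261369) (nat_lit 252) (nat_lit 9341792843) (nat_lit 336) (nat_lit 2010134142) (nat_lit 38) (nat_lit 5) (nat_lit 41) (nat_lit 5) (nat_lit 42) (nat_lit 5) (nat_lit 343) (nat_lit 280) (nat_lit 241)) (XT.nd (nat_lit 94) (nat_lit 0) (nat_lit 0) (XT.lf (nat_lit 0) (nat_lit 219808420) (nat_lit 336) (nat_lit 6644449136) (nat_lit 84) (nat_lit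 5258823581) (nat_lit 37) (nat_lit 5) (nat_lit 41) (nat_lit 5) (nat_lit 38) (nat_lit 5) (nat_lit 344) (nat_lit 280) (nat_lit 240)) (XT.lf (nat_lit 0) (nat_lit 2436632892) (nat_lit 336) (nat_lit 1867884592) (nat_lit 84) (nat_lit 8075898954) (nat_lit 37) (nat_lit 5) (nat_lit 41) (nat_lit 5) (nat_lit 38) (nat_lit 5) (nat_lit 345) (nat_lit 280) (nat_lit 239)))) (XT.nd (nat_lit 94) (nat_lit 252) (nat_lit 0) (XT.lf (nat_lit 0) (nat_lit 3063890245) (nat_lit 252) (nat_lit 1649409234) (nat_lit 336) (nat_lit 7932810586) (nat_lit 34) (nat_lit 5) (nat_lit 37) (nat_lit 5) (nat_lit 38) (nat_lit 5) (nat_lit 346) (nat_lit 280) (nat_lit 238)) (XT.nd (nat_lit 94) (nat_lit 252) (nat_lit 0) (XT.lf (nat_lit 0) (nat_lit 7052250467) (nat_lit 336) (nat_lit 4797468242) (nat_lit 84) (nat_lit 1070681038) (nat_lit 34) (nat_lit 5) (nat_lit 38) (nat_lit 5) (nat_lit 35) (nat_lit 5) (nat_lit 347) (nat_lit 280) (nat_lit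 237)) (XT.lf (nat_lit 0) (nat_lit 66553198) (nat_lit 252) (nat_lit 9377069890) (nat_lit 336) (nat_lit 3760291393) (nat_lit 31) (nat_lit 5) (nat_lit 34) (nat_lit 5) (nat_lit 35) (nat_lit 5) (nat_lit 348) (nat_lit 280) (nat_lit 236))))) (XT.nd (nat_lit 282) (nat_lit 252) (nat_lit 0) (XT.nd (nat_lit 94) (nat_lit 252) (nat_lit 0) (XT.lf (nat_lit 0) (nat_lit 5130076282) (nat_lit 252) (nat_lit 6792117456) (nat_lit 336) (nat_lit 1573715825) (nat_lit 31) (nat_lit 5) (nat_lit 34) (nat_lit 5) (nat_lit 35) (nat_lit 5) (nat_lit 349) (nat_lit 280) (nat_lit 235)) (XT.nd (nat_lit 94) (nat_lit 168) (nat_lit 0) (XT.lf (nat_lit 0) (nat_lit 630573918) (nat_lit 336) (nat_lit 3505371874) (nat_lit 84) (nat_lit 9662019140) (nat_lit 30) (nat_lit 5) (nat_lit 34) (nat_lit 5) (nat_lit 31) (nat_lit 5) (nat_lit 350) (nat_lit 280) (nat_lit 234)) (XT.lf (nat_lit 0) (nat_lit 1468595970) (nat_lit 168) (nat_lit 1381216486)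 (nat_lit 252) (nat_lit 11259802111) (nat_lit 28) (nat_lit 5) (nat_lit 30) (nat_lit 5) (nat_lit 31) (nat_lit 5) (nat_lit 351) (nat_lit 280) (nat_lit 233)))) (XT.nd (nat_lit 94) (nat_lit 252) (nat_lit 0) (XT.lf (nat_lit 0) (nat_lit 5154429562) (nat_lit 252) (nat_lit 7824725294) (nat_lit 84) (nat_lit 1451341777) (nat_lit 28) (nat_lit 5) (nat_lit 31) (nat_lit 5) (nat_lit 29) (nat_lit 5) (nat_lit 352) (nat_lit 280) (nat_lit 232)) (XT.nd (nat_lit 94) (nat_lit 252) (nat_lit 0) (XT.lf (nat_lit 0) (nat_lit 7510810862) (nat_lit 252) (nat_lit 2922871618) (nat_lit 84) (nat_lit 4328336381) (nat_lit 28) (nat_lit 5) (nat_lit 31) (nat_lit 5) (nat_lit 29) (nat_lit 5) (nat_lit 353) (nat_lit 280) (nat_lit 231)) (XT.lf (nat_lit 0) (nat_lit 2125640223) (nat_lit 252) (nat_lit 7802897303) (nat_lit 336) (nat_lit 5175723810) (nat_lit 25) (nat_lit 5) (nat_lit 28) (nat_lit 5) (nat_lit 29) (nat_lit 5) (nat_lit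 354) (nat_lit 280) (nat_lit 230))))))) (XT.nd (nat_lit 1128) (nat_lit 504) (nat_lit 0) (XT.nd (nat_lit 564) (nat_lit 252) (nat_lit 0) (XT.nd (nat_lit 282) (nat_lit 168) (nat_lit 0) (XT.nd (nat_lit 94) (nat_lit 252) (nat_lit 0) (XT.lf (nat_lit 0) (nat_lit 7344980297) (nat_lit 252) (nat_lit 5074466449) (nat_lit 336) (nat_lit 3037799226) (nat_lit 25) (nat_lit 5) (nat_lit 28) (nat_lit 5) (nat_lit 29) (nat_lit 5) (nat_lit 355) (nat_lit 280) (nat_lit 229)) (XT.nd (nat_lit 94) (nat_lit 252) (nat_lit 0) (XT.lf (nat_lit 0) (nat_lit 12679913339) (nat_lit 252) (nat_lit 2276355521) (nat_lit 336) (nat_lit 865950264) (nat_lit 25) (nat_lit 5) (nat_lit 28) (nat_lit 5) (nat_lit 29) (nat_lit 5) (nat_lit 356) (nat_lit 280) (nat_lit 228)) (XT.lf (nat_lit 0) (nat_lit 1340504829) (nat_lit 252) (nat_lit 14242621170) (nat_lit 84) (nat_lit 615185864) (nat_lit 22) (nat_lit 5) (nat_lit 25) (nat_lit 5) (nat_lit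 23) (nat_lit 5) (nat_lit 357) (nat_lit 280) (nat_lit 227)))) (XT.nd (nat_lit 94) (nat_lit 168) (nat_lit 0) (XT.lf (nat_lit 0) (nat_lit 3623373069) (nat_lit 252) (nat_lit 9385100433) (nat_lit 84) (nat_lit 3576578309) (nat_lit 22) (nat_lit 5) (nat_lit 25) (nat_lit 5) (nat_lit 23) (nat_lit 5) (nat_lit 358) (nat_lit 280) (nat_lit 226)) (XT.nd (nat_lit 94) (nat_lit 168) (nat_lit 0) (XT.lf (nat_lit 0) (nat_lit 5947509171) (nat_lit 252) (nat_lit 4421536003) (nat_lit 84) (nat_lit 6615716903) (nat_lit 22) (nat_lit 5) (nat_lit 25) (nat_lit 5) (nat_lit 23) (nat_lit 5) (nat_lit 359) (nat_lit 280) (nat_lit 225)) (XT.lf (nat_lit 0) (nat_lit 666119506) (nat_lit 168) (nat_lit 7655567954) (nat_lit 252) (nat_lit 9075922922) (nat_lit 20) (nat_lit 5) (nat_lit 22) (nat_lit 5) (nat_lit 23) (nat_lit 5) (nat_lit 360) (nat_lit 280) (nat_lit 224))))) (XT.nd (nat_lit 282) (nat_lit 252) (nat_lit 0) (XT.nd (nat_lit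 94) (nat_lit 0) (nat_lit 0) (XT.lf (nat_lit 0) (nat_lit 5962463699) (nat_lit 168) (nat_lit 4824975477) (nat_lit 252) (nat_lit 7035323505) (nat_lit 20) (nat_lit 5) (nat_lit 22) (nat_lit 5) (nat_lit 23) (nat_lit 5) (nat_lit 361) (nat_lit 280) (nat_lit 223)) (XT.nd (nat_lit 94) (nat_lit 0) (nat_lit 0) (XT.lf (nat_lit 0) (nat_lit 11381517473) (nat_lit 168) (nat_lit 1920781102) (nat_lit 252) (nat_lit 4959704369) (nat_lit 20) (nat_lit 5) (nat_lit 22) (nat_lit 5) (nat_lit 23) (nat_lit 5) (nat_lit 362) (nat_lit 280) (nat_lit 222)) (XT.lf (nat_lit 0) (nat_lit 15879122345) (nat_lit 252) (nat_lit 1797921211) (nat_lit 84) (nat_lit 1038371144) (nat_lit 20) (nat_lit 5) (nat_lit 23) (nat_lit 5) (nat_lit 21) (nat_lit 4) (nat_lit 363) (nat_lit 280) (nat_lit 221)))) (XT.nd (nat_lit 94) (nat_lit 84) (nat_lit 0) (XT.lf (nat_lit 0) (nat_lit 3452372322) (nat_lit 168) (nat_lit 15111504560) (nat_lit 252) (nat_lit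 618193195) (nat_lit 18) (nat_lit 5) (nat_lit 20) (nat_lit 5) (nat_lit 21) (nat_lit 4) (nat_lit 364) (nat_lit 280) (nat_lit 220)) (XT.nd (nat_lit 94) (nat_lit 0) (nat_lit 0) (XT.lf (nat_lit 0) (nat_lit 1628233768) (nat_lit 252) (nat_lit 10815739688) (nat_lit 84) (nat_lit 7218970357) (nat_lit 17) (nat_lit 5) (nat_lit 20) (nat_lit 5) (nat_lit 18) (nat_lit 5) (nat_lit 365) (nat_lit 280) (nat_lit 219)) (XT.lf (nat_lit 0) (nat_lit 3906461652) (nat_lit 252) (nat_lit 5794495443) (nat_lit 84) (nat_lit 10458398804) (nat_lit 17) (nat_lit 5) (nat_lit 20) (nat_lit 5) (nat_lit 18) (nat_lit 5) (nat_lit 366) (nat_lit 280) (nat_lit 218)))))) (XT.nd (nat_lit 564) (nat_lit 252) (nat_lit 0) (XT.nd (nat_lit 282) (nat_lit 84) (nat_lit 0) (XT.nd (nat_lit 94) (nat_lit 168) (nat_lit 0) (XT.lf (nat_lit 0) (nat_lit 6231069218) (nat_lit 252) (nat_lit 655152142) (nat_lit 84) (nat_lit 13785737792) (nat_lit 17) (nat_lit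 5) (nat_lit 20) (nat_lit 5) (nat_lit 18) (nat_lit 5) (nat_lit 367) (nat_lit 280) (nat_lit 217)) (XT.nd (nat_lit 94) (nat_lit 0) (nat_lit 0) (XT.lf (nat_lit 0) (nat_lit 4701811646) (nat_lit 168) (nat_lit 3949054151) (nat_lit 252) (nat_lit 12548919656) (nat_lit 15) (nat_lit 5) (nat_lit 17) (nat_lit 5) (nat_lit 18) (nat_lit 5) (nat_lit 368) (nat_lit 280) (nat_lit 216)) (XT.lf (nat_lit 0) (nat_lit 10202668836) (nat_lit 168) (nat_lit 926678659) (nat_lit 252) (nat_lit 10615180838) (nat_lit 15) (nat_lit 5) (nat_lit 17) (nat_lit 5) (nat_lit 18) (nat_lit 5) (nat_lit 369) (nat_lit 280) (nat_lit 215)))) (XT.nd (nat_lit 94) (nat_lit 84) (nat_lit 0) (XT.lf (nat_lit 0) (nat_lit 13683786647) (nat_lit 252) (nat_lit 6489420593) (nat_lit 84) (nat_lit 2133024484) (nat_lit 15) (nat_lit 5) (nat_lit 18) (nat_lit 5) (nat_lit 16) (nat_lit 4) (nat_lit 370) (nat_lit 280) (nat_lit 214)) (XT.nd (nat_lit 94) (nat_lit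 84) (nat_lit 0) (XT.lf (nat_lit 0) (nat_lit 16304976019) (nat_lit 252) (nat_lit 1324359456) (nat_lit 84) (nat_lit 5256442949) (nat_lit 15) (nat_lit 5) (nat_lit 18) (nat_lit 5) (nat_lit 16) (nat_lit 4) (nat_lit 371) (nat_lit 280) (nat_lit 213)) (XT.lf (nat_lit 0) (nat_lit 4048907521) (nat_lit 84) (nat_lit 14977424213) (nat_lit 168) (nat_lit 4456416743) (nat_lit 14) (nat_lit 5) (nat_lit 15) (nat_lit 5) (nat_lit 16) (nat_lit 4) (nat_lit 372) (nat_lit 280) (nat_lit 212))))) (XT.nd (nat_lit 282) (nat_lit 168) (nat_lit 0) (XT.nd (nat_lit 94) (nat_lit 84) (nat_lit 0) (XT.lf (nat_lit 0) (nat_lit 9583673012) (nat_lit 84) (nat_lit 12241254158) (nat_lit 168) (nat_lit 2273560506) (nat_lit 14) (nat_lit 5) (nat_lit 15) (nat_lit 5) (nat_lit 16) (nat_lit 4) (nat_lit 373) (nat_lit 280) (nat_lit 211)) (XT.nd (nat_lit 94) (nat_lit 84) (nat_lit 0) (XT.lf (nat_lit 0) (nat_lit 15257864452) (nat_lit 84) (nat_lit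 9432098512) (nat_lit 168) (nat_lit 44022641) (nat_lit 14) (nat_lit 5) (nat_lit 15) (nat_lit 5) (nat_lit 16) (nat_lit 4) (nat_lit 374) (nat_lit 280) (nat_lit 210)) (XT.lf (nat_lit 0) (nat_lit 2189259353) (nat_lit 168) (nat_lit 4335228116) (nat_lit 84) (nat_lit 18864660051) (nat_lit 13) (nat_lit 5) (nat_lit 15) (nat_lit 5) (nat_lit 14) (nat_lit 5) (nat_lit 375) (nat_lit 280) (nat_lit 209)))) (XT.nd (nat_lit 94) (nat_lit 0) (nat_lit 0) (XT.lf (nat_lit 0) (nat_lit 953102656) (nat_lit 168) (nat_lit 3527864845) (nat_lit 252) (nat_lit 21583982044) (nat_lit 11) (nat_lit 5) (nat_lit 13) (nat_lit 5) (nat_lit 14) (nat_lit 5) (nat_lit 376) (nat_lit 280) (nat_lit 208)) (XT.nd (nat_lit 94) (nat_lit 0) (nat_lit 0) (XT.lf (nat_lit 0) (nat_lit 6466904280) (nat_lit 168) (nat_lit 402999584) (nat_lit 252) (nat_lit 19891022125) (nat_lit 11) (nat_lit 5) (nat_lit 13) (nat_lit 5) (nat_lit 14) (nat_lit 5) (nat_lit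 377) (nat_lit 280) (nat_lit 207)) (XT.lf (nat_lit 0) (nat_lit 9342258317) (nat_lit 252) (nat_lit 15384764588) (nat_lit 84) (nat_lit 2751199814) (nat_lit 11) (nat_lit 5) (nat_lit 14) (nat_lit 5) (nat_lit 12) (nat_lit 4) (nat_lit 378) (nat_lit 280) (nat_lit 206))))))))
noncomputable def xc65 : XT := (XT.nd (nat_lit 2256) (nat_lit 252) (nat_lit 0) (XT.nd (nat_lit 1128) (nat_lit 84) (nat_lit 0) (XT.nd (nat_lit 564) (nat_lit 252) (nat_lit 0) (XT.nd (nat_lit 282) (nat_lit 0) (nat_lit 0) (XT.nd (nat_lit 94) (nat_lit 84) (nat_lit 0) (XT.lf (nat_lit 0) (nat_lit 11877335638) (nat_lit 252) (nat_lit 10356499871) (nat_lit 84) (nat_lit 5984385810) (nat_lit 11) (nat_lit 5) (nat_lit 14) (nat_lit 5) (nat_lit 12) (nat_lit 4) (nat_lit 379) (nat_lit 280) (nat_lit 205)) (XT.nd (nat_lit 94) (nat_lit 84) (nat_lit 0) (XT.lf (nat_lit 0) (nat_lit 14473500982) (nat_lit 252) (nat_lit 5200542881) (nat_lit 84) (nat_lit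 9307691616) (nat_lit 11) (nat_lit 5) (nat_lit 14) (nat_lit 5) (nat_lit 12) (nat_lit 4) (nat_lit 380) (nat_lit 280) (nat_lit 204)) (XT.lf (nat_lit 0) (nat_lit 89719927) (nat_lit 84) (nat_lit 17044344350) (nat_lit 168) (nat_lit 12635385006) (nat_lit 10) (nat_lit 5) (nat_lit 11) (nat_lit 5) (nat_lit 12) (nat_lit 4) (nat_lit 381) (nat_lit 280) (nat_lit 203)))) (XT.nd (nat_lit 94) (nat_lit 0) (nat_lit 0) (XT.lf (nat_lit 0) (nat_lit 5627169914) (nat_lit 84) (nat_lit 14287486829) (nat_lit 168) (nat_lit 10665792529) (nat_lit 10) (nat_lit 5) (nat_lit 11) (nat_lit 5) (nat_lit 12) (nat_lit 4) (nat_lit 382) (nat_lit 280) (nat_lit 202)) (XT.nd (nat_lit 94) (nat_lit 0) (nat_lit 0) (XT.lf (nat_lit 0) (nat_lit 11310034735) (nat_lit 84) (nat_lit 11455184622) (nat_lit 168) (nat_lit 8651904201) (nat_lit 10) (nat_lit 5) (nat_lit 11) (nat_lit 5) (nat_lit 12) (nat_lit 4) (nat_lit 383) (nat_lit 280) (nat_lit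 201)) (XT.lf (nat_lit 0) (nat_lit 17143611414) (nat_lit 84) (nat_lit 8544797727) (nat_lit 168) (nat_lit 6591842869) (nat_lit 10) (nat_lit 5) (nat_lit 11) (nat_lit 5) (nat_lit 12) (nat_lit 4) (nat_lit 384) (nat_lit 280) (nat_lit 200))))) (XT.nd (nat_lit 282) (nat_lit 84) (nat_lit 0) (XT.nd (nat_lit 94) (nat_lit 168) (nat_lit 0) (XT.lf (nat_lit 0) (nat_lit 23133337457) (nat_lit 84) (nat_lit 5553613359) (nat_lit 168) (nat_lit 4483688339) (nat_lit 10) (nat_lit 5) (nat_lit 11) (nat_lit 5) (nat_lit 12) (nat_lit 4) (nat_lit 385) (nat_lit 280) (nat_lit 199)) (XT.nd (nat_lit 94) (nat_lit 168) (nat_lit 0) (XT.lf (nat_lit 0) (nat_lit 29284795916) (nat_lit 84) (nat_lit 2478843420) (nat_lit 168) (nat_lit 2325475591) (nat_lit 10) (nat_lit 5) (nat_lit 11) (nat_lit 5) (nat_lit 12) (nat_lit 4) (nat_lit 386) (nat_lit 280) (nat_lit 198)) (XT.lf (nat_lit 0) (nat_lit 571939177) (nat_lit 168) (nat_lit 34361846302)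 (nat_lit 168) (nat_lit 102364228) (nat_lit 8) (nat_lit 4) (nat_lit 10) (nat_lit 5) (nat_lit 10) (nat_lit 4) (nat_lit 387) (nat_lit 280) (nat_lit 197)))) (XT.nd (nat_lit 94) (nat_lit 0) (nat_lit 0) (XT.lf (nat_lit 0) (nat_lit 2207140431) (nat_lit 252) (nat_lit 29865560575) (nat_lit 84) (nat_lit 3937283946) (nat_lit 7) (nat_lit 5) (nat_lit 10) (nat_lit 5) (nat_lit 8) (nat_lit 4) (nat_lit 388) (nat_lit 280) (nat_lit 196)) (XT.nd (nat_lit 94) (nat_lit 0) (nat_lit 0) (XT.lf (nat_lit 0) (nat_lit 4572127768) (nat_lit 252) (nat_lit 25148382562) (nat_lit 84) (nat_lit 7293924267) (nat_lit 7) (nat_lit 5) (nat_lit 10) (nat_lit 5) (nat_lit 8) (nat_lit 4) (nat_lit 389) (nat_lit 280) (nat_lit 195)) (XT.lf (nat_lit 0) (nat_lit 6996864610) (nat_lit 252) (nat_lit 20307264121) (nat_lit 84) (nat_lit 10746337643) (nat_lit 7) (nat_lit 5) (nat_lit 10) (nat_lit 5) (nat_lit 8) (nat_lit 4) (nat_lit 390) (nat_lit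 280) (nat_lit 194)))))) (XT.nd (nat_lit 564) (nat_lit 0) (nat_lit 0) (XT.nd (nat_lit 282) (nat_lit 84) (nat_lit 0) (XT.nd (nat_lit 94) (nat_lit 0) (nat_lit 0) (XT.lf (nat_lit 0) (nat_lit 9483611064) (nat_lit 252) (nat_lit 15337692822) (nat_lit 84) (nat_lit 14297742084) (nat_lit 7) (nat_lit 5) (nat_lit 10) (nat_lit 5) (nat_lit 8) (nat_lit 4) (nat_lit 391) (nat_lit 280) (nat_lit 193)) (XT.nd (nat_lit 94) (nat_lit 0) (nat_lit 0) (XT.lf (nat_lit 0) (nat_lit 12034685040) (nat_lit 252) (nat_lit 10235036506) (nat_lit 84) (nat_lit 17951447872) (nat_lit 7) (nat_lit 5) (nat_lit 10) (nat_lit 5) (nat_lit 8) (nat_lit 4) (nat_lit 392) (nat_lit 280) (nat_lit 192)) (XT.lf (nat_lit 0) (nat_lit 14652464405) (nat_lit 252) (nat_lit 4994538961) (nat_lit 84) (nat_lit 21710860643) (nat_lit 7) (nat_lit 5) (nat_lit 10) (nat_lit 5) (nat_lit 8) (nat_lit 4) (nat_lit 393) (nat_lit 280) (nat_lit 191)))) (XT.nd (nat_lit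 94) (nat_lit 0) (nat_lit 0) (XT.lf (nat_lit 0) (nat_lit 396676655) (nat_lit 84) (nat_lit 16946647630) (nat_lit 168) (nat_lit 25186742991) (nat_lit 6) (nat_lit 5) (nat_lit 7) (nat_lit 5) (nat_lit 8) (nat_lit 4) (nat_lit 394) (nat_lit 280) (nat_lit 190)) (XT.nd (nat_lit 94) (nat_lit 0) (nat_lit 0) (XT.lf (nat_lit 0) (nat_lit 6041371798) (nat_lit 84) (nat_lit 14116523290) (nat_lit 168) (nat_lit 23579484956) (nat_lit 6) (nat_lit 5) (nat_lit 7) (nat_lit 5) (nat_lit 8) (nat_lit 4) (nat_lit 395) (nat_lit 280) (nat_lit 189)) (XT.lf (nat_lit 0) (nat_lit 11842109949) (nat_lit 84) (nat_lit 11206125117) (nat_lit 168) (nat_lit 21934260111) (nat_lit 6) (nat_lit 5) (nat_lit 7) (nat_lit 5) (nat_lit 8) (nat_lit 4) (nat_lit 396) (nat_lit 280) (nat_lit 188))))) (XT.nd (nat_lit 282) (nat_lit 0) (nat_lit 0) (XT.nd (nat_lit 94) (nat_lit 0) (nat_lit 0) (XT.lf (nat_lit 0) (nat_lit 17804298006) (nat_lit 84)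 (nat_lit 8212740315) (nat_lit 168) (nat_lit 20249534934) (nat_lit 6) (nat_lit 5) (nat_lit 7) (nat_lit 5) (nat_lit 8) (nat_lit 4) (nat_lit 397) (nat_lit 280) (nat_lit 187)) (XT.nd (nat_lit 94) (nat_lit 0) (nat_lit 0) (XT.lf (nat_lit 0) (nat_lit 23933493350) (nat_lit 84) (nat_lit 5133578736) (nat_lit 168) (nat_lit 18523739084) (nat_lit 6) (nat_lit 5) (nat_lit 7) (nat_lit 5) (nat_lit 8) (nat_lit 4) (nat_lit 398) (nat_lit 280) (nat_lit 186)) (XT.lf (nat_lit 0) (nat_lit 30235409035) (nat_lit 84) (nat_lit 1965770278) (nat_lit 168) (nat_lit 16755263939) (nat_lit 6) (nat_lit 5) (nat_lit 7) (nat_lit 5) (nat_lit 8) (nat_lit 4) (nat_lit 399) (nat_lit 280) (nat_lit 185)))) (XT.nd (nat_lit 94) (nat_lit 0) (nat_lit 0) (XT.lf (nat_lit 0) (nat_lit 35435114367) (nat_lit 168) (nat_lit 13661656355) (nat_lit 0) (nat_lit 1267573867) (nat_lit 6) (nat_lit 5) (nat_lit 8) (nat_lit 4) (nat_lit 6) (nat_lit 4)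 (nat_lit 400) (nat_lit 280) (nat_lit 184)) (XT.nd (nat_lit 94) (nat_lit 0) (nat_lit 0) (XT.lf (nat_lit 0) (nat_lit 38779486105) (nat_lit 168) (nat_lit 8482062857) (nat_lit 0) (nat_lit 4554043102) (nat_lit 6) (nat_lit 5) (nat_lit 8) (nat_lit 4) (nat_lit 6) (nat_lit 4) (nat_lit 401) (nat_lit 280) (nat_lit 183)) (XT.lf (nat_lit 0) (nat_lit 42217911149) (nat_lit 168) (nat_lit 3157925113) (nat_lit 0) (nat_lit 7936306649) (nat_lit 6) (nat_lit 5) (nat_lit 8) (nat_lit 4) (nat_lit 6) (nat_lit 4) (nat_lit 402) (nat_lit 280) (nat_lit 182))))))) (XT.nd (nat_lit 1128) (nat_lit 84) (nat_lit 0) (XT.nd (nat_lit 564) (nat_lit 0) (nat_lit 0) (XT.nd (nat_lit 282) (nat_lit 84) (nat_lit 0) (XT.nd (nat_lit 94) (nat_lit 0) (nat_lit 0) (XT.lf (nat_lit 0) (nat_lit 2363335470) (nat_lit 84) (nat_lit 43413703580) (nat_lit 84) (nat_lit 9077626241) (nat_lit 5) (nat_lit 4) (nat_lit 6) (nat_lit 5) (nat_lit 6) (nat_lit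 4) (nat_lit 403) (nat_lit 280) (nat_lit 181)) (XT.nd (nat_lit 94) (nat_lit 0) (nat_lit 0) (XT.lf (nat_lit 0) (nat_lit 8107317457) (nat_lit 84) (nat_lit 41362939831) (nat_lit 84) (nat_lit 6974027537) (nat_lit 5) (nat_lit 4) (nat_lit 6) (nat_lit 5) (nat_lit 6) (nat_lit 4) (nat_lit 404) (nat_lit 280) (nat_lit 180)) (XT.lf (nat_lit 0) (nat_lit 14014441423) (nat_lit 84) (nat_lit 39254595753) (nat_lit 84) (nat_lit 4814437139) (nat_lit 5) (nat_lit 4) (nat_lit 6) (nat_lit 5) (nat_lit 6) (nat_lit 4) (nat_lit 405) (nat_lit 280) (nat_lit 179)))) (XT.nd (nat_lit 94) (nat_lit 84) (nat_lit 0) (XT.lf (nat_lit 0) (nat_lit 20090213424) (nat_lit 84) (nat_lit 37086706146) (nat_lit 84) (nat_lit 2596842083) (nat_lit 5) (nat_lit 4) (nat_lit 6) (nat_lit 5) (nat_lit 6) (nat_lit 4) (nat_lit 406) (nat_lit 280) (nat_lit 178)) (XT.nd (nat_lit 94) (nat_lit 84) (nat_lit 0) (XT.lf (nat_lit 0) (nat_lit 26340296718)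 (nat_lit 84) (nat_lit 34857250312) (nat_lit 84) (nat_lit 319175336) (nat_lit 5) (nat_lit 4) (nat_lit 6) (nat_lit 5) (nat_lit 6) (nat_lit 4) (nat_lit 407) (nat_lit 280) (nat_lit 177)) (XT.lf (nat_lit 0) (nat_lit 1979973801) (nat_lit 168) (nat_lit 30563509495) (nat_lit 84) (nat_lit 30769876368) (nat_lit 4) (nat_lit 5) (nat_lit 6) (nat_lit 5) (nat_lit 5) (nat_lit 4) (nat_lit 408) (nat_lit 280) (nat_lit 176))))) (XT.nd (nat_lit 282) (nat_lit 0) (nat_lit 0) (XT.nd (nat_lit 94) (nat_lit 0) (nat_lit 0) (XT.lf (nat_lit 0) (nat_lit 4335770951) (nat_lit 168) (nat_lit 25824240782) (nat_lit 84) (nat_lit 35005840510) (nat_lit 4) (nat_lit 5) (nat_lit 6) (nat_lit 5) (nat_lit 5) (nat_lit 4) (nat_lit 409) (nat_lit 280) (nat_lit 175)) (XT.nd (nat_lit 94) (nat_lit 0) (nat_lit 0) (XT.lf (nat_lit 0) (nat_lit 6756842632) (nat_lit 168) (nat_lit 20951035756) (nat_lit 84) (nat_lit 39368146584) (nat_lit 4) (nat_lit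 5) (nat_lit 6) (nat_lit 5) (nat_lit 5) (nat_lit 4) (nat_lit 410) (nat_lit 280) (nat_lit 174)) (XT.lf (nat_lit 0) (nat_lit 9245445539) (nat_lit 168) (nat_lit 15939352078) (nat_lit 84) (nat_lit 43860860714) (nat_lit 4) (nat_lit 5) (nat_lit 6) (nat_lit 5) (nat_lit 5) (nat_lit 4) (nat_lit 411) (nat_lit 280) (nat_lit 173)))) (XT.nd (nat_lit 94) (nat_lit 0) (nat_lit 0) (XT.lf (nat_lit 0) (nat_lit 11803899309) (nat_lit 168) (nat_lit 10784518334) (nat_lit 84) (nat_lit 48488170582) (nat_lit 4) (nat_lit 5) (nat_lit 6) (nat_lit 5) (nat_lit 5) (nat_lit 4) (nat_lit 412) (nat_lit 280) (nat_lit 172)) (XT.nd (nat_lit 94) (nat_lit 0) (nat_lit 0) (XT.lf (nat_lit 0) (nat_lit 14434588689) (nat_lit 168) (nat_lit 5481729680) (nat_lit 84) (nat_lit 53254389325) (nat_lit 4) (nat_lit 5) (nat_lit 6) (nat_lit 5) (nat_lit 5) (nat_lit 4) (nat_lit 413) (nat_lit 280) (nat_lit 171)) (XT.lf (nat_lit 0) (nat_lit 17139965758)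 (nat_lit 168) (nat_lit 26043362) (nat_lit 84) (nat_lit 58163959558) (nat_lit 4) (nat_lit 5) (nat_lit 6) (nat_lit 5) (nat_lit 5) (nat_lit 4) (nat_lit 414) (nat_lit 280) (nat_lit 170)))))) (XT.nd (nat_lit 43710) (nat_lit 0) (nat_lit 13188) (XT.nd (nat_lit 376) (nat_lit 0) (nat_lit 0) (XT.nd (nat_lit 94) (nat_lit 0) (nat_lit 0) (XT.lf (nat_lit 0) (nat_lit 5702518941) (nat_lit 84) (nat_lit 14276602963) (nat_lit 168) (nat_lit 57575508267) (nat_lit 3) (nat_lit 5) (nat_lit 4) (nat_lit 5) (nat_lit 5) (nat_lit 4) (nat_lit 415) (nat_lit 280) (nat_lit 169)) (XT.nd (nat_lit 94) (nat_lit 0) (nat_lit 0) (XT.lf (nat_lit 0) (nat_lit 11598188258) (nat_lit 84) (nat_lit 11301808913) (nat_lit 168) (nat_lit 56948464518) (nat_lit 3) (nat_lit 5) (nat_lit 4) (nat_lit 5) (nat_lit 5) (nat_lit 4) (nat_lit 416) (nat_lit 280) (nat_lit 168)) (XT.lf (nat_lit 0) (nat_lit 17665924465) (nat_lit 84) (nat_lit 8239125990)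 (nat_lit 168) (nat_lit 56308559043) (nat_lit 3) (nat_lit 5) (nat_lit 4) (nat_lit 5) (nat_lit 5) (nat_lit 4) (nat_lit 417) (nat_lit 280) (nat_lit 167)))) (XT.nd (nat_lit 94) (nat_lit 0) (nat_lit 0) (XT.lf (nat_lit 0) (nat_lit 30340386267) (nat_lit 84) (nat_lit 1838589978) (nat_lit 168) (nat_lit 54987764529) (nat_lit 3) (nat_lit 5) (nat_lit 4) (nat_lit 5) (nat_lit 5) (nat_lit 4) (nat_lit 419) (nat_lit 280) (nat_lit 165)) (XT.nd (nat_lit 43146) (nat_lit 0) (nat_lit 15372) (XT.lf (nat_lit 0) (nat_lit 35468628767) (nat_lit 168) (nat_lit 52815347349) (nat_lit 0) (nat_lit 1474902069) (nat_lit 3) (nat_lit 5) (nat_lit 5) (nat_lit 4) (nat_lit 3) (nat_lit 4) (nat_lit 420) (nat_lit 280) (nat_lit 164)) (XT.lf (nat_lit 0) (nat_lit 867498363) (nat_lit 588) (nat_lit 1613175151) (nat_lit 0) (nat_lit 867498363) (nat_lit 186) (nat_lit 5) (nat_lit 193) (nat_lit 4) (nat_lit 186) (nat_lit 4) (nat_lit 302)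 (nat_lit 281) (nat_lit 281))))) (XT.nd (nat_lit 282) (nat_lit 840) (nat_lit 0) (XT.nd (nat_lit 94) (nat_lit 756) (nat_lit 0) (XT.lf (nat_lit 0) (nat_lit 228729372) (nat_lit 588) (nat_lit 4193436553) (nat_lit 588) (nat_lit 2313318230) (nat_lit 179) (nat_lit 4) (nat_lit 186) (nat_lit 5) (nat_lit 186) (nat_lit 4) (nat_lit 303) (nat_lit 281) (nat_lit 280)) (XT.nd (nat_lit 94) (nat_lit 672) (nat_lit 0) (XT.lf (nat_lit 0) (nat_lit 349110802) (nat_lit 672) (nat_lit 2994661407) (nat_lit 84) (nat_lit 3434292440) (nat_lit 178) (nat_lit 5) (nat_lit 186) (nat_lit 5) (nat_lit 179) (nat_lit 4) (nat_lit 304) (nat_lit 281) (nat_lit 279)) (XT.lf (nat_lit 0) (nat_lit 541093225) (nat_lit 672) (nat_lit 2419790264) (nat_lit 756) (nat_lit 3863488840) (nat_lit 170) (nat_lit 5) (nat_lit 178) (nat_lit 5) (nat_lit 179) (nat_lit 4) (nat_lit 305) (nat_lit 281) (nat_lit 278)))) (XT.nd (nat_lit 94) (nat_lit 840)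 (nat_lit 0) (XT.lf (nat_lit 0) (nat_lit 4178219391) (nat_lit 672) (nat_lit 1418163410) (nat_lit 756) (nat_lit 1277993412) (nat_lit 170) (nat_lit 5) (nat_lit 178) (nat_lit 5) (nat_lit 179) (nat_lit 4) (nat_lit 306) (nat_lit 281) (nat_lit 277)) (XT.nd (nat_lit 94) (nat_lit 0) (nat_lit 0) (XT.lf (nat_lit 0) (nat_lit 935431877) (nat_lit 756) (nat_lit 346366395) (nat_lit 840) (nat_lit 5646577456) (nat_lit 160) (nat_lit 5) (nat_lit 169) (nat_lit 5) (nat_lit 170) (nat_lit 5) (nat_lit 307) (nat_lit 281) (nat_lit 276)) (XT.lf (nat_lit 0) (nat_lit 3845233673) (nat_lit 840) (nat_lit 2341620378) (nat_lit 84) (nat_lit 798757748) (nat_lit 160) (nat_lit 5) (nat_lit 170) (nat_lit 5) (nat_lit 161) (nat_lit 4) (nat_lit 308) (nat_lit 281) (nat_lit 275))))))))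
noncomputable def xc66 : XT := (XT.nd (nat_lit 2256) (nat_lit 2772) (nat_lit 0) (XT.nd (nat_lit 1128) (nat_lit 2772) (nat_lit 0) (XT.nd (nat_lit 564) (nat_lit 2856) (nat_lit 0) (XT.nd (nat_lit 282) (nat_lit 1092) (nat_lit 0) (XT.nd (nat_lit 94) (nat_lit 1008) (nat_lit 0) (XT.lf (nat_lit 0) (nat_lit 1374972934) (nat_lit 840) (nat_lit 5047785363) (nat_lit 924) (nat_lit 624320962) (nat_lit 150) (nat_lit 5) (nat_lit 160) (nat_lit 5) (nat_lit 161) (nat_lit 4) (nat_lit 309) (nat_lit 281) (nat_lit 274)) (XT.nd (nat_lit 94) (nat_lit 924) (nat_lit 0) (XT.lf (nat_lit 0) (nat_lit 1872719543) (nat_lit 924) (nat_lit 1946505690) (nat_lit 84) (nat_lit 3292803312) (nat_lit 149) (nat_lit 5) (nat_lit 160) (nat_lit 5) (nat_lit 150) (nat_lit 5) (nat_lit 310) (nat_lit 281) (nat_lit 273)) (XT.lf (nat_lit 0) (nat_lit 1854329159) (nat_lit 924) (nat_lit 2518711510) (nat_lit 1008) (nat_lit 2808041283) (nat_lit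 138) (nat_lit 5) (nat_lit 149) (nat_lit 5) (nat_lit 150) (nat_lit 5) (nat_lit 311) (nat_lit 281) (nat_lit 272)))) (XT.nd (nat_lit 94) (nat_lit 1092) (nat_lit 0) (XT.lf (nat_lit 0) (nat_lit 5743741302) (nat_lit 924) (nat_lit 1149586305) (nat_lit 1008) (nat_lit 361113178) (nat_lit 138) (nat_lit 5) (nat_lit 149) (nat_lit 5) (nat_lit 150) (nat_lit 5) (nat_lit 312) (nat_lit 281) (nat_lit 271)) (XT.nd (nat_lit 94) (nat_lit 0) (nat_lit 0) (XT.lf (nat_lit 0) (nat_lit 2068192556) (nat_lit 1092) (nat_lit 4954706344) (nat_lit 84) (nat_lit 308416071) (nat_lit 125) (nat_lit 5) (nat_lit 138) (nat_lit 5) (nat_lit 126) (nat_lit 5) (nat_lit 313) (nat_lit 281) (nat_lit 270)) (XT.lf (nat_lit 0) (nat_lit 4518006176) (nat_lit 1092) (nat_lit 1081589735) (nat_lit 84) (nat_lit 1812675701) (nat_lit 125) (nat_lit 5) (nat_lit 138) (nat_lit 5) (nat_lit 126) (nat_lit 5) (nat_lit 314) (nat_lit 281) (nat_lit 269)))))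 (XT.nd (nat_lit 282) (nat_lit 1176) (nat_lit 0) (XT.nd (nat_lit 94) (nat_lit 588) (nat_lit 0) (XT.lf (nat_lit 0) (nat_lit 2899850783) (nat_lit 1092) (nat_lit 4099947944) (nat_lit 1176) (nat_lit 497639221) (nat_lit 112) (nat_lit 5) (nat_lit 125) (nat_lit 5) (nat_lit 126) (nat_lit 5) (nat_lit 315) (nat_lit 281) (nat_lit 268)) (XT.nd (nat_lit 94) (nat_lit 504) (nat_lit 0) (XT.lf (nat_lit 0) (nat_lit 1872646962) (nat_lit 1176) (nat_lit 648201329) (nat_lit 84) (nat_lit 5065993688) (nat_lit 111) (nat_lit 5) (nat_lit 125) (nat_lit 5) (nat_lit 112) (nat_lit 5) (nat_lit 316) (nat_lit 281) (nat_lit 267)) (XT.lf (nat_lit 0) (nat_lit 3418277860) (nat_lit 504) (nat_lit 851596917) (nat_lit 588) (nat_lit 3410414794) (nat_lit 105) (nat_lit 5) (nat_lit 111) (nat_lit 5) (nat_lit 112) (nat_lit 5) (nat_lit 317) (nat_lit 281) (nat_lit 266)))) (XT.nd (nat_lit 94) (nat_lit 1176) (nat_lit 0) (XT.lf (nat_lit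 0) (nat_lit 6688198401) (nat_lit 588) (nat_lit 231407530) (nat_lit 84) (nat_lit 858976236) (nat_lit 105) (nat_lit 5) (nat_lit 112) (nat_lit 5) (nat_lit 106) (nat_lit 5) (nat_lit 318) (nat_lit 281) (nat_lit 265)) (XT.nd (nat_lit 94) (nat_lit 504) (nat_lit 0) (XT.lf (nat_lit 0) (nat_lit 1255908536) (nat_lit 672) (nat_lit 3967700570) (nat_lit 84) (nat_lit 2656795669) (nat_lit 97) (nat_lit 5) (nat_lit 105) (nat_lit 5) (nat_lit 98) (nat_lit 5) (nat_lit 319) (nat_lit 281) (nat_lit 264)) (XT.lf (nat_lit 0) (nat_lit 126597069) (nat_lit 504) (nat_lit 3463157434) (nat_lit 588) (nat_lit 4397494396) (nat_lit 91) (nat_lit 5) (nat_lit 97) (nat_lit 5) (nat_lit 98) (nat_lit 5) (nat_lit 320) (nat_lit 281) (nat_lit 263)))))) (XT.nd (nat_lit 564) (nat_lit 1260) (nat_lit 0) (XT.nd (nat_lit 282) (nat_lit 924) (nat_lit 0) (XT.nd (nat_lit 94) (nat_lit 588) (nat_lit 0) (XT.lf (nat_lit 0) (nat_lit 4362979385)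 (nat_lit 504) (nat_lit 1609464736) (nat_lit 588) (nat_lit 2125953805) (nat_lit 91) (nat_lit 5) (nat_lit 97) (nat_lit 5) (nat_lit 98) (nat_lit 5) (nat_lit 321) (nat_lit 281) (nat_lit 262)) (XT.nd (nat_lit 94) (nat_lit 0) (nat_lit 0) (XT.lf (nat_lit 0) (nat_lit 155331601) (nat_lit 588) (nat_lit 7761721937) (nat_lit 84) (nat_lit 297866981) (nat_lit 84) (nat_lit 5) (nat_lit 91) (nat_lit 5) (nat_lit 85) (nat_lit 5) (nat_lit 322) (nat_lit 281) (nat_lit 261)) (XT.lf (nat_lit 0) (nat_lit 2456359782) (nat_lit 588) (nat_lit 3591476472) (nat_lit 84) (nat_lit 2286997260) (nat_lit 84) (nat_lit 5) (nat_lit 91) (nat_lit 5) (nat_lit 85) (nat_lit 5) (nat_lit 323) (nat_lit 281) (nat_lit 260)))) (XT.nd (nat_lit 94) (nat_lit 504) (nat_lit 0) (XT.lf (nat_lit 0) (nat_lit 653434667) (nat_lit 420) (nat_lit 4120985619) (nat_lit 504) (nat_lit 3685960521) (nat_lit 79) (nat_lit 5) (nat_lit 84) (nat_lit 5) (nat_lit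 85) (nat_lit 5) (nat_lit 324) (nat_lit 281) (nat_lit 259)) (XT.nd (nat_lit 94) (nat_lit 504) (nat_lit 0) (XT.lf (nat_lit 0) (nat_lit 5038984462) (nat_lit 420) (nat_lit 2103224174) (nat_lit 504) (nat_lit 1448524203) (nat_lit 79) (nat_lit 5) (nat_lit 84) (nat_lit 5) (nat_lit 85) (nat_lit 5) (nat_lit 325) (nat_lit 281) (nat_lit 258)) (XT.lf (nat_lit 0) (nat_lit 775988170) (nat_lit 420) (nat_lit 14056179) (nat_lit 504) (nat_lit 7936609767) (nat_lit 73) (nat_lit 5) (nat_lit 78) (nat_lit 5) (nat_lit 79) (nat_lit 5) (nat_lit 326) (nat_lit 281) (nat_lit 257))))) (XT.nd (nat_lit 282) (nat_lit 840) (nat_lit 0) (XT.nd (nat_lit 94) (nat_lit 420) (nat_lit 0) (XT.lf (nat_lit 0) (nat_lit 3068993106) (nat_lit 504) (nat_lit 3656609157) (nat_lit 84) (nat_lit 2140900980) (nat_lit 73) (nat_lit 5) (nat_lit 79) (nat_lit 5) (nat_lit 74) (nat_lit 5) (nat_lit 327) (nat_lit 281) (nat_lit 256)) (XT.nd (nat_lit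 94) (nat_lit 0) (nat_lit 0) (XT.lf (nat_lit 0) (nat_lit 719219498) (nat_lit 420) (nat_lit 4650774237) (nat_lit 504) (nat_lit 3642401040) (nat_lit 68) (nat_lit 5) (nat_lit 73) (nat_lit 5) (nat_lit 74) (nat_lit 5) (nat_lit 328) (nat_lit 281) (nat_lit 255)) (XT.lf (nat_lit 0) (nat_lit 5243191294) (nat_lit 420) (nat_lit 2482462498) (nat_lit 504) (nat_lit 1437866565) (nat_lit 68) (nat_lit 5) (nat_lit 73) (nat_lit 5) (nat_lit 74) (nat_lit 5) (nat_lit 329) (nat_lit 281) (nat_lit 254)))) (XT.nd (nat_lit 94) (nat_lit 336) (nat_lit 0) (XT.lf (nat_lit 0) (nat_lit 526027977) (nat_lit 420) (nat_lit 243456056) (nat_lit 504) (nat_lit 8551282805) (nat_lit 62) (nat_lit 5) (nat_lit 67) (nat_lit 5) (nat_lit 68) (nat_lit 5) (nat_lit 330) (nat_lit 281) (nat_lit 253)) (XT.nd (nat_lit 94) (nat_lit 336) (nat_lit 0) (XT.lf (nat_lit 0) (nat_lit 3024181125) (nat_lit 504) (nat_lit 4389319735) (nat_lit 84) (nat_lit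 2068836395) (nat_lit 62) (nat_lit 5) (nat_lit 68) (nat_lit 5) (nat_lit 63) (nat_lit 5) (nat_lit 331) (nat_lit 281) (nat_lit 252)) (XT.lf (nat_lit 0) (nat_lit 88505557) (nat_lit 336) (nat_lit 5212194070) (nat_lit 420) (nat_lit 4349879250) (nat_lit 58) (nat_lit 5) (nat_lit 62) (nat_lit 5) (nat_lit 63) (nat_lit 5) (nat_lit 332) (nat_lit 281) (nat_lit 251))))))) (XT.nd (nat_lit 1128) (nat_lit 1092) (nat_lit 0) (XT.nd (nat_lit 564) (nat_lit 924) (nat_lit 0) (XT.nd (nat_lit 282) (nat_lit 336) (nat_lit 0) (XT.nd (nat_lit 94) (nat_lit 420) (nat_lit 0) (XT.lf (nat_lit 0) (nat_lit 4735382099) (nat_lit 336) (nat_lit 2907705081) (nat_lit 420) (nat_lit 2181261645) (nat_lit 58) (nat_lit 5) (nat_lit 62) (nat_lit 5) (nat_lit 63) (nat_lit 5) (nat_lit 333) (nat_lit 281) (nat_lit 250)) (XT.nd (nat_lit 94) (nat_lit 336) (nat_lit 0) (XT.lf (nat_lit 0) (nat_lit 3823936) (nat_lit 420) (nat_lit 539837514) (nat_lit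 84) (nat_lit 9461523998) (nat_lit 57) (nat_lit 5) (nat_lit 62) (nat_lit 5) (nat_lit 58) (nat_lit 5) (nat_lit 334) (nat_lit 281) (nat_lit 249)) (XT.lf (nat_lit 0) (nat_lit 2223668541) (nat_lit 420) (nat_lit 6059208104) (nat_lit 84) (nat_lit 1907829931) (nat_lit 53) (nat_lit 5) (nat_lit 58) (nat_lit 5) (nat_lit 54) (nat_lit 5) (nat_lit 335) (nat_lit 281) (nat_lit 248)))) (XT.nd (nat_lit 94) (nat_lit 336) (nat_lit 0) (XT.lf (nat_lit 0) (nat_lit 4476149446) (nat_lit 420) (nat_lit 1489449413) (nat_lit 84) (nat_lit 4417649385) (nat_lit 53) (nat_lit 5) (nat_lit 58) (nat_lit 5) (nat_lit 54) (nat_lit 5) (nat_lit 336) (nat_lit 281) (nat_lit 247)) (XT.nd (nat_lit 94) (nat_lit 0) (nat_lit 0) (XT.lf (nat_lit 0) (nat_lit 3227723534) (nat_lit 336) (nat_lit 3556747627) (nat_lit 420) (nat_lit 3797864508) (nat_lit 49) (nat_lit 5) (nat_lit 53) (nat_lit 5) (nat_lit 54) (nat_lit 5) (nat_lit 337) (nat_lit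 281) (nat_lit 246)) (XT.lf (nat_lit 0) (nat_lit 8064024842) (nat_lit 336) (nat_lit 1070668469) (nat_lit 420) (nat_lit 1653959961) (nat_lit 49) (nat_lit 5) (nat_lit 53) (nat_lit 5) (nat_lit 54) (nat_lit 5) (nat_lit 338) (nat_lit 281) (nat_lit 245))))) (XT.nd (nat_lit 282) (nat_lit 252) (nat_lit 0) (XT.nd (nat_lit 94) (nat_lit 252) (nat_lit 0) (XT.lf (nat_lit 0) (nat_lit 535803344) (nat_lit 420) (nat_lit 8990784235) (nat_lit 84) (nat_lit 1475030029) (nat_lit 44) (nat_lit 5) (nat_lit 49) (nat_lit 5) (nat_lit 45) (nat_lit 5) (nat_lit 339) (nat_lit 281) (nat_lit 244)) (XT.nd (nat_lit 94) (nat_lit 252) (nat_lit 0) (XT.lf (nat_lit 0) (nat_lit 2754978347) (nat_lit 420) (nat_lit 4356321458) (nat_lit 84) (nat_lit 4109614090) (nat_lit 44) (nat_lit 5) (nat_lit 49) (nat_lit 5) (nat_lit 45) (nat_lit 5) (nat_lit 340) (nat_lit 281) (nat_lit 243)) (XT.lf (nat_lit 0) (nat_lit 372360371) (nat_lit 252)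 (nat_lit 4631802944) (nat_lit 336) (nat_lit 6444170466) (nat_lit 41) (nat_lit 5) (nat_lit 44) (nat_lit 5) (nat_lit 45) (nat_lit 5) (nat_lit 341) (nat_lit 281) (nat_lit 242)))) (XT.nd (nat_lit 94) (nat_lit 252) (nat_lit 0) (XT.lf (nat_lit 0) (nat_lit 5283608124) (nat_lit 252) (nat_lit 2043175622) (nat_lit 336) (nat_lit 4356024300) (nat_lit 41) (nat_lit 5) (nat_lit 44) (nat_lit 5) (nat_lit 45) (nat_lit 5) (nat_lit 342) (nat_lit 281) (nat_lit 241)) (XT.nd (nat_lit 94) (nat_lit 252) (nat_lit 0) (XT.lf (nat_lit 0) (nat_lit 9686967116) (nat_lit 336) (nat_lit 1639564164) (nat_lit 84) (nat_lit 599203124) (nat_lit 41) (nat_lit 5) (nat_lit 45) (nat_lit 5) (nat_lit 42) (nat_lit 5) (nat_lit 343) (nat_lit 281) (nat_lit 240)) (XT.lf (nat_lit 0) (nat_lit 3258138064) (nat_lit 252) (nat_lit 8875972930) (nat_lit 336) (nat_lit 41765168) (nat_lit 38) (nat_lit 5) (nat_lit 41) (nat_lit 5) (nat_lit 42) (nat_lit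 5) (nat_lit 344) (nat_lit 281) (nat_lit 239)))))) (XT.nd (nat_lit 564) (nat_lit 420) (nat_lit 0) (XT.nd (nat_lit 282) (nat_lit 336) (nat_lit 0) (XT.nd (nat_lit 94) (nat_lit 252) (nat_lit 0) (XT.lf (nat_lit 0) (nat_lit 2156563696) (nat_lit 336) (nat_lit 4167639478) (nat_lit 84) (nat_lit 6109672609) (nat_lit 37) (nat_lit 5) (nat_lit 41) (nat_lit 5) (nat_lit 38) (nat_lit 5) (nat_lit 345) (nat_lit 281) (nat_lit 238)) (XT.nd (nat_lit 94) (nat_lit 0) (nat_lit 0) (XT.lf (nat_lit 0) (nat_lit 690239580) (nat_lit 252) (nat_lit 3700688139) (nat_lit 336) (nat_lit 8310003536) (nat_lit 34) (nat_lit 5) (nat_lit 37) (nat_lit 5) (nat_lit 38) (nat_lit 5) (nat_lit 346) (nat_lit 281) (nat_lit 237)) (XT.lf (nat_lit 0) (nat_lit 5734648502) (nat_lit 252) (nat_lit 965942787) (nat_lit 336) (nat_lit 6275586504) (nat_lit 34) (nat_lit 5) (nat_lit 37) (nat_lit 5) (nat_lit 38) (nat_lit 5) (nat_lit 347) (nat_lit 281)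 (nat_lit 236)))) (XT.nd (nat_lit 94) (nat_lit 336) (nat_lit 0) (XT.lf (nat_lit 0) (nat_lit 9063757555) (nat_lit 336) (nat_lit 2394829875) (nat_lit 84) (nat_lit 1802026968) (nat_lit 34) (nat_lit 5) (nat_lit 38) (nat_lit 5) (nat_lit 35) (nat_lit 5) (nat_lit 348) (nat_lit 281) (nat_lit 235)) (XT.nd (nat_lit 94) (nat_lit 84) (nat_lit 0) (XT.lf (nat_lit 0) (nat_lit 2594146003) (nat_lit 252) (nat_lit 8906261944) (nat_lit 336) (nat_lit 2053547110) (nat_lit 31) (nat_lit 5) (nat_lit 34) (nat_lit 5) (nat_lit 35) (nat_lit 5) (nat_lit 349) (nat_lit 281) (nat_lit 234)) (XT.lf (nat_lit 0) (nat_lit 143047751) (nat_lit 336) (nat_lit 6119531723) (nat_lit 84) (nat_lit 7594160065) (nat_lit 30) (nat_lit 5) (nat_lit 34) (nat_lit 5) (nat_lit 31) (nat_lit 5) (nat_lit 350) (nat_lit 281) (nat_lit 233))))) (XT.nd (nat_lit 282) (nat_lit 252) (nat_lit 0) (XT.nd (nat_lit 94) (nat_lit 168) (nat_lit 0) (XT.lf (nat_lit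 0) (nat_lit 2330877274) (nat_lit 336) (nat_lit 1199346861) (nat_lit 84) (nat_lit 10639180737) (nat_lit 30) (nat_lit 5) (nat_lit 34) (nat_lit 5) (nat_lit 31) (nat_lit 5) (nat_lit 351) (nat_lit 281) (nat_lit 232)) (XT.nd (nat_lit 94) (nat_lit 0) (nat_lit 0) (XT.lf (nat_lit 0) (nat_lit 3904367403) (nat_lit 168) (nat_lit 687719548) (nat_lit 252) (nat_lit 9899586370) (nat_lit 28) (nat_lit 5) (nat_lit 30) (nat_lit 5) (nat_lit 31) (nat_lit 5) (nat_lit 352) (nat_lit 281) (nat_lit 231)) (XT.lf (nat_lit 0) (nat_lit 6925501690) (nat_lit 252) (nat_lit 5702325800) (nat_lit 84) (nat_lit 2196119551) (nat_lit 28) (nat_lit 5) (nat_lit 31) (nat_lit 5) (nat_lit 29) (nat_lit 5) (nat_lit 353) (nat_lit 281) (nat_lit 230)))) (XT.nd (nat_lit 94) (nat_lit 252) (nat_lit 0) (XT.lf (nat_lit 0) (nat_lit 9306482867) (nat_lit 252) (nat_lit 719624209) (nat_lit 84) (nat_lit 5141259890) (nat_lit 28) (nat_lit 5) (nat_lit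 31) (nat_lit 5) (nat_lit 29) (nat_lit 5) (nat_lit 354) (nat_lit 281) (nat_lit 229)) (XT.nd (nat_lit 94) (nat_lit 0) (nat_lit 0) (XT.lf (nat_lit 0) (nat_lit 4462168263) (nat_lit 252) (nat_lit 7312524542) (nat_lit 336) (nat_lit 3746399662) (nat_lit 25) (nat_lit 5) (nat_lit 28) (nat_lit 5) (nat_lit 29) (nat_lit 5) (nat_lit 355) (nat_lit 281) (nat_lit 228)) (XT.lf (nat_lit 0) (nat_lit 9775034718) (nat_lit 252) (nat_lit 4521529927) (nat_lit 336) (nat_lit 1590000502) (nat_lit 25) (nat_lit 5) (nat_lit 28) (nat_lit 5) (nat_lit 29) (nat_lit 5) (nat_lit 356) (nat_lit 281) (nat_lit 227))))))))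
noncomputable def xc67 : XT := (XT.nd (nat_lit 2256) (nat_lit 504) (nat_lit 0) (XT.nd (nat_lit 1128) (nat_lit 336) (nat_lit 0) (XT.nd (nat_lit 564) (nat_lit 420) (nat_lit 0) (XT.nd (nat_lit 282) (nat_lit 168) (nat_lit 0) (XT.nd (nat_lit 94) (nat_lit 168) (nat_lit 0) (XT.lf (nat_lit 0) (nat_lit 590666652) (nat_lit 336) (nat_lit 1061201130) (nat_lit 84) (nat_lit 14612298353) (nat_lit 24) (nat_lit 5) (nat_lit 28) (nat_lit 5) (nat_lit 25) (nat_lit 5) (nat_lit 357) (nat_lit 281) (nat_lit 226)) (XT.nd (nat_lit 94) (nat_lit 0) (nat_lit 0) (XT.lf (nat_lit 0) (nat_lit 2831769184) (nat_lit 252) (nat_lit 12495433254) (nat_lit 84) (nat_lit 1325031295) (nat_lit 22) (nat_lit 5) (nat_lit 25) (nat_lit 5) (nat_lit 23) (nat_lit 5) (nat_lit 358) (nat_lit 281) (nat_lit 225)) (XT.lf (nat_lit 0) (nat_lit 5141816651) (nat_lit 252) (nat_lit 7553139253) (nat_lit 84) (nat_lit 4357456766) (nat_lit 22) (nat_lit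 5) (nat_lit 25) (nat_lit 5) (nat_lit 23) (nat_lit 5) (nat_lit 359) (nat_lit 281) (nat_lit 224)))) (XT.nd (nat_lit 94) (nat_lit 168) (nat_lit 0) (XT.lf (nat_lit 0) (nat_lit 7495721932) (nat_lit 252) (nat_lit 2499535439) (nat_lit 84) (nat_lit 7470663030) (nat_lit 22) (nat_lit 5) (nat_lit 25) (nat_lit 5) (nat_lit 23) (nat_lit 5) (nat_lit 360) (nat_lit 281) (nat_lit 223)) (XT.nd (nat_lit 94) (nat_lit 0) (nat_lit 0) (XT.lf (nat_lit 0) (nat_lit 2724991175) (nat_lit 168) (nat_lit 7197720190) (nat_lit 252) (nat_lit 7969592997) (nat_lit 20) (nat_lit 5) (nat_lit 22) (nat_lit 5) (nat_lit 23) (nat_lit 5) (nat_lit 361) (nat_lit 281) (nat_lit 222)) (XT.lf (nat_lit 0) (nat_lit 8124236993) (nat_lit 168) (nat_lit 4300281656) (nat_lit 252) (nat_lit 5907459721) (nat_lit 20) (nat_lit 5) (nat_lit 22) (nat_lit 5) (nat_lit 23) (nat_lit 5) (nat_lit 362) (nat_lit 281) (nat_lit 221))))) (XT.nd (nat_lit 282) (nat_lit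 168) (nat_lit 0) (XT.nd (nat_lit 94) (nat_lit 252) (nat_lit 0) (XT.lf (nat_lit 0) (nat_lit 13651839102) (nat_lit 168) (nat_lit 1326331077) (nat_lit 252) (nat_lit 3807966540) (nat_lit 20) (nat_lit 5) (nat_lit 22) (nat_lit 5) (nat_lit 23) (nat_lit 5) (nat_lit 363) (nat_lit 281) (nat_lit 220)) (XT.nd (nat_lit 94) (nat_lit 84) (nat_lit 0) (XT.lf (nat_lit 0) (nat_lit 41451123) (nat_lit 168) (nat_lit 17562137399) (nat_lit 252) (nat_lit 1651070399) (nat_lit 18) (nat_lit 5) (nat_lit 20) (nat_lit 5) (nat_lit 21) (nat_lit 4) (nat_lit 364) (nat_lit 281) (nat_lit 219)) (XT.lf (nat_lit 0) (nat_lit 603859013) (nat_lit 252) (nat_lit 14308069863) (nat_lit 84) (nat_lit 4824328736) (nat_lit 17) (nat_lit 5) (nat_lit 20) (nat_lit 5) (nat_lit 18) (nat_lit 5) (nat_lit 365) (nat_lit 281) (nat_lit 218)))) (XT.nd (nat_lit 94) (nat_lit 168) (nat_lit 0) (XT.lf (nat_lit 0) (nat_lit 2870149240) (nat_lit 252) (nat_lit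 9305318732) (nat_lit 84) (nat_lit 8057596798) (nat_lit 17) (nat_lit 5) (nat_lit 20) (nat_lit 5) (nat_lit 18) (nat_lit 5) (nat_lit 366) (nat_lit 281) (nat_lit 217)) (XT.nd (nat_lit 94) (nat_lit 168) (nat_lit 0) (XT.lf (nat_lit 0) (nat_lit 5183178088) (nat_lit 252) (nat_lit 4183912497) (nat_lit 84) (nat_lit 11378960631) (nat_lit 17) (nat_lit 5) (nat_lit 20) (nat_lit 5) (nat_lit 18) (nat_lit 5) (nat_lit 367) (nat_lit 281) (nat_lit 216)) (XT.lf (nat_lit 0) (nat_lit 1082737272) (nat_lit 168) (nat_lit 6473105160) (nat_lit 252) (nat_lit 13719519710) (nat_lit 15) (nat_lit 5) (nat_lit 17) (nat_lit 5) (nat_lit 18) (nat_lit 5) (nat_lit 368) (nat_lit 281) (nat_lit 215)))))) (XT.nd (nat_lit 564) (nat_lit 252) (nat_lit 0) (XT.nd (nat_lit 282) (nat_lit 84) (nat_lit 0) (XT.nd (nat_lit 94) (nat_lit 0) (nat_lit 0) (XT.lf (nat_lit 0) (nat_lit 6566372863) (nat_lit 168) (nat_lit 3456887536) (nat_lit 252)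 (nat_lit 11797210414) (nat_lit 15) (nat_lit 5) (nat_lit 17) (nat_lit 5) (nat_lit 18) (nat_lit 5) (nat_lit 369) (nat_lit 281) (nat_lit 214)) (XT.nd (nat_lit 94) (nat_lit 0) (nat_lit 0) (XT.lf (nat_lit 0) (nat_lit 12186075776) (nat_lit 168) (nat_lit 359297749) (nat_lit 252) (nat_lit 9837824915) (nat_lit 15) (nat_lit 5) (nat_lit 17) (nat_lit 5) (nat_lit 18) (nat_lit 5) (nat_lit 370) (nat_lit 281) (nat_lit 213)) (XT.lf (nat_lit 0) (nat_lit 15152532745) (nat_lit 252) (nat_lit 5044985442) (nat_lit 84) (nat_lit 2765683355) (nat_lit 15) (nat_lit 5) (nat_lit 18) (nat_lit 5) (nat_lit 16) (nat_lit 4) (nat_lit 371) (nat_lit 281) (nat_lit 212)))) (XT.nd (nat_lit 94) (nat_lit 0) (nat_lit 0) (XT.lf (nat_lit 0) (nat_lit 235456569) (nat_lit 84) (nat_lit 17590450795) (nat_lit 168) (nat_lit 5735772463) (nat_lit 14) (nat_lit 5) (nat_lit 15) (nat_lit 5) (nat_lit 16) (nat_lit 4) (nat_lit 372) (nat_lit 281)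 (nat_lit 211)) (XT.nd (nat_lit 94) (nat_lit 0) (nat_lit 0) (XT.lf (nat_lit 0) (nat_lit 5754391543) (nat_lit 84) (nat_lit 14860108255) (nat_lit 168) (nat_lit 3563249518) (nat_lit 14) (nat_lit 5) (nat_lit 15) (nat_lit 5) (nat_lit 16) (nat_lit 4) (nat_lit 373) (nat_lit 281) (nat_lit 210)) (XT.lf (nat_lit 0) (nat_lit 11413228456) (nat_lit 84) (nat_lit 12056604901) (nat_lit 168) (nat_lit 1343734243) (nat_lit 14) (nat_lit 5) (nat_lit 15) (nat_lit 5) (nat_lit 16) (nat_lit 4) (nat_lit 374) (nat_lit 281) (nat_lit 209))))) (XT.nd (nat_lit 282) (nat_lit 0) (nat_lit 0) (XT.nd (nat_lit 94) (nat_lit 168) (nat_lit 0) (XT.lf (nat_lit 0) (nat_lit 906208671) (nat_lit 168) (nat_lit 8261659944) (nat_lit 84) (nat_lit 16301574305) (nat_lit 13) (nat_lit 5) (nat_lit 15) (nat_lit 5) (nat_lit 14) (nat_lit 5) (nat_lit 375) (nat_lit 281) (nat_lit 208)) (XT.nd (nat_lit 94) (nat_lit 168) (nat_lit 0) (XT.lf (nat_lit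 0) (nat_lit 3179222960) (nat_lit 168) (nat_lit 3007184962) (nat_lit 84) (nat_lit 19959434405) (nat_lit 13) (nat_lit 5) (nat_lit 15) (nat_lit 5) (nat_lit 14) (nat_lit 5) (nat_lit 376) (nat_lit 281) (nat_lit 207)) (XT.lf (nat_lit 0) (nat_lit 2430278221) (nat_lit 168) (nat_lit 3098331000) (nat_lit 252) (nat_lit 21314452939) (nat_lit 11) (nat_lit 5) (nat_lit 13) (nat_lit 5) (nat_lit 14) (nat_lit 5) (nat_lit 377) (nat_lit 281) (nat_lit 206)))) (XT.nd (nat_lit 94) (nat_lit 0) (nat_lit 0) (XT.lf (nat_lit 0) (nat_lit 7965342414) (nat_lit 252) (nat_lit 19491095856) (nat_lit 84) (nat_lit 105041692) (nat_lit 11) (nat_lit 5) (nat_lit 14) (nat_lit 5) (nat_lit 12) (nat_lit 4) (nat_lit 378) (nat_lit 281) (nat_lit 205)) (XT.nd (nat_lit 94) (nat_lit 0) (nat_lit 0) (XT.lf (nat_lit 0) (nat_lit 10491803598) (nat_lit 252) (nat_lit 14476708014) (nat_lit 84) (nat_lit 3333250359) (nat_lit 11) (nat_lit 5) (nat_lit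 14) (nat_lit 5) (nat_lit 12) (nat_lit 4) (nat_lit 379) (nat_lit 281) (nat_lit 204)) (XT.lf (nat_lit 0) (nat_lit 13079611873) (nat_lit 252) (nat_lit 9334210653) (nat_lit 84) (nat_lit 6651728493) (nat_lit 11) (nat_lit 5) (nat_lit 14) (nat_lit 5) (nat_lit 12) (nat_lit 4) (nat_lit 380) (nat_lit 281) (nat_lit 203))))))) (XT.nd (nat_lit 1128) (nat_lit 168) (nat_lit 0) (XT.nd (nat_lit 564) (nat_lit 252) (nat_lit 0) (XT.nd (nat_lit 282) (nat_lit 0) (nat_lit 0) (XT.nd (nat_lit 94) (nat_lit 84) (nat_lit 0) (XT.lf (nat_lit 0) (nat_lit 15731179347) (nat_lit 252) (nat_lit 4058810425) (nat_lit 84) (nat_lit 10063569263) (nat_lit 11) (nat_lit 5) (nat_lit 14) (nat_lit 5) (nat_lit 12) (nat_lit 4) (nat_lit 381) (nat_lit 281) (nat_lit 202)) (XT.nd (nat_lit 94) (nat_lit 0) (nat_lit 0) (XT.lf (nat_lit 0) (nat_lit 1382259340) (nat_lit 84) (nat_lit 17080430403) (nat_lit 168) (nat_lit 12203405707) (nat_lit 10)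 (nat_lit 5) (nat_lit 11) (nat_lit 5) (nat_lit 12) (nat_lit 4) (nat_lit 382) (nat_lit 281) (nat_lit 201)) (XT.lf (nat_lit 0) (nat_lit 7052589965) (nat_lit 84) (nat_lit 14252912381) (nat_lit 168) (nat_lit 10197522074) (nat_lit 10) (nat_lit 5) (nat_lit 11) (nat_lit 5) (nat_lit 12) (nat_lit 4) (nat_lit 383) (nat_lit 281) (nat_lit 200)))) (XT.nd (nat_lit 94) (nat_lit 0) (nat_lit 0) (XT.lf (nat_lit 0) (nat_lit 12874009326) (nat_lit 84) (nat_lit 11347165821) (nat_lit 168) (nat_lit 8145224751) (nat_lit 10) (nat_lit 5) (nat_lit 11) (nat_lit 5) (nat_lit 12) (nat_lit 4) (nat_lit 384) (nat_lit 281) (nat_lit 199)) (XT.nd (nat_lit 94) (nat_lit 0) (nat_lit 0) (XT.lf (nat_lit 0) (nat_lit 18851943596) (nat_lit 84) (nat_lit 8360482263) (nat_lit 168) (nat_lit 6044600783) (nat_lit 10) (nat_lit 5) (nat_lit 11) (nat_lit 5) (nat_lit 12) (nat_lit 4) (nat_lit 385) (nat_lit 281) (nat_lit 198)) (XT.lf (nat_lit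 0) (nat_lit 24991964834) (nat_lit 84) (nat_lit 5290077804) (nat_lit 168) (nat_lit 3893692169) (nat_lit 10) (nat_lit 5) (nat_lit 11) (nat_lit 5) (nat_lit 12) (nat_lit 4) (nat_lit 386) (nat_lit 281) (nat_lit 197))))) (XT.nd (nat_lit 282) (nat_lit 0) (nat_lit 0) (XT.nd (nat_lit 94) (nat_lit 252) (nat_lit 0) (XT.lf (nat_lit 0) (nat_lit 31299796186) (nat_lit 84) (nat_lit 2133090506) (nat_lit 168) (nat_lit 1690494035) (nat_lit 10) (nat_lit 5) (nat_lit 11) (nat_lit 5) (nat_lit 12) (nat_lit 4) (nat_lit 387) (nat_lit 281) (nat_lit 196)) (XT.nd (nat_lit 94) (nat_lit 0) (nat_lit 0) (XT.lf (nat_lit 0) (nat_lit 583855026) (nat_lit 252) (nat_lit 34402141365) (nat_lit 84) (nat_lit 1113801725) (nat_lit 7) (nat_lit 5) (nat_lit 10) (nat_lit 5) (nat_lit 8) (nat_lit 4) (nat_lit 388) (nat_lit 281) (nat_lit 195)) (XT.lf (nat_lit 0) (nat_lit 2942163337) (nat_lit 252) (nat_lit 29695939271) (nat_lit 84) (nat_lit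 4466363860) (nat_lit 7) (nat_lit 5) (nat_lit 10) (nat_lit 5) (nat_lit 8) (nat_lit 4) (nat_lit 389) (nat_lit 281) (nat_lit 194)))) (XT.nd (nat_lit 94) (nat_lit 0) (nat_lit 0) (XT.lf (nat_lit 0) (nat_lit 5360421976) (nat_lit 252) (nat_lit 24865466725) (nat_lit 84) (nat_lit 7914821672) (nat_lit 7) (nat_lit 5) (nat_lit 10) (nat_lit 5) (nat_lit 8) (nat_lit 4) (nat_lit 390) (nat_lit 281) (nat_lit 193)) (XT.nd (nat_lit 94) (nat_lit 0) (nat_lit 0) (XT.lf (nat_lit 0) (nat_lit 7840885014) (nat_lit 252) (nat_lit 19906221223) (nat_lit 84) (nat_lit 11462389486) (nat_lit 7) (nat_lit 5) (nat_lit 10) (nat_lit 5) (nat_lit 8) (nat_lit 4) (nat_lit 391) (nat_lit 281) (nat_lit 192)) (XT.lf (nat_lit 0) (nat_lit 10385864502) (nat_lit 252) (nat_lit 14813580228) (nat_lit 84) (nat_lit 15112374006) (nat_lit 7) (nat_lit 5) (nat_lit 10) (nat_lit 5) (nat_lit 8) (nat_lit 4) (nat_lit 392) (nat_lit 281) (nat_lit 191))))))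 (XT.nd (nat_lit 564) (nat_lit 84) (nat_lit 0) (XT.nd (nat_lit 282) (nat_lit 0) (nat_lit 0) (XT.nd (nat_lit 94) (nat_lit 84) (nat_lit 0) (XT.lf (nat_lit 0) (nat_lit 12997732628) (nat_lit 252) (nat_lit 9582796865) (nat_lit 84) (nat_lit 18868177399) (nat_lit 7) (nat_lit 5) (nat_lit 10) (nat_lit 5) (nat_lit 8) (nat_lit 4) (nat_lit 393) (nat_lit 281) (nat_lit 190)) (XT.nd (nat_lit 94) (nat_lit 84) (nat_lit 0) (XT.lf (nat_lit 0) (nat_lit 15678923927) (nat_lit 252) (nat_lit 4208995495) (nat_lit 84) (nat_lit 22733300469) (nat_lit 7) (nat_lit 5) (nat_lit 10) (nat_lit 5) (nat_lit 8) (nat_lit 4) (nat_lit 394) (nat_lit 281) (nat_lit 189)) (XT.lf (nat_lit 0) (nat_lit 1339827360) (nat_lit 84) (nat_lit 17105401441) (nat_lit 168) (nat_lit 25384809807) (nat_lit 6) (nat_lit 5) (nat_lit 7) (nat_lit 5) (nat_lit 8) (nat_lit 4) (nat_lit 395) (nat_lit 281) (nat_lit 188)))) (XT.nd (nat_lit 94) (nat_lit 0) (nat_lit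 0) (XT.lf (nat_lit 0) (nat_lit 7131519240) (nat_lit 84) (nat_lit 14198565905) (nat_lit 168) (nat_lit 23745248003) (nat_lit 6) (nat_lit 5) (nat_lit 7) (nat_lit 5) (nat_lit 8) (nat_lit 4) (nat_lit 396) (nat_lit 281) (nat_lit 187)) (XT.nd (nat_lit 94) (nat_lit 0) (nat_lit 0) (XT.lf (nat_lit 0) (nat_lit 13084933027) (nat_lit 84) (nat_lit 11208636618) (nat_lit 168) (nat_lit 22066015592) (nat_lit 6) (nat_lit 5) (nat_lit 7) (nat_lit 5) (nat_lit 8) (nat_lit 4) (nat_lit 397) (nat_lit 281) (nat_lit 186)) (XT.lf (nat_lit 0) (nat_lit 19205617926) (nat_lit 84) (nat_lit 8132826654) (nat_lit 168) (nat_lit 20345547352) (nat_lit 6) (nat_lit 5) (nat_lit 7) (nat_lit 5) (nat_lit 8) (nat_lit 4) (nat_lit 398) (nat_lit 281) (nat_lit 185))))) (XT.nd (nat_lit 282) (nat_lit 84) (nat_lit 0) (XT.nd (nat_lit 94) (nat_lit 0) (nat_lit 0) (XT.lf (nat_lit 0) (nat_lit 25499279057) (nat_lit 84) (nat_lit 4968269036) (nat_lit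 168) (nat_lit 18582239628) (nat_lit 6) (nat_lit 5) (nat_lit 7) (nat_lit 5) (nat_lit 8) (nat_lit 4) (nat_lit 399) (nat_lit 281) (nat_lit 184)) (XT.nd (nat_lit 94) (nat_lit 0) (nat_lit 0) (XT.lf (nat_lit 0) (nat_lit 31971782770) (nat_lit 84) (nat_lit 1712014064) (nat_lit 168) (nat_lit 16774448830) (nat_lit 6) (nat_lit 5) (nat_lit 7) (nat_lit 5) (nat_lit 8) (nat_lit 4) (nat_lit 400) (nat_lit 281) (nat_lit 183)) (XT.lf (nat_lit 0) (nat_lit 37006447506) (nat_lit 168) (nat_lit 13297775297) (nat_lit 0) (nat_lit 1605951769) (nat_lit 6) (nat_lit 5) (nat_lit 8) (nat_lit 4) (nat_lit 6) (nat_lit 4) (nat_lit 401) (nat_lit 281) (nat_lit 182)))) (XT.nd (nat_lit 94) (nat_lit 84) (nat_lit 0) (XT.lf (nat_lit 0) (nat_lit 40440277326) (nat_lit 168) (nat_lit 7981289632) (nat_lit 0) (nat_lit 4985308751) (nat_lit 6) (nat_lit 5) (nat_lit 8) (nat_lit 4) (nat_lit 6) (nat_lit 4) (nat_lit 402) (nat_lit 281) (nat_lit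 181)) (XT.nd (nat_lit 94) (nat_lit 84) (nat_lit 0) (XT.lf (nat_lit 0) (nat_lit 43971503593) (nat_lit 168) (nat_lit 2515066987) (nat_lit 0) (nat_lit 8463700062) (nat_lit 6) (nat_lit 5) (nat_lit 8) (nat_lit 4) (nat_lit 6) (nat_lit 4) (nat_lit 403) (nat_lit 281) (nat_lit 180)) (XT.lf (nat_lit 0) (nat_lit 3169853208) (nat_lit 84) (nat_lit 44465009906) (nat_lit 84) (nat_lit 8905960057) (nat_lit 5) (nat_lit 4) (nat_lit 6) (nat_lit 5) (nat_lit 6) (nat_lit 4) (nat_lit 404) (nat_lit 281) (nat_lit 179))))))))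
noncomputable def xc68 : XT := (XT.nd (nat_lit 45120) (nat_lit 0) (nat_lit 4956) (XT.nd (nat_lit 1128) (nat_lit 0) (nat_lit 0) (XT.nd (nat_lit 564) (nat_lit 84) (nat_lit 0) (XT.nd (nat_lit 282) (nat_lit 84) (nat_lit 0) (XT.nd (nat_lit 94) (nat_lit 0) (nat_lit 0) (XT.lf (nat_lit 0) (nat_lit 9069851222) (nat_lit 84) (nat_lit 42359528033) (nat_lit 84) (nat_lit 6750772733) (nat_lit 5) (nat_lit 4) (nat_lit 6) (nat_lit 5) (nat_lit 6) (nat_lit 4) (nat_lit 405) (nat_lit 281) (nat_lit 178)) (XT.nd (nat_lit 94) (nat_lit 0) (nat_lit 0) (XT.lf (nat_lit 0) (nat_lit 15138711535) (nat_lit 84) (nat_lit 40194414571) (nat_lit 84) (nat_lit 4537448359) (nat_lit 5) (nat_lit 4) (nat_lit 6) (nat_lit 5) (nat_lit 6) (nat_lit 4) (nat_lit 406) (nat_lit 281) (nat_lit 177)) (XT.lf (nat_lit 0) (nat_lit 21382090960) (nat_lit 84) (nat_lit 37967651408) (nat_lit 84) (nat_lit 2263923885) (nat_lit 5) (nat_lit 4) (nat_lit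 6) (nat_lit 5) (nat_lit 6) (nat_lit 4) (nat_lit 407) (nat_lit 281) (nat_lit 176)))) (XT.nd (nat_lit 94) (nat_lit 0) (nat_lit 0) (XT.lf (nat_lit 0) (nat_lit 70470827) (nat_lit 168) (nat_lit 35605956570) (nat_lit 84) (nat_lit 27734602582) (nat_lit 4) (nat_lit 5) (nat_lit 6) (nat_lit 5) (nat_lit 5) (nat_lit 4) (nat_lit 408) (nat_lit 281) (nat_lit 175)) (XT.nd (nat_lit 94) (nat_lit 0) (nat_lit 0) (XT.lf (nat_lit 0) (nat_lit 2422449572) (nat_lit 168) (nat_lit 30873079298) (nat_lit 84) (nat_lit 31968118197) (nat_lit 4) (nat_lit 5) (nat_lit 6) (nat_lit 5) (nat_lit 5) (nat_lit 4) (nat_lit 409) (nat_lit 281) (nat_lit 174)) (XT.lf (nat_lit 0) (nat_lit 4839817661) (nat_lit 168) (nat_lit 26006073535) (nat_lit 84) (nat_lit 36328049366) (nat_lit 4) (nat_lit 5) (nat_lit 6) (nat_lit 5) (nat_lit 5) (nat_lit 4) (nat_lit 410) (nat_lit 281) (nat_lit 173))))) (XT.nd (nat_lit 282) (nat_lit 84) (nat_lit 0)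 (XT.nd (nat_lit 94) (nat_lit 0) (nat_lit 0) (XT.lf (nat_lit 0) (nat_lit 7324828334) (nat_lit 168) (nat_lit 21000402721) (nat_lit 84) (nat_lit 40818460000) (nat_lit 4) (nat_lit 5) (nat_lit 6) (nat_lit 5) (nat_lit 5) (nat_lit 4) (nat_lit 411) (nat_lit 281) (nat_lit 172)) (XT.nd (nat_lit 94) (nat_lit 0) (nat_lit 0) (XT.lf (nat_lit 0) (nat_lit 9879797881) (nat_lit 168) (nat_lit 15851401049) (nat_lit 84) (nat_lit 45443535633) (nat_lit 4) (nat_lit 5) (nat_lit 6) (nat_lit 5) (nat_lit 5) (nat_lit 4) (nat_lit 412) (nat_lit 281) (nat_lit 171)) (XT.lf (nat_lit 0) (nat_lit 12507107802) (nat_lit 168) (nat_lit 10554269107) (nat_lit 84) (nat_lit 50207587320) (nat_lit 4) (nat_lit 5) (nat_lit 6) (nat_lit 5) (nat_lit 5) (nat_lit 4) (nat_lit 413) (nat_lit 281) (nat_lit 170)))) (XT.nd (nat_lit 94) (nat_lit 84) (nat_lit 0) (XT.lf (nat_lit 0) (nat_lit 15209207024) (nat_lit 168) (nat_lit 5104069416) (nat_lit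 84) (nat_lit 55115055656) (nat_lit 4) (nat_lit 5) (nat_lit 6) (nat_lit 5) (nat_lit 5) (nat_lit 4) (nat_lit 414) (nat_lit 281) (nat_lit 169)) (XT.nd (nat_lit 94) (nat_lit 0) (nat_lit 0) (XT.lf (nat_lit 0) (nat_lit 514647176) (nat_lit 84) (nat_lit 17479072375) (nat_lit 168) (nat_lit 59660973102) (nat_lit 3) (nat_lit 5) (nat_lit 4) (nat_lit 5) (nat_lit 5) (nat_lit 4) (nat_lit 415) (nat_lit 281) (nat_lit 168)) (XT.lf (nat_lit 0) (nat_lit 6405048714) (nat_lit 84) (nat_lit 14506410153) (nat_lit 168) (nat_lit 59037167477) (nat_lit 3) (nat_lit 5) (nat_lit 4) (nat_lit 5) (nat_lit 5) (nat_lit 4) (nat_lit 416) (nat_lit 281) (nat_lit 167)))))) (XT.nd (nat_lit 43428) (nat_lit 0) (nat_lit 13188) (XT.nd (nat_lit 282) (nat_lit 0) (nat_lit 0) (XT.nd (nat_lit 94) (nat_lit 0) (nat_lit 0) (XT.lf (nat_lit 0) (nat_lit 12467675533) (nat_lit 84) (nat_lit 11445794959) (nat_lit 168) (nat_lit 58400402761) (nat_lit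 3) (nat_lit 5) (nat_lit 4) (nat_lit 5) (nat_lit 5) (nat_lit 4) (nat_lit 417) (nat_lit 281) (nat_lit 166)) (XT.nd (nat_lit 94) (nat_lit 0) (nat_lit 0) (XT.lf (nat_lit 0) (nat_lit 18708178637) (nat_lit 84) (nat_lit 8294373978) (nat_lit 168) (nat_lit 57750085423) (nat_lit 3) (nat_lit 5) (nat_lit 4) (nat_lit 5) (nat_lit 5) (nat_lit 4) (nat_lit 418) (nat_lit 281) (nat_lit 165)) (XT.lf (nat_lit 0) (nat_lit 25132374827) (nat_lit 84) (nat_lit 5049209756) (nat_lit 168) (nat_lit 57085609298) (nat_lit 3) (nat_lit 5) (nat_lit 4) (nat_lit 5) (nat_lit 5) (nat_lit 4) (nat_lit 419) (nat_lit 281) (nat_lit 164)))) (XT.nd (nat_lit 42958) (nat_lit 0) (nat_lit 15372) (XT.lf (nat_lit 0) (nat_lit 31746252128) (nat_lit 84) (nat_lit 1707277460) (nat_lit 168) (nat_lit 56406355027) (nat_lit 3) (nat_lit 5) (nat_lit 4) (nat_lit 5) (nat_lit 5) (nat_lit 4) (nat_lit 420) (nat_lit 281) (nat_lit 163)) (XT.nd (nat_lit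 94) (nat_lit 588) (nat_lit 0) (XT.lf (nat_lit 0) (nat_lit 1648434520) (nat_lit 420) (nat_lit 832698544) (nat_lit 420) (nat_lit 832698544) (nat_lit 193) (nat_lit 4) (nat_lit 198) (nat_lit 5) (nat_lit 198) (nat_lit 4) (nat_lit 300) (nat_lit 282) (nat_lit 282)) (XT.lf (nat_lit 0) (nat_lit 7763028) (nat_lit 504) (nat_lit 980053555) (nat_lit 588) (nat_lit 5673552079) (nat_lit 186) (nat_lit 5) (nat_lit 192) (nat_lit 5) (nat_lit 193) (nat_lit 4) (nat_lit 301) (nat_lit 282) (nat_lit 281))))) (XT.nd (nat_lit 282) (nat_lit 1512) (nat_lit 0) (XT.nd (nat_lit 94) (nat_lit 672) (nat_lit 0) (XT.lf (nat_lit 0) (nat_lit 3433754949) (nat_lit 504) (nat_lit 195319100) (nat_lit 588) (nat_lit 3068914295) (nat_lit 186) (nat_lit 5) (nat_lit 192) (nat_lit 5) (nat_lit 193) (nat_lit 4) (nat_lit 302) (nat_lit 282) (nat_lit 280)) (XT.nd (nat_lit 94) (nat_lit 84) (nat_lit 0) (XT.lf (nat_lit 0) (nat_lit 156463167)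 (nat_lit 588) (nat_lit 6112254352) (nat_lit 588) (nat_lit 470146914) (nat_lit 179) (nat_lit 4) (nat_lit 186) (nat_lit 5) (nat_lit 186) (nat_lit 4) (nat_lit 303) (nat_lit 282) (nat_lit 279)) (XT.lf (nat_lit 0) (nat_lit 2110583894) (nat_lit 672) (nat_lit 3124267245) (nat_lit 84) (nat_lit 1547655253) (nat_lit 178) (nat_lit 5) (nat_lit 186) (nat_lit 5) (nat_lit 179) (nat_lit 4) (nat_lit 304) (nat_lit 282) (nat_lit 278)))) (XT.nd (nat_lit 94) (nat_lit 840) (nat_lit 0) (XT.lf (nat_lit 0) (nat_lit 373508732) (nat_lit 672) (nat_lit 4303962859) (nat_lit 756) (nat_lit 2152973343) (nat_lit 170) (nat_lit 5) (nat_lit 178) (nat_lit 5) (nat_lit 179) (nat_lit 4) (nat_lit 305) (nat_lit 282) (nat_lit 277)) (XT.nd (nat_lit 94) (nat_lit 756) (nat_lit 0) (XT.lf (nat_lit 0) (nat_lit 380885227) (nat_lit 756) (nat_lit 2909464296) (nat_lit 84) (nat_lit 3591522126) (nat_lit 169) (nat_lit 5) (nat_lit 178) (nat_lit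 5) (nat_lit 170) (nat_lit 5) (nat_lit 306) (nat_lit 282) (nat_lit 276)) (XT.lf (nat_lit 0) (nat_lit 669798110) (nat_lit 756) (nat_lit 2200863052) (nat_lit 840) (nat_lit 4066407740) (nat_lit 160) (nat_lit 5) (nat_lit 169) (nat_lit 5) (nat_lit 170) (nat_lit 5) (nat_lit 307) (nat_lit 282) (nat_lit 275))))))) (XT.nd (nat_lit 1128) (nat_lit 2940) (nat_lit 0) (XT.nd (nat_lit 564) (nat_lit 2352) (nat_lit 0) (XT.nd (nat_lit 282) (nat_lit 2016) (nat_lit 0) (XT.nd (nat_lit 94) (nat_lit 924) (nat_lit 0) (XT.lf (nat_lit 0) (nat_lit 4352745757) (nat_lit 756) (nat_lit 1032547192) (nat_lit 840) (nat_lit 1610736839) (nat_lit 160) (nat_lit 5) (nat_lit 169) (nat_lit 5) (nat_lit 170) (nat_lit 5) (nat_lit 308) (nat_lit 282) (nat_lit 274)) (XT.nd (nat_lit 94) (nat_lit 0) (nat_lit 0) (XT.lf (nat_lit 0) (nat_lit 833367600) (nat_lit 924) (nat_lit 6025353104) (nat_lit 84) (nat_lit 200362578) (nat_lit 149) (nat_lit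 5) (nat_lit 160) (nat_lit 5) (nat_lit 150) (nat_lit 5) (nat_lit 309) (nat_lit 282) (nat_lit 273)) (XT.lf (nat_lit 0) (nat_lit 3278659467) (nat_lit 924) (nat_lit 2341019502) (nat_lit 84) (nat_lit 1505569231) (nat_lit 149) (nat_lit 5) (nat_lit 160) (nat_lit 5) (nat_lit 150) (nat_lit 5) (nat_lit 310) (nat_lit 282) (nat_lit 272)))) (XT.nd (nat_lit 94) (nat_lit 1092) (nat_lit 0) (XT.lf (nat_lit 0) (nat_lit 1416984729) (nat_lit 924) (nat_lit 4319665148) (nat_lit 1008) (nat_lit 1459151526) (nat_lit 138) (nat_lit 5) (nat_lit 149) (nat_lit 5) (nat_lit 150) (nat_lit 5) (nat_lit 311) (nat_lit 282) (nat_lit 271)) (XT.nd (nat_lit 94) (nat_lit 1008) (nat_lit 0) (XT.lf (nat_lit 0) (nat_lit 930132621) (nat_lit 1008) (nat_lit 2007189417) (nat_lit 84) (nat_lit 4332880885) (nat_lit 137) (nat_lit 5) (nat_lit 149) (nat_lit 5) (nat_lit 138) (nat_lit 5) (nat_lit 312) (nat_lit 282) (nat_lit 270)) (XT.lf (nat_lit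 0) (nat_lit 1835196510) (nat_lit 1008) (nat_lit 1471833349) (nat_lit 1092) (nat_lit 4041506449) (nat_lit 125) (nat_lit 5) (nat_lit 137) (nat_lit 5) (nat_lit 138) (nat_lit 5) (nat_lit 313) (nat_lit 282) (nat_lit 269))))) (XT.nd (nat_lit 282) (nat_lit 1176) (nat_lit 0) (XT.nd (nat_lit 94) (nat_lit 1176) (nat_lit 0) (XT.lf (nat_lit 0) (nat_lit 5706431697) (nat_lit 1092) (nat_lit 1660171035) (nat_lit 84) (nat_lit 64618967) (nat_lit 125) (nat_lit 5) (nat_lit 138) (nat_lit 5) (nat_lit 126) (nat_lit 5) (nat_lit 314) (nat_lit 282) (nat_lit 268)) (XT.nd (nat_lit 94) (nat_lit 0) (nat_lit 0) (XT.lf (nat_lit 0) (nat_lit 616792706) (nat_lit 1176) (nat_lit 5248888542) (nat_lit 84) (nat_lit 1651943066) (nat_lit 111) (nat_lit 5) (nat_lit 125) (nat_lit 5) (nat_lit 112) (nat_lit 5) (nat_lit 315) (nat_lit 282) (nat_lit 267)) (XT.lf (nat_lit 0) (nat_lit 2942532705) (nat_lit 1176) (nat_lit 1338471161) (nat_lit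 84) (nat_lit 3327093019) (nat_lit 111) (nat_lit 5) (nat_lit 125) (nat_lit 5) (nat_lit 112) (nat_lit 5) (nat_lit 316) (nat_lit 282) (nat_lit 266)))) (XT.nd (nat_lit 94) (nat_lit 672) (nat_lit 0) (XT.lf (nat_lit 0) (nat_lit 2680127395) (nat_lit 504) (nat_lit 2618828658) (nat_lit 588) (nat_lit 2404000267) (nat_lit 105) (nat_lit 5) (nat_lit 111) (nat_lit 5) (nat_lit 112) (nat_lit 5) (nat_lit 317) (nat_lit 282) (nat_lit 265)) (XT.nd (nat_lit 94) (nat_lit 672) (nat_lit 0) (XT.lf (nat_lit 0) (nat_lit 6785315758) (nat_lit 504) (nat_lit 890468229) (nat_lit 588) (nat_lit 126893781) (nat_lit 105) (nat_lit 5) (nat_lit 111) (nat_lit 5) (nat_lit 112) (nat_lit 5) (nat_lit 318) (nat_lit 282) (nat_lit 264)) (XT.lf (nat_lit 0) (nat_lit 2150505982) (nat_lit 672) (nat_lit 4829098024) (nat_lit 84) (nat_lit 926268012) (nat_lit 97) (nat_lit 5) (nat_lit 105) (nat_lit 5) (nat_lit 98) (nat_lit 5) (nat_lit 319)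 (nat_lit 282) (nat_lit 263)))))) (XT.nd (nat_lit 564) (nat_lit 1428) (nat_lit 0) (XT.nd (nat_lit 282) (nat_lit 924) (nat_lit 0) (XT.nd (nat_lit 94) (nat_lit 588) (nat_lit 0) (XT.lf (nat_lit 0) (nat_lit 4451468213) (nat_lit 672) (nat_lit 770616663) (nat_lit 84) (nat_lit 2791780679) (nat_lit 97) (nat_lit 5) (nat_lit 105) (nat_lit 5) (nat_lit 98) (nat_lit 5) (nat_lit 320) (nat_lit 282) (nat_lit 262)) (XT.nd (nat_lit 94) (nat_lit 84) (nat_lit 0) (XT.lf (nat_lit 0) (nat_lit 3416991348) (nat_lit 504) (nat_lit 3378361128) (nat_lit 588) (nat_lit 1330991179) (nat_lit 91) (nat_lit 5) (nat_lit 97) (nat_lit 5) (nat_lit 98) (nat_lit 5) (nat_lit 321) (nat_lit 282) (nat_lit 261)) (XT.lf (nat_lit 0) (nat_lit 896236485) (nat_lit 588) (nat_lit 567390272) (nat_lit 84) (nat_lit 6780292931) (nat_lit 90) (nat_lit 5) (nat_lit 97) (nat_lit 5) (nat_lit 91) (nat_lit 5) (nat_lit 322) (nat_lit 282) (nat_lit 260))))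 (XT.nd (nat_lit 94) (nat_lit 420) (nat_lit 0) (XT.lf (nat_lit 0) (nat_lit 3147015256) (nat_lit 588) (nat_lit 4671702507) (nat_lit 84) (nat_lit 546787722) (nat_lit 84) (nat_lit 5) (nat_lit 91) (nat_lit 5) (nat_lit 85) (nat_lit 5) (nat_lit 323) (nat_lit 282) (nat_lit 259)) (XT.nd (nat_lit 94) (nat_lit 420) (nat_lit 0) (XT.lf (nat_lit 0) (nat_lit 5429566465) (nat_lit 588) (nat_lit 472324551) (nat_lit 84) (nat_lit 2590374160) (nat_lit 84) (nat_lit 5) (nat_lit 91) (nat_lit 5) (nat_lit 85) (nat_lit 5) (nat_lit 324) (nat_lit 282) (nat_lit 258)) (XT.lf (nat_lit 0) (nat_lit 3871473047) (nat_lit 420) (nat_lit 3892627707) (nat_lit 504) (nat_lit 859655586) (nat_lit 79) (nat_lit 5) (nat_lit 84) (nat_lit 5) (nat_lit 85) (nat_lit 5) (nat_lit 325) (nat_lit 282) (nat_lit 257))))) (XT.nd (nat_lit 282) (nat_lit 924) (nat_lit 0) (XT.nd (nat_lit 94) (nat_lit 420) (nat_lit 0) (XT.lf (nat_lit 0) (nat_lit 1331349244)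 (nat_lit 504) (nat_lit 477777290) (nat_lit 84) (nat_lit 6951578514) (nat_lit 78) (nat_lit 5) (nat_lit 84) (nat_lit 5) (nat_lit 79) (nat_lit 5) (nat_lit 326) (nat_lit 282) (nat_lit 256)) (XT.nd (nat_lit 94) (nat_lit 0) (nat_lit 0) (XT.lf (nat_lit 0) (nat_lit 3560093534) (nat_lit 504) (nat_lit 4968886856) (nat_lit 84) (nat_lit 373228903) (nat_lit 73) (nat_lit 5) (nat_lit 79) (nat_lit 5) (nat_lit 74) (nat_lit 5) (nat_lit 327) (nat_lit 282) (nat_lit 255)) (XT.lf (nat_lit 0) (nat_lit 5827275996) (nat_lit 504) (nat_lit 638920420) (nat_lit 84) (nat_lit 2583048584) (nat_lit 73) (nat_lit 5) (nat_lit 79) (nat_lit 5) (nat_lit 74) (nat_lit 5) (nat_lit 328) (nat_lit 282) (nat_lit 254)))) (XT.nd (nat_lit 94) (nat_lit 504) (nat_lit 0) (XT.lf (nat_lit 0) (nat_lit 3840859919) (nat_lit 420) (nat_lit 4309418471) (nat_lit 504) (nat_lit 1051197509) (nat_lit 68) (nat_lit 5) (nat_lit 73) (nat_lit 5) (nat_lit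 74) (nat_lit 5) (nat_lit 329) (nat_lit 282) (nat_lit 253)) (XT.nd (nat_lit 94) (nat_lit 420) (nat_lit 0) (XT.lf (nat_lit 0) (nat_lit 1117394476) (nat_lit 504) (nat_lit 959430143) (nat_lit 84) (nat_lit 7282826288) (nat_lit 67) (nat_lit 5) (nat_lit 73) (nat_lit 5) (nat_lit 68) (nat_lit 5) (nat_lit 330) (nat_lit 282) (nat_lit 252)) (XT.lf (nat_lit 0) (nat_lit 3318763118) (nat_lit 504) (nat_lit 5946647549) (nat_lit 84) (nat_lit 257548635) (nat_lit 62) (nat_lit 5) (nat_lit 68) (nat_lit 5) (nat_lit 63) (nat_lit 5) (nat_lit 331) (nat_lit 282) (nat_lit 251))))))))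
noncomputable def xc69 : XT := (XT.nd (nat_lit 2256) (nat_lit 1176) (nat_lit 0) (XT.nd (nat_lit 1128) (nat_lit 1344) (nat_lit 0) (XT.nd (nat_lit 564) (nat_lit 672) (nat_lit 0) (XT.nd (nat_lit 282) (nat_lit 672) (nat_lit 0) (XT.nd (nat_lit 94) (nat_lit 420) (nat_lit 0) (XT.lf (nat_lit 0) (nat_lit 5569836716) (nat_lit 504) (nat_lit 1500909272) (nat_lit 84) (nat_lit 2621325973) (nat_lit 62) (nat_lit 5) (nat_lit 68) (nat_lit 5) (nat_lit 63) (nat_lit 5) (nat_lit 332) (nat_lit 282) (nat_lit 250)) (XT.nd (nat_lit 94) (nat_lit 84) (nat_lit 0) (XT.lf (nat_lit 0) (nat_lit 3085108467) (nat_lit 336) (nat_lit 4787794627) (nat_lit 420) (nat_lit 1994237547) (nat_lit 58) (nat_lit 5) (nat_lit 62) (nat_lit 5) (nat_lit 63) (nat_lit 5) (nat_lit 333) (nat_lit 282) (nat_lit 249)) (XT.lf (nat_lit 0) (nat_lit 163364365) (nat_lit 420) (nat_lit 2264416033) (nat_lit 84) (nat_lit 7620949581) (nat_lit 57) (nat_lit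 5) (nat_lit 62) (nat_lit 5) (nat_lit 58) (nat_lit 5) (nat_lit 334) (nat_lit 282) (nat_lit 248)))) (XT.nd (nat_lit 94) (nat_lit 336) (nat_lit 0) (XT.lf (nat_lit 0) (nat_lit 2323526036) (nat_lit 420) (nat_lit 7874556270) (nat_lit 84) (nat_lit 38091764) (nat_lit 53) (nat_lit 5) (nat_lit 58) (nat_lit 5) (nat_lit 54) (nat_lit 5) (nat_lit 335) (nat_lit 282) (nat_lit 247)) (XT.nd (nat_lit 94) (nat_lit 336) (nat_lit 0) (XT.lf (nat_lit 0) (nat_lit 4553355284) (nat_lit 420) (nat_lit 3333985023) (nat_lit 84) (nat_lit 2542148236) (nat_lit 53) (nat_lit 5) (nat_lit 58) (nat_lit 5) (nat_lit 54) (nat_lit 5) (nat_lit 336) (nat_lit 282) (nat_lit 246)) (XT.lf (nat_lit 0) (nat_lit 1316368540) (nat_lit 336) (nat_lit 5504377011) (nat_lit 420) (nat_lit 3809167773) (nat_lit 49) (nat_lit 5) (nat_lit 53) (nat_lit 5) (nat_lit 54) (nat_lit 5) (nat_lit 337) (nat_lit 282) (nat_lit 245))))) (XT.nd (nat_lit 282) (nat_lit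 252) (nat_lit 0) (XT.nd (nat_lit 94) (nat_lit 420) (nat_lit 0) (XT.lf (nat_lit 0) (nat_lit 6124646621) (nat_lit 336) (nat_lit 3024733126) (nat_lit 420) (nat_lit 1687586828) (nat_lit 49) (nat_lit 5) (nat_lit 53) (nat_lit 5) (nat_lit 54) (nat_lit 5) (nat_lit 338) (nat_lit 282) (nat_lit 244)) (XT.nd (nat_lit 94) (nat_lit 336) (nat_lit 0) (XT.lf (nat_lit 0) (nat_lit 446604049) (nat_lit 420) (nat_lit 29631653) (nat_lit 84) (nat_lit 10575511786) (nat_lit 48) (nat_lit 5) (nat_lit 53) (nat_lit 5) (nat_lit 49) (nat_lit 5) (nat_lit 339) (nat_lit 282) (nat_lit 243)) (XT.lf (nat_lit 0) (nat_lit 2639836694) (nat_lit 420) (nat_lit 6470848692) (nat_lit 84) (nat_lit 2161223210) (nat_lit 44) (nat_lit 5) (nat_lit 49) (nat_lit 5) (nat_lit 45) (nat_lit 5) (nat_lit 340) (nat_lit 282) (nat_lit 242)))) (XT.nd (nat_lit 94) (nat_lit 252) (nat_lit 0) (XT.lf (nat_lit 0) (nat_lit 4865041693) (nat_lit 420) (nat_lit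 1776867080) (nat_lit 84) (nat_lit 4858221874) (nat_lit 44) (nat_lit 5) (nat_lit 49) (nat_lit 5) (nat_lit 45) (nat_lit 5) (nat_lit 341) (nat_lit 282) (nat_lit 241)) (XT.nd (nat_lit 94) (nat_lit 0) (nat_lit 0) (XT.lf (nat_lit 0) (nat_lit 3070922008) (nat_lit 252) (nat_lit 4078807707) (nat_lit 336) (nat_lit 4586108119) (nat_lit 41) (nat_lit 5) (nat_lit 44) (nat_lit 5) (nat_lit 45) (nat_lit 5) (nat_lit 342) (nat_lit 282) (nat_lit 240)) (XT.lf (nat_lit 0) (nat_lit 8053625451) (nat_lit 252) (nat_lit 1430877667) (nat_lit 336) (nat_lit 2495104087) (nat_lit 41) (nat_lit 5) (nat_lit 44) (nat_lit 5) (nat_lit 45) (nat_lit 5) (nat_lit 343) (nat_lit 282) (nat_lit 239)))))) (XT.nd (nat_lit 564) (nat_lit 756) (nat_lit 0) (XT.nd (nat_lit 282) (nat_lit 252) (nat_lit 0) (XT.nd (nat_lit 94) (nat_lit 84) (nat_lit 0) (XT.lf (nat_lit 0) (nat_lit 912762788) (nat_lit 252) (nat_lit 10962596224) (nat_lit 336)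 (nat_lit 356188521) (nat_lit 38) (nat_lit 5) (nat_lit 41) (nat_lit 5) (nat_lit 42) (nat_lit 5) (nat_lit 344) (nat_lit 282) (nat_lit 238)) (XT.nd (nat_lit 94) (nat_lit 0) (nat_lit 0) (XT.lf (nat_lit 0) (nat_lit 1829719617) (nat_lit 336) (nat_lit 6591639015) (nat_lit 84) (nat_lit 4068917105) (nat_lit 37) (nat_lit 5) (nat_lit 41) (nat_lit 5) (nat_lit 38) (nat_lit 5) (nat_lit 345) (nat_lit 282) (nat_lit 237)) (XT.lf (nat_lit 0) (nat_lit 4039044664) (nat_lit 336) (nat_lit 1772954823) (nat_lit 84) (nat_lit 6946156876) (nat_lit 37) (nat_lit 5) (nat_lit 41) (nat_lit 5) (nat_lit 38) (nat_lit 5) (nat_lit 346) (nat_lit 282) (nat_lit 236)))) (XT.nd (nat_lit 94) (nat_lit 0) (nat_lit 0) (XT.lf (nat_lit 0) (nat_lit 3209966453) (nat_lit 252) (nat_lit 3102899158) (nat_lit 336) (nat_lit 6721695886) (nat_lit 34) (nat_lit 5) (nat_lit 37) (nat_lit 5) (nat_lit 38) (nat_lit 5) (nat_lit 347) (nat_lit 282) (nat_lit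 235)) (XT.nd (nat_lit 94) (nat_lit 0) (nat_lit 0) (XT.lf (nat_lit 0) (nat_lit 8335632544) (nat_lit 252) (nat_lit 304800386) (nat_lit 336) (nat_lit 4679714787) (nat_lit 34) (nat_lit 5) (nat_lit 37) (nat_lit 5) (nat_lit 38) (nat_lit 5) (nat_lit 348) (nat_lit 282) (nat_lit 234)) (XT.lf (nat_lit 0) (nat_lit 11031425577) (nat_lit 336) (nat_lit 68831133) (nat_lit 84) (nat_lit 2514691718) (nat_lit 34) (nat_lit 5) (nat_lit 38) (nat_lit 5) (nat_lit 35) (nat_lit 5) (nat_lit 349) (nat_lit 282) (nat_lit 233))))) (XT.nd (nat_lit 282) (nat_lit 252) (nat_lit 0) (XT.nd (nat_lit 94) (nat_lit 252) (nat_lit 0) (XT.lf (nat_lit 0) (nat_lit 5050502738) (nat_lit 252) (nat_lit 8465963728) (nat_lit 336) (nat_lit 401891724) (nat_lit 31) (nat_lit 5) (nat_lit 34) (nat_lit 5) (nat_lit 35) (nat_lit 5) (nat_lit 350) (nat_lit 282) (nat_lit 232)) (XT.nd (nat_lit 94) (nat_lit 168) (nat_lit 0) (XT.lf (nat_lit 0) (nat_lit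 1777701014) (nat_lit 336) (nat_lit 3967150358) (nat_lit 84) (nat_lit 8486842852) (nat_lit 30) (nat_lit 5) (nat_lit 34) (nat_lit 5) (nat_lit 31) (nat_lit 5) (nat_lit 351) (nat_lit 282) (nat_lit 231)) (XT.lf (nat_lit 0) (nat_lit 1056423185) (nat_lit 168) (nat_lit 2938392668) (nat_lit 252) (nat_lit 10560553288) (nat_lit 28) (nat_lit 5) (nat_lit 30) (nat_lit 5) (nat_lit 31) (nat_lit 5) (nat_lit 352) (nat_lit 282) (nat_lit 230)))) (XT.nd (nat_lit 94) (nat_lit 252) (nat_lit 0) (XT.lf (nat_lit 0) (nat_lit 6274069449) (nat_lit 168) (nat_lit 16337382) (nat_lit 252) (nat_lit 8598446906) (nat_lit 28) (nat_lit 5) (nat_lit 30) (nat_lit 5) (nat_lit 31) (nat_lit 5) (nat_lit 353) (nat_lit 282) (nat_lit 229)) (XT.nd (nat_lit 94) (nat_lit 252) (nat_lit 0) (XT.lf (nat_lit 0) (nat_lit 8656037896) (nat_lit 252) (nat_lit 3654212905) (nat_lit 84) (nat_lit 2922535902) (nat_lit 28) (nat_lit 5) (nat_lit 31) (nat_lit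 5) (nat_lit 29) (nat_lit 5) (nat_lit 354) (nat_lit 282) (nat_lit 228)) (XT.lf (nat_lit 0) (nat_lit 1445171817) (nat_lit 252) (nat_lit 9634415668) (nat_lit 336) (nat_lit 4508345260) (nat_lit 25) (nat_lit 5) (nat_lit 28) (nat_lit 5) (nat_lit 29) (nat_lit 5) (nat_lit 355) (nat_lit 282) (nat_lit 227))))))) (XT.nd (nat_lit 1128) (nat_lit 504) (nat_lit 0) (XT.nd (nat_lit 564) (nat_lit 420) (nat_lit 0) (XT.nd (nat_lit 282) (nat_lit 0) (nat_lit 0) (XT.nd (nat_lit 94) (nat_lit 252) (nat_lit 0) (XT.lf (nat_lit 0) (nat_lit 6736635180) (nat_lit 252) (nat_lit 6850323393) (nat_lit 336) (nat_lit 2366931359) (nat_lit 25) (nat_lit 5) (nat_lit 28) (nat_lit 5) (nat_lit 29) (nat_lit 5) (nat_lit 356) (nat_lit 282) (nat_lit 226)) (XT.nd (nat_lit 94) (nat_lit 252) (nat_lit 0) (XT.lf (nat_lit 0) (nat_lit 12149971270) (nat_lit 252) (nat_lit 3993521398) (nat_lit 336) (nat_lit 188653571) (nat_lit 25) (nat_lit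 5) (nat_lit 28) (nat_lit 5) (nat_lit 29) (nat_lit 5) (nat_lit 357) (nat_lit 282) (nat_lit 225)) (XT.lf (nat_lit 0) (nat_lit 966521745) (nat_lit 168) (nat_lit 1030714631) (nat_lit 252) (nat_lit 14724896820) (nat_lit 22) (nat_lit 5) (nat_lit 24) (nat_lit 5) (nat_lit 25) (nat_lit 5) (nat_lit 358) (nat_lit 282) (nat_lit 224)))) (XT.nd (nat_lit 94) (nat_lit 0) (nat_lit 0) (XT.lf (nat_lit 0) (nat_lit 4283394006) (nat_lit 252) (nat_lit 10823723505) (nat_lit 84) (nat_lit 2015966169) (nat_lit 22) (nat_lit 5) (nat_lit 25) (nat_lit 5) (nat_lit 23) (nat_lit 5) (nat_lit 359) (nat_lit 282) (nat_lit 223)) (XT.nd (nat_lit 94) (nat_lit 0) (nat_lit 0) (XT.lf (nat_lit 0) (nat_lit 6624045146) (nat_lit 252) (nat_lit 5790130236) (nat_lit 84) (nat_lit 5122856940) (nat_lit 22) (nat_lit 5) (nat_lit 25) (nat_lit 5) (nat_lit 23) (nat_lit 5) (nat_lit 360) (nat_lit 282) (nat_lit 222)) (XT.lf (nat_lit 0) (nat_lit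 9011146712) (nat_lit 252) (nat_lit 639914991) (nat_lit 84) (nat_lit 8313620232) (nat_lit 22) (nat_lit 5) (nat_lit 25) (nat_lit 5) (nat_lit 23) (nat_lit 5) (nat_lit 361) (nat_lit 282) (nat_lit 221))))) (XT.nd (nat_lit 282) (nat_lit 252) (nat_lit 0) (XT.nd (nat_lit 94) (nat_lit 0) (nat_lit 0) (XT.lf (nat_lit 0) (nat_lit 4726960489) (nat_lit 168) (nat_lit 6766855277) (nat_lit 252) (nat_lit 6911161715) (nat_lit 20) (nat_lit 5) (nat_lit 22) (nat_lit 5) (nat_lit 23) (nat_lit 5) (nat_lit 362) (nat_lit 282) (nat_lit 220)) (XT.nd (nat_lit 94) (nat_lit 0) (nat_lit 0) (XT.lf (nat_lit 0) (nat_lit 10235927901) (nat_lit 168) (nat_lit 3799260378) (nat_lit 252) (nat_lit 4824355604) (nat_lit 20) (nat_lit 5) (nat_lit 22) (nat_lit 5) (nat_lit 23) (nat_lit 5) (nat_lit 363) (nat_lit 282) (nat_lit 219)) (XT.lf (nat_lit 0) (nat_lit 15878964214) (nat_lit 168) (nat_lit 752190299) (nat_lit 252) (nat_lit 2697851167)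 (nat_lit 20) (nat_lit 5) (nat_lit 22) (nat_lit 5) (nat_lit 23) (nat_lit 5) (nat_lit 364) (nat_lit 282) (nat_lit 218)))) (XT.nd (nat_lit 94) (nat_lit 84) (nat_lit 0) (XT.lf (nat_lit 0) (nat_lit 1861450884) (nat_lit 168) (nat_lit 17464731189) (nat_lit 252) (nat_lit 486314903) (nat_lit 18) (nat_lit 5) (nat_lit 20) (nat_lit 5) (nat_lit 21) (nat_lit 4) (nat_lit 365) (nat_lit 282) (nat_lit 217)) (XT.nd (nat_lit 94) (nat_lit 0) (nat_lit 0) (XT.lf (nat_lit 0) (nat_lit 1778194767) (nat_lit 252) (nat_lit 12961407724) (nat_lit 84) (nat_lit 5570234391) (nat_lit 17) (nat_lit 5) (nat_lit 20) (nat_lit 5) (nat_lit 18) (nat_lit 5) (nat_lit 366) (nat_lit 282) (nat_lit 216)) (XT.lf (nat_lit 0) (nat_lit 4079993046) (nat_lit 252) (nat_lit 7857399225) (nat_lit 84) (nat_lit 8885802730) (nat_lit 17) (nat_lit 5) (nat_lit 20) (nat_lit 5) (nat_lit 18) (nat_lit 5) (nat_lit 367) (nat_lit 282) (nat_lit 215))))))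 (XT.nd (nat_lit 564) (nat_lit 252) (nat_lit 0) (XT.nd (nat_lit 282) (nat_lit 84) (nat_lit 0) (XT.nd (nat_lit 94) (nat_lit 168) (nat_lit 0) (XT.lf (nat_lit 0) (nat_lit 6431023612) (nat_lit 252) (nat_lit 2629438820) (nat_lit 84) (nat_lit 12292736957) (nat_lit 17) (nat_lit 5) (nat_lit 20) (nat_lit 5) (nat_lit 18) (nat_lit 5) (nat_lit 368) (nat_lit 282) (nat_lit 214)) (XT.nd (nat_lit 94) (nat_lit 0) (nat_lit 0) (XT.lf (nat_lit 0) (nat_lit 2783426333) (nat_lit 168) (nat_lit 6077663472) (nat_lit 252) (nat_lit 13038398292) (nat_lit 15) (nat_lit 5) (nat_lit 17) (nat_lit 5) (nat_lit 18) (nat_lit 5) (nat_lit 369) (nat_lit 282) (nat_lit 213)) (XT.lf (nat_lit 0) (nat_lit 8386927711) (nat_lit 168) (nat_lit 2985866813) (nat_lit 252) (nat_lit 11089765326) (nat_lit 15) (nat_lit 5) (nat_lit 17) (nat_lit 5) (nat_lit 18) (nat_lit 5) (nat_lit 370) (nat_lit 282) (nat_lit 212)))) (XT.nd (nat_lit 94) (nat_lit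 84) (nat_lit 0) (XT.lf (nat_lit 0) (nat_lit 13943746665) (nat_lit 252) (nat_lit 8913431453) (nat_lit 84) (nat_lit 186528073) (nat_lit 15) (nat_lit 5) (nat_lit 18) (nat_lit 5) (nat_lit 16) (nat_lit 4) (nat_lit 371) (nat_lit 282) (nat_lit 211)) (XT.nd (nat_lit 94) (nat_lit 84) (nat_lit 0) (XT.lf (nat_lit 0) (nat_lit 16604939564) (nat_lit 252) (nat_lit 3653244933) (nat_lit 84) (nat_lit 3384397807) (nat_lit 15) (nat_lit 5) (nat_lit 18) (nat_lit 5) (nat_lit 16) (nat_lit 4) (nat_lit 372) (nat_lit 282) (nat_lit 210)) (XT.lf (nat_lit 0) (nat_lit 1775217304) (nat_lit 84) (nat_lit 17571626634) (nat_lit 168) (nat_lit 4913274771) (nat_lit 14) (nat_lit 5) (nat_lit 15) (nat_lit 5) (nat_lit 16) (nat_lit 4) (nat_lit 373) (nat_lit 282) (nat_lit 209))))) (XT.nd (nat_lit 282) (nat_lit 168) (nat_lit 0) (XT.nd (nat_lit 94) (nat_lit 84) (nat_lit 0) (XT.lf (nat_lit 0) (nat_lit 7419161367) (nat_lit 84) (nat_lit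 14773605620) (nat_lit 168) (nat_lit 2703480729) (nat_lit 14) (nat_lit 5) (nat_lit 15) (nat_lit 5) (nat_lit 16) (nat_lit 4) (nat_lit 374) (nat_lit 282) (nat_lit 208)) (XT.nd (nat_lit 94) (nat_lit 84) (nat_lit 0) (XT.lf (nat_lit 0) (nat_lit 13208729795) (nat_lit 84) (nat_lit 11899645792) (nat_lit 168) (nat_lit 444333241) (nat_lit 14) (nat_lit 5) (nat_lit 15) (nat_lit 5) (nat_lit 16) (nat_lit 4) (nat_lit 375) (nat_lit 282) (nat_lit 207)) (XT.lf (nat_lit 0) (nat_lit 1828672204) (nat_lit 168) (nat_lit 7099308526) (nat_lit 84) (nat_lit 17301559280) (nat_lit 13) (nat_lit 5) (nat_lit 15) (nat_lit 5) (nat_lit 14) (nat_lit 5) (nat_lit 376) (nat_lit 282) (nat_lit 206)))) (XT.nd (nat_lit 94) (nat_lit 168) (nat_lit 0) (XT.lf (nat_lit 0) (nat_lit 4145258081) (nat_lit 168) (nat_lit 1724595013) (nat_lit 84) (nat_lit 21057940375) (nat_lit 13) (nat_lit 5) (nat_lit 15) (nat_lit 5) (nat_lit 14) (nat_lit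 5) (nat_lit 377) (nat_lit 282) (nat_lit 205)) (XT.nd (nat_lit 94) (nat_lit 0) (nat_lit 0) (XT.lf (nat_lit 0) (nat_lit 3867500661) (nat_lit 168) (nat_lit 2687401437) (nat_lit 252) (nat_lit 21092165246) (nat_lit 11) (nat_lit 5) (nat_lit 13) (nat_lit 5) (nat_lit 14) (nat_lit 5) (nat_lit 378) (nat_lit 282) (nat_lit 204)) (XT.lf (nat_lit 0) (nat_lit 9046346859) (nat_lit 252) (nat_lit 18751979114) (nat_lit 84) (nat_lit 590124707) (nat_lit 11) (nat_lit 5) (nat_lit 14) (nat_lit 5) (nat_lit 12) (nat_lit 4) (nat_lit 379) (nat_lit 282) (nat_lit 203))))))))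
noncomputable def xc70 : XT := (XT.nd (nat_lit 2256) (nat_lit 252) (nat_lit 0) (XT.nd (nat_lit 1128) (nat_lit 84) (nat_lit 0) (XT.nd (nat_lit 564) (nat_lit 252) (nat_lit 0) (XT.nd (nat_lit 282) (nat_lit 84) (nat_lit 0) (XT.nd (nat_lit 94) (nat_lit 0) (nat_lit 0) (XT.lf (nat_lit 0) (nat_lit 11626049345) (nat_lit 252) (nat_lit 13622536677) (nat_lit 84) (nat_lit 3903920327) (nat_lit 11) (nat_lit 5) (nat_lit 14) (nat_lit 5) (nat_lit 12) (nat_lit 4) (nat_lit 380) (nat_lit 282) (nat_lit 202)) (XT.nd (nat_lit 94) (nat_lit 0) (nat_lit 0) (XT.lf (nat_lit 0) (nat_lit 14269754754) (nat_lit 252) (nat_lit 8359798839) (nat_lit 84) (nat_lit 7311219377) (nat_lit 11) (nat_lit 5) (nat_lit 14) (nat_lit 5) (nat_lit 12) (nat_lit 4) (nat_lit 381) (nat_lit 282) (nat_lit 201)) (XT.lf (nat_lit 0) (nat_lit 16979927296) (nat_lit 252) (nat_lit 2958860179) (nat_lit 84) (nat_lit 10815197816) (nat_lit 11) (nat_lit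 5) (nat_lit 14) (nat_lit 5) (nat_lit 12) (nat_lit 4) (nat_lit 382) (nat_lit 282) (nat_lit 200)))) (XT.nd (nat_lit 94) (nat_lit 0) (nat_lit 0) (XT.lf (nat_lit 0) (nat_lit 2638472894) (nat_lit 84) (nat_lit 17146794221) (nat_lit 168) (nat_lit 11806822803) (nat_lit 10) (nat_lit 5) (nat_lit 11) (nat_lit 5) (nat_lit 12) (nat_lit 4) (nat_lit 383) (nat_lit 282) (nat_lit 199)) (XT.nd (nat_lit 94) (nat_lit 0) (nat_lit 0) (XT.lf (nat_lit 0) (nat_lit 8448100481) (nat_lit 84) (nat_lit 14245548471) (nat_lit 168) (nat_lit 9762056043) (nat_lit 10) (nat_lit 5) (nat_lit 11) (nat_lit 5) (nat_lit 12) (nat_lit 4) (nat_lit 384) (nat_lit 282) (nat_lit 198)) (XT.lf (nat_lit 0) (nat_lit 14414597531) (nat_lit 84) (nat_lit 11263230392) (nat_lit 168) (nat_lit 7668736209) (nat_lit 10) (nat_lit 5) (nat_lit 11) (nat_lit 5) (nat_lit 12) (nat_lit 4) (nat_lit 385) (nat_lit 282) (nat_lit 197))))) (XT.nd (nat_lit 282)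 (nat_lit 252) (nat_lit 0) (XT.nd (nat_lit 94) (nat_lit 0) (nat_lit 0) (XT.lf (nat_lit 0) (nat_lit 20543525444) (nat_lit 84) (nat_lit 8197060152) (nat_lit 168) (nat_lit 5524912109) (nat_lit 10) (nat_lit 5) (nat_lit 11) (nat_lit 5) (nat_lit 12) (nat_lit 4) (nat_lit 386) (nat_lit 282) (nat_lit 196)) (XT.nd (nat_lit 94) (nat_lit 0) (nat_lit 0) (XT.lf (nat_lit 0) (nat_lit 26840597021) (nat_lit 84) (nat_lit 5044179759) (nat_lit 168) (nat_lit 3328585473) (nat_lit 10) (nat_lit 5) (nat_lit 11) (nat_lit 5) (nat_lit 12) (nat_lit 4) (nat_lit 387) (nat_lit 282) (nat_lit 195)) (XT.lf (nat_lit 0) (nat_lit 33311681795) (nat_lit 84) (nat_lit 1801650398) (nat_lit 168) (nat_lit 1077709095) (nat_lit 10) (nat_lit 5) (nat_lit 11) (nat_lit 5) (nat_lit 12) (nat_lit 4) (nat_lit 388) (nat_lit 282) (nat_lit 194)))) (XT.nd (nat_lit 94) (nat_lit 0) (nat_lit 0) (XT.lf (nat_lit 0) (nat_lit 1248512779) (nat_lit 252)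 (nat_lit 34406092052) (nat_lit 84) (nat_lit 1543115331) (nat_lit 7) (nat_lit 5) (nat_lit 10) (nat_lit 5) (nat_lit 8) (nat_lit 4) (nat_lit 389) (nat_lit 282) (nat_lit 193)) (XT.nd (nat_lit 94) (nat_lit 0) (nat_lit 0) (XT.lf (nat_lit 0) (nat_lit 3660488002) (nat_lit 252) (nat_lit 29585945303) (nat_lit 84) (nat_lit 4987736516) (nat_lit 7) (nat_lit 5) (nat_lit 10) (nat_lit 5) (nat_lit 8) (nat_lit 4) (nat_lit 390) (nat_lit 282) (nat_lit 192)) (XT.lf (nat_lit 0) (nat_lit 6134856552) (nat_lit 252) (nat_lit 24636715122) (nat_lit 84) (nat_lit 8531583061) (nat_lit 7) (nat_lit 5) (nat_lit 10) (nat_lit 5) (nat_lit 8) (nat_lit 4) (nat_lit 391) (nat_lit 282) (nat_lit 191)))))) (XT.nd (nat_lit 564) (nat_lit 0) (nat_lit 0) (XT.nd (nat_lit 282) (nat_lit 84) (nat_lit 0) (XT.nd (nat_lit 94) (nat_lit 0) (nat_lit 0) (XT.lf (nat_lit 0) (nat_lit 8673924802) (nat_lit 252) (nat_lit 19553788309) (nat_lit 84)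 (nat_lit 12177958203) (nat_lit 7) (nat_lit 5) (nat_lit 10) (nat_lit 5) (nat_lit 8) (nat_lit 4) (nat_lit 392) (nat_lit 282) (nat_lit 190)) (XT.nd (nat_lit 94) (nat_lit 0) (nat_lit 0) (XT.lf (nat_lit 0) (nat_lit 11280059427) (nat_lit 252) (nat_lit 14332427042) (nat_lit 84) (nat_lit 15930260745) (nat_lit 7) (nat_lit 5) (nat_lit 10) (nat_lit 5) (nat_lit 8) (nat_lit 4) (nat_lit 393) (nat_lit 282) (nat_lit 189)) (XT.lf (nat_lit 0) (nat_lit 13955689619) (nat_lit 252) (nat_lit 8967764466) (nat_lit 84) (nat_lit 19791988227) (nat_lit 7) (nat_lit 5) (nat_lit 10) (nat_lit 5) (nat_lit 8) (nat_lit 4) (nat_lit 394) (nat_lit 282) (nat_lit 188)))) (XT.nd (nat_lit 94) (nat_lit 84) (nat_lit 0) (XT.lf (nat_lit 0) (nat_lit 16703309346) (nat_lit 252) (nat_lit 3454800155) (nat_lit 84) (nat_lit 23766740182) (nat_lit 7) (nat_lit 5) (nat_lit 10) (nat_lit 5) (nat_lit 8) (nat_lit 4) (nat_lit 395) (nat_lit 282)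 (nat_lit 187)) (XT.nd (nat_lit 94) (nat_lit 0) (nat_lit 0) (XT.lf (nat_lit 0) (nat_lit 2257079678) (nat_lit 84) (nat_lit 17290790508) (nat_lit 168) (nat_lit 25623532328) (nat_lit 6) (nat_lit 5) (nat_lit 7) (nat_lit 5) (nat_lit 8) (nat_lit 4) (nat_lit 396) (nat_lit 282) (nat_lit 186)) (XT.lf (nat_lit 0) (nat_lit 8201983019) (nat_lit 84) (nat_lit 14304212836) (nat_lit 168) (nat_lit 23949627527) (nat_lit 6) (nat_lit 5) (nat_lit 7) (nat_lit 5) (nat_lit 8) (nat_lit 4) (nat_lit 397) (nat_lit 282) (nat_lit 185))))) (XT.nd (nat_lit 282) (nat_lit 0) (nat_lit 0) (XT.nd (nat_lit 94) (nat_lit 0) (nat_lit 0) (XT.lf (nat_lit 0) (nat_lit 14314413363) (nat_lit 84) (nat_lit 11231653712) (nat_lit 168) (nat_lit 22234326708) (nat_lit 6) (nat_lit 5) (nat_lit 7) (nat_lit 5) (nat_lit 8) (nat_lit 4) (nat_lit 398) (nat_lit 282) (nat_lit 184)) (XT.nd (nat_lit 94) (nat_lit 0) (nat_lit 0) (XT.lf (nat_lit 0) (nat_lit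 20600068136) (nat_lit 84) (nat_lit 8070249187) (nat_lit 168) (nat_lit 20476031030) (nat_lit 6) (nat_lit 5) (nat_lit 7) (nat_lit 5) (nat_lit 8) (nat_lit 4) (nat_lit 399) (nat_lit 282) (nat_lit 183)) (XT.lf (nat_lit 0) (nat_lit 27064806227) (nat_lit 84) (nat_lit 4817052501) (nat_lit 168) (nat_lit 18673101577) (nat_lit 6) (nat_lit 5) (nat_lit 7) (nat_lit 5) (nat_lit 8) (nat_lit 4) (nat_lit 400) (nat_lit 282) (nat_lit 182)))) (XT.nd (nat_lit 94) (nat_lit 0) (nat_lit 0) (XT.lf (nat_lit 0) (nat_lit 33714653448) (nat_lit 84) (nat_lit 1469031335) (nat_lit 168) (nat_lit 16823857831) (nat_lit 6) (nat_lit 5) (nat_lit 7) (nat_lit 5) (nat_lit 8) (nat_lit 4) (nat_lit 401) (nat_lit 282) (nat_lit 181)) (XT.nd (nat_lit 94) (nat_lit 0) (nat_lit 0) (XT.lf (nat_lit 0) (nat_lit 38598484577) (nat_lit 168) (nat_lit 12969252526) (nat_lit 0) (nat_lit 1937104181) (nat_lit 6) (nat_lit 5) (nat_lit 8) (nat_lit 4)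 (nat_lit 6) (nat_lit 4) (nat_lit 402) (nat_lit 282) (nat_lit 180)) (XT.lf (nat_lit 0) (nat_lit 42125387803) (nat_lit 168) (nat_lit 7510228714) (nat_lit 0) (nat_lit 5412761089) (nat_lit 6) (nat_lit 5) (nat_lit 8) (nat_lit 4) (nat_lit 6) (nat_lit 4) (nat_lit 403) (nat_lit 282) (nat_lit 179))))))) (XT.nd (nat_lit 1128) (nat_lit 84) (nat_lit 0) (XT.nd (nat_lit 564) (nat_lit 0) (nat_lit 0) (XT.nd (nat_lit 282) (nat_lit 84) (nat_lit 0) (XT.nd (nat_lit 94) (nat_lit 84) (nat_lit 0) (XT.lf (nat_lit 0) (nat_lit 45753108933) (nat_lit 168) (nat_lit 1896156375) (nat_lit 0) (nat_lit 8990776769) (nat_lit 6) (nat_lit 5) (nat_lit 8) (nat_lit 4) (nat_lit 6) (nat_lit 4) (nat_lit 404) (nat_lit 282) (nat_lit 178)) (XT.nd (nat_lit 94) (nat_lit 0) (nat_lit 0) (XT.lf (nat_lit 0) (nat_lit 3957941086) (nat_lit 84) (nat_lit 45566351563) (nat_lit 84) (nat_lit 8755808486) (nat_lit 5) (nat_lit 4) (nat_lit 6) (nat_lit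 5) (nat_lit 6) (nat_lit 4) (nat_lit 405) (nat_lit 282) (nat_lit 177)) (XT.lf (nat_lit 0) (nat_lit 10020097530) (nat_lit 84) (nat_lit 43403930773) (nat_lit 84) (nat_lit 6546626385) (nat_lit 5) (nat_lit 4) (nat_lit 6) (nat_lit 5) (nat_lit 6) (nat_lit 4) (nat_lit 406) (nat_lit 282) (nat_lit 176)))) (XT.nd (nat_lit 94) (nat_lit 84) (nat_lit 0) (XT.lf (nat_lit 0) (nat_lit 16256974657) (nat_lit 84) (nat_lit 41179779319) (nat_lit 84) (nat_lit 4277119634) (nat_lit 5) (nat_lit 4) (nat_lit 6) (nat_lit 5) (nat_lit 6) (nat_lit 4) (nat_lit 407) (nat_lit 282) (nat_lit 175)) (XT.nd (nat_lit 94) (nat_lit 84) (nat_lit 0) (XT.lf (nat_lit 0) (nat_lit 22674385891) (nat_lit 84) (nat_lit 38891824059) (nat_lit 84) (nat_lit 1945172815) (nat_lit 5) (nat_lit 4) (nat_lit 6) (nat_lit 5) (nat_lit 6) (nat_lit 4) (nat_lit 408) (nat_lit 282) (nat_lit 174)) (XT.lf (nat_lit 0) (nat_lit 442293234) (nat_lit 168) (nat_lit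 36091022511) (nat_lit 84) (nat_lit 28831403062) (nat_lit 4) (nat_lit 5) (nat_lit 6) (nat_lit 5) (nat_lit 5) (nat_lit 4) (nat_lit 409) (nat_lit 282) (nat_lit 173))))) (XT.nd (nat_lit 282) (nat_lit 0) (nat_lit 0) (XT.nd (nat_lit 94) (nat_lit 0) (nat_lit 0) (XT.lf (nat_lit 0) (nat_lit 2856069089) (nat_lit 168) (nat_lit 31230029613) (nat_lit 84) (nat_lit 33189030734) (nat_lit 4) (nat_lit 5) (nat_lit 6) (nat_lit 5) (nat_lit 5) (nat_lit 4) (nat_lit 410) (nat_lit 282) (nat_lit 172)) (XT.nd (nat_lit 94) (nat_lit 0) (nat_lit 0) (XT.lf (nat_lit 0) (nat_lit 5337595539) (nat_lit 168) (nat_lit 26230190871) (nat_lit 84) (nat_lit 37677207134) (nat_lit 4) (nat_lit 5) (nat_lit 6) (nat_lit 5) (nat_lit 5) (nat_lit 4) (nat_lit 411) (nat_lit 282) (nat_lit 171)) (XT.lf (nat_lit 0) (nat_lit 7889185626) (nat_lit 168) (nat_lit 21086845911) (nat_lit 84) (nat_lit 42300115711) (nat_lit 4) (nat_lit 5) (nat_lit 6)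 (nat_lit 5) (nat_lit 5) (nat_lit 4) (nat_lit 412) (nat_lit 282) (nat_lit 170)))) (XT.nd (nat_lit 94) (nat_lit 0) (nat_lit 0) (XT.lf (nat_lit 0) (nat_lit 10513217701) (nat_lit 168) (nat_lit 15795200596) (nat_lit 84) (nat_lit 47062065500) (nat_lit 4) (nat_lit 5) (nat_lit 6) (nat_lit 5) (nat_lit 5) (nat_lit 4) (nat_lit 413) (nat_lit 282) (nat_lit 169)) (XT.nd (nat_lit 94) (nat_lit 0) (nat_lit 0) (XT.lf (nat_lit 0) (nat_lit 13212137635) (nat_lit 168) (nat_lit 10350322560) (nat_lit 84) (nat_lit 51967495138) (nat_lit 4) (nat_lit 5) (nat_lit 6) (nat_lit 5) (nat_lit 5) (nat_lit 4) (nat_lit 414) (nat_lit 282) (nat_lit 168)) (XT.lf (nat_lit 0) (nat_lit 15988461105) (nat_lit 168) (nat_lit 4747136606) (nat_lit 84) (nat_lit 57020976999) (nat_lit 4) (nat_lit 5) (nat_lit 6) (nat_lit 5) (nat_lit 5) (nat_lit 4) (nat_lit 415) (nat_lit 282) (nat_lit 167)))))) (XT.nd (nat_lit 43240) (nat_lit 0) (nat_lit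 14700) (XT.nd (nat_lit 282) (nat_lit 0) (nat_lit 0) (XT.nd (nat_lit 94) (nat_lit 0) (nat_lit 0) (XT.lf (nat_lit 0) (nat_lit 1040544678) (nat_lit 84) (nat_lit 17814553588) (nat_lit 168) (nat_lit 61196999111) (nat_lit 3) (nat_lit 5) (nat_lit 4) (nat_lit 5) (nat_lit 5) (nat_lit 4) (nat_lit 416) (nat_lit 282) (nat_lit 166)) (XT.nd (nat_lit 94) (nat_lit 0) (nat_lit 0) (XT.lf (nat_lit 0) (nat_lit 7098215738) (nat_lit 84) (nat_lit 14755943950) (nat_lit 168) (nat_lit 60563280719) (nat_lit 3) (nat_lit 5) (nat_lit 4) (nat_lit 5) (nat_lit 5) (nat_lit 4) (nat_lit 417) (nat_lit 282) (nat_lit 165)) (XT.lf (nat_lit 0) (nat_lit 13333912091) (nat_lit 84) (nat_lit 11606468222) (nat_lit 168) (nat_lit 59915918108) (nat_lit 3) (nat_lit 5) (nat_lit 4) (nat_lit 5) (nat_lit 5) (nat_lit 4) (nat_lit 418) (nat_lit 282) (nat_lit 164)))) (XT.nd (nat_lit 94) (nat_lit 0) (nat_lit 0) (XT.lf (nat_lit 0) (nat_lit 19753446061)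 (nat_lit 84) (nat_lit 8363190764) (nat_lit 168) (nat_lit 59254307869) (nat_lit 3) (nat_lit 5) (nat_lit 4) (nat_lit 5) (nat_lit 5) (nat_lit 4) (nat_lit 419) (nat_lit 282) (nat_lit 163)) (XT.nd (nat_lit 42770) (nat_lit 0) (nat_lit 16380) (XT.lf (nat_lit 0) (nat_lit 26362801324) (nat_lit 84) (nat_lit 5023088501) (nat_lit 168) (nat_lit 58577833311) (nat_lit 3) (nat_lit 5) (nat_lit 4) (nat_lit 5) (nat_lit 5) (nat_lit 4) (nat_lit 420) (nat_lit 282) (nat_lit 162)) (XT.lf (nat_lit 0) (nat_lit 827290825) (nat_lit 420) (nat_lit 1630474891) (nat_lit 0) (nat_lit 827290825) (nat_lit 198) (nat_lit 5) (nat_lit 203) (nat_lit 4) (nat_lit 198) (nat_lit 4) (nat_lit 298) (nat_lit 283) (nat_lit 283))))) (XT.nd (nat_lit 282) (nat_lit 1176) (nat_lit 0) (XT.nd (nat_lit 94) (nat_lit 504) (nat_lit 0) (XT.lf (nat_lit 0) (nat_lit 4305121645) (nat_lit 420) (nat_lit 48274672) (nat_lit 0) (nat_lit 2244675926) (nat_lit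 198) (nat_lit 5) (nat_lit 203) (nat_lit 4) (nat_lit 198) (nat_lit 4) (nat_lit 299) (nat_lit 283) (nat_lit 282)) (XT.nd (nat_lit 94) (nat_lit 0) (nat_lit 0) (XT.lf (nat_lit 0) (nat_lit 339616333) (nat_lit 504) (nat_lit 3369177400) (nat_lit 84) (nat_lit 2920498573) (nat_lit 192) (nat_lit 5) (nat_lit 198) (nat_lit 5) (nat_lit 193) (nat_lit 4) (nat_lit 300) (nat_lit 283) (nat_lit 281)) (XT.lf (nat_lit 0) (nat_lit 2913153420) (nat_lit 504) (nat_lit 80725567) (nat_lit 84) (nat_lit 3670306935) (nat_lit 192) (nat_lit 5) (nat_lit 198) (nat_lit 5) (nat_lit 193) (nat_lit 4) (nat_lit 301) (nat_lit 283) (nat_lit 280)))) (XT.nd (nat_lit 94) (nat_lit 672) (nat_lit 0) (XT.lf (nat_lit 0) (nat_lit 3310516877) (nat_lit 504) (nat_lit 2198087438) (nat_lit 588) (nat_lit 1193883683) (nat_lit 186) (nat_lit 5) (nat_lit 192) (nat_lit 5) (nat_lit 193) (nat_lit 4) (nat_lit 302) (nat_lit 283) (nat_lit 279)) (XT.nd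 (nat_lit 94) (nat_lit 588) (nat_lit 0) (XT.lf (nat_lit 0) (nat_lit 1324285305) (nat_lit 588) (nat_lit 15207884) (nat_lit 84) (nat_lit 5405306799) (nat_lit 185) (nat_lit 5) (nat_lit 192) (nat_lit 5) (nat_lit 186) (nat_lit 5) (nat_lit 303) (nat_lit 283) (nat_lit 278)) (XT.lf (nat_lit 0) (nat_lit 3458192985) (nat_lit 588) (nat_lit 384498982) (nat_lit 672) (nat_lit 2947483229) (nat_lit 178) (nat_lit 5) (nat_lit 185) (nat_lit 5) (nat_lit 186) (nat_lit 5) (nat_lit 304) (nat_lit 283) (nat_lit 277))))))))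
noncomputable def xc71 : XT := (XT.nd (nat_lit 2256) (nat_lit 3612) (nat_lit 0) (XT.nd (nat_lit 1128) (nat_lit 3192) (nat_lit 0) (XT.nd (nat_lit 564) (nat_lit 3192) (nat_lit 0) (XT.nd (nat_lit 282) (nat_lit 924) (nat_lit 0) (XT.nd (nat_lit 94) (nat_lit 840) (nat_lit 0) (XT.lf (nat_lit 0) (nat_lit 131163544) (nat_lit 672) (nat_lit 6230274828) (nat_lit 756) (nat_lit 478399973) (nat_lit 170) (nat_lit 5) (nat_lit 178) (nat_lit 5) (nat_lit 179) (nat_lit 4) (nat_lit 305) (nat_lit 283) (nat_lit 276)) (XT.nd (nat_lit 94) (nat_lit 756) (nat_lit 0) (XT.lf (nat_lit 0) (nat_lit 1980087764) (nat_lit 756) (nat_lit 3212111383) (nat_lit 84) (nat_lit 1700060004) (nat_lit 169) (nat_lit 5) (nat_lit 178) (nat_lit 5) (nat_lit 170) (nat_lit 5) (nat_lit 306) (nat_lit 283) (nat_lit 275)) (XT.lf (nat_lit 0) (nat_lit 326978688) (nat_lit 756) (nat_lit 4099104072) (nat_lit 840) (nat_lit 2522942756) (nat_lit 160)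 (nat_lit 5) (nat_lit 169) (nat_lit 5) (nat_lit 170) (nat_lit 5) (nat_lit 307) (nat_lit 283) (nat_lit 274)))) (XT.nd (nat_lit 94) (nat_lit 924) (nat_lit 0) (XT.lf (nat_lit 0) (nat_lit 3976997828) (nat_lit 756) (nat_lit 2924224083) (nat_lit 840) (nat_lit 108194295) (nat_lit 160) (nat_lit 5) (nat_lit 169) (nat_lit 5) (nat_lit 170) (nat_lit 5) (nat_lit 308) (nat_lit 283) (nat_lit 273)) (XT.nd (nat_lit 94) (nat_lit 0) (nat_lit 0) (XT.lf (nat_lit 0) (nat_lit 589865294) (nat_lit 840) (nat_lit 1670427248) (nat_lit 924) (nat_lit 4813314134) (nat_lit 149) (nat_lit 5) (nat_lit 159) (nat_lit 5) (nat_lit 160) (nat_lit 5) (nat_lit 309) (nat_lit 283) (nat_lit 272)) (XT.lf (nat_lit 0) (nat_lit 4321389418) (nat_lit 840) (nat_lit 332934696) (nat_lit 924) (nat_lit 2487224095) (nat_lit 149) (nat_lit 5) (nat_lit 159) (nat_lit 5) (nat_lit 160) (nat_lit 5) (nat_lit 310) (nat_lit 283) (nat_lit 271))))) (XT.nd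 (nat_lit 282) (nat_lit 1176) (nat_lit 0) (XT.nd (nat_lit 94) (nat_lit 1092) (nat_lit 0) (XT.lf (nat_lit 0) (nat_lit 897689330) (nat_lit 924) (nat_lit 6169321107) (nat_lit 1008) (nat_lit 146677307) (nat_lit 138) (nat_lit 5) (nat_lit 149) (nat_lit 5) (nat_lit 150) (nat_lit 5) (nat_lit 311) (nat_lit 283) (nat_lit 270)) (XT.nd (nat_lit 94) (nat_lit 1008) (nat_lit 0) (XT.lf (nat_lit 0) (nat_lit 2179555786) (nat_lit 1008) (nat_lit 2590977083) (nat_lit 84) (nat_lit 2518458744) (nat_lit 137) (nat_lit 5) (nat_lit 149) (nat_lit 5) (nat_lit 138) (nat_lit 5) (nat_lit 312) (nat_lit 283) (nat_lit 269)) (XT.lf (nat_lit 0) (nat_lit 1206158981) (nat_lit 1008) (nat_lit 3308547004) (nat_lit 1092) (nat_lit 2854079156) (nat_lit 125) (nat_lit 5) (nat_lit 137) (nat_lit 5) (nat_lit 138) (nat_lit 5) (nat_lit 313) (nat_lit 283) (nat_lit 268)))) (XT.nd (nat_lit 94) (nat_lit 1176) (nat_lit 0) (XT.lf (nat_lit 0)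 (nat_lit 5110441270) (nat_lit 1008) (nat_lit 1768253163) (nat_lit 1092) (nat_lit 574034908) (nat_lit 125) (nat_lit 5) (nat_lit 137) (nat_lit 5) (nat_lit 138) (nat_lit 5) (nat_lit 314) (nat_lit 283) (nat_lit 267)) (XT.nd (nat_lit 94) (nat_lit 0) (nat_lit 0) (XT.lf (nat_lit 0) (nat_lit 1544718665) (nat_lit 1092) (nat_lit 142015187) (nat_lit 1176) (nat_lit 5853982171) (nat_lit 111) (nat_lit 5) (nat_lit 124) (nat_lit 5) (nat_lit 125) (nat_lit 5) (nat_lit 315) (nat_lit 283) (nat_lit 266)) (XT.lf (nat_lit 0) (nat_lit 3977583120) (nat_lit 1176) (nat_lit 2117179715) (nat_lit 84) (nat_lit 1537654275) (nat_lit 111) (nat_lit 5) (nat_lit 125) (nat_lit 5) (nat_lit 112) (nat_lit 5) (nat_lit 316) (nat_lit 283) (nat_lit 265)))))) (XT.nd (nat_lit 564) (nat_lit 1428) (nat_lit 0) (XT.nd (nat_lit 282) (nat_lit 588) (nat_lit 0) (XT.nd (nat_lit 94) (nat_lit 672) (nat_lit 0) (XT.lf (nat_lit 0) (nat_lit 1852732631)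 (nat_lit 504) (nat_lit 4440590785) (nat_lit 588) (nat_lit 1435356789) (nat_lit 105) (nat_lit 5) (nat_lit 111) (nat_lit 5) (nat_lit 112) (nat_lit 5) (nat_lit 317) (nat_lit 283) (nat_lit 264)) (XT.nd (nat_lit 94) (nat_lit 588) (nat_lit 0) (XT.lf (nat_lit 0) (nat_lit 792516404) (nat_lit 588) (nat_lit 1911320502) (nat_lit 84) (nat_lit 5125440429) (nat_lit 104) (nat_lit 5) (nat_lit 111) (nat_lit 5) (nat_lit 105) (nat_lit 5) (nat_lit 318) (nat_lit 283) (nat_lit 263)) (XT.lf (nat_lit 0) (nat_lit 2140656883) (nat_lit 588) (nat_lit 876639214) (nat_lit 672) (nat_lit 4916818448) (nat_lit 97) (nat_lit 5) (nat_lit 104) (nat_lit 5) (nat_lit 105) (nat_lit 5) (nat_lit 319) (nat_lit 283) (nat_lit 262)))) (XT.nd (nat_lit 94) (nat_lit 588) (nat_lit 0) (XT.lf (nat_lit 0) (nat_lit 5278885065) (nat_lit 672) (nat_lit 1758545335) (nat_lit 84) (nat_lit 1006024361) (nat_lit 97) (nat_lit 5) (nat_lit 105) (nat_lit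 5) (nat_lit 98) (nat_lit 5) (nat_lit 320) (nat_lit 283) (nat_lit 261)) (XT.nd (nat_lit 94) (nat_lit 84) (nat_lit 0) (XT.lf (nat_lit 0) (nat_lit 2376810093) (nat_lit 504) (nat_lit 5205886004) (nat_lit 588) (nat_lit 574601351) (nat_lit 91) (nat_lit 5) (nat_lit 97) (nat_lit 5) (nat_lit 98) (nat_lit 5) (nat_lit 321) (nat_lit 283) (nat_lit 260)) (XT.lf (nat_lit 0) (nat_lit 1607805026) (nat_lit 588) (nat_lit 1677730545) (nat_lit 84) (nat_lit 4990137405) (nat_lit 90) (nat_lit 5) (nat_lit 97) (nat_lit 5) (nat_lit 91) (nat_lit 5) (nat_lit 322) (nat_lit 283) (nat_lit 259))))) (XT.nd (nat_lit 282) (nat_lit 504) (nat_lit 0) (XT.nd (nat_lit 94) (nat_lit 420) (nat_lit 0) (XT.lf (nat_lit 0) (nat_lit 2534958382) (nat_lit 504) (nat_lit 1277844922) (nat_lit 588) (nat_lit 4585986275) (nat_lit 84) (nat_lit 5) (nat_lit 90) (nat_lit 5) (nat_lit 91) (nat_lit 5) (nat_lit 323) (nat_lit 283) (nat_lit 258)) (XT.nd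 (nat_lit 94) (nat_lit 420) (nat_lit 0) (XT.lf (nat_lit 0) (nat_lit 6054523777) (nat_lit 588) (nat_lit 1683171558) (nat_lit 84) (nat_lit 789227943) (nat_lit 84) (nat_lit 5) (nat_lit 91) (nat_lit 5) (nat_lit 85) (nat_lit 5) (nat_lit 324) (nat_lit 283) (nat_lit 257)) (XT.lf (nat_lit 0) (nat_lit 2604651689) (nat_lit 420) (nat_lit 5744531538) (nat_lit 504) (nat_lit 310572335) (nat_lit 79) (nat_lit 5) (nat_lit 84) (nat_lit 5) (nat_lit 85) (nat_lit 5) (nat_lit 325) (nat_lit 283) (nat_lit 256)))) (XT.nd (nat_lit 94) (nat_lit 420) (nat_lit 0) (XT.lf (nat_lit 0) (nat_lit 1842210203) (nat_lit 504) (nat_lit 1816844516) (nat_lit 84) (nat_lit 5138421420) (nat_lit 78) (nat_lit 5) (nat_lit 84) (nat_lit 5) (nat_lit 79) (nat_lit 5) (nat_lit 326) (nat_lit 283) (nat_lit 255)) (XT.nd (nat_lit 94) (nat_lit 0) (nat_lit 0) (XT.lf (nat_lit 0) (nat_lit 2540129133) (nat_lit 420) (nat_lit 1486844595) (nat_lit 504)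 (nat_lit 4913465869) (nat_lit 73) (nat_lit 5) (nat_lit 78) (nat_lit 5) (nat_lit 79) (nat_lit 5) (nat_lit 327) (nat_lit 283) (nat_lit 254)) (XT.lf (nat_lit 0) (nat_lit 6253525400) (nat_lit 504) (nat_lit 2086022619) (nat_lit 84) (nat_lit 749279769) (nat_lit 73) (nat_lit 5) (nat_lit 79) (nat_lit 5) (nat_lit 74) (nat_lit 5) (nat_lit 328) (nat_lit 283) (nat_lit 253))))))) (XT.nd (nat_lit 1128) (nat_lit 1176) (nat_lit 0) (XT.nd (nat_lit 564) (nat_lit 1092) (nat_lit 0) (XT.nd (nat_lit 282) (nat_lit 420) (nat_lit 0) (XT.nd (nat_lit 94) (nat_lit 504) (nat_lit 0) (XT.lf (nat_lit 0) (nat_lit 2333882116) (nat_lit 420) (nat_lit 6202593354) (nat_lit 504) (nat_lit 705914974) (nat_lit 68) (nat_lit 5) (nat_lit 73) (nat_lit 5) (nat_lit 74) (nat_lit 5) (nat_lit 329) (nat_lit 283) (nat_lit 252)) (XT.nd (nat_lit 94) (nat_lit 420) (nat_lit 0) (XT.lf (nat_lit 0) (nat_lit 1430744747) (nat_lit 504) (nat_lit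 2540560646) (nat_lit 84) (nat_lit 5430012916) (nat_lit 67) (nat_lit 5) (nat_lit 73) (nat_lit 5) (nat_lit 68) (nat_lit 5) (nat_lit 330) (nat_lit 283) (nat_lit 251)) (XT.lf (nat_lit 0) (nat_lit 1935847164) (nat_lit 420) (nat_lit 1653133871) (nat_lit 504) (nat_lit 5977065019) (nat_lit 62) (nat_lit 5) (nat_lit 67) (nat_lit 5) (nat_lit 68) (nat_lit 5) (nat_lit 331) (nat_lit 283) (nat_lit 250)))) (XT.nd (nat_lit 94) (nat_lit 420) (nat_lit 0) (XT.lf (nat_lit 0) (nat_lit 5799827099) (nat_lit 504) (nat_lit 3197453977) (nat_lit 84) (nat_lit 739204466) (nat_lit 62) (nat_lit 5) (nat_lit 68) (nat_lit 5) (nat_lit 63) (nat_lit 5) (nat_lit 332) (nat_lit 283) (nat_lit 249)) (XT.nd (nat_lit 94) (nat_lit 84) (nat_lit 0) (XT.lf (nat_lit 0) (nat_lit 1324584243) (nat_lit 336) (nat_lit 6737732838) (nat_lit 420) (nat_lit 1850572383) (nat_lit 58) (nat_lit 5) (nat_lit 62) (nat_lit 5) (nat_lit 63) (nat_lit 5)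 (nat_lit 333) (nat_lit 283) (nat_lit 248)) (XT.lf (nat_lit 0) (nat_lit 281132521) (nat_lit 420) (nat_lit 4100880281) (nat_lit 84) (nat_lit 5713207690) (nat_lit 57) (nat_lit 5) (nat_lit 62) (nat_lit 5) (nat_lit 58) (nat_lit 5) (nat_lit 334) (nat_lit 283) (nat_lit 247))))) (XT.nd (nat_lit 282) (nat_lit 756) (nat_lit 0) (XT.nd (nat_lit 94) (nat_lit 0) (nat_lit 0) (XT.lf (nat_lit 0) (nat_lit 459314888) (nat_lit 336) (nat_lit 1940407795) (nat_lit 420) (nat_lit 7884301219) (nat_lit 53) (nat_lit 5) (nat_lit 57) (nat_lit 5) (nat_lit 58) (nat_lit 5) (nat_lit 335) (nat_lit 283) (nat_lit 246)) (XT.nd (nat_lit 94) (nat_lit 0) (nat_lit 0) (XT.lf (nat_lit 0) (nat_lit 4588332277) (nat_lit 420) (nat_lit 5293198521) (nat_lit 84) (nat_lit 597153867) (nat_lit 53) (nat_lit 5) (nat_lit 58) (nat_lit 5) (nat_lit 54) (nat_lit 5) (nat_lit 336) (nat_lit 283) (nat_lit 245)) (XT.lf (nat_lit 0) (nat_lit 6821354045)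 (nat_lit 420) (nat_lit 696825471) (nat_lit 84) (nat_lit 3162061775) (nat_lit 53) (nat_lit 5) (nat_lit 58) (nat_lit 5) (nat_lit 54) (nat_lit 5) (nat_lit 337) (nat_lit 283) (nat_lit 244)))) (XT.nd (nat_lit 94) (nat_lit 420) (nat_lit 0) (XT.lf (nat_lit 0) (nat_lit 4069943819) (nat_lit 336) (nat_lit 5052050839) (nat_lit 420) (nat_lit 1766232109) (nat_lit 49) (nat_lit 5) (nat_lit 53) (nat_lit 5) (nat_lit 54) (nat_lit 5) (nat_lit 338) (nat_lit 283) (nat_lit 243)) (XT.nd (nat_lit 94) (nat_lit 336) (nat_lit 0) (XT.lf (nat_lit 0) (nat_lit 348965088) (nat_lit 420) (nat_lit 2161661578) (nat_lit 84) (nat_lit 8593103733) (nat_lit 48) (nat_lit 5) (nat_lit 53) (nat_lit 5) (nat_lit 49) (nat_lit 5) (nat_lit 339) (nat_lit 283) (nat_lit 242)) (XT.lf (nat_lit 0) (nat_lit 2479924563) (nat_lit 420) (nat_lit 8706165381) (nat_lit 84) (nat_lit 139790817) (nat_lit 44) (nat_lit 5) (nat_lit 49) (nat_lit 5) (nat_lit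 45) (nat_lit 5) (nat_lit 340) (nat_lit 283) (nat_lit 241)))))) (XT.nd (nat_lit 564) (nat_lit 588) (nat_lit 0) (XT.nd (nat_lit 282) (nat_lit 336) (nat_lit 0) (XT.nd (nat_lit 94) (nat_lit 252) (nat_lit 0) (XT.lf (nat_lit 0) (nat_lit 4685453414) (nat_lit 420) (nat_lit 4038563970) (nat_lit 84) (nat_lit 2830752408) (nat_lit 44) (nat_lit 5) (nat_lit 49) (nat_lit 5) (nat_lit 45) (nat_lit 5) (nat_lit 341) (nat_lit 283) (nat_lit 240)) (XT.nd (nat_lit 94) (nat_lit 0) (nat_lit 0) (XT.lf (nat_lit 0) (nat_lit 736606867) (nat_lit 252) (nat_lit 6191293346) (nat_lit 336) (nat_lit 4863941547) (nat_lit 41) (nat_lit 5) (nat_lit 44) (nat_lit 5) (nat_lit 45) (nat_lit 5) (nat_lit 342) (nat_lit 283) (nat_lit 239)) (XT.lf (nat_lit 0) (nat_lit 5693982352) (nat_lit 252) (nat_lit 3549929311) (nat_lit 336) (nat_lit 2792334730) (nat_lit 41) (nat_lit 5) (nat_lit 44) (nat_lit 5) (nat_lit 45) (nat_lit 5) (nat_lit 343)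 (nat_lit 283) (nat_lit 238)))) (XT.nd (nat_lit 94) (nat_lit 336) (nat_lit 0) (XT.lf (nat_lit 0) (nat_lit 10755142119) (nat_lit 252) (nat_lit 839617576) (nat_lit 336) (nat_lit 694719297) (nat_lit 41) (nat_lit 5) (nat_lit 44) (nat_lit 5) (nat_lit 45) (nat_lit 5) (nat_lit 344) (nat_lit 283) (nat_lit 237)) (XT.nd (nat_lit 94) (nat_lit 0) (nat_lit 0) (XT.lf (nat_lit 0) (nat_lit 1455796000) (nat_lit 336) (nat_lit 9142142622) (nat_lit 84) (nat_lit 1951730244) (nat_lit 37) (nat_lit 5) (nat_lit 41) (nat_lit 5) (nat_lit 38) (nat_lit 5) (nat_lit 345) (nat_lit 283) (nat_lit 236)) (XT.lf (nat_lit 0) (nat_lit 3647476320) (nat_lit 336) (nat_lit 4347986148) (nat_lit 84) (nat_lit 4822681485) (nat_lit 37) (nat_lit 5) (nat_lit 41) (nat_lit 5) (nat_lit 38) (nat_lit 5) (nat_lit 346) (nat_lit 283) (nat_lit 235))))) (XT.nd (nat_lit 282) (nat_lit 336) (nat_lit 0) (XT.nd (nat_lit 94) (nat_lit 0) (nat_lit 0)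 (XT.lf (nat_lit 0) (nat_lit 557707804) (nat_lit 252) (nat_lit 5320164542) (nat_lit 336) (nat_lit 7218068962) (nat_lit 34) (nat_lit 5) (nat_lit 37) (nat_lit 5) (nat_lit 38) (nat_lit 5) (nat_lit 347) (nat_lit 283) (nat_lit 234)) (XT.nd (nat_lit 94) (nat_lit 0) (nat_lit 0) (XT.lf (nat_lit 0) (nat_lit 5659824528) (nat_lit 252) (nat_lit 2528781924) (nat_lit 336) (nat_lit 5193487568) (nat_lit 34) (nat_lit 5) (nat_lit 37) (nat_lit 5) (nat_lit 38) (nat_lit 5) (nat_lit 348) (nat_lit 283) (nat_lit 233)) (XT.lf (nat_lit 0) (nat_lit 10541145233) (nat_lit 336) (nat_lit 2807849404) (nat_lit 84) (nat_lit 329135484) (nat_lit 34) (nat_lit 5) (nat_lit 38) (nat_lit 5) (nat_lit 35) (nat_lit 5) (nat_lit 349) (nat_lit 283) (nat_lit 232)))) (XT.nd (nat_lit 94) (nat_lit 84) (nat_lit 0) (XT.lf (nat_lit 0) (nat_lit 2232074666) (nat_lit 252) (nat_lit 10750253471) (nat_lit 336) (nat_lit 1000613363) (nat_lit 31)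 (nat_lit 5) (nat_lit 34) (nat_lit 5) (nat_lit 35) (nat_lit 5) (nat_lit 350) (nat_lit 283) (nat_lit 231)) (XT.nd (nat_lit 94) (nat_lit 0) (nat_lit 0) (XT.lf (nat_lit 0) (nat_lit 1175199403) (nat_lit 336) (nat_lit 6866983338) (nat_lit 84) (nat_lit 6254809569) (nat_lit 30) (nat_lit 5) (nat_lit 34) (nat_lit 5) (nat_lit 31) (nat_lit 5) (nat_lit 351) (nat_lit 283) (nat_lit 230)) (XT.lf (nat_lit 0) (nat_lit 3366467878) (nat_lit 336) (nat_lit 1886770984) (nat_lit 84) (nat_lit 9368267944) (nat_lit 30) (nat_lit 5) (nat_lit 34) (nat_lit 5) (nat_lit 31) (nat_lit 5) (nat_lit 352) (nat_lit 283) (nat_lit 229))))))))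
noncomputable def xc72 : XT := (XT.nd (nat_lit 2256) (nat_lit 588) (nat_lit 0) (XT.nd (nat_lit 1128) (nat_lit 588) (nat_lit 0) (XT.nd (nat_lit 564) (nat_lit 336) (nat_lit 0) (XT.nd (nat_lit 282) (nat_lit 336) (nat_lit 0) (XT.nd (nat_lit 94) (nat_lit 0) (nat_lit 0) (XT.lf (nat_lit 0) (nat_lit 3270226287) (nat_lit 168) (nat_lit 2357609444) (nat_lit 252) (nat_lit 9328253775) (nat_lit 28) (nat_lit 5) (nat_lit 30) (nat_lit 5) (nat_lit 31) (nat_lit 5) (nat_lit 353) (nat_lit 283) (nat_lit 228)) (XT.nd (nat_lit 94) (nat_lit 0) (nat_lit 0) (XT.lf (nat_lit 0) (nat_lit 7955509716) (nat_lit 252) (nat_lit 6723688123) (nat_lit 84) (nat_lit 622037372) (nat_lit 28) (nat_lit 5) (nat_lit 31) (nat_lit 5) (nat_lit 29) (nat_lit 5) (nat_lit 354) (nat_lit 283) (nat_lit 227)) (XT.lf (nat_lit 0) (nat_lit 10350434591) (nat_lit 252) (nat_lit 1674392258) (nat_lit 84) (nat_lit 3632476753) (nat_lit 28) (nat_lit 5)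 (nat_lit 31) (nat_lit 5) (nat_lit 29) (nat_lit 5) (nat_lit 355) (nat_lit 283) (nat_lit 226)))) (XT.nd (nat_lit 94) (nat_lit 84) (nat_lit 0) (XT.lf (nat_lit 0) (nat_lit 3561882619) (nat_lit 252) (nat_lit 9264906597) (nat_lit 336) (nat_lit 3197467016) (nat_lit 25) (nat_lit 5) (nat_lit 28) (nat_lit 5) (nat_lit 29) (nat_lit 5) (nat_lit 356) (nat_lit 283) (nat_lit 225)) (XT.nd (nat_lit 94) (nat_lit 84) (nat_lit 0) (XT.lf (nat_lit 0) (nat_lit 8955083360) (nat_lit 252) (nat_lit 6414598106) (nat_lit 336) (nat_lit 1033286884) (nat_lit 25) (nat_lit 5) (nat_lit 28) (nat_lit 5) (nat_lit 29) (nat_lit 5) (nat_lit 357) (nat_lit 283) (nat_lit 224)) (XT.lf (nat_lit 0) (nat_lit 1146634253) (nat_lit 336) (nat_lit 2330119048) (nat_lit 84) (nat_lit 13317205288) (nat_lit 24) (nat_lit 5) (nat_lit 28) (nat_lit 5) (nat_lit 25) (nat_lit 5) (nat_lit 358) (nat_lit 283) (nat_lit 223))))) (XT.nd (nat_lit 282) (nat_lit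 168) (nat_lit 0) (XT.nd (nat_lit 94) (nat_lit 0) (nat_lit 0) (XT.lf (nat_lit 0) (nat_lit 2956214350) (nat_lit 168) (nat_lit 419387119) (nat_lit 252) (nat_lit 13821110539) (nat_lit 22) (nat_lit 5) (nat_lit 24) (nat_lit 5) (nat_lit 25) (nat_lit 5) (nat_lit 359) (nat_lit 283) (nat_lit 222)) (XT.nd (nat_lit 94) (nat_lit 0) (nat_lit 0) (XT.lf (nat_lit 0) (nat_lit 5699236620) (nat_lit 252) (nat_lit 9222152887) (nat_lit 84) (nat_lit 2689827768) (nat_lit 22) (nat_lit 5) (nat_lit 25) (nat_lit 5) (nat_lit 23) (nat_lit 5) (nat_lit 360) (nat_lit 283) (nat_lit 221)) (XT.lf (nat_lit 0) (nat_lit 8073869110) (nat_lit 252) (nat_lit 4090762928) (nat_lit 84) (nat_lit 5874649644) (nat_lit 22) (nat_lit 5) (nat_lit 25) (nat_lit 5) (nat_lit 23) (nat_lit 5) (nat_lit 361) (nat_lit 283) (nat_lit 220)))) (XT.nd (nat_lit 94) (nat_lit 0) (nat_lit 0) (XT.lf (nat_lit 0) (nat_lit 1186521343) (nat_lit 168) (nat_lit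 9322801068) (nat_lit 252) (nat_lit 7971745909) (nat_lit 20) (nat_lit 5) (nat_lit 22) (nat_lit 5) (nat_lit 23) (nat_lit 5) (nat_lit 362) (nat_lit 283) (nat_lit 219)) (XT.nd (nat_lit 94) (nat_lit 0) (nat_lit 0) (XT.lf (nat_lit 0) (nat_lit 6677414364) (nat_lit 168) (nat_lit 6361370749) (nat_lit 252) (nat_lit 5897245393) (nat_lit 20) (nat_lit 5) (nat_lit 22) (nat_lit 5) (nat_lit 23) (nat_lit 5) (nat_lit 363) (nat_lit 283) (nat_lit 218)) (XT.lf (nat_lit 0) (nat_lit 12302919745) (nat_lit 168) (nat_lit 3320279894) (nat_lit 252) (nat_lit 3782676548) (nat_lit 20) (nat_lit 5) (nat_lit 22) (nat_lit 5) (nat_lit 23) (nat_lit 5) (nat_lit 364) (nat_lit 283) (nat_lit 217)))))) (XT.nd (nat_lit 564) (nat_lit 168) (nat_lit 0) (XT.nd (nat_lit 282) (nat_lit 168) (nat_lit 0) (XT.nd (nat_lit 94) (nat_lit 252) (nat_lit 0) (XT.lf (nat_lit 0) (nat_lit 18068281047) (nat_lit 168) (nat_lit 196693885) (nat_lit 252)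 (nat_lit 1626068376) (nat_lit 20) (nat_lit 5) (nat_lit 22) (nat_lit 5) (nat_lit 23) (nat_lit 5) (nat_lit 365) (nat_lit 283) (nat_lit 216)) (XT.nd (nat_lit 94) (nat_lit 0) (nat_lit 0) (XT.lf (nat_lit 0) (nat_lit 629580419) (nat_lit 252) (nat_lit 16766170276) (nat_lit 84) (nat_lit 2993993101) (nat_lit 17) (nat_lit 5) (nat_lit 20) (nat_lit 5) (nat_lit 18) (nat_lit 5) (nat_lit 366) (nat_lit 283) (nat_lit 215)) (XT.lf (nat_lit 0) (nat_lit 2920485808) (nat_lit 252) (nat_lit 11679036399) (nat_lit 84) (nat_lit 6303940203) (nat_lit 17) (nat_lit 5) (nat_lit 20) (nat_lit 5) (nat_lit 18) (nat_lit 5) (nat_lit 367) (nat_lit 283) (nat_lit 214)))) (XT.nd (nat_lit 94) (nat_lit 168) (nat_lit 0) (XT.lf (nat_lit 0) (nat_lit 5260951010) (nat_lit 252) (nat_lit 6467443232) (nat_lit 84) (nat_lit 9705422213) (nat_lit 17) (nat_lit 5) (nat_lit 20) (nat_lit 5) (nat_lit 18) (nat_lit 5) (nat_lit 368) (nat_lit 283)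 (nat_lit 213)) (XT.nd (nat_lit 94) (nat_lit 168) (nat_lit 0) (XT.lf (nat_lit 0) (nat_lit 7653157584) (nat_lit 252) (nat_lit 1126533026) (nat_lit 84) (nat_lit 13201609667) (nat_lit 17) (nat_lit 5) (nat_lit 20) (nat_lit 5) (nat_lit 18) (nat_lit 5) (nat_lit 369) (nat_lit 283) (nat_lit 212)) (XT.lf (nat_lit 0) (nat_lit 4438090134) (nat_lit 168) (nat_lit 5705271586) (nat_lit 252) (nat_lit 12401697648) (nat_lit 15) (nat_lit 5) (nat_lit 17) (nat_lit 5) (nat_lit 18) (nat_lit 5) (nat_lit 370) (nat_lit 283) (nat_lit 211))))) (XT.nd (nat_lit 282) (nat_lit 168) (nat_lit 0) (XT.nd (nat_lit 94) (nat_lit 0) (nat_lit 0) (XT.lf (nat_lit 0) (nat_lit 10168142242) (nat_lit 168) (nat_lit 2534491290) (nat_lit 252) (nat_lit 10423954461) (nat_lit 15) (nat_lit 5) (nat_lit 17) (nat_lit 5) (nat_lit 18) (nat_lit 5) (nat_lit 371) (nat_lit 283) (nat_lit 210)) (XT.nd (nat_lit 94) (nat_lit 0) (nat_lit 0) (XT.lf (nat_lit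 0) (nat_lit 15329134048) (nat_lit 252) (nat_lit 7688161933) (nat_lit 84) (nat_lit 709263177) (nat_lit 15) (nat_lit 5) (nat_lit 18) (nat_lit 5) (nat_lit 16) (nat_lit 4) (nat_lit 372) (nat_lit 283) (nat_lit 209)) (XT.lf (nat_lit 0) (nat_lit 18044165276) (nat_lit 252) (nat_lit 2310059159) (nat_lit 84) (nat_lit 3990723192) (nat_lit 15) (nat_lit 5) (nat_lit 18) (nat_lit 5) (nat_lit 16) (nat_lit 4) (nat_lit 373) (nat_lit 283) (nat_lit 208)))) (XT.nd (nat_lit 94) (nat_lit 84) (nat_lit 0) (XT.lf (nat_lit 0) (nat_lit 3271940297) (nat_lit 84) (nat_lit 17585633198) (nat_lit 168) (nat_lit 4124529525) (nat_lit 14) (nat_lit 5) (nat_lit 15) (nat_lit 5) (nat_lit 16) (nat_lit 4) (nat_lit 374) (nat_lit 283) (nat_lit 207)) (XT.nd (nat_lit 94) (nat_lit 84) (nat_lit 0) (XT.lf (nat_lit 0) (nat_lit 9047498005) (nat_lit 84) (nat_lit 14716830982) (nat_lit 168) (nat_lit 1874527464) (nat_lit 14) (nat_lit 5) (nat_lit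 15) (nat_lit 5) (nat_lit 16) (nat_lit 4) (nat_lit 375) (nat_lit 283) (nat_lit 206)) (XT.lf (nat_lit 0) (nat_lit 418601483) (nat_lit 168) (nat_lit 11346285216) (nat_lit 84) (nat_lit 14551527010) (nat_lit 13) (nat_lit 5) (nat_lit 15) (nat_lit 5) (nat_lit 14) (nat_lit 5) (nat_lit 376) (nat_lit 283) (nat_lit 205))))))) (XT.nd (nat_lit 1128) (nat_lit 336) (nat_lit 0) (XT.nd (nat_lit 564) (nat_lit 84) (nat_lit 0) (XT.nd (nat_lit 282) (nat_lit 0) (nat_lit 0) (XT.nd (nat_lit 94) (nat_lit 168) (nat_lit 0) (XT.lf (nat_lit 0) (nat_lit 2726756977) (nat_lit 168) (nat_lit 5984942199) (nat_lit 84) (nat_lit 18303245642) (nat_lit 13) (nat_lit 5) (nat_lit 15) (nat_lit 5) (nat_lit 14) (nat_lit 5) (nat_lit 377) (nat_lit 283) (nat_lit 204)) (XT.nd (nat_lit 94) (nat_lit 168) (nat_lit 0) (XT.lf (nat_lit 0) (nat_lit 5089858011) (nat_lit 168) (nat_lit 483736516) (nat_lit 84) (nat_lit 22162082816) (nat_lit 13)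 (nat_lit 5) (nat_lit 15) (nat_lit 5) (nat_lit 14) (nat_lit 5) (nat_lit 378) (nat_lit 283) (nat_lit 203)) (XT.lf (nat_lit 0) (nat_lit 5268610286) (nat_lit 168) (nat_lit 2293762222) (nat_lit 252) (nat_lit 20915290352) (nat_lit 11) (nat_lit 5) (nat_lit 13) (nat_lit 5) (nat_lit 14) (nat_lit 5) (nat_lit 379) (nat_lit 283) (nat_lit 202)))) (XT.nd (nat_lit 94) (nat_lit 0) (nat_lit 0) (XT.lf (nat_lit 0) (nat_lit 10111458524) (nat_lit 252) (nat_lit 18069518123) (nat_lit 84) (nat_lit 1061705874) (nat_lit 11) (nat_lit 5) (nat_lit 14) (nat_lit 5) (nat_lit 12) (nat_lit 4) (nat_lit 380) (nat_lit 283) (nat_lit 201)) (XT.nd (nat_lit 94) (nat_lit 0) (nat_lit 0) (XT.lf (nat_lit 0) (nat_lit 12747538264) (nat_lit 252) (nat_lit 12819061944) (nat_lit 84) (nat_lit 4464599763) (nat_lit 11) (nat_lit 5) (nat_lit 14) (nat_lit 5) (nat_lit 12) (nat_lit 4) (nat_lit 381) (nat_lit 283) (nat_lit 200)) (XT.lf (nat_lit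 0) (nat_lit 15450314425) (nat_lit 252) (nat_lit 7430035659) (nat_lit 84) (nat_lit 7964305496) (nat_lit 11) (nat_lit 5) (nat_lit 14) (nat_lit 5) (nat_lit 12) (nat_lit 4) (nat_lit 382) (nat_lit 283) (nat_lit 199))))) (XT.nd (nat_lit 282) (nat_lit 0) (nat_lit 0) (XT.nd (nat_lit 94) (nat_lit 84) (nat_lit 0) (XT.lf (nat_lit 0) (nat_lit 18222306278) (nat_lit 252) (nat_lit 1897416130) (nat_lit 84) (nat_lit 11564085164) (nat_lit 11) (nat_lit 5) (nat_lit 14) (nat_lit 5) (nat_lit 12) (nat_lit 4) (nat_lit 383) (nat_lit 283) (nat_lit 198)) (XT.nd (nat_lit 94) (nat_lit 0) (nat_lit 0) (XT.lf (nat_lit 0) (nat_lit 3861759470) (nat_lit 84) (nat_lit 17242647272) (nat_lit 168) (nat_lit 11443843801) (nat_lit 10) (nat_lit 5) (nat_lit 11) (nat_lit 5) (nat_lit 12) (nat_lit 4) (nat_lit 384) (nat_lit 283) (nat_lit 197)) (XT.lf (nat_lit 0) (nat_lit 9817163193) (nat_lit 84) (nat_lit 14264563413) (nat_lit 168)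 (nat_lit 9357608482) (nat_lit 10) (nat_lit 5) (nat_lit 11) (nat_lit 5) (nat_lit 12) (nat_lit 4) (nat_lit 385) (nat_lit 283) (nat_lit 196)))) (XT.nd (nat_lit 94) (nat_lit 0) (nat_lit 0) (XT.lf (nat_lit 0) (nat_lit 15935331332) (nat_lit 84) (nat_lit 11202500078) (nat_lit 168) (nat_lit 7220655879) (nat_lit 10) (nat_lit 5) (nat_lit 11) (nat_lit 5) (nat_lit 12) (nat_lit 4) (nat_lit 386) (nat_lit 283) (nat_lit 195)) (XT.nd (nat_lit 94) (nat_lit 0) (nat_lit 0) (XT.lf (nat_lit 0) (nat_lit 22221966660) (nat_lit 84) (nat_lit 8053603104) (nat_lit 168) (nat_lit 5030994129) (nat_lit 10) (nat_lit 5) (nat_lit 11) (nat_lit 5) (nat_lit 12) (nat_lit 4) (nat_lit 387) (nat_lit 283) (nat_lit 194)) (XT.lf (nat_lit 0) (nat_lit 28682928979) (nat_lit 84) (nat_lit 4814937389) (nat_lit 168) (nat_lit 2786582239) (nat_lit 10) (nat_lit 5) (nat_lit 11) (nat_lit 5) (nat_lit 12) (nat_lit 4) (nat_lit 388) (nat_lit 283)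 (nat_lit 193)))))) (XT.nd (nat_lit 564) (nat_lit 84) (nat_lit 0) (XT.nd (nat_lit 282) (nat_lit 0) (nat_lit 0) (XT.nd (nat_lit 94) (nat_lit 252) (nat_lit 0) (XT.lf (nat_lit 0) (nat_lit 35324240585) (nat_lit 84) (nat_lit 1483484157) (nat_lit 168) (nat_lit 485328180) (nat_lit 10) (nat_lit 5) (nat_lit 11) (nat_lit 5) (nat_lit 12) (nat_lit 4) (nat_lit 389) (nat_lit 283) (nat_lit 192)) (XT.nd (nat_lit 94) (nat_lit 0) (nat_lit 0) (XT.lf (nat_lit 0) (nat_lit 1895478170) (nat_lit 252) (nat_lit 34473099834) (nat_lit 84) (nat_lit 1962353824) (nat_lit 7) (nat_lit 5) (nat_lit 10) (nat_lit 5) (nat_lit 8) (nat_lit 4) (nat_lit 390) (nat_lit 283) (nat_lit 191)) (XT.lf (nat_lit 0) (nat_lit 4363935482) (nat_lit 252) (nat_lit 29533583835) (nat_lit 84) (nat_lit 5502590991) (nat_lit 7) (nat_lit 5) (nat_lit 10) (nat_lit 5) (nat_lit 8) (nat_lit 4) (nat_lit 391) (nat_lit 283) (nat_lit 190)))) (XT.nd (nat_lit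 94) (nat_lit 0) (nat_lit 0) (XT.lf (nat_lit 0) (nat_lit 6897270231) (nat_lit 252) (nat_lit 24460079118) (nat_lit 84) (nat_lit 9145465282) (nat_lit 7) (nat_lit 5) (nat_lit 10) (nat_lit 5) (nat_lit 8) (nat_lit 4) (nat_lit 392) (nat_lit 283) (nat_lit 189)) (XT.nd (nat_lit 94) (nat_lit 0) (nat_lit 0) (XT.lf (nat_lit 0) (nat_lit 9497843750) (nat_lit 252) (nat_lit 19247856645) (nat_lit 84) (nat_lit 12894372236) (nat_lit 7) (nat_lit 5) (nat_lit 10) (nat_lit 5) (nat_lit 8) (nat_lit 4) (nat_lit 393) (nat_lit 283) (nat_lit 188)) (XT.lf (nat_lit 0) (nat_lit 12168080047) (nat_lit 252) (nat_lit 13892058079) (nat_lit 84) (nat_lit 16752806227) (nat_lit 7) (nat_lit 5) (nat_lit 10) (nat_lit 5) (nat_lit 8) (nat_lit 4) (nat_lit 394) (nat_lit 283) (nat_lit 187))))) (XT.nd (nat_lit 282) (nat_lit 0) (nat_lit 0) (XT.nd (nat_lit 94) (nat_lit 84) (nat_lit 0) (XT.lf (nat_lit 0) (nat_lit 14910468061) (nat_lit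 252) (nat_lit 8387691255) (nat_lit 84) (nat_lit 20724363721) (nat_lit 7) (nat_lit 5) (nat_lit 10) (nat_lit 5) (nat_lit 8) (nat_lit 4) (nat_lit 395) (nat_lit 283) (nat_lit 186)) (XT.nd (nat_lit 94) (nat_lit 84) (nat_lit 0) (XT.lf (nat_lit 0) (nat_lit 17727563986) (nat_lit 252) (nat_lit 2729625526) (nat_lit 84) (nat_lit 24812746625) (nat_lit 7) (nat_lit 5) (nat_lit 10) (nat_lit 5) (nat_lit 8) (nat_lit 4) (nat_lit 396) (nat_lit 283) (nat_lit 185)) (XT.lf (nat_lit 0) (nat_lit 3150896560) (nat_lit 84) (nat_lit 17502354372) (nat_lit 168) (nat_lit 25902126463) (nat_lit 6) (nat_lit 5) (nat_lit 7) (nat_lit 5) (nat_lit 8) (nat_lit 4) (nat_lit 397) (nat_lit 283) (nat_lit 184)))) (XT.nd (nat_lit 94) (nat_lit 0) (nat_lit 0) (XT.lf (nat_lit 0) (nat_lit 9255320547) (nat_lit 84) (nat_lit 14432948341) (nat_lit 168) (nat_lit 24191837690) (nat_lit 6) (nat_lit 5) (nat_lit 7) (nat_lit 5) (nat_lit 8) (nat_lit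 4) (nat_lit 398) (nat_lit 283) (nat_lit 183)) (XT.nd (nat_lit 94) (nat_lit 0) (nat_lit 0) (XT.lf (nat_lit 0) (nat_lit 15533209697) (nat_lit 84) (nat_lit 11274602102) (nat_lit 168) (nat_lit 22438403357) (nat_lit 6) (nat_lit 5) (nat_lit 7) (nat_lit 5) (nat_lit 8) (nat_lit 4) (nat_lit 399) (nat_lit 283) (nat_lit 182)) (XT.lf (nat_lit 0) (nat_lit 21990415660) (nat_lit 84) (nat_lit 8024371747) (nat_lit 168) (nat_lit 20640189079) (nat_lit 6) (nat_lit 5) (nat_lit 7) (nat_lit 5) (nat_lit 8) (nat_lit 4) (nat_lit 400) (nat_lit 283) (nat_lit 181))))))))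
noncomputable def xc73 : XT := (XT.nd (nat_lit 44744) (nat_lit 0) (nat_lit 6804) (XT.nd (nat_lit 1128) (nat_lit 84) (nat_lit 0) (XT.nd (nat_lit 564) (nat_lit 84) (nat_lit 0) (XT.nd (nat_lit 282) (nat_lit 84) (nat_lit 0) (XT.nd (nat_lit 94) (nat_lit 0) (nat_lit 0) (XT.lf (nat_lit 0) (nat_lit 28632957229) (nat_lit 84) (nat_lit 4679227720) (nat_lit 168) (nat_lit 18795518732) (nat_lit 6) (nat_lit 5) (nat_lit 7) (nat_lit 5) (nat_lit 8) (nat_lit 4) (nat_lit 401) (nat_lit 283) (nat_lit 180)) (XT.nd (nat_lit 94) (nat_lit 0) (nat_lit 0) (XT.lf (nat_lit 0) (nat_lit 35467025949) (nat_lit 84) (nat_lit 1236051997) (nat_lit 168) (nat_lit 16902672891) (nat_lit 6) (nat_lit 5) (nat_lit 7) (nat_lit 5) (nat_lit 8) (nat_lit 4) (nat_lit 402) (nat_lit 283) (nat_lit 179)) (XT.lf (nat_lit 0) (nat_lit 40213526328) (nat_lit 168) (nat_lit 12674421666) (nat_lit 0) (nat_lit 2261856416) (nat_lit 6) (nat_lit 5) (nat_lit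 8) (nat_lit 4) (nat_lit 6) (nat_lit 4) (nat_lit 403) (nat_lit 283) (nat_lit 178)))) (XT.nd (nat_lit 94) (nat_lit 84) (nat_lit 0) (XT.lf (nat_lit 0) (nat_lit 43837180479) (nat_lit 168) (nat_lit 7067121760) (nat_lit 0) (nat_lit 5837299655) (nat_lit 6) (nat_lit 5) (nat_lit 8) (nat_lit 4) (nat_lit 6) (nat_lit 4) (nat_lit 404) (nat_lit 283) (nat_lit 177)) (XT.nd (nat_lit 94) (nat_lit 84) (nat_lit 0) (XT.lf (nat_lit 0) (nat_lit 47565156236) (nat_lit 168) (nat_lit 1299336792) (nat_lit 0) (nat_lit 9518514100) (nat_lit 6) (nat_lit 5) (nat_lit 8) (nat_lit 4) (nat_lit 6) (nat_lit 4) (nat_lit 405) (nat_lit 283) (nat_lit 176)) (XT.lf (nat_lit 0) (nat_lit 4729600324) (nat_lit 84) (nat_lit 46718246359) (nat_lit 84) (nat_lit 8626248925) (nat_lit 5) (nat_lit 4) (nat_lit 6) (nat_lit 5) (nat_lit 6) (nat_lit 4) (nat_lit 406) (nat_lit 283) (nat_lit 175))))) (XT.nd (nat_lit 282) (nat_lit 84) (nat_lit 0) (XT.nd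 (nat_lit 94) (nat_lit 0) (nat_lit 0) (XT.lf (nat_lit 0) (nat_lit 10960170664) (nat_lit 84) (nat_lit 44496628085) (nat_lit 84) (nat_lit 6360639093) (nat_lit 5) (nat_lit 4) (nat_lit 6) (nat_lit 5) (nat_lit 6) (nat_lit 4) (nat_lit 407) (nat_lit 283) (nat_lit 174)) (XT.nd (nat_lit 94) (nat_lit 0) (nat_lit 0) (XT.lf (nat_lit 0) (nat_lit 17371464742) (nat_lit 84) (nat_lit 42211129838) (nat_lit 84) (nat_lit 4032472020) (nat_lit 5) (nat_lit 4) (nat_lit 6) (nat_lit 5) (nat_lit 6) (nat_lit 4) (nat_lit 408) (nat_lit 283) (nat_lit 173)) (XT.lf (nat_lit 0) (nat_lit 23969458557) (nat_lit 84) (nat_lit 39859621293) (nat_lit 84) (nat_lit 1639577612) (nat_lit 5) (nat_lit 4) (nat_lit 6) (nat_lit 5) (nat_lit 6) (nat_lit 4) (nat_lit 409) (nat_lit 283) (nat_lit 172)))) (XT.nd (nat_lit 94) (nat_lit 0) (nat_lit 0) (XT.lf (nat_lit 0) (nat_lit 803747854) (nat_lit 168) (nat_lit 36627773266) (nat_lit 84) (nat_lit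 29948164794) (nat_lit 4) (nat_lit 5) (nat_lit 6) (nat_lit 5) (nat_lit 5) (nat_lit 4) (nat_lit 410) (nat_lit 283) (nat_lit 171)) (XT.nd (nat_lit 94) (nat_lit 0) (nat_lit 0) (XT.lf (nat_lit 0) (nat_lit 3281894845) (nat_lit 168) (nat_lit 31633591236) (nat_lit 84) (nat_lit 34434174138) (nat_lit 4) (nat_lit 5) (nat_lit 6) (nat_lit 5) (nat_lit 5) (nat_lit 4) (nat_lit 411) (nat_lit 283) (nat_lit 170)) (XT.lf (nat_lit 0) (nat_lit 5830207086) (nat_lit 168) (nat_lit 26495732903) (nat_lit 84) (nat_lit 39054980817) (nat_lit 4) (nat_lit 5) (nat_lit 6) (nat_lit 5) (nat_lit 5) (nat_lit 4) (nat_lit 412) (nat_lit 283) (nat_lit 169)))))) (XT.nd (nat_lit 564) (nat_lit 0) (nat_lit 0) (XT.nd (nat_lit 282) (nat_lit 84) (nat_lit 0) (XT.nd (nat_lit 94) (nat_lit 0) (nat_lit 0) (XT.lf (nat_lit 0) (nat_lit 8451059872) (nat_lit 168) (nat_lit 21209409245) (nat_lit 84) (nat_lit 43814891909) (nat_lit 4) (nat_lit 5)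 (nat_lit 6) (nat_lit 5) (nat_lit 5) (nat_lit 4) (nat_lit 413) (nat_lit 283) (nat_lit 168)) (XT.nd (nat_lit 94) (nat_lit 0) (nat_lit 0) (XT.lf (nat_lit 0) (nat_lit 11146896113) (nat_lit 168) (nat_lit 15769692853) (nat_lit 84) (nat_lit 48718344149) (nat_lit 4) (nat_lit 5) (nat_lit 6) (nat_lit 5) (nat_lit 5) (nat_lit 4) (nat_lit 414) (nat_lit 283) (nat_lit 167)) (XT.lf (nat_lit 0) (nat_lit 13920228609) (nat_lit 168) (nat_lit 10171513344) (nat_lit 84) (nat_lit 53769908068) (nat_lit 4) (nat_lit 5) (nat_lit 6) (nat_lit 5) (nat_lit 5) (nat_lit 4) (nat_lit 415) (nat_lit 283) (nat_lit 166)))) (XT.nd (nat_lit 94) (nat_lit 84) (nat_lit 0) (XT.lf (nat_lit 0) (nat_lit 16773642397) (nat_lit 168) (nat_lit 4409652627) (nat_lit 84) (nat_lit 58974292253) (nat_lit 4) (nat_lit 5) (nat_lit 6) (nat_lit 5) (nat_lit 5) (nat_lit 4) (nat_lit 416) (nat_lit 283) (nat_lit 165)) (XT.nd (nat_lit 94) (nat_lit 0) (nat_lit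 0) (XT.lf (nat_lit 0) (nat_lit 1552540180) (nat_lit 84) (nat_lit 18172658369) (nat_lit 168) (nat_lit 62799208945) (nat_lit 3) (nat_lit 5) (nat_lit 4) (nat_lit 5) (nat_lit 5) (nat_lit 4) (nat_lit 417) (nat_lit 283) (nat_lit 164)) (XT.lf (nat_lit 0) (nat_lit 7783574312) (nat_lit 84) (nat_lit 15025069405) (nat_lit 168) (nat_lit 62154712219) (nat_lit 3) (nat_lit 5) (nat_lit 4) (nat_lit 5) (nat_lit 5) (nat_lit 4) (nat_lit 418) (nat_lit 283) (nat_lit 163))))) (XT.nd (nat_lit 42770) (nat_lit 0) (nat_lit 16380) (XT.nd (nat_lit 94) (nat_lit 0) (nat_lit 0) (XT.lf (nat_lit 0) (nat_lit 14198586243) (nat_lit 84) (nat_lit 11783621979) (nat_lit 168) (nat_lit 61495881693) (nat_lit 3) (nat_lit 5) (nat_lit 4) (nat_lit 5) (nat_lit 5) (nat_lit 4) (nat_lit 419) (nat_lit 283) (nat_lit 162)) (XT.nd (nat_lit 42582) (nat_lit 0) (nat_lit 16800) (XT.lf (nat_lit 0) (nat_lit 20803555436) (nat_lit 84) (nat_lit 8445294723)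 (nat_lit 168) (nat_lit 60822103269) (nat_lit 3) (nat_lit 5) (nat_lit 4) (nat_lit 5) (nat_lit 5) (nat_lit 4) (nat_lit 420) (nat_lit 283) (nat_lit 161)) (XT.lf (nat_lit 0) (nat_lit 1758237628) (nat_lit 252) (nat_lit 751755131) (nat_lit 252) (nat_lit 751755131) (nat_lit 203) (nat_lit 4) (nat_lit 206) (nat_lit 5) (nat_lit 206) (nat_lit 4) (nat_lit 296) (nat_lit 284) (nat_lit 284)))) (XT.nd (nat_lit 94) (nat_lit 0) (nat_lit 0) (XT.lf (nat_lit 0) (nat_lit 92836244) (nat_lit 336) (nat_lit 1031245334) (nat_lit 420) (nat_lit 5422100298) (nat_lit 198) (nat_lit 5) (nat_lit 202) (nat_lit 5) (nat_lit 203) (nat_lit 4) (nat_lit 297) (nat_lit 284) (nat_lit 283)) (XT.nd (nat_lit 94) (nat_lit 0) (nat_lit 0) (XT.lf (nat_lit 0) (nat_lit 3272657810) (nat_lit 336) (nat_lit 463014660) (nat_lit 420) (nat_lit 2836077175) (nat_lit 198) (nat_lit 5) (nat_lit 202) (nat_lit 5) (nat_lit 203) (nat_lit 4) (nat_lit 298)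 (nat_lit 284) (nat_lit 282)) (XT.lf (nat_lit 0) (nat_lit 6335235328) (nat_lit 420) (nat_lit 114363707) (nat_lit 0) (nat_lit 151977618) (nat_lit 198) (nat_lit 5) (nat_lit 203) (nat_lit 4) (nat_lit 198) (nat_lit 4) (nat_lit 299) (nat_lit 284) (nat_lit 281))))))) (XT.nd (nat_lit 1128) (nat_lit 4452) (nat_lit 0) (XT.nd (nat_lit 564) (nat_lit 3360) (nat_lit 0) (XT.nd (nat_lit 282) (nat_lit 672) (nat_lit 0) (XT.nd (nat_lit 94) (nat_lit 588) (nat_lit 0) (XT.lf (nat_lit 0) (nat_lit 2278672473) (nat_lit 504) (nat_lit 3493675907) (nat_lit 84) (nat_lit 861543995) (nat_lit 192) (nat_lit 5) (nat_lit 198) (nat_lit 5) (nat_lit 193) (nat_lit 4) (nat_lit 300) (nat_lit 284) (nat_lit 280)) (XT.nd (nat_lit 94) (nat_lit 588) (nat_lit 0) (XT.lf (nat_lit 0) (nat_lit 4807548518) (nat_lit 504) (nat_lit 237646985) (nat_lit 84) (nat_lit 1625237373) (nat_lit 192) (nat_lit 5) (nat_lit 198) (nat_lit 5) (nat_lit 193)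 (nat_lit 4) (nat_lit 301) (nat_lit 284) (nat_lit 279)) (XT.lf (nat_lit 0) (nat_lit 634339405) (nat_lit 588) (nat_lit 3598539378) (nat_lit 84) (nat_lit 2477313567) (nat_lit 185) (nat_lit 5) (nat_lit 192) (nat_lit 5) (nat_lit 186) (nat_lit 5) (nat_lit 302) (nat_lit 284) (nat_lit 278)))) (XT.nd (nat_lit 94) (nat_lit 672) (nat_lit 0) (XT.lf (nat_lit 0) (nat_lit 3085455040) (nat_lit 588) (nat_lit 265872834) (nat_lit 84) (nat_lit 3402381722) (nat_lit 185) (nat_lit 5) (nat_lit 192) (nat_lit 5) (nat_lit 186) (nat_lit 5) (nat_lit 303) (nat_lit 284) (nat_lit 277)) (XT.nd (nat_lit 94) (nat_lit 84) (nat_lit 0) (XT.lf (nat_lit 0) (nat_lit 3170447165) (nat_lit 588) (nat_lit 2388853701) (nat_lit 672) (nat_lit 1241397551) (nat_lit 178) (nat_lit 5) (nat_lit 185) (nat_lit 5) (nat_lit 186) (nat_lit 5) (nat_lit 304) (nat_lit 284) (nat_lit 276)) (XT.lf (nat_lit 0) (nat_lit 1154017899) (nat_lit 672) (nat_lit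 207728941) (nat_lit 84) (nat_lit 5489972571) (nat_lit 177) (nat_lit 5) (nat_lit 185) (nat_lit 5) (nat_lit 178) (nat_lit 5) (nat_lit 305) (nat_lit 284) (nat_lit 275))))) (XT.nd (nat_lit 282) (nat_lit 1848) (nat_lit 0) (XT.nd (nat_lit 94) (nat_lit 840) (nat_lit 0) (XT.lf (nat_lit 0) (nat_lit 3311811068) (nat_lit 672) (nat_lit 237397485) (nat_lit 756) (nat_lit 3356659856) (nat_lit 169) (nat_lit 5) (nat_lit 177) (nat_lit 5) (nat_lit 178) (nat_lit 5) (nat_lit 306) (nat_lit 284) (nat_lit 274)) (XT.nd (nat_lit 94) (nat_lit 840) (nat_lit 0) (XT.lf (nat_lit 0) (nat_lit 5950438887) (nat_lit 756) (nat_lit 91465220) (nat_lit 84) (nat_lit 922323905) (nat_lit 169) (nat_lit 5) (nat_lit 178) (nat_lit 5) (nat_lit 170) (nat_lit 5) (nat_lit 307) (nat_lit 284) (nat_lit 273)) (XT.lf (nat_lit 0) (nat_lit 1332905369) (nat_lit 840) (nat_lit 3514793899) (nat_lit 84) (nat_lit 2177916624) (nat_lit 159) (nat_lit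 5) (nat_lit 169) (nat_lit 5) (nat_lit 160) (nat_lit 5) (nat_lit 308) (nat_lit 284) (nat_lit 272)))) (XT.nd (nat_lit 94) (nat_lit 1008) (nat_lit 0) (XT.lf (nat_lit 0) (nat_lit 63877697) (nat_lit 840) (nat_lit 3592393900) (nat_lit 924) (nat_lit 3435020199) (nat_lit 149) (nat_lit 5) (nat_lit 159) (nat_lit 5) (nat_lit 160) (nat_lit 5) (nat_lit 309) (nat_lit 284) (nat_lit 271)) (XT.nd (nat_lit 94) (nat_lit 1008) (nat_lit 0) (XT.lf (nat_lit 0) (nat_lit 3763783899) (nat_lit 840) (nat_lit 2249616988) (nat_lit 924) (nat_lit 1147158317) (nat_lit 149) (nat_lit 5) (nat_lit 159) (nat_lit 5) (nat_lit 160) (nat_lit 5) (nat_lit 310) (nat_lit 284) (nat_lit 270)) (XT.lf (nat_lit 0) (nat_lit 275800575) (nat_lit 924) (nat_lit 840361487) (nat_lit 1008) (nat_lit 6117989462) (nat_lit 137) (nat_lit 5) (nat_lit 148) (nat_lit 5) (nat_lit 149) (nat_lit 5) (nat_lit 311) (nat_lit 284) (nat_lit 269)))))) (XT.nd (nat_lit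 564) (nat_lit 1764) (nat_lit 0) (XT.nd (nat_lit 282) (nat_lit 1596) (nat_lit 0) (XT.nd (nat_lit 94) (nat_lit 1092) (nat_lit 0) (XT.lf (nat_lit 0) (nat_lit 3395596535) (nat_lit 1008) (nat_lit 3259024346) (nat_lit 84) (nat_lit 656314537) (nat_lit 137) (nat_lit 5) (nat_lit 149) (nat_lit 5) (nat_lit 138) (nat_lit 5) (nat_lit 312) (nat_lit 284) (nat_lit 268)) (XT.nd (nat_lit 94) (nat_lit 84) (nat_lit 0) (XT.lf (nat_lit 0) (nat_lit 492128942) (nat_lit 1008) (nat_lit 5197095234) (nat_lit 1092) (nat_lit 1702952963) (nat_lit 125) (nat_lit 5) (nat_lit 137) (nat_lit 5) (nat_lit 138) (nat_lit 5) (nat_lit 313) (nat_lit 284) (nat_lit 267)) (XT.lf (nat_lit 0) (nat_lit 531252314) (nat_lit 1092) (nat_lit 3117566624) (nat_lit 84) (nat_lit 3828336957) (nat_lit 124) (nat_lit 5) (nat_lit 137) (nat_lit 5) (nat_lit 125) (nat_lit 5) (nat_lit 314) (nat_lit 284) (nat_lit 266)))) (XT.nd (nat_lit 94) (nat_lit 504)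 (nat_lit 0) (XT.lf (nat_lit 0) (nat_lit 715880812) (nat_lit 1092) (nat_lit 2023169376) (nat_lit 1176) (nat_lit 4827346330) (nat_lit 111) (nat_lit 5) (nat_lit 124) (nat_lit 5) (nat_lit 125) (nat_lit 5) (nat_lit 315) (nat_lit 284) (nat_lit 265)) (XT.nd (nat_lit 94) (nat_lit 504) (nat_lit 0) (XT.lf (nat_lit 0) (nat_lit 4671599457) (nat_lit 1092) (nat_lit 310241155) (nat_lit 1176) (nat_lit 2677889305) (nat_lit 111) (nat_lit 5) (nat_lit 124) (nat_lit 5) (nat_lit 125) (nat_lit 5) (nat_lit 316) (nat_lit 284) (nat_lit 264)) (XT.lf (nat_lit 0) (nat_lit 935322350) (nat_lit 504) (nat_lit 6318581373) (nat_lit 588) (nat_lit 503581485) (nat_lit 105) (nat_lit 5) (nat_lit 111) (nat_lit 5) (nat_lit 112) (nat_lit 5) (nat_lit 317) (nat_lit 284) (nat_lit 263))))) (XT.nd (nat_lit 282) (nat_lit 1092) (nat_lit 0) (XT.nd (nat_lit 94) (nat_lit 588) (nat_lit 0) (XT.lf (nat_lit 0) (nat_lit 1674215010) (nat_lit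 588) (nat_lit 2898291799) (nat_lit 84) (nat_lit 3286389410) (nat_lit 104) (nat_lit 5) (nat_lit 111) (nat_lit 5) (nat_lit 105) (nat_lit 5) (nat_lit 318) (nat_lit 284) (nat_lit 262)) (XT.nd (nat_lit 94) (nat_lit 0) (nat_lit 0) (XT.lf (nat_lit 0) (nat_lit 1102197783) (nat_lit 588) (nat_lit 2756133006) (nat_lit 672) (nat_lit 4106789331) (nat_lit 97) (nat_lit 5) (nat_lit 104) (nat_lit 5) (nat_lit 105) (nat_lit 5) (nat_lit 319) (nat_lit 284) (nat_lit 261)) (XT.lf (nat_lit 0) (nat_lit 5226695435) (nat_lit 588) (nat_lit 853289744) (nat_lit 672) (nat_lit 1995835442) (nat_lit 97) (nat_lit 5) (nat_lit 104) (nat_lit 5) (nat_lit 105) (nat_lit 5) (nat_lit 320) (nat_lit 284) (nat_lit 260)))) (XT.nd (nat_lit 94) (nat_lit 504) (nat_lit 0) (XT.lf (nat_lit 0) (nat_lit 141021032) (nat_lit 588) (nat_lit 6951249805) (nat_lit 84) (nat_lit 1098973058) (nat_lit 90) (nat_lit 5) (nat_lit 97) (nat_lit 5) (nat_lit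 91) (nat_lit 5) (nat_lit 321) (nat_lit 284) (nat_lit 259)) (XT.nd (nat_lit 94) (nat_lit 504) (nat_lit 0) (XT.lf (nat_lit 0) (nat_lit 2283158215) (nat_lit 588) (nat_lit 2884941652) (nat_lit 84) (nat_lit 3142343924) (nat_lit 90) (nat_lit 5) (nat_lit 97) (nat_lit 5) (nat_lit 91) (nat_lit 5) (nat_lit 322) (nat_lit 284) (nat_lit 258)) (XT.lf (nat_lit 0) (nat_lit 1272487301) (nat_lit 504) (nat_lit 3175315781) (nat_lit 588) (nat_lit 3987116523) (nat_lit 84) (nat_lit 5) (nat_lit 90) (nat_lit 5) (nat_lit 91) (nat_lit 5) (nat_lit 323) (nat_lit 284) (nat_lit 257))))))))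
noncomputable def xc74 : XT := (XT.nd (nat_lit 2256) (nat_lit 1848) (nat_lit 0) (XT.nd (nat_lit 1128) (nat_lit 1680) (nat_lit 0) (XT.nd (nat_lit 564) (nat_lit 924) (nat_lit 0) (XT.nd (nat_lit 282) (nat_lit 840) (nat_lit 0) (XT.nd (nat_lit 94) (nat_lit 504) (nat_lit 0) (XT.lf (nat_lit 0) (nat_lit 5559996505) (nat_lit 504) (nat_lit 1094251195) (nat_lit 588) (nat_lit 1910004154) (nat_lit 84) (nat_lit 5) (nat_lit 90) (nat_lit 5) (nat_lit 91) (nat_lit 5) (nat_lit 324) (nat_lit 284) (nat_lit 256)) (XT.nd (nat_lit 94) (nat_lit 0) (nat_lit 0) (XT.lf (nat_lit 0) (nat_lit 195223163) (nat_lit 504) (nat_lit 7463400941) (nat_lit 84) (nat_lit 1040078685) (nat_lit 78) (nat_lit 5) (nat_lit 84) (nat_lit 5) (nat_lit 79) (nat_lit 5) (nat_lit 325) (nat_lit 284) (nat_lit 255)) (XT.lf (nat_lit 0) (nat_lit 2315405501) (nat_lit 504) (nat_lit 3258096090) (nat_lit 84) (nat_lit 3263738704) (nat_lit 78) (nat_lit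 5) (nat_lit 84) (nat_lit 5) (nat_lit 79) (nat_lit 5) (nat_lit 326) (nat_lit 284) (nat_lit 254)))) (XT.nd (nat_lit 94) (nat_lit 420) (nat_lit 0) (XT.lf (nat_lit 0) (nat_lit 1039671322) (nat_lit 420) (nat_lit 3420062191) (nat_lit 504) (nat_lit 4521816672) (nat_lit 73) (nat_lit 5) (nat_lit 78) (nat_lit 5) (nat_lit 79) (nat_lit 5) (nat_lit 327) (nat_lit 284) (nat_lit 253)) (XT.nd (nat_lit 94) (nat_lit 420) (nat_lit 0) (XT.lf (nat_lit 0) (nat_lit 5481486297) (nat_lit 420) (nat_lit 1172146047) (nat_lit 504) (nat_lit 2477408406) (nat_lit 73) (nat_lit 5) (nat_lit 78) (nat_lit 5) (nat_lit 79) (nat_lit 5) (nat_lit 328) (nat_lit 284) (nat_lit 252)) (XT.lf (nat_lit 0) (nat_lit 720853223) (nat_lit 420) (nat_lit 8163751785) (nat_lit 504) (nat_lit 401697122) (nat_lit 68) (nat_lit 5) (nat_lit 73) (nat_lit 5) (nat_lit 74) (nat_lit 5) (nat_lit 329) (nat_lit 284) (nat_lit 251))))) (XT.nd (nat_lit 282)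 (nat_lit 420) (nat_lit 0) (XT.nd (nat_lit 94) (nat_lit 420) (nat_lit 0) (XT.lf (nat_lit 0) (nat_lit 1704608662) (nat_lit 504) (nat_lit 4229435601) (nat_lit 84) (nat_lit 3511925388) (nat_lit 67) (nat_lit 5) (nat_lit 73) (nat_lit 5) (nat_lit 68) (nat_lit 5) (nat_lit 330) (nat_lit 284) (nat_lit 250)) (XT.nd (nat_lit 94) (nat_lit 0) (nat_lit 0) (XT.lf (nat_lit 0) (nat_lit 183621732) (nat_lit 420) (nat_lit 3638344682) (nat_lit 504) (nat_lit 5790077991) (nat_lit 62) (nat_lit 5) (nat_lit 67) (nat_lit 5) (nat_lit 68) (nat_lit 5) (nat_lit 331) (nat_lit 284) (nat_lit 249)) (XT.lf (nat_lit 0) (nat_lit 4766758823) (nat_lit 420) (nat_lit 1235504699) (nat_lit 504) (nat_lit 3781244762) (nat_lit 62) (nat_lit 5) (nat_lit 67) (nat_lit 5) (nat_lit 68) (nat_lit 5) (nat_lit 332) (nat_lit 284) (nat_lit 248)))) (XT.nd (nat_lit 94) (nat_lit 420) (nat_lit 0) (XT.lf (nat_lit 0) (nat_lit 8216940252) (nat_lit 504)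 (nat_lit 536793980) (nat_lit 84) (nat_lit 1207735235) (nat_lit 62) (nat_lit 5) (nat_lit 68) (nat_lit 5) (nat_lit 63) (nat_lit 5) (nat_lit 333) (nat_lit 284) (nat_lit 247)) (XT.nd (nat_lit 94) (nat_lit 0) (nat_lit 0) (XT.lf (nat_lit 0) (nat_lit 357238177) (nat_lit 420) (nat_lit 6050942033) (nat_lit 84) (nat_lit 3736520108) (nat_lit 57) (nat_lit 5) (nat_lit 62) (nat_lit 5) (nat_lit 58) (nat_lit 5) (nat_lit 334) (nat_lit 284) (nat_lit 246)) (XT.lf (nat_lit 0) (nat_lit 2449631881) (nat_lit 420) (nat_lit 1527063197) (nat_lit 84) (nat_lit 6357689222) (nat_lit 57) (nat_lit 5) (nat_lit 62) (nat_lit 5) (nat_lit 58) (nat_lit 5) (nat_lit 335) (nat_lit 284) (nat_lit 245)))))) (XT.nd (nat_lit 564) (nat_lit 588) (nat_lit 0) (XT.nd (nat_lit 282) (nat_lit 420) (nat_lit 0) (XT.nd (nat_lit 94) (nat_lit 336) (nat_lit 0) (XT.lf (nat_lit 0) (nat_lit 3147153387) (nat_lit 336) (nat_lit 1448327225) (nat_lit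 420) (nat_lit 5934956459) (nat_lit 53) (nat_lit 5) (nat_lit 57) (nat_lit 5) (nat_lit 58) (nat_lit 5) (nat_lit 336) (nat_lit 284) (nat_lit 244)) (XT.nd (nat_lit 94) (nat_lit 336) (nat_lit 0) (XT.lf (nat_lit 0) (nat_lit 6793465580) (nat_lit 420) (nat_lit 2799176048) (nat_lit 84) (nat_lit 1140502633) (nat_lit 53) (nat_lit 5) (nat_lit 58) (nat_lit 5) (nat_lit 54) (nat_lit 5) (nat_lit 337) (nat_lit 284) (nat_lit 243)) (XT.lf (nat_lit 0) (nat_lit 1898001239) (nat_lit 336) (nat_lit 7154511279) (nat_lit 420) (nat_lit 1889969110) (nat_lit 49) (nat_lit 5) (nat_lit 53) (nat_lit 5) (nat_lit 54) (nat_lit 5) (nat_lit 338) (nat_lit 284) (nat_lit 242)))) (XT.nd (nat_lit 94) (nat_lit 336) (nat_lit 0) (XT.lf (nat_lit 0) (nat_lit 207761647) (nat_lit 420) (nat_lit 4412671400) (nat_lit 84) (nat_lit 6538267794) (nat_lit 48) (nat_lit 5) (nat_lit 53) (nat_lit 5) (nat_lit 49) (nat_lit 5) (nat_lit 339) (nat_lit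 284) (nat_lit 241)) (XT.nd (nat_lit 94) (nat_lit 0) (nat_lit 0) (XT.lf (nat_lit 0) (nat_lit 298103073) (nat_lit 336) (nat_lit 1996798312) (nat_lit 420) (nat_lit 9087365249) (nat_lit 44) (nat_lit 5) (nat_lit 48) (nat_lit 5) (nat_lit 49) (nat_lit 5) (nat_lit 340) (nat_lit 284) (nat_lit 240)) (XT.lf (nat_lit 0) (nat_lit 4461537221) (nat_lit 420) (nat_lit 6422340667) (nat_lit 84) (nat_lit 728538763) (nat_lit 44) (nat_lit 5) (nat_lit 49) (nat_lit 5) (nat_lit 45) (nat_lit 5) (nat_lit 341) (nat_lit 284) (nat_lit 239))))) (XT.nd (nat_lit 282) (nat_lit 336) (nat_lit 0) (XT.nd (nat_lit 94) (nat_lit 252) (nat_lit 0) (XT.lf (nat_lit 0) (nat_lit 6678166094) (nat_lit 420) (nat_lit 1686828473) (nat_lit 84) (nat_lit 3485348051) (nat_lit 44) (nat_lit 5) (nat_lit 49) (nat_lit 5) (nat_lit 45) (nat_lit 5) (nat_lit 342) (nat_lit 284) (nat_lit 238)) (XT.nd (nat_lit 94) (nat_lit 0) (nat_lit 0) (XT.lf (nat_lit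 0) (nat_lit 3211295958) (nat_lit 252) (nat_lit 5747606141) (nat_lit 336) (nat_lit 3136990718) (nat_lit 41) (nat_lit 5) (nat_lit 44) (nat_lit 5) (nat_lit 45) (nat_lit 5) (nat_lit 343) (nat_lit 284) (nat_lit 237)) (XT.lf (nat_lit 0) (nat_lit 8248627986) (nat_lit 252) (nat_lit 3043471495) (nat_lit 336) (nat_lit 1057623569) (nat_lit 41) (nat_lit 5) (nat_lit 44) (nat_lit 5) (nat_lit 45) (nat_lit 5) (nat_lit 344) (nat_lit 284) (nat_lit 236)))) (XT.nd (nat_lit 94) (nat_lit 0) (nat_lit 0) (XT.lf (nat_lit 0) (nat_lit 788037485) (nat_lit 252) (nat_lit 248875704) (nat_lit 336) (nat_lit 11575120811) (nat_lit 37) (nat_lit 5) (nat_lit 40) (nat_lit 5) (nat_lit 41) (nat_lit 5) (nat_lit 345) (nat_lit 284) (nat_lit 235)) (XT.nd (nat_lit 94) (nat_lit 0) (nat_lit 0) (XT.lf (nat_lit 0) (nat_lit 3209010444) (nat_lit 336) (nat_lit 7051161385) (nat_lit 84) (nat_lit 2620990379) (nat_lit 37) (nat_lit 5) (nat_lit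 41) (nat_lit 5) (nat_lit 38) (nat_lit 5) (nat_lit 346) (nat_lit 284) (nat_lit 234)) (XT.lf (nat_lit 0) (nat_lit 5417274340) (nat_lit 336) (nat_lit 2179778900) (nat_lit 84) (nat_lit 5562637082) (nat_lit 37) (nat_lit 5) (nat_lit 41) (nat_lit 5) (nat_lit 38) (nat_lit 5) (nat_lit 347) (nat_lit 284) (nat_lit 233))))))) (XT.nd (nat_lit 1128) (nat_lit 756) (nat_lit 0) (XT.nd (nat_lit 564) (nat_lit 336) (nat_lit 0) (XT.nd (nat_lit 282) (nat_lit 504) (nat_lit 0) (XT.nd (nat_lit 94) (nat_lit 0) (nat_lit 0) (XT.lf (nat_lit 0) (nat_lit 2854675811) (nat_lit 252) (nat_lit 4834937259) (nat_lit 336) (nat_lit 5757463542) (nat_lit 34) (nat_lit 5) (nat_lit 37) (nat_lit 5) (nat_lit 38) (nat_lit 5) (nat_lit 348) (nat_lit 284) (nat_lit 232)) (XT.nd (nat_lit 94) (nat_lit 0) (nat_lit 0) (XT.lf (nat_lit 0) (nat_lit 8046413002) (nat_lit 252) (nat_lit 1976570494) (nat_lit 336) (nat_lit 3720765452) (nat_lit 34)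 (nat_lit 5) (nat_lit 37) (nat_lit 5) (nat_lit 38) (nat_lit 5) (nat_lit 349) (nat_lit 284) (nat_lit 231)) (XT.lf (nat_lit 0) (nat_lit 12406995333) (nat_lit 336) (nat_lit 704719860) (nat_lit 84) (nat_lit 938658190) (nat_lit 34) (nat_lit 5) (nat_lit 38) (nat_lit 5) (nat_lit 35) (nat_lit 5) (nat_lit 350) (nat_lit 284) (nat_lit 230)))) (XT.nd (nat_lit 94) (nat_lit 168) (nat_lit 0) (XT.lf (nat_lit 0) (nat_lit 522810848) (nat_lit 336) (nat_lit 9901548750) (nat_lit 84) (nat_lit 3941000400) (nat_lit 30) (nat_lit 5) (nat_lit 34) (nat_lit 5) (nat_lit 31) (nat_lit 5) (nat_lit 351) (nat_lit 284) (nat_lit 229)) (XT.nd (nat_lit 94) (nat_lit 168) (nat_lit 0) (XT.lf (nat_lit 0) (nat_lit 2699174846) (nat_lit 336) (nat_lit 4942749216) (nat_lit 84) (nat_lit 7048449659) (nat_lit 30) (nat_lit 5) (nat_lit 34) (nat_lit 5) (nat_lit 31) (nat_lit 5) (nat_lit 352) (nat_lit 284) (nat_lit 228)) (XT.lf (nat_lit 0)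 (nat_lit 130214841) (nat_lit 168) (nat_lit 4784722224) (nat_lit 252) (nat_lit 10111469199) (nat_lit 28) (nat_lit 5) (nat_lit 30) (nat_lit 5) (nat_lit 31) (nat_lit 5) (nat_lit 353) (nat_lit 284) (nat_lit 227))))) (XT.nd (nat_lit 282) (nat_lit 84) (nat_lit 0) (XT.nd (nat_lit 94) (nat_lit 252) (nat_lit 0) (XT.lf (nat_lit 0) (nat_lit 5423469723) (nat_lit 168) (nat_lit 1798618152) (nat_lit 252) (nat_lit 8150135296) (nat_lit 28) (nat_lit 5) (nat_lit 30) (nat_lit 5) (nat_lit 31) (nat_lit 5) (nat_lit 354) (nat_lit 284) (nat_lit 226)) (XT.nd (nat_lit 94) (nat_lit 252) (nat_lit 0) (XT.lf (nat_lit 0) (nat_lit 9585311429) (nat_lit 252) (nat_lit 4901956357) (nat_lit 84) (nat_lit 1242040451) (nat_lit 28) (nat_lit 5) (nat_lit 31) (nat_lit 5) (nat_lit 29) (nat_lit 5) (nat_lit 355) (nat_lit 284) (nat_lit 225)) (XT.lf (nat_lit 0) (nat_lit 247817834) (nat_lit 252) (nat_lit 11767530186) (nat_lit 336) (nat_lit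 4082381619) (nat_lit 25) (nat_lit 5) (nat_lit 28) (nat_lit 5) (nat_lit 29) (nat_lit 5) (nat_lit 356) (nat_lit 284) (nat_lit 224)))) (XT.nd (nat_lit 94) (nat_lit 84) (nat_lit 0) (XT.lf (nat_lit 0) (nat_lit 5621488652) (nat_lit 252) (nat_lit 8923519952) (nat_lit 336) (nat_lit 1931875257) (nat_lit 25) (nat_lit 5) (nat_lit 28) (nat_lit 5) (nat_lit 29) (nat_lit 5) (nat_lit 357) (nat_lit 284) (nat_lit 223)) (XT.nd (nat_lit 94) (nat_lit 0) (nat_lit 0) (XT.lf (nat_lit 0) (nat_lit 253155018) (nat_lit 336) (nat_lit 5747955102) (nat_lit 84) (nat_lit 10867473208) (nat_lit 24) (nat_lit 5) (nat_lit 28) (nat_lit 5) (nat_lit 25) (nat_lit 5) (nat_lit 358) (nat_lit 284) (nat_lit 222)) (XT.lf (nat_lit 0) (nat_lit 2440191551) (nat_lit 336) (nat_lit 539844272) (nat_lit 84) (nat_lit 14292629903) (nat_lit 24) (nat_lit 5) (nat_lit 28) (nat_lit 5) (nat_lit 25) (nat_lit 5) (nat_lit 359) (nat_lit 284) (nat_lit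 221)))))) (XT.nd (nat_lit 564) (nat_lit 420) (nat_lit 0) (XT.nd (nat_lit 282) (nat_lit 168) (nat_lit 0) (XT.nd (nat_lit 94) (nat_lit 0) (nat_lit 0) (XT.lf (nat_lit 0) (nat_lit 4720434336) (nat_lit 252) (nat_lit 12798802397) (nat_lit 84) (nat_lit 169307676) (nat_lit 22) (nat_lit 5) (nat_lit 25) (nat_lit 5) (nat_lit 23) (nat_lit 5) (nat_lit 360) (nat_lit 284) (nat_lit 220)) (XT.nd (nat_lit 94) (nat_lit 0) (nat_lit 0) (XT.lf (nat_lit 0) (nat_lit 7082972668) (nat_lit 252) (nat_lit 7685671688) (nat_lit 84) (nat_lit 3348366783) (nat_lit 22) (nat_lit 5) (nat_lit 25) (nat_lit 5) (nat_lit 23) (nat_lit 5) (nat_lit 361) (nat_lit 284) (nat_lit 219)) (XT.lf (nat_lit 0) (nat_lit 9494925020) (nat_lit 252) (nat_lit 2450003409) (nat_lit 84) (nat_lit 6614624457) (nat_lit 22) (nat_lit 5) (nat_lit 25) (nat_lit 5) (nat_lit 23) (nat_lit 5) (nat_lit 362) (nat_lit 284) (nat_lit 218)))) (XT.nd (nat_lit 94) (nat_lit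 0) (nat_lit 0) (XT.lf (nat_lit 0) (nat_lit 2972981584) (nat_lit 168) (nat_lit 9015050345) (nat_lit 252) (nat_lit 7027635953) (nat_lit 20) (nat_lit 5) (nat_lit 22) (nat_lit 5) (nat_lit 23) (nat_lit 5) (nat_lit 363) (nat_lit 284) (nat_lit 217)) (XT.nd (nat_lit 94) (nat_lit 0) (nat_lit 0) (XT.lf (nat_lit 0) (nat_lit 8581483151) (nat_lit 168) (nat_lit 5979758930) (nat_lit 252) (nat_lit 4924643822) (nat_lit 20) (nat_lit 5) (nat_lit 22) (nat_lit 5) (nat_lit 23) (nat_lit 5) (nat_lit 364) (nat_lit 284) (nat_lit 216)) (XT.lf (nat_lit 0) (nat_lit 14330351908) (nat_lit 168) (nat_lit 2861797985) (nat_lit 252) (nat_lit 2779264276) (nat_lit 20) (nat_lit 5) (nat_lit 22) (nat_lit 5) (nat_lit 23) (nat_lit 5) (nat_lit 365) (nat_lit 284) (nat_lit 215))))) (XT.nd (nat_lit 282) (nat_lit 168) (nat_lit 0) (XT.nd (nat_lit 94) (nat_lit 252) (nat_lit 0) (XT.lf (nat_lit 0) (nat_lit 19886597740) (nat_lit 252) (nat_lit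 251148933) (nat_lit 84) (nat_lit 334853479) (nat_lit 20) (nat_lit 5) (nat_lit 23) (nat_lit 5) (nat_lit 21) (nat_lit 4) (nat_lit 366) (nat_lit 284) (nat_lit 214)) (XT.nd (nat_lit 94) (nat_lit 0) (nat_lit 0) (XT.lf (nat_lit 0) (nat_lit 1703575591) (nat_lit 252) (nat_lit 15652386186) (nat_lit 84) (nat_lit 3630966485) (nat_lit 17) (nat_lit 5) (nat_lit 20) (nat_lit 5) (nat_lit 18) (nat_lit 5) (nat_lit 367) (nat_lit 284) (nat_lit 213)) (XT.lf (nat_lit 0) (nat_lit 4033793108) (nat_lit 252) (nat_lit 10456668129) (nat_lit 84) (nat_lit 7027160214) (nat_lit 17) (nat_lit 5) (nat_lit 20) (nat_lit 5) (nat_lit 18) (nat_lit 5) (nat_lit 368) (nat_lit 284) (nat_lit 212)))) (XT.nd (nat_lit 94) (nat_lit 168) (nat_lit 0) (XT.lf (nat_lit 0) (nat_lit 6416060122) (nat_lit 252) (nat_lit 5131155701) (nat_lit 84) (nat_lit 10518218395) (nat_lit 17) (nat_lit 5) (nat_lit 20) (nat_lit 5) (nat_lit 18) (nat_lit 5) (nat_lit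 369) (nat_lit 284) (nat_lit 211)) (XT.nd (nat_lit 94) (nat_lit 0) (nat_lit 0) (XT.lf (nat_lit 0) (nat_lit 335882313) (nat_lit 168) (nat_lit 8520046839) (nat_lit 252) (nat_lit 13774844741) (nat_lit 15) (nat_lit 5) (nat_lit 17) (nat_lit 5) (nat_lit 18) (nat_lit 5) (nat_lit 370) (nat_lit 284) (nat_lit 210)) (XT.lf (nat_lit 0) (nat_lit 6051150823) (nat_lit 168) (nat_lit 5354552664) (nat_lit 252) (nat_lit 11806913040) (nat_lit 15) (nat_lit 5) (nat_lit 17) (nat_lit 5) (nat_lit 18) (nat_lit 5) (nat_lit 371) (nat_lit 284) (nat_lit 209))))))))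
noncomputable def xc75 : XT := (XT.nd (nat_lit 2256) (nat_lit 336) (nat_lit 0) (XT.nd (nat_lit 1128) (nat_lit 336) (nat_lit 0) (XT.nd (nat_lit 564) (nat_lit 168) (nat_lit 0) (XT.nd (nat_lit 282) (nat_lit 168) (nat_lit 0) (XT.nd (nat_lit 94) (nat_lit 0) (nat_lit 0) (XT.lf (nat_lit 0) (nat_lit 11914469972) (nat_lit 168) (nat_lit 2101341469) (nat_lit 252) (nat_lit 9797303417) (nat_lit 15) (nat_lit 5) (nat_lit 17) (nat_lit 5) (nat_lit 18) (nat_lit 5) (nat_lit 372) (nat_lit 284) (nat_lit 208)) (XT.nd (nat_lit 94) (nat_lit 0) (nat_lit 0) (XT.lf (nat_lit 0) (nat_lit 16701012843) (nat_lit 252) (nat_lit 6513850561) (nat_lit 84) (nat_lit 1217583073) (nat_lit 15) (nat_lit 5) (nat_lit 18) (nat_lit 5) (nat_lit 16) (nat_lit 4) (nat_lit 373) (nat_lit 284) (nat_lit 207)) (XT.lf (nat_lit 0) (nat_lit 19473248890) (nat_lit 252) (nat_lit 1011501845) (nat_lit 84) (nat_lit 4586145346) (nat_lit 15) (nat_lit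 5) (nat_lit 18) (nat_lit 5) (nat_lit 16) (nat_lit 4) (nat_lit 374) (nat_lit 284) (nat_lit 206)))) (XT.nd (nat_lit 94) (nat_lit 84) (nat_lit 0) (XT.lf (nat_lit 0) (nat_lit 4729667862) (nat_lit 84) (nat_lit 17631509057) (nat_lit 168) (nat_lit 3367073580) (nat_lit 14) (nat_lit 5) (nat_lit 15) (nat_lit 5) (nat_lit 16) (nat_lit 4) (nat_lit 375) (nat_lit 284) (nat_lit 205)) (XT.nd (nat_lit 94) (nat_lit 84) (nat_lit 0) (XT.lf (nat_lit 0) (nat_lit 10643486850) (nat_lit 84) (nat_lit 14688786234) (nat_lit 168) (nat_lit 1073941055) (nat_lit 14) (nat_lit 5) (nat_lit 15) (nat_lit 5) (nat_lit 16) (nat_lit 4) (nat_lit 376) (nat_lit 284) (nat_lit 204)) (XT.lf (nat_lit 0) (nat_lit 1247675059) (nat_lit 168) (nat_lit 10403699116) (nat_lit 84) (nat_lit 15453970637) (nat_lit 13) (nat_lit 5) (nat_lit 15) (nat_lit 5) (nat_lit 14) (nat_lit 5) (nat_lit 377) (nat_lit 284) (nat_lit 203))))) (XT.nd (nat_lit 282)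 (nat_lit 0) (nat_lit 0) (XT.nd (nat_lit 94) (nat_lit 168) (nat_lit 0) (XT.lf (nat_lit 0) (nat_lit 3602845057) (nat_lit 168) (nat_lit 4915071972) (nat_lit 84) (nat_lit 19308421513) (nat_lit 13) (nat_lit 5) (nat_lit 15) (nat_lit 5) (nat_lit 14) (nat_lit 5) (nat_lit 378) (nat_lit 284) (nat_lit 202)) (XT.nd (nat_lit 94) (nat_lit 0) (nat_lit 0) (XT.lf (nat_lit 0) (nat_lit 733706294) (nat_lit 168) (nat_lit 5288973884) (nat_lit 252) (nat_lit 22547291822) (nat_lit 11) (nat_lit 5) (nat_lit 13) (nat_lit 5) (nat_lit 14) (nat_lit 5) (nat_lit 379) (nat_lit 284) (nat_lit 201)) (XT.lf (nat_lit 0) (nat_lit 6637265627) (nat_lit 168) (nat_lit 1916170677) (nat_lit 252) (nat_lit 20782138017) (nat_lit 11) (nat_lit 5) (nat_lit 13) (nat_lit 5) (nat_lit 14) (nat_lit 5) (nat_lit 380) (nat_lit 284) (nat_lit 200)))) (XT.nd (nat_lit 94) (nat_lit 0) (nat_lit 0) (XT.lf (nat_lit 0) (nat_lit 11163111013) (nat_lit 252)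 (nat_lit 17440756241) (nat_lit 84) (nat_lit 1521057074) (nat_lit 11) (nat_lit 5) (nat_lit 14) (nat_lit 5) (nat_lit 12) (nat_lit 4) (nat_lit 381) (nat_lit 284) (nat_lit 199)) (XT.nd (nat_lit 94) (nat_lit 0) (nat_lit 0) (XT.lf (nat_lit 0) (nat_lit 13858713186) (nat_lit 252) (nat_lit 12063284151) (nat_lit 84) (nat_lit 5016618571) (nat_lit 11) (nat_lit 5) (nat_lit 14) (nat_lit 5) (nat_lit 12) (nat_lit 4) (nat_lit 382) (nat_lit 284) (nat_lit 198)) (XT.lf (nat_lit 0) (nat_lit 16623746758) (nat_lit 252) (nat_lit 6541871407) (nat_lit 84) (nat_lit 8612378612) (nat_lit 11) (nat_lit 5) (nat_lit 14) (nat_lit 5) (nat_lit 12) (nat_lit 4) (nat_lit 383) (nat_lit 284) (nat_lit 197)))))) (XT.nd (nat_lit 564) (nat_lit 252) (nat_lit 0) (XT.nd (nat_lit 282) (nat_lit 0) (nat_lit 0) (XT.nd (nat_lit 94) (nat_lit 84) (nat_lit 0) (XT.lf (nat_lit 0) (nat_lit 19460789030) (nat_lit 252) (nat_lit 871371474) (nat_lit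 84) (nat_lit 12311688822) (nat_lit 11) (nat_lit 5) (nat_lit 14) (nat_lit 5) (nat_lit 12) (nat_lit 4) (nat_lit 384) (nat_lit 284) (nat_lit 196)) (XT.nd (nat_lit 94) (nat_lit 0) (nat_lit 0) (XT.lf (nat_lit 0) (nat_lit 5055355290) (nat_lit 84) (nat_lit 17367278881) (nat_lit 168) (nat_lit 11112791806) (nat_lit 10) (nat_lit 5) (nat_lit 11) (nat_lit 5) (nat_lit 12) (nat_lit 4) (nat_lit 385) (nat_lit 284) (nat_lit 195)) (XT.lf (nat_lit 0) (nat_lit 11163087179) (nat_lit 84) (nat_lit 14309198965) (nat_lit 168) (nat_lit 8982504089) (nat_lit 10) (nat_lit 5) (nat_lit 11) (nat_lit 5) (nat_lit 12) (nat_lit 4) (nat_lit 386) (nat_lit 284) (nat_lit 194)))) (XT.nd (nat_lit 94) (nat_lit 0) (nat_lit 0) (XT.lf (nat_lit 0) (nat_lit 17439600054) (nat_lit 84) (nat_lit 11164165637) (nat_lit 168) (nat_lit 6799306827) (nat_lit 10) (nat_lit 5) (nat_lit 11) (nat_lit 5) (nat_lit 12) (nat_lit 4) (nat_lit 387) (nat_lit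 284) (nat_lit 193)) (XT.nd (nat_lit 94) (nat_lit 0) (nat_lit 0) (XT.lf (nat_lit 0) (nat_lit 23890744280) (nat_lit 84) (nat_lit 7929247397) (nat_lit 168) (nat_lit 4561165050) (nat_lit 10) (nat_lit 5) (nat_lit 11) (nat_lit 5) (nat_lit 12) (nat_lit 4) (nat_lit 388) (nat_lit 284) (nat_lit 192)) (XT.lf (nat_lit 0) (nat_lit 30522533002) (nat_lit 84) (nat_lit 4601428961) (nat_lit 168) (nat_lit 2265992576) (nat_lit 10) (nat_lit 5) (nat_lit 11) (nat_lit 5) (nat_lit 12) (nat_lit 4) (nat_lit 389) (nat_lit 284) (nat_lit 191))))) (XT.nd (nat_lit 282) (nat_lit 0) (nat_lit 0) (XT.nd (nat_lit 94) (nat_lit 168) (nat_lit 0) (XT.lf (nat_lit 0) (nat_lit 86569881) (nat_lit 168) (nat_lit 1090134960) (nat_lit 84) (nat_lit 37253674246) (nat_lit 9) (nat_lit 5) (nat_lit 11) (nat_lit 5) (nat_lit 10) (nat_lit 5) (nat_lit 390) (nat_lit 284) (nat_lit 190)) (XT.nd (nat_lit 94) (nat_lit 0) (nat_lit 0) (XT.lf (nat_lit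 0) (nat_lit 2526471119) (nat_lit 252) (nat_lit 34601391756) (nat_lit 84) (nat_lit 2372589938) (nat_lit 7) (nat_lit 5) (nat_lit 10) (nat_lit 5) (nat_lit 8) (nat_lit 4) (nat_lit 391) (nat_lit 284) (nat_lit 189)) (XT.lf (nat_lit 0) (nat_lit 5054244761) (nat_lit 252) (nat_lit 29537025832) (nat_lit 84) (nat_lit 6012068640) (nat_lit 7) (nat_lit 5) (nat_lit 10) (nat_lit 5) (nat_lit 8) (nat_lit 4) (nat_lit 392) (nat_lit 284) (nat_lit 188)))) (XT.nd (nat_lit 94) (nat_lit 0) (nat_lit 0) (XT.lf (nat_lit 0) (nat_lit 7649424385) (nat_lit 252) (nat_lit 24333667369) (nat_lit 84) (nat_lit 9757682104) (nat_lit 7) (nat_lit 5) (nat_lit 10) (nat_lit 5) (nat_lit 8) (nat_lit 4) (nat_lit 393) (nat_lit 284) (nat_lit 187)) (XT.nd (nat_lit 94) (nat_lit 0) (nat_lit 0) (XT.lf (nat_lit 0) (nat_lit 10314428970) (nat_lit 252) (nat_lit 18986466291) (nat_lit 84) (nat_lit 13612921634) (nat_lit 7) (nat_lit 5) (nat_lit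 10) (nat_lit 5) (nat_lit 8) (nat_lit 4) (nat_lit 394) (nat_lit 284) (nat_lit 186)) (XT.lf (nat_lit 0) (nat_lit 13051742578) (nat_lit 252) (nat_lit 13490438446) (nat_lit 84) (nat_lit 17581380717) (nat_lit 7) (nat_lit 5) (nat_lit 10) (nat_lit 5) (nat_lit 8) (nat_lit 4) (nat_lit 395) (nat_lit 284) (nat_lit 185))))))) (XT.nd (nat_lit 1128) (nat_lit 168) (nat_lit 0) (XT.nd (nat_lit 564) (nat_lit 84) (nat_lit 0) (XT.nd (nat_lit 282) (nat_lit 0) (nat_lit 0) (XT.nd (nat_lit 94) (nat_lit 84) (nat_lit 0) (XT.lf (nat_lit 0) (nat_lit 15863916674) (nat_lit 252) (nat_lit 7840460961) (nat_lit 84) (nat_lit 21666758373) (nat_lit 7) (nat_lit 5) (nat_lit 10) (nat_lit 5) (nat_lit 8) (nat_lit 4) (nat_lit 396) (nat_lit 284) (nat_lit 184)) (XT.nd (nat_lit 94) (nat_lit 84) (nat_lit 0) (XT.lf (nat_lit 0) (nat_lit 18753572497) (nat_lit 252) (nat_lit 2031267465) (nat_lit 84) (nat_lit 25872862601) (nat_lit 7) (nat_lit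 5) (nat_lit 10) (nat_lit 5) (nat_lit 8) (nat_lit 4) (nat_lit 397) (nat_lit 284) (nat_lit 183)) (XT.lf (nat_lit 0) (nat_lit 4023623873) (nat_lit 84) (nat_lit 17739694484) (nat_lit 168) (nat_lit 26219904904) (nat_lit 6) (nat_lit 5) (nat_lit 7) (nat_lit 5) (nat_lit 8) (nat_lit 4) (nat_lit 398) (nat_lit 284) (nat_lit 182)))) (XT.nd (nat_lit 94) (nat_lit 0) (nat_lit 0) (XT.lf (nat_lit 0) (nat_lit 10293980896) (nat_lit 84) (nat_lit 14584314575) (nat_lit 168) (nat_lit 24471185746) (nat_lit 6) (nat_lit 5) (nat_lit 7) (nat_lit 5) (nat_lit 8) (nat_lit 4) (nat_lit 399) (nat_lit 284) (nat_lit 181)) (XT.nd (nat_lit 94) (nat_lit 0) (nat_lit 0) (XT.lf (nat_lit 0) (nat_lit 16743881207) (nat_lit 84) (nat_lit 11336961359) (nat_lit 168) (nat_lit 22677544867) (nat_lit 6) (nat_lit 5) (nat_lit 7) (nat_lit 5) (nat_lit 8) (nat_lit 4) (nat_lit 400) (nat_lit 284) (nat_lit 180)) (XT.lf (nat_lit 0) (nat_lit 23379336790)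 (nat_lit 84) (nat_lit 7994607962) (nat_lit 168) (nat_lit 20837310407) (nat_lit 6) (nat_lit 5) (nat_lit 7) (nat_lit 5) (nat_lit 8) (nat_lit 4) (nat_lit 401) (nat_lit 284) (nat_lit 179))))) (XT.nd (nat_lit 282) (nat_lit 84) (nat_lit 0) (XT.nd (nat_lit 94) (nat_lit 0) (nat_lit 0) (XT.lf (nat_lit 0) (nat_lit 30206532583) (nat_lit 84) (nat_lit 4554138959) (nat_lit 168) (nat_lit 18948767075) (nat_lit 6) (nat_lit 5) (nat_lit 7) (nat_lit 5) (nat_lit 8) (nat_lit 4) (nat_lit 402) (nat_lit 284) (nat_lit 178)) (XT.nd (nat_lit 94) (nat_lit 0) (nat_lit 0) (XT.lf (nat_lit 0) (nat_lit 37231832249) (nat_lit 84) (nat_lit 1012347475) (nat_lit 168) (nat_lit 17010154549) (nat_lit 6) (nat_lit 5) (nat_lit 7) (nat_lit 5) (nat_lit 8) (nat_lit 4) (nat_lit 403) (nat_lit 284) (nat_lit 177)) (XT.lf (nat_lit 0) (nat_lit 41853846570) (nat_lit 168) (nat_lit 12411728307) (nat_lit 0) (nat_lit 2580997216) (nat_lit 6)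 (nat_lit 5) (nat_lit 8) (nat_lit 4) (nat_lit 6) (nat_lit 4) (nat_lit 404) (nat_lit 284) (nat_lit 176)))) (XT.nd (nat_lit 94) (nat_lit 84) (nat_lit 0) (XT.lf (nat_lit 0) (nat_lit 45577996241) (nat_lit 168) (nat_lit 6650314630) (nat_lit 0) (nat_lit 6259791590) (nat_lit 6) (nat_lit 5) (nat_lit 8) (nat_lit 4) (nat_lit 6) (nat_lit 4) (nat_lit 405) (nat_lit 284) (nat_lit 175)) (XT.nd (nat_lit 94) (nat_lit 84) (nat_lit 0) (XT.lf (nat_lit 0) (nat_lit 49410057425) (nat_lit 168) (nat_lit 722848139) (nat_lit 0) (nat_lit 10047861215) (nat_lit 6) (nat_lit 5) (nat_lit 8) (nat_lit 4) (nat_lit 6) (nat_lit 4) (nat_lit 406) (nat_lit 284) (nat_lit 174)) (XT.lf (nat_lit 0) (nat_lit 5486741805) (nat_lit 84) (nat_lit 47921289355) (nat_lit 84) (nat_lit 8516424320) (nat_lit 5) (nat_lit 4) (nat_lit 6) (nat_lit 5) (nat_lit 6) (nat_lit 4) (nat_lit 407) (nat_lit 284) (nat_lit 173)))))) (XT.nd (nat_lit 564) (nat_lit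 84) (nat_lit 0) (XT.nd (nat_lit 282) (nat_lit 84) (nat_lit 0) (XT.nd (nat_lit 94) (nat_lit 0) (nat_lit 0) (XT.lf (nat_lit 0) (nat_lit 11892102658) (nat_lit 84) (nat_lit 45638174243) (nat_lit 84) (nat_lit 6191923345) (nat_lit 5) (nat_lit 4) (nat_lit 6) (nat_lit 5) (nat_lit 6) (nat_lit 4) (nat_lit 408) (nat_lit 284) (nat_lit 172)) (XT.nd (nat_lit 94) (nat_lit 0) (nat_lit 0) (XT.lf (nat_lit 0) (nat_lit 18484341646) (nat_lit 84) (nat_lit 43288977179) (nat_lit 84) (nat_lit 3802584802) (nat_lit 5) (nat_lit 4) (nat_lit 6) (nat_lit 5) (nat_lit 6) (nat_lit 4) (nat_lit 409) (nat_lit 284) (nat_lit 171)) (XT.lf (nat_lit 0) (nat_lit 25269603427) (nat_lit 84) (nat_lit 40871508463) (nat_lit 84) (nat_lit 1346181579) (nat_lit 5) (nat_lit 4) (nat_lit 6) (nat_lit 5) (nat_lit 6) (nat_lit 4) (nat_lit 410) (nat_lit 284) (nat_lit 170)))) (XT.nd (nat_lit 94) (nat_lit 0) (nat_lit 0) (XT.lf (nat_lit 0) (nat_lit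 1155810123) (nat_lit 168) (nat_lit 37215640352) (nat_lit 84) (nat_lit 31086338165) (nat_lit 4) (nat_lit 5) (nat_lit 6) (nat_lit 5) (nat_lit 5) (nat_lit 4) (nat_lit 411) (nat_lit 284) (nat_lit 169)) (XT.nd (nat_lit 94) (nat_lit 0) (nat_lit 0) (XT.lf (nat_lit 0) (nat_lit 3700943076) (nat_lit 168) (nat_lit 32083103675) (nat_lit 84) (nat_lit 35705106147) (nat_lit 4) (nat_lit 5) (nat_lit 6) (nat_lit 5) (nat_lit 5) (nat_lit 4) (nat_lit 412) (nat_lit 284) (nat_lit 168)) (XT.lf (nat_lit 0) (nat_lit 6318712169) (nat_lit 168) (nat_lit 26801941661) (nat_lit 84) (nat_lit 40463039841) (nat_lit 4) (nat_lit 5) (nat_lit 6) (nat_lit 5) (nat_lit 5) (nat_lit 4) (nat_lit 413) (nat_lit 284) (nat_lit 167))))) (XT.nd (nat_lit 282) (nat_lit 84) (nat_lit 0) (XT.nd (nat_lit 94) (nat_lit 0) (nat_lit 0) (XT.lf (nat_lit 0) (nat_lit 9011557435) (nat_lit 168) (nat_lit 21367231715) (nat_lit 84) (nat_lit 45364574139)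 (nat_lit 4) (nat_lit 5) (nat_lit 6) (nat_lit 5) (nat_lit 5) (nat_lit 4) (nat_lit 414) (nat_lit 284) (nat_lit 166)) (XT.nd (nat_lit 94) (nat_lit 0) (nat_lit 0) (XT.lf (nat_lit 0) (nat_lit 11781988890) (nat_lit 168) (nat_lit 15773908118) (nat_lit 84) (nat_lit 50414277784) (nat_lit 4) (nat_lit 5) (nat_lit 6) (nat_lit 5) (nat_lit 5) (nat_lit 4) (nat_lit 415) (nat_lit 284) (nat_lit 165)) (XT.lf (nat_lit 0) (nat_lit 14632588865) (nat_lit 168) (nat_lit 10016757305) (nat_lit 84) (nat_lit 55616857630) (nat_lit 4) (nat_lit 5) (nat_lit 6) (nat_lit 5) (nat_lit 5) (nat_lit 4) (nat_lit 416) (nat_lit 284) (nat_lit 164)))) (XT.nd (nat_lit 94) (nat_lit 84) (nat_lit 0) (XT.lf (nat_lit 0) (nat_lit 17566014419) (nat_lit 168) (nat_lit 4090413010) (nat_lit 84) (nat_lit 60977163025) (nat_lit 4) (nat_lit 5) (nat_lit 6) (nat_lit 5) (nat_lit 5) (nat_lit 4) (nat_lit 417) (nat_lit 284) (nat_lit 163)) (XT.nd (nat_lit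 94) (nat_lit 0) (nat_lit 0) (XT.lf (nat_lit 0) (nat_lit 2051991803) (nat_lit 84) (nat_lit 18553364021) (nat_lit 168) (nat_lit 64468554546) (nat_lit 3) (nat_lit 5) (nat_lit 4) (nat_lit 5) (nat_lit 5) (nat_lit 4) (nat_lit 418) (nat_lit 284) (nat_lit 162)) (XT.lf (nat_lit 0) (nat_lit 8462617664) (nat_lit 84) (nat_lit 15313691602) (nat_lit 168) (nat_lit 63812420154) (nat_lit 3) (nat_lit 5) (nat_lit 4) (nat_lit 5) (nat_lit 5) (nat_lit 4) (nat_lit 419) (nat_lit 284) (nat_lit 161))))))))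
noncomputable def xc76 : XT := (XT.nd (nat_lit 44556) (nat_lit 0) (nat_lit 3780) (XT.nd (nat_lit 43428) (nat_lit 0) (nat_lit 9072) (XT.nd (nat_lit 42864) (nat_lit 0) (nat_lit 14616) (XT.nd (nat_lit 42582) (nat_lit 0) (nat_lit 16380) (XT.nd (nat_lit 42394) (nat_lit 0) (nat_lit 16800) (XT.lf (nat_lit 0) (nat_lit 15063332667) (nat_lit 84) (nat_lit 11977085983) (nat_lit 168) (nat_lit 63141256796) (nat_lit 3) (nat_lit 5) (nat_lit 4) (nat_lit 5) (nat_lit 5) (nat_lit 4) (nat_lit 420) (nat_lit 284) (nat_lit 160)) (XT.nd (nat_lit 94) (nat_lit 252) (nat_lit 0) (XT.lf (nat_lit 0) (nat_lit 980543582) (nat_lit 252) (nat_lit 1282647329) (nat_lit 0) (nat_lit 980543582) (nat_lit 206) (nat_lit 5) (nat_lit 209) (nat_lit 4) (nat_lit 206) (nat_lit 4) (nat_lit 294) (nat_lit 285) (nat_lit 285)) (XT.lf (nat_lit 0) (nat_lit 417937864) (nat_lit 252) (nat_lit 4172413164) (nat_lit 252) (nat_lit 1914344344) (nat_lit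 203) (nat_lit 4) (nat_lit 206) (nat_lit 5) (nat_lit 206) (nat_lit 4) (nat_lit 295) (nat_lit 285) (nat_lit 284)))) (XT.nd (nat_lit 94) (nat_lit 336) (nat_lit 0) (XT.lf (nat_lit 0) (nat_lit 690207194) (nat_lit 336) (nat_lit 3046431449) (nat_lit 84) (nat_lit 2788454365) (nat_lit 202) (nat_lit 5) (nat_lit 206) (nat_lit 5) (nat_lit 203) (nat_lit 4) (nat_lit 296) (nat_lit 285) (nat_lit 283)) (XT.nd (nat_lit 94) (nat_lit 0) (nat_lit 0) (XT.lf (nat_lit 0) (nat_lit 5790870) (nat_lit 336) (nat_lit 3233181394) (nat_lit 420) (nat_lit 3310145512) (nat_lit 198) (nat_lit 5) (nat_lit 202) (nat_lit 5) (nat_lit 203) (nat_lit 4) (nat_lit 297) (nat_lit 285) (nat_lit 282)) (XT.lf (nat_lit 0) (nat_lit 3154960263) (nat_lit 336) (nat_lit 2649061293) (nat_lit 420) (nat_lit 772394337) (nat_lit 198) (nat_lit 5) (nat_lit 202) (nat_lit 5) (nat_lit 203) (nat_lit 4) (nat_lit 298) (nat_lit 285) (nat_lit 281))))) (XT.nd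 (nat_lit 282) (nat_lit 1260) (nat_lit 0) (XT.nd (nat_lit 94) (nat_lit 420) (nat_lit 0) (XT.lf (nat_lit 0) (nat_lit 1713697529) (nat_lit 420) (nat_lit 283947359) (nat_lit 84) (nat_lit 4609786189) (nat_lit 197) (nat_lit 5) (nat_lit 202) (nat_lit 5) (nat_lit 198) (nat_lit 5) (nat_lit 299) (nat_lit 285) (nat_lit 280)) (XT.nd (nat_lit 94) (nat_lit 0) (nat_lit 0) (XT.lf (nat_lit 0) (nat_lit 2941224684) (nat_lit 420) (nat_lit 1258391491) (nat_lit 504) (nat_lit 2441976709) (nat_lit 192) (nat_lit 5) (nat_lit 197) (nat_lit 5) (nat_lit 198) (nat_lit 5) (nat_lit 300) (nat_lit 285) (nat_lit 279)) (XT.lf (nat_lit 0) (nat_lit 6212055414) (nat_lit 420) (nat_lit 465250568) (nat_lit 504) (nat_lit 2668675) (nat_lit 192) (nat_lit 5) (nat_lit 197) (nat_lit 5) (nat_lit 198) (nat_lit 5) (nat_lit 301) (nat_lit 285) (nat_lit 278)))) (XT.nd (nat_lit 94) (nat_lit 672) (nat_lit 0) (XT.lf (nat_lit 0) (nat_lit 2407106143)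 (nat_lit 588) (nat_lit 3889228161) (nat_lit 84) (nat_lit 424616256) (nat_lit 185) (nat_lit 5) (nat_lit 192) (nat_lit 5) (nat_lit 186) (nat_lit 5) (nat_lit 302) (nat_lit 285) (nat_lit 277)) (XT.nd (nat_lit 94) (nat_lit 672) (nat_lit 0) (XT.lf (nat_lit 0) (nat_lit 4816515416) (nat_lit 588) (nat_lit 587845049) (nat_lit 84) (nat_lit 1361632466) (nat_lit 185) (nat_lit 5) (nat_lit 192) (nat_lit 5) (nat_lit 186) (nat_lit 5) (nat_lit 303) (nat_lit 285) (nat_lit 276)) (XT.lf (nat_lit 0) (nat_lit 423071225) (nat_lit 672) (nat_lit 4007966984) (nat_lit 84) (nat_lit 2383400604) (nat_lit 177) (nat_lit 5) (nat_lit 185) (nat_lit 5) (nat_lit 178) (nat_lit 5) (nat_lit 304) (nat_lit 285) (nat_lit 275)))))) (XT.nd (nat_lit 564) (nat_lit 3108) (nat_lit 0) (XT.nd (nat_lit 282) (nat_lit 1680) (nat_lit 0) (XT.nd (nat_lit 94) (nat_lit 756) (nat_lit 0) (XT.lf (nat_lit 0) (nat_lit 2753322892) (nat_lit 672) (nat_lit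 628832621) (nat_lit 84) (nat_lit 3484379161) (nat_lit 177) (nat_lit 5) (nat_lit 185) (nat_lit 5) (nat_lit 178) (nat_lit 5) (nat_lit 305) (nat_lit 285) (nat_lit 274)) (XT.nd (nat_lit 94) (nat_lit 84) (nat_lit 0) (XT.lf (nat_lit 0) (nat_lit 2851290090) (nat_lit 672) (nat_lit 2253709939) (nat_lit 756) (nat_lit 1817238095) (nat_lit 169) (nat_lit 5) (nat_lit 177) (nat_lit 5) (nat_lit 178) (nat_lit 5) (nat_lit 306) (nat_lit 285) (nat_lit 273)) (XT.lf (nat_lit 0) (nat_lit 466954354) (nat_lit 756) (nat_lit 594958927) (nat_lit 84) (nat_lit 5920206884) (nat_lit 168) (nat_lit 5) (nat_lit 177) (nat_lit 5) (nat_lit 169) (nat_lit 5) (nat_lit 307) (nat_lit 285) (nat_lit 272)))) (XT.nd (nat_lit 94) (nat_lit 924) (nat_lit 0) (XT.lf (nat_lit 0) (nat_lit 2739816515) (nat_lit 840) (nat_lit 4078102411) (nat_lit 84) (nat_lit 227120509) (nat_lit 159) (nat_lit 5) (nat_lit 169) (nat_lit 5) (nat_lit 160) (nat_lit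 5) (nat_lit 308) (nat_lit 285) (nat_lit 271)) (XT.nd (nat_lit 94) (nat_lit 924) (nat_lit 0) (XT.lf (nat_lit 0) (nat_lit 5025960442) (nat_lit 840) (nat_lit 531698698) (nat_lit 84) (nat_lit 1554391996) (nat_lit 159) (nat_lit 5) (nat_lit 169) (nat_lit 5) (nat_lit 160) (nat_lit 5) (nat_lit 309) (nat_lit 285) (nat_lit 270)) (XT.lf (nat_lit 0) (nat_lit 155936258) (nat_lit 924) (nat_lit 4057742690) (nat_lit 84) (nat_lit 2969043537) (nat_lit 148) (nat_lit 5) (nat_lit 159) (nat_lit 5) (nat_lit 149) (nat_lit 5) (nat_lit 310) (nat_lit 285) (nat_lit 269))))) (XT.nd (nat_lit 282) (nat_lit 2184) (nat_lit 0) (XT.nd (nat_lit 94) (nat_lit 924) (nat_lit 0) (XT.lf (nat_lit 0) (nat_lit 2358168732) (nat_lit 924) (nat_lit 432739243) (nat_lit 84) (nat_lit 4466397269) (nat_lit 148) (nat_lit 5) (nat_lit 159) (nat_lit 5) (nat_lit 149) (nat_lit 5) (nat_lit 311) (nat_lit 285) (nat_lit 268)) (XT.nd (nat_lit 94)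 (nat_lit 0) (nat_lit 0) (XT.lf (nat_lit 0) (nat_lit 3310998271) (nat_lit 924) (nat_lit 1281098733) (nat_lit 1008) (nat_lit 2743563819) (nat_lit 137) (nat_lit 5) (nat_lit 148) (nat_lit 5) (nat_lit 149) (nat_lit 5) (nat_lit 312) (nat_lit 285) (nat_lit 267)) (XT.lf (nat_lit 0) (nat_lit 6834730232) (nat_lit 1008) (nat_lit 301362525) (nat_lit 84) (nat_lit 282546767) (nat_lit 137) (nat_lit 5) (nat_lit 149) (nat_lit 5) (nat_lit 138) (nat_lit 5) (nat_lit 313) (nat_lit 285) (nat_lit 266)))) (XT.nd (nat_lit 94) (nat_lit 1092) (nat_lit 0) (XT.lf (nat_lit 0) (nat_lit 1591484331) (nat_lit 1092) (nat_lit 3986047104) (nat_lit 84) (nat_lit 1927013845) (nat_lit 124) (nat_lit 5) (nat_lit 137) (nat_lit 5) (nat_lit 125) (nat_lit 5) (nat_lit 314) (nat_lit 285) (nat_lit 265)) (XT.nd (nat_lit 94) (nat_lit 1092) (nat_lit 0) (XT.lf (nat_lit 0) (nat_lit 3759995140) (nat_lit 1092) (nat_lit 197251554) (nat_lit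 84) (nat_lit 3637899596) (nat_lit 124) (nat_lit 5) (nat_lit 137) (nat_lit 5) (nat_lit 125) (nat_lit 5) (nat_lit 315) (nat_lit 285) (nat_lit 264)) (XT.lf (nat_lit 0) (nat_lit 3724488746) (nat_lit 1092) (nat_lit 2244785296) (nat_lit 1176) (nat_lit 1720382705) (nat_lit 111) (nat_lit 5) (nat_lit 124) (nat_lit 5) (nat_lit 125) (nat_lit 5) (nat_lit 316) (nat_lit 285) (nat_lit 263))))))) (XT.nd (nat_lit 1128) (nat_lit 2100) (nat_lit 0) (XT.nd (nat_lit 564) (nat_lit 1428) (nat_lit 0) (XT.nd (nat_lit 282) (nat_lit 1176) (nat_lit 0) (XT.nd (nat_lit 94) (nat_lit 504) (nat_lit 0) (XT.lf (nat_lit 0) (nat_lit 389773495) (nat_lit 1176) (nat_lit 80136650) (nat_lit 84) (nat_lit 7319197505) (nat_lit 110) (nat_lit 5) (nat_lit 124) (nat_lit 5) (nat_lit 111) (nat_lit 5) (nat_lit 317) (nat_lit 285) (nat_lit 262)) (XT.nd (nat_lit 94) (nat_lit 0) (nat_lit 0) (XT.lf (nat_lit 0) (nat_lit 2521580498) (nat_lit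 588) (nat_lit 3977937060) (nat_lit 84) (nat_lit 1392083494) (nat_lit 104) (nat_lit 5) (nat_lit 111) (nat_lit 5) (nat_lit 105) (nat_lit 5) (nat_lit 318) (nat_lit 285) (nat_lit 261)) (XT.lf (nat_lit 0) (nat_lit 4665312996) (nat_lit 588) (nat_lit 29300443) (nat_lit 84) (nat_lit 3304585711) (nat_lit 104) (nat_lit 5) (nat_lit 111) (nat_lit 5) (nat_lit 105) (nat_lit 5) (nat_lit 319) (nat_lit 285) (nat_lit 260)))) (XT.nd (nat_lit 94) (nat_lit 588) (nat_lit 0) (XT.lf (nat_lit 0) (nat_lit 4065248735) (nat_lit 588) (nat_lit 2792567032) (nat_lit 672) (nat_lit 1253106223) (nat_lit 97) (nat_lit 5) (nat_lit 104) (nat_lit 5) (nat_lit 105) (nat_lit 5) (nat_lit 320) (nat_lit 285) (nat_lit 259)) (XT.nd (nat_lit 94) (nat_lit 504) (nat_lit 0) (XT.lf (nat_lit 0) (nat_lit 816858741) (nat_lit 672) (nat_lit 6824068) (nat_lit 84) (nat_lit 7404155400) (nat_lit 96) (nat_lit 5) (nat_lit 104) (nat_lit 5) (nat_lit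 97) (nat_lit 5) (nat_lit 321) (nat_lit 285) (nat_lit 258)) (XT.lf (nat_lit 0) (nat_lit 2922925552) (nat_lit 588) (nat_lit 4190148838) (nat_lit 84) (nat_lit 1235190151) (nat_lit 90) (nat_lit 5) (nat_lit 97) (nat_lit 5) (nat_lit 91) (nat_lit 5) (nat_lit 322) (nat_lit 285) (nat_lit 257))))) (XT.nd (nat_lit 282) (nat_lit 840) (nat_lit 0) (XT.nd (nat_lit 94) (nat_lit 588) (nat_lit 0) (XT.lf (nat_lit 0) (nat_lit 5047954421) (nat_lit 588) (nat_lit 87284920) (nat_lit 84) (nat_lit 3338834111) (nat_lit 90) (nat_lit 5) (nat_lit 97) (nat_lit 5) (nat_lit 91) (nat_lit 5) (nat_lit 323) (nat_lit 285) (nat_lit 256)) (XT.nd (nat_lit 94) (nat_lit 84) (nat_lit 0) (XT.lf (nat_lit 0) (nat_lit 4169795138) (nat_lit 504) (nat_lit 3057255012) (nat_lit 588) (nat_lit 1377305210) (nat_lit 84) (nat_lit 5) (nat_lit 90) (nat_lit 5) (nat_lit 91) (nat_lit 5) (nat_lit 324) (nat_lit 285) (nat_lit 255)) (XT.lf (nat_lit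 0) (nat_lit 668268723) (nat_lit 588) (nat_lit 242942912) (nat_lit 84) (nat_lit 7829043193) (nat_lit 83) (nat_lit 5) (nat_lit 90) (nat_lit 5) (nat_lit 84) (nat_lit 5) (nat_lit 325) (nat_lit 285) (nat_lit 254)))) (XT.nd (nat_lit 94) (nat_lit 420) (nat_lit 0) (XT.lf (nat_lit 0) (nat_lit 2751376208) (nat_lit 504) (nat_lit 4802875411) (nat_lit 84) (nat_lit 1325782966) (nat_lit 78) (nat_lit 5) (nat_lit 84) (nat_lit 5) (nat_lit 79) (nat_lit 5) (nat_lit 326) (nat_lit 285) (nat_lit 253)) (XT.nd (nat_lit 94) (nat_lit 420) (nat_lit 0) (XT.lf (nat_lit 0) (nat_lit 4860608025) (nat_lit 504) (nat_lit 554159184) (nat_lit 84) (nat_lit 3610755382) (nat_lit 78) (nat_lit 5) (nat_lit 84) (nat_lit 5) (nat_lit 79) (nat_lit 5) (nat_lit 327) (nat_lit 285) (nat_lit 252)) (XT.lf (nat_lit 0) (nat_lit 3848441541) (nat_lit 420) (nat_lit 3176141607) (nat_lit 504) (nat_lit 2151445069) (nat_lit 73) (nat_lit 5) (nat_lit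 78) (nat_lit 5) (nat_lit 79) (nat_lit 5) (nat_lit 328) (nat_lit 285) (nat_lit 251)))))) (XT.nd (nat_lit 564) (nat_lit 756) (nat_lit 0) (XT.nd (nat_lit 282) (nat_lit 840) (nat_lit 0) (XT.nd (nat_lit 94) (nat_lit 504) (nat_lit 0) (XT.lf (nat_lit 0) (nat_lit 8344468054) (nat_lit 420) (nat_lit 869062097) (nat_lit 504) (nat_lit 119147039) (nat_lit 73) (nat_lit 5) (nat_lit 78) (nat_lit 5) (nat_lit 79) (nat_lit 5) (nat_lit 329) (nat_lit 285) (nat_lit 250)) (XT.nd (nat_lit 94) (nat_lit 0) (nat_lit 0) (XT.lf (nat_lit 0) (nat_lit 1939241490) (nat_lit 504) (nat_lit 6027629217) (nat_lit 84) (nat_lit 1526775847) (nat_lit 67) (nat_lit 5) (nat_lit 73) (nat_lit 5) (nat_lit 68) (nat_lit 5) (nat_lit 330) (nat_lit 285) (nat_lit 249)) (XT.lf (nat_lit 0) (nat_lit 4031987932) (nat_lit 504) (nat_lit 1645475175) (nat_lit 84) (nat_lit 3983098525) (nat_lit 67) (nat_lit 5) (nat_lit 73) (nat_lit 5) (nat_lit 68)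 (nat_lit 5) (nat_lit 331) (nat_lit 285) (nat_lit 248)))) (XT.nd (nat_lit 94) (nat_lit 420) (nat_lit 0) (XT.lf (nat_lit 0) (nat_lit 2876899260) (nat_lit 420) (nat_lit 3296355170) (nat_lit 504) (nat_lit 3660056080) (nat_lit 62) (nat_lit 5) (nat_lit 67) (nat_lit 5) (nat_lit 68) (nat_lit 5) (nat_lit 332) (nat_lit 285) (nat_lit 247)) (XT.nd (nat_lit 94) (nat_lit 420) (nat_lit 0) (XT.lf (nat_lit 0) (nat_lit 7521303569) (nat_lit 420) (nat_lit 832701371) (nat_lit 504) (nat_lit 1658391257) (nat_lit 62) (nat_lit 5) (nat_lit 67) (nat_lit 5) (nat_lit 68) (nat_lit 5) (nat_lit 333) (nat_lit 285) (nat_lit 246)) (XT.lf (nat_lit 0) (nat_lit 391752271) (nat_lit 420) (nat_lit 8116418951) (nat_lit 84) (nat_lit 1689044357) (nat_lit 57) (nat_lit 5) (nat_lit 62) (nat_lit 5) (nat_lit 58) (nat_lit 5) (nat_lit 334) (nat_lit 285) (nat_lit 245))))) (XT.nd (nat_lit 282) (nat_lit 420) (nat_lit 0) (XT.nd (nat_lit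 94) (nat_lit 336) (nat_lit 0) (XT.lf (nat_lit 0) (nat_lit 2463156645) (nat_lit 420) (nat_lit 3618788575) (nat_lit 84) (nat_lit 4305671430) (nat_lit 57) (nat_lit 5) (nat_lit 62) (nat_lit 5) (nat_lit 58) (nat_lit 5) (nat_lit 335) (nat_lit 285) (nat_lit 244)) (XT.nd (nat_lit 94) (nat_lit 0) (nat_lit 0) (XT.lf (nat_lit 0) (nat_lit 986435126) (nat_lit 336) (nat_lit 3580777433) (nat_lit 420) (nat_lit 6017816864) (nat_lit 53) (nat_lit 5) (nat_lit 57) (nat_lit 5) (nat_lit 58) (nat_lit 5) (nat_lit 336) (nat_lit 285) (nat_lit 243)) (XT.lf (nat_lit 0) (nat_lit 5759952989) (nat_lit 336) (nat_lit 973701876) (nat_lit 420) (nat_lit 4055122059) (nat_lit 53) (nat_lit 5) (nat_lit 57) (nat_lit 5) (nat_lit 58) (nat_lit 5) (nat_lit 337) (nat_lit 285) (nat_lit 242)))) (XT.nd (nat_lit 94) (nat_lit 420) (nat_lit 0) (XT.lf (nat_lit 0) (nat_lit 8944769212) (nat_lit 420) (nat_lit 385283381) (nat_lit 84) (nat_lit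 1669608218) (nat_lit 53) (nat_lit 5) (nat_lit 58) (nat_lit 5) (nat_lit 54) (nat_lit 5) (nat_lit 338) (nat_lit 285) (nat_lit 241)) (XT.nd (nat_lit 94) (nat_lit 0) (nat_lit 0) (XT.lf (nat_lit 0) (nat_lit 22862112) (nat_lit 420) (nat_lit 6784759296) (nat_lit 84) (nat_lit 4409088647) (nat_lit 48) (nat_lit 5) (nat_lit 53) (nat_lit 5) (nat_lit 49) (nat_lit 5) (nat_lit 339) (nat_lit 285) (nat_lit 240)) (XT.lf (nat_lit 0) (nat_lit 2088267400) (nat_lit 420) (nat_lit 2104488415) (nat_lit 84) (nat_lit 7248249105) (nat_lit 48) (nat_lit 5) (nat_lit 53) (nat_lit 5) (nat_lit 49) (nat_lit 5) (nat_lit 340) (nat_lit 285) (nat_lit 239))))))))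
noncomputable def xc77 : XT := (XT.nd (nat_lit 2256) (nat_lit 840) (nat_lit 0) (XT.nd (nat_lit 1128) (nat_lit 840) (nat_lit 0) (XT.nd (nat_lit 564) (nat_lit 588) (nat_lit 0) (XT.nd (nat_lit 282) (nat_lit 336) (nat_lit 0) (XT.nd (nat_lit 94) (nat_lit 252) (nat_lit 0) (XT.lf (nat_lit 0) (nat_lit 2727566883) (nat_lit 336) (nat_lit 1480201300) (nat_lit 420) (nat_lit 7464901582) (nat_lit 44) (nat_lit 5) (nat_lit 48) (nat_lit 5) (nat_lit 49) (nat_lit 5) (nat_lit 341) (nat_lit 285) (nat_lit 238)) (XT.nd (nat_lit 94) (nat_lit 252) (nat_lit 0) (XT.lf (nat_lit 0) (nat_lit 6391759157) (nat_lit 420) (nat_lit 4218978349) (nat_lit 84) (nat_lit 1300922028) (nat_lit 44) (nat_lit 5) (nat_lit 49) (nat_lit 5) (nat_lit 45) (nat_lit 5) (nat_lit 342) (nat_lit 285) (nat_lit 237)) (XT.lf (nat_lit 0) (nat_lit 603252147) (nat_lit 252) (nat_lit 8025956622) (nat_lit 336) (nat_lit 3529393307) (nat_lit 41) (nat_lit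 5) (nat_lit 44) (nat_lit 5) (nat_lit 45) (nat_lit 5) (nat_lit 343) (nat_lit 285) (nat_lit 236)))) (XT.nd (nat_lit 94) (nat_lit 336) (nat_lit 0) (XT.lf (nat_lit 0) (nat_lit 5617472885) (nat_lit 252) (nat_lit 5327813333) (nat_lit 336) (nat_lit 1467725755) (nat_lit 41) (nat_lit 5) (nat_lit 44) (nat_lit 5) (nat_lit 45) (nat_lit 5) (nat_lit 344) (nat_lit 285) (nat_lit 235)) (XT.nd (nat_lit 94) (nat_lit 252) (nat_lit 0) (XT.lf (nat_lit 0) (nat_lit 610434697) (nat_lit 336) (nat_lit 1941023787) (nat_lit 84) (nat_lit 10124800409) (nat_lit 40) (nat_lit 5) (nat_lit 44) (nat_lit 5) (nat_lit 41) (nat_lit 5) (nat_lit 345) (nat_lit 285) (nat_lit 234)) (XT.lf (nat_lit 0) (nat_lit 2723238339) (nat_lit 336) (nat_lit 9885000175) (nat_lit 84) (nat_lit 339031353) (nat_lit 37) (nat_lit 5) (nat_lit 41) (nat_lit 5) (nat_lit 38) (nat_lit 5) (nat_lit 346) (nat_lit 285) (nat_lit 233))))) (XT.nd (nat_lit 282) (nat_lit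 336) (nat_lit 0) (XT.nd (nat_lit 94) (nat_lit 252) (nat_lit 0) (XT.lf (nat_lit 0) (nat_lit 4915401750) (nat_lit 336) (nat_lit 5035998776) (nat_lit 84) (nat_lit 3274939889) (nat_lit 37) (nat_lit 5) (nat_lit 41) (nat_lit 5) (nat_lit 38) (nat_lit 5) (nat_lit 347) (nat_lit 285) (nat_lit 232)) (XT.nd (nat_lit 94) (nat_lit 252) (nat_lit 0) (XT.lf (nat_lit 0) (nat_lit 7143805366) (nat_lit 336) (nat_lit 80767554) (nat_lit 84) (nat_lit 6290557791) (nat_lit 37) (nat_lit 5) (nat_lit 41) (nat_lit 5) (nat_lit 38) (nat_lit 5) (nat_lit 348) (nat_lit 285) (nat_lit 231)) (XT.lf (nat_lit 0) (nat_lit 5087820531) (nat_lit 252) (nat_lit 4373177569) (nat_lit 336) (nat_lit 4351347209) (nat_lit 34) (nat_lit 5) (nat_lit 37) (nat_lit 5) (nat_lit 38) (nat_lit 5) (nat_lit 349) (nat_lit 285) (nat_lit 230)))) (XT.nd (nat_lit 94) (nat_lit 336) (nat_lit 0) (XT.lf (nat_lit 0) (nat_lit 10376016471) (nat_lit 252) (nat_lit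 1444592245) (nat_lit 336) (nat_lit 2299156996) (nat_lit 34) (nat_lit 5) (nat_lit 37) (nat_lit 5) (nat_lit 38) (nat_lit 5) (nat_lit 350) (nat_lit 285) (nat_lit 229)) (XT.nd (nat_lit 94) (nat_lit 84) (nat_lit 0) (XT.lf (nat_lit 0) (nat_lit 1361306297) (nat_lit 252) (nat_lit 12891722791) (nat_lit 336) (nat_lit 183775410) (nat_lit 31) (nat_lit 5) (nat_lit 34) (nat_lit 5) (nat_lit 35) (nat_lit 5) (nat_lit 351) (nat_lit 285) (nat_lit 228)) (XT.lf (nat_lit 0) (nat_lit 1981834921) (nat_lit 336) (nat_lit 8135644573) (nat_lit 84) (nat_lit 4644879456) (nat_lit 30) (nat_lit 5) (nat_lit 34) (nat_lit 5) (nat_lit 31) (nat_lit 5) (nat_lit 352) (nat_lit 285) (nat_lit 227)))))) (XT.nd (nat_lit 564) (nat_lit 420) (nat_lit 0) (XT.nd (nat_lit 282) (nat_lit 252) (nat_lit 0) (XT.nd (nat_lit 94) (nat_lit 168) (nat_lit 0) (XT.lf (nat_lit 0) (nat_lit 4182283733) (nat_lit 336) (nat_lit 3085448556) (nat_lit 84)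 (nat_lit 7831168905) (nat_lit 30) (nat_lit 5) (nat_lit 34) (nat_lit 5) (nat_lit 31) (nat_lit 5) (nat_lit 353) (nat_lit 285) (nat_lit 226)) (XT.nd (nat_lit 94) (nat_lit 0) (nat_lit 0) (XT.lf (nat_lit 0) (nat_lit 2124422618) (nat_lit 168) (nat_lit 4319976658) (nat_lit 252) (nat_lit 9001748851) (nat_lit 28) (nat_lit 5) (nat_lit 30) (nat_lit 5) (nat_lit 31) (nat_lit 5) (nat_lit 354) (nat_lit 285) (nat_lit 225)) (XT.lf (nat_lit 0) (nat_lit 7521928145) (nat_lit 168) (nat_lit 1259737143) (nat_lit 252) (nat_lit 7022405501) (nat_lit 28) (nat_lit 5) (nat_lit 30) (nat_lit 5) (nat_lit 31) (nat_lit 5) (nat_lit 355) (nat_lit 285) (nat_lit 224)))) (XT.nd (nat_lit 94) (nat_lit 252) (nat_lit 0) (XT.lf (nat_lit 0) (nat_lit 11183708822) (nat_lit 252) (nat_lit 3144001120) (nat_lit 84) (nat_lit 1845681957) (nat_lit 28) (nat_lit 5) (nat_lit 31) (nat_lit 5) (nat_lit 29) (nat_lit 5) (nat_lit 356) (nat_lit 285)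 (nat_lit 223)) (XT.nd (nat_lit 94) (nat_lit 0) (nat_lit 0) (XT.lf (nat_lit 0) (nat_lit 2146079887) (nat_lit 252) (nat_lit 11522625513) (nat_lit 336) (nat_lit 2885256267) (nat_lit 25) (nat_lit 5) (nat_lit 28) (nat_lit 5) (nat_lit 29) (nat_lit 5) (nat_lit 357) (nat_lit 285) (nat_lit 222)) (XT.lf (nat_lit 0) (nat_lit 7629488749) (nat_lit 252) (nat_lit 8608783300) (nat_lit 336) (nat_lit 707884454) (nat_lit 25) (nat_lit 5) (nat_lit 28) (nat_lit 5) (nat_lit 29) (nat_lit 5) (nat_lit 358) (nat_lit 285) (nat_lit 221))))) (XT.nd (nat_lit 282) (nat_lit 168) (nat_lit 0) (XT.nd (nat_lit 94) (nat_lit 168) (nat_lit 0) (XT.lf (nat_lit 0) (nat_lit 1481188697) (nat_lit 336) (nat_lit 4119634952) (nat_lit 84) (nat_lit 11750040193) (nat_lit 24) (nat_lit 5) (nat_lit 28) (nat_lit 5) (nat_lit 25) (nat_lit 5) (nat_lit 359) (nat_lit 285) (nat_lit 220)) (XT.nd (nat_lit 94) (nat_lit 0) (nat_lit 0) (XT.lf (nat_lit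 0) (nat_lit 1220193640) (nat_lit 168) (nat_lit 2491245774) (nat_lit 252) (nat_lit 14056880270) (nat_lit 22) (nat_lit 5) (nat_lit 24) (nat_lit 5) (nat_lit 25) (nat_lit 5) (nat_lit 360) (nat_lit 285) (nat_lit 219)) (XT.lf (nat_lit 0) (nat_lit 6037533768) (nat_lit 252) (nat_lit 11427992101) (nat_lit 84) (nat_lit 732416887) (nat_lit 22) (nat_lit 5) (nat_lit 25) (nat_lit 5) (nat_lit 23) (nat_lit 5) (nat_lit 361) (nat_lit 285) (nat_lit 218)))) (XT.nd (nat_lit 94) (nat_lit 168) (nat_lit 0) (XT.lf (nat_lit 0) (nat_lit 8438108321) (nat_lit 252) (nat_lit 6209501545) (nat_lit 84) (nat_lit 3993253130) (nat_lit 22) (nat_lit 5) (nat_lit 25) (nat_lit 5) (nat_lit 23) (nat_lit 5) (nat_lit 362) (nat_lit 285) (nat_lit 217)) (XT.nd (nat_lit 94) (nat_lit 168) (nat_lit 0) (XT.lf (nat_lit 0) (nat_lit 10890687191) (nat_lit 252) (nat_lit 863076729) (nat_lit 84) (nat_lit 7344495445) (nat_lit 22) (nat_lit 5) (nat_lit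 25) (nat_lit 5) (nat_lit 23) (nat_lit 5) (nat_lit 363) (nat_lit 285) (nat_lit 216)) (XT.lf (nat_lit 0) (nat_lit 4711185664) (nat_lit 168) (nat_lit 8733106321) (nat_lit 252) (nat_lit 6124817422) (nat_lit 20) (nat_lit 5) (nat_lit 22) (nat_lit 5) (nat_lit 23) (nat_lit 5) (nat_lit 364) (nat_lit 285) (nat_lit 215))))))) (XT.nd (nat_lit 1128) (nat_lit 336) (nat_lit 0) (XT.nd (nat_lit 564) (nat_lit 252) (nat_lit 0) (XT.nd (nat_lit 282) (nat_lit 0) (nat_lit 0) (XT.nd (nat_lit 94) (nat_lit 252) (nat_lit 0) (XT.lf (nat_lit 0) (nat_lit 10444057772) (nat_lit 168) (nat_lit 5620601306) (nat_lit 252) (nat_lit 3990328882) (nat_lit 20) (nat_lit 5) (nat_lit 22) (nat_lit 5) (nat_lit 23) (nat_lit 5) (nat_lit 365) (nat_lit 285) (nat_lit 214)) (XT.nd (nat_lit 94) (nat_lit 252) (nat_lit 0) (XT.lf (nat_lit 0) (nat_lit 16323136603) (nat_lit 168) (nat_lit 2422356448) (nat_lit 252) (nat_lit 1811125737) (nat_lit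 20) (nat_lit 5) (nat_lit 22) (nat_lit 5) (nat_lit 23) (nat_lit 5) (nat_lit 366) (nat_lit 285) (nat_lit 213)) (XT.lf (nat_lit 0) (nat_lit 428128109) (nat_lit 252) (nat_lit 19781152164) (nat_lit 84) (nat_lit 864390084) (nat_lit 17) (nat_lit 5) (nat_lit 20) (nat_lit 5) (nat_lit 18) (nat_lit 5) (nat_lit 367) (nat_lit 285) (nat_lit 212)))) (XT.nd (nat_lit 94) (nat_lit 0) (nat_lit 0) (XT.lf (nat_lit 0) (nat_lit 2748406066) (nat_lit 252) (nat_lit 14600831886) (nat_lit 84) (nat_lit 4255454540) (nat_lit 17) (nat_lit 5) (nat_lit 20) (nat_lit 5) (nat_lit 18) (nat_lit 5) (nat_lit 368) (nat_lit 285) (nat_lit 211)) (XT.nd (nat_lit 94) (nat_lit 0) (nat_lit 0) (XT.lf (nat_lit 0) (nat_lit 5121032383) (nat_lit 252) (nat_lit 9290254258) (nat_lit 84) (nat_lit 7741537675) (nat_lit 17) (nat_lit 5) (nat_lit 20) (nat_lit 5) (nat_lit 18) (nat_lit 5) (nat_lit 369) (nat_lit 285) (nat_lit 210)) (XT.lf (nat_lit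 0) (nat_lit 7548218596) (nat_lit 252) (nat_lit 3844469265) (nat_lit 84) (nat_lit 11325888882) (nat_lit 17) (nat_lit 5) (nat_lit 20) (nat_lit 5) (nat_lit 18) (nat_lit 5) (nat_lit 370) (nat_lit 285) (nat_lit 209))))) (XT.nd (nat_lit 282) (nat_lit 84) (nat_lit 0) (XT.nd (nat_lit 94) (nat_lit 0) (nat_lit 0) (XT.lf (nat_lit 0) (nat_lit 1777409985) (nat_lit 168) (nat_lit 8272449240) (nat_lit 252) (nat_lit 13252071295) (nat_lit 15) (nat_lit 5) (nat_lit 17) (nat_lit 5) (nat_lit 18) (nat_lit 5) (nat_lit 371) (nat_lit 285) (nat_lit 208)) (XT.nd (nat_lit 94) (nat_lit 0) (nat_lit 0) (XT.lf (nat_lit 0) (nat_lit 7626821193) (nat_lit 168) (nat_lit 5024211060) (nat_lit 252) (nat_lit 11251692007) (nat_lit 15) (nat_lit 5) (nat_lit 17) (nat_lit 5) (nat_lit 18) (nat_lit 5) (nat_lit 372) (nat_lit 285) (nat_lit 207)) (XT.lf (nat_lit 0) (nat_lit 13630166450) (nat_lit 168) (nat_lit 1685073999) (nat_lit 252)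 (nat_lit 9207484093) (nat_lit 15) (nat_lit 5) (nat_lit 17) (nat_lit 5) (nat_lit 18) (nat_lit 5) (nat_lit 373) (nat_lit 285) (nat_lit 206)))) (XT.nd (nat_lit 94) (nat_lit 84) (nat_lit 0) (XT.lf (nat_lit 0) (nat_lit 18062308249) (nat_lit 252) (nat_lit 5386808884) (nat_lit 84) (nat_lit 1712854565) (nat_lit 15) (nat_lit 5) (nat_lit 18) (nat_lit 5) (nat_lit 16) (nat_lit 4) (nat_lit 374) (nat_lit 285) (nat_lit 205)) (XT.nd (nat_lit 94) (nat_lit 0) (nat_lit 0) (XT.lf (nat_lit 0) (nat_lit 251214696) (nat_lit 84) (nat_lit 20646396803) (nat_lit 168) (nat_lit 4923362797) (nat_lit 14) (nat_lit 5) (nat_lit 15) (nat_lit 5) (nat_lit 16) (nat_lit 4) (nat_lit 375) (nat_lit 285) (nat_lit 204)) (XT.lf (nat_lit 0) (nat_lit 6152249163) (nat_lit 84) (nat_lit 17708380204) (nat_lit 168) (nat_lit 2638575304) (nat_lit 14) (nat_lit 5) (nat_lit 15) (nat_lit 5) (nat_lit 16) (nat_lit 4) (nat_lit 376) (nat_lit 285)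 (nat_lit 203)))))) (XT.nd (nat_lit 564) (nat_lit 84) (nat_lit 0) (XT.nd (nat_lit 282) (nat_lit 168) (nat_lit 0) (XT.nd (nat_lit 94) (nat_lit 84) (nat_lit 0) (XT.lf (nat_lit 0) (nat_lit 12211031061) (nat_lit 84) (nat_lit 14688556033) (nat_lit 168) (nat_lit 299398546) (nat_lit 14) (nat_lit 5) (nat_lit 15) (nat_lit 5) (nat_lit 16) (nat_lit 4) (nat_lit 377) (nat_lit 285) (nat_lit 202)) (XT.nd (nat_lit 94) (nat_lit 0) (nat_lit 0) (XT.lf (nat_lit 0) (nat_lit 2054111097) (nat_lit 168) (nat_lit 9508557692) (nat_lit 84) (nat_lit 16357656002) (nat_lit 13) (nat_lit 5) (nat_lit 15) (nat_lit 5) (nat_lit 14) (nat_lit 5) (nat_lit 378) (nat_lit 285) (nat_lit 201)) (XT.lf (nat_lit 0) (nat_lit 4459206494) (nat_lit 168) (nat_lit 3886395462) (nat_lit 84) (nat_lit 20318827659) (nat_lit 13) (nat_lit 5) (nat_lit 15) (nat_lit 5) (nat_lit 14) (nat_lit 5) (nat_lit 379) (nat_lit 285) (nat_lit 200)))) (XT.nd (nat_lit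 94) (nat_lit 0) (nat_lit 0) (XT.lf (nat_lit 0) (nat_lit 1925537922) (nat_lit 168) (nat_lit 5017725310) (nat_lit 252) (nat_lit 22488230384) (nat_lit 11) (nat_lit 5) (nat_lit 13) (nat_lit 5) (nat_lit 14) (nat_lit 5) (nat_lit 380) (nat_lit 285) (nat_lit 199)) (XT.nd (nat_lit 94) (nat_lit 0) (nat_lit 0) (XT.lf (nat_lit 0) (nat_lit 7976955618) (nat_lit 168) (nat_lit 1553450955) (nat_lit 252) (nat_lit 20691149101) (nat_lit 11) (nat_lit 5) (nat_lit 13) (nat_lit 5) (nat_lit 14) (nat_lit 5) (nat_lit 381) (nat_lit 285) (nat_lit 198)) (XT.lf (nat_lit 0) (nat_lit 12203640040) (nat_lit 252) (nat_lit 16862924327) (nat_lit 84) (nat_lit 1969389489) (nat_lit 11) (nat_lit 5) (nat_lit 14) (nat_lit 5) (nat_lit 12) (nat_lit 4) (nat_lit 382) (nat_lit 285) (nat_lit 197))))) (XT.nd (nat_lit 282) (nat_lit 0) (nat_lit 0) (XT.nd (nat_lit 94) (nat_lit 84) (nat_lit 0) (XT.lf (nat_lit 0) (nat_lit 14961924552) (nat_lit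 252) (nat_lit 11352381403) (nat_lit 84) (nat_lit 5561250765) (nat_lit 11) (nat_lit 5) (nat_lit 14) (nat_lit 5) (nat_lit 12) (nat_lit 4) (nat_lit 383) (nat_lit 285) (nat_lit 196)) (XT.nd (nat_lit 94) (nat_lit 84) (nat_lit 0) (XT.lf (nat_lit 0) (nat_lit 17792420693) (nat_lit 252) (nat_lit 5692424458) (nat_lit 84) (nat_lit 9256779438) (nat_lit 11) (nat_lit 5) (nat_lit 14) (nat_lit 5) (nat_lit 12) (nat_lit 4) (nat_lit 384) (nat_lit 285) (nat_lit 195)) (XT.lf (nat_lit 0) (nat_lit 124735319) (nat_lit 84) (nat_lit 20574268853) (nat_lit 168) (nat_lit 12935922197) (nat_lit 10) (nat_lit 5) (nat_lit 11) (nat_lit 5) (nat_lit 12) (nat_lit 4) (nat_lit 385) (nat_lit 285) (nat_lit 194)))) (XT.nd (nat_lit 94) (nat_lit 0) (nat_lit 0) (XT.lf (nat_lit 0) (nat_lit 6222344755) (nat_lit 84) (nat_lit 17520052583) (nat_lit 168) (nat_lit 10812098968) (nat_lit 10) (nat_lit 5) (nat_lit 11) (nat_lit 5) (nat_lit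 12) (nat_lit 4) (nat_lit 386) (nat_lit 285) (nat_lit 193)) (XT.nd (nat_lit 94) (nat_lit 0) (nat_lit 0) (XT.lf (nat_lit 0) (nat_lit 12489039536) (nat_lit 84) (nat_lit 14378766730) (nat_lit 168) (nat_lit 8635171819) (nat_lit 10) (nat_lit 5) (nat_lit 11) (nat_lit 5) (nat_lit 12) (nat_lit 4) (nat_lit 387) (nat_lit 285) (nat_lit 192)) (XT.lf (nat_lit 0) (nat_lit 18930660879) (nat_lit 84) (nat_lit 11147483285) (nat_lit 168) (nat_lit 6403111626) (nat_lit 10) (nat_lit 5) (nat_lit 11) (nat_lit 5) (nat_lit 12) (nat_lit 4) (nat_lit 388) (nat_lit 285) (nat_lit 191))))))))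
noncomputable def xc78 : XT := (XT.nd (nat_lit 2256) (nat_lit 84) (nat_lit 0) (XT.nd (nat_lit 1128) (nat_lit 168) (nat_lit 0) (XT.nd (nat_lit 564) (nat_lit 84) (nat_lit 0) (XT.nd (nat_lit 282) (nat_lit 168) (nat_lit 0) (XT.nd (nat_lit 94) (nat_lit 84) (nat_lit 0) (XT.lf (nat_lit 0) (nat_lit 25553213051) (nat_lit 84) (nat_lit 7823190354) (nat_lit 168) (nat_lit 4113837876) (nat_lit 10) (nat_lit 5) (nat_lit 11) (nat_lit 5) (nat_lit 12) (nat_lit 4) (nat_lit 389) (nat_lit 285) (nat_lit 190)) (XT.nd (nat_lit 94) (nat_lit 84) (nat_lit 0) (XT.lf (nat_lit 0) (nat_lit 32362868962) (nat_lit 84) (nat_lit 4402789347) (nat_lit 168) (nat_lit 1765216725) (nat_lit 10) (nat_lit 5) (nat_lit 11) (nat_lit 5) (nat_lit 12) (nat_lit 4) (nat_lit 390) (nat_lit 285) (nat_lit 189)) (XT.lf (nat_lit 0) (nat_lit 631946862) (nat_lit 168) (nat_lit 244549002) (nat_lit 84) (nat_lit 38727432835) (nat_lit 9) (nat_lit 5)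 (nat_lit 11) (nat_lit 5) (nat_lit 10) (nat_lit 5) (nat_lit 391) (nat_lit 285) (nat_lit 188)))) (XT.nd (nat_lit 94) (nat_lit 0) (nat_lit 0) (XT.lf (nat_lit 0) (nat_lit 3143130501) (nat_lit 252) (nat_lit 34789360699) (nat_lit 84) (nat_lit 2774847625) (nat_lit 7) (nat_lit 5) (nat_lit 10) (nat_lit 5) (nat_lit 8) (nat_lit 4) (nat_lit 392) (nat_lit 285) (nat_lit 187)) (XT.nd (nat_lit 94) (nat_lit 0) (nat_lit 0) (XT.lf (nat_lit 0) (nat_lit 5733078412) (nat_lit 252) (nat_lit 29594599724) (nat_lit 84) (nat_lit 6517266627) (nat_lit 7) (nat_lit 5) (nat_lit 10) (nat_lit 5) (nat_lit 8) (nat_lit 4) (nat_lit 393) (nat_lit 285) (nat_lit 186)) (XT.lf (nat_lit 0) (nat_lit 8393008591) (nat_lit 252) (nat_lit 24255737624) (nat_lit 84) (nat_lit 10369407746) (nat_lit 7) (nat_lit 5) (nat_lit 10) (nat_lit 5) (nat_lit 8) (nat_lit 4) (nat_lit 394) (nat_lit 285) (nat_lit 185))))) (XT.nd (nat_lit 282) (nat_lit 84)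 (nat_lit 0) (XT.nd (nat_lit 94) (nat_lit 0) (nat_lit 0) (XT.lf (nat_lit 0) (nat_lit 11125400370) (nat_lit 252) (nat_lit 18767798023) (nat_lit 84) (nat_lit 14334861581) (nat_lit 7) (nat_lit 5) (nat_lit 10) (nat_lit 5) (nat_lit 8) (nat_lit 4) (nat_lit 395) (nat_lit 285) (nat_lit 184)) (XT.nd (nat_lit 94) (nat_lit 0) (nat_lit 0) (XT.lf (nat_lit 0) (nat_lit 13932800626) (nat_lit 252) (nat_lit 13125665585) (nat_lit 84) (nat_lit 18417324350) (nat_lit 7) (nat_lit 5) (nat_lit 10) (nat_lit 5) (nat_lit 8) (nat_lit 4) (nat_lit 396) (nat_lit 285) (nat_lit 183)) (XT.lf (nat_lit 0) (nat_lit 16817826149) (nat_lit 252) (nat_lit 7324081252) (nat_lit 84) (nat_lit 22620601336) (nat_lit 7) (nat_lit 5) (nat_lit 10) (nat_lit 5) (nat_lit 8) (nat_lit 4) (nat_lit 397) (nat_lit 285) (nat_lit 182)))) (XT.nd (nat_lit 94) (nat_lit 84) (nat_lit 0) (XT.lf (nat_lit 0) (nat_lit 19783166084) (nat_lit 252) (nat_lit 1357637339)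 (nat_lit 84) (nat_lit 26948610433) (nat_lit 7) (nat_lit 5) (nat_lit 10) (nat_lit 5) (nat_lit 8) (nat_lit 4) (nat_lit 398) (nat_lit 285) (nat_lit 181)) (XT.nd (nat_lit 94) (nat_lit 0) (nat_lit 0) (XT.lf (nat_lit 0) (nat_lit 4877498223) (nat_lit 84) (nat_lit 18002471604) (nat_lit 168) (nat_lit 26576272962) (nat_lit 6) (nat_lit 5) (nat_lit 7) (nat_lit 5) (nat_lit 8) (nat_lit 4) (nat_lit 399) (nat_lit 285) (nat_lit 180)) (XT.lf (nat_lit 0) (nat_lit 11320312548) (nat_lit 84) (nat_lit 14757909017) (nat_lit 168) (nat_lit 24787067971) (nat_lit 6) (nat_lit 5) (nat_lit 7) (nat_lit 5) (nat_lit 8) (nat_lit 4) (nat_lit 400) (nat_lit 285) (nat_lit 179)))))) (XT.nd (nat_lit 564) (nat_lit 168) (nat_lit 0) (XT.nd (nat_lit 282) (nat_lit 0) (nat_lit 0) (XT.nd (nat_lit 94) (nat_lit 0) (nat_lit 0) (XT.lf (nat_lit 0) (nat_lit 17948895204) (nat_lit 84) (nat_lit 11418262341) (nat_lit 168) (nat_lit 22951136020)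 (nat_lit 6) (nat_lit 5) (nat_lit 7) (nat_lit 5) (nat_lit 8) (nat_lit 4) (nat_lit 401) (nat_lit 285) (nat_lit 178)) (XT.nd (nat_lit 94) (nat_lit 0) (nat_lit 0) (XT.lf (nat_lit 0) (nat_lit 24769424727) (nat_lit 84) (nat_lit 7980418674) (nat_lit 168) (nat_lit 21066765829) (nat_lit 6) (nat_lit 5) (nat_lit 7) (nat_lit 5) (nat_lit 8) (nat_lit 4) (nat_lit 402) (nat_lit 285) (nat_lit 177)) (XT.lf (nat_lit 0) (nat_lit 31788258562) (nat_lit 84) (nat_lit 4441173587) (nat_lit 168) (nat_lit 19132200967) (nat_lit 6) (nat_lit 5) (nat_lit 7) (nat_lit 5) (nat_lit 8) (nat_lit 4) (nat_lit 403) (nat_lit 285) (nat_lit 176)))) (XT.nd (nat_lit 94) (nat_lit 0) (nat_lit 0) (XT.lf (nat_lit 0) (nat_lit 39011939000) (nat_lit 84) (nat_lit 797228132) (nat_lit 168) (nat_lit 17145638218) (nat_lit 6) (nat_lit 5) (nat_lit 7) (nat_lit 5) (nat_lit 8) (nat_lit 4) (nat_lit 404) (nat_lit 285) (nat_lit 175)) (XT.nd (nat_lit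 94) (nat_lit 0) (nat_lit 0) (XT.lf (nat_lit 0) (nat_lit 43521697159) (nat_lit 168) (nat_lit 12179723791) (nat_lit 0) (nat_lit 2895281307) (nat_lit 6) (nat_lit 5) (nat_lit 8) (nat_lit 4) (nat_lit 6) (nat_lit 4) (nat_lit 405) (nat_lit 285) (nat_lit 174)) (XT.lf (nat_lit 0) (nat_lit 47350158883) (nat_lit 168) (nat_lit 6258251208) (nat_lit 0) (nat_lit 6681074206) (nat_lit 6) (nat_lit 5) (nat_lit 8) (nat_lit 4) (nat_lit 6) (nat_lit 4) (nat_lit 406) (nat_lit 285) (nat_lit 173))))) (XT.nd (nat_lit 282) (nat_lit 84) (nat_lit 0) (XT.nd (nat_lit 94) (nat_lit 84) (nat_lit 0) (XT.lf (nat_lit 0) (nat_lit 51290212229) (nat_lit 168) (nat_lit 165020567) (nat_lit 0) (nat_lit 10579741689) (nat_lit 6) (nat_lit 5) (nat_lit 8) (nat_lit 4) (nat_lit 6) (nat_lit 4) (nat_lit 407) (nat_lit 285) (nat_lit 172)) (XT.nd (nat_lit 94) (nat_lit 0) (nat_lit 0) (XT.lf (nat_lit 0) (nat_lit 6231192298) (nat_lit 84) (nat_lit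 49176151641) (nat_lit 84) (nat_lit 8425539623) (nat_lit 5) (nat_lit 4) (nat_lit 6) (nat_lit 5) (nat_lit 6) (nat_lit 4) (nat_lit 408) (nat_lit 285) (nat_lit 171)) (XT.lf (nat_lit 0) (nat_lit 12817849496) (nat_lit 84) (nat_lit 46829196555) (nat_lit 84) (nat_lit 6039650029) (nat_lit 5) (nat_lit 4) (nat_lit 6) (nat_lit 5) (nat_lit 6) (nat_lit 4) (nat_lit 409) (nat_lit 285) (nat_lit 170)))) (XT.nd (nat_lit 94) (nat_lit 84) (nat_lit 0) (XT.lf (nat_lit 0) (nat_lit 19597697320) (nat_lit 84) (nat_lit 44413902406) (nat_lit 84) (nat_lit 3586592051) (nat_lit 5) (nat_lit 4) (nat_lit 6) (nat_lit 5) (nat_lit 6) (nat_lit 4) (nat_lit 410) (nat_lit 285) (nat_lit 169)) (XT.nd (nat_lit 94) (nat_lit 84) (nat_lit 0) (XT.lf (nat_lit 0) (nat_lit 26577055297) (nat_lit 84) (nat_lit 41928017888) (nat_lit 84) (nat_lit 1064079182) (nat_lit 5) (nat_lit 4) (nat_lit 6) (nat_lit 5) (nat_lit 6) (nat_lit 4) (nat_lit 411)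 (nat_lit 285) (nat_lit 168)) (XT.lf (nat_lit 0) (nat_lit 1499408900) (nat_lit 168) (nat_lit 37854166242) (nat_lit 84) (nat_lit 32247369266) (nat_lit 4) (nat_lit 5) (nat_lit 6) (nat_lit 5) (nat_lit 5) (nat_lit 4) (nat_lit 412) (nat_lit 285) (nat_lit 167))))))) (XT.nd (nat_lit 43240) (nat_lit 0) (nat_lit 13860) (XT.nd (nat_lit 564) (nat_lit 84) (nat_lit 0) (XT.nd (nat_lit 282) (nat_lit 0) (nat_lit 0) (XT.nd (nat_lit 94) (nat_lit 0) (nat_lit 0) (XT.lf (nat_lit 0) (nat_lit 4114187019) (nat_lit 168) (nat_lit 32578010673) (nat_lit 84) (nat_lit 37003385018) (nat_lit 4) (nat_lit 5) (nat_lit 6) (nat_lit 5) (nat_lit 5) (nat_lit 4) (nat_lit 413) (nat_lit 285) (nat_lit 166)) (XT.nd (nat_lit 94) (nat_lit 0) (nat_lit 0) (XT.lf (nat_lit 0) (nat_lit 6804131244) (nat_lit 168) (nat_lit 27148156639) (nat_lit 84) (nat_lit 41903059042) (nat_lit 4) (nat_lit 5) (nat_lit 6) (nat_lit 5) (nat_lit 5) (nat_lit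 4) (nat_lit 414) (nat_lit 285) (nat_lit 165)) (XT.lf (nat_lit 0) (nat_lit 9571748885) (nat_lit 168) (nat_lit 21559542946) (nat_lit 84) (nat_lit 46950958348) (nat_lit 4) (nat_lit 5) (nat_lit 6) (nat_lit 5) (nat_lit 5) (nat_lit 4) (nat_lit 415) (nat_lit 285) (nat_lit 164)))) (XT.nd (nat_lit 94) (nat_lit 0) (nat_lit 0) (XT.lf (nat_lit 0) (nat_lit 12419619653) (nat_lit 168) (nat_lit 15806960421) (nat_lit 84) (nat_lit 52151788108) (nat_lit 4) (nat_lit 5) (nat_lit 6) (nat_lit 5) (nat_lit 5) (nat_lit 4) (nat_lit 416) (nat_lit 285) (nat_lit 163)) (XT.nd (nat_lit 94) (nat_lit 0) (nat_lit 0) (XT.lf (nat_lit 0) (nat_lit 15350398060) (nat_lit 168) (nat_lit 9885047055) (nat_lit 84) (nat_lit 57510396038) (nat_lit 4) (nat_lit 5) (nat_lit 6) (nat_lit 5) (nat_lit 5) (nat_lit 4) (nat_lit 417) (nat_lit 285) (nat_lit 162)) (XT.lf (nat_lit 0) (nat_lit 18366815900) (nat_lit 168) (nat_lit 3788283004) (nat_lit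 84) (nat_lit 63031776923) (nat_lit 4) (nat_lit 5) (nat_lit 6) (nat_lit 5) (nat_lit 5) (nat_lit 4) (nat_lit 418) (nat_lit 285) (nat_lit 161))))) (XT.nd (nat_lit 42394) (nat_lit 0) (nat_lit 16716) (XT.nd (nat_lit 94) (nat_lit 0) (nat_lit 0) (XT.lf (nat_lit 0) (nat_lit 2540193799) (nat_lit 84) (nat_lit 18956690028) (nat_lit 168) (nat_lit 66206082507) (nat_lit 3) (nat_lit 5) (nat_lit 4) (nat_lit 5) (nat_lit 5) (nat_lit 4) (nat_lit 419) (nat_lit 285) (nat_lit 160)) (XT.nd (nat_lit 42206) (nat_lit 0) (nat_lit 17304) (XT.lf (nat_lit 0) (nat_lit 9136782526) (nat_lit 84) (nat_lit 15621754279) (nat_lit 168) (nat_lit 65537455586) (nat_lit 3) (nat_lit 5) (nat_lit 4) (nat_lit 5) (nat_lit 5) (nat_lit 4) (nat_lit 420) (nat_lit 285) (nat_lit 159)) (XT.lf (nat_lit 0) (nat_lit 2272499179) (nat_lit 84) (nat_lit 479298234) (nat_lit 84) (nat_lit 479298234) (nat_lit 209) (nat_lit 4) (nat_lit 210) (nat_lit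 5) (nat_lit 210) (nat_lit 4) (nat_lit 292) (nat_lit 286) (nat_lit 286)))) (XT.nd (nat_lit 94) (nat_lit 336) (nat_lit 0) (XT.lf (nat_lit 0) (nat_lit 955599632) (nat_lit 168) (nat_lit 696708945) (nat_lit 252) (nat_lit 4821777873) (nat_lit 206) (nat_lit 5) (nat_lit 208) (nat_lit 5) (nat_lit 209) (nat_lit 4) (nat_lit 293) (nat_lit 286) (nat_lit 285)) (XT.nd (nat_lit 94) (nat_lit 336) (nat_lit 0) (XT.lf (nat_lit 0) (nat_lit 3889495406) (nat_lit 168) (nat_lit 353637754) (nat_lit 252) (nat_lit 2246087446) (nat_lit 206) (nat_lit 5) (nat_lit 208) (nat_lit 5) (nat_lit 209) (nat_lit 4) (nat_lit 294) (nat_lit 286) (nat_lit 284)) (XT.lf (nat_lit 0) (nat_lit 305567993) (nat_lit 336) (nat_lit 6155702619) (nat_lit 84) (nat_lit 47012780) (nat_lit 202) (nat_lit 5) (nat_lit 206) (nat_lit 5) (nat_lit 203) (nat_lit 4) (nat_lit 295) (nat_lit 286) (nat_lit 283)))))) (XT.nd (nat_lit 564) (nat_lit 1932) (nat_lit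 0) (XT.nd (nat_lit 282) (nat_lit 504) (nat_lit 0) (XT.nd (nat_lit 94) (nat_lit 420) (nat_lit 0) (XT.lf (nat_lit 0) (nat_lit 2823878870) (nat_lit 336) (nat_lit 3165332766) (nat_lit 84) (nat_lit 540654957) (nat_lit 202) (nat_lit 5) (nat_lit 206) (nat_lit 5) (nat_lit 203) (nat_lit 4) (nat_lit 296) (nat_lit 286) (nat_lit 282)) (XT.nd (nat_lit 94) (nat_lit 420) (nat_lit 0) (XT.lf (nat_lit 0) (nat_lit 5326348966) (nat_lit 336) (nat_lit 143261720) (nat_lit 84) (nat_lit 1086003375) (nat_lit 202) (nat_lit 5) (nat_lit 206) (nat_lit 5) (nat_lit 203) (nat_lit 4) (nat_lit 297) (nat_lit 286) (nat_lit 281)) (XT.lf (nat_lit 0) (nat_lit 1234780588) (nat_lit 420) (nat_lit 3623905113) (nat_lit 84) (nat_lit 1725562225) (nat_lit 197) (nat_lit 5) (nat_lit 202) (nat_lit 5) (nat_lit 198) (nat_lit 5) (nat_lit 298) (nat_lit 286) (nat_lit 280)))) (XT.nd (nat_lit 94) (nat_lit 504) (nat_lit 0) (XT.lf (nat_lit 0)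 (nat_lit 3660812678) (nat_lit 420) (nat_lit 524073038) (nat_lit 84) (nat_lit 2431781687) (nat_lit 197) (nat_lit 5) (nat_lit 202) (nat_lit 5) (nat_lit 198) (nat_lit 5) (nat_lit 299) (nat_lit 286) (nat_lit 279)) (XT.nd (nat_lit 94) (nat_lit 84) (nat_lit 0) (XT.lf (nat_lit 0) (nat_lit 2666451444) (nat_lit 420) (nat_lit 3434394296) (nat_lit 504) (nat_lit 551660423) (nat_lit 192) (nat_lit 5) (nat_lit 197) (nat_lit 5) (nat_lit 198) (nat_lit 5) (nat_lit 300) (nat_lit 286) (nat_lit 278)) (XT.lf (nat_lit 0) (nat_lit 1806794827) (nat_lit 504) (nat_lit 802268138) (nat_lit 84) (nat_lit 4082811350) (nat_lit 191) (nat_lit 5) (nat_lit 197) (nat_lit 5) (nat_lit 192) (nat_lit 5) (nat_lit 301) (nat_lit 286) (nat_lit 277))))) (XT.nd (nat_lit 282) (nat_lit 756) (nat_lit 0) (XT.nd (nat_lit 94) (nat_lit 672) (nat_lit 0) (XT.lf (nat_lit 0) (nat_lit 2465270117) (nat_lit 504) (nat_lit 1701734327) (nat_lit 588)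 (nat_lit 2567612034) (nat_lit 185) (nat_lit 5) (nat_lit 191) (nat_lit 5) (nat_lit 192) (nat_lit 5) (nat_lit 302) (nat_lit 286) (nat_lit 276)) (XT.nd (nat_lit 94) (nat_lit 672) (nat_lit 0) (XT.lf (nat_lit 0) (nat_lit 5792733552) (nat_lit 504) (nat_lit 733624052) (nat_lit 588) (nat_lit 255078230) (nat_lit 185) (nat_lit 5) (nat_lit 191) (nat_lit 5) (nat_lit 192) (nat_lit 5) (nat_lit 303) (nat_lit 286) (nat_lit 275)) (XT.lf (nat_lit 0) (nat_lit 2031802283) (nat_lit 672) (nat_lit 4473198009) (nat_lit 84) (nat_lit 326169685) (nat_lit 177) (nat_lit 5) (nat_lit 185) (nat_lit 5) (nat_lit 178) (nat_lit 5) (nat_lit 304) (nat_lit 286) (nat_lit 274)))) (XT.nd (nat_lit 94) (nat_lit 756) (nat_lit 0) (XT.lf (nat_lit 0) (nat_lit 4323108858) (nat_lit 672) (nat_lit 1124202473) (nat_lit 84) (nat_lit 1437367337) (nat_lit 177) (nat_lit 5) (nat_lit 185) (nat_lit 5) (nat_lit 178) (nat_lit 5) (nat_lit 305) (nat_lit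 286) (nat_lit 273)) (XT.nd (nat_lit 94) (nat_lit 84) (nat_lit 0) (XT.lf (nat_lit 0) (nat_lit 2315900719) (nat_lit 672) (nat_lit 4315800053) (nat_lit 756) (nat_lit 310216340) (nat_lit 169) (nat_lit 5) (nat_lit 177) (nat_lit 5) (nat_lit 178) (nat_lit 5) (nat_lit 306) (nat_lit 286) (nat_lit 272)) (XT.lf (nat_lit 0) (nat_lit 1906120494) (nat_lit 756) (nat_lit 1194872257) (nat_lit 84) (nat_lit 3901692768) (nat_lit 168) (nat_lit 5) (nat_lit 177) (nat_lit 5) (nat_lit 169) (nat_lit 5) (nat_lit 307) (nat_lit 286) (nat_lit 271))))))))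
noncomputable def xc79 : XT := (XT.nd (nat_lit 2256) (nat_lit 3276) (nat_lit 0) (XT.nd (nat_lit 1128) (nat_lit 3108) (nat_lit 0) (XT.nd (nat_lit 564) (nat_lit 2688) (nat_lit 0) (XT.nd (nat_lit 282) (nat_lit 1008) (nat_lit 0) (XT.nd (nat_lit 94) (nat_lit 924) (nat_lit 0) (XT.lf (nat_lit 0) (nat_lit 2327466451) (nat_lit 756) (nat_lit 1806484503) (nat_lit 840) (nat_lit 2933231722) (nat_lit 159) (nat_lit 5) (nat_lit 168) (nat_lit 5) (nat_lit 169) (nat_lit 5) (nat_lit 308) (nat_lit 286) (nat_lit 270)) (XT.nd (nat_lit 94) (nat_lit 924) (nat_lit 0) (XT.lf (nat_lit 0) (nat_lit 5926033173) (nat_lit 756) (nat_lit 445067802) (nat_lit 840) (nat_lit 764788648) (nat_lit 159) (nat_lit 5) (nat_lit 168) (nat_lit 5) (nat_lit 169) (nat_lit 5) (nat_lit 309) (nat_lit 286) (nat_lit 269)) (XT.lf (nat_lit 0) (nat_lit 1404026680) (nat_lit 924) (nat_lit 4813153930) (nat_lit 84) (nat_lit 990584317) (nat_lit 148)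 (nat_lit 5) (nat_lit 159) (nat_lit 5) (nat_lit 149) (nat_lit 5) (nat_lit 310) (nat_lit 286) (nat_lit 268)))) (XT.nd (nat_lit 94) (nat_lit 1008) (nat_lit 0) (XT.lf (nat_lit 0) (nat_lit 3572079478) (nat_lit 924) (nat_lit 1217865045) (nat_lit 84) (nat_lit 2493623727) (nat_lit 148) (nat_lit 5) (nat_lit 159) (nat_lit 5) (nat_lit 149) (nat_lit 5) (nat_lit 311) (nat_lit 286) (nat_lit 267)) (XT.nd (nat_lit 94) (nat_lit 84) (nat_lit 0) (XT.lf (nat_lit 0) (nat_lit 2480314942) (nat_lit 924) (nat_lit 3284300360) (nat_lit 1008) (nat_lit 1598747845) (nat_lit 137) (nat_lit 5) (nat_lit 148) (nat_lit 5) (nat_lit 149) (nat_lit 5) (nat_lit 312) (nat_lit 286) (nat_lit 266)) (XT.lf (nat_lit 0) (nat_lit 513797529) (nat_lit 1008) (nat_lit 1191775747) (nat_lit 84) (nat_lit 5741853037) (nat_lit 136) (nat_lit 5) (nat_lit 148) (nat_lit 5) (nat_lit 137) (nat_lit 5) (nat_lit 313) (nat_lit 286) (nat_lit 265)))))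 (XT.nd (nat_lit 282) (nat_lit 588) (nat_lit 0) (XT.nd (nat_lit 94) (nat_lit 1092) (nat_lit 0) (XT.lf (nat_lit 0) (nat_lit 2591973620) (nat_lit 1008) (nat_lit 27514237) (nat_lit 1092) (nat_lit 4915603237) (nat_lit 124) (nat_lit 5) (nat_lit 136) (nat_lit 5) (nat_lit 137) (nat_lit 5) (nat_lit 314) (nat_lit 286) (nat_lit 264)) (XT.nd (nat_lit 94) (nat_lit 1092) (nat_lit 0) (XT.lf (nat_lit 0) (nat_lit 4756508031) (nat_lit 1092) (nat_lit 1183368555) (nat_lit 84) (nat_lit 1686929929) (nat_lit 124) (nat_lit 5) (nat_lit 137) (nat_lit 5) (nat_lit 125) (nat_lit 5) (nat_lit 315) (nat_lit 286) (nat_lit 263)) (XT.lf (nat_lit 0) (nat_lit 2689072414) (nat_lit 1092) (nat_lit 4236164020) (nat_lit 1176) (nat_lit 797471651) (nat_lit 111) (nat_lit 5) (nat_lit 124) (nat_lit 5) (nat_lit 125) (nat_lit 5) (nat_lit 316) (nat_lit 286) (nat_lit 262)))) (XT.nd (nat_lit 94) (nat_lit 504) (nat_lit 0) (XT.lf (nat_lit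 0) (nat_lit 1264011457) (nat_lit 1176) (nat_lit 1186654385) (nat_lit 84) (nat_lit 5372267871) (nat_lit 110) (nat_lit 5) (nat_lit 124) (nat_lit 5) (nat_lit 111) (nat_lit 5) (nat_lit 317) (nat_lit 286) (nat_lit 261)) (XT.nd (nat_lit 94) (nat_lit 0) (nat_lit 0) (XT.lf (nat_lit 0) (nat_lit 2770322341) (nat_lit 504) (nat_lit 570742193) (nat_lit 588) (nat_lit 4586182268) (nat_lit 104) (nat_lit 5) (nat_lit 110) (nat_lit 5) (nat_lit 111) (nat_lit 5) (nat_lit 318) (nat_lit 286) (nat_lit 260)) (XT.lf (nat_lit 0) (nat_lit 5450571337) (nat_lit 588) (nat_lit 1231380750) (nat_lit 84) (nat_lit 1354072446) (nat_lit 104) (nat_lit 5) (nat_lit 111) (nat_lit 5) (nat_lit 105) (nat_lit 5) (nat_lit 319) (nat_lit 286) (nat_lit 259)))))) (XT.nd (nat_lit 564) (nat_lit 1344) (nat_lit 0) (XT.nd (nat_lit 282) (nat_lit 588) (nat_lit 0) (XT.nd (nat_lit 94) (nat_lit 588) (nat_lit 0) (XT.lf (nat_lit 0) (nat_lit 2809987567)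 (nat_lit 588) (nat_lit 4792929187) (nat_lit 672) (nat_lit 546190568) (nat_lit 97) (nat_lit 5) (nat_lit 104) (nat_lit 5) (nat_lit 105) (nat_lit 5) (nat_lit 320) (nat_lit 286) (nat_lit 258)) (XT.nd (nat_lit 94) (nat_lit 504) (nat_lit 0) (XT.lf (nat_lit 0) (nat_lit 1481998772) (nat_lit 672) (nat_lit 1335565428) (nat_lit 84) (nat_lit 5449203722) (nat_lit 96) (nat_lit 5) (nat_lit 104) (nat_lit 5) (nat_lit 97) (nat_lit 5) (nat_lit 321) (nat_lit 286) (nat_lit 257)) (XT.lf (nat_lit 0) (nat_lit 2786949711) (nat_lit 504) (nat_lit 748175652) (nat_lit 588) (nat_lit 4853815038) (nat_lit 90) (nat_lit 5) (nat_lit 96) (nat_lit 5) (nat_lit 97) (nat_lit 5) (nat_lit 322) (nat_lit 286) (nat_lit 256)))) (XT.nd (nat_lit 94) (nat_lit 588) (nat_lit 0) (XT.lf (nat_lit 0) (nat_lit 5626551086) (nat_lit 588) (nat_lit 1519762247) (nat_lit 84) (nat_lit 1369579519) (nat_lit 90) (nat_lit 5) (nat_lit 97) (nat_lit 5)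 (nat_lit 91) (nat_lit 5) (nat_lit 323) (nat_lit 286) (nat_lit 255)) (XT.nd (nat_lit 94) (nat_lit 84) (nat_lit 0) (XT.lf (nat_lit 0) (nat_lit 2680089726) (nat_lit 504) (nat_lit 5085385088) (nat_lit 588) (nat_lit 882044058) (nat_lit 84) (nat_lit 5) (nat_lit 90) (nat_lit 5) (nat_lit 91) (nat_lit 5) (nat_lit 324) (nat_lit 286) (nat_lit 254)) (XT.lf (nat_lit 0) (nat_lit 1128305314) (nat_lit 588) (nat_lit 1808275255) (nat_lit 84) (nat_lit 5847561026) (nat_lit 83) (nat_lit 5) (nat_lit 90) (nat_lit 5) (nat_lit 84) (nat_lit 5) (nat_lit 325) (nat_lit 286) (nat_lit 253))))) (XT.nd (nat_lit 282) (nat_lit 504) (nat_lit 0) (XT.nd (nat_lit 94) (nat_lit 420) (nat_lit 0) (XT.lf (nat_lit 0) (nat_lit 2466207399) (nat_lit 420) (nat_lit 691177864) (nat_lit 504) (nat_lit 5768301078) (nat_lit 78) (nat_lit 5) (nat_lit 83) (nat_lit 5) (nat_lit 84) (nat_lit 5) (nat_lit 326) (nat_lit 286) (nat_lit 252)) (XT.nd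 (nat_lit 94) (nat_lit 420) (nat_lit 0) (XT.lf (nat_lit 0) (nat_lit 5235723142) (nat_lit 504) (nat_lit 2231165242) (nat_lit 84) (nat_lit 1605331102) (nat_lit 78) (nat_lit 5) (nat_lit 84) (nat_lit 5) (nat_lit 79) (nat_lit 5) (nat_lit 327) (nat_lit 286) (nat_lit 251)) (XT.lf (nat_lit 0) (nat_lit 2109969678) (nat_lit 420) (nat_lit 5249168114) (nat_lit 504) (nat_lit 1864929489) (nat_lit 73) (nat_lit 5) (nat_lit 78) (nat_lit 5) (nat_lit 79) (nat_lit 5) (nat_lit 328) (nat_lit 286) (nat_lit 250)))) (XT.nd (nat_lit 94) (nat_lit 420) (nat_lit 0) (XT.lf (nat_lit 0) (nat_lit 140808686) (nat_lit 504) (nat_lit 2803108739) (nat_lit 84) (nat_lit 6437545954) (nat_lit 72) (nat_lit 5) (nat_lit 78) (nat_lit 5) (nat_lit 73) (nat_lit 5) (nat_lit 329) (nat_lit 286) (nat_lit 249)) (XT.nd (nat_lit 94) (nat_lit 0) (nat_lit 0) (XT.lf (nat_lit 0) (nat_lit 1602072071) (nat_lit 420) (nat_lit 538128159) (nat_lit 504)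 (nat_lit 7404027737) (nat_lit 67) (nat_lit 5) (nat_lit 72) (nat_lit 5) (nat_lit 73) (nat_lit 5) (nat_lit 330) (nat_lit 286) (nat_lit 248)) (XT.lf (nat_lit 0) (nat_lit 4205503855) (nat_lit 504) (nat_lit 3581049322) (nat_lit 84) (nat_lit 1925515645) (nat_lit 67) (nat_lit 5) (nat_lit 73) (nat_lit 5) (nat_lit 68) (nat_lit 5) (nat_lit 331) (nat_lit 286) (nat_lit 247))))))) (XT.nd (nat_lit 1128) (nat_lit 1344) (nat_lit 0) (XT.nd (nat_lit 564) (nat_lit 756) (nat_lit 0) (XT.nd (nat_lit 282) (nat_lit 672) (nat_lit 0) (XT.nd (nat_lit 94) (nat_lit 84) (nat_lit 0) (XT.lf (nat_lit 0) (nat_lit 875407107) (nat_lit 420) (nat_lit 5430068313) (nat_lit 504) (nat_lit 3580695215) (nat_lit 62) (nat_lit 5) (nat_lit 67) (nat_lit 5) (nat_lit 68) (nat_lit 5) (nat_lit 332) (nat_lit 286) (nat_lit 246)) (XT.nd (nat_lit 94) (nat_lit 84) (nat_lit 0) (XT.lf (nat_lit 0) (nat_lit 5494478115) (nat_lit 420) (nat_lit 2970701274)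 (nat_lit 504) (nat_lit 1600799978) (nat_lit 62) (nat_lit 5) (nat_lit 67) (nat_lit 5) (nat_lit 68) (nat_lit 5) (nat_lit 333) (nat_lit 286) (nat_lit 245)) (XT.lf (nat_lit 0) (nat_lit 389576901) (nat_lit 504) (nat_lit 49895197) (nat_lit 84) (nat_lit 9813192157) (nat_lit 61) (nat_lit 5) (nat_lit 67) (nat_lit 5) (nat_lit 62) (nat_lit 5) (nat_lit 334) (nat_lit 286) (nat_lit 244)))) (XT.nd (nat_lit 94) (nat_lit 336) (nat_lit 0) (XT.lf (nat_lit 0) (nat_lit 2435753123) (nat_lit 420) (nat_lit 5827065125) (nat_lit 84) (nat_lit 2181093576) (nat_lit 57) (nat_lit 5) (nat_lit 62) (nat_lit 5) (nat_lit 58) (nat_lit 5) (nat_lit 335) (nat_lit 286) (nat_lit 243)) (XT.nd (nat_lit 94) (nat_lit 336) (nat_lit 0) (XT.lf (nat_lit 0) (nat_lit 4510277384) (nat_lit 420) (nat_lit 1266409612) (nat_lit 84) (nat_lit 4865615571) (nat_lit 57) (nat_lit 5) (nat_lit 62) (nat_lit 5) (nat_lit 58) (nat_lit 5) (nat_lit 336)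 (nat_lit 286) (nat_lit 242)) (XT.lf (nat_lit 0) (nat_lit 3456624554) (nat_lit 336) (nat_lit 3187879018) (nat_lit 420) (nat_lit 4202605803) (nat_lit 53) (nat_lit 5) (nat_lit 57) (nat_lit 5) (nat_lit 58) (nat_lit 5) (nat_lit 337) (nat_lit 286) (nat_lit 241))))) (XT.nd (nat_lit 282) (nat_lit 336) (nat_lit 0) (XT.nd (nat_lit 94) (nat_lit 420) (nat_lit 0) (XT.lf (nat_lit 0) (nat_lit 8304767534) (nat_lit 336) (nat_lit 515135407) (nat_lit 420) (nat_lit 2239256270) (nat_lit 53) (nat_lit 5) (nat_lit 57) (nat_lit 5) (nat_lit 58) (nat_lit 5) (nat_lit 338) (nat_lit 286) (nat_lit 240)) (XT.nd (nat_lit 94) (nat_lit 84) (nat_lit 0) (XT.lf (nat_lit 0) (nat_lit 1995526576) (nat_lit 336) (nat_lit 9072081199) (nat_lit 420) (nat_lit 210139711) (nat_lit 49) (nat_lit 5) (nat_lit 53) (nat_lit 5) (nat_lit 54) (nat_lit 5) (nat_lit 339) (nat_lit 286) (nat_lit 239)) (XT.lf (nat_lit 0) (nat_lit 1841286784) (nat_lit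 420) (nat_lit 4623626311) (nat_lit 84) (nat_lit 5037812112) (nat_lit 48) (nat_lit 5) (nat_lit 53) (nat_lit 5) (nat_lit 49) (nat_lit 5) (nat_lit 340) (nat_lit 286) (nat_lit 238)))) (XT.nd (nat_lit 94) (nat_lit 0) (nat_lit 0) (XT.lf (nat_lit 0) (nat_lit 133110009) (nat_lit 336) (nat_lit 3784275201) (nat_lit 420) (nat_lit 7818402343) (nat_lit 44) (nat_lit 5) (nat_lit 48) (nat_lit 5) (nat_lit 49) (nat_lit 5) (nat_lit 341) (nat_lit 286) (nat_lit 237)) (XT.nd (nat_lit 94) (nat_lit 0) (nat_lit 0) (XT.lf (nat_lit 0) (nat_lit 5088990141) (nat_lit 336) (nat_lit 981855194) (nat_lit 420) (nat_lit 5904928909) (nat_lit 44) (nat_lit 5) (nat_lit 48) (nat_lit 5) (nat_lit 49) (nat_lit 5) (nat_lit 342) (nat_lit 286) (nat_lit 236)) (XT.lf (nat_lit 0) (nat_lit 8275679822) (nat_lit 420) (nat_lit 2089613315) (nat_lit 84) (nat_lit 1858483664) (nat_lit 44) (nat_lit 5) (nat_lit 49) (nat_lit 5) (nat_lit 45) (nat_lit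 5) (nat_lit 343) (nat_lit 286) (nat_lit 235)))))) (XT.nd (nat_lit 564) (nat_lit 504) (nat_lit 0) (XT.nd (nat_lit 282) (nat_lit 252) (nat_lit 0) (XT.nd (nat_lit 94) (nat_lit 336) (nat_lit 0) (XT.lf (nat_lit 0) (nat_lit 2859224304) (nat_lit 252) (nat_lit 7694772336) (nat_lit 336) (nat_lit 1925408112) (nat_lit 41) (nat_lit 5) (nat_lit 44) (nat_lit 5) (nat_lit 45) (nat_lit 5) (nat_lit 344) (nat_lit 286) (nat_lit 234)) (XT.nd (nat_lit 94) (nat_lit 252) (nat_lit 0) (XT.lf (nat_lit 0) (nat_lit 145657885) (nat_lit 336) (nat_lit 4783247398) (nat_lit 84) (nat_lit 7814437589) (nat_lit 40) (nat_lit 5) (nat_lit 44) (nat_lit 5) (nat_lit 41) (nat_lit 5) (nat_lit 345) (nat_lit 286) (nat_lit 233)) (XT.lf (nat_lit 0) (nat_lit 143244382) (nat_lit 252) (nat_lit 2066967405) (nat_lit 336) (nat_lit 10805681121) (nat_lit 37) (nat_lit 5) (nat_lit 40) (nat_lit 5) (nat_lit 41) (nat_lit 5) (nat_lit 346) (nat_lit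 286) (nat_lit 232)))) (XT.nd (nat_lit 94) (nat_lit 252) (nat_lit 0) (XT.lf (nat_lit 0) (nat_lit 4366254249) (nat_lit 336) (nat_lit 8024850688) (nat_lit 84) (nat_lit 905020285) (nat_lit 37) (nat_lit 5) (nat_lit 41) (nat_lit 5) (nat_lit 38) (nat_lit 5) (nat_lit 347) (nat_lit 286) (nat_lit 231)) (XT.nd (nat_lit 94) (nat_lit 252) (nat_lit 0) (XT.lf (nat_lit 0) (nat_lit 6579511039) (nat_lit 336) (nat_lit 3090674882) (nat_lit 84) (nat_lit 3915239903) (nat_lit 37) (nat_lit 5) (nat_lit 41) (nat_lit 5) (nat_lit 38) (nat_lit 5) (nat_lit 348) (nat_lit 286) (nat_lit 230)) (XT.lf (nat_lit 0) (nat_lit 1995181087) (nat_lit 252) (nat_lit 6856151928) (nat_lit 336) (nat_lit 5032753429) (nat_lit 34) (nat_lit 5) (nat_lit 37) (nat_lit 5) (nat_lit 38) (nat_lit 5) (nat_lit 349) (nat_lit 286) (nat_lit 229))))) (XT.nd (nat_lit 282) (nat_lit 168) (nat_lit 0) (XT.nd (nat_lit 94) (nat_lit 336) (nat_lit 0) (XT.lf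 (nat_lit 0) (nat_lit 7263161460) (nat_lit 252) (nat_lit 3933331976) (nat_lit 336) (nat_lit 2995499706) (nat_lit 34) (nat_lit 5) (nat_lit 37) (nat_lit 5) (nat_lit 38) (nat_lit 5) (nat_lit 350) (nat_lit 286) (nat_lit 228)) (XT.nd (nat_lit 94) (nat_lit 336) (nat_lit 0) (XT.lf (nat_lit 0) (nat_lit 12654625932) (nat_lit 252) (nat_lit 931261997) (nat_lit 336) (nat_lit 924514988) (nat_lit 34) (nat_lit 5) (nat_lit 37) (nat_lit 5) (nat_lit 38) (nat_lit 5) (nat_lit 351) (nat_lit 286) (nat_lit 227)) (XT.lf (nat_lit 0) (nat_lit 1213779467) (nat_lit 336) (nat_lit 11468433170) (nat_lit 84) (nat_lit 2155316957) (nat_lit 30) (nat_lit 5) (nat_lit 34) (nat_lit 5) (nat_lit 31) (nat_lit 5) (nat_lit 352) (nat_lit 286) (nat_lit 226)))) (XT.nd (nat_lit 94) (nat_lit 168) (nat_lit 0) (XT.lf (nat_lit 0) (nat_lit 3400628221) (nat_lit 336) (nat_lit 6437775951) (nat_lit 84) (nat_lit 5336123199) (nat_lit 30) (nat_lit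 5) (nat_lit 34) (nat_lit 5) (nat_lit 31) (nat_lit 5) (nat_lit 353) (nat_lit 286) (nat_lit 225)) (XT.nd (nat_lit 94) (nat_lit 168) (nat_lit 0) (XT.lf (nat_lit 0) (nat_lit 5628478097) (nat_lit 336) (nat_lit 1289658466) (nat_lit 84) (nat_lit 8604732891) (nat_lit 30) (nat_lit 5) (nat_lit 34) (nat_lit 5) (nat_lit 31) (nat_lit 5) (nat_lit 354) (nat_lit 286) (nat_lit 224)) (XT.lf (nat_lit 0) (nat_lit 4062569593) (nat_lit 168) (nat_lit 3877137282) (nat_lit 252) (nat_lit 7941924317) (nat_lit 28) (nat_lit 5) (nat_lit 30) (nat_lit 5) (nat_lit 31) (nat_lit 5) (nat_lit 355) (nat_lit 286) (nat_lit 223))))))))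
noncomputable def xc80 : XT := (XT.nd (nat_lit 2162) (nat_lit 588) (nat_lit 0) (XT.nd (nat_lit 1034) (nat_lit 588) (nat_lit 0) (XT.nd (nat_lit 470) (nat_lit 336) (nat_lit 0) (XT.nd (nat_lit 188) (nat_lit 336) (nat_lit 0) (XT.nd (nat_lit 94) (nat_lit 0) (nat_lit 0) (XT.lf (nat_lit 0) (nat_lit 9571101975) (nat_lit 168) (nat_lit 739372261) (nat_lit 252) (nat_lit 5941478590) (nat_lit 28) (nat_lit 5) (nat_lit 30) (nat_lit 5) (nat_lit 31) (nat_lit 5) (nat_lit 356) (nat_lit 286) (nat_lit 222)) (XT.lf (nat_lit 0) (nat_lit 12754581106) (nat_lit 252) (nat_lit 1444676859) (nat_lit 84) (nat_lit 2434562243) (nat_lit 28) (nat_lit 5) (nat_lit 31) (nat_lit 5) (nat_lit 29) (nat_lit 5) (nat_lit 357) (nat_lit 286) (nat_lit 221))) (XT.nd (nat_lit 94) (nat_lit 84) (nat_lit 0) (XT.lf (nat_lit 0) (nat_lit 3991205792) (nat_lit 252) (nat_lit 11306242258) (nat_lit 336) (nat_lit 1729423813) (nat_lit 25) (nat_lit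 5) (nat_lit 28) (nat_lit 5) (nat_lit 29) (nat_lit 5) (nat_lit 358) (nat_lit 286) (nat_lit 220)) (XT.nd (nat_lit 94) (nat_lit 0) (nat_lit 0) (XT.lf (nat_lit 0) (nat_lit 468373005) (nat_lit 336) (nat_lit 7846055561) (nat_lit 84) (nat_lit 9117859788) (nat_lit 24) (nat_lit 5) (nat_lit 28) (nat_lit 5) (nat_lit 25) (nat_lit 5) (nat_lit 359) (nat_lit 286) (nat_lit 219)) (XT.lf (nat_lit 0) (nat_lit 2675017722) (nat_lit 336) (nat_lit 2547839366) (nat_lit 84) (nat_lit 12627645472) (nat_lit 24) (nat_lit 5) (nat_lit 28) (nat_lit 5) (nat_lit 25) (nat_lit 5) (nat_lit 360) (nat_lit 286) (nat_lit 218))))) (XT.nd (nat_lit 282) (nat_lit 168) (nat_lit 0) (XT.nd (nat_lit 94) (nat_lit 0) (nat_lit 0) (XT.lf (nat_lit 0) (nat_lit 2940317957) (nat_lit 168) (nat_lit 2016261558) (nat_lit 252) (nat_lit 13324952408) (nat_lit 22) (nat_lit 5) (nat_lit 24) (nat_lit 5) (nat_lit 25) (nat_lit 5) (nat_lit 361) (nat_lit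 286) (nat_lit 217)) (XT.nd (nat_lit 94) (nat_lit 0) (nat_lit 0) (XT.lf (nat_lit 0) (nat_lit 7326116810) (nat_lit 252) (nat_lit 10119383071) (nat_lit 84) (nat_lit 1279939441) (nat_lit 22) (nat_lit 5) (nat_lit 25) (nat_lit 5) (nat_lit 23) (nat_lit 5) (nat_lit 362) (nat_lit 286) (nat_lit 216)) (XT.lf (nat_lit 0) (nat_lit 9767991808) (nat_lit 252) (nat_lit 4789118513) (nat_lit 84) (nat_lit 4626081446) (nat_lit 22) (nat_lit 5) (nat_lit 25) (nat_lit 5) (nat_lit 23) (nat_lit 5) (nat_lit 363) (nat_lit 286) (nat_lit 215)))) (XT.nd (nat_lit 94) (nat_lit 0) (nat_lit 0) (XT.lf (nat_lit 0) (nat_lit 688419761) (nat_lit 168) (nat_lit 11582888475) (nat_lit 252) (nat_lit 7384316036) (nat_lit 20) (nat_lit 5) (nat_lit 22) (nat_lit 5) (nat_lit 23) (nat_lit 5) (nat_lit 364) (nat_lit 286) (nat_lit 214)) (XT.nd (nat_lit 94) (nat_lit 0) (nat_lit 0) (XT.lf (nat_lit 0) (nat_lit 6405776206) (nat_lit 168) (nat_lit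 8475675342) (nat_lit 252) (nat_lit 5260391031) (nat_lit 20) (nat_lit 5) (nat_lit 22) (nat_lit 5) (nat_lit 23) (nat_lit 5) (nat_lit 365) (nat_lit 286) (nat_lit 213)) (XT.lf (nat_lit 0) (nat_lit 12269805897) (nat_lit 168) (nat_lit 5282563250) (nat_lit 252) (nat_lit 3091433799) (nat_lit 20) (nat_lit 5) (nat_lit 22) (nat_lit 5) (nat_lit 23) (nat_lit 5) (nat_lit 366) (nat_lit 286) (nat_lit 212)))))) (XT.nd (nat_lit 564) (nat_lit 168) (nat_lit 0) (XT.nd (nat_lit 282) (nat_lit 168) (nat_lit 0) (XT.nd (nat_lit 94) (nat_lit 252) (nat_lit 0) (XT.lf (nat_lit 0) (nat_lit 18285974724) (nat_lit 168) (nat_lit 2000575883) (nat_lit 252) (nat_lit 875422645) (nat_lit 20) (nat_lit 5) (nat_lit 22) (nat_lit 5) (nat_lit 23) (nat_lit 5) (nat_lit 367) (nat_lit 286) (nat_lit 211)) (XT.nd (nat_lit 94) (nat_lit 0) (nat_lit 0) (XT.lf (nat_lit 0) (nat_lit 1403591769) (nat_lit 252) (nat_lit 18903797298) (nat_lit 84)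 (nat_lit 1387721670) (nat_lit 17) (nat_lit 5) (nat_lit 20) (nat_lit 5) (nat_lit 18) (nat_lit 5) (nat_lit 368) (nat_lit 286) (nat_lit 210)) (XT.lf (nat_lit 0) (nat_lit 3766867264) (nat_lit 252) (nat_lit 13607705412) (nat_lit 84) (nat_lit 4868979347) (nat_lit 17) (nat_lit 5) (nat_lit 20) (nat_lit 5) (nat_lit 18) (nat_lit 5) (nat_lit 369) (nat_lit 286) (nat_lit 209)))) (XT.nd (nat_lit 94) (nat_lit 168) (nat_lit 0) (XT.lf (nat_lit 0) (nat_lit 6184983815) (nat_lit 252) (nat_lit 8175970604) (nat_lit 84) (nat_lit 8448650189) (nat_lit 17) (nat_lit 5) (nat_lit 20) (nat_lit 5) (nat_lit 18) (nat_lit 5) (nat_lit 370) (nat_lit 286) (nat_lit 208)) (XT.nd (nat_lit 94) (nat_lit 168) (nat_lit 0) (XT.lf (nat_lit 0) (nat_lit 8660195359) (nat_lit 252) (nat_lit 2603529931) (nat_lit 84) (nat_lit 12130070823) (nat_lit 17) (nat_lit 5) (nat_lit 20) (nat_lit 5) (nat_lit 18) (nat_lit 5) (nat_lit 371) (nat_lit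 286) (nat_lit 207)) (XT.lf (nat_lit 0) (nat_lit 3178857604) (nat_lit 168) (nat_lit 8047486111) (nat_lit 252) (nat_lit 12769349776) (nat_lit 15) (nat_lit 5) (nat_lit 17) (nat_lit 5) (nat_lit 18) (nat_lit 5) (nat_lit 372) (nat_lit 286) (nat_lit 206))))) (XT.nd (nat_lit 282) (nat_lit 168) (nat_lit 0) (XT.nd (nat_lit 94) (nat_lit 0) (nat_lit 0) (XT.lf (nat_lit 0) (nat_lit 9169118711) (nat_lit 168) (nat_lit 4713027505) (nat_lit 252) (nat_lit 10733825468) (nat_lit 15) (nat_lit 5) (nat_lit 17) (nat_lit 5) (nat_lit 18) (nat_lit 5) (nat_lit 373) (nat_lit 286) (nat_lit 205)) (XT.nd (nat_lit 94) (nat_lit 0) (nat_lit 0) (XT.lf (nat_lit 0) (nat_lit 15319303027) (nat_lit 168) (nat_lit 1284416920) (nat_lit 252) (nat_lit 8652306021) (nat_lit 15) (nat_lit 5) (nat_lit 17) (nat_lit 5) (nat_lit 18) (nat_lit 5) (nat_lit 374) (nat_lit 286) (nat_lit 204)) (XT.lf (nat_lit 0) (nat_lit 19415838071) (nat_lit 252)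 (nat_lit 4303546144) (nat_lit 84) (nat_lit 2196379400) (nat_lit 15) (nat_lit 5) (nat_lit 18) (nat_lit 5) (nat_lit 16) (nat_lit 4) (nat_lit 375) (nat_lit 286) (nat_lit 203)))) (XT.nd (nat_lit 94) (nat_lit 84) (nat_lit 0) (XT.lf (nat_lit 0) (nat_lit 1496598470) (nat_lit 84) (nat_lit 20830852530) (nat_lit 168) (nat_lit 4268152362) (nat_lit 14) (nat_lit 5) (nat_lit 15) (nat_lit 5) (nat_lit 16) (nat_lit 4) (nat_lit 376) (nat_lit 286) (nat_lit 202)) (XT.nd (nat_lit 94) (nat_lit 84) (nat_lit 0) (XT.lf (nat_lit 0) (nat_lit 7543353095) (nat_lit 84) (nat_lit 17815455825) (nat_lit 168) (nat_lit 1936826346) (nat_lit 14) (nat_lit 5) (nat_lit 15) (nat_lit 5) (nat_lit 16) (nat_lit 4) (nat_lit 377) (nat_lit 286) (nat_lit 201)) (XT.lf (nat_lit 0) (nat_lit 442212551) (nat_lit 168) (nat_lit 14268475288) (nat_lit 84) (nat_lit 13307035860) (nat_lit 13) (nat_lit 5) (nat_lit 15) (nat_lit 5) (nat_lit 14) (nat_lit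 5) (nat_lit 378) (nat_lit 286) (nat_lit 200))))))) (XT.nd (nat_lit 1128) (nat_lit 336) (nat_lit 0) (XT.nd (nat_lit 564) (nat_lit 84) (nat_lit 0) (XT.nd (nat_lit 282) (nat_lit 0) (nat_lit 0) (XT.nd (nat_lit 94) (nat_lit 168) (nat_lit 0) (XT.lf (nat_lit 0) (nat_lit 2840071025) (nat_lit 168) (nat_lit 8657790739) (nat_lit 84) (nat_lit 17264205102) (nat_lit 13) (nat_lit 5) (nat_lit 15) (nat_lit 5) (nat_lit 14) (nat_lit 5) (nat_lit 379) (nat_lit 286) (nat_lit 199)) (XT.nd (nat_lit 94) (nat_lit 168) (nat_lit 0) (XT.lf (nat_lit 0) (nat_lit 5298006866) (nat_lit 168) (nat_lit 2895785224) (nat_lit 84) (nat_lit 21336162106) (nat_lit 13) (nat_lit 5) (nat_lit 15) (nat_lit 5) (nat_lit 14) (nat_lit 5) (nat_lit 380) (nat_lit 286) (nat_lit 198)) (XT.lf (nat_lit 0) (nat_lit 3085069323) (nat_lit 168) (nat_lit 4763846072) (nat_lit 252) (nat_lit 22472237307) (nat_lit 11) (nat_lit 5) (nat_lit 13) (nat_lit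 5) (nat_lit 14) (nat_lit 5) (nat_lit 381) (nat_lit 286) (nat_lit 197)))) (XT.nd (nat_lit 94) (nat_lit 0) (nat_lit 0) (XT.lf (nat_lit 0) (nat_lit 9291011101) (nat_lit 168) (nat_lit 1204489872) (nat_lit 252) (nat_lit 20640888769) (nat_lit 11) (nat_lit 5) (nat_lit 13) (nat_lit 5) (nat_lit 14) (nat_lit 5) (nat_lit 382) (nat_lit 286) (nat_lit 196)) (XT.nd (nat_lit 94) (nat_lit 0) (nat_lit 0) (XT.lf (nat_lit 0) (nat_lit 13235290666) (nat_lit 252) (nat_lit 16333430018) (nat_lit 84) (nat_lit 2407857652) (nat_lit 11) (nat_lit 5) (nat_lit 14) (nat_lit 5) (nat_lit 12) (nat_lit 4) (nat_lit 383) (nat_lit 286) (nat_lit 195)) (XT.lf (nat_lit 0) (nat_lit 16059437506) (nat_lit 252) (nat_lit 10683699056) (nat_lit 84) (nat_lit 6099718490) (nat_lit 11) (nat_lit 5) (nat_lit 14) (nat_lit 5) (nat_lit 12) (nat_lit 4) (nat_lit 384) (nat_lit 286) (nat_lit 194))))) (XT.nd (nat_lit 282) (nat_lit 0) (nat_lit 0)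 (XT.nd (nat_lit 94) (nat_lit 84) (nat_lit 0) (XT.lf (nat_lit 0) (nat_lit 18958625204) (nat_lit 252) (nat_lit 4878970925) (nat_lit 84) (nat_lit 9898801629) (nat_lit 11) (nat_lit 5) (nat_lit 14) (nat_lit 5) (nat_lit 12) (nat_lit 4) (nat_lit 385) (nat_lit 286) (nat_lit 193)) (XT.nd (nat_lit 94) (nat_lit 0) (nat_lit 0) (XT.lf (nat_lit 0) (nat_lit 1108498768) (nat_lit 84) (nat_lit 20838053784) (nat_lit 168) (nat_lit 12711145888) (nat_lit 10) (nat_lit 5) (nat_lit 11) (nat_lit 5) (nat_lit 12) (nat_lit 4) (nat_lit 386) (nat_lit 286) (nat_lit 192)) (XT.lf (nat_lit 0) (nat_lit 7365670666) (nat_lit 84) (nat_lit 17700402726) (nat_lit 168) (nat_lit 10540300324) (nat_lit 10) (nat_lit 5) (nat_lit 11) (nat_lit 5) (nat_lit 12) (nat_lit 4) (nat_lit 387) (nat_lit 286) (nat_lit 191)))) (XT.nd (nat_lit 94) (nat_lit 0) (nat_lit 0) (XT.lf (nat_lit 0) (nat_lit 13798055459) (nat_lit 84) (nat_lit 14472644786)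 (nat_lit 168) (nat_lit 8314138855) (nat_lit 10) (nat_lit 5) (nat_lit 11) (nat_lit 5) (nat_lit 12) (nat_lit 4) (nat_lit 388) (nat_lit 286) (nat_lit 190)) (XT.nd (nat_lit 94) (nat_lit 0) (nat_lit 0) (XT.lf (nat_lit 0) (nat_lit 20411648804) (nat_lit 84) (nat_lit 11151771356) (nat_lit 168) (nat_lit 6030586467) (nat_lit 10) (nat_lit 5) (nat_lit 11) (nat_lit 5) (nat_lit 12) (nat_lit 4) (nat_lit 389) (nat_lit 286) (nat_lit 189)) (XT.lf (nat_lit 0) (nat_lit 27212615261) (nat_lit 84) (nat_lit 7734687033) (nat_lit 168) (nat_lit 3687514648) (nat_lit 10) (nat_lit 5) (nat_lit 11) (nat_lit 5) (nat_lit 12) (nat_lit 4) (nat_lit 390) (nat_lit 286) (nat_lit 188)))))) (XT.nd (nat_lit 564) (nat_lit 84) (nat_lit 0) (XT.nd (nat_lit 282) (nat_lit 0) (nat_lit 0) (XT.nd (nat_lit 94) (nat_lit 252) (nat_lit 0) (XT.lf (nat_lit 0) (nat_lit 34207294046) (nat_lit 84) (nat_lit 4218206736) (nat_lit 168) (nat_lit 1282739412)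 (nat_lit 10) (nat_lit 5) (nat_lit 11) (nat_lit 5) (nat_lit 12) (nat_lit 4) (nat_lit 391) (nat_lit 286) (nat_lit 187)) (XT.nd (nat_lit 94) (nat_lit 0) (nat_lit 0) (XT.lf (nat_lit 0) (nat_lit 586989458) (nat_lit 168) (nat_lit 580919425) (nat_lit 252) (nat_lit 39646822811) (nat_lit 7) (nat_lit 5) (nat_lit 9) (nat_lit 5) (nat_lit 10) (nat_lit 5) (nat_lit 392) (nat_lit 286) (nat_lit 186)) (XT.lf (nat_lit 0) (nat_lit 3747019596) (nat_lit 252) (nat_lit 35035557447) (nat_lit 84) (nat_lit 3170105398) (nat_lit 7) (nat_lit 5) (nat_lit 10) (nat_lit 5) (nat_lit 8) (nat_lit 4) (nat_lit 393) (nat_lit 286) (nat_lit 185)))) (XT.nd (nat_lit 94) (nat_lit 0) (nat_lit 0) (XT.lf (nat_lit 0) (nat_lit 6402027946) (nat_lit 252) (nat_lit 29704783592) (nat_lit 84) (nat_lit 7019241269) (nat_lit 7) (nat_lit 5) (nat_lit 10) (nat_lit 5) (nat_lit 8) (nat_lit 4) (nat_lit 394) (nat_lit 286) (nat_lit 184)) (XT.nd (nat_lit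 94) (nat_lit 0) (nat_lit 0) (XT.lf (nat_lit 0) (nat_lit 9129645885) (nat_lit 252) (nat_lit 24224689038) (nat_lit 84) (nat_lit 10981780217) (nat_lit 7) (nat_lit 5) (nat_lit 10) (nat_lit 5) (nat_lit 8) (nat_lit 4) (nat_lit 395) (nat_lit 286) (nat_lit 183)) (XT.lf (nat_lit 0) (nat_lit 11932415840) (nat_lit 252) (nat_lit 18590165763) (nat_lit 84) (nat_lit 15061415744) (nat_lit 7) (nat_lit 5) (nat_lit 10) (nat_lit 5) (nat_lit 8) (nat_lit 4) (nat_lit 396) (nat_lit 286) (nat_lit 182))))) (XT.nd (nat_lit 282) (nat_lit 84) (nat_lit 0) (XT.nd (nat_lit 94) (nat_lit 0) (nat_lit 0) (XT.lf (nat_lit 0) (nat_lit 14812950285) (nat_lit 252) (nat_lit 12795961801) (nat_lit 84) (nat_lit 19261950496) (nat_lit 7) (nat_lit 5) (nat_lit 10) (nat_lit 5) (nat_lit 8) (nat_lit 4) (nat_lit 397) (nat_lit 286) (nat_lit 181)) (XT.nd (nat_lit 94) (nat_lit 0) (nat_lit 0) (XT.lf (nat_lit 0) (nat_lit 17773934181) (nat_lit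 252) (nat_lit 6836676348) (nat_lit 84) (nat_lit 23587299814) (nat_lit 7) (nat_lit 5) (nat_lit 10) (nat_lit 5) (nat_lit 8) (nat_lit 4) (nat_lit 398) (nat_lit 286) (nat_lit 180)) (XT.lf (nat_lit 0) (nat_lit 20818127475) (nat_lit 252) (nat_lit 706754724) (nat_lit 84) (nat_lit 28041495374) (nat_lit 7) (nat_lit 5) (nat_lit 10) (nat_lit 5) (nat_lit 8) (nat_lit 4) (nat_lit 399) (nat_lit 286) (nat_lit 179)))) (XT.nd (nat_lit 94) (nat_lit 0) (nat_lit 0) (XT.lf (nat_lit 0) (nat_lit 5714654347) (nat_lit 84) (nat_lit 18290403403) (nat_lit 168) (nat_lit 26970724686) (nat_lit 6) (nat_lit 5) (nat_lit 7) (nat_lit 5) (nat_lit 8) (nat_lit 4) (nat_lit 400) (nat_lit 286) (nat_lit 178)) (XT.nd (nat_lit 94) (nat_lit 0) (nat_lit 0) (XT.lf (nat_lit 0) (nat_lit 12336570733) (nat_lit 84) (nat_lit 14953382062) (nat_lit 168) (nat_lit 25138965877) (nat_lit 6) (nat_lit 5) (nat_lit 7) (nat_lit 5) (nat_lit 8) (nat_lit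 4) (nat_lit 401) (nat_lit 286) (nat_lit 177)) (XT.lf (nat_lit 0) (nat_lit 19150634425) (nat_lit 84) (nat_lit 11518084793) (nat_lit 168) (nat_lit 23258643350) (nat_lit 6) (nat_lit 5) (nat_lit 7) (nat_lit 5) (nat_lit 8) (nat_lit 4) (nat_lit 402) (nat_lit 286) (nat_lit 176))))))))
noncomputable def xc81 : XT := (XT.nd (nat_lit 43616) (nat_lit 0) (nat_lit 11172) (XT.nd (nat_lit 1128) (nat_lit 84) (nat_lit 0) (XT.nd (nat_lit 564) (nat_lit 84) (nat_lit 0) (XT.nd (nat_lit 282) (nat_lit 84) (nat_lit 0) (XT.nd (nat_lit 94) (nat_lit 0) (nat_lit 0) (XT.lf (nat_lit 0) (nat_lit 26163196844) (nat_lit 84) (nat_lit 7981309538) (nat_lit 168) (nat_lit 21328004447) (nat_lit 6) (nat_lit 5) (nat_lit 7) (nat_lit 5) (nat_lit 8) (nat_lit 4) (nat_lit 403) (nat_lit 286) (nat_lit 175)) (XT.nd (nat_lit 94) (nat_lit 0) (nat_lit 0) (XT.lf (nat_lit 0) (nat_lit 33380794433) (nat_lit 84) (nat_lit 4339759653) (nat_lit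 168) (nat_lit 19345249612) (nat_lit 6) (nat_lit 5) (nat_lit 7) (nat_lit 5) (nat_lit 8) (nat_lit 4) (nat_lit 404) (nat_lit 286) (nat_lit 174)) (XT.lf (nat_lit 0) (nat_lit 40810154749) (nat_lit 84) (nat_lit 590040831) (nat_lit 168) (nat_lit 17308530710) (nat_lit 6) (nat_lit 5) (nat_lit 7) (nat_lit 5) (nat_lit 8) (nat_lit 4) (nat_lit 405) (nat_lit 286) (nat_lit 173)))) (XT.nd (nat_lit 94) (nat_lit 84) (nat_lit 0) (XT.lf (nat_lit 0) (nat_lit 45219312795) (nat_lit 168) (nat_lit 11977059364) (nat_lit 0) (nat_lit 3205431805) (nat_lit 6) (nat_lit 5) (nat_lit 8) (nat_lit 4) (nat_lit 6) (nat_lit 4) (nat_lit 406) (nat_lit 286) (nat_lit 172)) (XT.nd (nat_lit 94) (nat_lit 84) (nat_lit 0) (XT.lf (nat_lit 0) (nat_lit 49155979884) (nat_lit 168) (nat_lit 5889467602) (nat_lit 0) (nat_lit 7101957416) (nat_lit 6) (nat_lit 5) (nat_lit 8) (nat_lit 4) (nat_lit 6) (nat_lit 4) (nat_lit 407) (nat_lit 286) (nat_lit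 171)) (XT.lf (nat_lit 0) (nat_lit 383457101) (nat_lit 84) (nat_lit 52828359796) (nat_lit 84) (nat_lit 10735402820) (nat_lit 5) (nat_lit 4) (nat_lit 6) (nat_lit 5) (nat_lit 6) (nat_lit 4) (nat_lit 408) (nat_lit 286) (nat_lit 170))))) (XT.nd (nat_lit 282) (nat_lit 84) (nat_lit 0) (XT.nd (nat_lit 94) (nat_lit 0) (nat_lit 0) (XT.lf (nat_lit 0) (nat_lit 6964700341) (nat_lit 84) (nat_lit 50483579277) (nat_lit 84) (nat_lit 8352858471) (nat_lit 5) (nat_lit 4) (nat_lit 6) (nat_lit 5) (nat_lit 6) (nat_lit 4) (nat_lit 409) (nat_lit 286) (nat_lit 169)) (XT.nd (nat_lit 94) (nat_lit 0) (nat_lit 0) (XT.lf (nat_lit 0) (nat_lit 13739296993) (nat_lit 84) (nat_lit 48070394311) (nat_lit 84) (nat_lit 5903045155) (nat_lit 5) (nat_lit 4) (nat_lit 6) (nat_lit 5) (nat_lit 6) (nat_lit 4) (nat_lit 410) (nat_lit 286) (nat_lit 168)) (XT.lf (nat_lit 0) (nat_lit 20713561691) (nat_lit 84) (nat_lit 45586555556) (nat_lit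 84) (nat_lit 3383679387) (nat_lit 5) (nat_lit 4) (nat_lit 6) (nat_lit 5) (nat_lit 6) (nat_lit 4) (nat_lit 411) (nat_lit 286) (nat_lit 167)))) (XT.nd (nat_lit 94) (nat_lit 84) (nat_lit 0) (XT.lf (nat_lit 0) (nat_lit 27893995179) (nat_lit 84) (nat_lit 43029747815) (nat_lit 84) (nat_lit 792412856) (nat_lit 5) (nat_lit 4) (nat_lit 6) (nat_lit 5) (nat_lit 6) (nat_lit 4) (nat_lit 412) (nat_lit 286) (nat_lit 166)) (XT.nd (nat_lit 94) (nat_lit 0) (nat_lit 0) (XT.lf (nat_lit 0) (nat_lit 1835429574) (nat_lit 168) (nat_lit 38543000181) (nat_lit 84) (nat_lit 33432702680) (nat_lit 4) (nat_lit 5) (nat_lit 6) (nat_lit 5) (nat_lit 5) (nat_lit 4) (nat_lit 413) (nat_lit 286) (nat_lit 165)) (XT.lf (nat_lit 0) (nat_lit 4522559986) (nat_lit 168) (nat_lit 33117856051) (nat_lit 84) (nat_lit 38330572365) (nat_lit 4) (nat_lit 5) (nat_lit 6) (nat_lit 5) (nat_lit 5) (nat_lit 4) (nat_lit 414) (nat_lit 286) (nat_lit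 164)))))) (XT.nd (nat_lit 564) (nat_lit 0) (nat_lit 0) (XT.nd (nat_lit 282) (nat_lit 84) (nat_lit 0) (XT.nd (nat_lit 94) (nat_lit 0) (nat_lit 0) (XT.lf (nat_lit 0) (nat_lit 7287448420) (nat_lit 168) (nat_lit 27533810646) (nat_lit 84) (nat_lit 43376721585) (nat_lit 4) (nat_lit 5) (nat_lit 6) (nat_lit 5) (nat_lit 5) (nat_lit 4) (nat_lit 415) (nat_lit 286) (nat_lit 163)) (XT.nd (nat_lit 94) (nat_lit 0) (nat_lit 0) (XT.lf (nat_lit 0) (nat_lit 10132672041) (nat_lit 168) (nat_lit 21785659051) (nat_lit 84) (nat_lit 48575853879) (nat_lit 4) (nat_lit 5) (nat_lit 6) (nat_lit 5) (nat_lit 5) (nat_lit 4) (nat_lit 416) (nat_lit 286) (nat_lit 162)) (XT.lf (nat_lit 0) (nat_lit 13060882896) (nat_lit 168) (nat_lit 15868043385) (nat_lit 84) (nat_lit 53932815384) (nat_lit 4) (nat_lit 5) (nat_lit 6) (nat_lit 5) (nat_lit 5) (nat_lit 4) (nat_lit 417) (nat_lit 286) (nat_lit 161)))) (XT.nd (nat_lit 94) (nat_lit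 84) (nat_lit 0) (XT.lf (nat_lit 0) (nat_lit 16074810385) (nat_lit 168) (nat_lit 9775447811) (nat_lit 84) (nat_lit 59452599348) (nat_lit 4) (nat_lit 5) (nat_lit 6) (nat_lit 5) (nat_lit 5) (nat_lit 4) (nat_lit 418) (nat_lit 286) (nat_lit 160)) (XT.nd (nat_lit 94) (nat_lit 84) (nat_lit 0) (XT.lf (nat_lit 0) (nat_lit 19177263803) (nat_lit 168) (nat_lit 3502193392) (nat_lit 84) (nat_lit 65140350789) (nat_lit 4) (nat_lit 5) (nat_lit 6) (nat_lit 5) (nat_lit 5) (nat_lit 4) (nat_lit 419) (nat_lit 286) (nat_lit 159)) (XT.lf (nat_lit 0) (nat_lit 3018380849) (nat_lit 84) (nat_lit 19382696824) (nat_lit 168) (nat_lit 68012933148) (nat_lit 3) (nat_lit 5) (nat_lit 4) (nat_lit 5) (nat_lit 5) (nat_lit 4) (nat_lit 420) (nat_lit 286) (nat_lit 158))))) (XT.nd (nat_lit 282) (nat_lit 0) (nat_lit 0) (XT.nd (nat_lit 94) (nat_lit 0) (nat_lit 0) (XT.lf (nat_lit 0) (nat_lit 9807453476) (nat_lit 84) (nat_lit 15949238560)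 (nat_lit 168) (nat_lit 67330961601) (nat_lit 3) (nat_lit 5) (nat_lit 4) (nat_lit 5) (nat_lit 5) (nat_lit 4) (nat_lit 421) (nat_lit 286) (nat_lit 157)) (XT.nd (nat_lit 94) (nat_lit 0) (nat_lit 0) (XT.lf (nat_lit 0) (nat_lit 16799340336) (nat_lit 84) (nat_lit 12412437777) (nat_lit 168) (nat_lit 66632549587) (nat_lit 3) (nat_lit 5) (nat_lit 4) (nat_lit 5) (nat_lit 5) (nat_lit 4) (nat_lit 422) (nat_lit 286) (nat_lit 156)) (XT.lf (nat_lit 0) (nat_lit 24000558600) (nat_lit 84) (nat_lit 8768997807) (nat_lit 168) (nat_lit 65917046114) (nat_lit 3) (nat_lit 5) (nat_lit 4) (nat_lit 5) (nat_lit 5) (nat_lit 4) (nat_lit 423) (nat_lit 286) (nat_lit 155)))) (XT.nd (nat_lit 94) (nat_lit 0) (nat_lit 0) (XT.lf (nat_lit 0) (nat_lit 31417820557) (nat_lit 84) (nat_lit 5015522581) (nat_lit 168) (nat_lit 65183784256) (nat_lit 3) (nat_lit 5) (nat_lit 4) (nat_lit 5) (nat_lit 5) (nat_lit 4) (nat_lit 424) (nat_lit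 286) (nat_lit 154)) (XT.nd (nat_lit 94) (nat_lit 0) (nat_lit 0) (XT.lf (nat_lit 0) (nat_lit 39058039874) (nat_lit 84) (nat_lit 1148513467) (nat_lit 168) (nat_lit 64432080537) (nat_lit 3) (nat_lit 5) (nat_lit 4) (nat_lit 5) (nat_lit 5) (nat_lit 4) (nat_lit 425) (nat_lit 286) (nat_lit 153)) (XT.lf (nat_lit 0) (nat_lit 44120833883) (nat_lit 168) (nat_lit 60853730139) (nat_lit 0) (nat_lit 2778502285) (nat_lit 3) (nat_lit 5) (nat_lit 5) (nat_lit 4) (nat_lit 3) (nat_lit 4) (nat_lit 426) (nat_lit 286) (nat_lit 152))))))) (XT.nd (nat_lit 1128) (nat_lit 4620) (nat_lit 0) (XT.nd (nat_lit 564) (nat_lit 924) (nat_lit 0) (XT.nd (nat_lit 282) (nat_lit 504) (nat_lit 0) (XT.nd (nat_lit 94) (nat_lit 168) (nat_lit 0) (XT.lf (nat_lit 0) (nat_lit 1342546705) (nat_lit 84) (nat_lit 538331343) (nat_lit 0) (nat_lit 1342546705) (nat_lit 210) (nat_lit 5) (nat_lit 211) (nat_lit 0) (nat_lit 210) (nat_lit 4) (nat_lit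 290) (nat_lit 287) (nat_lit 287)) (XT.nd (nat_lit 94) (nat_lit 84) (nat_lit 0) (XT.lf (nat_lit 0) (nat_lit 1694118712) (nat_lit 84) (nat_lit 3617069193) (nat_lit 84) (nat_lit 1142422691) (nat_lit 209) (nat_lit 4) (nat_lit 210) (nat_lit 5) (nat_lit 210) (nat_lit 4) (nat_lit 291) (nat_lit 287) (nat_lit 286)) (XT.lf (nat_lit 0) (nat_lit 1434519849) (nat_lit 168) (nat_lit 1961375778) (nat_lit 84) (nat_lit 3067744966) (nat_lit 208) (nat_lit 5) (nat_lit 210) (nat_lit 5) (nat_lit 209) (nat_lit 4) (nat_lit 292) (nat_lit 287) (nat_lit 285)))) (XT.nd (nat_lit 94) (nat_lit 336) (nat_lit 0) (XT.lf (nat_lit 0) (nat_lit 871954990) (nat_lit 168) (nat_lit 3103874421) (nat_lit 252) (nat_lit 2501295192) (nat_lit 206) (nat_lit 5) (nat_lit 208) (nat_lit 5) (nat_lit 209) (nat_lit 4) (nat_lit 293) (nat_lit 287) (nat_lit 284)) (XT.nd (nat_lit 94) (nat_lit 252) (nat_lit 0) (XT.lf (nat_lit 0) (nat_lit 23851346)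 (nat_lit 252) (nat_lit 2716441107) (nat_lit 84) (nat_lit 3753769483) (nat_lit 205) (nat_lit 5) (nat_lit 208) (nat_lit 5) (nat_lit 206) (nat_lit 5) (nat_lit 294) (nat_lit 287) (nat_lit 283)) (XT.lf (nat_lit 0) (nat_lit 182217531) (nat_lit 252) (nat_lit 2298294434) (nat_lit 336) (nat_lit 4033760481) (nat_lit 202) (nat_lit 5) (nat_lit 205) (nat_lit 5) (nat_lit 206) (nat_lit 5) (nat_lit 295) (nat_lit 287) (nat_lit 282))))) (XT.nd (nat_lit 282) (nat_lit 504) (nat_lit 0) (XT.nd (nat_lit 94) (nat_lit 420) (nat_lit 0) (XT.lf (nat_lit 0) (nat_lit 3171196605) (nat_lit 252) (nat_lit 1776209563) (nat_lit 336) (nat_lit 1590330952) (nat_lit 202) (nat_lit 5) (nat_lit 205) (nat_lit 5) (nat_lit 206) (nat_lit 5) (nat_lit 296) (nat_lit 287) (nat_lit 281)) (XT.nd (nat_lit 94) (nat_lit 336) (nat_lit 0) (XT.lf (nat_lit 0) (nat_lit 817198183) (nat_lit 336) (nat_lit 376177221) (nat_lit 84) (nat_lit 5371698498)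 (nat_lit 201) (nat_lit 5) (nat_lit 205) (nat_lit 5) (nat_lit 202) (nat_lit 5) (nat_lit 297) (nat_lit 287) (nat_lit 280)) (XT.lf (nat_lit 0) (nat_lit 2688664761) (nat_lit 336) (nat_lit 514194667) (nat_lit 420) (nat_lit 3392394844) (nat_lit 197) (nat_lit 5) (nat_lit 201) (nat_lit 5) (nat_lit 202) (nat_lit 5) (nat_lit 298) (nat_lit 287) (nat_lit 279)))) (XT.nd (nat_lit 94) (nat_lit 504) (nat_lit 0) (XT.lf (nat_lit 0) (nat_lit 5580630845) (nat_lit 420) (nat_lit 830768054) (nat_lit 84) (nat_lit 218025432) (nat_lit 197) (nat_lit 5) (nat_lit 202) (nat_lit 5) (nat_lit 198) (nat_lit 5) (nat_lit 299) (nat_lit 287) (nat_lit 278)) (XT.nd (nat_lit 94) (nat_lit 0) (nat_lit 0) (XT.lf (nat_lit 0) (nat_lit 1282134851) (nat_lit 504) (nat_lit 4355259860) (nat_lit 84) (nat_lit 1029115675) (nat_lit 191) (nat_lit 5) (nat_lit 197) (nat_lit 5) (nat_lit 192) (nat_lit 5) (nat_lit 300) (nat_lit 287) (nat_lit 277))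 (XT.lf (nat_lit 0) (nat_lit 3587942018) (nat_lit 504) (nat_lit 1205982362) (nat_lit 84) (nat_lit 1913304272) (nat_lit 191) (nat_lit 5) (nat_lit 197) (nat_lit 5) (nat_lit 192) (nat_lit 5) (nat_lit 301) (nat_lit 287) (nat_lit 276)))))) (XT.nd (nat_lit 564) (nat_lit 2688) (nat_lit 0) (XT.nd (nat_lit 282) (nat_lit 756) (nat_lit 0) (XT.nd (nat_lit 94) (nat_lit 672) (nat_lit 0) (XT.lf (nat_lit 0) (nat_lit 2024512125) (nat_lit 504) (nat_lit 3878982601) (nat_lit 588) (nat_lit 848085699) (nat_lit 185) (nat_lit 5) (nat_lit 191) (nat_lit 5) (nat_lit 192) (nat_lit 5) (nat_lit 302) (nat_lit 287) (nat_lit 275)) (XT.nd (nat_lit 94) (nat_lit 588) (nat_lit 0) (XT.lf (nat_lit 0) (nat_lit 1394976391) (nat_lit 588) (nat_lit 1489863766) (nat_lit 84) (nat_lit 3914560130) (nat_lit 184) (nat_lit 5) (nat_lit 191) (nat_lit 5) (nat_lit 185) (nat_lit 5) (nat_lit 303) (nat_lit 287) (nat_lit 274)) (XT.lf (nat_lit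 0) (nat_lit 1818708351) (nat_lit 588) (nat_lit 1810559142) (nat_lit 672) (nat_lit 3221464982) (nat_lit 177) (nat_lit 5) (nat_lit 184) (nat_lit 5) (nat_lit 185) (nat_lit 5) (nat_lit 304) (nat_lit 287) (nat_lit 273)))) (XT.nd (nat_lit 94) (nat_lit 756) (nat_lit 0) (XT.lf (nat_lit 0) (nat_lit 5205052394) (nat_lit 588) (nat_lit 666397353) (nat_lit 672) (nat_lit 1034513625) (nat_lit 177) (nat_lit 5) (nat_lit 184) (nat_lit 5) (nat_lit 185) (nat_lit 5) (nat_lit 305) (nat_lit 287) (nat_lit 272)) (XT.nd (nat_lit 94) (nat_lit 0) (nat_lit 0) (XT.lf (nat_lit 0) (nat_lit 1142321633) (nat_lit 756) (nat_lit 5271344781) (nat_lit 84) (nat_lit 550898788) (nat_lit 168) (nat_lit 5) (nat_lit 177) (nat_lit 5) (nat_lit 169) (nat_lit 5) (nat_lit 306) (nat_lit 287) (nat_lit 271)) (XT.lf (nat_lit 0) (nat_lit 3316043136) (nat_lit 756) (nat_lit 1872274274) (nat_lit 84) (nat_lit 1838230025) (nat_lit 168) (nat_lit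 5) (nat_lit 177) (nat_lit 5) (nat_lit 169) (nat_lit 5) (nat_lit 307) (nat_lit 287) (nat_lit 270))))) (XT.nd (nat_lit 282) (nat_lit 1008) (nat_lit 0) (XT.nd (nat_lit 94) (nat_lit 924) (nat_lit 0) (XT.lf (nat_lit 0) (nat_lit 1607432976) (nat_lit 756) (nat_lit 3894026060) (nat_lit 840) (nat_lit 1591076844) (nat_lit 159) (nat_lit 5) (nat_lit 168) (nat_lit 5) (nat_lit 169) (nat_lit 5) (nat_lit 308) (nat_lit 287) (nat_lit 269)) (XT.nd (nat_lit 94) (nat_lit 840) (nat_lit 0) (XT.lf (nat_lit 0) (nat_lit 530725812) (nat_lit 840) (nat_lit 1989696146) (nat_lit 84) (nat_lit 4641894542) (nat_lit 158) (nat_lit 5) (nat_lit 168) (nat_lit 5) (nat_lit 159) (nat_lit 5) (nat_lit 309) (nat_lit 287) (nat_lit 268)) (XT.lf (nat_lit 0) (nat_lit 1572898418) (nat_lit 840) (nat_lit 1058995935) (nat_lit 924) (nat_lit 4603842630) (nat_lit 148) (nat_lit 5) (nat_lit 158) (nat_lit 5) (nat_lit 159) (nat_lit 5) (nat_lit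 310) (nat_lit 287) (nat_lit 267)))) (XT.nd (nat_lit 94) (nat_lit 1008) (nat_lit 0) (XT.lf (nat_lit 0) (nat_lit 4756289815) (nat_lit 924) (nat_lit 2085865418) (nat_lit 84) (nat_lit 470894604) (nat_lit 148) (nat_lit 5) (nat_lit 159) (nat_lit 5) (nat_lit 149) (nat_lit 5) (nat_lit 311) (nat_lit 287) (nat_lit 266)) (XT.nd (nat_lit 94) (nat_lit 84) (nat_lit 0) (XT.lf (nat_lit 0) (nat_lit 1565937381) (nat_lit 924) (nat_lit 5341662364) (nat_lit 1008) (nat_lit 486674450) (nat_lit 137) (nat_lit 5) (nat_lit 148) (nat_lit 5) (nat_lit 149) (nat_lit 5) (nat_lit 312) (nat_lit 287) (nat_lit 265)) (XT.lf (nat_lit 0) (nat_lit 1571536567) (nat_lit 1008) (nat_lit 2176566769) (nat_lit 84) (nat_lit 3731024309) (nat_lit 136) (nat_lit 5) (nat_lit 148) (nat_lit 5) (nat_lit 137) (nat_lit 5) (nat_lit 313) (nat_lit 287) (nat_lit 264))))))))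
noncomputable def xc82 : XT := (XT.nd (nat_lit 2256) (nat_lit 2436) (nat_lit 0) (XT.nd (nat_lit 1128) (nat_lit 2520) (nat_lit 0) (XT.nd (nat_lit 564) (nat_lit 1764) (nat_lit 0) (XT.nd (nat_lit 282) (nat_lit 504) (nat_lit 0) (XT.nd (nat_lit 94) (nat_lit 1176) (nat_lit 0) (XT.lf (nat_lit 0) (nat_lit 1558751005) (nat_lit 1008) (nat_lit 2077257660) (nat_lit 1092) (nat_lit 3932199727) (nat_lit 124) (nat_lit 5) (nat_lit 136) (nat_lit 5) (nat_lit 137) (nat_lit 5) (nat_lit 314) (nat_lit 287) (nat_lit 263)) (XT.nd (nat_lit 94) (nat_lit 1176) (nat_lit 0) (XT.lf (nat_lit 0) (nat_lit 5400488547) (nat_lit 1008) (nat_lit 325153102) (nat_lit 1092) (nat_lit 1935885216) (nat_lit 124) (nat_lit 5) (nat_lit 136) (nat_lit 5) (nat_lit 137) (nat_lit 5) (nat_lit 315) (nat_lit 287) (nat_lit 262)) (XT.lf (nat_lit 0) (nat_lit 89856471) (nat_lit 1176) (nat_lit 6195439111) (nat_lit 84) (nat_lit 1473590956) (nat_lit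 110) (nat_lit 5) (nat_lit 124) (nat_lit 5) (nat_lit 111) (nat_lit 5) (nat_lit 316) (nat_lit 287) (nat_lit 261)))) (XT.nd (nat_lit 94) (nat_lit 504) (nat_lit 0) (XT.lf (nat_lit 0) (nat_lit 2106098209) (nat_lit 1176) (nat_lit 2384394712) (nat_lit 84) (nat_lit 3369400715) (nat_lit 110) (nat_lit 5) (nat_lit 124) (nat_lit 5) (nat_lit 111) (nat_lit 5) (nat_lit 317) (nat_lit 287) (nat_lit 260)) (XT.nd (nat_lit 94) (nat_lit 0) (nat_lit 0) (XT.lf (nat_lit 0) (nat_lit 1520211883) (nat_lit 504) (nat_lit 2622241263) (nat_lit 588) (nat_lit 3823133859) (nat_lit 104) (nat_lit 5) (nat_lit 110) (nat_lit 5) (nat_lit 111) (nat_lit 5) (nat_lit 318) (nat_lit 287) (nat_lit 259)) (XT.lf (nat_lit 0) (nat_lit 5541759079) (nat_lit 504) (nat_lit 668779109) (nat_lit 588) (nat_lit 1865225695) (nat_lit 104) (nat_lit 5) (nat_lit 110) (nat_lit 5) (nat_lit 111) (nat_lit 5) (nat_lit 319) (nat_lit 287) (nat_lit 258)))))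 (XT.nd (nat_lit 282) (nat_lit 588) (nat_lit 0) (XT.nd (nat_lit 94) (nat_lit 504) (nat_lit 0) (XT.lf (nat_lit 0) (nat_lit 123040477) (nat_lit 672) (nat_lit 6731915989) (nat_lit 84) (nat_lit 1335417130) (nat_lit 96) (nat_lit 5) (nat_lit 104) (nat_lit 5) (nat_lit 97) (nat_lit 5) (nat_lit 320) (nat_lit 287) (nat_lit 257)) (XT.nd (nat_lit 94) (nat_lit 504) (nat_lit 0) (XT.lf (nat_lit 0) (nat_lit 2113520301) (nat_lit 672) (nat_lit 2761211724) (nat_lit 84) (nat_lit 3434067059) (nat_lit 96) (nat_lit 5) (nat_lit 104) (nat_lit 5) (nat_lit 97) (nat_lit 5) (nat_lit 321) (nat_lit 287) (nat_lit 256)) (XT.lf (nat_lit 0) (nat_lit 1304835142) (nat_lit 504) (nat_lit 2821206958) (nat_lit 588) (nat_lit 4306290053) (nat_lit 90) (nat_lit 5) (nat_lit 96) (nat_lit 5) (nat_lit 97) (nat_lit 5) (nat_lit 322) (nat_lit 287) (nat_lit 255)))) (XT.nd (nat_lit 94) (nat_lit 588) (nat_lit 0) (XT.lf (nat_lit 0) (nat_lit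 5501974041) (nat_lit 504) (nat_lit 676243535) (nat_lit 588) (nat_lit 2382382565) (nat_lit 90) (nat_lit 5) (nat_lit 96) (nat_lit 5) (nat_lit 97) (nat_lit 5) (nat_lit 323) (nat_lit 287) (nat_lit 254)) (XT.nd (nat_lit 94) (nat_lit 84) (nat_lit 0) (XT.lf (nat_lit 0) (nat_lit 1089491708) (nat_lit 504) (nat_lit 7180531851) (nat_lit 588) (nat_lit 423759063) (nat_lit 84) (nat_lit 5) (nat_lit 90) (nat_lit 5) (nat_lit 91) (nat_lit 5) (nat_lit 324) (nat_lit 287) (nat_lit 253)) (XT.lf (nat_lit 0) (nat_lit 1552869833) (nat_lit 588) (nat_lit 3476405254) (nat_lit 84) (nat_lit 3801838560) (nat_lit 83) (nat_lit 5) (nat_lit 90) (nat_lit 5) (nat_lit 84) (nat_lit 5) (nat_lit 325) (nat_lit 287) (nat_lit 252)))))) (XT.nd (nat_lit 564) (nat_lit 1176) (nat_lit 0) (XT.nd (nat_lit 282) (nat_lit 504) (nat_lit 0) (XT.nd (nat_lit 94) (nat_lit 420) (nat_lit 0) (XT.lf (nat_lit 0) (nat_lit 737325777) (nat_lit 420)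 (nat_lit 2803722506) (nat_lit 504) (nat_lit 5432965481) (nat_lit 78) (nat_lit 5) (nat_lit 83) (nat_lit 5) (nat_lit 84) (nat_lit 5) (nat_lit 326) (nat_lit 287) (nat_lit 251)) (XT.nd (nat_lit 94) (nat_lit 420) (nat_lit 0) (XT.lf (nat_lit 0) (nat_lit 5103272876) (nat_lit 420) (nat_lit 476569595) (nat_lit 504) (nat_lit 3542015089) (nat_lit 78) (nat_lit 5) (nat_lit 83) (nat_lit 5) (nat_lit 84) (nat_lit 5) (nat_lit 327) (nat_lit 287) (nat_lit 250)) (XT.lf (nat_lit 0) (nat_lit 264450269) (nat_lit 420) (nat_lit 7393157848) (nat_lit 504) (nat_lit 1617594605) (nat_lit 73) (nat_lit 5) (nat_lit 78) (nat_lit 5) (nat_lit 79) (nat_lit 5) (nat_lit 328) (nat_lit 287) (nat_lit 249)))) (XT.nd (nat_lit 94) (nat_lit 420) (nat_lit 0) (XT.lf (nat_lit 0) (nat_lit 360669779) (nat_lit 504) (nat_lit 4728141872) (nat_lit 84) (nat_lit 4344485688) (nat_lit 72) (nat_lit 5) (nat_lit 78) (nat_lit 5) (nat_lit 73) (nat_lit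 5) (nat_lit 329) (nat_lit 287) (nat_lit 248)) (XT.nd (nat_lit 94) (nat_lit 420) (nat_lit 0) (XT.lf (nat_lit 0) (nat_lit 2322354270) (nat_lit 504) (nat_lit 380384435) (nat_lit 84) (nat_lit 6894567190) (nat_lit 72) (nat_lit 5) (nat_lit 78) (nat_lit 5) (nat_lit 73) (nat_lit 5) (nat_lit 330) (nat_lit 287) (nat_lit 247)) (XT.lf (nat_lit 0) (nat_lit 4135949325) (nat_lit 420) (nat_lit 206958092) (nat_lit 504) (nat_lit 5423699389) (nat_lit 67) (nat_lit 5) (nat_lit 72) (nat_lit 5) (nat_lit 73) (nat_lit 5) (nat_lit 331) (nat_lit 287) (nat_lit 246))))) (XT.nd (nat_lit 282) (nat_lit 672) (nat_lit 0) (XT.nd (nat_lit 94) (nat_lit 504) (nat_lit 0) (XT.lf (nat_lit 0) (nat_lit 6411346555) (nat_lit 504) (nat_lit 1214608397) (nat_lit 84) (nat_lit 2315801777) (nat_lit 67) (nat_lit 5) (nat_lit 73) (nat_lit 5) (nat_lit 68) (nat_lit 5) (nat_lit 332) (nat_lit 287) (nat_lit 245)) (XT.nd (nat_lit 94) (nat_lit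 84) (nat_lit 0) (XT.lf (nat_lit 0) (nat_lit 3354916190) (nat_lit 420) (nat_lit 5183423800) (nat_lit 504) (nat_lit 1584307979) (nat_lit 62) (nat_lit 5) (nat_lit 67) (nat_lit 5) (nat_lit 68) (nat_lit 5) (nat_lit 333) (nat_lit 287) (nat_lit 244)) (XT.lf (nat_lit 0) (nat_lit 385669116) (nat_lit 504) (nat_lit 2270599146) (nat_lit 84) (nat_lit 7653746041) (nat_lit 61) (nat_lit 5) (nat_lit 67) (nat_lit 5) (nat_lit 62) (nat_lit 5) (nat_lit 334) (nat_lit 287) (nat_lit 243)))) (XT.nd (nat_lit 94) (nat_lit 336) (nat_lit 0) (XT.lf (nat_lit 0) (nat_lit 2349182963) (nat_lit 336) (nat_lit 18395292) (nat_lit 420) (nat_lit 8135738383) (nat_lit 57) (nat_lit 5) (nat_lit 61) (nat_lit 5) (nat_lit 62) (nat_lit 5) (nat_lit 335) (nat_lit 287) (nat_lit 242)) (XT.nd (nat_lit 94) (nat_lit 336) (nat_lit 0) (XT.lf (nat_lit 0) (nat_lit 4422767661) (nat_lit 420) (nat_lit 3617246909) (nat_lit 84) (nat_lit 2662352799)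 (nat_lit 57) (nat_lit 5) (nat_lit 62) (nat_lit 5) (nat_lit 58) (nat_lit 5) (nat_lit 336) (nat_lit 287) (nat_lit 241)) (XT.lf (nat_lit 0) (nat_lit 1033740474) (nat_lit 336) (nat_lit 5480641565) (nat_lit 420) (nat_lit 4394171890) (nat_lit 53) (nat_lit 5) (nat_lit 57) (nat_lit 5) (nat_lit 58) (nat_lit 5) (nat_lit 337) (nat_lit 287) (nat_lit 240))))))) (XT.nd (nat_lit 1128) (nat_lit 1092) (nat_lit 0) (XT.nd (nat_lit 564) (nat_lit 588) (nat_lit 0) (XT.nd (nat_lit 282) (nat_lit 336) (nat_lit 0) (XT.nd (nat_lit 94) (nat_lit 420) (nat_lit 0) (XT.lf (nat_lit 0) (nat_lit 5858887580) (nat_lit 336) (nat_lit 2812647761) (nat_lit 420) (nat_lit 2449691071) (nat_lit 53) (nat_lit 5) (nat_lit 57) (nat_lit 5) (nat_lit 58) (nat_lit 5) (nat_lit 338) (nat_lit 287) (nat_lit 239)) (XT.nd (nat_lit 94) (nat_lit 420) (nat_lit 0) (XT.lf (nat_lit 0) (nat_lit 10788313936) (nat_lit 336) (nat_lit 71302949) (nat_lit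 420) (nat_lit 482101428) (nat_lit 53) (nat_lit 5) (nat_lit 57) (nat_lit 5) (nat_lit 58) (nat_lit 5) (nat_lit 339) (nat_lit 287) (nat_lit 238)) (XT.lf (nat_lit 0) (nat_lit 1550772107) (nat_lit 420) (nat_lit 7267664829) (nat_lit 84) (nat_lit 2749139765) (nat_lit 48) (nat_lit 5) (nat_lit 53) (nat_lit 5) (nat_lit 49) (nat_lit 5) (nat_lit 340) (nat_lit 287) (nat_lit 237)))) (XT.nd (nat_lit 94) (nat_lit 336) (nat_lit 0) (XT.lf (nat_lit 0) (nat_lit 3608416194) (nat_lit 420) (nat_lit 2535963872) (nat_lit 84) (nat_lit 5656881531) (nat_lit 48) (nat_lit 5) (nat_lit 53) (nat_lit 5) (nat_lit 49) (nat_lit 5) (nat_lit 341) (nat_lit 287) (nat_lit 236)) (XT.nd (nat_lit 94) (nat_lit 0) (nat_lit 0) (XT.lf (nat_lit 0) (nat_lit 2345644456) (nat_lit 336) (nat_lit 3373719307) (nat_lit 420) (nat_lit 6323251359) (nat_lit 44) (nat_lit 5) (nat_lit 48) (nat_lit 5) (nat_lit 49) (nat_lit 5) (nat_lit 342) (nat_lit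 287) (nat_lit 235)) (XT.lf (nat_lit 0) (nat_lit 7388754691) (nat_lit 336) (nat_lit 500296171) (nat_lit 420) (nat_lit 4402703860) (nat_lit 44) (nat_lit 5) (nat_lit 48) (nat_lit 5) (nat_lit 49) (nat_lit 5) (nat_lit 343) (nat_lit 287) (nat_lit 234))))) (XT.nd (nat_lit 282) (nat_lit 252) (nat_lit 0) (XT.nd (nat_lit 94) (nat_lit 336) (nat_lit 0) (XT.lf (nat_lit 0) (nat_lit 10118150620) (nat_lit 420) (nat_lit 28110718) (nat_lit 84) (nat_lit 2402693112) (nat_lit 44) (nat_lit 5) (nat_lit 49) (nat_lit 5) (nat_lit 45) (nat_lit 5) (nat_lit 344) (nat_lit 287) (nat_lit 233)) (XT.nd (nat_lit 94) (nat_lit 84) (nat_lit 0) (XT.lf (nat_lit 0) (nat_lit 5052614185) (nat_lit 252) (nat_lit 7387675076) (nat_lit 336) (nat_lit 373186778) (nat_lit 41) (nat_lit 5) (nat_lit 44) (nat_lit 5) (nat_lit 45) (nat_lit 5) (nat_lit 345) (nat_lit 287) (nat_lit 232)) (XT.lf (nat_lit 0) (nat_lit 1682115677) (nat_lit 336) (nat_lit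 2854366232) (nat_lit 84) (nat_lit 8550220827) (nat_lit 40) (nat_lit 5) (nat_lit 44) (nat_lit 5) (nat_lit 41) (nat_lit 5) (nat_lit 346) (nat_lit 287) (nat_lit 231)))) (XT.nd (nat_lit 94) (nat_lit 0) (nat_lit 0) (XT.lf (nat_lit 0) (nat_lit 2203817394) (nat_lit 252) (nat_lit 1581188160) (nat_lit 336) (nat_lit 9583617981) (nat_lit 37) (nat_lit 5) (nat_lit 40) (nat_lit 5) (nat_lit 41) (nat_lit 5) (nat_lit 347) (nat_lit 287) (nat_lit 230)) (XT.nd (nat_lit 94) (nat_lit 0) (nat_lit 0) (XT.lf (nat_lit 0) (nat_lit 5967885370) (nat_lit 336) (nat_lit 6235367076) (nat_lit 84) (nat_lit 1455652904) (nat_lit 37) (nat_lit 5) (nat_lit 41) (nat_lit 5) (nat_lit 38) (nat_lit 5) (nat_lit 348) (nat_lit 287) (nat_lit 229)) (XT.lf (nat_lit 0) (nat_lit 8205665251) (nat_lit 336) (nat_lit 1209517827) (nat_lit 84) (nat_lit 4543476540) (nat_lit 37) (nat_lit 5) (nat_lit 41) (nat_lit 5) (nat_lit 38) (nat_lit 5) (nat_lit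 349) (nat_lit 287) (nat_lit 228)))))) (XT.nd (nat_lit 564) (nat_lit 336) (nat_lit 0) (XT.nd (nat_lit 282) (nat_lit 420) (nat_lit 0) (XT.nd (nat_lit 94) (nat_lit 84) (nat_lit 0) (XT.lf (nat_lit 0) (nat_lit 4013984652) (nat_lit 252) (nat_lit 6510580031) (nat_lit 336) (nat_lit 3742852910) (nat_lit 34) (nat_lit 5) (nat_lit 37) (nat_lit 5) (nat_lit 38) (nat_lit 5) (nat_lit 350) (nat_lit 287) (nat_lit 227)) (XT.nd (nat_lit 94) (nat_lit 84) (nat_lit 0) (XT.lf (nat_lit 0) (nat_lit 9386430960) (nat_lit 252) (nat_lit 3513933932) (nat_lit 336) (nat_lit 1685919968) (nat_lit 34) (nat_lit 5) (nat_lit 37) (nat_lit 5) (nat_lit 38) (nat_lit 5) (nat_lit 351) (nat_lit 287) (nat_lit 226)) (XT.lf (nat_lit 0) (nat_lit 398894754) (nat_lit 336) (nat_lit 32018080) (nat_lit 84) (nat_lit 14484900215) (nat_lit 33) (nat_lit 5) (nat_lit 37) (nat_lit 5) (nat_lit 34) (nat_lit 5) (nat_lit 352) (nat_lit 287) (nat_lit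 225)))) (XT.nd (nat_lit 94) (nat_lit 168) (nat_lit 0) (XT.lf (nat_lit 0) (nat_lit 2567950198) (nat_lit 336) (nat_lit 9932515603) (nat_lit 84) (nat_lit 2752929532) (nat_lit 30) (nat_lit 5) (nat_lit 34) (nat_lit 5) (nat_lit 31) (nat_lit 5) (nat_lit 353) (nat_lit 287) (nat_lit 224)) (XT.nd (nat_lit 94) (nat_lit 168) (nat_lit 0) (XT.lf (nat_lit 0) (nat_lit 4783005570) (nat_lit 336) (nat_lit 4802779600) (nat_lit 84) (nat_lit 6016380797) (nat_lit 30) (nat_lit 5) (nat_lit 34) (nat_lit 5) (nat_lit 31) (nat_lit 5) (nat_lit 354) (nat_lit 287) (nat_lit 223)) (XT.lf (nat_lit 0) (nat_lit 459016097) (nat_lit 168) (nat_lit 6587060755) (nat_lit 252) (nat_lit 8916374699) (nat_lit 28) (nat_lit 5) (nat_lit 30) (nat_lit 5) (nat_lit 31) (nat_lit 5) (nat_lit 355) (nat_lit 287) (nat_lit 222))))) (XT.nd (nat_lit 282) (nat_lit 84) (nat_lit 0) (XT.nd (nat_lit 94) (nat_lit 252) (nat_lit 0) (XT.lf (nat_lit 0) (nat_lit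 5949900190) (nat_lit 168) (nat_lit 3454732287) (nat_lit 252) (nat_lit 6928549304) (nat_lit 28) (nat_lit 5) (nat_lit 30) (nat_lit 5) (nat_lit 31) (nat_lit 5) (nat_lit 356) (nat_lit 287) (nat_lit 221)) (XT.nd (nat_lit 94) (nat_lit 252) (nat_lit 0) (XT.lf (nat_lit 0) (nat_lit 11576235758) (nat_lit 168) (nat_lit 236011277) (nat_lit 252) (nat_lit 4903962518) (nat_lit 28) (nat_lit 5) (nat_lit 30) (nat_lit 5) (nat_lit 31) (nat_lit 5) (nat_lit 357) (nat_lit 287) (nat_lit 220)) (XT.lf (nat_lit 0) (nat_lit 205030514) (nat_lit 252) (nat_lit 14098643726) (nat_lit 336) (nat_lit 2807209853) (nat_lit 25) (nat_lit 5) (nat_lit 28) (nat_lit 5) (nat_lit 29) (nat_lit 5) (nat_lit 358) (nat_lit 287) (nat_lit 219)))) (XT.nd (nat_lit 94) (nat_lit 84) (nat_lit 0) (XT.lf (nat_lit 0) (nat_lit 5788181229) (nat_lit 252) (nat_lit 11117125523) (nat_lit 336) (nat_lit 611520347) (nat_lit 25) (nat_lit 5) (nat_lit 28)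 (nat_lit 5) (nat_lit 29) (nat_lit 5) (nat_lit 359) (nat_lit 287) (nat_lit 218)) (XT.nd (nat_lit 94) (nat_lit 0) (nat_lit 0) (XT.lf (nat_lit 0) (nat_lit 1596289440) (nat_lit 336) (nat_lit 6440879530) (nat_lit 84) (nat_lit 9898431999) (nat_lit 24) (nat_lit 5) (nat_lit 28) (nat_lit 5) (nat_lit 25) (nat_lit 5) (nat_lit 360) (nat_lit 287) (nat_lit 217)) (XT.lf (nat_lit 0) (nat_lit 3837862643) (nat_lit 336) (nat_lit 1027982664) (nat_lit 84) (nat_lit 13502049676) (nat_lit 24) (nat_lit 5) (nat_lit 28) (nat_lit 5) (nat_lit 25) (nat_lit 5) (nat_lit 361) (nat_lit 287) (nat_lit 216))))))))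
noncomputable def xc83 : XT := (XT.nd (nat_lit 2256) (nat_lit 504) (nat_lit 0) (XT.nd (nat_lit 1128) (nat_lit 336) (nat_lit 0) (XT.nd (nat_lit 564) (nat_lit 420) (nat_lit 0) (XT.nd (nat_lit 282) (nat_lit 168) (nat_lit 0) (XT.nd (nat_lit 94) (nat_lit 0) (nat_lit 0) (XT.lf (nat_lit 0) (nat_lit 4614120720) (nat_lit 168) (nat_lit 1559261342) (nat_lit 252) (nat_lit 12639499129) (nat_lit 22) (nat_lit 5) (nat_lit 24) (nat_lit 5) (nat_lit 25) (nat_lit 5) (nat_lit 362) (nat_lit 287) (nat_lit 215)) (XT.nd (nat_lit 94) (nat_lit 0) (nat_lit 0) (XT.lf (nat_lit 0) (nat_lit 8589406964) (nat_lit 252) (nat_lit 8868702200) (nat_lit 84) (nat_lit 1813349348) (nat_lit 22) (nat_lit 5) (nat_lit 25) (nat_lit 5) (nat_lit 23) (nat_lit 5) (nat_lit 363) (nat_lit 287) (nat_lit 214)) (XT.lf (nat_lit 0) (nat_lit 11075824319) (nat_lit 252) (nat_lit 3420237107) (nat_lit 84) (nat_lit 5248376279) (nat_lit 22) (nat_lit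 5) (nat_lit 25) (nat_lit 5) (nat_lit 23) (nat_lit 5) (nat_lit 364) (nat_lit 287) (nat_lit 213)))) (XT.nd (nat_lit 94) (nat_lit 0) (nat_lit 0) (XT.lf (nat_lit 0) (nat_lit 2211743107) (nat_lit 168) (nat_lit 11429681320) (nat_lit 252) (nat_lit 6590634555) (nat_lit 20) (nat_lit 5) (nat_lit 22) (nat_lit 5) (nat_lit 23) (nat_lit 5) (nat_lit 365) (nat_lit 287) (nat_lit 212)) (XT.nd (nat_lit 94) (nat_lit 0) (nat_lit 0) (XT.lf (nat_lit 0) (nat_lit 8061176154) (nat_lit 168) (nat_lit 8241547663) (nat_lit 252) (nat_lit 4431615163) (nat_lit 20) (nat_lit 5) (nat_lit 22) (nat_lit 5) (nat_lit 23) (nat_lit 5) (nat_lit 366) (nat_lit 287) (nat_lit 211)) (XT.lf (nat_lit 0) (nat_lit 14063187228) (nat_lit 168) (nat_lit 4964389040) (nat_lit 252) (nat_lit 2225243038) (nat_lit 20) (nat_lit 5) (nat_lit 22) (nat_lit 5) (nat_lit 23) (nat_lit 5) (nat_lit 367) (nat_lit 287) (nat_lit 210))))) (XT.nd (nat_lit 282)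 (nat_lit 168) (nat_lit 0) (XT.nd (nat_lit 94) (nat_lit 168) (nat_lit 0) (XT.lf (nat_lit 0) (nat_lit 29923107) (nat_lit 252) (nat_lit 1564915352) (nat_lit 84) (nat_lit 20193135388) (nat_lit 19) (nat_lit 5) (nat_lit 22) (nat_lit 5) (nat_lit 20) (nat_lit 5) (nat_lit 368) (nat_lit 287) (nat_lit 209)) (XT.nd (nat_lit 94) (nat_lit 0) (nat_lit 0) (XT.lf (nat_lit 0) (nat_lit 2352302542) (nat_lit 252) (nat_lit 18087533479) (nat_lit 84) (nat_lit 1897865888) (nat_lit 17) (nat_lit 5) (nat_lit 20) (nat_lit 5) (nat_lit 18) (nat_lit 5) (nat_lit 369) (nat_lit 287) (nat_lit 208)) (XT.lf (nat_lit 0) (nat_lit 4761622135) (nat_lit 252) (nat_lit 12669426398) (nat_lit 84) (nat_lit 5472997092) (nat_lit 17) (nat_lit 5) (nat_lit 20) (nat_lit 5) (nat_lit 18) (nat_lit 5) (nat_lit 370) (nat_lit 287) (nat_lit 207)))) (XT.nd (nat_lit 94) (nat_lit 168) (nat_lit 0) (XT.lf (nat_lit 0) (nat_lit 7228301229) (nat_lit 252)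 (nat_lit 7110203694) (nat_lit 84) (nat_lit 9150014586) (nat_lit 17) (nat_lit 5) (nat_lit 20) (nat_lit 5) (nat_lit 18) (nat_lit 5) (nat_lit 371) (nat_lit 287) (nat_lit 206)) (XT.nd (nat_lit 94) (nat_lit 168) (nat_lit 0) (XT.lf (nat_lit 0) (nat_lit 9754639025) (nat_lit 252) (nat_lit 1404683588) (nat_lit 84) (nat_lit 12932345735) (nat_lit 17) (nat_lit 5) (nat_lit 20) (nat_lit 5) (nat_lit 18) (nat_lit 5) (nat_lit 372) (nat_lit 287) (nat_lit 205)) (XT.lf (nat_lit 0) (nat_lit 4544003607) (nat_lit 168) (nat_lit 7844063807) (nat_lit 252) (nat_lit 12324589540) (nat_lit 15) (nat_lit 5) (nat_lit 17) (nat_lit 5) (nat_lit 18) (nat_lit 5) (nat_lit 373) (nat_lit 287) (nat_lit 204)))))) (XT.nd (nat_lit 564) (nat_lit 168) (nat_lit 0) (XT.nd (nat_lit 282) (nat_lit 168) (nat_lit 0) (XT.nd (nat_lit 94) (nat_lit 0) (nat_lit 0) (XT.lf (nat_lit 0) (nat_lit 10681878770) (nat_lit 168) (nat_lit 4419854565) (nat_lit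 252) (nat_lit 10251239355) (nat_lit 15) (nat_lit 5) (nat_lit 17) (nat_lit 5) (nat_lit 18) (nat_lit 5) (nat_lit 374) (nat_lit 287) (nat_lit 203)) (XT.nd (nat_lit 94) (nat_lit 0) (nat_lit 0) (XT.lf (nat_lit 0) (nat_lit 16985779868) (nat_lit 168) (nat_lit 898165181) (nat_lit 252) (nat_lit 8129708204) (nat_lit 15) (nat_lit 5) (nat_lit 17) (nat_lit 5) (nat_lit 18) (nat_lit 5) (nat_lit 375) (nat_lit 287) (nat_lit 202)) (XT.lf (nat_lit 0) (nat_lit 20764321134) (nat_lit 252) (nat_lit 3260756934) (nat_lit 84) (nat_lit 2669398616) (nat_lit 15) (nat_lit 5) (nat_lit 18) (nat_lit 5) (nat_lit 16) (nat_lit 4) (nat_lit 376) (nat_lit 287) (nat_lit 201)))) (XT.nd (nat_lit 94) (nat_lit 84) (nat_lit 0) (XT.lf (nat_lit 0) (nat_lit 2707284203) (nat_lit 84) (nat_lit 21048011320) (nat_lit 168) (nat_lit 3640479835) (nat_lit 14) (nat_lit 5) (nat_lit 15) (nat_lit 5) (nat_lit 16) (nat_lit 4) (nat_lit 377) (nat_lit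 287) (nat_lit 200)) (XT.nd (nat_lit 94) (nat_lit 84) (nat_lit 0) (XT.lf (nat_lit 0) (nat_lit 8906480436) (nat_lit 84) (nat_lit 17952024347) (nat_lit 168) (nat_lit 1259733869) (nat_lit 14) (nat_lit 5) (nat_lit 15) (nat_lit 5) (nat_lit 16) (nat_lit 4) (nat_lit 378) (nat_lit 287) (nat_lit 199)) (XT.lf (nat_lit 0) (nat_lit 1156486110) (nat_lit 168) (nat_lit 13599709524) (nat_lit 84) (nat_lit 14107004761) (nat_lit 13) (nat_lit 5) (nat_lit 15) (nat_lit 5) (nat_lit 14) (nat_lit 5) (nat_lit 379) (nat_lit 287) (nat_lit 198))))) (XT.nd (nat_lit 282) (nat_lit 0) (nat_lit 0) (XT.nd (nat_lit 94) (nat_lit 168) (nat_lit 0) (XT.lf (nat_lit 0) (nat_lit 3607613683) (nat_lit 168) (nat_lit 7848501847) (nat_lit 84) (nat_lit 18175196420) (nat_lit 13) (nat_lit 5) (nat_lit 15) (nat_lit 5) (nat_lit 14) (nat_lit 5) (nat_lit 380) (nat_lit 287) (nat_lit 197)) (XT.nd (nat_lit 94) (nat_lit 168) (nat_lit 0) (XT.lf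 (nat_lit 0) (nat_lit 6121314386) (nat_lit 168) (nat_lit 1940277742) (nat_lit 84) (nat_lit 22362084547) (nat_lit 13) (nat_lit 5) (nat_lit 15) (nat_lit 5) (nat_lit 14) (nat_lit 5) (nat_lit 381) (nat_lit 287) (nat_lit 196)) (XT.lf (nat_lit 0) (nat_lit 4215400806) (nat_lit 168) (nat_lit 4526347742) (nat_lit 252) (nat_lit 22497988250) (nat_lit 11) (nat_lit 5) (nat_lit 13) (nat_lit 5) (nat_lit 14) (nat_lit 5) (nat_lit 382) (nat_lit 287) (nat_lit 195)))) (XT.nd (nat_lit 94) (nat_lit 0) (nat_lit 0) (XT.lf (nat_lit 0) (nat_lit 10582615699) (nat_lit 168) (nat_lit 868232978) (nat_lit 252) (nat_lit 20630040111) (nat_lit 11) (nat_lit 5) (nat_lit 13) (nat_lit 5) (nat_lit 14) (nat_lit 5) (nat_lit 383) (nat_lit 287) (nat_lit 194)) (XT.nd (nat_lit 94) (nat_lit 0) (nat_lit 0) (XT.lf (nat_lit 0) (nat_lit 14260224147) (nat_lit 252) (nat_lit 15849847657) (nat_lit 84) (nat_lit 2837563268) (nat_lit 11) (nat_lit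 5) (nat_lit 14) (nat_lit 5) (nat_lit 12) (nat_lit 4) (nat_lit 384) (nat_lit 287) (nat_lit 193)) (XT.lf (nat_lit 0) (nat_lit 17153438623) (nat_lit 252) (nat_lit 10054739806) (nat_lit 84) (nat_lit 6633195824) (nat_lit 11) (nat_lit 5) (nat_lit 14) (nat_lit 5) (nat_lit 12) (nat_lit 4) (nat_lit 385) (nat_lit 287) (nat_lit 192))))))) (XT.nd (nat_lit 1128) (nat_lit 168) (nat_lit 0) (XT.nd (nat_lit 564) (nat_lit 252) (nat_lit 0) (XT.nd (nat_lit 282) (nat_lit 0) (nat_lit 0) (XT.nd (nat_lit 94) (nat_lit 84) (nat_lit 0) (XT.lf (nat_lit 0) (nat_lit 20124575907) (nat_lit 252) (nat_lit 4098934911) (nat_lit 84) (nat_lit 10539695576) (nat_lit 11) (nat_lit 5) (nat_lit 14) (nat_lit 5) (nat_lit 12) (nat_lit 4) (nat_lit 386) (nat_lit 287) (nat_lit 191)) (XT.nd (nat_lit 94) (nat_lit 0) (nat_lit 0) (XT.lf (nat_lit 0) (nat_lit 2064717928) (nat_lit 84) (nat_lit 21132169739) (nat_lit 168) (nat_lit 12516468120)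 (nat_lit 10) (nat_lit 5) (nat_lit 11) (nat_lit 5) (nat_lit 12) (nat_lit 4) (nat_lit 387) (nat_lit 287) (nat_lit 190)) (XT.lf (nat_lit 0) (nat_lit 8488143894) (nat_lit 84) (nat_lit 17907831300) (nat_lit 168) (nat_lit 10296028014) (nat_lit 10) (nat_lit 5) (nat_lit 11) (nat_lit 5) (nat_lit 12) (nat_lit 4) (nat_lit 388) (nat_lit 287) (nat_lit 189)))) (XT.nd (nat_lit 94) (nat_lit 0) (nat_lit 0) (XT.lf (nat_lit 0) (nat_lit 15093047785) (nat_lit 84) (nat_lit 14590274552) (nat_lit 168) (nat_lit 8018024958) (nat_lit 10) (nat_lit 5) (nat_lit 11) (nat_lit 5) (nat_lit 12) (nat_lit 4) (nat_lit 389) (nat_lit 287) (nat_lit 188)) (XT.nd (nat_lit 94) (nat_lit 0) (nat_lit 0) (XT.lf (nat_lit 0) (nat_lit 21885586062) (nat_lit 84) (nat_lit 11176407187) (nat_lit 168) (nat_lit 5680335615) (nat_lit 10) (nat_lit 5) (nat_lit 11) (nat_lit 5) (nat_lit 12) (nat_lit 4) (nat_lit 390) (nat_lit 287) (nat_lit 187)) (XT.lf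 (nat_lit 0) (nat_lit 28872090084) (nat_lit 84) (nat_lit 7663047121) (nat_lit 168) (nat_lit 3280781015) (nat_lit 10) (nat_lit 5) (nat_lit 11) (nat_lit 5) (nat_lit 12) (nat_lit 4) (nat_lit 391) (nat_lit 287) (nat_lit 186))))) (XT.nd (nat_lit 282) (nat_lit 0) (nat_lit 0) (XT.nd (nat_lit 94) (nat_lit 252) (nat_lit 0) (XT.lf (nat_lit 0) (nat_lit 36059072003) (nat_lit 84) (nat_lit 4046919536) (nat_lit 168) (nat_lit 817124521) (nat_lit 10) (nat_lit 5) (nat_lit 11) (nat_lit 5) (nat_lit 12) (nat_lit 4) (nat_lit 392) (nat_lit 287) (nat_lit 185)) (XT.nd (nat_lit 94) (nat_lit 0) (nat_lit 0) (XT.lf (nat_lit 0) (nat_lit 1399480362) (nat_lit 168) (nat_lit 292821182) (nat_lit 252) (nat_lit 40371695723) (nat_lit 7) (nat_lit 5) (nat_lit 9) (nat_lit 5) (nat_lit 10) (nat_lit 5) (nat_lit 393) (nat_lit 287) (nat_lit 184)) (XT.lf (nat_lit 0) (nat_lit 4339631231) (nat_lit 252) (nat_lit 35338683275) (nat_lit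 84) (nat_lit 3559299496) (nat_lit 7) (nat_lit 5) (nat_lit 10) (nat_lit 5) (nat_lit 8) (nat_lit 4) (nat_lit 394) (nat_lit 287) (nat_lit 183)))) (XT.nd (nat_lit 94) (nat_lit 0) (nat_lit 0) (XT.lf (nat_lit 0) (nat_lit 7062618870) (nat_lit 252) (nat_lit 29866197884) (nat_lit 84) (nat_lit 7519011202) (nat_lit 7) (nat_lit 5) (nat_lit 10) (nat_lit 5) (nat_lit 8) (nat_lit 4) (nat_lit 395) (nat_lit 287) (nat_lit 182)) (XT.nd (nat_lit 94) (nat_lit 0) (nat_lit 0) (XT.lf (nat_lit 0) (nat_lit 9860897748) (nat_lit 252) (nat_lit 24239054981) (nat_lit 84) (nat_lit 11595904495) (nat_lit 7) (nat_lit 5) (nat_lit 10) (nat_lit 5) (nat_lit 8) (nat_lit 4) (nat_lit 396) (nat_lit 287) (nat_lit 181)) (XT.lf (nat_lit 0) (nat_lit 12737076153) (nat_lit 252) (nat_lit 18452009479) (nat_lit 84) (nat_lit 15793779468) (nat_lit 7) (nat_lit 5) (nat_lit 10) (nat_lit 5) (nat_lit 8) (nat_lit 4) (nat_lit 397) (nat_lit 287)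 (nat_lit 180)))))) (XT.nd (nat_lit 564) (nat_lit 84) (nat_lit 0) (XT.nd (nat_lit 282) (nat_lit 84) (nat_lit 0) (XT.nd (nat_lit 94) (nat_lit 0) (nat_lit 0) (XT.lf (nat_lit 0) (nat_lit 15693834986) (nat_lit 252) (nat_lit 12499667245) (nat_lit 84) (nat_lit 20116548980) (nat_lit 7) (nat_lit 5) (nat_lit 10) (nat_lit 5) (nat_lit 8) (nat_lit 4) (nat_lit 398) (nat_lit 287) (nat_lit 179)) (XT.nd (nat_lit 94) (nat_lit 0) (nat_lit 0) (XT.lf (nat_lit 0) (nat_lit 18733930255) (nat_lit 252) (nat_lit 6376480073) (nat_lit 84) (nat_lit 24568242304) (nat_lit 7) (nat_lit 5) (nat_lit 10) (nat_lit 5) (nat_lit 8) (nat_lit 4) (nat_lit 399) (nat_lit 287) (nat_lit 178)) (XT.lf (nat_lit 0) (nat_lit 21860195647) (nat_lit 252) (nat_lit 76740511) (nat_lit 84) (nat_lit 29153008885) (nat_lit 7) (nat_lit 5) (nat_lit 10) (nat_lit 5) (nat_lit 8) (nat_lit 4) (nat_lit 400) (nat_lit 287) (nat_lit 177)))) (XT.nd (nat_lit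 94) (nat_lit 0) (nat_lit 0) (XT.lf (nat_lit 0) (nat_lit 6537132101) (nat_lit 84) (nat_lit 18603262229) (nat_lit 168) (nat_lit 27402839265) (nat_lit 6) (nat_lit 5) (nat_lit 7) (nat_lit 5) (nat_lit 8) (nat_lit 4) (nat_lit 401) (nat_lit 287) (nat_lit 176)) (XT.nd (nat_lit 94) (nat_lit 0) (nat_lit 0) (XT.lf (nat_lit 0) (nat_lit 13344924376) (nat_lit 84) (nat_lit 15170434792) (nat_lit 168) (nat_lit 25526442697) (nat_lit 6) (nat_lit 5) (nat_lit 7) (nat_lit 5) (nat_lit 8) (nat_lit 4) (nat_lit 402) (nat_lit 287) (nat_lit 175)) (XT.lf (nat_lit 0) (nat_lit 20351403947) (nat_lit 84) (nat_lit 11636055107) (nat_lit 168) (nat_lit 23599611709) (nat_lit 6) (nat_lit 5) (nat_lit 7) (nat_lit 5) (nat_lit 8) (nat_lit 4) (nat_lit 403) (nat_lit 287) (nat_lit 174))))) (XT.nd (nat_lit 282) (nat_lit 84) (nat_lit 0) (XT.nd (nat_lit 94) (nat_lit 0) (nat_lit 0) (XT.lf (nat_lit 0) (nat_lit 27563101586) (nat_lit 84)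 (nat_lit 7996828762) (nat_lit 168) (nat_lit 21620550292) (nat_lit 6) (nat_lit 5) (nat_lit 7) (nat_lit 5) (nat_lit 8) (nat_lit 4) (nat_lit 404) (nat_lit 287) (nat_lit 173)) (XT.nd (nat_lit 94) (nat_lit 0) (nat_lit 0) (XT.lf (nat_lit 0) (nat_lit 34986739351) (nat_lit 84) (nat_lit 4249363616) (nat_lit 168) (nat_lit 19587413753) (nat_lit 6) (nat_lit 5) (nat_lit 7) (nat_lit 5) (nat_lit 8) (nat_lit 4) (nat_lit 405) (nat_lit 287) (nat_lit 172)) (XT.lf (nat_lit 0) (nat_lit 42629236851) (nat_lit 84) (nat_lit 390166640) (nat_lit 168) (nat_lit 17498306997) (nat_lit 6) (nat_lit 5) (nat_lit 7) (nat_lit 5) (nat_lit 8) (nat_lit 4) (nat_lit 406) (nat_lit 287) (nat_lit 171)))) (XT.nd (nat_lit 94) (nat_lit 84) (nat_lit 0) (XT.lf (nat_lit 0) (nat_lit 46948915639) (nat_lit 168) (nat_lit 11802480704) (nat_lit 0) (nat_lit 3512142489) (nat_lit 6) (nat_lit 5) (nat_lit 8) (nat_lit 4) (nat_lit 6) (nat_lit 4)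 (nat_lit 407) (nat_lit 287) (nat_lit 170)) (XT.nd (nat_lit 94) (nat_lit 84) (nat_lit 0) (XT.lf (nat_lit 0) (nat_lit 50997763027) (nat_lit 168) (nat_lit 5542586685) (nat_lit 0) (nat_lit 7523226047) (nat_lit 6) (nat_lit 5) (nat_lit 8) (nat_lit 4) (nat_lit 6) (nat_lit 4) (nat_lit 408) (nat_lit 287) (nat_lit 169)) (XT.lf (nat_lit 0) (nat_lit 919438434) (nat_lit 84) (nat_lit 54255531612) (nat_lit 84) (nat_lit 10744366282) (nat_lit 5) (nat_lit 4) (nat_lit 6) (nat_lit 5) (nat_lit 6) (nat_lit 4) (nat_lit 409) (nat_lit 287) (nat_lit 168))))))))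
noncomputable def xc84 : XT := (XT.nd (nat_lit 43522) (nat_lit 0) (nat_lit 8484) (XT.nd (nat_lit 1128) (nat_lit 0) (nat_lit 0) (XT.nd (nat_lit 564) (nat_lit 84) (nat_lit 0) (XT.nd (nat_lit 282) (nat_lit 84) (nat_lit 0) (XT.nd (nat_lit 94) (nat_lit 0) (nat_lit 0) (XT.lf (nat_lit 0) (nat_lit 7688941806) (nat_lit 84) (nat_lit 51844392410) (nat_lit 84) (nat_lit 8297700066) (nat_lit 5) (nat_lit 4) (nat_lit 6) (nat_lit 5) (nat_lit 6) (nat_lit 4) (nat_lit 410) (nat_lit 287) (nat_lit 167)) (XT.nd (nat_lit 94) (nat_lit 0) (nat_lit 0) (XT.lf (nat_lit 0) (nat_lit 14658266369) (nat_lit 84) (nat_lit 49362537907) (nat_lit 84) (nat_lit 5781386773) (nat_lit 5) (nat_lit 4) (nat_lit 6) (nat_lit 5) (nat_lit 6) (nat_lit 4) (nat_lit 411) (nat_lit 287) (nat_lit 166)) (XT.lf (nat_lit 0) (nat_lit 21833908261) (nat_lit 84) (nat_lit 46807654755) (nat_lit 84) (nat_lit 3193080934) (nat_lit 5) (nat_lit 4) (nat_lit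 6) (nat_lit 5) (nat_lit 6) (nat_lit 4) (nat_lit 412) (nat_lit 287) (nat_lit 165)))) (XT.nd (nat_lit 94) (nat_lit 84) (nat_lit 0) (XT.lf (nat_lit 0) (nat_lit 29222555933) (nat_lit 84) (nat_lit 44177361537) (nat_lit 84) (nat_lit 530369979) (nat_lit 5) (nat_lit 4) (nat_lit 6) (nat_lit 5) (nat_lit 6) (nat_lit 4) (nat_lit 413) (nat_lit 287) (nat_lit 164)) (XT.nd (nat_lit 94) (nat_lit 0) (nat_lit 0) (XT.lf (nat_lit 0) (nat_lit 2164716998) (nat_lit 168) (nat_lit 39281894338) (nat_lit 84) (nat_lit 34643784175) (nat_lit 4) (nat_lit 5) (nat_lit 6) (nat_lit 5) (nat_lit 5) (nat_lit 4) (nat_lit 414) (nat_lit 287) (nat_lit 163)) (XT.lf (nat_lit 0) (nat_lit 4926958286) (nat_lit 168) (nat_lit 33702279862) (nat_lit 84) (nat_lit 39688235930) (nat_lit 4) (nat_lit 5) (nat_lit 6) (nat_lit 5) (nat_lit 5) (nat_lit 4) (nat_lit 415) (nat_lit 287) (nat_lit 162))))) (XT.nd (nat_lit 282) (nat_lit 84) (nat_lit 0)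 (XT.nd (nat_lit 94) (nat_lit 0) (nat_lit 0) (XT.lf (nat_lit 0) (nat_lit 7769614355) (nat_lit 168) (nat_lit 27958425967) (nat_lit 84) (nat_lit 44885721799) (nat_lit 4) (nat_lit 5) (nat_lit 6) (nat_lit 5) (nat_lit 5) (nat_lit 4) (nat_lit 416) (nat_lit 287) (nat_lit 161)) (XT.nd (nat_lit 94) (nat_lit 0) (nat_lit 0) (XT.lf (nat_lit 0) (nat_lit 10695334859) (nat_lit 168) (nat_lit 22044978778) (nat_lit 84) (nat_lit 50241086382) (nat_lit 4) (nat_lit 5) (nat_lit 6) (nat_lit 5) (nat_lit 5) (nat_lit 4) (nat_lit 417) (nat_lit 287) (nat_lit 160)) (XT.lf (nat_lit 0) (nat_lit 13706846876) (nat_lit 168) (nat_lit 15956426345) (nat_lit 84) (nat_lit 55759321441) (nat_lit 4) (nat_lit 5) (nat_lit 6) (nat_lit 5) (nat_lit 5) (nat_lit 4) (nat_lit 418) (nat_lit 287) (nat_lit 159)))) (XT.nd (nat_lit 94) (nat_lit 84) (nat_lit 0) (XT.lf (nat_lit 0) (nat_lit 16806957451) (nat_lit 168) (nat_lit 9687093497) (nat_lit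 84) (nat_lit 61445570549) (nat_lit 4) (nat_lit 5) (nat_lit 6) (nat_lit 5) (nat_lit 5) (nat_lit 4) (nat_lit 419) (nat_lit 287) (nat_lit 158)) (XT.nd (nat_lit 94) (nat_lit 84) (nat_lit 0) (XT.lf (nat_lit 0) (nat_lit 19998556210) (nat_lit 168) (nat_lit 3231136561) (nat_lit 84) (nat_lit 67305133885) (nat_lit 4) (nat_lit 5) (nat_lit 6) (nat_lit 5) (nat_lit 5) (nat_lit 4) (nat_lit 420) (nat_lit 287) (nat_lit 157)) (XT.lf (nat_lit 0) (nat_lit 3487732121) (nat_lit 84) (nat_lit 19831484672) (nat_lit 168) (nat_lit 69890339790) (nat_lit 3) (nat_lit 5) (nat_lit 4) (nat_lit 5) (nat_lit 5) (nat_lit 4) (nat_lit 421) (nat_lit 287) (nat_lit 156)))))) (XT.nd (nat_lit 41830) (nat_lit 0) (nat_lit 16968) (XT.nd (nat_lit 282) (nat_lit 0) (nat_lit 0) (XT.nd (nat_lit 94) (nat_lit 0) (nat_lit 0) (XT.lf (nat_lit 0) (nat_lit 10475967042) (nat_lit 84) (nat_lit 16296161800) (nat_lit 168) (nat_lit 69194172637) (nat_lit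 3) (nat_lit 5) (nat_lit 4) (nat_lit 5) (nat_lit 5) (nat_lit 4) (nat_lit 422) (nat_lit 287) (nat_lit 155)) (XT.nd (nat_lit 94) (nat_lit 0) (nat_lit 0) (XT.lf (nat_lit 0) (nat_lit 17673643173) (nat_lit 84) (nat_lit 12654155303) (nat_lit 168) (nat_lit 68480846526) (nat_lit 3) (nat_lit 5) (nat_lit 4) (nat_lit 5) (nat_lit 5) (nat_lit 4) (nat_lit 423) (nat_lit 287) (nat_lit 154)) (XT.lf (nat_lit 0) (nat_lit 25087469502) (nat_lit 84) (nat_lit 8902070448) (nat_lit 168) (nat_lit 67749696562) (nat_lit 3) (nat_lit 5) (nat_lit 4) (nat_lit 5) (nat_lit 5) (nat_lit 4) (nat_lit 424) (nat_lit 287) (nat_lit 153)))) (XT.nd (nat_lit 41360) (nat_lit 0) (nat_lit 17388) (XT.lf (nat_lit 0) (nat_lit 32724356491) (nat_lit 84) (nat_lit 5036409900) (nat_lit 168) (nat_lit 67000041237) (nat_lit 3) (nat_lit 5) (nat_lit 4) (nat_lit 5) (nat_lit 5) (nat_lit 4) (nat_lit 425) (nat_lit 287) (nat_lit 152)) (XT.nd (nat_lit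 94) (nat_lit 84) (nat_lit 0) (XT.lf (nat_lit 0) (nat_lit 0) (nat_lit 0) (nat_lit 0) (nat_lit 0) (nat_lit 1073741823) (nat_lit 1) (nat_lit 0) (nat_lit 1) (nat_lit 0) (nat_lit 211) (nat_lit 0) (nat_lit 288) (nat_lit 288) (nat_lit 288)) (XT.lf (nat_lit 0) (nat_lit 2604358303) (nat_lit 84) (nat_lit 3786270914) (nat_lit 0) (nat_lit 52997760) (nat_lit 210) (nat_lit 5) (nat_lit 211) (nat_lit 0) (nat_lit 210) (nat_lit 4) (nat_lit 289) (nat_lit 288) (nat_lit 287))))) (XT.nd (nat_lit 282) (nat_lit 252) (nat_lit 0) (XT.nd (nat_lit 94) (nat_lit 168) (nat_lit 0) (XT.lf (nat_lit 0) (nat_lit 5185049725) (nat_lit 84) (nat_lit 1104706704) (nat_lit 0) (nat_lit 159042680) (nat_lit 210) (nat_lit 5) (nat_lit 211) (nat_lit 0) (nat_lit 210) (nat_lit 4) (nat_lit 290) (nat_lit 288) (nat_lit 286)) (XT.nd (nat_lit 94) (nat_lit 0) (nat_lit 0) (XT.lf (nat_lit 0) (nat_lit 1277000047) (nat_lit 168) (nat_lit 4832659040)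 (nat_lit 84) (nat_lit 347408646) (nat_lit 208) (nat_lit 5) (nat_lit 210) (nat_lit 5) (nat_lit 209) (nat_lit 4) (nat_lit 291) (nat_lit 288) (nat_lit 285)) (XT.lf (nat_lit 0) (nat_lit 3781473178) (nat_lit 168) (nat_lit 2074143062) (nat_lit 84) (nat_lit 612988091) (nat_lit 208) (nat_lit 5) (nat_lit 210) (nat_lit 5) (nat_lit 209) (nat_lit 4) (nat_lit 292) (nat_lit 288) (nat_lit 284)))) (XT.nd (nat_lit 94) (nat_lit 84) (nat_lit 0) (XT.lf (nat_lit 0) (nat_lit 728888004) (nat_lit 168) (nat_lit 5544510278) (nat_lit 252) (nat_lit 210536116) (nat_lit 206) (nat_lit 5) (nat_lit 208) (nat_lit 5) (nat_lit 209) (nat_lit 4) (nat_lit 293) (nat_lit 288) (nat_lit 283)) (XT.nd (nat_lit 94) (nat_lit 0) (nat_lit 0) (XT.lf (nat_lit 0) (nat_lit 2220886423) (nat_lit 252) (nat_lit 2917456761) (nat_lit 84) (nat_lit 1363595235) (nat_lit 205) (nat_lit 5) (nat_lit 208) (nat_lit 5) (nat_lit 206) (nat_lit 5) (nat_lit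 294) (nat_lit 288) (nat_lit 282)) (XT.lf (nat_lit 0) (nat_lit 4629599450) (nat_lit 252) (nat_lit 50029302) (nat_lit 84) (nat_lit 1844294108) (nat_lit 205) (nat_lit 5) (nat_lit 208) (nat_lit 5) (nat_lit 206) (nat_lit 5) (nat_lit 295) (nat_lit 288) (nat_lit 281))))))) (XT.nd (nat_lit 1128) (nat_lit 5376) (nat_lit 0) (XT.nd (nat_lit 564) (nat_lit 1932) (nat_lit 0) (XT.nd (nat_lit 282) (nat_lit 504) (nat_lit 0) (XT.nd (nat_lit 94) (nat_lit 336) (nat_lit 0) (XT.lf (nat_lit 0) (nat_lit 491774128) (nat_lit 336) (nat_lit 3643416460) (nat_lit 84) (nat_lit 2413732940) (nat_lit 201) (nat_lit 5) (nat_lit 205) (nat_lit 5) (nat_lit 202) (nat_lit 5) (nat_lit 296) (nat_lit 288) (nat_lit 280)) (XT.nd (nat_lit 94) (nat_lit 336) (nat_lit 0) (XT.lf (nat_lit 0) (nat_lit 2822880415) (nat_lit 336) (nat_lit 696465010) (nat_lit 84) (nat_lit 3058064029) (nat_lit 201) (nat_lit 5) (nat_lit 205) (nat_lit 5) (nat_lit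 202) (nat_lit 5) (nat_lit 297) (nat_lit 288) (nat_lit 279)) (XT.lf (nat_lit 0) (nat_lit 2334435418) (nat_lit 336) (nat_lit 2827545468) (nat_lit 420) (nat_lit 1447306823) (nat_lit 197) (nat_lit 5) (nat_lit 201) (nat_lit 5) (nat_lit 202) (nat_lit 5) (nat_lit 298) (nat_lit 288) (nat_lit 278)))) (XT.nd (nat_lit 94) (nat_lit 420) (nat_lit 0) (XT.lf (nat_lit 0) (nat_lit 833319050) (nat_lit 420) (nat_lit 1233342712) (nat_lit 84) (nat_lit 4578152232) (nat_lit 196) (nat_lit 5) (nat_lit 201) (nat_lit 5) (nat_lit 197) (nat_lit 5) (nat_lit 299) (nat_lit 288) (nat_lit 277)) (XT.nd (nat_lit 94) (nat_lit 0) (nat_lit 0) (XT.lf (nat_lit 0) (nat_lit 1870875656) (nat_lit 420) (nat_lit 1218173019) (nat_lit 504) (nat_lit 3594437177) (nat_lit 191) (nat_lit 5) (nat_lit 196) (nat_lit 5) (nat_lit 197) (nat_lit 5) (nat_lit 300) (nat_lit 288) (nat_lit 276)) (XT.lf (nat_lit 0) (nat_lit 5043553030) (nat_lit 420)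 (nat_lit 301929023) (nat_lit 504) (nat_lit 1380477897) (nat_lit 191) (nat_lit 5) (nat_lit 196) (nat_lit 5) (nat_lit 197) (nat_lit 5) (nat_lit 301) (nat_lit 288) (nat_lit 275))))) (XT.nd (nat_lit 282) (nat_lit 756) (nat_lit 0) (XT.nd (nat_lit 94) (nat_lit 588) (nat_lit 0) (XT.lf (nat_lit 0) (nat_lit 824942730) (nat_lit 588) (nat_lit 5266873564) (nat_lit 84) (nat_lit 679916274) (nat_lit 184) (nat_lit 5) (nat_lit 191) (nat_lit 5) (nat_lit 185) (nat_lit 5) (nat_lit 302) (nat_lit 288) (nat_lit 274)) (XT.nd (nat_lit 94) (nat_lit 588) (nat_lit 0) (XT.lf (nat_lit 0) (nat_lit 3012153141) (nat_lit 588) (nat_lit 2066124861) (nat_lit 84) (nat_lit 1742420859) (nat_lit 184) (nat_lit 5) (nat_lit 191) (nat_lit 5) (nat_lit 185) (nat_lit 5) (nat_lit 303) (nat_lit 288) (nat_lit 273)) (XT.lf (nat_lit 0) (nat_lit 1202839338) (nat_lit 588) (nat_lit 3999896335) (nat_lit 672) (nat_lit 1670849693) (nat_lit 177)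 (nat_lit 5) (nat_lit 184) (nat_lit 5) (nat_lit 185) (nat_lit 5) (nat_lit 304) (nat_lit 288) (nat_lit 272)))) (XT.nd (nat_lit 94) (nat_lit 672) (nat_lit 0) (XT.lf (nat_lit 0) (nat_lit 468402545) (nat_lit 672) (nat_lit 2372631359) (nat_lit 84) (nat_lit 4088967514) (nat_lit 176) (nat_lit 5) (nat_lit 184) (nat_lit 5) (nat_lit 177) (nat_lit 5) (nat_lit 305) (nat_lit 288) (nat_lit 271)) (XT.nd (nat_lit 94) (nat_lit 0) (nat_lit 0) (XT.lf (nat_lit 0) (nat_lit 975368387) (nat_lit 672) (nat_lit 1600091431) (nat_lit 756) (nat_lit 4414524179) (nat_lit 168) (nat_lit 5) (nat_lit 176) (nat_lit 5) (nat_lit 177) (nat_lit 5) (nat_lit 306) (nat_lit 288) (nat_lit 270)) (XT.lf (nat_lit 0) (nat_lit 4423091554) (nat_lit 672) (nat_lit 277699737) (nat_lit 756) (nat_lit 2352851466) (nat_lit 168) (nat_lit 5) (nat_lit 176) (nat_lit 5) (nat_lit 177) (nat_lit 5) (nat_lit 307) (nat_lit 288) (nat_lit 269)))))) (XT.nd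 (nat_lit 564) (nat_lit 2688) (nat_lit 0) (XT.nd (nat_lit 282) (nat_lit 1008) (nat_lit 0) (XT.nd (nat_lit 94) (nat_lit 924) (nat_lit 0) (XT.lf (nat_lit 0) (nat_lit 808536123) (nat_lit 756) (nat_lit 6032779902) (nat_lit 840) (nat_lit 279877931) (nat_lit 159) (nat_lit 5) (nat_lit 168) (nat_lit 5) (nat_lit 169) (nat_lit 5) (nat_lit 308) (nat_lit 288) (nat_lit 268)) (XT.nd (nat_lit 94) (nat_lit 840) (nat_lit 0) (XT.lf (nat_lit 0) (nat_lit 1781551825) (nat_lit 840) (nat_lit 2858120088) (nat_lit 84) (nat_lit 2552113043) (nat_lit 158) (nat_lit 5) (nat_lit 168) (nat_lit 5) (nat_lit 159) (nat_lit 5) (nat_lit 309) (nat_lit 288) (nat_lit 267)) (XT.lf (nat_lit 0) (nat_lit 659038217) (nat_lit 840) (nat_lit 3181682340) (nat_lit 924) (nat_lit 3425943030) (nat_lit 148) (nat_lit 5) (nat_lit 158) (nat_lit 5) (nat_lit 159) (nat_lit 5) (nat_lit 310) (nat_lit 288) (nat_lit 266)))) (XT.nd (nat_lit 94) (nat_lit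 1008) (nat_lit 0) (XT.lf (nat_lit 0) (nat_lit 4291488974) (nat_lit 840) (nat_lit 1636650352) (nat_lit 924) (nat_lit 1417134850) (nat_lit 148) (nat_lit 5) (nat_lit 158) (nat_lit 5) (nat_lit 159) (nat_lit 5) (nat_lit 311) (nat_lit 288) (nat_lit 265)) (XT.nd (nat_lit 94) (nat_lit 0) (nat_lit 0) (XT.lf (nat_lit 0) (nat_lit 560724203) (nat_lit 924) (nat_lit 21217622) (nat_lit 1008) (nat_lit 6846291854) (nat_lit 136) (nat_lit 5) (nat_lit 147) (nat_lit 5) (nat_lit 148) (nat_lit 5) (nat_lit 312) (nat_lit 288) (nat_lit 264)) (XT.lf (nat_lit 0) (nat_lit 2599168424) (nat_lit 1008) (nat_lit 3247971280) (nat_lit 84) (nat_lit 1666902513) (nat_lit 136) (nat_lit 5) (nat_lit 148) (nat_lit 5) (nat_lit 137) (nat_lit 5) (nat_lit 313) (nat_lit 288) (nat_lit 263))))) (XT.nd (nat_lit 282) (nat_lit 504) (nat_lit 0) (XT.nd (nat_lit 94) (nat_lit 1176) (nat_lit 0) (XT.lf (nat_lit 0) (nat_lit 437981333) (nat_lit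 1008) (nat_lit 4184503641) (nat_lit 1092) (nat_lit 2982047860) (nat_lit 124) (nat_lit 5) (nat_lit 136) (nat_lit 5) (nat_lit 137) (nat_lit 5) (nat_lit 314) (nat_lit 288) (nat_lit 262)) (XT.nd (nat_lit 94) (nat_lit 1176) (nat_lit 0) (XT.lf (nat_lit 0) (nat_lit 4253205890) (nat_lit 1008) (nat_lit 2429514842) (nat_lit 1092) (nat_lit 1016171904) (nat_lit 124) (nat_lit 5) (nat_lit 136) (nat_lit 5) (nat_lit 137) (nat_lit 5) (nat_lit 315) (nat_lit 288) (nat_lit 261)) (XT.lf (nat_lit 0) (nat_lit 333533737) (nat_lit 1092) (nat_lit 601305103) (nat_lit 1176) (nat_lit 6862995176) (nat_lit 110) (nat_lit 5) (nat_lit 123) (nat_lit 5) (nat_lit 124) (nat_lit 5) (nat_lit 316) (nat_lit 288) (nat_lit 260)))) (XT.nd (nat_lit 94) (nat_lit 504) (nat_lit 0) (XT.lf (nat_lit 0) (nat_lit 2916818667) (nat_lit 1176) (nat_lit 3674474050) (nat_lit 84) (nat_lit 1308729154) (nat_lit 110) (nat_lit 5) (nat_lit 124) (nat_lit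 5) (nat_lit 111) (nat_lit 5) (nat_lit 317) (nat_lit 288) (nat_lit 259)) (XT.nd (nat_lit 94) (nat_lit 0) (nat_lit 0) (XT.lf (nat_lit 0) (nat_lit 176697882) (nat_lit 504) (nat_lit 4735701834) (nat_lit 588) (nat_lit 3094694586) (nat_lit 104) (nat_lit 5) (nat_lit 110) (nat_lit 5) (nat_lit 111) (nat_lit 5) (nat_lit 318) (nat_lit 288) (nat_lit 258)) (XT.lf (nat_lit 0) (nat_lit 4172146158) (nat_lit 504) (nat_lit 2781458877) (nat_lit 588) (nat_lit 1164611025) (nat_lit 104) (nat_lit 5) (nat_lit 110) (nat_lit 5) (nat_lit 111) (nat_lit 5) (nat_lit 319) (nat_lit 288) (nat_lit 257))))))))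
noncomputable def xc85 : XT := (XT.nd (nat_lit 2256) (nat_lit 2016) (nat_lit 0) (XT.nd (nat_lit 1128) (nat_lit 1932) (nat_lit 0) (XT.nd (nat_lit 564) (nat_lit 1344) (nat_lit 0) (XT.nd (nat_lit 282) (nat_lit 1092) (nat_lit 0) (XT.nd (nat_lit 94) (nat_lit 588) (nat_lit 0) (XT.lf (nat_lit 0) (nat_lit 754968837) (nat_lit 588) (nat_lit 2247098) (nat_lit 84) (nat_lit 7477191068) (nat_lit 103) (nat_lit 5) (nat_lit 110) (nat_lit 5) (nat_lit 104) (nat_lit 5) (nat_lit 320) (nat_lit 288) (nat_lit 256)) (XT.nd (nat_lit 94) (nat_lit 0) (nat_lit 0) (XT.lf (nat_lit 0) (nat_lit 2712011972) (nat_lit 672) (nat_lit 4285091806) (nat_lit 84) (nat_lit 1356867093) (nat_lit 96) (nat_lit 5) (nat_lit 104) (nat_lit 5) (nat_lit 97) (nat_lit 5) (nat_lit 321) (nat_lit 288) (nat_lit 255)) (XT.lf (nat_lit 0) (nat_lit 4686466433) (nat_lit 672) (nat_lit 271141412) (nat_lit 84) (nat_lit 3521174963) (nat_lit 96) (nat_lit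 5) (nat_lit 104) (nat_lit 5) (nat_lit 97) (nat_lit 5) (nat_lit 322) (nat_lit 288) (nat_lit 254)))) (XT.nd (nat_lit 94) (nat_lit 588) (nat_lit 0) (XT.lf (nat_lit 0) (nat_lit 3894876582) (nat_lit 504) (nat_lit 2816399037) (nat_lit 588) (nat_lit 1896719342) (nat_lit 90) (nat_lit 5) (nat_lit 96) (nat_lit 5) (nat_lit 97) (nat_lit 5) (nat_lit 323) (nat_lit 288) (nat_lit 253)) (XT.nd (nat_lit 94) (nat_lit 504) (nat_lit 0) (XT.lf (nat_lit 0) (nat_lit 10155819) (nat_lit 588) (nat_lit 597454147) (nat_lit 84) (nat_lit 8135204110) (nat_lit 89) (nat_lit 5) (nat_lit 96) (nat_lit 5) (nat_lit 90) (nat_lit 5) (nat_lit 324) (nat_lit 288) (nat_lit 252)) (XT.lf (nat_lit 0) (nat_lit 1942358020) (nat_lit 588) (nat_lit 5248887780) (nat_lit 84) (nat_lit 1689968965) (nat_lit 83) (nat_lit 5) (nat_lit 90) (nat_lit 5) (nat_lit 84) (nat_lit 5) (nat_lit 325) (nat_lit 288) (nat_lit 251))))) (XT.nd (nat_lit 282) (nat_lit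 924) (nat_lit 0) (XT.nd (nat_lit 94) (nat_lit 420) (nat_lit 0) (XT.lf (nat_lit 0) (nat_lit 3900185464) (nat_lit 588) (nat_lit 1075151416) (nat_lit 84) (nat_lit 4049803681) (nat_lit 83) (nat_lit 5) (nat_lit 90) (nat_lit 5) (nat_lit 84) (nat_lit 5) (nat_lit 326) (nat_lit 288) (nat_lit 250)) (XT.nd (nat_lit 94) (nat_lit 0) (nat_lit 0) (XT.lf (nat_lit 0) (nat_lit 3243803678) (nat_lit 420) (nat_lit 2661700190) (nat_lit 504) (nat_lit 3268600483) (nat_lit 78) (nat_lit 5) (nat_lit 83) (nat_lit 5) (nat_lit 84) (nat_lit 5) (nat_lit 327) (nat_lit 288) (nat_lit 249)) (XT.lf (nat_lit 0) (nat_lit 7670417887) (nat_lit 420) (nat_lit 269289213) (nat_lit 504) (nat_lit 1389172622) (nat_lit 78) (nat_lit 5) (nat_lit 83) (nat_lit 5) (nat_lit 84) (nat_lit 5) (nat_lit 328) (nat_lit 288) (nat_lit 248)))) (XT.nd (nat_lit 94) (nat_lit 420) (nat_lit 0) (XT.lf (nat_lit 0) (nat_lit 543041722) (nat_lit 504) (nat_lit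 6763920916) (nat_lit 84) (nat_lit 2181301389) (nat_lit 72) (nat_lit 5) (nat_lit 78) (nat_lit 5) (nat_lit 73) (nat_lit 5) (nat_lit 329) (nat_lit 288) (nat_lit 247)) (XT.nd (nat_lit 94) (nat_lit 420) (nat_lit 0) (XT.lf (nat_lit 0) (nat_lit 2483567822) (nat_lit 504) (nat_lit 2440552607) (nat_lit 84) (nat_lit 4728880856) (nat_lit 72) (nat_lit 5) (nat_lit 78) (nat_lit 5) (nat_lit 73) (nat_lit 5) (nat_lit 330) (nat_lit 288) (nat_lit 246)) (XT.lf (nat_lit 0) (nat_lit 2009277660) (nat_lit 420) (nat_lit 2453224261) (nat_lit 504) (nat_lit 5361161070) (nat_lit 67) (nat_lit 5) (nat_lit 72) (nat_lit 5) (nat_lit 73) (nat_lit 5) (nat_lit 331) (nat_lit 288) (nat_lit 245)))))) (XT.nd (nat_lit 564) (nat_lit 1092) (nat_lit 0) (XT.nd (nat_lit 282) (nat_lit 336) (nat_lit 0) (XT.nd (nat_lit 94) (nat_lit 504) (nat_lit 0) (XT.lf (nat_lit 0) (nat_lit 6488487857) (nat_lit 504) (nat_lit 3400129527) (nat_lit 84)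 (nat_lit 111580059) (nat_lit 67) (nat_lit 5) (nat_lit 73) (nat_lit 5) (nat_lit 68) (nat_lit 5) (nat_lit 332) (nat_lit 288) (nat_lit 244)) (XT.nd (nat_lit 94) (nat_lit 84) (nat_lit 0) (XT.lf (nat_lit 0) (nat_lit 1100623497) (nat_lit 420) (nat_lit 7472931438) (nat_lit 504) (nat_lit 1608899886) (nat_lit 62) (nat_lit 5) (nat_lit 67) (nat_lit 5) (nat_lit 68) (nat_lit 5) (nat_lit 333) (nat_lit 288) (nat_lit 243)) (XT.lf (nat_lit 0) (nat_lit 342108561) (nat_lit 504) (nat_lit 4608033610) (nat_lit 84) (nat_lit 5420352421) (nat_lit 61) (nat_lit 5) (nat_lit 67) (nat_lit 5) (nat_lit 62) (nat_lit 5) (nat_lit 334) (nat_lit 288) (nat_lit 242)))) (XT.nd (nat_lit 94) (nat_lit 336) (nat_lit 0) (XT.lf (nat_lit 0) (nat_lit 2281834640) (nat_lit 504) (nat_lit 58452209) (nat_lit 84) (nat_lit 8224878362) (nat_lit 61) (nat_lit 5) (nat_lit 67) (nat_lit 5) (nat_lit 62) (nat_lit 5) (nat_lit 335) (nat_lit 288) (nat_lit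 241)) (XT.nd (nat_lit 94) (nat_lit 0) (nat_lit 0) (XT.lf (nat_lit 0) (nat_lit 4294816264) (nat_lit 420) (nat_lit 6088142462) (nat_lit 84) (nat_lit 382624443) (nat_lit 57) (nat_lit 5) (nat_lit 62) (nat_lit 5) (nat_lit 58) (nat_lit 5) (nat_lit 336) (nat_lit 288) (nat_lit 240)) (XT.lf (nat_lit 0) (nat_lit 6358157865) (nat_lit 420) (nat_lit 1480515203) (nat_lit 84) (nat_lit 3134030136) (nat_lit 57) (nat_lit 5) (nat_lit 62) (nat_lit 5) (nat_lit 58) (nat_lit 5) (nat_lit 337) (nat_lit 288) (nat_lit 239))))) (XT.nd (nat_lit 282) (nat_lit 336) (nat_lit 0) (XT.nd (nat_lit 94) (nat_lit 420) (nat_lit 0) (XT.lf (nat_lit 0) (nat_lit 3291885037) (nat_lit 336) (nat_lit 5190739798) (nat_lit 420) (nat_lit 2703819432) (nat_lit 53) (nat_lit 5) (nat_lit 57) (nat_lit 5) (nat_lit 58) (nat_lit 5) (nat_lit 338) (nat_lit 288) (nat_lit 238)) (XT.nd (nat_lit 94) (nat_lit 420) (nat_lit 0) (XT.lf (nat_lit 0) (nat_lit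 8199677603) (nat_lit 336) (nat_lit 2453863455) (nat_lit 420) (nat_lit 753980876) (nat_lit 53) (nat_lit 5) (nat_lit 57) (nat_lit 5) (nat_lit 58) (nat_lit 5) (nat_lit 339) (nat_lit 288) (nat_lit 237)) (XT.lf (nat_lit 0) (nat_lit 1216452579) (nat_lit 420) (nat_lit 10039068487) (nat_lit 84) (nat_lit 380098782) (nat_lit 48) (nat_lit 5) (nat_lit 53) (nat_lit 5) (nat_lit 49) (nat_lit 5) (nat_lit 340) (nat_lit 288) (nat_lit 236)))) (XT.nd (nat_lit 94) (nat_lit 336) (nat_lit 0) (XT.lf (nat_lit 0) (nat_lit 3257477972) (nat_lit 420) (nat_lit 5329048902) (nat_lit 84) (nat_lit 3283341996) (nat_lit 48) (nat_lit 5) (nat_lit 53) (nat_lit 5) (nat_lit 49) (nat_lit 5) (nat_lit 341) (nat_lit 288) (nat_lit 235)) (XT.nd (nat_lit 94) (nat_lit 336) (nat_lit 0) (XT.lf (nat_lit 0) (nat_lit 5329037454) (nat_lit 420) (nat_lit 515729541) (nat_lit 84) (nat_lit 6267723905) (nat_lit 48) (nat_lit 5) (nat_lit 53) (nat_lit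 5) (nat_lit 49) (nat_lit 5) (nat_lit 342) (nat_lit 288) (nat_lit 234)) (XT.lf (nat_lit 0) (nat_lit 4495959681) (nat_lit 336) (nat_lit 2981702731) (nat_lit 420) (nat_lit 4884667064) (nat_lit 44) (nat_lit 5) (nat_lit 48) (nat_lit 5) (nat_lit 49) (nat_lit 5) (nat_lit 343) (nat_lit 288) (nat_lit 233))))))) (XT.nd (nat_lit 1128) (nat_lit 840) (nat_lit 0) (XT.nd (nat_lit 564) (nat_lit 588) (nat_lit 0) (XT.nd (nat_lit 282) (nat_lit 252) (nat_lit 0) (XT.nd (nat_lit 94) (nat_lit 336) (nat_lit 0) (XT.lf (nat_lit 0) (nat_lit 9632937266) (nat_lit 336) (nat_lit 34135251) (nat_lit 420) (nat_lit 2953731728) (nat_lit 44) (nat_lit 5) (nat_lit 48) (nat_lit 5) (nat_lit 49) (nat_lit 5) (nat_lit 344) (nat_lit 288) (nat_lit 232)) (XT.nd (nat_lit 94) (nat_lit 84) (nat_lit 0) (XT.lf (nat_lit 0) (nat_lit 2011890323) (nat_lit 252) (nat_lit 9931868854) (nat_lit 336) (nat_lit 943018988) (nat_lit 41) (nat_lit 5)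 (nat_lit 44) (nat_lit 5) (nat_lit 45) (nat_lit 5) (nat_lit 345) (nat_lit 288) (nat_lit 231)) (XT.lf (nat_lit 0) (nat_lit 1108876512) (nat_lit 336) (nat_lit 5982925798) (nat_lit 84) (nat_lit 6068880065) (nat_lit 40) (nat_lit 5) (nat_lit 44) (nat_lit 5) (nat_lit 41) (nat_lit 5) (nat_lit 346) (nat_lit 288) (nat_lit 230)))) (XT.nd (nat_lit 94) (nat_lit 252) (nat_lit 0) (XT.lf (nat_lit 0) (nat_lit 3175464090) (nat_lit 336) (nat_lit 988723602) (nat_lit 84) (nat_lit 9279580383) (nat_lit 40) (nat_lit 5) (nat_lit 44) (nat_lit 5) (nat_lit 41) (nat_lit 5) (nat_lit 347) (nat_lit 288) (nat_lit 229)) (XT.nd (nat_lit 94) (nat_lit 0) (nat_lit 0) (XT.lf (nat_lit 0) (nat_lit 4206479926) (nat_lit 252) (nat_lit 1112918625) (nat_lit 336) (nat_lit 8415896985) (nat_lit 37) (nat_lit 5) (nat_lit 40) (nat_lit 5) (nat_lit 41) (nat_lit 5) (nat_lit 348) (nat_lit 288) (nat_lit 228)) (XT.lf (nat_lit 0) (nat_lit 7532316945)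 (nat_lit 336) (nat_lit 4511138745) (nat_lit 84) (nat_lit 1992402005) (nat_lit 37) (nat_lit 5) (nat_lit 41) (nat_lit 5) (nat_lit 38) (nat_lit 5) (nat_lit 349) (nat_lit 288) (nat_lit 227))))) (XT.nd (nat_lit 282) (nat_lit 336) (nat_lit 0) (XT.nd (nat_lit 94) (nat_lit 0) (nat_lit 0) (XT.lf (nat_lit 0) (nat_lit 625457472) (nat_lit 252) (nat_lit 9178738675) (nat_lit 336) (nat_lit 4541913221) (nat_lit 34) (nat_lit 5) (nat_lit 37) (nat_lit 5) (nat_lit 38) (nat_lit 5) (nat_lit 350) (nat_lit 288) (nat_lit 226)) (XT.nd (nat_lit 94) (nat_lit 0) (nat_lit 0) (XT.lf (nat_lit 0) (nat_lit 5979457453) (nat_lit 252) (nat_lit 6187353370) (nat_lit 336) (nat_lit 2498609548) (nat_lit 34) (nat_lit 5) (nat_lit 37) (nat_lit 5) (nat_lit 38) (nat_lit 5) (nat_lit 351) (nat_lit 288) (nat_lit 225)) (XT.lf (nat_lit 0) (nat_lit 11463093421) (nat_lit 252) (nat_lit 3113598530) (nat_lit 336) (nat_lit 418812195) (nat_lit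 34) (nat_lit 5) (nat_lit 37) (nat_lit 5) (nat_lit 38) (nat_lit 5) (nat_lit 352) (nat_lit 288) (nat_lit 224)))) (XT.nd (nat_lit 94) (nat_lit 0) (nat_lit 0) (XT.lf (nat_lit 0) (nat_lit 1683473520) (nat_lit 336) (nat_lit 13572924974) (nat_lit 84) (nat_lit 79180097) (nat_lit 30) (nat_lit 5) (nat_lit 34) (nat_lit 5) (nat_lit 31) (nat_lit 5) (nat_lit 353) (nat_lit 288) (nat_lit 223)) (XT.nd (nat_lit 94) (nat_lit 0) (nat_lit 0) (XT.lf (nat_lit 0) (nat_lit 3886119092) (nat_lit 336) (nat_lit 8461017761) (nat_lit 84) (nat_lit 3337628038) (nat_lit 30) (nat_lit 5) (nat_lit 34) (nat_lit 5) (nat_lit 31) (nat_lit 5) (nat_lit 354) (nat_lit 288) (nat_lit 222)) (XT.lf (nat_lit 0) (nat_lit 6132600215) (nat_lit 336) (nat_lit 3225762931) (nat_lit 84) (nat_lit 6687231657) (nat_lit 30) (nat_lit 5) (nat_lit 34) (nat_lit 5) (nat_lit 31) (nat_lit 5) (nat_lit 355) (nat_lit 288) (nat_lit 221)))))) (XT.nd (nat_lit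 564) (nat_lit 336) (nat_lit 0) (XT.nd (nat_lit 282) (nat_lit 336) (nat_lit 0) (XT.nd (nat_lit 94) (nat_lit 0) (nat_lit 0) (XT.lf (nat_lit 0) (nat_lit 2181675217) (nat_lit 168) (nat_lit 6264978115) (nat_lit 252) (nat_lit 7971080407) (nat_lit 28) (nat_lit 5) (nat_lit 30) (nat_lit 5) (nat_lit 31) (nat_lit 5) (nat_lit 356) (nat_lit 288) (nat_lit 220)) (XT.nd (nat_lit 94) (nat_lit 0) (nat_lit 0) (XT.lf (nat_lit 0) (nat_lit 7791407834) (nat_lit 168) (nat_lit 3051371642) (nat_lit 252) (nat_lit 5958366429) (nat_lit 28) (nat_lit 5) (nat_lit 30) (nat_lit 5) (nat_lit 31) (nat_lit 5) (nat_lit 357) (nat_lit 288) (nat_lit 219)) (XT.lf (nat_lit 0) (nat_lit 13293051837) (nat_lit 252) (nat_lit 3657363306) (nat_lit 84) (nat_lit 246708507) (nat_lit 28) (nat_lit 5) (nat_lit 31) (nat_lit 5) (nat_lit 29) (nat_lit 5) (nat_lit 358) (nat_lit 288) (nat_lit 218)))) (XT.nd (nat_lit 94) (nat_lit 84) (nat_lit 0)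 (XT.lf (nat_lit 0) (nat_lit 1834323470) (nat_lit 252) (nat_lit 14012316381) (nat_lit 336) (nat_lit 1757942763) (nat_lit 25) (nat_lit 5) (nat_lit 28) (nat_lit 5) (nat_lit 29) (nat_lit 5) (nat_lit 359) (nat_lit 288) (nat_lit 217)) (XT.nd (nat_lit 94) (nat_lit 0) (nat_lit 0) (XT.lf (nat_lit 0) (nat_lit 462144609) (nat_lit 336) (nat_lit 10487139756) (nat_lit 84) (nat_lit 7074785105) (nat_lit 24) (nat_lit 5) (nat_lit 28) (nat_lit 5) (nat_lit 25) (nat_lit 5) (nat_lit 360) (nat_lit 288) (nat_lit 216)) (XT.lf (nat_lit 0) (nat_lit 2693222882) (nat_lit 336) (nat_lit 5089780819) (nat_lit 84) (nat_lit 10673709380) (nat_lit 24) (nat_lit 5) (nat_lit 28) (nat_lit 5) (nat_lit 25) (nat_lit 5) (nat_lit 361) (nat_lit 288) (nat_lit 215))))) (XT.nd (nat_lit 282) (nat_lit 168) (nat_lit 0) (XT.nd (nat_lit 94) (nat_lit 0) (nat_lit 0) (XT.lf (nat_lit 0) (nat_lit 453423043) (nat_lit 168) (nat_lit 4523865253)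 (nat_lit 252) (nat_lit 13926029591) (nat_lit 22) (nat_lit 5) (nat_lit 24) (nat_lit 5) (nat_lit 25) (nat_lit 5) (nat_lit 362) (nat_lit 288) (nat_lit 214)) (XT.nd (nat_lit 94) (nat_lit 0) (nat_lit 0) (XT.lf (nat_lit 0) (nat_lit 6246068126) (nat_lit 168) (nat_lit 1118865251) (nat_lit 252) (nat_lit 11997864422) (nat_lit 22) (nat_lit 5) (nat_lit 24) (nat_lit 5) (nat_lit 25) (nat_lit 5) (nat_lit 363) (nat_lit 288) (nat_lit 213)) (XT.lf (nat_lit 0) (nat_lit 9830484366) (nat_lit 252) (nat_lit 7671911232) (nat_lit 84) (nat_lit 2334050382) (nat_lit 22) (nat_lit 5) (nat_lit 25) (nat_lit 5) (nat_lit 23) (nat_lit 5) (nat_lit 364) (nat_lit 288) (nat_lit 212)))) (XT.nd (nat_lit 94) (nat_lit 168) (nat_lit 0) (XT.lf (nat_lit 0) (nat_lit 12364670300) (nat_lit 252) (nat_lit 2098795266) (nat_lit 84) (nat_lit 5861596996) (nat_lit 22) (nat_lit 5) (nat_lit 25) (nat_lit 5) (nat_lit 23) (nat_lit 5) (nat_lit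 365) (nat_lit 288) (nat_lit 211)) (XT.nd (nat_lit 94) (nat_lit 0) (nat_lit 0) (XT.lf (nat_lit 0) (nat_lit 3693324492) (nat_lit 168) (nat_lit 11302067770) (nat_lit 252) (nat_lit 5832919018) (nat_lit 20) (nat_lit 5) (nat_lit 22) (nat_lit 5) (nat_lit 23) (nat_lit 5) (nat_lit 366) (nat_lit 288) (nat_lit 210)) (XT.lf (nat_lit 0) (nat_lit 9681603505) (nat_lit 168) (nat_lit 8029592700) (nat_lit 252) (nat_lit 3635896097) (nat_lit 20) (nat_lit 5) (nat_lit 22) (nat_lit 5) (nat_lit 23) (nat_lit 5) (nat_lit 367) (nat_lit 288) (nat_lit 209))))))))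
noncomputable def xc86 : XT := (XT.nd (nat_lit 2256) (nat_lit 504) (nat_lit 0) (XT.nd (nat_lit 1128) (nat_lit 336) (nat_lit 0) (XT.nd (nat_lit 564) (nat_lit 252) (nat_lit 0) (XT.nd (nat_lit 282) (nat_lit 0) (nat_lit 0) (XT.nd (nat_lit 94) (nat_lit 252) (nat_lit 0) (XT.lf (nat_lit 0) (nat_lit 15828467943) (nat_lit 168) (nat_lit 4664897185) (nat_lit 252) (nat_lit 1389182764) (nat_lit 20) (nat_lit 5) (nat_lit 22) (nat_lit 5) (nat_lit 23) (nat_lit 5) (nat_lit 368) (nat_lit 288) (nat_lit 208)) (XT.nd (nat_lit 94) (nat_lit 168) (nat_lit 0) (XT.lf (nat_lit 0) (nat_lit 890994480) (nat_lit 252) (nat_lit 304550341) (nat_lit 84) (nat_lit 21239352691) (nat_lit 19) (nat_lit 5) (nat_lit 22) (nat_lit 5) (nat_lit 20) (nat_lit 5) (nat_lit 369) (nat_lit 288) (nat_lit 207)) (XT.lf (nat_lit 0) (nat_lit 3276806836) (nat_lit 252) (nat_lit 17329025017) (nat_lit 84) (nat_lit 2396155972) (nat_lit 17) (nat_lit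 5) (nat_lit 20) (nat_lit 5) (nat_lit 18) (nat_lit 5) (nat_lit 370) (nat_lit 288) (nat_lit 206)))) (XT.nd (nat_lit 94) (nat_lit 0) (nat_lit 0) (XT.lf (nat_lit 0) (nat_lit 5735210032) (nat_lit 252) (nat_lit 11782622846) (nat_lit 84) (nat_lit 6068902719) (nat_lit 17) (nat_lit 5) (nat_lit 20) (nat_lit 5) (nat_lit 18) (nat_lit 5) (nat_lit 371) (nat_lit 288) (nat_lit 205)) (XT.nd (nat_lit 94) (nat_lit 0) (nat_lit 0) (XT.lf (nat_lit 0) (nat_lit 8253520769) (nat_lit 252) (nat_lit 6089537787) (nat_lit 84) (nat_lit 9847091534) (nat_lit 17) (nat_lit 5) (nat_lit 20) (nat_lit 5) (nat_lit 18) (nat_lit 5) (nat_lit 372) (nat_lit 288) (nat_lit 204)) (XT.lf (nat_lit 0) (nat_lit 10834086377) (nat_lit 252) (nat_lit 244463288) (nat_lit 84) (nat_lit 13734244085) (nat_lit 17) (nat_lit 5) (nat_lit 20) (nat_lit 5) (nat_lit 18) (nat_lit 5) (nat_lit 373) (nat_lit 288) (nat_lit 203))))) (XT.nd (nat_lit 282) (nat_lit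 84) (nat_lit 0) (XT.nd (nat_lit 94) (nat_lit 0) (nat_lit 0) (XT.lf (nat_lit 0) (nat_lit 5876446165) (nat_lit 168) (nat_lit 7661161121) (nat_lit 252) (nat_lit 11915832512) (nat_lit 15) (nat_lit 5) (nat_lit 17) (nat_lit 5) (nat_lit 18) (nat_lit 5) (nat_lit 374) (nat_lit 288) (nat_lit 202)) (XT.nd (nat_lit 94) (nat_lit 0) (nat_lit 0) (XT.lf (nat_lit 0) (nat_lit 12168767203) (nat_lit 168) (nat_lit 4143612381) (nat_lit 252) (nat_lit 9801986743) (nat_lit 15) (nat_lit 5) (nat_lit 17) (nat_lit 5) (nat_lit 18) (nat_lit 5) (nat_lit 375) (nat_lit 288) (nat_lit 201)) (XT.lf (nat_lit 0) (nat_lit 18633338259) (nat_lit 168) (nat_lit 525176414) (nat_lit 252) (nat_lit 7637751435) (nat_lit 15) (nat_lit 5) (nat_lit 17) (nat_lit 5) (nat_lit 18) (nat_lit 5) (nat_lit 376) (nat_lit 288) (nat_lit 200)))) (XT.nd (nat_lit 94) (nat_lit 84) (nat_lit 0) (XT.lf (nat_lit 0) (nat_lit 22110385244) (nat_lit 252) (nat_lit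 2255309547) (nat_lit 84) (nat_lit 3133096645) (nat_lit 15) (nat_lit 5) (nat_lit 18) (nat_lit 5) (nat_lit 16) (nat_lit 4) (nat_lit 377) (nat_lit 288) (nat_lit 199)) (XT.nd (nat_lit 94) (nat_lit 0) (nat_lit 0) (XT.lf (nat_lit 0) (nat_lit 3886538234) (nat_lit 84) (nat_lit 21297288605) (nat_lit 168) (nat_lit 3038364688) (nat_lit 14) (nat_lit 5) (nat_lit 15) (nat_lit 5) (nat_lit 16) (nat_lit 4) (nat_lit 378) (nat_lit 288) (nat_lit 198)) (XT.lf (nat_lit 0) (nat_lit 10244975336) (nat_lit 84) (nat_lit 18117449743) (nat_lit 168) (nat_lit 605313240) (nat_lit 14) (nat_lit 5) (nat_lit 15) (nat_lit 5) (nat_lit 16) (nat_lit 4) (nat_lit 379) (nat_lit 288) (nat_lit 197)))))) (XT.nd (nat_lit 564) (nat_lit 84) (nat_lit 0) (XT.nd (nat_lit 282) (nat_lit 168) (nat_lit 0) (XT.nd (nat_lit 94) (nat_lit 0) (nat_lit 0) (XT.lf (nat_lit 0) (nat_lit 1851406487) (nat_lit 168) (nat_lit 12976023696) (nat_lit 84) (nat_lit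 14908823325) (nat_lit 13) (nat_lit 5) (nat_lit 15) (nat_lit 5) (nat_lit 14) (nat_lit 5) (nat_lit 380) (nat_lit 288) (nat_lit 196)) (XT.nd (nat_lit 94) (nat_lit 0) (nat_lit 0) (XT.lf (nat_lit 0) (nat_lit 4358702188) (nat_lit 168) (nat_lit 7077957855) (nat_lit 84) (nat_lit 19092169134) (nat_lit 13) (nat_lit 5) (nat_lit 15) (nat_lit 5) (nat_lit 14) (nat_lit 5) (nat_lit 381) (nat_lit 288) (nat_lit 195)) (XT.lf (nat_lit 0) (nat_lit 6931106636) (nat_lit 168) (nat_lit 1017063064) (nat_lit 84) (nat_lit 23398220540) (nat_lit 13) (nat_lit 5) (nat_lit 15) (nat_lit 5) (nat_lit 14) (nat_lit 5) (nat_lit 382) (nat_lit 288) (nat_lit 194)))) (XT.nd (nat_lit 94) (nat_lit 0) (nat_lit 0) (XT.lf (nat_lit 0) (nat_lit 5319485849) (nat_lit 168) (nat_lit 4304301690) (nat_lit 252) (nat_lit 22564275342) (nat_lit 11) (nat_lit 5) (nat_lit 13) (nat_lit 5) (nat_lit 14) (nat_lit 5) (nat_lit 383) (nat_lit 288) (nat_lit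 193)) (XT.nd (nat_lit 94) (nat_lit 0) (nat_lit 0) (XT.lf (nat_lit 0) (nat_lit 11854816085) (nat_lit 168) (nat_lit 543680856) (nat_lit 252) (nat_lit 20657398178) (nat_lit 11) (nat_lit 5) (nat_lit 13) (nat_lit 5) (nat_lit 14) (nat_lit 5) (nat_lit 384) (nat_lit 288) (nat_lit 192)) (XT.lf (nat_lit 0) (nat_lit 15280524417) (nat_lit 252) (nat_lit 15409908822) (nat_lit 84) (nat_lit 3259558826) (nat_lit 11) (nat_lit 5) (nat_lit 14) (nat_lit 5) (nat_lit 12) (nat_lit 4) (nat_lit 385) (nat_lit 288) (nat_lit 191))))) (XT.nd (nat_lit 282) (nat_lit 0) (nat_lit 0) (XT.nd (nat_lit 94) (nat_lit 84) (nat_lit 0) (XT.lf (nat_lit 0) (nat_lit 18246042283) (nat_lit 252) (nat_lit 9463154381) (nat_lit 84) (nat_lit 7162812379) (nat_lit 11) (nat_lit 5) (nat_lit 14) (nat_lit 5) (nat_lit 12) (nat_lit 4) (nat_lit 386) (nat_lit 288) (nat_lit 190)) (XT.nd (nat_lit 94) (nat_lit 84) (nat_lit 0) (XT.lf (nat_lit 0) (nat_lit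 21292421332) (nat_lit 252) (nat_lit 3349879333) (nat_lit 84) (nat_lit 11180672002) (nat_lit 11) (nat_lit 5) (nat_lit 14) (nat_lit 5) (nat_lit 12) (nat_lit 4) (nat_lit 387) (nat_lit 288) (nat_lit 189)) (XT.lf (nat_lit 0) (nat_lit 2995976789) (nat_lit 84) (nat_lit 21456244779) (nat_lit 168) (nat_lit 12350626430) (nat_lit 10) (nat_lit 5) (nat_lit 11) (nat_lit 5) (nat_lit 12) (nat_lit 4) (nat_lit 388) (nat_lit 288) (nat_lit 188)))) (XT.nd (nat_lit 94) (nat_lit 0) (nat_lit 0) (XT.lf (nat_lit 0) (nat_lit 9592452500) (nat_lit 84) (nat_lit 18141904989) (nat_lit 168) (nat_lit 10078005850) (nat_lit 10) (nat_lit 5) (nat_lit 11) (nat_lit 5) (nat_lit 12) (nat_lit 4) (nat_lit 389) (nat_lit 288) (nat_lit 187)) (XT.nd (nat_lit 94) (nat_lit 0) (nat_lit 0) (XT.lf (nat_lit 0) (nat_lit 16376816015) (nat_lit 84) (nat_lit 14731157854) (nat_lit 168) (nat_lit 7745537144) (nat_lit 10) (nat_lit 5) (nat_lit 11)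 (nat_lit 5) (nat_lit 12) (nat_lit 4) (nat_lit 390) (nat_lit 288) (nat_lit 186)) (XT.lf (nat_lit 0) (nat_lit 23355391073) (nat_lit 84) (nat_lit 11220824201) (nat_lit 168) (nat_lit 5351046206) (nat_lit 10) (nat_lit 5) (nat_lit 11) (nat_lit 5) (nat_lit 12) (nat_lit 4) (nat_lit 391) (nat_lit 288) (nat_lit 185))))))) (XT.nd (nat_lit 1128) (nat_lit 168) (nat_lit 0) (XT.nd (nat_lit 564) (nat_lit 84) (nat_lit 0) (XT.nd (nat_lit 282) (nat_lit 0) (nat_lit 0) (XT.nd (nat_lit 94) (nat_lit 252) (nat_lit 0) (XT.lf (nat_lit 0) (nat_lit 30534682435) (nat_lit 84) (nat_lit 7607632029) (nat_lit 168) (nat_lit 2892301120) (nat_lit 10) (nat_lit 5) (nat_lit 11) (nat_lit 5) (nat_lit 12) (nat_lit 4) (nat_lit 392) (nat_lit 288) (nat_lit 184)) (XT.nd (nat_lit 94) (nat_lit 252) (nat_lit 0) (XT.lf (nat_lit 0) (nat_lit 37921381953) (nat_lit 84) (nat_lit 3888213466) (nat_lit 168) (nat_lit 367010079) (nat_lit 10) (nat_lit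 5) (nat_lit 11) (nat_lit 5) (nat_lit 12) (nat_lit 4) (nat_lit 393) (nat_lit 288) (nat_lit 183)) (XT.lf (nat_lit 0) (nat_lit 2190111076) (nat_lit 168) (nat_lit 13923120) (nat_lit 252) (nat_lit 41148903057) (nat_lit 7) (nat_lit 5) (nat_lit 9) (nat_lit 5) (nat_lit 10) (nat_lit 5) (nat_lit 394) (nat_lit 288) (nat_lit 182)))) (XT.nd (nat_lit 94) (nat_lit 0) (nat_lit 0) (XT.lf (nat_lit 0) (nat_lit 4922392640) (nat_lit 252) (nat_lit 35697583040) (nat_lit 84) (nat_lit 3943326872) (nat_lit 7) (nat_lit 5) (nat_lit 10) (nat_lit 5) (nat_lit 8) (nat_lit 4) (nat_lit 395) (nat_lit 288) (nat_lit 181)) (XT.nd (nat_lit 94) (nat_lit 0) (nat_lit 0) (XT.lf (nat_lit 0) (nat_lit 7716315477) (nat_lit 252) (nat_lit 30077598596) (nat_lit 84) (nat_lit 8017560385) (nat_lit 7) (nat_lit 5) (nat_lit 10) (nat_lit 5) (nat_lit 8) (nat_lit 4) (nat_lit 396) (nat_lit 288) (nat_lit 180)) (XT.lf (nat_lit 0) (nat_lit 10588268819)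 (nat_lit 252) (nat_lit 24297496313) (nat_lit 84) (nat_lit 12212855553) (nat_lit 7) (nat_lit 5) (nat_lit 10) (nat_lit 5) (nat_lit 8) (nat_lit 4) (nat_lit 397) (nat_lit 288) (nat_lit 179))))) (XT.nd (nat_lit 282) (nat_lit 84) (nat_lit 0) (XT.nd (nat_lit 94) (nat_lit 0) (nat_lit 0) (XT.lf (nat_lit 0) (nat_lit 13540929628) (nat_lit 252) (nat_lit 18351888531) (nat_lit 84) (nat_lit 16533122828) (nat_lit 7) (nat_lit 5) (nat_lit 10) (nat_lit 5) (nat_lit 8) (nat_lit 4) (nat_lit 398) (nat_lit 288) (nat_lit 178)) (XT.nd (nat_lit 94) (nat_lit 0) (nat_lit 0) (XT.lf (nat_lit 0) (nat_lit 16577050091) (nat_lit 252) (nat_lit 12235233319) (nat_lit 84) (nat_lit 20982389152) (nat_lit 7) (nat_lit 5) (nat_lit 10) (nat_lit 5) (nat_lit 8) (nat_lit 4) (nat_lit 399) (nat_lit 288) (nat_lit 177)) (XT.lf (nat_lit 0) (nat_lit 19699460192) (nat_lit 252) (nat_lit 5941829316) (nat_lit 84) (nat_lit 25564801709) (nat_lit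 7) (nat_lit 5) (nat_lit 10) (nat_lit 5) (nat_lit 8) (nat_lit 4) (nat_lit 400) (nat_lit 288) (nat_lit 176)))) (XT.nd (nat_lit 94) (nat_lit 0) (nat_lit 0) (XT.lf (nat_lit 0) (nat_lit 545173624) (nat_lit 84) (nat_lit 22371304910) (nat_lit 168) (nat_lit 29744866351) (nat_lit 6) (nat_lit 5) (nat_lit 7) (nat_lit 5) (nat_lit 8) (nat_lit 4) (nat_lit 401) (nat_lit 288) (nat_lit 175)) (XT.nd (nat_lit 94) (nat_lit 0) (nat_lit 0) (XT.lf (nat_lit 0) (nat_lit 7346883051) (nat_lit 84) (nat_lit 18940873043) (nat_lit 168) (nat_lit 27872277697) (nat_lit 6) (nat_lit 5) (nat_lit 7) (nat_lit 5) (nat_lit 8) (nat_lit 4) (nat_lit 402) (nat_lit 288) (nat_lit 174)) (XT.lf (nat_lit 0) (nat_lit 14347462672) (nat_lit 84) (nat_lit 15408816898) (nat_lit 168) (nat_lit 25949140127) (nat_lit 6) (nat_lit 5) (nat_lit 7) (nat_lit 5) (nat_lit 8) (nat_lit 4) (nat_lit 403) (nat_lit 288) (nat_lit 173)))))) (XT.nd (nat_lit 564)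 (nat_lit 168) (nat_lit 0) (XT.nd (nat_lit 282) (nat_lit 0) (nat_lit 0) (XT.nd (nat_lit 94) (nat_lit 0) (nat_lit 0) (XT.lf (nat_lit 0) (nat_lit 21553437760) (nat_lit 84) (nat_lit 11771844229) (nat_lit 168) (nat_lit 23973661074) (nat_lit 6) (nat_lit 5) (nat_lit 7) (nat_lit 5) (nat_lit 8) (nat_lit 4) (nat_lit 404) (nat_lit 288) (nat_lit 172)) (XT.nd (nat_lit 94) (nat_lit 0) (nat_lit 0) (XT.lf (nat_lit 0) (nat_lit 28971525040) (nat_lit 84) (nat_lit 8026564996) (nat_lit 168) (nat_lit 21943999187) (nat_lit 6) (nat_lit 5) (nat_lit 7) (nat_lit 5) (nat_lit 8) (nat_lit 4) (nat_lit 405) (nat_lit 288) (nat_lit 171)) (XT.lf (nat_lit 0) (nat_lit 36608638945) (nat_lit 84) (nat_lit 4169488207) (nat_lit 168) (nat_lit 19858262606) (nat_lit 6) (nat_lit 5) (nat_lit 7) (nat_lit 5) (nat_lit 8) (nat_lit 4) (nat_lit 406) (nat_lit 288) (nat_lit 170)))) (XT.nd (nat_lit 94) (nat_lit 0) (nat_lit 0) (XT.lf (nat_lit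 0) (nat_lit 44471898066) (nat_lit 84) (nat_lit 197018662) (nat_lit 168) (nat_lit 17714507207) (nat_lit 6) (nat_lit 5) (nat_lit 7) (nat_lit 5) (nat_lit 8) (nat_lit 4) (nat_lit 407) (nat_lit 288) (nat_lit 169)) (XT.nd (nat_lit 94) (nat_lit 0) (nat_lit 0) (XT.lf (nat_lit 0) (nat_lit 48712719770) (nat_lit 168) (nat_lit 11654822773) (nat_lit 0) (nat_lit 3816079964) (nat_lit 6) (nat_lit 5) (nat_lit 8) (nat_lit 4) (nat_lit 6) (nat_lit 4) (nat_lit 408) (nat_lit 288) (nat_lit 168)) (XT.lf (nat_lit 0) (nat_lit 52877808857) (nat_lit 168) (nat_lit 5216312950) (nat_lit 0) (nat_lit 7945642038) (nat_lit 6) (nat_lit 5) (nat_lit 8) (nat_lit 4) (nat_lit 6) (nat_lit 4) (nat_lit 409) (nat_lit 288) (nat_lit 167))))) (XT.nd (nat_lit 282) (nat_lit 84) (nat_lit 0) (XT.nd (nat_lit 94) (nat_lit 0) (nat_lit 0) (XT.lf (nat_lit 0) (nat_lit 1440992194) (nat_lit 84) (nat_lit 55739414465) (nat_lit 84) (nat_lit 10772788855)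 (nat_lit 5) (nat_lit 4) (nat_lit 6) (nat_lit 5) (nat_lit 6) (nat_lit 4) (nat_lit 410) (nat_lit 288) (nat_lit 166)) (XT.nd (nat_lit 94) (nat_lit 0) (nat_lit 0) (XT.lf (nat_lit 0) (nat_lit 8405525160) (nat_lit 84) (nat_lit 53259484551) (nat_lit 84) (nat_lit 8259436255) (nat_lit 5) (nat_lit 4) (nat_lit 6) (nat_lit 5) (nat_lit 6) (nat_lit 4) (nat_lit 411) (nat_lit 288) (nat_lit 165)) (XT.lf (nat_lit 0) (nat_lit 15576519530) (nat_lit 84) (nat_lit 50706468121) (nat_lit 84) (nat_lit 5674002087) (nat_lit 5) (nat_lit 4) (nat_lit 6) (nat_lit 5) (nat_lit 6) (nat_lit 4) (nat_lit 412) (nat_lit 288) (nat_lit 164)))) (XT.nd (nat_lit 94) (nat_lit 84) (nat_lit 0) (XT.lf (nat_lit 0) (nat_lit 22960659421) (nat_lit 84) (nat_lit 48077985495) (nat_lit 84) (nat_lit 3014076457) (nat_lit 5) (nat_lit 4) (nat_lit 6) (nat_lit 5) (nat_lit 6) (nat_lit 4) (nat_lit 413) (nat_lit 288) (nat_lit 163)) (XT.nd (nat_lit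 94) (nat_lit 84) (nat_lit 0) (XT.lf (nat_lit 0) (nat_lit 30564827625) (nat_lit 84) (nat_lit 45371586653) (nat_lit 84) (nat_lit 277180036) (nat_lit 5) (nat_lit 4) (nat_lit 6) (nat_lit 5) (nat_lit 6) (nat_lit 4) (nat_lit 414) (nat_lit 288) (nat_lit 162)) (XT.lf (nat_lit 0) (nat_lit 2488078259) (nat_lit 168) (nat_lit 40070700253) (nat_lit 84) (nat_lit 35882063329) (nat_lit 4) (nat_lit 5) (nat_lit 6) (nat_lit 5) (nat_lit 5) (nat_lit 4) (nat_lit 415) (nat_lit 288) (nat_lit 161))))))))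
noncomputable def xc87 : XT := (XT.nd (nat_lit 43710) (nat_lit 0) (nat_lit 6300) (XT.nd (nat_lit 42582) (nat_lit 0) (nat_lit 15204) (XT.nd (nat_lit 564) (nat_lit 84) (nat_lit 0) (XT.nd (nat_lit 282) (nat_lit 0) (nat_lit 0) (XT.nd (nat_lit 94) (nat_lit 0) (nat_lit 0) (XT.lf (nat_lit 0) (nat_lit 5328243977) (nat_lit 168) (nat_lit 34331014835) (nat_lit 84) (nat_lit 41077952277) (nat_lit 4) (nat_lit 5) (nat_lit 6) (nat_lit 5) (nat_lit 5) (nat_lit 4) (nat_lit 416) (nat_lit 288) (nat_lit 160)) (XT.nd (nat_lit 94) (nat_lit 0) (nat_lit 0) (XT.lf (nat_lit 0) (nat_lit 8251549010) (nat_lit 168) (nat_lit 28421610787) (nat_lit 84) (nat_lit 46431767955) (nat_lit 4) (nat_lit 5) (nat_lit 6) (nat_lit 5) (nat_lit 5) (nat_lit 4) (nat_lit 417) (nat_lit 288) (nat_lit 159)) (XT.lf (nat_lit 0) (nat_lit 11260718183) (nat_lit 168) (nat_lit 22336979925) (nat_lit 84) (nat_lit 51948500681) (nat_lit 4) (nat_lit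 5) (nat_lit 6) (nat_lit 5) (nat_lit 5) (nat_lit 4) (nat_lit 418) (nat_lit 288) (nat_lit 158)))) (XT.nd (nat_lit 94) (nat_lit 0) (nat_lit 0) (XT.lf (nat_lit 0) (nat_lit 14358556359) (nat_lit 168) (nat_lit 16071450735) (nat_lit 84) (nat_lit 57633292628) (nat_lit 4) (nat_lit 5) (nat_lit 6) (nat_lit 5) (nat_lit 5) (nat_lit 4) (nat_lit 419) (nat_lit 288) (nat_lit 157)) (XT.nd (nat_lit 94) (nat_lit 0) (nat_lit 0) (XT.lf (nat_lit 0) (nat_lit 17547951046) (nat_lit 168) (nat_lit 9619183089) (nat_lit 84) (nat_lit 63491442617) (nat_lit 4) (nat_lit 5) (nat_lit 6) (nat_lit 5) (nat_lit 5) (nat_lit 4) (nat_lit 420) (nat_lit 288) (nat_lit 156)) (XT.lf (nat_lit 0) (nat_lit 20831875094) (nat_lit 168) (nat_lit 2974162796) (nat_lit 84) (nat_lit 69528411059) (nat_lit 4) (nat_lit 5) (nat_lit 6) (nat_lit 5) (nat_lit 5) (nat_lit 4) (nat_lit 421) (nat_lit 288) (nat_lit 155))))) (XT.nd (nat_lit 41736) (nat_lit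 0) (nat_lit 17136) (XT.nd (nat_lit 94) (nat_lit 0) (nat_lit 0) (XT.lf (nat_lit 0) (nat_lit 3949375103) (nat_lit 84) (nat_lit 20303192651) (nat_lit 168) (nat_lit 71839628225) (nat_lit 3) (nat_lit 5) (nat_lit 4) (nat_lit 5) (nat_lit 5) (nat_lit 4) (nat_lit 422) (nat_lit 288) (nat_lit 154)) (XT.nd (nat_lit 94) (nat_lit 0) (nat_lit 0) (XT.lf (nat_lit 0) (nat_lit 11143615605) (nat_lit 84) (nat_lit 16662576525) (nat_lit 168) (nat_lit 71128414008) (nat_lit 3) (nat_lit 5) (nat_lit 4) (nat_lit 5) (nat_lit 5) (nat_lit 4) (nat_lit 423) (nat_lit 288) (nat_lit 153)) (XT.lf (nat_lit 0) (nat_lit 18554109608) (nat_lit 84) (nat_lit 12911840236) (nat_lit 168) (nat_lit 70399312437) (nat_lit 3) (nat_lit 5) (nat_lit 4) (nat_lit 5) (nat_lit 5) (nat_lit 4) (nat_lit 424) (nat_lit 288) (nat_lit 152)))) (XT.nd (nat_lit 94) (nat_lit 252) (nat_lit 0) (XT.lf (nat_lit 0) (nat_lit 1288995757) (nat_lit 0) (nat_lit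 1288995757) (nat_lit 84) (nat_lit 645405397) (nat_lit 210) (nat_lit 5) (nat_lit 210) (nat_lit 3) (nat_lit 211) (nat_lit 0) (nat_lit 289) (nat_lit 289) (nat_lit 286)) (XT.nd (nat_lit 94) (nat_lit 0) (nat_lit 0) (XT.lf (nat_lit 0) (nat_lit 1206781861) (nat_lit 252) (nat_lit 1225334331) (nat_lit 252) (nat_lit 4021402985) (nat_lit 207) (nat_lit 3) (nat_lit 210) (nat_lit 3) (nat_lit 210) (nat_lit 5) (nat_lit 290) (nat_lit 289) (nat_lit 285)) (XT.lf (nat_lit 84) (nat_lit 1464303832) (nat_lit 0) (nat_lit 2204825097) (nat_lit 252) (nat_lit 2794236305) (nat_lit 208) (nat_lit 5) (nat_lit 207) (nat_lit 3) (nat_lit 210) (nat_lit 5) (nat_lit 291) (nat_lit 289) (nat_lit 284)))))) (XT.nd (nat_lit 564) (nat_lit 1344) (nat_lit 0) (XT.nd (nat_lit 282) (nat_lit 336) (nat_lit 0) (XT.nd (nat_lit 94) (nat_lit 252) (nat_lit 0) (XT.lf (nat_lit 84) (nat_lit 4211746642) (nat_lit 0) (nat_lit 1910975175) (nat_lit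 252) (nat_lit 354072441) (nat_lit 208) (nat_lit 5) (nat_lit 207) (nat_lit 3) (nat_lit 210) (nat_lit 5) (nat_lit 292) (nat_lit 289) (nat_lit 283)) (XT.nd (nat_lit 94) (nat_lit 0) (nat_lit 0) (XT.lf (nat_lit 84) (nat_lit 489552076) (nat_lit 0) (nat_lit 1536973461) (nat_lit 336) (nat_lit 4466892754) (nat_lit 205) (nat_lit 5) (nat_lit 204) (nat_lit 5) (nat_lit 208) (nat_lit 5) (nat_lit 293) (nat_lit 289) (nat_lit 282)) (XT.lf (nat_lit 84) (nat_lit 3321811580) (nat_lit 0) (nat_lit 1081233698) (nat_lit 336) (nat_lit 2110170338) (nat_lit 205) (nat_lit 5) (nat_lit 204) (nat_lit 5) (nat_lit 208) (nat_lit 5) (nat_lit 294) (nat_lit 289) (nat_lit 281)))) (XT.nd (nat_lit 94) (nat_lit 0) (nat_lit 84) (XT.lf (nat_lit 0) (nat_lit 220384793) (nat_lit 336) (nat_lit 347873046) (nat_lit 420) (nat_lit 5968696340) (nat_lit 200) (nat_lit 5) (nat_lit 204) (nat_lit 5) (nat_lit 205) (nat_lit 5) (nat_lit 295)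 (nat_lit 289) (nat_lit 280)) (XT.nd (nat_lit 94) (nat_lit 0) (nat_lit 0) (XT.lf (nat_lit 0) (nat_lit 2515251284) (nat_lit 336) (nat_lit 4001268735) (nat_lit 84) (nat_lit 46759671) (nat_lit 201) (nat_lit 5) (nat_lit 205) (nat_lit 5) (nat_lit 202) (nat_lit 5) (nat_lit 296) (nat_lit 289) (nat_lit 279)) (XT.lf (nat_lit 0) (nat_lit 4803310796) (nat_lit 336) (nat_lit 1081121907) (nat_lit 84) (nat_lit 708921864) (nat_lit 201) (nat_lit 5) (nat_lit 205) (nat_lit 5) (nat_lit 202) (nat_lit 5) (nat_lit 297) (nat_lit 289) (nat_lit 278))))) (XT.nd (nat_lit 282) (nat_lit 588) (nat_lit 0) (XT.nd (nat_lit 94) (nat_lit 420) (nat_lit 0) (XT.lf (nat_lit 0) (nat_lit 460137056) (nat_lit 420) (nat_lit 4716225419) (nat_lit 84) (nat_lit 1450395993) (nat_lit 196) (nat_lit 5) (nat_lit 201) (nat_lit 5) (nat_lit 197) (nat_lit 5) (nat_lit 298) (nat_lit 289) (nat_lit 277)) (XT.nd (nat_lit 94) (nat_lit 420) (nat_lit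 0) (XT.lf (nat_lit 0) (nat_lit 2670199181) (nat_lit 420) (nat_lit 1715892327) (nat_lit 84) (nat_lit 2277263908) (nat_lit 196) (nat_lit 5) (nat_lit 201) (nat_lit 5) (nat_lit 197) (nat_lit 5) (nat_lit 299) (nat_lit 289) (nat_lit 276)) (XT.lf (nat_lit 0) (nat_lit 1351856327) (nat_lit 420) (nat_lit 3528764923) (nat_lit 504) (nat_lit 1823035802) (nat_lit 191) (nat_lit 5) (nat_lit 196) (nat_lit 5) (nat_lit 197) (nat_lit 5) (nat_lit 300) (nat_lit 289) (nat_lit 275)))) (XT.nd (nat_lit 94) (nat_lit 504) (nat_lit 0) (XT.lf (nat_lit 0) (nat_lit 343225412) (nat_lit 504) (nat_lit 2252255458) (nat_lit 84) (nat_lit 4151976441) (nat_lit 190) (nat_lit 5) (nat_lit 196) (nat_lit 5) (nat_lit 191) (nat_lit 5) (nat_lit 301) (nat_lit 289) (nat_lit 274)) (XT.nd (nat_lit 94) (nat_lit 0) (nat_lit 0) (XT.lf (nat_lit 0) (nat_lit 889905169) (nat_lit 504) (nat_lit 1579248486) (nat_lit 588) (nat_lit 4325459322) (nat_lit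 184) (nat_lit 5) (nat_lit 190) (nat_lit 5) (nat_lit 191) (nat_lit 5) (nat_lit 302) (nat_lit 289) (nat_lit 273)) (XT.lf (nat_lit 0) (nat_lit 4124998723) (nat_lit 504) (nat_lit 482890261) (nat_lit 588) (nat_lit 2237392365) (nat_lit 184) (nat_lit 5) (nat_lit 190) (nat_lit 5) (nat_lit 191) (nat_lit 5) (nat_lit 303) (nat_lit 289) (nat_lit 272))))))) (XT.nd (nat_lit 1128) (nat_lit 3864) (nat_lit 0) (XT.nd (nat_lit 564) (nat_lit 2856) (nat_lit 0) (XT.nd (nat_lit 282) (nat_lit 840) (nat_lit 0) (XT.nd (nat_lit 94) (nat_lit 756) (nat_lit 0) (XT.lf (nat_lit 0) (nat_lit 513195418) (nat_lit 588) (nat_lit 6237175866) (nat_lit 672) (nat_lit 149481034) (nat_lit 177) (nat_lit 5) (nat_lit 184) (nat_lit 5) (nat_lit 185) (nat_lit 5) (nat_lit 304) (nat_lit 289) (nat_lit 271)) (XT.nd (nat_lit 94) (nat_lit 672) (nat_lit 0) (XT.lf (nat_lit 0) (nat_lit 1922939754) (nat_lit 672) (nat_lit 3130674828) (nat_lit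 84) (nat_lit 1903489395) (nat_lit 176) (nat_lit 5) (nat_lit 184) (nat_lit 5) (nat_lit 177) (nat_lit 5) (nat_lit 305) (nat_lit 289) (nat_lit 270)) (XT.lf (nat_lit 0) (nat_lit 174971318) (nat_lit 672) (nat_lit 3811994241) (nat_lit 756) (nat_lit 3031631406) (nat_lit 168) (nat_lit 5) (nat_lit 176) (nat_lit 5) (nat_lit 177) (nat_lit 5) (nat_lit 306) (nat_lit 289) (nat_lit 269)))) (XT.nd (nat_lit 94) (nat_lit 840) (nat_lit 0) (XT.lf (nat_lit 0) (nat_lit 3596732632) (nat_lit 672) (nat_lit 2481270553) (nat_lit 756) (nat_lit 1005486780) (nat_lit 168) (nat_lit 5) (nat_lit 176) (nat_lit 5) (nat_lit 177) (nat_lit 5) (nat_lit 307) (nat_lit 289) (nat_lit 268)) (XT.nd (nat_lit 94) (nat_lit 756) (nat_lit 0) (XT.lf (nat_lit 0) (nat_lit 993061037) (nat_lit 756) (nat_lit 89454411) (nat_lit 84) (nat_lit 6069998900) (nat_lit 167) (nat_lit 5) (nat_lit 176) (nat_lit 5) (nat_lit 168) (nat_lit 5) (nat_lit 308)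 (nat_lit 289) (nat_lit 267)) (XT.lf (nat_lit 0) (nat_lit 3004264079) (nat_lit 840) (nat_lit 3808350941) (nat_lit 84) (nat_lit 411942632) (nat_lit 158) (nat_lit 5) (nat_lit 168) (nat_lit 5) (nat_lit 159) (nat_lit 5) (nat_lit 309) (nat_lit 289) (nat_lit 266))))) (XT.nd (nat_lit 282) (nat_lit 1932) (nat_lit 0) (XT.nd (nat_lit 94) (nat_lit 924) (nat_lit 0) (XT.lf (nat_lit 0) (nat_lit 5024951129) (nat_lit 840) (nat_lit 330682244) (nat_lit 84) (nat_lit 1945147300) (nat_lit 158) (nat_lit 5) (nat_lit 168) (nat_lit 5) (nat_lit 159) (nat_lit 5) (nat_lit 310) (nat_lit 289) (nat_lit 265)) (XT.nd (nat_lit 94) (nat_lit 84) (nat_lit 0) (XT.lf (nat_lit 0) (nat_lit 3269022917) (nat_lit 840) (nat_lit 3808758278) (nat_lit 924) (nat_lit 302829222) (nat_lit 148) (nat_lit 5) (nat_lit 158) (nat_lit 5) (nat_lit 159) (nat_lit 5) (nat_lit 311) (nat_lit 289) (nat_lit 264)) (XT.lf (nat_lit 0) (nat_lit 1637483201)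 (nat_lit 924) (nat_lit 545365939) (nat_lit 84) (nat_lit 5281642026) (nat_lit 147) (nat_lit 5) (nat_lit 158) (nat_lit 5) (nat_lit 148) (nat_lit 5) (nat_lit 312) (nat_lit 289) (nat_lit 263)))) (XT.nd (nat_lit 94) (nat_lit 1008) (nat_lit 0) (XT.lf (nat_lit 0) (nat_lit 3140492127) (nat_lit 924) (nat_lit 461739346) (nat_lit 1008) (nat_lit 3949829105) (nat_lit 136) (nat_lit 5) (nat_lit 147) (nat_lit 5) (nat_lit 148) (nat_lit 5) (nat_lit 313) (nat_lit 289) (nat_lit 262)) (XT.nd (nat_lit 94) (nat_lit 1008) (nat_lit 0) (XT.lf (nat_lit 0) (nat_lit 5587488470) (nat_lit 1008) (nat_lit 755838481) (nat_lit 84) (nat_lit 1300534106) (nat_lit 136) (nat_lit 5) (nat_lit 148) (nat_lit 5) (nat_lit 137) (nat_lit 5) (nat_lit 314) (nat_lit 289) (nat_lit 261)) (XT.lf (nat_lit 0) (nat_lit 3018128689) (nat_lit 1008) (nat_lit 4593430039) (nat_lit 1092) (nat_lit 127909370) (nat_lit 124) (nat_lit 5) (nat_lit 136)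 (nat_lit 5) (nat_lit 137) (nat_lit 5) (nat_lit 315) (nat_lit 289) (nat_lit 260)))))) (XT.nd (nat_lit 564) (nat_lit 1512) (nat_lit 0) (XT.nd (nat_lit 282) (nat_lit 1176) (nat_lit 0) (XT.nd (nat_lit 94) (nat_lit 1092) (nat_lit 0) (XT.lf (nat_lit 0) (nat_lit 1773837484) (nat_lit 1092) (nat_lit 983288717) (nat_lit 84) (nat_lit 5082101141) (nat_lit 123) (nat_lit 5) (nat_lit 136) (nat_lit 5) (nat_lit 124) (nat_lit 5) (nat_lit 316) (nat_lit 289) (nat_lit 259)) (XT.nd (nat_lit 94) (nat_lit 0) (nat_lit 0) (XT.lf (nat_lit 0) (nat_lit 2876788787) (nat_lit 1092) (nat_lit 828357123) (nat_lit 1176) (nat_lit 4237955171) (nat_lit 110) (nat_lit 5) (nat_lit 123) (nat_lit 5) (nat_lit 124) (nat_lit 5) (nat_lit 317) (nat_lit 289) (nat_lit 258)) (XT.lf (nat_lit 0) (nat_lit 5664135872) (nat_lit 1176) (nat_lit 1236056110) (nat_lit 84) (nat_lit 1151227465) (nat_lit 110) (nat_lit 5) (nat_lit 124) (nat_lit 5)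 (nat_lit 111) (nat_lit 5) (nat_lit 318) (nat_lit 289) (nat_lit 257)))) (XT.nd (nat_lit 94) (nat_lit 672) (nat_lit 0) (XT.lf (nat_lit 0) (nat_lit 2708662137) (nat_lit 504) (nat_lit 4958093591) (nat_lit 588) (nat_lit 497089882) (nat_lit 104) (nat_lit 5) (nat_lit 110) (nat_lit 5) (nat_lit 111) (nat_lit 5) (nat_lit 319) (nat_lit 289) (nat_lit 256)) (XT.nd (nat_lit 94) (nat_lit 588) (nat_lit 0) (XT.lf (nat_lit 0) (nat_lit 1383391810) (nat_lit 588) (nat_lit 1543164837) (nat_lit 84) (nat_lit 5354171591) (nat_lit 103) (nat_lit 5) (nat_lit 110) (nat_lit 5) (nat_lit 104) (nat_lit 5) (nat_lit 320) (nat_lit 289) (nat_lit 255)) (XT.lf (nat_lit 0) (nat_lit 2485512478) (nat_lit 588) (nat_lit 800459824) (nat_lit 672) (nat_lit 5116106927) (nat_lit 96) (nat_lit 5) (nat_lit 103) (nat_lit 5) (nat_lit 104) (nat_lit 5) (nat_lit 321) (nat_lit 289) (nat_lit 254))))) (XT.nd (nat_lit 282) (nat_lit 924) (nat_lit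 0) (XT.nd (nat_lit 94) (nat_lit 588) (nat_lit 0) (XT.lf (nat_lit 0) (nat_lit 5228118293) (nat_lit 672) (nat_lit 1919706689) (nat_lit 84) (nat_lit 1380163558) (nat_lit 96) (nat_lit 5) (nat_lit 104) (nat_lit 5) (nat_lit 97) (nat_lit 5) (nat_lit 322) (nat_lit 289) (nat_lit 253)) (XT.nd (nat_lit 94) (nat_lit 84) (nat_lit 0) (XT.lf (nat_lit 0) (nat_lit 2187635847) (nat_lit 504) (nat_lit 5024720472) (nat_lit 588) (nat_lit 1446195009) (nat_lit 90) (nat_lit 5) (nat_lit 96) (nat_lit 5) (nat_lit 97) (nat_lit 5) (nat_lit 323) (nat_lit 289) (nat_lit 252)) (XT.lf (nat_lit 0) (nat_lit 428115001) (nat_lit 588) (nat_lit 2384323460) (nat_lit 84) (nat_lit 5981608990) (nat_lit 89) (nat_lit 5) (nat_lit 96) (nat_lit 5) (nat_lit 90) (nat_lit 5) (nat_lit 324) (nat_lit 289) (nat_lit 251)))) (XT.nd (nat_lit 94) (nat_lit 420) (nat_lit 0) (XT.lf (nat_lit 0) (nat_lit 1802001913) (nat_lit 504) (nat_lit 500091978)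 (nat_lit 588) (nat_lit 6632243969) (nat_lit 83) (nat_lit 5) (nat_lit 89) (nat_lit 5) (nat_lit 90) (nat_lit 5) (nat_lit 325) (nat_lit 289) (nat_lit 250)) (XT.nd (nat_lit 94) (nat_lit 420) (nat_lit 0) (XT.lf (nat_lit 0) (nat_lit 4232616381) (nat_lit 588) (nat_lit 2978021923) (nat_lit 84) (nat_lit 1868554052) (nat_lit 83) (nat_lit 5) (nat_lit 90) (nat_lit 5) (nat_lit 84) (nat_lit 5) (nat_lit 326) (nat_lit 289) (nat_lit 249)) (XT.lf (nat_lit 0) (nat_lit 1277669796) (nat_lit 420) (nat_lit 4919088554) (nat_lit 504) (nat_lit 3032754040) (nat_lit 78) (nat_lit 5) (nat_lit 83) (nat_lit 5) (nat_lit 84) (nat_lit 5) (nat_lit 327) (nat_lit 289) (nat_lit 248))))))))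
noncomputable def xc88 : XT := (XT.nd (nat_lit 2256) (nat_lit 1596) (nat_lit 0) (XT.nd (nat_lit 1128) (nat_lit 1596) (nat_lit 0) (XT.nd (nat_lit 564) (nat_lit 1176) (nat_lit 0) (XT.nd (nat_lit 282) (nat_lit 420) (nat_lit 0) (XT.nd (nat_lit 94) (nat_lit 504) (nat_lit 0) (XT.lf (nat_lit 0) (nat_lit 5680873282) (nat_lit 420) (nat_lit 2528835555) (nat_lit 504) (nat_lit 1175315134) (nat_lit 78) (nat_lit 5) (nat_lit 83) (nat_lit 5) (nat_lit 84) (nat_lit 5) (nat_lit 328) (nat_lit 289) (nat_lit 247)) (XT.nd (nat_lit 94) (nat_lit 0) (nat_lit 0) (XT.lf (nat_lit 0) (nat_lit 633507355) (nat_lit 420) (nat_lit 55134084) (nat_lit 504) (nat_lit 8857756283) (nat_lit 72) (nat_lit 5) (nat_lit 77) (nat_lit 5) (nat_lit 78) (nat_lit 5) (nat_lit 329) (nat_lit 289) (nat_lit 246)) (XT.lf (nat_lit 0) (nat_lit 2608098400) (nat_lit 504) (nat_lit 4612630919) (nat_lit 84) (nat_lit 2491129407) (nat_lit 72) (nat_lit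 5) (nat_lit 78) (nat_lit 5) (nat_lit 73) (nat_lit 5) (nat_lit 330) (nat_lit 289) (nat_lit 245)))) (XT.nd (nat_lit 94) (nat_lit 420) (nat_lit 0) (XT.lf (nat_lit 0) (nat_lit 4547195073) (nat_lit 504) (nat_lit 226227637) (nat_lit 84) (nat_lit 5110401162) (nat_lit 72) (nat_lit 5) (nat_lit 78) (nat_lit 5) (nat_lit 73) (nat_lit 5) (nat_lit 331) (nat_lit 289) (nat_lit 244)) (XT.nd (nat_lit 94) (nat_lit 0) (nat_lit 0) (XT.lf (nat_lit 0) (nat_lit 4338363355) (nat_lit 420) (nat_lit 2211865709) (nat_lit 504) (nat_lit 3510907192) (nat_lit 67) (nat_lit 5) (nat_lit 72) (nat_lit 5) (nat_lit 73) (nat_lit 5) (nat_lit 332) (nat_lit 289) (nat_lit 243)) (XT.lf (nat_lit 0) (nat_lit 8583460579) (nat_lit 504) (nat_lit 1244903431) (nat_lit 84) (nat_lit 416700951) (nat_lit 67) (nat_lit 5) (nat_lit 73) (nat_lit 5) (nat_lit 68) (nat_lit 5) (nat_lit 333) (nat_lit 289) (nat_lit 242))))) (XT.nd (nat_lit 282) (nat_lit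 336) (nat_lit 0) (XT.nd (nat_lit 94) (nat_lit 336) (nat_lit 0) (XT.lf (nat_lit 0) (nat_lit 258854633) (nat_lit 504) (nat_lit 7064377325) (nat_lit 84) (nat_lit 3110929541) (nat_lit 61) (nat_lit 5) (nat_lit 67) (nat_lit 5) (nat_lit 62) (nat_lit 5) (nat_lit 334) (nat_lit 289) (nat_lit 241)) (XT.nd (nat_lit 94) (nat_lit 336) (nat_lit 0) (XT.lf (nat_lit 0) (nat_lit 2180269485) (nat_lit 504) (nat_lit 2536978181) (nat_lit 84) (nat_lit 5912210886) (nat_lit 61) (nat_lit 5) (nat_lit 67) (nat_lit 5) (nat_lit 62) (nat_lit 5) (nat_lit 335) (nat_lit 289) (nat_lit 240)) (XT.lf (nat_lit 0) (nat_lit 2129987292) (nat_lit 336) (nat_lit 2016318769) (nat_lit 420) (nat_lit 6685082764) (nat_lit 57) (nat_lit 5) (nat_lit 61) (nat_lit 5) (nat_lit 62) (nat_lit 5) (nat_lit 336) (nat_lit 289) (nat_lit 239)))) (XT.nd (nat_lit 94) (nat_lit 336) (nat_lit 0) (XT.lf (nat_lit 0) (nat_lit 6172169348) (nat_lit 420) (nat_lit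 4095627196) (nat_lit 84) (nat_lit 771929449) (nat_lit 57) (nat_lit 5) (nat_lit 62) (nat_lit 5) (nat_lit 58) (nat_lit 5) (nat_lit 337) (nat_lit 289) (nat_lit 238)) (XT.nd (nat_lit 94) (nat_lit 0) (nat_lit 0) (XT.lf (nat_lit 0) (nat_lit 601367189) (nat_lit 336) (nat_lit 7651628148) (nat_lit 420) (nat_lit 3001878230) (nat_lit 53) (nat_lit 5) (nat_lit 57) (nat_lit 5) (nat_lit 58) (nat_lit 5) (nat_lit 338) (nat_lit 289) (nat_lit 237)) (XT.lf (nat_lit 0) (nat_lit 5488176449) (nat_lit 336) (nat_lit 4919085916) (nat_lit 420) (nat_lit 1069257022) (nat_lit 53) (nat_lit 5) (nat_lit 57) (nat_lit 5) (nat_lit 58) (nat_lit 5) (nat_lit 339) (nat_lit 289) (nat_lit 236)))))) (XT.nd (nat_lit 564) (nat_lit 840) (nat_lit 0) (XT.nd (nat_lit 282) (nat_lit 336) (nat_lit 0) (XT.nd (nat_lit 94) (nat_lit 336) (nat_lit 0) (XT.lf (nat_lit 0) (nat_lit 871439843) (nat_lit 420) (nat_lit 1229836892) (nat_lit 84) (nat_lit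 9604605218) (nat_lit 52) (nat_lit 5) (nat_lit 57) (nat_lit 5) (nat_lit 53) (nat_lit 5) (nat_lit 340) (nat_lit 289) (nat_lit 235)) (XT.nd (nat_lit 94) (nat_lit 0) (nat_lit 0) (XT.lf (nat_lit 0) (nat_lit 2862922968) (nat_lit 420) (nat_lit 8251430400) (nat_lit 84) (nat_lit 827360892) (nat_lit 48) (nat_lit 5) (nat_lit 53) (nat_lit 5) (nat_lit 49) (nat_lit 5) (nat_lit 341) (nat_lit 289) (nat_lit 234)) (XT.lf (nat_lit 0) (nat_lit 4918848110) (nat_lit 420) (nat_lit 3458508186) (nat_lit 84) (nat_lit 3807510706) (nat_lit 48) (nat_lit 5) (nat_lit 53) (nat_lit 5) (nat_lit 49) (nat_lit 5) (nat_lit 342) (nat_lit 289) (nat_lit 233)))) (XT.nd (nat_lit 94) (nat_lit 0) (nat_lit 0) (XT.lf (nat_lit 0) (nat_lit 1472480827) (nat_lit 336) (nat_lit 5549834707) (nat_lit 420) (nat_lit 5413834589) (nat_lit 44) (nat_lit 5) (nat_lit 48) (nat_lit 5) (nat_lit 49) (nat_lit 5) (nat_lit 343) (nat_lit 289) (nat_lit 232))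 (XT.nd (nat_lit 94) (nat_lit 0) (nat_lit 0) (XT.lf (nat_lit 0) (nat_lit 6589874858) (nat_lit 336) (nat_lit 2606948220) (nat_lit 420) (nat_lit 3498307114) (nat_lit 44) (nat_lit 5) (nat_lit 48) (nat_lit 5) (nat_lit 49) (nat_lit 5) (nat_lit 344) (nat_lit 289) (nat_lit 231)) (XT.lf (nat_lit 0) (nat_lit 11413529400) (nat_lit 420) (nat_lit 1139950298) (nat_lit 84) (nat_lit 409525821) (nat_lit 44) (nat_lit 5) (nat_lit 49) (nat_lit 5) (nat_lit 45) (nat_lit 5) (nat_lit 345) (nat_lit 289) (nat_lit 230))))) (XT.nd (nat_lit 282) (nat_lit 252) (nat_lit 0) (XT.nd (nat_lit 94) (nat_lit 252) (nat_lit 0) (XT.lf (nat_lit 0) (nat_lit 488538971) (nat_lit 336) (nat_lit 9248236517) (nat_lit 84) (nat_lit 3501169345) (nat_lit 40) (nat_lit 5) (nat_lit 44) (nat_lit 5) (nat_lit 41) (nat_lit 5) (nat_lit 346) (nat_lit 289) (nat_lit 229)) (XT.nd (nat_lit 94) (nat_lit 252) (nat_lit 0) (XT.lf (nat_lit 0) (nat_lit 2541120575)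 (nat_lit 336) (nat_lit 4273025030) (nat_lit 84) (nat_lit 6707357452) (nat_lit 40) (nat_lit 5) (nat_lit 44) (nat_lit 5) (nat_lit 41) (nat_lit 5) (nat_lit 347) (nat_lit 289) (nat_lit 228)) (XT.lf (nat_lit 0) (nat_lit 835848078) (nat_lit 252) (nat_lit 3802185030) (nat_lit 336) (nat_lit 9176492278) (nat_lit 37) (nat_lit 5) (nat_lit 40) (nat_lit 5) (nat_lit 41) (nat_lit 5) (nat_lit 348) (nat_lit 289) (nat_lit 227)))) (XT.nd (nat_lit 94) (nat_lit 252) (nat_lit 0) (XT.lf (nat_lit 0) (nat_lit 6156650477) (nat_lit 252) (nat_lit 660772492) (nat_lit 336) (nat_lit 7298740029) (nat_lit 37) (nat_lit 5) (nat_lit 40) (nat_lit 5) (nat_lit 41) (nat_lit 5) (nat_lit 349) (nat_lit 289) (nat_lit 226)) (XT.nd (nat_lit 94) (nat_lit 252) (nat_lit 0) (XT.lf (nat_lit 0) (nat_lit 9063540068) (nat_lit 336) (nat_lit 2847037608) (nat_lit 84) (nat_lit 2516670604) (nat_lit 37) (nat_lit 5) (nat_lit 41) (nat_lit 5) (nat_lit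 38) (nat_lit 5) (nat_lit 350) (nat_lit 289) (nat_lit 225)) (XT.lf (nat_lit 0) (nat_lit 2430529755) (nat_lit 252) (nat_lit 8954012220) (nat_lit 336) (nat_lit 3363341239) (nat_lit 34) (nat_lit 5) (nat_lit 37) (nat_lit 5) (nat_lit 38) (nat_lit 5) (nat_lit 351) (nat_lit 289) (nat_lit 224))))))) (XT.nd (nat_lit 1128) (nat_lit 588) (nat_lit 0) (XT.nd (nat_lit 564) (nat_lit 504) (nat_lit 0) (XT.nd (nat_lit 282) (nat_lit 168) (nat_lit 0) (XT.nd (nat_lit 94) (nat_lit 336) (nat_lit 0) (XT.lf (nat_lit 0) (nat_lit 7896812003) (nat_lit 252) (nat_lit 5885206569) (nat_lit 336) (nat_lit 1296365870) (nat_lit 34) (nat_lit 5) (nat_lit 37) (nat_lit 5) (nat_lit 38) (nat_lit 5) (nat_lit 352) (nat_lit 289) (nat_lit 223)) (XT.nd (nat_lit 94) (nat_lit 252) (nat_lit 0) (XT.lf (nat_lit 0) (nat_lit 793119141) (nat_lit 336) (nat_lit 1929619830) (nat_lit 84) (nat_lit 12696965672) (nat_lit 33) (nat_lit 5) (nat_lit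 37) (nat_lit 5) (nat_lit 34) (nat_lit 5) (nat_lit 353) (nat_lit 289) (nat_lit 222)) (XT.lf (nat_lit 0) (nat_lit 2936982671) (nat_lit 336) (nat_lit 12267782812) (nat_lit 84) (nat_lit 565977736) (nat_lit 30) (nat_lit 5) (nat_lit 34) (nat_lit 5) (nat_lit 31) (nat_lit 5) (nat_lit 354) (nat_lit 289) (nat_lit 221)))) (XT.nd (nat_lit 94) (nat_lit 168) (nat_lit 0) (XT.lf (nat_lit 0) (nat_lit 5171789048) (nat_lit 336) (nat_lit 7049300741) (nat_lit 84) (nat_lit 3910874387) (nat_lit 30) (nat_lit 5) (nat_lit 34) (nat_lit 5) (nat_lit 31) (nat_lit 5) (nat_lit 355) (nat_lit 289) (nat_lit 220)) (XT.nd (nat_lit 94) (nat_lit 168) (nat_lit 0) (XT.lf (nat_lit 0) (nat_lit 7452875967) (nat_lit 336) (nat_lit 1702086924) (nat_lit 84) (nat_lit 7350190426) (nat_lit 30) (nat_lit 5) (nat_lit 34) (nat_lit 5) (nat_lit 31) (nat_lit 5) (nat_lit 356) (nat_lit 289) (nat_lit 219)) (XT.lf (nat_lit 0) (nat_lit 3856543558)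 (nat_lit 168) (nat_lit 5964083469) (nat_lit 252) (nat_lit 7068845487) (nat_lit 28) (nat_lit 5) (nat_lit 30) (nat_lit 5) (nat_lit 31) (nat_lit 5) (nat_lit 357) (nat_lit 289) (nat_lit 218))))) (XT.nd (nat_lit 282) (nat_lit 252) (nat_lit 0) (XT.nd (nat_lit 94) (nat_lit 252) (nat_lit 0) (XT.lf (nat_lit 0) (nat_lit 9591851670) (nat_lit 168) (nat_lit 2665742080) (nat_lit 252) (nat_lit 5028295563) (nat_lit 28) (nat_lit 5) (nat_lit 30) (nat_lit 5) (nat_lit 31) (nat_lit 5) (nat_lit 358) (nat_lit 289) (nat_lit 217)) (XT.nd (nat_lit 94) (nat_lit 252) (nat_lit 0) (XT.lf (nat_lit 0) (nat_lit 14756011297) (nat_lit 252) (nat_lit 2228318245) (nat_lit 84) (nat_lit 710754800) (nat_lit 28) (nat_lit 5) (nat_lit 31) (nat_lit 5) (nat_lit 29) (nat_lit 5) (nat_lit 359) (nat_lit 289) (nat_lit 216)) (XT.lf (nat_lit 0) (nat_lit 3417995169) (nat_lit 252) (nat_lit 13954313895) (nat_lit 336) (nat_lit 743452831) (nat_lit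 25) (nat_lit 5) (nat_lit 28) (nat_lit 5) (nat_lit 29) (nat_lit 5) (nat_lit 360) (nat_lit 289) (nat_lit 215)))) (XT.nd (nat_lit 94) (nat_lit 168) (nat_lit 0) (XT.lf (nat_lit 0) (nat_lit 1492424990) (nat_lit 336) (nat_lit 9308103381) (nat_lit 84) (nat_lit 7748444849) (nat_lit 24) (nat_lit 5) (nat_lit 28) (nat_lit 5) (nat_lit 25) (nat_lit 5) (nat_lit 361) (nat_lit 289) (nat_lit 214)) (XT.nd (nat_lit 94) (nat_lit 168) (nat_lit 0) (XT.lf (nat_lit 0) (nat_lit 3762119095) (nat_lit 336) (nat_lit 3788652572) (nat_lit 84) (nat_lit 11445274686) (nat_lit 24) (nat_lit 5) (nat_lit 28) (nat_lit 5) (nat_lit 25) (nat_lit 5) (nat_lit 362) (nat_lit 289) (nat_lit 213)) (XT.lf (nat_lit 0) (nat_lit 1911620442) (nat_lit 168) (nat_lit 4190067061) (nat_lit 252) (nat_lit 13355351270) (nat_lit 22) (nat_lit 5) (nat_lit 24) (nat_lit 5) (nat_lit 25) (nat_lit 5) (nat_lit 363) (nat_lit 289) (nat_lit 212)))))) (XT.nd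 (nat_lit 564) (nat_lit 420) (nat_lit 0) (XT.nd (nat_lit 282) (nat_lit 168) (nat_lit 0) (XT.nd (nat_lit 94) (nat_lit 0) (nat_lit 0) (XT.lf (nat_lit 0) (nat_lit 7840415234) (nat_lit 168) (nat_lit 693765385) (nat_lit 252) (nat_lit 11397552595) (nat_lit 22) (nat_lit 5) (nat_lit 24) (nat_lit 5) (nat_lit 25) (nat_lit 5) (nat_lit 364) (nat_lit 289) (nat_lit 211)) (XT.nd (nat_lit 94) (nat_lit 0) (nat_lit 0) (XT.lf (nat_lit 0) (nat_lit 11052295751) (nat_lit 252) (nat_lit 6525192282) (nat_lit 84) (nat_lit 2843380777) (nat_lit 22) (nat_lit 5) (nat_lit 25) (nat_lit 5) (nat_lit 23) (nat_lit 5) (nat_lit 365) (nat_lit 289) (nat_lit 210)) (XT.lf (nat_lit 0) (nat_lit 13637467194) (nat_lit 252) (nat_lit 820940171) (nat_lit 84) (nat_lit 6467142422) (nat_lit 22) (nat_lit 5) (nat_lit 25) (nat_lit 5) (nat_lit 23) (nat_lit 5) (nat_lit 366) (nat_lit 289) (nat_lit 209)))) (XT.nd (nat_lit 94) (nat_lit 0) (nat_lit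 0) (XT.lf (nat_lit 0) (nat_lit 5137139462) (nat_lit 168) (nat_lit 11199043956) (nat_lit 252) (nat_lit 5108696699) (nat_lit 20) (nat_lit 5) (nat_lit 22) (nat_lit 5) (nat_lit 23) (nat_lit 5) (nat_lit 367) (nat_lit 289) (nat_lit 208)) (XT.nd (nat_lit 94) (nat_lit 0) (nat_lit 0) (XT.lf (nat_lit 0) (nat_lit 11271085213) (nat_lit 168) (nat_lit 7838754580) (nat_lit 252) (nat_lit 2870778800) (nat_lit 20) (nat_lit 5) (nat_lit 22) (nat_lit 5) (nat_lit 23) (nat_lit 5) (nat_lit 368) (nat_lit 289) (nat_lit 207)) (XT.lf (nat_lit 0) (nat_lit 17569734348) (nat_lit 168) (nat_lit 4382976026) (nat_lit 252) (nat_lit 580811856) (nat_lit 20) (nat_lit 5) (nat_lit 22) (nat_lit 5) (nat_lit 23) (nat_lit 5) (nat_lit 369) (nat_lit 289) (nat_lit 206))))) (XT.nd (nat_lit 282) (nat_lit 168) (nat_lit 0) (XT.nd (nat_lit 94) (nat_lit 0) (nat_lit 0) (XT.lf (nat_lit 0) (nat_lit 936221717) (nat_lit 168) (nat_lit 800876995)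 (nat_lit 252) (nat_lit 21366177500) (nat_lit 17) (nat_lit 5) (nat_lit 19) (nat_lit 5) (nat_lit 20) (nat_lit 5) (nat_lit 370) (nat_lit 289) (nat_lit 205)) (XT.nd (nat_lit 94) (nat_lit 0) (nat_lit 0) (XT.lf (nat_lit 0) (nat_lit 4179530050) (nat_lit 252) (nat_lit 16625142571) (nat_lit 84) (nat_lit 2883863303) (nat_lit 17) (nat_lit 5) (nat_lit 20) (nat_lit 5) (nat_lit 18) (nat_lit 5) (nat_lit 371) (nat_lit 289) (nat_lit 204)) (XT.lf (nat_lit 0) (nat_lit 6690055085) (nat_lit 252) (nat_lit 10944118663) (nat_lit 84) (nat_lit 6658034335) (nat_lit 17) (nat_lit 5) (nat_lit 20) (nat_lit 5) (nat_lit 18) (nat_lit 5) (nat_lit 372) (nat_lit 289) (nat_lit 203)))) (XT.nd (nat_lit 94) (nat_lit 168) (nat_lit 0) (XT.lf (nat_lit 0) (nat_lit 9263069090) (nat_lit 252) (nat_lit 5110742662) (nat_lit 84) (nat_lit 10541289909) (nat_lit 17) (nat_lit 5) (nat_lit 20) (nat_lit 5) (nat_lit 18) (nat_lit 5) (nat_lit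 373) (nat_lit 289) (nat_lit 202)) (XT.nd (nat_lit 94) (nat_lit 0) (nat_lit 0) (XT.lf (nat_lit 0) (nat_lit 898526047) (nat_lit 168) (nat_lit 11011357827) (nat_lit 252) (nat_lit 13647637067) (nat_lit 15) (nat_lit 5) (nat_lit 17) (nat_lit 5) (nat_lit 18) (nat_lit 5) (nat_lit 374) (nat_lit 289) (nat_lit 201)) (XT.lf (nat_lit 0) (nat_lit 7179615212) (nat_lit 168) (nat_lit 7497825229) (nat_lit 252) (nat_lit 11541245597) (nat_lit 15) (nat_lit 5) (nat_lit 17) (nat_lit 5) (nat_lit 18) (nat_lit 5) (nat_lit 375) (nat_lit 289) (nat_lit 200))))))))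
noncomputable def xc89 : XT := (XT.nd (nat_lit 2256) (nat_lit 336) (nat_lit 0) (XT.nd (nat_lit 1128) (nat_lit 336) (nat_lit 0) (XT.nd (nat_lit 564) (nat_lit 168) (nat_lit 0) (XT.nd (nat_lit 282) (nat_lit 168) (nat_lit 0) (XT.nd (nat_lit 94) (nat_lit 0) (nat_lit 0) (XT.lf (nat_lit 0) (nat_lit 13633292114) (nat_lit 168) (nat_lit 3883284648) (nat_lit 252) (nat_lit 9384240453) (nat_lit 15) (nat_lit 5) (nat_lit 17) (nat_lit 5) (nat_lit 18) (nat_lit 5) (nat_lit 376) (nat_lit 289) (nat_lit 199)) (XT.nd (nat_lit 94) (nat_lit 0) (nat_lit 0) (XT.lf (nat_lit 0) (nat_lit 20265572258) (nat_lit 168) (nat_lit 164366955) (nat_lit 252) (nat_lit 7174611081) (nat_lit 15) (nat_lit 5) (nat_lit 17) (nat_lit 5) (nat_lit 18) (nat_lit 5) (nat_lit 377) (nat_lit 289) (nat_lit 198)) (XT.lf (nat_lit 0) (nat_lit 23456574755) (nat_lit 252) (nat_lit 1284235008) (nat_lit 84) (nat_lit 3588605188) (nat_lit 15) (nat_lit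 5) (nat_lit 18) (nat_lit 5) (nat_lit 16) (nat_lit 4) (nat_lit 378) (nat_lit 289) (nat_lit 197)))) (XT.nd (nat_lit 94) (nat_lit 84) (nat_lit 0) (XT.lf (nat_lit 0) (nat_lit 5037470974) (nat_lit 84) (nat_lit 21578176367) (nat_lit 168) (nat_lit 2459932869) (nat_lit 14) (nat_lit 5) (nat_lit 15) (nat_lit 5) (nat_lit 16) (nat_lit 4) (nat_lit 379) (nat_lit 289) (nat_lit 196)) (XT.nd (nat_lit 94) (nat_lit 0) (nat_lit 0) (XT.lf (nat_lit 0) (nat_lit 27748309) (nat_lit 168) (nat_lit 18283130156) (nat_lit 84) (nat_lit 11533998218) (nat_lit 13) (nat_lit 5) (nat_lit 15) (nat_lit 5) (nat_lit 14) (nat_lit 5) (nat_lit 380) (nat_lit 289) (nat_lit 195)) (XT.lf (nat_lit 0) (nat_lit 2528831592) (nat_lit 168) (nat_lit 12394917142) (nat_lit 84) (nat_lit 15713908221) (nat_lit 13) (nat_lit 5) (nat_lit 15) (nat_lit 5) (nat_lit 14) (nat_lit 5) (nat_lit 381) (nat_lit 289) (nat_lit 194))))) (XT.nd (nat_lit 282) (nat_lit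 0) (nat_lit 0) (XT.nd (nat_lit 94) (nat_lit 168) (nat_lit 0) (XT.lf (nat_lit 0) (nat_lit 5095210417) (nat_lit 168) (nat_lit 6343578925) (nat_lit 84) (nat_lit 20016627127) (nat_lit 13) (nat_lit 5) (nat_lit 15) (nat_lit 5) (nat_lit 14) (nat_lit 5) (nat_lit 382) (nat_lit 289) (nat_lit 193)) (XT.nd (nat_lit 94) (nat_lit 168) (nat_lit 0) (XT.lf (nat_lit 0) (nat_lit 7729276918) (nat_lit 168) (nat_lit 123475023) (nat_lit 84) (nat_lit 24446165522) (nat_lit 13) (nat_lit 5) (nat_lit 15) (nat_lit 5) (nat_lit 14) (nat_lit 5) (nat_lit 383) (nat_lit 289) (nat_lit 192)) (XT.lf (nat_lit 0) (nat_lit 6400140928) (nat_lit 168) (nat_lit 4096835582) (nat_lit 252) (nat_lit 22670001461) (nat_lit 11) (nat_lit 5) (nat_lit 13) (nat_lit 5) (nat_lit 14) (nat_lit 5) (nat_lit 384) (nat_lit 289) (nat_lit 191)))) (XT.nd (nat_lit 94) (nat_lit 0) (nat_lit 0) (XT.lf (nat_lit 0) (nat_lit 13110531695) (nat_lit 168) (nat_lit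 229885631) (nat_lit 252) (nat_lit 20721864412) (nat_lit 11) (nat_lit 5) (nat_lit 13) (nat_lit 5) (nat_lit 14) (nat_lit 5) (nat_lit 385) (nat_lit 289) (nat_lit 190)) (XT.nd (nat_lit 94) (nat_lit 0) (nat_lit 0) (XT.lf (nat_lit 0) (nat_lit 16298204246) (nat_lit 252) (nat_lit 15011493435) (nat_lit 84) (nat_lit 3674851012) (nat_lit 11) (nat_lit 5) (nat_lit 14) (nat_lit 5) (nat_lit 12) (nat_lit 4) (nat_lit 386) (nat_lit 289) (nat_lit 189)) (XT.lf (nat_lit 0) (nat_lit 19339296725) (nat_lit 252) (nat_lit 8906732767) (nat_lit 84) (nat_lit 7689656714) (nat_lit 11) (nat_lit 5) (nat_lit 14) (nat_lit 5) (nat_lit 12) (nat_lit 4) (nat_lit 387) (nat_lit 289) (nat_lit 188)))))) (XT.nd (nat_lit 564) (nat_lit 252) (nat_lit 0) (XT.nd (nat_lit 282) (nat_lit 0) (nat_lit 0) (XT.nd (nat_lit 94) (nat_lit 84) (nat_lit 0) (XT.lf (nat_lit 0) (nat_lit 22464248887) (nat_lit 252) (nat_lit 2629497271) (nat_lit 84)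 (nat_lit 11822905376) (nat_lit 11) (nat_lit 5) (nat_lit 14) (nat_lit 5) (nat_lit 12) (nat_lit 4) (nat_lit 388) (nat_lit 289) (nat_lit 187)) (XT.nd (nat_lit 94) (nat_lit 0) (nat_lit 0) (XT.lf (nat_lit 0) (nat_lit 3904735819) (nat_lit 84) (nat_lit 21809973158) (nat_lit 168) (nat_lit 12212449262) (nat_lit 10) (nat_lit 5) (nat_lit 11) (nat_lit 5) (nat_lit 12) (nat_lit 4) (nat_lit 389) (nat_lit 289) (nat_lit 186)) (XT.lf (nat_lit 0) (nat_lit 10681170370) (nat_lit 84) (nat_lit 18402252435) (nat_lit 168) (nat_lit 9885044218) (nat_lit 10) (nat_lit 5) (nat_lit 11) (nat_lit 5) (nat_lit 12) (nat_lit 4) (nat_lit 390) (nat_lit 289) (nat_lit 185)))) (XT.nd (nat_lit 94) (nat_lit 0) (nat_lit 0) (XT.lf (nat_lit 0) (nat_lit 17652054870) (nat_lit 84) (nat_lit 14894854195) (nat_lit 168) (nat_lit 7495464689) (nat_lit 10) (nat_lit 5) (nat_lit 11) (nat_lit 5) (nat_lit 12) (nat_lit 4) (nat_lit 391) (nat_lit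 289) (nat_lit 184)) (XT.nd (nat_lit 94) (nat_lit 0) (nat_lit 0) (XT.lf (nat_lit 0) (nat_lit 24823886914) (nat_lit 84) (nat_lit 11284509176) (nat_lit 168) (nat_lit 5041483337) (nat_lit 10) (nat_lit 5) (nat_lit 11) (nat_lit 5) (nat_lit 12) (nat_lit 4) (nat_lit 392) (nat_lit 289) (nat_lit 183)) (XT.lf (nat_lit 0) (nat_lit 32203351400) (nat_lit 84) (nat_lit 7567852157) (nat_lit 168) (nat_lit 2520812793) (nat_lit 10) (nat_lit 5) (nat_lit 11) (nat_lit 5) (nat_lit 12) (nat_lit 4) (nat_lit 393) (nat_lit 289) (nat_lit 182))))) (XT.nd (nat_lit 282) (nat_lit 0) (nat_lit 0) (XT.nd (nat_lit 94) (nat_lit 168) (nat_lit 0) (XT.lf (nat_lit 0) (nat_lit 67508360) (nat_lit 168) (nat_lit 3673205817) (nat_lit 84) (nat_lit 39729113753) (nat_lit 9) (nat_lit 5) (nat_lit 11) (nat_lit 5) (nat_lit 10) (nat_lit 5) (nat_lit 394) (nat_lit 289) (nat_lit 181)) (XT.nd (nat_lit 94) (nat_lit 0) (nat_lit 0) (XT.lf (nat_lit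 0) (nat_lit 2706972279) (nat_lit 252) (nat_lit 41724279966) (nat_lit 84) (nat_lit 251394315) (nat_lit 7) (nat_lit 5) (nat_lit 10) (nat_lit 5) (nat_lit 8) (nat_lit 4) (nat_lit 395) (nat_lit 289) (nat_lit 180)) (XT.lf (nat_lit 0) (nat_lit 5496670053) (nat_lit 252) (nat_lit 36111238742) (nat_lit 84) (nat_lit 4323048023) (nat_lit 7) (nat_lit 5) (nat_lit 10) (nat_lit 5) (nat_lit 8) (nat_lit 4) (nat_lit 396) (nat_lit 289) (nat_lit 179)))) (XT.nd (nat_lit 94) (nat_lit 0) (nat_lit 0) (XT.lf (nat_lit 0) (nat_lit 8364525371) (nat_lit 252) (nat_lit 30337870911) (nat_lit 84) (nat_lit 8515840953) (nat_lit 7) (nat_lit 5) (nat_lit 10) (nat_lit 5) (nat_lit 8) (nat_lit 4) (nat_lit 397) (nat_lit 289) (nat_lit 178)) (XT.nd (nat_lit 94) (nat_lit 0) (nat_lit 0) (XT.lf (nat_lit 0) (nat_lit 11313211374) (nat_lit 252) (nat_lit 24398795089) (nat_lit 84) (nat_lit 12833681229) (nat_lit 7) (nat_lit 5) (nat_lit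 10) (nat_lit 5) (nat_lit 8) (nat_lit 4) (nat_lit 398) (nat_lit 289) (nat_lit 177)) (XT.lf (nat_lit 0) (nat_lit 14345476546) (nat_lit 252) (nat_lit 18288475436) (nat_lit 84) (nat_lit 17280593529) (nat_lit 7) (nat_lit 5) (nat_lit 10) (nat_lit 5) (nat_lit 8) (nat_lit 4) (nat_lit 399) (nat_lit 289) (nat_lit 176))))))) (XT.nd (nat_lit 1128) (nat_lit 168) (nat_lit 0) (XT.nd (nat_lit 564) (nat_lit 84) (nat_lit 0) (XT.nd (nat_lit 282) (nat_lit 0) (nat_lit 0) (XT.nd (nat_lit 94) (nat_lit 84) (nat_lit 0) (XT.lf (nat_lit 0) (nat_lit 17464147276) (nat_lit 252) (nat_lit 12001216494) (nat_lit 84) (nat_lit 21860722841) (nat_lit 7) (nat_lit 5) (nat_lit 10) (nat_lit 5) (nat_lit 8) (nat_lit 4) (nat_lit 400) (nat_lit 289) (nat_lit 175)) (XT.nd (nat_lit 94) (nat_lit 84) (nat_lit 0) (XT.lf (nat_lit 0) (nat_lit 20672130493) (nat_lit 252) (nat_lit 5531157879) (nat_lit 84) (nat_lit 26578338326) (nat_lit 7)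 (nat_lit 5) (nat_lit 10) (nat_lit 5) (nat_lit 8) (nat_lit 4) (nat_lit 401) (nat_lit 289) (nat_lit 174)) (XT.lf (nat_lit 0) (nat_lit 1150919647) (nat_lit 84) (nat_lit 22832913989) (nat_lit 168) (nat_lit 30298334914) (nat_lit 6) (nat_lit 5) (nat_lit 7) (nat_lit 5) (nat_lit 8) (nat_lit 4) (nat_lit 402) (nat_lit 289) (nat_lit 173)))) (XT.nd (nat_lit 94) (nat_lit 0) (nat_lit 0) (XT.lf (nat_lit 0) (nat_lit 8145776717) (nat_lit 84) (nat_lit 19303111521) (nat_lit 168) (nat_lit 28378779708) (nat_lit 6) (nat_lit 5) (nat_lit 7) (nat_lit 5) (nat_lit 8) (nat_lit 4) (nat_lit 403) (nat_lit 289) (nat_lit 172)) (XT.nd (nat_lit 94) (nat_lit 0) (nat_lit 0) (XT.lf (nat_lit 0) (nat_lit 15346201319) (nat_lit 84) (nat_lit 15668324765) (nat_lit 168) (nat_lit 26406775307) (nat_lit 6) (nat_lit 5) (nat_lit 7) (nat_lit 5) (nat_lit 8) (nat_lit 4) (nat_lit 404) (nat_lit 289) (nat_lit 171)) (XT.lf (nat_lit 0) (nat_lit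 22758905005) (nat_lit 84) (nat_lit 11925165719) (nat_lit 168) (nat_lit 24380483594) (nat_lit 6) (nat_lit 5) (nat_lit 7) (nat_lit 5) (nat_lit 8) (nat_lit 4) (nat_lit 405) (nat_lit 289) (nat_lit 170))))) (XT.nd (nat_lit 282) (nat_lit 84) (nat_lit 0) (XT.nd (nat_lit 94) (nat_lit 0) (nat_lit 0) (XT.lf (nat_lit 0) (nat_lit 30390797189) (nat_lit 84) (nat_lit 8070145368) (nat_lit 168) (nat_lit 22298015854) (nat_lit 6) (nat_lit 5) (nat_lit 7) (nat_lit 5) (nat_lit 8) (nat_lit 4) (nat_lit 406) (nat_lit 289) (nat_lit 169)) (XT.nd (nat_lit 94) (nat_lit 0) (nat_lit 0) (XT.lf (nat_lit 0) (nat_lit 38248991595) (nat_lit 84) (nat_lit 4099670428) (nat_lit 168) (nat_lit 20157431009) (nat_lit 6) (nat_lit 5) (nat_lit 7) (nat_lit 5) (nat_lit 8) (nat_lit 4) (nat_lit 407) (nat_lit 289) (nat_lit 168)) (XT.lf (nat_lit 0) (nat_lit 46340812883) (nat_lit 84) (nat_lit 10040000) (nat_lit 168) (nat_lit 17956733810)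 (nat_lit 6) (nat_lit 5) (nat_lit 7) (nat_lit 5) (nat_lit 8) (nat_lit 4) (nat_lit 408) (nat_lit 289) (nat_lit 167)))) (XT.nd (nat_lit 94) (nat_lit 84) (nat_lit 0) (XT.lf (nat_lit 0) (nat_lit 50512935495) (nat_lit 168) (nat_lit 11533004992) (nat_lit 0) (nat_lit 4117885702) (nat_lit 6) (nat_lit 5) (nat_lit 8) (nat_lit 4) (nat_lit 6) (nat_lit 4) (nat_lit 409) (nat_lit 289) (nat_lit 166)) (XT.nd (nat_lit 94) (nat_lit 84) (nat_lit 0) (XT.lf (nat_lit 0) (nat_lit 54798419003) (nat_lit 168) (nat_lit 4909427685) (nat_lit 0) (nat_lit 8369946522) (nat_lit 6) (nat_lit 5) (nat_lit 8) (nat_lit 4) (nat_lit 6) (nat_lit 4) (nat_lit 410) (nat_lit 289) (nat_lit 165)) (XT.lf (nat_lit 0) (nat_lit 1949509855) (nat_lit 84) (nat_lit 57281027853) (nat_lit 84) (nat_lit 10820137634) (nat_lit 5) (nat_lit 4) (nat_lit 6) (nat_lit 5) (nat_lit 6) (nat_lit 4) (nat_lit 411) (nat_lit 289) (nat_lit 164)))))) (XT.nd (nat_lit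 564) (nat_lit 84) (nat_lit 0) (XT.nd (nat_lit 282) (nat_lit 84) (nat_lit 0) (XT.nd (nat_lit 94) (nat_lit 0) (nat_lit 0) (XT.lf (nat_lit 0) (nat_lit 9115996443) (nat_lit 84) (nat_lit 54729822015) (nat_lit 84) (nat_lit 8237488793) (nat_lit 5) (nat_lit 4) (nat_lit 6) (nat_lit 5) (nat_lit 6) (nat_lit 4) (nat_lit 412) (nat_lit 289) (nat_lit 163)) (XT.nd (nat_lit 94) (nat_lit 0) (nat_lit 0) (XT.lf (nat_lit 0) (nat_lit 16495764092) (nat_lit 84) (nat_lit 52103095542) (nat_lit 84) (nat_lit 5580264740) (nat_lit 5) (nat_lit 4) (nat_lit 6) (nat_lit 5) (nat_lit 6) (nat_lit 4) (nat_lit 413) (nat_lit 289) (nat_lit 162)) (XT.lf (nat_lit 0) (nat_lit 24095691518) (nat_lit 84) (nat_lit 49398400047) (nat_lit 84) (nat_lit 2845988664) (nat_lit 5) (nat_lit 4) (nat_lit 6) (nat_lit 5) (nat_lit 6) (nat_lit 4) (nat_lit 414) (nat_lit 289) (nat_lit 161)))) (XT.nd (nat_lit 94) (nat_lit 84) (nat_lit 0) (XT.lf (nat_lit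 0) (nat_lit 31922862650) (nat_lit 84) (nat_lit 46613214473) (nat_lit 84) (nat_lit 32111935) (nat_lit 5) (nat_lit 4) (nat_lit 6) (nat_lit 5) (nat_lit 6) (nat_lit 4) (nat_lit 415) (nat_lit 289) (nat_lit 160)) (XT.nd (nat_lit 94) (nat_lit 0) (nat_lit 0) (XT.lf (nat_lit 0) (nat_lit 2806285295) (nat_lit 168) (nat_lit 40909365576) (nat_lit 84) (nat_lit 37148996073) (nat_lit 4) (nat_lit 5) (nat_lit 6) (nat_lit 5) (nat_lit 5) (nat_lit 4) (nat_lit 416) (nat_lit 289) (nat_lit 159)) (XT.lf (nat_lit 0) (nat_lit 5727247484) (nat_lit 168) (nat_lit 35003883099) (nat_lit 84) (nat_lit 42501309419) (nat_lit 4) (nat_lit 5) (nat_lit 6) (nat_lit 5) (nat_lit 5) (nat_lit 4) (nat_lit 417) (nat_lit 289) (nat_lit 158))))) (XT.nd (nat_lit 282) (nat_lit 84) (nat_lit 0) (XT.nd (nat_lit 94) (nat_lit 0) (nat_lit 0) (XT.lf (nat_lit 0) (nat_lit 8734144258) (nat_lit 168) (nat_lit 28923055895) (nat_lit 84) (nat_lit 48016584984)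 (nat_lit 4) (nat_lit 5) (nat_lit 6) (nat_lit 5) (nat_lit 5) (nat_lit 4) (nat_lit 418) (nat_lit 289) (nat_lit 157)) (XT.nd (nat_lit 94) (nat_lit 0) (nat_lit 0) (XT.lf (nat_lit 0) (nat_lit 11829778361) (nat_lit 168) (nat_lit 22661215995) (nat_lit 84) (nat_lit 53699963584) (nat_lit 4) (nat_lit 5) (nat_lit 6) (nat_lit 5) (nat_lit 5) (nat_lit 4) (nat_lit 419) (nat_lit 289) (nat_lit 156)) (XT.lf (nat_lit 0) (nat_lit 15017035247) (nat_lit 168) (nat_lit 16212526710) (nat_lit 84) (nat_lit 59556742722) (nat_lit 4) (nat_lit 5) (nat_lit 6) (nat_lit 5) (nat_lit 5) (nat_lit 4) (nat_lit 420) (nat_lit 289) (nat_lit 155)))) (XT.nd (nat_lit 94) (nat_lit 84) (nat_lit 0) (XT.lf (nat_lit 0) (nat_lit 18298885774) (nat_lit 168) (nat_lit 9570977185) (nat_lit 84) (nat_lit 65592381531) (nat_lit 4) (nat_lit 5) (nat_lit 6) (nat_lit 5) (nat_lit 5) (nat_lit 4) (nat_lit 421) (nat_lit 289) (nat_lit 154)) (XT.nd (nat_lit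 94) (nat_lit 84) (nat_lit 0) (XT.lf (nat_lit 0) (nat_lit 21678388969) (nat_lit 168) (nat_lit 2730376799) (nat_lit 84) (nat_lit 71812505859) (nat_lit 4) (nat_lit 5) (nat_lit 6) (nat_lit 5) (nat_lit 5) (nat_lit 4) (nat_lit 422) (nat_lit 289) (nat_lit 153)) (XT.lf (nat_lit 0) (nat_lit 4404389228) (nat_lit 84) (nat_lit 20797997743) (nat_lit 168) (nat_lit 73862216369) (nat_lit 3) (nat_lit 5) (nat_lit 4) (nat_lit 5) (nat_lit 5) (nat_lit 4) (nat_lit 423) (nat_lit 289) (nat_lit 152))))))))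
noncomputable def xc90 : XT := (XT.nd (nat_lit 2256) (nat_lit 6636) (nat_lit 0) (XT.nd (nat_lit 1128) (nat_lit 4536) (nat_lit 0) (XT.nd (nat_lit 564) (nat_lit 840) (nat_lit 0) (XT.nd (nat_lit 282) (nat_lit 336) (nat_lit 0) (XT.nd (nat_lit 94) (nat_lit 252) (nat_lit 0) (XT.lf (nat_lit 0) (nat_lit 1814470864) (nat_lit 252) (nat_lit 708190739) (nat_lit 252) (nat_lit 708190739) (nat_lit 207) (nat_lit 3) (nat_lit 210) (nat_lit 3) (nat_lit 210) (nat_lit 5) (nat_lit 290) (nat_lit 290) (nat_lit 284)) (XT.nd (nat_lit 94) (nat_lit 252) (nat_lit 0) (XT.lf (nat_lit 84) (nat_lit 1243946492) (nat_lit 0) (nat_lit 4797216632) (nat_lit 252) (nat_lit 432256649) (nat_lit 208) (nat_lit 5) (nat_lit 207) (nat_lit 3) (nat_lit 210) (nat_lit 5) (nat_lit 291) (nat_lit 290) (nat_lit 283)) (XT.lf (nat_lit 0) (nat_lit 1919932314) (nat_lit 252) (nat_lit 2541270459) (nat_lit 336) (nat_lit 2026798138) (nat_lit 204)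 (nat_lit 5) (nat_lit 207) (nat_lit 3) (nat_lit 208) (nat_lit 5) (nat_lit 292) (nat_lit 290) (nat_lit 282)))) (XT.nd (nat_lit 94) (nat_lit 336) (nat_lit 0) (XT.lf (nat_lit 84) (nat_lit 178434723) (nat_lit 0) (nat_lit 4065784263) (nat_lit 336) (nat_lit 2262109135) (nat_lit 205) (nat_lit 5) (nat_lit 204) (nat_lit 5) (nat_lit 208) (nat_lit 5) (nat_lit 293) (nat_lit 290) (nat_lit 281)) (XT.nd (nat_lit 94) (nat_lit 0) (nat_lit 0) (XT.lf (nat_lit 0) (nat_lit 47022030) (nat_lit 336) (nat_lit 3542439189) (nat_lit 420) (nat_lit 2938321889) (nat_lit 200) (nat_lit 5) (nat_lit 204) (nat_lit 5) (nat_lit 205) (nat_lit 5) (nat_lit 294) (nat_lit 290) (nat_lit 280)) (XT.lf (nat_lit 0) (nat_lit 2290750580) (nat_lit 336) (nat_lit 745126894) (nat_lit 420) (nat_lit 3516631312) (nat_lit 200) (nat_lit 5) (nat_lit 204) (nat_lit 5) (nat_lit 205) (nat_lit 5) (nat_lit 295) (nat_lit 290) (nat_lit 279))))) (XT.nd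 (nat_lit 282) (nat_lit 420) (nat_lit 0) (XT.nd (nat_lit 94) (nat_lit 420) (nat_lit 0) (XT.lf (nat_lit 84) (nat_lit 2132047278) (nat_lit 0) (nat_lit 2405847257) (nat_lit 420) (nat_lit 2042673664) (nat_lit 201) (nat_lit 5) (nat_lit 200) (nat_lit 5) (nat_lit 205) (nat_lit 5) (nat_lit 296) (nat_lit 290) (nat_lit 278)) (XT.nd (nat_lit 94) (nat_lit 0) (nat_lit 0) (XT.lf (nat_lit 0) (nat_lit 161602332) (nat_lit 420) (nat_lit 1549129941) (nat_lit 504) (nat_lit 4901614504) (nat_lit 195) (nat_lit 5) (nat_lit 200) (nat_lit 5) (nat_lit 201) (nat_lit 5) (nat_lit 297) (nat_lit 290) (nat_lit 277)) (XT.lf (nat_lit 84) (nat_lit 1397383470) (nat_lit 0) (nat_lit 924342853) (nat_lit 504) (nat_lit 4325379836) (nat_lit 196) (nat_lit 5) (nat_lit 195) (nat_lit 5) (nat_lit 201) (nat_lit 5) (nat_lit 298) (nat_lit 290) (nat_lit 276)))) (XT.nd (nat_lit 94) (nat_lit 420) (nat_lit 0) (XT.lf (nat_lit 84) (nat_lit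 4418564854) (nat_lit 0) (nat_lit 64535378) (nat_lit 504) (nat_lit 2202337455) (nat_lit 196) (nat_lit 5) (nat_lit 195) (nat_lit 5) (nat_lit 201) (nat_lit 5) (nat_lit 299) (nat_lit 290) (nat_lit 275)) (XT.nd (nat_lit 94) (nat_lit 84) (nat_lit 0) (XT.lf (nat_lit 0) (nat_lit 764450617) (nat_lit 420) (nat_lit 5883653022) (nat_lit 504) (nat_lit 79262137) (nat_lit 191) (nat_lit 5) (nat_lit 196) (nat_lit 5) (nat_lit 197) (nat_lit 5) (nat_lit 300) (nat_lit 290) (nat_lit 274)) (XT.lf (nat_lit 0) (nat_lit 2013241455) (nat_lit 504) (nat_lit 2906643123) (nat_lit 84) (nat_lit 1852148095) (nat_lit 190) (nat_lit 5) (nat_lit 196) (nat_lit 5) (nat_lit 191) (nat_lit 5) (nat_lit 301) (nat_lit 290) (nat_lit 273)))))) (XT.nd (nat_lit 564) (nat_lit 2604) (nat_lit 0) (XT.nd (nat_lit 282) (nat_lit 1344) (nat_lit 0) (XT.nd (nat_lit 94) (nat_lit 84) (nat_lit 0) (XT.lf (nat_lit 0) (nat_lit 196350142) (nat_lit 504)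 (nat_lit 3898476292) (nat_lit 588) (nat_lit 2725935898) (nat_lit 184) (nat_lit 5) (nat_lit 190) (nat_lit 5) (nat_lit 191) (nat_lit 5) (nat_lit 302) (nat_lit 290) (nat_lit 272)) (XT.nd (nat_lit 94) (nat_lit 84) (nat_lit 0) (XT.lf (nat_lit 0) (nat_lit 3406504986) (nat_lit 504) (nat_lit 2790472705) (nat_lit 588) (nat_lit 675780476) (nat_lit 184) (nat_lit 5) (nat_lit 190) (nat_lit 5) (nat_lit 191) (nat_lit 5) (nat_lit 303) (nat_lit 290) (nat_lit 271)) (XT.lf (nat_lit 0) (nat_lit 1335780233) (nat_lit 588) (nat_lit 275457398) (nat_lit 84) (nat_lit 5317324027) (nat_lit 183) (nat_lit 5) (nat_lit 190) (nat_lit 5) (nat_lit 184) (nat_lit 5) (nat_lit 304) (nat_lit 290) (nat_lit 270)))) (XT.nd (nat_lit 94) (nat_lit 756) (nat_lit 0) (XT.lf (nat_lit 0) (nat_lit 3018693150) (nat_lit 588) (nat_lit 335936304) (nat_lit 672) (nat_lit 3632881683) (nat_lit 176) (nat_lit 5) (nat_lit 183) (nat_lit 5) (nat_lit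 184) (nat_lit 5) (nat_lit 305) (nat_lit 290) (nat_lit 269)) (XT.nd (nat_lit 94) (nat_lit 756) (nat_lit 0) (XT.lf (nat_lit 0) (nat_lit 5379550691) (nat_lit 672) (nat_lit 688803373) (nat_lit 84) (nat_lit 982033434) (nat_lit 176) (nat_lit 5) (nat_lit 184) (nat_lit 5) (nat_lit 177) (nat_lit 5) (nat_lit 306) (nat_lit 290) (nat_lit 268)) (XT.lf (nat_lit 0) (nat_lit 307338774) (nat_lit 756) (nat_lit 4426191841) (nat_lit 84) (nat_lit 2383066733) (nat_lit 167) (nat_lit 5) (nat_lit 176) (nat_lit 5) (nat_lit 168) (nat_lit 5) (nat_lit 307) (nat_lit 290) (nat_lit 267))))) (XT.nd (nat_lit 282) (nat_lit 1848) (nat_lit 0) (XT.nd (nat_lit 94) (nat_lit 756) (nat_lit 0) (XT.lf (nat_lit 0) (nat_lit 2252877989) (nat_lit 756) (nat_lit 1064117126) (nat_lit 84) (nat_lit 3869488816) (nat_lit 167) (nat_lit 5) (nat_lit 176) (nat_lit 5) (nat_lit 168) (nat_lit 5) (nat_lit 308) (nat_lit 290) (nat_lit 266)) (XT.nd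 (nat_lit 94) (nat_lit 0) (nat_lit 0) (XT.lf (nat_lit 0) (nat_lit 2400804784) (nat_lit 756) (nat_lit 1817224578) (nat_lit 840) (nat_lit 3042076935) (nat_lit 158) (nat_lit 5) (nat_lit 167) (nat_lit 5) (nat_lit 168) (nat_lit 5) (nat_lit 309) (nat_lit 290) (nat_lit 265)) (XT.lf (nat_lit 0) (nat_lit 5946453666) (nat_lit 756) (nat_lit 245689469) (nat_lit 840) (nat_lit 1145776858) (nat_lit 158) (nat_lit 5) (nat_lit 167) (nat_lit 5) (nat_lit 168) (nat_lit 5) (nat_lit 310) (nat_lit 290) (nat_lit 264)))) (XT.nd (nat_lit 94) (nat_lit 924) (nat_lit 0) (XT.lf (nat_lit 0) (nat_lit 766519134) (nat_lit 924) (nat_lit 5263251226) (nat_lit 84) (nat_lit 1389228355) (nat_lit 147) (nat_lit 5) (nat_lit 158) (nat_lit 5) (nat_lit 148) (nat_lit 5) (nat_lit 311) (nat_lit 290) (nat_lit 263)) (XT.nd (nat_lit 94) (nat_lit 924) (nat_lit 0) (XT.lf (nat_lit 0) (nat_lit 2670903817) (nat_lit 924) (nat_lit 1725190365)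 (nat_lit 84) (nat_lit 3107750820) (nat_lit 147) (nat_lit 5) (nat_lit 158) (nat_lit 5) (nat_lit 148) (nat_lit 5) (nat_lit 312) (nat_lit 290) (nat_lit 262)) (XT.lf (nat_lit 0) (nat_lit 1911506180) (nat_lit 924) (nat_lit 2683024626) (nat_lit 1008) (nat_lit 2998288384) (nat_lit 136) (nat_lit 5) (nat_lit 147) (nat_lit 5) (nat_lit 148) (nat_lit 5) (nat_lit 313) (nat_lit 290) (nat_lit 261))))))) (XT.nd (nat_lit 1128) (nat_lit 2688) (nat_lit 0) (XT.nd (nat_lit 564) (nat_lit 1176) (nat_lit 0) (XT.nd (nat_lit 282) (nat_lit 1680) (nat_lit 0) (XT.nd (nat_lit 94) (nat_lit 1092) (nat_lit 0) (XT.lf (nat_lit 0) (nat_lit 5648458377) (nat_lit 924) (nat_lit 889863346) (nat_lit 1008) (nat_lit 1147709503) (nat_lit 136) (nat_lit 5) (nat_lit 147) (nat_lit 5) (nat_lit 148) (nat_lit 5) (nat_lit 314) (nat_lit 290) (nat_lit 260)) (XT.nd (nat_lit 94) (nat_lit 0) (nat_lit 0) (XT.lf (nat_lit 0) (nat_lit 715027901)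 (nat_lit 1092) (nat_lit 6096424361) (nat_lit 84) (nat_lit 971614399) (nat_lit 123) (nat_lit 5) (nat_lit 136) (nat_lit 5) (nat_lit 124) (nat_lit 5) (nat_lit 315) (nat_lit 290) (nat_lit 259)) (XT.lf (nat_lit 0) (nat_lit 2586982648) (nat_lit 1092) (nat_lit 2384509818) (nat_lit 84) (nat_lit 2912252841) (nat_lit 123) (nat_lit 5) (nat_lit 136) (nat_lit 5) (nat_lit 124) (nat_lit 5) (nat_lit 316) (nat_lit 290) (nat_lit 258)))) (XT.nd (nat_lit 94) (nat_lit 588) (nat_lit 0) (XT.lf (nat_lit 0) (nat_lit 1422140193) (nat_lit 1092) (nat_lit 3055323865) (nat_lit 1176) (nat_lit 3511532234) (nat_lit 110) (nat_lit 5) (nat_lit 123) (nat_lit 5) (nat_lit 124) (nat_lit 5) (nat_lit 317) (nat_lit 290) (nat_lit 257)) (XT.nd (nat_lit 94) (nat_lit 588) (nat_lit 0) (XT.lf (nat_lit 0) (nat_lit 5348855821) (nat_lit 1092) (nat_lit 1050103182) (nat_lit 1176) (nat_lit 1699626256) (nat_lit 110) (nat_lit 5) (nat_lit 123)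 (nat_lit 5) (nat_lit 124) (nat_lit 5) (nat_lit 318) (nat_lit 290) (nat_lit 256)) (XT.lf (nat_lit 0) (nat_lit 135180349) (nat_lit 588) (nat_lit 7064120746) (nat_lit 84) (nat_lit 1013351541) (nat_lit 103) (nat_lit 5) (nat_lit 110) (nat_lit 5) (nat_lit 104) (nat_lit 5) (nat_lit 319) (nat_lit 290) (nat_lit 255))))) (XT.nd (nat_lit 282) (nat_lit 588) (nat_lit 0) (XT.nd (nat_lit 94) (nat_lit 588) (nat_lit 0) (XT.lf (nat_lit 0) (nat_lit 1980768897) (nat_lit 588) (nat_lit 3181458402) (nat_lit 84) (nat_lit 3168025094) (nat_lit 103) (nat_lit 5) (nat_lit 110) (nat_lit 5) (nat_lit 104) (nat_lit 5) (nat_lit 320) (nat_lit 290) (nat_lit 254)) (XT.nd (nat_lit 94) (nat_lit 0) (nat_lit 0) (XT.lf (nat_lit 0) (nat_lit 789354421) (nat_lit 588) (nat_lit 3053039003) (nat_lit 672) (nat_lit 4610575405) (nat_lit 96) (nat_lit 5) (nat_lit 103) (nat_lit 5) (nat_lit 104) (nat_lit 5) (nat_lit 321) (nat_lit 290) (nat_lit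 253)) (XT.lf (nat_lit 0) (nat_lit 4903079031) (nat_lit 588) (nat_lit 843850500) (nat_lit 672) (nat_lit 2833207444) (nat_lit 96) (nat_lit 5) (nat_lit 103) (nat_lit 5) (nat_lit 104) (nat_lit 5) (nat_lit 322) (nat_lit 290) (nat_lit 252)))) (XT.nd (nat_lit 94) (nat_lit 84) (nat_lit 0) (XT.lf (nat_lit 0) (nat_lit 378660508) (nat_lit 504) (nat_lit 7303266227) (nat_lit 588) (nat_lit 1030389630) (nat_lit 90) (nat_lit 5) (nat_lit 96) (nat_lit 5) (nat_lit 97) (nat_lit 5) (nat_lit 323) (nat_lit 290) (nat_lit 251)) (XT.nd (nat_lit 94) (nat_lit 0) (nat_lit 0) (XT.lf (nat_lit 0) (nat_lit 812760977) (nat_lit 588) (nat_lit 4275051872) (nat_lit 84) (nat_lit 3760662804) (nat_lit 89) (nat_lit 5) (nat_lit 96) (nat_lit 5) (nat_lit 90) (nat_lit 5) (nat_lit 324) (nat_lit 290) (nat_lit 250)) (XT.lf (nat_lit 0) (nat_lit 2646766935) (nat_lit 588) (nat_lit 148178499) (nat_lit 84) (nat_lit 6195142034) (nat_lit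 89) (nat_lit 5) (nat_lit 96) (nat_lit 5) (nat_lit 90) (nat_lit 5) (nat_lit 325) (nat_lit 290) (nat_lit 249)))))) (XT.nd (nat_lit 564) (nat_lit 1260) (nat_lit 0) (XT.nd (nat_lit 282) (nat_lit 504) (nat_lit 0) (XT.nd (nat_lit 94) (nat_lit 420) (nat_lit 0) (XT.lf (nat_lit 0) (nat_lit 4144535688) (nat_lit 504) (nat_lit 390676402) (nat_lit 588) (nat_lit 4601114045) (nat_lit 83) (nat_lit 5) (nat_lit 89) (nat_lit 5) (nat_lit 90) (nat_lit 5) (nat_lit 326) (nat_lit 290) (nat_lit 248)) (XT.nd (nat_lit 94) (nat_lit 420) (nat_lit 0) (XT.lf (nat_lit 0) (nat_lit 6461783352) (nat_lit 588) (nat_lit 780904416) (nat_lit 84) (nat_lit 2045200468) (nat_lit 83) (nat_lit 5) (nat_lit 90) (nat_lit 5) (nat_lit 84) (nat_lit 5) (nat_lit 327) (nat_lit 290) (nat_lit 247)) (XT.lf (nat_lit 0) (nat_lit 3583535261) (nat_lit 420) (nat_lit 4862678902) (nat_lit 504) (nat_lit 998144814) (nat_lit 78) (nat_lit 5) (nat_lit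 83) (nat_lit 5) (nat_lit 84) (nat_lit 5) (nat_lit 328) (nat_lit 290) (nat_lit 246)))) (XT.nd (nat_lit 94) (nat_lit 420) (nat_lit 0) (XT.lf (nat_lit 0) (nat_lit 835687977) (nat_lit 504) (nat_lit 1560198439) (nat_lit 84) (nat_lit 7210685610) (nat_lit 77) (nat_lit 5) (nat_lit 83) (nat_lit 5) (nat_lit 78) (nat_lit 5) (nat_lit 329) (nat_lit 290) (nat_lit 245)) (XT.nd (nat_lit 94) (nat_lit 0) (nat_lit 0) (XT.lf (nat_lit 0) (nat_lit 2696062082) (nat_lit 504) (nat_lit 6898643976) (nat_lit 84) (nat_lit 179227022) (nat_lit 72) (nat_lit 5) (nat_lit 78) (nat_lit 5) (nat_lit 73) (nat_lit 5) (nat_lit 330) (nat_lit 290) (nat_lit 244)) (XT.lf (nat_lit 0) (nat_lit 4615852117) (nat_lit 504) (nat_lit 2534495319) (nat_lit 84) (nat_lit 2796215717) (nat_lit 72) (nat_lit 5) (nat_lit 78) (nat_lit 5) (nat_lit 73) (nat_lit 5) (nat_lit 331) (nat_lit 290) (nat_lit 243))))) (XT.nd (nat_lit 282) (nat_lit 336) (nat_lit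 0) (XT.nd (nat_lit 94) (nat_lit 504) (nat_lit 0) (XT.lf (nat_lit 0) (nat_lit 1960603639) (nat_lit 420) (nat_lit 4615968671) (nat_lit 504) (nat_lit 3548679379) (nat_lit 67) (nat_lit 5) (nat_lit 72) (nat_lit 5) (nat_lit 73) (nat_lit 5) (nat_lit 332) (nat_lit 290) (nat_lit 242)) (XT.nd (nat_lit 94) (nat_lit 504) (nat_lit 0) (XT.lf (nat_lit 0) (nat_lit 6605384376) (nat_lit 420) (nat_lit 1981825691) (nat_lit 504) (nat_lit 1722733221) (nat_lit 67) (nat_lit 5) (nat_lit 72) (nat_lit 5) (nat_lit 73) (nat_lit 5) (nat_lit 333) (nat_lit 290) (nat_lit 241)) (XT.lf (nat_lit 0) (nat_lit 135829732) (nat_lit 504) (nat_lit 9641919859) (nat_lit 84) (nat_lit 723324778) (nat_lit 61) (nat_lit 5) (nat_lit 67) (nat_lit 5) (nat_lit 62) (nat_lit 5) (nat_lit 334) (nat_lit 290) (nat_lit 240)))) (XT.nd (nat_lit 94) (nat_lit 336) (nat_lit 0) (XT.lf (nat_lit 0) (nat_lit 2039483937) (nat_lit 504) (nat_lit 5136035998)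 (nat_lit 84) (nat_lit 3521459085) (nat_lit 61) (nat_lit 5) (nat_lit 67) (nat_lit 5) (nat_lit 62) (nat_lit 5) (nat_lit 335) (nat_lit 290) (nat_lit 239)) (XT.nd (nat_lit 94) (nat_lit 336) (nat_lit 0) (XT.lf (nat_lit 0) (nat_lit 3967164154) (nat_lit 504) (nat_lit 532853386) (nat_lit 84) (nat_lit 6400136104) (nat_lit 61) (nat_lit 5) (nat_lit 67) (nat_lit 5) (nat_lit 62) (nat_lit 5) (nat_lit 336) (nat_lit 290) (nat_lit 238)) (XT.lf (nat_lit 0) (nat_lit 4257701829) (nat_lit 336) (nat_lit 1705202281) (nat_lit 420) (nat_lit 5146574164) (nat_lit 57) (nat_lit 5) (nat_lit 61) (nat_lit 5) (nat_lit 62) (nat_lit 5) (nat_lit 337) (nat_lit 290) (nat_lit 237))))))))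
noncomputable def xc91 : XT := (XT.nd (nat_lit 2256) (nat_lit 1092) (nat_lit 0) (XT.nd (nat_lit 1128) (nat_lit 1092) (nat_lit 0) (XT.nd (nat_lit 564) (nat_lit 924) (nat_lit 0) (XT.nd (nat_lit 282) (nat_lit 336) (nat_lit 0) (XT.nd (nat_lit 94) (nat_lit 420) (nat_lit 0) (XT.lf (nat_lit 0) (nat_lit 8004407608) (nat_lit 420) (nat_lit 2170542991) (nat_lit 84) (nat_lit 1150946276) (nat_lit 57) (nat_lit 5) (nat_lit 62) (nat_lit 5) (nat_lit 58) (nat_lit 5) (nat_lit 338) (nat_lit 290) (nat_lit 236)) (XT.nd (nat_lit 94) (nat_lit 84) (nat_lit 0) (XT.lf (nat_lit 0) (nat_lit 2651283069) (nat_lit 336) (nat_lit 7469268179) (nat_lit 420) (nat_lit 1428223737) (nat_lit 53) (nat_lit 5) (nat_lit 57) (nat_lit 5) (nat_lit 58) (nat_lit 5) (nat_lit 339) (nat_lit 290) (nat_lit 235)) (XT.lf (nat_lit 0) (nat_lit 503834317) (nat_lit 420) (nat_lit 4155539123) (nat_lit 84) (nat_lit 7119413984) (nat_lit 52) (nat_lit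 5) (nat_lit 57) (nat_lit 5) (nat_lit 53) (nat_lit 5) (nat_lit 340) (nat_lit 290) (nat_lit 234)))) (XT.nd (nat_lit 94) (nat_lit 0) (nat_lit 0) (XT.lf (nat_lit 0) (nat_lit 693148531) (nat_lit 336) (nat_lit 1748581022) (nat_lit 420) (nat_lit 9574597448) (nat_lit 48) (nat_lit 5) (nat_lit 52) (nat_lit 5) (nat_lit 53) (nat_lit 5) (nat_lit 341) (nat_lit 290) (nat_lit 233)) (XT.nd (nat_lit 94) (nat_lit 0) (nat_lit 0) (XT.lf (nat_lit 0) (nat_lit 4465144307) (nat_lit 420) (nat_lit 6532693965) (nat_lit 84) (nat_lit 1262693957) (nat_lit 48) (nat_lit 5) (nat_lit 53) (nat_lit 5) (nat_lit 49) (nat_lit 5) (nat_lit 342) (nat_lit 290) (nat_lit 232)) (XT.lf (nat_lit 0) (nat_lit 6539296249) (nat_lit 420) (nat_lit 1650561147) (nat_lit 84) (nat_lit 4322910053) (nat_lit 48) (nat_lit 5) (nat_lit 53) (nat_lit 5) (nat_lit 49) (nat_lit 5) (nat_lit 343) (nat_lit 290) (nat_lit 231))))) (XT.nd (nat_lit 282) (nat_lit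 336) (nat_lit 0) (XT.nd (nat_lit 94) (nat_lit 252) (nat_lit 0) (XT.lf (nat_lit 0) (nat_lit 3413899243) (nat_lit 336) (nat_lit 5268739626) (nat_lit 420) (nat_lit 4090116779) (nat_lit 44) (nat_lit 5) (nat_lit 48) (nat_lit 5) (nat_lit 49) (nat_lit 5) (nat_lit 344) (nat_lit 290) (nat_lit 230)) (XT.nd (nat_lit 94) (nat_lit 252) (nat_lit 0) (XT.lf (nat_lit 0) (nat_lit 8632930630) (nat_lit 336) (nat_lit 2248248622) (nat_lit 420) (nat_lit 2160055623) (nat_lit 44) (nat_lit 5) (nat_lit 48) (nat_lit 5) (nat_lit 49) (nat_lit 5) (nat_lit 345) (nat_lit 290) (nat_lit 229)) (XT.lf (nat_lit 0) (nat_lit 663346774) (nat_lit 252) (nat_lit 12471993482) (nat_lit 336) (nat_lit 183165542) (nat_lit 41) (nat_lit 5) (nat_lit 44) (nat_lit 5) (nat_lit 45) (nat_lit 5) (nat_lit 346) (nat_lit 290) (nat_lit 228)))) (XT.nd (nat_lit 94) (nat_lit 252) (nat_lit 0) (XT.lf (nat_lit 0) (nat_lit 1859521595) (nat_lit 336) (nat_lit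 7696550212) (nat_lit 84) (nat_lit 4046506860) (nat_lit 40) (nat_lit 5) (nat_lit 44) (nat_lit 5) (nat_lit 41) (nat_lit 5) (nat_lit 347) (nat_lit 290) (nat_lit 227)) (XT.nd (nat_lit 94) (nat_lit 252) (nat_lit 0) (XT.lf (nat_lit 0) (nat_lit 3934966036) (nat_lit 336) (nat_lit 2622383436) (nat_lit 84) (nat_lit 7338953104) (nat_lit 40) (nat_lit 5) (nat_lit 44) (nat_lit 5) (nat_lit 41) (nat_lit 5) (nat_lit 348) (nat_lit 290) (nat_lit 226)) (XT.lf (nat_lit 0) (nat_lit 2626812398) (nat_lit 252) (nat_lit 3448038595) (nat_lit 336) (nat_lit 8124348832) (nat_lit 37) (nat_lit 5) (nat_lit 40) (nat_lit 5) (nat_lit 41) (nat_lit 5) (nat_lit 349) (nat_lit 290) (nat_lit 225)))))) (XT.nd (nat_lit 564) (nat_lit 504) (nat_lit 0) (XT.nd (nat_lit 282) (nat_lit 336) (nat_lit 0) (XT.nd (nat_lit 94) (nat_lit 252) (nat_lit 0) (XT.lf (nat_lit 0) (nat_lit 8059488242) (nat_lit 252) (nat_lit 223434741) (nat_lit 336)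 (nat_lit 6228575455) (nat_lit 37) (nat_lit 5) (nat_lit 40) (nat_lit 5) (nat_lit 41) (nat_lit 5) (nat_lit 350) (nat_lit 290) (nat_lit 224)) (XT.nd (nat_lit 94) (nat_lit 252) (nat_lit 0) (XT.lf (nat_lit 0) (nat_lit 10565364854) (nat_lit 336) (nat_lit 1238200172) (nat_lit 84) (nat_lit 3029796618) (nat_lit 37) (nat_lit 5) (nat_lit 41) (nat_lit 5) (nat_lit 38) (nat_lit 5) (nat_lit 351) (nat_lit 290) (nat_lit 223)) (XT.lf (nat_lit 0) (nat_lit 4185790210) (nat_lit 252) (nat_lit 8752484022) (nat_lit 336) (nat_lit 2226382146) (nat_lit 34) (nat_lit 5) (nat_lit 37) (nat_lit 5) (nat_lit 38) (nat_lit 5) (nat_lit 352) (nat_lit 290) (nat_lit 222)))) (XT.nd (nat_lit 94) (nat_lit 336) (nat_lit 0) (XT.lf (nat_lit 0) (nat_lit 9771015729) (nat_lit 252) (nat_lit 5602951002) (nat_lit 336) (nat_lit 132651494) (nat_lit 34) (nat_lit 5) (nat_lit 37) (nat_lit 5) (nat_lit 38) (nat_lit 5) (nat_lit 353) (nat_lit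 290) (nat_lit 221)) (XT.nd (nat_lit 94) (nat_lit 252) (nat_lit 0) (XT.lf (nat_lit 0) (nat_lit 1961882150) (nat_lit 336) (nat_lit 382594364) (nat_lit 84) (nat_lit 13514862287) (nat_lit 33) (nat_lit 5) (nat_lit 37) (nat_lit 5) (nat_lit 34) (nat_lit 5) (nat_lit 354) (nat_lit 290) (nat_lit 220)) (XT.lf (nat_lit 0) (nat_lit 4158194279) (nat_lit 336) (nat_lit 11024409422) (nat_lit 84) (nat_lit 1039177632) (nat_lit 30) (nat_lit 5) (nat_lit 34) (nat_lit 5) (nat_lit 31) (nat_lit 5) (nat_lit 355) (nat_lit 290) (nat_lit 219))))) (XT.nd (nat_lit 282) (nat_lit 336) (nat_lit 0) (XT.nd (nat_lit 94) (nat_lit 168) (nat_lit 0) (XT.lf (nat_lit 0) (nat_lit 6428297966) (nat_lit 336) (nat_lit 5692974886) (nat_lit 84) (nat_lit 4474065505) (nat_lit 30) (nat_lit 5) (nat_lit 34) (nat_lit 5) (nat_lit 31) (nat_lit 5) (nat_lit 356) (nat_lit 290) (nat_lit 218)) (XT.nd (nat_lit 94) (nat_lit 168) (nat_lit 0) (XT.lf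 (nat_lit 0) (nat_lit 8747138650) (nat_lit 336) (nat_lit 227349992) (nat_lit 84) (nat_lit 8006711715) (nat_lit 30) (nat_lit 5) (nat_lit 34) (nat_lit 5) (nat_lit 31) (nat_lit 5) (nat_lit 357) (nat_lit 290) (nat_lit 217)) (XT.lf (nat_lit 0) (nat_lit 5488133453) (nat_lit 168) (nat_lit 5683187241) (nat_lit 252) (nat_lit 6206718567) (nat_lit 28) (nat_lit 5) (nat_lit 30) (nat_lit 5) (nat_lit 31) (nat_lit 5) (nat_lit 358) (nat_lit 290) (nat_lit 216)))) (XT.nd (nat_lit 94) (nat_lit 336) (nat_lit 0) (XT.lf (nat_lit 0) (nat_lit 11355772345) (nat_lit 168) (nat_lit 2296602378) (nat_lit 252) (nat_lit 4135422841) (nat_lit 28) (nat_lit 5) (nat_lit 30) (nat_lit 5) (nat_lit 31) (nat_lit 5) (nat_lit 359) (nat_lit 290) (nat_lit 215)) (XT.nd (nat_lit 94) (nat_lit 336) (nat_lit 0) (XT.lf (nat_lit 0) (nat_lit 16202077383) (nat_lit 252) (nat_lit 846333162) (nat_lit 84) (nat_lit 1162153274) (nat_lit 28) (nat_lit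 5) (nat_lit 31) (nat_lit 5) (nat_lit 29) (nat_lit 5) (nat_lit 360) (nat_lit 290) (nat_lit 214)) (XT.lf (nat_lit 0) (nat_lit 234349698) (nat_lit 336) (nat_lit 13686882269) (nat_lit 84) (nat_lit 4723529431) (nat_lit 24) (nat_lit 5) (nat_lit 28) (nat_lit 5) (nat_lit 25) (nat_lit 5) (nat_lit 361) (nat_lit 290) (nat_lit 213))))))) (XT.nd (nat_lit 1128) (nat_lit 504) (nat_lit 0) (XT.nd (nat_lit 564) (nat_lit 252) (nat_lit 0) (XT.nd (nat_lit 282) (nat_lit 168) (nat_lit 0) (XT.nd (nat_lit 94) (nat_lit 168) (nat_lit 0) (XT.lf (nat_lit 0) (nat_lit 2494467375) (nat_lit 336) (nat_lit 8181609530) (nat_lit 84) (nat_lit 8416076625) (nat_lit 24) (nat_lit 5) (nat_lit 28) (nat_lit 5) (nat_lit 25) (nat_lit 5) (nat_lit 362) (nat_lit 290) (nat_lit 212)) (XT.nd (nat_lit 94) (nat_lit 168) (nat_lit 0) (XT.lf (nat_lit 0) (nat_lit 4805783787) (nat_lit 336) (nat_lit 2533603172) (nat_lit 84) (nat_lit 12214656267)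 (nat_lit 24) (nat_lit 5) (nat_lit 28) (nat_lit 5) (nat_lit 25) (nat_lit 5) (nat_lit 363) (nat_lit 290) (nat_lit 211)) (XT.lf (nat_lit 0) (nat_lit 3329482999) (nat_lit 168) (nat_lit 3873999209) (nat_lit 252) (nat_lit 12826354915) (nat_lit 22) (nat_lit 5) (nat_lit 24) (nat_lit 5) (nat_lit 25) (nat_lit 5) (nat_lit 364) (nat_lit 290) (nat_lit 210)))) (XT.nd (nat_lit 94) (nat_lit 168) (nat_lit 0) (XT.lf (nat_lit 0) (nat_lit 9401220117) (nat_lit 168) (nat_lit 282721257) (nat_lit 252) (nat_lit 10836218875) (nat_lit 22) (nat_lit 5) (nat_lit 24) (nat_lit 5) (nat_lit 25) (nat_lit 5) (nat_lit 365) (nat_lit 290) (nat_lit 209)) (XT.nd (nat_lit 94) (nat_lit 168) (nat_lit 0) (XT.lf (nat_lit 0) (nat_lit 12257663878) (nat_lit 252) (nat_lit 5424934206) (nat_lit 84) (nat_lit 3342617646) (nat_lit 22) (nat_lit 5) (nat_lit 25) (nat_lit 5) (nat_lit 23) (nat_lit 5) (nat_lit 366) (nat_lit 290) (nat_lit 208))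 (XT.lf (nat_lit 0) (nat_lit 425559181) (nat_lit 168) (nat_lit 14475697069) (nat_lit 252) (nat_lit 6645017647) (nat_lit 20) (nat_lit 5) (nat_lit 22) (nat_lit 5) (nat_lit 23) (nat_lit 5) (nat_lit 367) (nat_lit 290) (nat_lit 207))))) (XT.nd (nat_lit 282) (nat_lit 168) (nat_lit 0) (XT.nd (nat_lit 94) (nat_lit 84) (nat_lit 0) (XT.lf (nat_lit 0) (nat_lit 6546974684) (nat_lit 168) (nat_lit 11119681347) (nat_lit 252) (nat_lit 4415630723) (nat_lit 20) (nat_lit 5) (nat_lit 22) (nat_lit 5) (nat_lit 23) (nat_lit 5) (nat_lit 368) (nat_lit 290) (nat_lit 206)) (XT.nd (nat_lit 94) (nat_lit 84) (nat_lit 0) (XT.lf (nat_lit 0) (nat_lit 12833470328) (nat_lit 168) (nat_lit 7668047948) (nat_lit 252) (nat_lit 2133938245) (nat_lit 20) (nat_lit 5) (nat_lit 22) (nat_lit 5) (nat_lit 23) (nat_lit 5) (nat_lit 369) (nat_lit 290) (nat_lit 205)) (XT.lf (nat_lit 0) (nat_lit 198112953) (nat_lit 252) (nat_lit 3917398742)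 (nat_lit 84) (nat_lit 19090724939) (nat_lit 19) (nat_lit 5) (nat_lit 22) (nat_lit 5) (nat_lit 20) (nat_lit 5) (nat_lit 370) (nat_lit 290) (nat_lit 204)))) (XT.nd (nat_lit 94) (nat_lit 0) (nat_lit 0) (XT.lf (nat_lit 0) (nat_lit 2147479336) (nat_lit 168) (nat_lit 416463258) (nat_lit 252) (nat_lit 21229944714) (nat_lit 17) (nat_lit 5) (nat_lit 19) (nat_lit 5) (nat_lit 20) (nat_lit 5) (nat_lit 371) (nat_lit 290) (nat_lit 203)) (XT.nd (nat_lit 94) (nat_lit 0) (nat_lit 0) (XT.lf (nat_lit 0) (nat_lit 5062784659) (nat_lit 252) (nat_lit 15972951194) (nat_lit 84) (nat_lit 3362201603) (nat_lit 17) (nat_lit 5) (nat_lit 20) (nat_lit 5) (nat_lit 18) (nat_lit 5) (nat_lit 372) (nat_lit 290) (nat_lit 202)) (XT.lf (nat_lit 0) (nat_lit 7628474122) (nat_lit 252) (nat_lit 10150921941) (nat_lit 84) (nat_lit 7241677373) (nat_lit 17) (nat_lit 5) (nat_lit 20) (nat_lit 5) (nat_lit 18) (nat_lit 5) (nat_lit 373)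 (nat_lit 290) (nat_lit 201)))))) (XT.nd (nat_lit 564) (nat_lit 336) (nat_lit 0) (XT.nd (nat_lit 282) (nat_lit 0) (nat_lit 0) (XT.nd (nat_lit 94) (nat_lit 168) (nat_lit 0) (XT.lf (nat_lit 0) (nat_lit 10259271109) (nat_lit 252) (nat_lit 4170762105) (nat_lit 84) (nat_lit 11233970937) (nat_lit 17) (nat_lit 5) (nat_lit 20) (nat_lit 5) (nat_lit 18) (nat_lit 5) (nat_lit 374) (nat_lit 290) (nat_lit 200)) (XT.nd (nat_lit 94) (nat_lit 0) (nat_lit 0) (XT.lf (nat_lit 0) (nat_lit 2013673482) (nat_lit 168) (nat_lit 10963930204) (nat_lit 252) (nat_lit 13349105938) (nat_lit 15) (nat_lit 5) (nat_lit 17) (nat_lit 5) (nat_lit 18) (nat_lit 5) (nat_lit 375) (nat_lit 290) (nat_lit 199)) (XT.lf (nat_lit 0) (nat_lit 8456783796) (nat_lit 168) (nat_lit 7353167883) (nat_lit 252) (nat_lit 11199113562) (nat_lit 15) (nat_lit 5) (nat_lit 17) (nat_lit 5) (nat_lit 18) (nat_lit 5) (nat_lit 376) (nat_lit 290) (nat_lit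 198)))) (XT.nd (nat_lit 94) (nat_lit 0) (nat_lit 0) (XT.lf (nat_lit 0) (nat_lit 15078815065) (nat_lit 168) (nat_lit 3637914845) (nat_lit 252) (nat_lit 8996286098) (nat_lit 15) (nat_lit 5) (nat_lit 17) (nat_lit 5) (nat_lit 18) (nat_lit 5) (nat_lit 377) (nat_lit 290) (nat_lit 197)) (XT.nd (nat_lit 94) (nat_lit 0) (nat_lit 0) (XT.lf (nat_lit 0) (nat_lit 21702485920) (nat_lit 252) (nat_lit 6555116486) (nat_lit 84) (nat_lit 181558695) (nat_lit 15) (nat_lit 5) (nat_lit 18) (nat_lit 5) (nat_lit 16) (nat_lit 4) (nat_lit 378) (nat_lit 290) (nat_lit 196)) (XT.lf (nat_lit 0) (nat_lit 24805357746) (nat_lit 252) (nat_lit 344716727) (nat_lit 84) (nat_lit 4037006885) (nat_lit 15) (nat_lit 5) (nat_lit 18) (nat_lit 5) (nat_lit 16) (nat_lit 4) (nat_lit 379) (nat_lit 290) (nat_lit 195))))) (XT.nd (nat_lit 282) (nat_lit 168) (nat_lit 0) (XT.nd (nat_lit 94) (nat_lit 84) (nat_lit 0) (XT.lf (nat_lit 0) (nat_lit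 6163047308) (nat_lit 84) (nat_lit 21890239908) (nat_lit 168) (nat_lit 1903410165) (nat_lit 14) (nat_lit 5) (nat_lit 15) (nat_lit 5) (nat_lit 16) (nat_lit 4) (nat_lit 380) (nat_lit 290) (nat_lit 194)) (XT.nd (nat_lit 94) (nat_lit 0) (nat_lit 0) (XT.lf (nat_lit 0) (nat_lit 629996968) (nat_lit 168) (nat_lit 17896111568) (nat_lit 84) (nat_lit 12224152912) (nat_lit 13) (nat_lit 5) (nat_lit 15) (nat_lit 5) (nat_lit 14) (nat_lit 5) (nat_lit 381) (nat_lit 290) (nat_lit 193)) (XT.lf (nat_lit 0) (nat_lit 3190531348) (nat_lit 168) (nat_lit 11854042577) (nat_lit 84) (nat_lit 16523639520) (nat_lit 13) (nat_lit 5) (nat_lit 15) (nat_lit 5) (nat_lit 14) (nat_lit 5) (nat_lit 382) (nat_lit 290) (nat_lit 192)))) (XT.nd (nat_lit 94) (nat_lit 168) (nat_lit 0) (XT.lf (nat_lit 0) (nat_lit 5818929133) (nat_lit 168) (nat_lit 5642929196) (nat_lit 84) (nat_lit 20950042806) (nat_lit 13) (nat_lit 5) (nat_lit 15)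 (nat_lit 5) (nat_lit 14) (nat_lit 5) (nat_lit 383) (nat_lit 290) (nat_lit 191)) (XT.nd (nat_lit 94) (nat_lit 0) (nat_lit 0) (XT.lf (nat_lit 0) (nat_lit 758295957) (nat_lit 168) (nat_lit 7766866699) (nat_lit 252) (nat_lit 24756715072) (nat_lit 11) (nat_lit 5) (nat_lit 13) (nat_lit 5) (nat_lit 14) (nat_lit 5) (nat_lit 384) (nat_lit 290) (nat_lit 190)) (XT.lf (nat_lit 0) (nat_lit 7460054814) (nat_lit 168) (nat_lit 3903130082) (nat_lit 252) (nat_lit 22814174891) (nat_lit 11) (nat_lit 5) (nat_lit 13) (nat_lit 5) (nat_lit 14) (nat_lit 5) (nat_lit 385) (nat_lit 290) (nat_lit 189))))))))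
noncomputable def xc92 : XT := (XT.nd (nat_lit 2256) (nat_lit 168) (nat_lit 0) (XT.nd (nat_lit 1128) (nat_lit 84) (nat_lit 0) (XT.nd (nat_lit 564) (nat_lit 252) (nat_lit 0) (XT.nd (nat_lit 282) (nat_lit 84) (nat_lit 0) (XT.nd (nat_lit 94) (nat_lit 0) (nat_lit 0) (XT.lf (nat_lit 0) (nat_lit 14279246206) (nat_lit 252) (nat_lit 20749123707) (nat_lit 84) (nat_lit 72560330) (nat_lit 11) (nat_lit 5) (nat_lit 14) (nat_lit 5) (nat_lit 12) (nat_lit 4) (nat_lit 386) (nat_lit 290) (nat_lit 188)) (XT.nd (nat_lit 94) (nat_lit 0) (nat_lit 0) (XT.lf (nat_lit 0) (nat_lit 17315211071) (nat_lit 252) (nat_lit 14652621410) (nat_lit 84) (nat_lit 4084403936) (nat_lit 11) (nat_lit 5) (nat_lit 14) (nat_lit 5) (nat_lit 12) (nat_lit 4) (nat_lit 387) (nat_lit 290) (nat_lit 187)) (XT.lf (nat_lit 0) (nat_lit 20435189796) (nat_lit 252) (nat_lit 8383395973) (nat_lit 84) (nat_lit 8214779566) (nat_lit 11) (nat_lit 5)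 (nat_lit 14) (nat_lit 5) (nat_lit 12) (nat_lit 4) (nat_lit 388) (nat_lit 290) (nat_lit 186)))) (XT.nd (nat_lit 94) (nat_lit 84) (nat_lit 0) (XT.lf (nat_lit 0) (nat_lit 23642090527) (nat_lit 252) (nat_lit 1935603820) (nat_lit 84) (nat_lit 12467537163) (nat_lit 11) (nat_lit 5) (nat_lit 14) (nat_lit 5) (nat_lit 12) (nat_lit 4) (nat_lit 389) (nat_lit 290) (nat_lit 185)) (XT.nd (nat_lit 94) (nat_lit 0) (nat_lit 0) (XT.lf (nat_lit 0) (nat_lit 4793340188) (nat_lit 84) (nat_lit 22193112773) (nat_lit 168) (nat_lit 12100851083) (nat_lit 10) (nat_lit 5) (nat_lit 11) (nat_lit 5) (nat_lit 12) (nat_lit 4) (nat_lit 390) (nat_lit 290) (nat_lit 184)) (XT.lf (nat_lit 0) (nat_lit 11756765369) (nat_lit 84) (nat_lit 18688561685) (nat_lit 168) (nat_lit 9716035287) (nat_lit 10) (nat_lit 5) (nat_lit 11) (nat_lit 5) (nat_lit 12) (nat_lit 4) (nat_lit 391) (nat_lit 290) (nat_lit 183))))) (XT.nd (nat_lit 282) (nat_lit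 252) (nat_lit 0) (XT.nd (nat_lit 94) (nat_lit 0) (nat_lit 0) (XT.lf (nat_lit 0) (nat_lit 18921362381) (nat_lit 84) (nat_lit 15080978210) (nat_lit 168) (nat_lit 7266674432) (nat_lit 10) (nat_lit 5) (nat_lit 11) (nat_lit 5) (nat_lit 12) (nat_lit 4) (nat_lit 392) (nat_lit 290) (nat_lit 182)) (XT.nd (nat_lit 94) (nat_lit 0) (nat_lit 0) (XT.lf (nat_lit 0) (nat_lit 26293809377) (nat_lit 84) (nat_lit 11366999702) (nat_lit 168) (nat_lit 4750485458) (nat_lit 10) (nat_lit 5) (nat_lit 11) (nat_lit 5) (nat_lit 12) (nat_lit 4) (nat_lit 393) (nat_lit 290) (nat_lit 181)) (XT.lf (nat_lit 0) (nat_lit 33880978250) (nat_lit 84) (nat_lit 7543164344) (nat_lit 168) (nat_lit 2165123011) (nat_lit 10) (nat_lit 5) (nat_lit 11) (nat_lit 5) (nat_lit 12) (nat_lit 4) (nat_lit 394) (nat_lit 290) (nat_lit 180)))) (XT.nd (nat_lit 94) (nat_lit 168) (nat_lit 0) (XT.lf (nat_lit 0) (nat_lit 481913602) (nat_lit 168) (nat_lit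 3118964129) (nat_lit 84) (nat_lit 41202997245) (nat_lit 9) (nat_lit 5) (nat_lit 11) (nat_lit 5) (nat_lit 10) (nat_lit 5) (nat_lit 395) (nat_lit 290) (nat_lit 179)) (XT.nd (nat_lit 94) (nat_lit 0) (nat_lit 0) (XT.lf (nat_lit 0) (nat_lit 3199892533) (nat_lit 252) (nat_lit 42345599403) (nat_lit 84) (nat_lit 508923734) (nat_lit 7) (nat_lit 5) (nat_lit 10) (nat_lit 5) (nat_lit 8) (nat_lit 4) (nat_lit 396) (nat_lit 290) (nat_lit 178)) (XT.lf (nat_lit 0) (nat_lit 6063773046) (nat_lit 252) (nat_lit 36578763533) (nat_lit 84) (nat_lit 4699289666) (nat_lit 7) (nat_lit 5) (nat_lit 10) (nat_lit 5) (nat_lit 8) (nat_lit 4) (nat_lit 397) (nat_lit 290) (nat_lit 177)))))) (XT.nd (nat_lit 564) (nat_lit 0) (nat_lit 0) (XT.nd (nat_lit 282) (nat_lit 84) (nat_lit 0) (XT.nd (nat_lit 94) (nat_lit 0) (nat_lit 0) (XT.lf (nat_lit 0) (nat_lit 9008603757) (nat_lit 252) (nat_lit 30646023270) (nat_lit 84) (nat_lit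 9014775916) (nat_lit 7) (nat_lit 5) (nat_lit 10) (nat_lit 5) (nat_lit 8) (nat_lit 4) (nat_lit 398) (nat_lit 290) (nat_lit 176)) (XT.nd (nat_lit 94) (nat_lit 0) (nat_lit 0) (XT.lf (nat_lit 0) (nat_lit 12037129559) (nat_lit 252) (nat_lit 24541848678) (nat_lit 84) (nat_lit 13459404972) (nat_lit 7) (nat_lit 5) (nat_lit 10) (nat_lit 5) (nat_lit 8) (nat_lit 4) (nat_lit 399) (nat_lit 290) (nat_lit 175)) (XT.lf (nat_lit 0) (nat_lit 15152173353) (nat_lit 252) (nat_lit 18260550029) (nat_lit 84) (nat_lit 18037319693) (nat_lit 7) (nat_lit 5) (nat_lit 10) (nat_lit 5) (nat_lit 8) (nat_lit 4) (nat_lit 400) (nat_lit 290) (nat_lit 174)))) (XT.nd (nat_lit 94) (nat_lit 84) (nat_lit 0) (XT.lf (nat_lit 0) (nat_lit 18356638688) (nat_lit 252) (nat_lit 11796272493) (nat_lit 84) (nat_lit 22752787174) (nat_lit 7) (nat_lit 5) (nat_lit 10) (nat_lit 5) (nat_lit 8) (nat_lit 4) (nat_lit 401) (nat_lit 290) (nat_lit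 173)) (XT.nd (nat_lit 94) (nat_lit 84) (nat_lit 0) (XT.lf (nat_lit 0) (nat_lit 21653512461) (nat_lit 252) (nat_lit 5142990686) (nat_lit 84) (nat_lit 27610202726) (nat_lit 7) (nat_lit 5) (nat_lit 10) (nat_lit 5) (nat_lit 8) (nat_lit 4) (nat_lit 402) (nat_lit 290) (nat_lit 172)) (XT.lf (nat_lit 0) (nat_lit 1740565461) (nat_lit 84) (nat_lit 23322568866) (nat_lit 168) (nat_lit 30890795132) (nat_lit 6) (nat_lit 5) (nat_lit 7) (nat_lit 5) (nat_lit 8) (nat_lit 4) (nat_lit 403) (nat_lit 290) (nat_lit 171))))) (XT.nd (nat_lit 282) (nat_lit 0) (nat_lit 0) (XT.nd (nat_lit 94) (nat_lit 0) (nat_lit 0) (XT.lf (nat_lit 0) (nat_lit 8935606469) (nat_lit 84) (nat_lit 19689902297) (nat_lit 168) (nat_lit 28922160906) (nat_lit 6) (nat_lit 5) (nat_lit 7) (nat_lit 5) (nat_lit 8) (nat_lit 4) (nat_lit 404) (nat_lit 290) (nat_lit 170)) (XT.nd (nat_lit 94) (nat_lit 0) (nat_lit 0) (XT.lf (nat_lit 0) (nat_lit 16343088433)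 (nat_lit 84) (nat_lit 15948799689) (nat_lit 168) (nat_lit 26899138034) (nat_lit 6) (nat_lit 5) (nat_lit 7) (nat_lit 5) (nat_lit 8) (nat_lit 4) (nat_lit 405) (nat_lit 290) (nat_lit 169)) (XT.lf (nat_lit 0) (nat_lit 23969915902) (nat_lit 84) (nat_lit 12095773942) (nat_lit 168) (nat_lit 24819840848) (nat_lit 6) (nat_lit 5) (nat_lit 7) (nat_lit 5) (nat_lit 8) (nat_lit 4) (nat_lit 406) (nat_lit 290) (nat_lit 168)))) (XT.nd (nat_lit 94) (nat_lit 0) (nat_lit 0) (XT.lf (nat_lit 0) (nat_lit 31823197879) (nat_lit 84) (nat_lit 8127233633) (nat_lit 168) (nat_lit 22682331225) (nat_lit 6) (nat_lit 5) (nat_lit 7) (nat_lit 5) (nat_lit 8) (nat_lit 4) (nat_lit 407) (nat_lit 290) (nat_lit 167)) (XT.nd (nat_lit 94) (nat_lit 0) (nat_lit 0) (XT.lf (nat_lit 0) (nat_lit 39910254444) (nat_lit 84) (nat_lit 4039479667) (nat_lit 168) (nat_lit 20484616782) (nat_lit 6) (nat_lit 5) (nat_lit 7) (nat_lit 5) (nat_lit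 8) (nat_lit 4) (nat_lit 408) (nat_lit 290) (nat_lit 166)) (XT.lf (nat_lit 0) (nat_lit 48069024710) (nat_lit 168) (nat_lit 18055050147) (nat_lit 0) (nat_lit 167846894) (nat_lit 6) (nat_lit 5) (nat_lit 8) (nat_lit 4) (nat_lit 6) (nat_lit 4) (nat_lit 409) (nat_lit 290) (nat_lit 165))))))) (XT.nd (nat_lit 1128) (nat_lit 0) (nat_lit 0) (XT.nd (nat_lit 564) (nat_lit 84) (nat_lit 0) (XT.nd (nat_lit 282) (nat_lit 0) (nat_lit 0) (XT.nd (nat_lit 94) (nat_lit 84) (nat_lit 0) (XT.lf (nat_lit 0) (nat_lit 52351773520) (nat_lit 168) (nat_lit 11436026725) (nat_lit 0) (nat_lit 4418177967) (nat_lit 6) (nat_lit 5) (nat_lit 8) (nat_lit 4) (nat_lit 6) (nat_lit 4) (nat_lit 410) (nat_lit 290) (nat_lit 164)) (XT.nd (nat_lit 94) (nat_lit 84) (nat_lit 0) (XT.lf (nat_lit 0) (nat_lit 56761900375) (nat_lit 168) (nat_lit 4620784422) (nat_lit 0) (nat_lit 8796861818) (nat_lit 6) (nat_lit 5) (nat_lit 8) (nat_lit 4)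 (nat_lit 6) (nat_lit 4) (nat_lit 411) (nat_lit 290) (nat_lit 163)) (XT.lf (nat_lit 0) (nat_lit 2446317118) (nat_lit 84) (nat_lit 58881466625) (nat_lit 84) (nat_lit 10885930489) (nat_lit 5) (nat_lit 4) (nat_lit 6) (nat_lit 5) (nat_lit 6) (nat_lit 4) (nat_lit 412) (nat_lit 290) (nat_lit 162)))) (XT.nd (nat_lit 94) (nat_lit 0) (nat_lit 0) (XT.lf (nat_lit 0) (nat_lit 9821843989) (nat_lit 84) (nat_lit 56256443499) (nat_lit 84) (nat_lit 8231326782) (nat_lit 5) (nat_lit 4) (nat_lit 6) (nat_lit 5) (nat_lit 6) (nat_lit 4) (nat_lit 413) (nat_lit 290) (nat_lit 161)) (XT.nd (nat_lit 94) (nat_lit 0) (nat_lit 0) (XT.lf (nat_lit 0) (nat_lit 17417658149) (nat_lit 84) (nat_lit 53553400137) (nat_lit 84) (nat_lit 5499592264) (nat_lit 5) (nat_lit 4) (nat_lit 6) (nat_lit 5) (nat_lit 6) (nat_lit 4) (nat_lit 414) (nat_lit 290) (nat_lit 160)) (XT.lf (nat_lit 0) (nat_lit 25240839691) (nat_lit 84) (nat_lit 50769817019)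 (nat_lit 84) (nat_lit 2688180673) (nat_lit 5) (nat_lit 4) (nat_lit 6) (nat_lit 5) (nat_lit 6) (nat_lit 4) (nat_lit 415) (nat_lit 290) (nat_lit 159))))) (XT.nd (nat_lit 282) (nat_lit 0) (nat_lit 0) (XT.nd (nat_lit 94) (nat_lit 0) (nat_lit 0) (XT.lf (nat_lit 0) (nat_lit 201387578) (nat_lit 168) (nat_lit 47699609901) (nat_lit 84) (nat_lit 33095190989) (nat_lit 4) (nat_lit 5) (nat_lit 6) (nat_lit 5) (nat_lit 5) (nat_lit 4) (nat_lit 416) (nat_lit 290) (nat_lit 158)) (XT.nd (nat_lit 94) (nat_lit 0) (nat_lit 0) (XT.lf (nat_lit 0) (nat_lit 3120077368) (nat_lit 168) (nat_lit 41797931083) (nat_lit 84) (nat_lit 38446047174) (nat_lit 4) (nat_lit 5) (nat_lit 6) (nat_lit 5) (nat_lit 5) (nat_lit 4) (nat_lit 417) (nat_lit 290) (nat_lit 157)) (XT.lf (nat_lit 0) (nat_lit 6124770070) (nat_lit 168) (nat_lit 35720793168) (nat_lit 84) (nat_lit 43959909392) (nat_lit 4) (nat_lit 5) (nat_lit 6) (nat_lit 5) (nat_lit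 5) (nat_lit 4) (nat_lit 418) (nat_lit 290) (nat_lit 156)))) (XT.nd (nat_lit 94) (nat_lit 0) (nat_lit 0) (XT.lf (nat_lit 0) (nat_lit 9218266372) (nat_lit 168) (nat_lit 29462531630) (nat_lit 84) (nat_lit 49641917141) (nat_lit 4) (nat_lit 5) (nat_lit 6) (nat_lit 5) (nat_lit 5) (nat_lit 4) (nat_lit 419) (nat_lit 290) (nat_lit 155)) (XT.nd (nat_lit 94) (nat_lit 0) (nat_lit 0) (XT.lf (nat_lit 0) (nat_lit 12403449736) (nat_lit 168) (nat_lit 23017313111) (nat_lit 84) (nat_lit 55497366648) (nat_lit 4) (nat_lit 5) (nat_lit 6) (nat_lit 5) (nat_lit 5) (nat_lit 4) (nat_lit 420) (nat_lit 290) (nat_lit 154)) (XT.lf (nat_lit 0) (nat_lit 15683289087) (nat_lit 168) (nat_lit 16379129994) (nat_lit 84) (nat_lit 61531715804) (nat_lit 4) (nat_lit 5) (nat_lit 6) (nat_lit 5) (nat_lit 5) (nat_lit 4) (nat_lit 421) (nat_lit 290) (nat_lit 153)))))) (XT.nd (nat_lit 42394) (nat_lit 0) (nat_lit 15540) (XT.nd (nat_lit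 42112) (nat_lit 0) (nat_lit 16464) (XT.nd (nat_lit 41924) (nat_lit 0) (nat_lit 16800) (XT.lf (nat_lit 0) (nat_lit 19060841579) (nat_lit 168) (nat_lit 9541794797) (nat_lit 84) (nat_lit 67750589255) (nat_lit 4) (nat_lit 5) (nat_lit 6) (nat_lit 5) (nat_lit 5) (nat_lit 4) (nat_lit 422) (nat_lit 290) (nat_lit 152)) (XT.nd (nat_lit 94) (nat_lit 0) (nat_lit 0) (XT.lf (nat_lit 0) (nat_lit 468844573) (nat_lit 0) (nat_lit 468844573) (nat_lit 252) (nat_lit 2305548720) (nat_lit 204) (nat_lit 5) (nat_lit 204) (nat_lit 3) (nat_lit 207) (nat_lit 3) (nat_lit 291) (nat_lit 291) (nat_lit 282)) (XT.lf (nat_lit 0) (nat_lit 3616595905) (nat_lit 0) (nat_lit 552348503) (nat_lit 252) (nat_lit 2333814421) (nat_lit 204) (nat_lit 5) (nat_lit 204) (nat_lit 3) (nat_lit 207) (nat_lit 3) (nat_lit 292) (nat_lit 291) (nat_lit 281)))) (XT.nd (nat_lit 94) (nat_lit 336) (nat_lit 0) (XT.lf (nat_lit 0) (nat_lit 6332924190)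 (nat_lit 0) (nat_lit 109437715) (nat_lit 252) (nat_lit 80579987) (nat_lit 204) (nat_lit 5) (nat_lit 204) (nat_lit 3) (nat_lit 207) (nat_lit 3) (nat_lit 293) (nat_lit 291) (nat_lit 280)) (XT.nd (nat_lit 94) (nat_lit 0) (nat_lit 0) (XT.lf (nat_lit 0) (nat_lit 2137257806) (nat_lit 336) (nat_lit 3977293451) (nat_lit 420) (nat_lit 430904696) (nat_lit 200) (nat_lit 5) (nat_lit 204) (nat_lit 5) (nat_lit 205) (nat_lit 5) (nat_lit 294) (nat_lit 291) (nat_lit 279)) (XT.lf (nat_lit 0) (nat_lit 4338007354) (nat_lit 336) (nat_lit 1204506417) (nat_lit 420) (nat_lit 1029254710) (nat_lit 200) (nat_lit 5) (nat_lit 204) (nat_lit 5) (nat_lit 205) (nat_lit 5) (nat_lit 295) (nat_lit 291) (nat_lit 278))))) (XT.nd (nat_lit 282) (nat_lit 504) (nat_lit 0) (XT.nd (nat_lit 94) (nat_lit 420) (nat_lit 0) (XT.lf (nat_lit 84) (nat_lit 1638945006) (nat_lit 0) (nat_lit 4899627952) (nat_lit 420) (nat_lit 62945712) (nat_lit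 201) (nat_lit 5) (nat_lit 200) (nat_lit 5) (nat_lit 205) (nat_lit 5) (nat_lit 296) (nat_lit 291) (nat_lit 277)) (XT.nd (nat_lit 94) (nat_lit 0) (nat_lit 0) (XT.lf (nat_lit 0) (nat_lit 2060125777) (nat_lit 420) (nat_lit 2107450637) (nat_lit 504) (nat_lit 2466625090) (nat_lit 195) (nat_lit 5) (nat_lit 200) (nat_lit 5) (nat_lit 201) (nat_lit 5) (nat_lit 297) (nat_lit 291) (nat_lit 276)) (XT.lf (nat_lit 84) (nat_lit 803203095) (nat_lit 0) (nat_lit 3371077256) (nat_lit 504) (nat_lit 2496330831) (nat_lit 196) (nat_lit 5) (nat_lit 195) (nat_lit 5) (nat_lit 201) (nat_lit 5) (nat_lit 298) (nat_lit 291) (nat_lit 275)))) (XT.nd (nat_lit 94) (nat_lit 504) (nat_lit 0) (XT.lf (nat_lit 84) (nat_lit 3800738058) (nat_lit 0) (nat_lit 2495811527) (nat_lit 504) (nat_lit 413823842) (nat_lit 196) (nat_lit 5) (nat_lit 195) (nat_lit 5) (nat_lit 201) (nat_lit 5) (nat_lit 299) (nat_lit 291) (nat_lit 274)) (XT.nd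 (nat_lit 94) (nat_lit 0) (nat_lit 0) (XT.lf (nat_lit 84) (nat_lit 75548348) (nat_lit 0) (nat_lit 1545277887) (nat_lit 588) (nat_lit 5132828792) (nat_lit 190) (nat_lit 5) (nat_lit 189) (nat_lit 5) (nat_lit 196) (nat_lit 5) (nat_lit 300) (nat_lit 291) (nat_lit 273)) (XT.lf (nat_lit 84) (nat_lit 3162520025) (nat_lit 0) (nat_lit 501394281) (nat_lit 588) (nat_lit 3136064973) (nat_lit 190) (nat_lit 5) (nat_lit 189) (nat_lit 5) (nat_lit 196) (nat_lit 5) (nat_lit 301) (nat_lit 291) (nat_lit 272))))))))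
noncomputable def xc93 : XT := (XT.nd (nat_lit 2256) (nat_lit 4116) (nat_lit 0) (XT.nd (nat_lit 1128) (nat_lit 3948) (nat_lit 0) (XT.nd (nat_lit 564) (nat_lit 2604) (nat_lit 0) (XT.nd (nat_lit 282) (nat_lit 1344) (nat_lit 0) (XT.nd (nat_lit 94) (nat_lit 588) (nat_lit 0) (XT.lf (nat_lit 0) (nat_lit 5702240898) (nat_lit 504) (nat_lit 557884363) (nat_lit 84) (nat_lit 590118043) (nat_lit 190) (nat_lit 5) (nat_lit 196) (nat_lit 5) (nat_lit 191) (nat_lit 5) (nat_lit 302) (nat_lit 291) (nat_lit 271)) (XT.nd (nat_lit 94) (nat_lit 0) (nat_lit 0) (XT.lf (nat_lit 0) (nat_lit 842240048) (nat_lit 588) (nat_lit 4295618327) (nat_lit 84) (nat_lit 1765579071) (nat_lit 183) (nat_lit 5) (nat_lit 190) (nat_lit 5) (nat_lit 184) (nat_lit 5) (nat_lit 303) (nat_lit 291) (nat_lit 270)) (XT.lf (nat_lit 0) (nat_lit 2805237907) (nat_lit 588) (nat_lit 1135882942) (nat_lit 84) (nat_lit 3019172073) (nat_lit 183) (nat_lit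 5) (nat_lit 190) (nat_lit 5) (nat_lit 184) (nat_lit 5) (nat_lit 304) (nat_lit 291) (nat_lit 269)))) (XT.nd (nat_lit 94) (nat_lit 756) (nat_lit 0) (XT.lf (nat_lit 0) (nat_lit 2116465508) (nat_lit 588) (nat_lit 2664774825) (nat_lit 672) (nat_lit 2239501450) (nat_lit 176) (nat_lit 5) (nat_lit 183) (nat_lit 5) (nat_lit 184) (nat_lit 5) (nat_lit 305) (nat_lit 291) (nat_lit 268)) (XT.nd (nat_lit 94) (nat_lit 756) (nat_lit 0) (XT.lf (nat_lit 0) (nat_lit 5446221850) (nat_lit 588) (nat_lit 1316888143) (nat_lit 672) (nat_lit 322008735) (nat_lit 176) (nat_lit 5) (nat_lit 183) (nat_lit 5) (nat_lit 184) (nat_lit 5) (nat_lit 306) (nat_lit 291) (nat_lit 267)) (XT.lf (nat_lit 0) (nat_lit 1573459767) (nat_lit 756) (nat_lit 5456322756) (nat_lit 84) (nat_lit 123008879) (nat_lit 167) (nat_lit 5) (nat_lit 176) (nat_lit 5) (nat_lit 168) (nat_lit 5) (nat_lit 307) (nat_lit 291) (nat_lit 266))))) (XT.nd (nat_lit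 282) (nat_lit 1848) (nat_lit 0) (XT.nd (nat_lit 94) (nat_lit 756) (nat_lit 0) (XT.lf (nat_lit 0) (nat_lit 3487233429) (nat_lit 756) (nat_lit 2118742372) (nat_lit 84) (nat_lit 1617838374) (nat_lit 167) (nat_lit 5) (nat_lit 176) (nat_lit 5) (nat_lit 168) (nat_lit 5) (nat_lit 308) (nat_lit 291) (nat_lit 265)) (XT.nd (nat_lit 94) (nat_lit 0) (nat_lit 0) (XT.lf (nat_lit 0) (nat_lit 1300247933) (nat_lit 756) (nat_lit 4110408779) (nat_lit 840) (nat_lit 1888220303) (nat_lit 158) (nat_lit 5) (nat_lit 167) (nat_lit 5) (nat_lit 168) (nat_lit 5) (nat_lit 309) (nat_lit 291) (nat_lit 264)) (XT.lf (nat_lit 0) (nat_lit 4822379504) (nat_lit 756) (nat_lit 2532273662) (nat_lit 840) (nat_lit 23113670) (nat_lit 158) (nat_lit 5) (nat_lit 167) (nat_lit 5) (nat_lit 168) (nat_lit 5) (nat_lit 310) (nat_lit 291) (nat_lit 263)))) (XT.nd (nat_lit 94) (nat_lit 924) (nat_lit 0) (XT.lf (nat_lit 0) (nat_lit 946990482)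 (nat_lit 840) (nat_lit 863727180) (nat_lit 924) (nat_lit 5649647907) (nat_lit 147) (nat_lit 5) (nat_lit 157) (nat_lit 5) (nat_lit 158) (nat_lit 5) (nat_lit 311) (nat_lit 291) (nat_lit 262)) (XT.nd (nat_lit 94) (nat_lit 924) (nat_lit 0) (XT.lf (nat_lit 0) (nat_lit 3677604476) (nat_lit 924) (nat_lit 2991146139) (nat_lit 84) (nat_lit 877753692) (nat_lit 147) (nat_lit 5) (nat_lit 158) (nat_lit 5) (nat_lit 148) (nat_lit 5) (nat_lit 312) (nat_lit 291) (nat_lit 261)) (XT.lf (nat_lit 0) (nat_lit 595366598) (nat_lit 924) (nat_lit 4964748863) (nat_lit 1008) (nat_lit 2076763739) (nat_lit 136) (nat_lit 5) (nat_lit 147) (nat_lit 5) (nat_lit 148) (nat_lit 5) (nat_lit 313) (nat_lit 291) (nat_lit 260)))))) (XT.nd (nat_lit 564) (nat_lit 1680) (nat_lit 0) (XT.nd (nat_lit 282) (nat_lit 1176) (nat_lit 0) (XT.nd (nat_lit 94) (nat_lit 1092) (nat_lit 0) (XT.lf (nat_lit 0) (nat_lit 4308891868) (nat_lit 924)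 (nat_lit 3167566072) (nat_lit 1008) (nat_lit 254606513) (nat_lit 136) (nat_lit 5) (nat_lit 147) (nat_lit 5) (nat_lit 148) (nat_lit 5) (nat_lit 314) (nat_lit 291) (nat_lit 259)) (XT.nd (nat_lit 94) (nat_lit 0) (nat_lit 0) (XT.lf (nat_lit 0) (nat_lit 250798127) (nat_lit 1008) (nat_lit 1288145985) (nat_lit 1092) (nat_lit 6290583170) (nat_lit 123) (nat_lit 5) (nat_lit 135) (nat_lit 5) (nat_lit 136) (nat_lit 5) (nat_lit 315) (nat_lit 291) (nat_lit 258)) (XT.lf (nat_lit 0) (nat_lit 3371723572) (nat_lit 1092) (nat_lit 3878155610) (nat_lit 84) (nat_lit 681652790) (nat_lit 123) (nat_lit 5) (nat_lit 136) (nat_lit 5) (nat_lit 124) (nat_lit 5) (nat_lit 316) (nat_lit 291) (nat_lit 257)))) (XT.nd (nat_lit 94) (nat_lit 1176) (nat_lit 0) (XT.lf (nat_lit 0) (nat_lit 5222494150) (nat_lit 1092) (nat_lit 123552895) (nat_lit 84) (nat_lit 2692075205) (nat_lit 123) (nat_lit 5) (nat_lit 136) (nat_lit 5) (nat_lit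 124) (nat_lit 5) (nat_lit 317) (nat_lit 291) (nat_lit 256)) (XT.nd (nat_lit 94) (nat_lit 84) (nat_lit 0) (XT.lf (nat_lit 0) (nat_lit 3777464737) (nat_lit 1092) (nat_lit 3340210572) (nat_lit 1176) (nat_lit 1030956634) (nat_lit 110) (nat_lit 5) (nat_lit 123) (nat_lit 5) (nat_lit 124) (nat_lit 5) (nat_lit 318) (nat_lit 291) (nat_lit 255)) (XT.lf (nat_lit 0) (nat_lit 743962236) (nat_lit 1176) (nat_lit 515382309) (nat_lit 84) (nat_lit 7004686805) (nat_lit 109) (nat_lit 5) (nat_lit 123) (nat_lit 5) (nat_lit 110) (nat_lit 5) (nat_lit 319) (nat_lit 291) (nat_lit 254))))) (XT.nd (nat_lit 282) (nat_lit 588) (nat_lit 0) (XT.nd (nat_lit 94) (nat_lit 588) (nat_lit 0) (XT.lf (nat_lit 0) (nat_lit 2547656915) (nat_lit 588) (nat_lit 4918654853) (nat_lit 84) (nat_lit 916713860) (nat_lit 103) (nat_lit 5) (nat_lit 110) (nat_lit 5) (nat_lit 104) (nat_lit 5) (nat_lit 320) (nat_lit 291) (nat_lit 253)) (XT.nd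 (nat_lit 94) (nat_lit 588) (nat_lit 0) (XT.lf (nat_lit 0) (nat_lit 4378046616) (nat_lit 588) (nat_lit 986724120) (nat_lit 84) (nat_lit 3142032535) (nat_lit 103) (nat_lit 5) (nat_lit 110) (nat_lit 5) (nat_lit 104) (nat_lit 5) (nat_lit 321) (nat_lit 291) (nat_lit 252)) (XT.lf (nat_lit 0) (nat_lit 3083965695) (nat_lit 588) (nat_lit 3165701080) (nat_lit 672) (nat_lit 2385415174) (nat_lit 96) (nat_lit 5) (nat_lit 103) (nat_lit 5) (nat_lit 104) (nat_lit 5) (nat_lit 322) (nat_lit 291) (nat_lit 251)))) (XT.nd (nat_lit 94) (nat_lit 588) (nat_lit 0) (XT.lf (nat_lit 0) (nat_lit 7256957398) (nat_lit 588) (nat_lit 887485975) (nat_lit 672) (nat_lit 624152230) (nat_lit 96) (nat_lit 5) (nat_lit 103) (nat_lit 5) (nat_lit 104) (nat_lit 5) (nat_lit 323) (nat_lit 291) (nat_lit 250)) (XT.nd (nat_lit 94) (nat_lit 0) (nat_lit 0) (XT.lf (nat_lit 0) (nat_lit 1164452275) (nat_lit 588) (nat_lit 6271401739) (nat_lit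 84) (nat_lit 1470295396) (nat_lit 89) (nat_lit 5) (nat_lit 96) (nat_lit 5) (nat_lit 90) (nat_lit 5) (nat_lit 324) (nat_lit 291) (nat_lit 249)) (XT.lf (nat_lit 0) (nat_lit 2977025789) (nat_lit 588) (nat_lit 2166978103) (nat_lit 84) (nat_lit 3904501512) (nat_lit 89) (nat_lit 5) (nat_lit 96) (nat_lit 5) (nat_lit 90) (nat_lit 5) (nat_lit 325) (nat_lit 291) (nat_lit 248))))))) (XT.nd (nat_lit 1128) (nat_lit 1428) (nat_lit 0) (XT.nd (nat_lit 564) (nat_lit 1260) (nat_lit 0) (XT.nd (nat_lit 282) (nat_lit 504) (nat_lit 0) (XT.nd (nat_lit 94) (nat_lit 420) (nat_lit 0) (XT.lf (nat_lit 0) (nat_lit 2062002970) (nat_lit 504) (nat_lit 2762020977) (nat_lit 588) (nat_lit 4372082357) (nat_lit 83) (nat_lit 5) (nat_lit 89) (nat_lit 5) (nat_lit 90) (nat_lit 5) (nat_lit 326) (nat_lit 291) (nat_lit 247)) (XT.nd (nat_lit 94) (nat_lit 420) (nat_lit 0) (XT.lf (nat_lit 0) (nat_lit 6424244530) (nat_lit 504) (nat_lit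 285268076) (nat_lit 588) (nat_lit 2639504410) (nat_lit 83) (nat_lit 5) (nat_lit 89) (nat_lit 5) (nat_lit 90) (nat_lit 5) (nat_lit 327) (nat_lit 291) (nat_lit 246)) (XT.lf (nat_lit 0) (nat_lit 1376448884) (nat_lit 420) (nat_lit 7272994641) (nat_lit 504) (nat_lit 857496519) (nat_lit 78) (nat_lit 5) (nat_lit 83) (nat_lit 5) (nat_lit 84) (nat_lit 5) (nat_lit 328) (nat_lit 291) (nat_lit 245)))) (XT.nd (nat_lit 94) (nat_lit 420) (nat_lit 0) (XT.lf (nat_lit 0) (nat_lit 953842264) (nat_lit 504) (nat_lit 3853095716) (nat_lit 84) (nat_lit 4862849809) (nat_lit 77) (nat_lit 5) (nat_lit 83) (nat_lit 5) (nat_lit 78) (nat_lit 5) (nat_lit 329) (nat_lit 291) (nat_lit 244)) (XT.nd (nat_lit 94) (nat_lit 0) (nat_lit 0) (XT.lf (nat_lit 0) (nat_lit 515502391) (nat_lit 420) (nat_lit 2254402416) (nat_lit 504) (nat_lit 7068684116) (nat_lit 72) (nat_lit 5) (nat_lit 77) (nat_lit 5) (nat_lit 78) (nat_lit 5) (nat_lit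 330) (nat_lit 291) (nat_lit 243)) (XT.lf (nat_lit 0) (nat_lit 4648604765) (nat_lit 504) (nat_lit 4958159400) (nat_lit 84) (nat_lit 405793049) (nat_lit 72) (nat_lit 5) (nat_lit 78) (nat_lit 5) (nat_lit 73) (nat_lit 5) (nat_lit 331) (nat_lit 291) (nat_lit 242))))) (XT.nd (nat_lit 282) (nat_lit 756) (nat_lit 0) (XT.nd (nat_lit 94) (nat_lit 504) (nat_lit 0) (XT.lf (nat_lit 0) (nat_lit 6571712456) (nat_lit 504) (nat_lit 523498680) (nat_lit 84) (nat_lit 3097263088) (nat_lit 72) (nat_lit 5) (nat_lit 78) (nat_lit 5) (nat_lit 73) (nat_lit 5) (nat_lit 332) (nat_lit 291) (nat_lit 241)) (XT.nd (nat_lit 94) (nat_lit 84) (nat_lit 0) (XT.lf (nat_lit 0) (nat_lit 4089793367) (nat_lit 420) (nat_lit 4469434355) (nat_lit 504) (nat_lit 1818715507) (nat_lit 67) (nat_lit 5) (nat_lit 72) (nat_lit 5) (nat_lit 73) (nat_lit 5) (nat_lit 333) (nat_lit 291) (nat_lit 240)) (XT.lf (nat_lit 0) (nat_lit 8339392) (nat_lit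 504) (nat_lit 1753915048) (nat_lit 84) (nat_lit 8807943102) (nat_lit 66) (nat_lit 5) (nat_lit 72) (nat_lit 5) (nat_lit 67) (nat_lit 5) (nat_lit 334) (nat_lit 291) (nat_lit 239)))) (XT.nd (nat_lit 94) (nat_lit 336) (nat_lit 0) (XT.lf (nat_lit 0) (nat_lit 1859346768) (nat_lit 504) (nat_lit 7858048256) (nat_lit 84) (nat_lit 1050394527) (nat_lit 61) (nat_lit 5) (nat_lit 67) (nat_lit 5) (nat_lit 62) (nat_lit 5) (nat_lit 335) (nat_lit 291) (nat_lit 238)) (XT.nd (nat_lit 94) (nat_lit 336) (nat_lit 0) (XT.lf (nat_lit 0) (nat_lit 3770318331) (nat_lit 504) (nat_lit 3275106539) (nat_lit 84) (nat_lit 3926110913) (nat_lit 61) (nat_lit 5) (nat_lit 67) (nat_lit 5) (nat_lit 62) (nat_lit 5) (nat_lit 336) (nat_lit 291) (nat_lit 237)) (XT.lf (nat_lit 0) (nat_lit 1439026351) (nat_lit 336) (nat_lit 4282864068) (nat_lit 420) (nat_lit 5460391227) (nat_lit 57) (nat_lit 5) (nat_lit 61) (nat_lit 5) (nat_lit 62)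 (nat_lit 5) (nat_lit 337) (nat_lit 291) (nat_lit 236)))))) (XT.nd (nat_lit 564) (nat_lit 672) (nat_lit 0) (XT.nd (nat_lit 282) (nat_lit 336) (nat_lit 0) (XT.nd (nat_lit 94) (nat_lit 420) (nat_lit 0) (XT.lf (nat_lit 0) (nat_lit 6329258389) (nat_lit 336) (nat_lit 1406571475) (nat_lit 420) (nat_lit 3663775332) (nat_lit 57) (nat_lit 5) (nat_lit 61) (nat_lit 5) (nat_lit 62) (nat_lit 5) (nat_lit 338) (nat_lit 291) (nat_lit 235)) (XT.nd (nat_lit 94) (nat_lit 420) (nat_lit 0) (XT.lf (nat_lit 0) (nat_lit 9796251878) (nat_lit 420) (nat_lit 307327532) (nat_lit 84) (nat_lit 1520680213) (nat_lit 57) (nat_lit 5) (nat_lit 62) (nat_lit 5) (nat_lit 58) (nat_lit 5) (nat_lit 339) (nat_lit 291) (nat_lit 234)) (XT.lf (nat_lit 0) (nat_lit 93567849) (nat_lit 420) (nat_lit 7211561827) (nat_lit 84) (nat_lit 4549886029) (nat_lit 52) (nat_lit 5) (nat_lit 57) (nat_lit 5) (nat_lit 53) (nat_lit 5) (nat_lit 340) (nat_lit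 291) (nat_lit 233)))) (XT.nd (nat_lit 94) (nat_lit 336) (nat_lit 0) (XT.lf (nat_lit 0) (nat_lit 2009655854) (nat_lit 420) (nat_lit 2395762417) (nat_lit 84) (nat_lit 7687857699) (nat_lit 52) (nat_lit 5) (nat_lit 57) (nat_lit 5) (nat_lit 53) (nat_lit 5) (nat_lit 341) (nat_lit 291) (nat_lit 232)) (XT.nd (nat_lit 94) (nat_lit 0) (nat_lit 0) (XT.lf (nat_lit 0) (nat_lit 2584114191) (nat_lit 336) (nat_lit 1397249848) (nat_lit 420) (nat_lit 8357763382) (nat_lit 48) (nat_lit 5) (nat_lit 52) (nat_lit 5) (nat_lit 53) (nat_lit 5) (nat_lit 342) (nat_lit 291) (nat_lit 231)) (XT.lf (nat_lit 0) (nat_lit 6027389046) (nat_lit 420) (nat_lit 4877631538) (nat_lit 84) (nat_lit 1687256010) (nat_lit 48) (nat_lit 5) (nat_lit 53) (nat_lit 5) (nat_lit 49) (nat_lit 5) (nat_lit 343) (nat_lit 291) (nat_lit 230))))) (XT.nd (nat_lit 282) (nat_lit 336) (nat_lit 0) (XT.nd (nat_lit 94) (nat_lit 0) (nat_lit 0) (XT.lf (nat_lit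 0) (nat_lit 102050079) (nat_lit 336) (nat_lit 8021990540) (nat_lit 420) (nat_lit 4729712352) (nat_lit 44) (nat_lit 5) (nat_lit 48) (nat_lit 5) (nat_lit 49) (nat_lit 5) (nat_lit 344) (nat_lit 291) (nat_lit 229)) (XT.nd (nat_lit 94) (nat_lit 0) (nat_lit 0) (XT.lf (nat_lit 0) (nat_lit 5303211837) (nat_lit 336) (nat_lit 5005770853) (nat_lit 420) (nat_lit 2813710582) (nat_lit 44) (nat_lit 5) (nat_lit 48) (nat_lit 5) (nat_lit 49) (nat_lit 5) (nat_lit 345) (nat_lit 291) (nat_lit 228)) (XT.lf (nat_lit 0) (nat_lit 10630407656) (nat_lit 336) (nat_lit 1904462563) (nat_lit 420) (nat_lit 866008794) (nat_lit 44) (nat_lit 5) (nat_lit 48) (nat_lit 5) (nat_lit 49) (nat_lit 5) (nat_lit 346) (nat_lit 291) (nat_lit 227)))) (XT.nd (nat_lit 94) (nat_lit 0) (nat_lit 0) (XT.lf (nat_lit 0) (nat_lit 1130031827) (nat_lit 336) (nat_lit 11262490231) (nat_lit 84) (nat_lit 1294548417) (nat_lit 40) (nat_lit 5) (nat_lit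 44) (nat_lit 5) (nat_lit 41) (nat_lit 5) (nat_lit 347) (nat_lit 291) (nat_lit 226)) (XT.nd (nat_lit 94) (nat_lit 0) (nat_lit 0) (XT.lf (nat_lit 0) (nat_lit 3192696079) (nat_lit 336) (nat_lit 6205652124) (nat_lit 84) (nat_lit 4582877352) (nat_lit 40) (nat_lit 5) (nat_lit 44) (nat_lit 5) (nat_lit 41) (nat_lit 5) (nat_lit 348) (nat_lit 291) (nat_lit 225)) (XT.lf (nat_lit 0) (nat_lit 5294126816) (nat_lit 336) (nat_lit 1026188336) (nat_lit 84) (nat_lit 7965033665) (nat_lit 40) (nat_lit 5) (nat_lit 44) (nat_lit 5) (nat_lit 41) (nat_lit 5) (nat_lit 349) (nat_lit 291) (nat_lit 224))))))))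
noncomputable def xc94 : XT := (XT.nd (nat_lit 2256) (nat_lit 840) (nat_lit 0) (XT.nd (nat_lit 1128) (nat_lit 672) (nat_lit 0) (XT.nd (nat_lit 564) (nat_lit 420) (nat_lit 0) (XT.nd (nat_lit 282) (nat_lit 336) (nat_lit 0) (XT.nd (nat_lit 94) (nat_lit 252) (nat_lit 0) (XT.lf (nat_lit 0) (nat_lit 4368749500) (nat_lit 252) (nat_lit 3110871828) (nat_lit 336) (nat_lit 7118758917) (nat_lit 37) (nat_lit 5) (nat_lit 40) (nat_lit 5) (nat_lit 41) (nat_lit 5) (nat_lit 350) (nat_lit 291) (nat_lit 223)) (XT.nd (nat_lit 94) (nat_lit 252) (nat_lit 0) (XT.lf (nat_lit 0) (nat_lit 9721554887) (nat_lit 336) (nat_lit 5003669791) (nat_lit 84) (nat_lit 196306453) (nat_lit 37) (nat_lit 5) (nat_lit 41) (nat_lit 5) (nat_lit 38) (nat_lit 5) (nat_lit 351) (nat_lit 291) (nat_lit 222)) (XT.lf (nat_lit 0) (nat_lit 326568983) (nat_lit 252) (nat_lit 11718103494) (nat_lit 336) (nat_lit 3209727896) (nat_lit 34) (nat_lit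 5) (nat_lit 37) (nat_lit 5) (nat_lit 38) (nat_lit 5) (nat_lit 352) (nat_lit 291) (nat_lit 221)))) (XT.nd (nat_lit 94) (nat_lit 336) (nat_lit 0) (XT.lf (nat_lit 0) (nat_lit 5895959556) (nat_lit 252) (nat_lit 8573086517) (nat_lit 336) (nat_lit 1127697065) (nat_lit 34) (nat_lit 5) (nat_lit 37) (nat_lit 5) (nat_lit 38) (nat_lit 5) (nat_lit 353) (nat_lit 291) (nat_lit 220)) (XT.nd (nat_lit 94) (nat_lit 252) (nat_lit 0) (XT.lf (nat_lit 0) (nat_lit 975765135) (nat_lit 336) (nat_lit 4353520188) (nat_lit 84) (nat_lit 10620857346) (nat_lit 33) (nat_lit 5) (nat_lit 37) (nat_lit 5) (nat_lit 34) (nat_lit 5) (nat_lit 354) (nat_lit 291) (nat_lit 219)) (XT.lf (nat_lit 0) (nat_lit 1140184974) (nat_lit 252) (nat_lit 1970231092) (nat_lit 336) (nat_lit 13204108035) (nat_lit 30) (nat_lit 5) (nat_lit 33) (nat_lit 5) (nat_lit 34) (nat_lit 5) (nat_lit 355) (nat_lit 291) (nat_lit 218))))) (XT.nd (nat_lit 282)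 (nat_lit 252) (nat_lit 0) (XT.nd (nat_lit 94) (nat_lit 168) (nat_lit 0) (XT.lf (nat_lit 0) (nat_lit 5350321830) (nat_lit 336) (nat_lit 9838664487) (nat_lit 84) (nat_lit 1500057525) (nat_lit 30) (nat_lit 5) (nat_lit 34) (nat_lit 5) (nat_lit 31) (nat_lit 5) (nat_lit 356) (nat_lit 291) (nat_lit 217)) (XT.nd (nat_lit 94) (nat_lit 168) (nat_lit 0) (XT.lf (nat_lit 0) (nat_lit 7658829838) (nat_lit 336) (nat_lit 4387884240) (nat_lit 84) (nat_lit 5028537856) (nat_lit 30) (nat_lit 5) (nat_lit 34) (nat_lit 5) (nat_lit 31) (nat_lit 5) (nat_lit 357) (nat_lit 291) (nat_lit 216)) (XT.lf (nat_lit 0) (nat_lit 1227355730) (nat_lit 168) (nat_lit 8803366716) (nat_lit 252) (nat_lit 7443014369) (nat_lit 28) (nat_lit 5) (nat_lit 30) (nat_lit 5) (nat_lit 31) (nat_lit 5) (nat_lit 358) (nat_lit 291) (nat_lit 215)))) (XT.nd (nat_lit 94) (nat_lit 252) (nat_lit 0) (XT.lf (nat_lit 0) (nat_lit 7080742092) (nat_lit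 168) (nat_lit 5421172344) (nat_lit 252) (nat_lit 5381910660) (nat_lit 28) (nat_lit 5) (nat_lit 30) (nat_lit 5) (nat_lit 31) (nat_lit 5) (nat_lit 359) (nat_lit 291) (nat_lit 214)) (XT.nd (nat_lit 94) (nat_lit 252) (nat_lit 0) (XT.lf (nat_lit 0) (nat_lit 13087506915) (nat_lit 168) (nat_lit 1942778912) (nat_lit 252) (nat_lit 3276990317) (nat_lit 28) (nat_lit 5) (nat_lit 30) (nat_lit 5) (nat_lit 31) (nat_lit 5) (nat_lit 360) (nat_lit 291) (nat_lit 213)) (XT.lf (nat_lit 0) (nat_lit 502672240) (nat_lit 252) (nat_lit 17136727616) (nat_lit 336) (nat_lit 1104427403) (nat_lit 25) (nat_lit 5) (nat_lit 28) (nat_lit 5) (nat_lit 29) (nat_lit 5) (nat_lit 361) (nat_lit 291) (nat_lit 212)))))) (XT.nd (nat_lit 564) (nat_lit 420) (nat_lit 0) (XT.nd (nat_lit 282) (nat_lit 168) (nat_lit 0) (XT.nd (nat_lit 94) (nat_lit 0) (nat_lit 0) (XT.lf (nat_lit 0) (nat_lit 1168653539) (nat_lit 336) (nat_lit 12738677990)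 (nat_lit 84) (nat_lit 5284536909) (nat_lit 24) (nat_lit 5) (nat_lit 28) (nat_lit 5) (nat_lit 25) (nat_lit 5) (nat_lit 362) (nat_lit 291) (nat_lit 211)) (XT.nd (nat_lit 94) (nat_lit 0) (nat_lit 0) (XT.lf (nat_lit 0) (nat_lit 3470960752) (nat_lit 336) (nat_lit 7104009911) (nat_lit 84) (nat_lit 9079087577) (nat_lit 24) (nat_lit 5) (nat_lit 28) (nat_lit 5) (nat_lit 25) (nat_lit 5) (nat_lit 363) (nat_lit 291) (nat_lit 210)) (XT.lf (nat_lit 0) (nat_lit 5826891978) (nat_lit 336) (nat_lit 1320942626) (nat_lit 84) (nat_lit 12983332509) (nat_lit 24) (nat_lit 5) (nat_lit 28) (nat_lit 5) (nat_lit 25) (nat_lit 5) (nat_lit 364) (nat_lit 291) (nat_lit 209)))) (XT.nd (nat_lit 94) (nat_lit 0) (nat_lit 0) (XT.lf (nat_lit 0) (nat_lit 4710826954) (nat_lit 168) (nat_lit 3574548223) (nat_lit 252) (nat_lit 12336815903) (nat_lit 22) (nat_lit 5) (nat_lit 24) (nat_lit 5) (nat_lit 25) (nat_lit 5) (nat_lit 365)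 (nat_lit 291) (nat_lit 208)) (XT.nd (nat_lit 94) (nat_lit 0) (nat_lit 0) (XT.lf (nat_lit 0) (nat_lit 10818057957) (nat_lit 252) (nat_lit 10197361273) (nat_lit 84) (nat_lit 113118560) (nat_lit 22) (nat_lit 5) (nat_lit 25) (nat_lit 5) (nat_lit 23) (nat_lit 5) (nat_lit 366) (nat_lit 291) (nat_lit 207)) (XT.lf (nat_lit 0) (nat_lit 13449296438) (nat_lit 252) (nat_lit 4367719746) (nat_lit 84) (nat_lit 3832981171) (nat_lit 22) (nat_lit 5) (nat_lit 25) (nat_lit 5) (nat_lit 23) (nat_lit 5) (nat_lit 367) (nat_lit 291) (nat_lit 206))))) (XT.nd (nat_lit 282) (nat_lit 252) (nat_lit 0) (XT.nd (nat_lit 94) (nat_lit 0) (nat_lit 0) (XT.lf (nat_lit 0) (nat_lit 1651732989) (nat_lit 168) (nat_lit 14510735654) (nat_lit 252) (nat_lit 6025178496) (nat_lit 20) (nat_lit 5) (nat_lit 22) (nat_lit 5) (nat_lit 23) (nat_lit 5) (nat_lit 368) (nat_lit 291) (nat_lit 205)) (XT.nd (nat_lit 94) (nat_lit 0) (nat_lit 0)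 (XT.lf (nat_lit 0) (nat_lit 7926440572) (nat_lit 168) (nat_lit 11063122775) (nat_lit 252) (nat_lit 3751511689) (nat_lit 20) (nat_lit 5) (nat_lit 22) (nat_lit 5) (nat_lit 23) (nat_lit 5) (nat_lit 369) (nat_lit 291) (nat_lit 204)) (XT.lf (nat_lit 0) (nat_lit 14372442411) (nat_lit 168) (nat_lit 7516554046) (nat_lit 252) (nat_lit 1423171236) (nat_lit 20) (nat_lit 5) (nat_lit 22) (nat_lit 5) (nat_lit 23) (nat_lit 5) (nat_lit 370) (nat_lit 291) (nat_lit 203)))) (XT.nd (nat_lit 94) (nat_lit 168) (nat_lit 0) (XT.lf (nat_lit 0) (nat_lit 942630697) (nat_lit 252) (nat_lit 2915253865) (nat_lit 84) (nat_lit 20043277027) (nat_lit 19) (nat_lit 5) (nat_lit 22) (nat_lit 5) (nat_lit 20) (nat_lit 5) (nat_lit 371) (nat_lit 291) (nat_lit 202)) (XT.nd (nat_lit 94) (nat_lit 0) (nat_lit 0) (XT.lf (nat_lit 0) (nat_lit 3326260153) (nat_lit 168) (nat_lit 44372735) (nat_lit 252) (nat_lit 21136790227) (nat_lit 17)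 (nat_lit 5) (nat_lit 19) (nat_lit 5) (nat_lit 20) (nat_lit 5) (nat_lit 372) (nat_lit 291) (nat_lit 201)) (XT.lf (nat_lit 0) (nat_lit 5928777860) (nat_lit 252) (nat_lit 15369699102) (nat_lit 84) (nat_lit 3832330894) (nat_lit 17) (nat_lit 5) (nat_lit 20) (nat_lit 5) (nat_lit 18) (nat_lit 5) (nat_lit 373) (nat_lit 291) (nat_lit 200))))))) (XT.nd (nat_lit 1128) (nat_lit 336) (nat_lit 0) (XT.nd (nat_lit 564) (nat_lit 336) (nat_lit 0) (XT.nd (nat_lit 282) (nat_lit 0) (nat_lit 0) (XT.nd (nat_lit 94) (nat_lit 168) (nat_lit 0) (XT.lf (nat_lit 0) (nat_lit 8552684150) (nat_lit 252) (nat_lit 9400213927) (nat_lit 84) (nat_lit 7821068539) (nat_lit 17) (nat_lit 5) (nat_lit 20) (nat_lit 5) (nat_lit 18) (nat_lit 5) (nat_lit 374) (nat_lit 291) (nat_lit 199)) (XT.nd (nat_lit 94) (nat_lit 168) (nat_lit 0) (XT.lf (nat_lit 0) (nat_lit 11244357330) (nat_lit 252) (nat_lit 3266703068) (nat_lit 84) (nat_lit 11926452132)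 (nat_lit 17) (nat_lit 5) (nat_lit 20) (nat_lit 5) (nat_lit 18) (nat_lit 5) (nat_lit 375) (nat_lit 291) (nat_lit 198)) (XT.lf (nat_lit 0) (nat_lit 3098988255) (nat_lit 168) (nat_lit 10938060412) (nat_lit 252) (nat_lit 13084062413) (nat_lit 15) (nat_lit 5) (nat_lit 17) (nat_lit 5) (nat_lit 18) (nat_lit 5) (nat_lit 376) (nat_lit 291) (nat_lit 197)))) (XT.nd (nat_lit 94) (nat_lit 0) (nat_lit 0) (XT.lf (nat_lit 0) (nat_lit 9711078812) (nat_lit 168) (nat_lit 7226361841) (nat_lit 252) (nat_lit 10887832340) (nat_lit 15) (nat_lit 5) (nat_lit 17) (nat_lit 5) (nat_lit 18) (nat_lit 5) (nat_lit 377) (nat_lit 291) (nat_lit 196)) (XT.nd (nat_lit 94) (nat_lit 0) (nat_lit 0) (XT.lf (nat_lit 0) (nat_lit 16508561647) (nat_lit 168) (nat_lit 3406602672) (nat_lit 252) (nat_lit 8636515543) (nat_lit 15) (nat_lit 5) (nat_lit 17) (nat_lit 5) (nat_lit 18) (nat_lit 5) (nat_lit 378) (nat_lit 291) (nat_lit 195))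 (XT.lf (nat_lit 0) (nat_lit 22978201076) (nat_lit 252) (nat_lit 5808441910) (nat_lit 84) (nat_lit 514204411) (nat_lit 15) (nat_lit 5) (nat_lit 18) (nat_lit 5) (nat_lit 16) (nat_lit 4) (nat_lit 379) (nat_lit 291) (nat_lit 194))))) (XT.nd (nat_lit 282) (nat_lit 168) (nat_lit 0) (XT.nd (nat_lit 94) (nat_lit 84) (nat_lit 0) (XT.lf (nat_lit 0) (nat_lit 577555713) (nat_lit 84) (nat_lit 25587306561) (nat_lit 168) (nat_lit 3907512481) (nat_lit 14) (nat_lit 5) (nat_lit 15) (nat_lit 5) (nat_lit 16) (nat_lit 4) (nat_lit 380) (nat_lit 291) (nat_lit 193)) (XT.nd (nat_lit 94) (nat_lit 84) (nat_lit 0) (XT.lf (nat_lit 0) (nat_lit 7266096414) (nat_lit 84) (nat_lit 22233114843) (nat_lit 168) (nat_lit 1367115936) (nat_lit 14) (nat_lit 5) (nat_lit 15) (nat_lit 5) (nat_lit 16) (nat_lit 4) (nat_lit 381) (nat_lit 291) (nat_lit 192)) (XT.lf (nat_lit 0) (nat_lit 1215294067) (nat_lit 168) (nat_lit 17553590351)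 (nat_lit 84) (nat_lit 12916001890) (nat_lit 13) (nat_lit 5) (nat_lit 15) (nat_lit 5) (nat_lit 14) (nat_lit 5) (nat_lit 382) (nat_lit 291) (nat_lit 191)))) (XT.nd (nat_lit 94) (nat_lit 168) (nat_lit 0) (XT.lf (nat_lit 0) (nat_lit 3838193584) (nat_lit 168) (nat_lit 11351197165) (nat_lit 84) (nat_lit 17339364332) (nat_lit 13) (nat_lit 5) (nat_lit 15) (nat_lit 5) (nat_lit 14) (nat_lit 5) (nat_lit 383) (nat_lit 291) (nat_lit 190)) (XT.nd (nat_lit 94) (nat_lit 168) (nat_lit 0) (XT.lf (nat_lit 0) (nat_lit 6531571770) (nat_lit 168) (nat_lit 4973707981) (nat_lit 84) (nat_lit 21893860753) (nat_lit 13) (nat_lit 5) (nat_lit 15) (nat_lit 5) (nat_lit 14) (nat_lit 5) (nat_lit 384) (nat_lit 291) (nat_lit 189)) (XT.lf (nat_lit 0) (nat_lit 1617408870) (nat_lit 168) (nat_lit 7696575161) (nat_lit 252) (nat_lit 24982372448) (nat_lit 11) (nat_lit 5) (nat_lit 13) (nat_lit 5) (nat_lit 14) (nat_lit 5) (nat_lit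 385) (nat_lit 291) (nat_lit 188)))))) (XT.nd (nat_lit 564) (nat_lit 252) (nat_lit 0) (XT.nd (nat_lit 282) (nat_lit 84) (nat_lit 0) (XT.nd (nat_lit 94) (nat_lit 0) (nat_lit 0) (XT.lf (nat_lit 0) (nat_lit 8501797346) (nat_lit 168) (nat_lit 3722415761) (nat_lit 252) (nat_lit 22995904332) (nat_lit 11) (nat_lit 5) (nat_lit 13) (nat_lit 5) (nat_lit 14) (nat_lit 5) (nat_lit 386) (nat_lit 291) (nat_lit 187)) (XT.nd (nat_lit 94) (nat_lit 0) (nat_lit 0) (XT.lf (nat_lit 0) (nat_lit 15218277711) (nat_lit 252) (nat_lit 20592901031) (nat_lit 84) (nat_lit 361553194) (nat_lit 11) (nat_lit 5) (nat_lit 14) (nat_lit 5) (nat_lit 12) (nat_lit 4) (nat_lit 387) (nat_lit 291) (nat_lit 186)) (XT.lf (nat_lit 0) (nat_lit 18333432539) (nat_lit 252) (nat_lit 14331444808) (nat_lit 84) (nat_lit 4489142179) (nat_lit 11) (nat_lit 5) (nat_lit 14) (nat_lit 5) (nat_lit 12) (nat_lit 4) (nat_lit 388) (nat_lit 291) (nat_lit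 185)))) (XT.nd (nat_lit 94) (nat_lit 84) (nat_lit 0) (XT.lf (nat_lit 0) (nat_lit 21535654418) (nat_lit 252) (nat_lit 7891188265) (nat_lit 84) (nat_lit 8739196919) (nat_lit 11) (nat_lit 5) (nat_lit 14) (nat_lit 5) (nat_lit 12) (nat_lit 4) (nat_lit 389) (nat_lit 291) (nat_lit 184)) (XT.nd (nat_lit 94) (nat_lit 84) (nat_lit 0) (XT.lf (nat_lit 0) (nat_lit 24827928155) (nat_lit 252) (nat_lit 1266128408) (nat_lit 84) (nat_lit 13115678910) (nat_lit 11) (nat_lit 5) (nat_lit 14) (nat_lit 5) (nat_lit 12) (nat_lit 4) (nat_lit 390) (nat_lit 291) (nat_lit 183)) (XT.lf (nat_lit 0) (nat_lit 5664027543) (nat_lit 84) (nat_lit 22605482804) (nat_lit 168) (nat_lit 12014827804) (nat_lit 10) (nat_lit 5) (nat_lit 11) (nat_lit 5) (nat_lit 12) (nat_lit 4) (nat_lit 391) (nat_lit 291) (nat_lit 182))))) (XT.nd (nat_lit 282) (nat_lit 252) (nat_lit 0) (XT.nd (nat_lit 94) (nat_lit 0) (nat_lit 0) (XT.lf (nat_lit 0)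 (nat_lit 12821607064) (nat_lit 84) (nat_lit 19000577839) (nat_lit 168) (nat_lit 9569948519) (nat_lit 10) (nat_lit 5) (nat_lit 11) (nat_lit 5) (nat_lit 12) (nat_lit 4) (nat_lit 392) (nat_lit 291) (nat_lit 181)) (XT.nd (nat_lit 94) (nat_lit 0) (nat_lit 0) (XT.lf (nat_lit 0) (nat_lit 20187247571) (nat_lit 84) (nat_lit 15289197305) (nat_lit 168) (nat_lit 7058106361) (nat_lit 10) (nat_lit 5) (nat_lit 11) (nat_lit 5) (nat_lit 12) (nat_lit 4) (nat_lit 393) (nat_lit 291) (nat_lit 180)) (XT.lf (nat_lit 0) (nat_lit 27767814613) (nat_lit 84) (nat_lit 11467881805) (nat_lit 168) (nat_lit 4476960033) (nat_lit 10) (nat_lit 5) (nat_lit 11) (nat_lit 5) (nat_lit 12) (nat_lit 4) (nat_lit 394) (nat_lit 291) (nat_lit 179)))) (XT.nd (nat_lit 94) (nat_lit 252) (nat_lit 0) (XT.lf (nat_lit 0) (nat_lit 35570374071) (nat_lit 84) (nat_lit 7533069473) (nat_lit 168) (nat_lit 1824103635) (nat_lit 10) (nat_lit 5) (nat_lit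 11) (nat_lit 5) (nat_lit 12) (nat_lit 4) (nat_lit 395) (nat_lit 291) (nat_lit 178)) (XT.nd (nat_lit 94) (nat_lit 168) (nat_lit 0) (XT.lf (nat_lit 0) (nat_lit 884743433) (nat_lit 168) (nat_lit 2587114311) (nat_lit 84) (nat_lit 42708220409) (nat_lit 9) (nat_lit 5) (nat_lit 11) (nat_lit 5) (nat_lit 10) (nat_lit 5) (nat_lit 396) (nat_lit 291) (nat_lit 177)) (XT.lf (nat_lit 0) (nat_lit 3683867302) (nat_lit 252) (nat_lit 43025991346) (nat_lit 84) (nat_lit 759644264) (nat_lit 7) (nat_lit 5) (nat_lit 10) (nat_lit 5) (nat_lit 8) (nat_lit 4) (nat_lit 397) (nat_lit 291) (nat_lit 176))))))))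
noncomputable def xc95 : XT := (XT.nd (nat_lit 44274) (nat_lit 0) (nat_lit 11004) (XT.nd (nat_lit 1128) (nat_lit 168) (nat_lit 0) (XT.nd (nat_lit 564) (nat_lit 84) (nat_lit 0) (XT.nd (nat_lit 282) (nat_lit 0) (nat_lit 0) (XT.nd (nat_lit 94) (nat_lit 0) (nat_lit 0) (XT.lf (nat_lit 0) (nat_lit 6624958642) (nat_lit 252) (nat_lit 37099396144) (nat_lit 84) (nat_lit 5072847270) (nat_lit 7) (nat_lit 5) (nat_lit 10) (nat_lit 5) (nat_lit 8) (nat_lit 4) (nat_lit 398) (nat_lit 291) (nat_lit 175)) (XT.nd (nat_lit 94) (nat_lit 0) (nat_lit 0) (XT.lf (nat_lit 0) (nat_lit 9649857508) (nat_lit 252) (nat_lit 31001181845) (nat_lit 84) (nat_lit 9515261734) (nat_lit 7) (nat_lit 5) (nat_lit 10) (nat_lit 5) (nat_lit 8) (nat_lit 4) (nat_lit 399) (nat_lit 291) (nat_lit 174)) (XT.lf (nat_lit 0) (nat_lit 12761383421) (nat_lit 252) (nat_lit 24725664275) (nat_lit 84) (nat_lit 14091028451) (nat_lit 7) (nat_lit 5)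 (nat_lit 10) (nat_lit 5) (nat_lit 8) (nat_lit 4) (nat_lit 400) (nat_lit 291) (nat_lit 173)))) (XT.nd (nat_lit 94) (nat_lit 0) (nat_lit 0) (XT.lf (nat_lit 0) (nat_lit 15962436650) (nat_lit 252) (nat_lit 18266993993) (nat_lit 84) (nat_lit 18804412515) (nat_lit 7) (nat_lit 5) (nat_lit 10) (nat_lit 5) (nat_lit 8) (nat_lit 4) (nat_lit 401) (nat_lit 291) (nat_lit 172)) (XT.nd (nat_lit 94) (nat_lit 0) (nat_lit 0) (XT.lf (nat_lit 0) (nat_lit 19256000911) (nat_lit 252) (nat_lit 11619150842) (nat_lit 84) (nat_lit 23659807293) (nat_lit 7) (nat_lit 5) (nat_lit 10) (nat_lit 5) (nat_lit 8) (nat_lit 4) (nat_lit 402) (nat_lit 291) (nat_lit 171)) (XT.lf (nat_lit 0) (nat_lit 22645146151) (nat_lit 252) (nat_lit 4775938336) (nat_lit 84) (nat_lit 28661738522) (nat_lit 7) (nat_lit 5) (nat_lit 10) (nat_lit 5) (nat_lit 8) (nat_lit 4) (nat_lit 403) (nat_lit 291) (nat_lit 170))))) (XT.nd (nat_lit 282) (nat_lit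 0) (nat_lit 0) (XT.nd (nat_lit 94) (nat_lit 0) (nat_lit 0) (XT.lf (nat_lit 0) (nat_lit 2315677863) (nat_lit 84) (nat_lit 23840325357) (nat_lit 168) (nat_lit 31522162474) (nat_lit 6) (nat_lit 5) (nat_lit 7) (nat_lit 5) (nat_lit 8) (nat_lit 4) (nat_lit 404) (nat_lit 291) (nat_lit 169)) (XT.nd (nat_lit 94) (nat_lit 0) (nat_lit 0) (XT.lf (nat_lit 0) (nat_lit 9718095112) (nat_lit 84) (nat_lit 20101217354) (nat_lit 168) (nat_lit 29502310156) (nat_lit 6) (nat_lit 5) (nat_lit 7) (nat_lit 5) (nat_lit 8) (nat_lit 4) (nat_lit 405) (nat_lit 291) (nat_lit 168)) (XT.lf (nat_lit 0) (nat_lit 17340010152) (nat_lit 84) (nat_lit 16250126239) (nat_lit 168) (nat_lit 27426088192) (nat_lit 6) (nat_lit 5) (nat_lit 7) (nat_lit 5) (nat_lit 8) (nat_lit 4) (nat_lit 406) (nat_lit 291) (nat_lit 167)))) (XT.nd (nat_lit 94) (nat_lit 0) (nat_lit 0) (XT.lf (nat_lit 0) (nat_lit 25188527405) (nat_lit 84) (nat_lit 12283462391)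 (nat_lit 168) (nat_lit 25291561326) (nat_lit 6) (nat_lit 5) (nat_lit 7) (nat_lit 5) (nat_lit 8) (nat_lit 4) (nat_lit 407) (nat_lit 291) (nat_lit 166)) (XT.nd (nat_lit 94) (nat_lit 0) (nat_lit 0) (XT.lf (nat_lit 0) (nat_lit 33270962512) (nat_lit 84) (nat_lit 8197528464) (nat_lit 168) (nat_lit 23096739954) (nat_lit 6) (nat_lit 5) (nat_lit 7) (nat_lit 5) (nat_lit 8) (nat_lit 4) (nat_lit 408) (nat_lit 291) (nat_lit 165)) (XT.lf (nat_lit 0) (nat_lit 41594849150) (nat_lit 84) (nat_lit 3988515940) (nat_lit 168) (nat_lit 20839578274) (nat_lit 6) (nat_lit 5) (nat_lit 7) (nat_lit 5) (nat_lit 8) (nat_lit 4) (nat_lit 409) (nat_lit 291) (nat_lit 164)))))) (XT.nd (nat_lit 564) (nat_lit 84) (nat_lit 0) (XT.nd (nat_lit 282) (nat_lit 84) (nat_lit 0) (XT.nd (nat_lit 94) (nat_lit 0) (nat_lit 0) (XT.lf (nat_lit 0) (nat_lit 49823894858) (nat_lit 168) (nat_lit 18173921181) (nat_lit 0) (nat_lit 340497102)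 (nat_lit 6) (nat_lit 5) (nat_lit 8) (nat_lit 4) (nat_lit 6) (nat_lit 4) (nat_lit 410) (nat_lit 291) (nat_lit 163)) (XT.nd (nat_lit 94) (nat_lit 0) (nat_lit 0) (XT.lf (nat_lit 0) (nat_lit 54231448996) (nat_lit 168) (nat_lit 11362963029) (nat_lit 0) (nat_lit 4717553661) (nat_lit 6) (nat_lit 5) (nat_lit 8) (nat_lit 4) (nat_lit 6) (nat_lit 4) (nat_lit 411) (nat_lit 291) (nat_lit 162)) (XT.lf (nat_lit 0) (nat_lit 58770569235) (nat_lit 168) (nat_lit 4349304661) (nat_lit 0) (nat_lit 9227093318) (nat_lit 6) (nat_lit 5) (nat_lit 8) (nat_lit 4) (nat_lit 6) (nat_lit 4) (nat_lit 412) (nat_lit 291) (nat_lit 161)))) (XT.nd (nat_lit 94) (nat_lit 0) (nat_lit 0) (XT.lf (nat_lit 0) (nat_lit 2932678318) (nat_lit 84) (nat_lit 60541900724) (nat_lit 84) (nat_lit 10969733652) (nat_lit 5) (nat_lit 4) (nat_lit 6) (nat_lit 5) (nat_lit 6) (nat_lit 4) (nat_lit 413) (nat_lit 291) (nat_lit 160)) (XT.nd (nat_lit 94)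 (nat_lit 0) (nat_lit 0) (XT.lf (nat_lit 0) (nat_lit 10524502888) (nat_lit 84) (nat_lit 57840459818) (nat_lit 84) (nat_lit 8240464273) (nat_lit 5) (nat_lit 4) (nat_lit 6) (nat_lit 5) (nat_lit 6) (nat_lit 4) (nat_lit 414) (nat_lit 291) (nat_lit 159)) (XT.lf (nat_lit 0) (nat_lit 18343814800) (nat_lit 84) (nat_lit 55058430973) (nat_lit 84) (nat_lit 5431443699) (nat_lit 5) (nat_lit 4) (nat_lit 6) (nat_lit 5) (nat_lit 6) (nat_lit 4) (nat_lit 415) (nat_lit 291) (nat_lit 158))))) (XT.nd (nat_lit 282) (nat_lit 0) (nat_lit 0) (XT.nd (nat_lit 94) (nat_lit 84) (nat_lit 0) (XT.lf (nat_lit 0) (nat_lit 26397902471) (nat_lit 84) (nat_lit 52193221048) (nat_lit 84) (nat_lit 2540053629) (nat_lit 5) (nat_lit 4) (nat_lit 6) (nat_lit 5) (nat_lit 6) (nat_lit 4) (nat_lit 416) (nat_lit 291) (nat_lit 157)) (XT.nd (nat_lit 94) (nat_lit 0) (nat_lit 0) (XT.lf (nat_lit 0) (nat_lit 427608507) (nat_lit 168) (nat_lit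 48810087502) (nat_lit 84) (nat_lit 34262201292) (nat_lit 4) (nat_lit 5) (nat_lit 6) (nat_lit 5) (nat_lit 5) (nat_lit 4) (nat_lit 417) (nat_lit 291) (nat_lit 156)) (XT.lf (nat_lit 0) (nat_lit 3430163408) (nat_lit 168) (nat_lit 42736527948) (nat_lit 84) (nat_lit 39774692659) (nat_lit 4) (nat_lit 5) (nat_lit 6) (nat_lit 5) (nat_lit 5) (nat_lit 4) (nat_lit 418) (nat_lit 291) (nat_lit 155)))) (XT.nd (nat_lit 94) (nat_lit 0) (nat_lit 0) (XT.lf (nat_lit 0) (nat_lit 6521586188) (nat_lit 168) (nat_lit 36481737177) (nat_lit 84) (nat_lit 45455370776) (nat_lit 4) (nat_lit 5) (nat_lit 6) (nat_lit 5) (nat_lit 5) (nat_lit 4) (nat_lit 419) (nat_lit 291) (nat_lit 154)) (XT.nd (nat_lit 94) (nat_lit 0) (nat_lit 0) (XT.lf (nat_lit 0) (nat_lit 9704758377) (nat_lit 168) (nat_lit 30039885067) (nat_lit 84) (nat_lit 51309530630) (nat_lit 4) (nat_lit 5) (nat_lit 6) (nat_lit 5) (nat_lit 5) (nat_lit 4) (nat_lit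 420) (nat_lit 291) (nat_lit 153)) (XT.lf (nat_lit 0) (nat_lit 12982647024) (nat_lit 168) (nat_lit 23404967138) (nat_lit 84) (nat_lit 57342628910) (nat_lit 4) (nat_lit 5) (nat_lit 6) (nat_lit 5) (nat_lit 5) (nat_lit 4) (nat_lit 421) (nat_lit 291) (nat_lit 152))))))) (XT.nd (nat_lit 1128) (nat_lit 3948) (nat_lit 0) (XT.nd (nat_lit 564) (nat_lit 1008) (nat_lit 0) (XT.nd (nat_lit 282) (nat_lit 420) (nat_lit 0) (XT.nd (nat_lit 94) (nat_lit 420) (nat_lit 0) (XT.lf (nat_lit 0) (nat_lit 1604395581) (nat_lit 0) (nat_lit 1604395581) (nat_lit 252) (nat_lit 51565641) (nat_lit 204) (nat_lit 5) (nat_lit 204) (nat_lit 3) (nat_lit 207) (nat_lit 3) (nat_lit 292) (nat_lit 292) (nat_lit 280)) (XT.nd (nat_lit 94) (nat_lit 0) (nat_lit 0) (XT.lf (nat_lit 0) (nat_lit 2062495295) (nat_lit 420) (nat_lit 660068210) (nat_lit 420) (nat_lit 3819307282) (nat_lit 199) (nat_lit 3) (nat_lit 204) (nat_lit 3) (nat_lit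 204) (nat_lit 5) (nat_lit 293) (nat_lit 292) (nat_lit 279)) (XT.lf (nat_lit 84) (nat_lit 2069399527) (nat_lit 0) (nat_lit 2156998704) (nat_lit 420) (nat_lit 2339837988) (nat_lit 200) (nat_lit 5) (nat_lit 199) (nat_lit 3) (nat_lit 204) (nat_lit 5) (nat_lit 294) (nat_lit 292) (nat_lit 278)))) (XT.nd (nat_lit 94) (nat_lit 420) (nat_lit 0) (XT.lf (nat_lit 84) (nat_lit 4852698829) (nat_lit 0) (nat_lit 1526507687) (nat_lit 420) (nat_lit 215075260) (nat_lit 200) (nat_lit 5) (nat_lit 199) (nat_lit 3) (nat_lit 204) (nat_lit 5) (nat_lit 295) (nat_lit 292) (nat_lit 277)) (XT.nd (nat_lit 94) (nat_lit 0) (nat_lit 0) (XT.lf (nat_lit 84) (nat_lit 1055120158) (nat_lit 0) (nat_lit 807270842) (nat_lit 504) (nat_lit 4762944062) (nat_lit 195) (nat_lit 5) (nat_lit 194) (nat_lit 5) (nat_lit 200) (nat_lit 5) (nat_lit 296) (nat_lit 292) (nat_lit 276)) (XT.lf (nat_lit 84) (nat_lit 3928034587) (nat_lit 0) (nat_lit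 8157308) (nat_lit 504) (nat_lit 2723519961) (nat_lit 195) (nat_lit 5) (nat_lit 194) (nat_lit 5) (nat_lit 200) (nat_lit 5) (nat_lit 297) (nat_lit 292) (nat_lit 275))))) (XT.nd (nat_lit 282) (nat_lit 588) (nat_lit 0) (XT.nd (nat_lit 94) (nat_lit 504) (nat_lit 0) (XT.lf (nat_lit 84) (nat_lit 142577246) (nat_lit 0) (nat_lit 5862264712) (nat_lit 504) (nat_lit 692908689) (nat_lit 196) (nat_lit 5) (nat_lit 195) (nat_lit 5) (nat_lit 201) (nat_lit 5) (nat_lit 298) (nat_lit 292) (nat_lit 274)) (XT.nd (nat_lit 94) (nat_lit 0) (nat_lit 0) (XT.lf (nat_lit 0) (nat_lit 1323076551) (nat_lit 504) (nat_lit 3635118768) (nat_lit 588) (nat_lit 1780290028) (nat_lit 189) (nat_lit 5) (nat_lit 195) (nat_lit 5) (nat_lit 196) (nat_lit 5) (nat_lit 299) (nat_lit 292) (nat_lit 273)) (XT.lf (nat_lit 0) (nat_lit 3311273464) (nat_lit 504) (nat_lit 678775843) (nat_lit 588) (nat_lit 2792971314) (nat_lit 189) (nat_lit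 5) (nat_lit 195) (nat_lit 5) (nat_lit 196) (nat_lit 5) (nat_lit 300) (nat_lit 292) (nat_lit 272)))) (XT.nd (nat_lit 94) (nat_lit 588) (nat_lit 0) (XT.lf (nat_lit 84) (nat_lit 2371260346) (nat_lit 0) (nat_lit 2939758674) (nat_lit 588) (nat_lit 1519862828) (nat_lit 190) (nat_lit 5) (nat_lit 189) (nat_lit 5) (nat_lit 196) (nat_lit 5) (nat_lit 301) (nat_lit 292) (nat_lit 271)) (XT.nd (nat_lit 94) (nat_lit 0) (nat_lit 0) (XT.lf (nat_lit 0) (nat_lit 416811552) (nat_lit 588) (nat_lit 1401863724) (nat_lit 672) (nat_lit 5063809125) (nat_lit 182) (nat_lit 5) (nat_lit 189) (nat_lit 5) (nat_lit 190) (nat_lit 5) (nat_lit 302) (nat_lit 292) (nat_lit 270)) (XT.lf (nat_lit 84) (nat_lit 1724159649) (nat_lit 0) (nat_lit 604136995) (nat_lit 672) (nat_lit 4608929755) (nat_lit 183) (nat_lit 5) (nat_lit 182) (nat_lit 5) (nat_lit 190) (nat_lit 5) (nat_lit 303) (nat_lit 292) (nat_lit 269)))))) (XT.nd (nat_lit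 564) (nat_lit 1932) (nat_lit 0) (XT.nd (nat_lit 282) (nat_lit 1428) (nat_lit 0) (XT.nd (nat_lit 94) (nat_lit 672) (nat_lit 0) (XT.lf (nat_lit 0) (nat_lit 4251404803) (nat_lit 588) (nat_lit 2070962473) (nat_lit 84) (nat_lit 673122309) (nat_lit 183) (nat_lit 5) (nat_lit 190) (nat_lit 5) (nat_lit 184) (nat_lit 5) (nat_lit 304) (nat_lit 292) (nat_lit 268)) (XT.nd (nat_lit 94) (nat_lit 84) (nat_lit 0) (XT.lf (nat_lit 0) (nat_lit 1138773777) (nat_lit 588) (nat_lit 5046057242) (nat_lit 672) (nat_lit 872593274) (nat_lit 176) (nat_lit 5) (nat_lit 183) (nat_lit 5) (nat_lit 184) (nat_lit 5) (nat_lit 305) (nat_lit 292) (nat_lit 267)) (XT.lf (nat_lit 0) (nat_lit 991247005) (nat_lit 672) (nat_lit 2687145037) (nat_lit 84) (nat_lit 3444254619) (nat_lit 175) (nat_lit 5) (nat_lit 183) (nat_lit 5) (nat_lit 176) (nat_lit 5) (nat_lit 306) (nat_lit 292) (nat_lit 266)))) (XT.nd (nat_lit 94) (nat_lit 756) (nat_lit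 0) (XT.lf (nat_lit 0) (nat_lit 601419882) (nat_lit 672) (nat_lit 2235066931) (nat_lit 756) (nat_lit 4355240924) (nat_lit 167) (nat_lit 5) (nat_lit 175) (nat_lit 5) (nat_lit 176) (nat_lit 5) (nat_lit 307) (nat_lit 292) (nat_lit 265)) (XT.nd (nat_lit 94) (nat_lit 756) (nat_lit 0) (XT.lf (nat_lit 0) (nat_lit 4003055301) (nat_lit 672) (nat_lit 701178380) (nat_lit 756) (nat_lit 2560090564) (nat_lit 167) (nat_lit 5) (nat_lit 175) (nat_lit 5) (nat_lit 176) (nat_lit 5) (nat_lit 308) (nat_lit 292) (nat_lit 264)) (XT.lf (nat_lit 0) (nat_lit 117810161) (nat_lit 756) (nat_lit 6461277073) (nat_lit 840) (nat_lit 761948000) (nat_lit 158) (nat_lit 5) (nat_lit 167) (nat_lit 5) (nat_lit 168) (nat_lit 5) (nat_lit 309) (nat_lit 292) (nat_lit 263))))) (XT.nd (nat_lit 282) (nat_lit 1008) (nat_lit 0) (XT.nd (nat_lit 94) (nat_lit 840) (nat_lit 0) (XT.lf (nat_lit 0) (nat_lit 1051286504) (nat_lit 840) (nat_lit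 3814480616) (nat_lit 84) (nat_lit 2554871758) (nat_lit 157) (nat_lit 5) (nat_lit 167) (nat_lit 5) (nat_lit 158) (nat_lit 5) (nat_lit 310) (nat_lit 292) (nat_lit 262)) (XT.nd (nat_lit 94) (nat_lit 840) (nat_lit 0) (XT.lf (nat_lit 0) (nat_lit 2846503336) (nat_lit 840) (nat_lit 354257450) (nat_lit 84) (nat_lit 4303782348) (nat_lit 157) (nat_lit 5) (nat_lit 167) (nat_lit 5) (nat_lit 158) (nat_lit 5) (nat_lit 311) (nat_lit 292) (nat_lit 261)) (XT.lf (nat_lit 0) (nat_lit 3233373607) (nat_lit 840) (nat_lit 1439429238) (nat_lit 924) (nat_lit 2919263341) (nat_lit 147) (nat_lit 5) (nat_lit 157) (nat_lit 5) (nat_lit 158) (nat_lit 5) (nat_lit 312) (nat_lit 292) (nat_lit 260)))) (XT.nd (nat_lit 94) (nat_lit 1008) (nat_lit 0) (XT.lf (nat_lit 0) (nat_lit 6507912364) (nat_lit 924) (nat_lit 792850762) (nat_lit 84) (nat_lit 383269713) (nat_lit 147) (nat_lit 5) (nat_lit 158) (nat_lit 5) (nat_lit 148) (nat_lit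 5) (nat_lit 313) (nat_lit 292) (nat_lit 259)) (XT.nd (nat_lit 94) (nat_lit 0) (nat_lit 0) (XT.lf (nat_lit 0) (nat_lit 597899889) (nat_lit 1008) (nat_lit 4903814740) (nat_lit 84) (nat_lit 2277508602) (nat_lit 135) (nat_lit 5) (nat_lit 147) (nat_lit 5) (nat_lit 136) (nat_lit 5) (nat_lit 314) (nat_lit 292) (nat_lit 258)) (XT.lf (nat_lit 0) (nat_lit 2357633337) (nat_lit 1008) (nat_lit 1261112414) (nat_lit 84) (nat_lit 4259862934) (nat_lit 135) (nat_lit 5) (nat_lit 147) (nat_lit 5) (nat_lit 136) (nat_lit 5) (nat_lit 315) (nat_lit 292) (nat_lit 257))))))))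
noncomputable def xc96 : XT := (XT.nd (nat_lit 2162) (nat_lit 2688) (nat_lit 0) (XT.nd (nat_lit 1034) (nat_lit 2688) (nat_lit 0) (XT.nd (nat_lit 470) (nat_lit 1176) (nat_lit 0) (XT.nd (nat_lit 188) (nat_lit 1680) (nat_lit 0) (XT.nd (nat_lit 94) (nat_lit 0) (nat_lit 0) (XT.lf (nat_lit 0) (nat_lit 2500189896) (nat_lit 1008) (nat_lit 1644919627) (nat_lit 1092) (nat_lit 3837016507) (nat_lit 123) (nat_lit 5) (nat_lit 135) (nat_lit 5) (nat_lit 136) (nat_lit 5) (nat_lit 316) (nat_lit 292) (nat_lit 256)) (XT.lf (nat_lit 0) (nat_lit 5954729098) (nat_lit 1092) (nat_lit 1733706535) (nat_lit 84) (nat_lit 401661356) (nat_lit 123) (nat_lit 5) (nat_lit 136) (nat_lit 5) (nat_lit 124) (nat_lit 5) (nat_lit 317) (nat_lit 292) (nat_lit 255))) (XT.nd (nat_lit 94) (nat_lit 588) (nat_lit 0) (XT.lf (nat_lit 0) (nat_lit 2111741838) (nat_lit 1092) (nat_lit 5697557726) (nat_lit 1176) (nat_lit 392667893) (nat_lit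 110) (nat_lit 5) (nat_lit 123) (nat_lit 5) (nat_lit 124) (nat_lit 5) (nat_lit 318) (nat_lit 292) (nat_lit 254)) (XT.nd (nat_lit 94) (nat_lit 504) (nat_lit 0) (XT.lf (nat_lit 0) (nat_lit 1345474537) (nat_lit 1176) (nat_lit 2263146041) (nat_lit 84) (nat_lit 4709387214) (nat_lit 109) (nat_lit 5) (nat_lit 123) (nat_lit 5) (nat_lit 110) (nat_lit 5) (nat_lit 319) (nat_lit 292) (nat_lit 253)) (XT.lf (nat_lit 0) (nat_lit 1668091144) (nat_lit 504) (nat_lit 1430685698) (nat_lit 588) (nat_lit 5339880320) (nat_lit 103) (nat_lit 5) (nat_lit 109) (nat_lit 5) (nat_lit 110) (nat_lit 5) (nat_lit 320) (nat_lit 292) (nat_lit 252))))) (XT.nd (nat_lit 282) (nat_lit 588) (nat_lit 0) (XT.nd (nat_lit 94) (nat_lit 588) (nat_lit 0) (XT.lf (nat_lit 0) (nat_lit 4892273351) (nat_lit 588) (nat_lit 2846730154) (nat_lit 84) (nat_lit 824665125) (nat_lit 103) (nat_lit 5) (nat_lit 110) (nat_lit 5) (nat_lit 104) (nat_lit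 5) (nat_lit 321) (nat_lit 292) (nat_lit 251)) (XT.nd (nat_lit 94) (nat_lit 0) (nat_lit 0) (XT.lf (nat_lit 0) (nat_lit 1163652315) (nat_lit 588) (nat_lit 5559173395) (nat_lit 672) (nat_lit 1970482124) (nat_lit 96) (nat_lit 5) (nat_lit 103) (nat_lit 5) (nat_lit 104) (nat_lit 5) (nat_lit 322) (nat_lit 292) (nat_lit 250)) (XT.lf (nat_lit 0) (nat_lit 5315245563) (nat_lit 588) (nat_lit 3280788453) (nat_lit 672) (nat_lit 231540886) (nat_lit 96) (nat_lit 5) (nat_lit 103) (nat_lit 5) (nat_lit 104) (nat_lit 5) (nat_lit 323) (nat_lit 292) (nat_lit 249)))) (XT.nd (nat_lit 94) (nat_lit 0) (nat_lit 0) (XT.lf (nat_lit 0) (nat_lit 582581847) (nat_lit 504) (nat_lit 909961797) (nat_lit 588) (nat_lit 7474299004) (nat_lit 89) (nat_lit 5) (nat_lit 95) (nat_lit 5) (nat_lit 96) (nat_lit 5) (nat_lit 324) (nat_lit 292) (nat_lit 248)) (XT.nd (nat_lit 94) (nat_lit 0) (nat_lit 0) (XT.lf (nat_lit 0) (nat_lit 3275302209)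 (nat_lit 588) (nat_lit 4292584953) (nat_lit 84) (nat_lit 1542313120) (nat_lit 89) (nat_lit 5) (nat_lit 96) (nat_lit 5) (nat_lit 90) (nat_lit 5) (nat_lit 325) (nat_lit 292) (nat_lit 247)) (XT.lf (nat_lit 0) (nat_lit 5081682079) (nat_lit 588) (nat_lit 126268644) (nat_lit 84) (nat_lit 4051184674) (nat_lit 89) (nat_lit 5) (nat_lit 96) (nat_lit 5) (nat_lit 90) (nat_lit 5) (nat_lit 326) (nat_lit 292) (nat_lit 246)))))) (XT.nd (nat_lit 564) (nat_lit 1260) (nat_lit 0) (XT.nd (nat_lit 282) (nat_lit 420) (nat_lit 0) (XT.nd (nat_lit 94) (nat_lit 504) (nat_lit 0) (XT.lf (nat_lit 0) (nat_lit 4212470392) (nat_lit 504) (nat_lit 2733657891) (nat_lit 588) (nat_lit 2466642933) (nat_lit 83) (nat_lit 5) (nat_lit 89) (nat_lit 5) (nat_lit 90) (nat_lit 5) (nat_lit 327) (nat_lit 292) (nat_lit 245)) (XT.nd (nat_lit 94) (nat_lit 504) (nat_lit 0) (XT.lf (nat_lit 0) (nat_lit 8647203413) (nat_lit 504) (nat_lit 183552961)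 (nat_lit 588) (nat_lit 741722861) (nat_lit 83) (nat_lit 5) (nat_lit 89) (nat_lit 5) (nat_lit 90) (nat_lit 5) (nat_lit 328) (nat_lit 292) (nat_lit 244)) (XT.lf (nat_lit 0) (nat_lit 1036929964) (nat_lit 504) (nat_lit 6260085456) (nat_lit 84) (nat_lit 2439283335) (nat_lit 77) (nat_lit 5) (nat_lit 83) (nat_lit 5) (nat_lit 78) (nat_lit 5) (nat_lit 329) (nat_lit 292) (nat_lit 243)))) (XT.nd (nat_lit 94) (nat_lit 420) (nat_lit 0) (XT.lf (nat_lit 0) (nat_lit 2829382913) (nat_lit 504) (nat_lit 1922414856) (nat_lit 84) (nat_lit 5154098440) (nat_lit 77) (nat_lit 5) (nat_lit 83) (nat_lit 5) (nat_lit 78) (nat_lit 5) (nat_lit 330) (nat_lit 292) (nat_lit 242)) (XT.nd (nat_lit 94) (nat_lit 0) (nat_lit 0) (XT.lf (nat_lit 0) (nat_lit 2560854099) (nat_lit 420) (nat_lit 2105516430) (nat_lit 504) (nat_lit 5414849541) (nat_lit 72) (nat_lit 5) (nat_lit 77) (nat_lit 5) (nat_lit 78) (nat_lit 5) (nat_lit 331)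 (nat_lit 292) (nat_lit 241)) (XT.lf (nat_lit 0) (nat_lit 6550974289) (nat_lit 504) (nat_lit 3085125199) (nat_lit 84) (nat_lit 626291822) (nat_lit 72) (nat_lit 5) (nat_lit 78) (nat_lit 5) (nat_lit 73) (nat_lit 5) (nat_lit 332) (nat_lit 292) (nat_lit 240))))) (XT.nd (nat_lit 282) (nat_lit 336) (nat_lit 0) (XT.nd (nat_lit 94) (nat_lit 504) (nat_lit 0) (XT.lf (nat_lit 0) (nat_lit 1455393212) (nat_lit 420) (nat_lit 7039875526) (nat_lit 504) (nat_lit 1953990209) (nat_lit 67) (nat_lit 5) (nat_lit 72) (nat_lit 5) (nat_lit 73) (nat_lit 5) (nat_lit 333) (nat_lit 292) (nat_lit 239)) (XT.nd (nat_lit 94) (nat_lit 504) (nat_lit 0) (XT.lf (nat_lit 0) (nat_lit 6162472450) (nat_lit 420) (nat_lit 4335512717) (nat_lit 504) (nat_lit 144107502) (nat_lit 67) (nat_lit 5) (nat_lit 72) (nat_lit 5) (nat_lit 73) (nat_lit 5) (nat_lit 334) (nat_lit 292) (nat_lit 238)) (XT.lf (nat_lit 0) (nat_lit 120712769) (nat_lit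 420) (nat_lit 1534196724) (nat_lit 504) (nat_lit 9186574851) (nat_lit 61) (nat_lit 5) (nat_lit 66) (nat_lit 5) (nat_lit 67) (nat_lit 5) (nat_lit 335) (nat_lit 292) (nat_lit 237)))) (XT.nd (nat_lit 94) (nat_lit 336) (nat_lit 0) (XT.lf (nat_lit 0) (nat_lit 3534455375) (nat_lit 504) (nat_lit 6142242732) (nat_lit 84) (nat_lit 1369558693) (nat_lit 61) (nat_lit 5) (nat_lit 67) (nat_lit 5) (nat_lit 62) (nat_lit 5) (nat_lit 336) (nat_lit 292) (nat_lit 236)) (XT.nd (nat_lit 94) (nat_lit 336) (nat_lit 0) (XT.lf (nat_lit 0) (nat_lit 5456033173) (nat_lit 504) (nat_lit 1476145008) (nat_lit 84) (nat_lit 4325804770) (nat_lit 61) (nat_lit 5) (nat_lit 67) (nat_lit 5) (nat_lit 62) (nat_lit 5) (nat_lit 337) (nat_lit 292) (nat_lit 235)) (XT.lf (nat_lit 0) (nat_lit 3364885250) (nat_lit 336) (nat_lit 4074709404) (nat_lit 420) (nat_lit 4036702510) (nat_lit 57) (nat_lit 5) (nat_lit 61) (nat_lit 5) (nat_lit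 62) (nat_lit 5) (nat_lit 338) (nat_lit 292) (nat_lit 234))))))) (XT.nd (nat_lit 1128) (nat_lit 1008) (nat_lit 0) (XT.nd (nat_lit 564) (nat_lit 924) (nat_lit 0) (XT.nd (nat_lit 282) (nat_lit 336) (nat_lit 0) (XT.nd (nat_lit 94) (nat_lit 420) (nat_lit 0) (XT.lf (nat_lit 0) (nat_lit 8350149281) (nat_lit 336) (nat_lit 1119502591) (nat_lit 420) (nat_lit 2232288502) (nat_lit 57) (nat_lit 5) (nat_lit 61) (nat_lit 5) (nat_lit 62) (nat_lit 5) (nat_lit 339) (nat_lit 292) (nat_lit 233)) (XT.nd (nat_lit 94) (nat_lit 84) (nat_lit 0) (XT.lf (nat_lit 0) (nat_lit 1530129346) (nat_lit 336) (nat_lit 10037256600) (nat_lit 420) (nat_lit 367139001) (nat_lit 53) (nat_lit 5) (nat_lit 57) (nat_lit 5) (nat_lit 58) (nat_lit 5) (nat_lit 340) (nat_lit 292) (nat_lit 232)) (XT.lf (nat_lit 0) (nat_lit 1541863868) (nat_lit 420) (nat_lit 5603308005) (nat_lit 84) (nat_lit 5028218511) (nat_lit 52) (nat_lit 5) (nat_lit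 57) (nat_lit 5) (nat_lit 53) (nat_lit 5) (nat_lit 341) (nat_lit 292) (nat_lit 231)))) (XT.nd (nat_lit 94) (nat_lit 336) (nat_lit 0) (XT.lf (nat_lit 0) (nat_lit 3473890603) (nat_lit 420) (nat_lit 693297552) (nat_lit 84) (nat_lit 8253325822) (nat_lit 52) (nat_lit 5) (nat_lit 57) (nat_lit 5) (nat_lit 53) (nat_lit 5) (nat_lit 342) (nat_lit 292) (nat_lit 230)) (XT.nd (nat_lit 94) (nat_lit 0) (nat_lit 0) (XT.lf (nat_lit 0) (nat_lit 4422967400) (nat_lit 336) (nat_lit 1059048069) (nat_lit 420) (nat_lit 7192863340) (nat_lit 48) (nat_lit 5) (nat_lit 52) (nat_lit 5) (nat_lit 53) (nat_lit 5) (nat_lit 343) (nat_lit 292) (nat_lit 229)) (XT.lf (nat_lit 0) (nat_lit 7553727764) (nat_lit 420) (nat_lit 3281289580) (nat_lit 84) (nat_lit 2102150487) (nat_lit 48) (nat_lit 5) (nat_lit 53) (nat_lit 5) (nat_lit 49) (nat_lit 5) (nat_lit 344) (nat_lit 292) (nat_lit 228))))) (XT.nd (nat_lit 282) (nat_lit 504) (nat_lit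 0) (XT.nd (nat_lit 94) (nat_lit 84) (nat_lit 0) (XT.lf (nat_lit 0) (nat_lit 1835069808) (nat_lit 336) (nat_lit 7857190480) (nat_lit 420) (nat_lit 3515324882) (nat_lit 44) (nat_lit 5) (nat_lit 48) (nat_lit 5) (nat_lit 49) (nat_lit 5) (nat_lit 345) (nat_lit 292) (nat_lit 227)) (XT.nd (nat_lit 94) (nat_lit 84) (nat_lit 0) (XT.lf (nat_lit 0) (nat_lit 7145454447) (nat_lit 336) (nat_lit 4759900510) (nat_lit 420) (nat_lit 1580849720) (nat_lit 44) (nat_lit 5) (nat_lit 48) (nat_lit 5) (nat_lit 49) (nat_lit 5) (nat_lit 346) (nat_lit 292) (nat_lit 226)) (XT.lf (nat_lit 0) (nat_lit 379730578) (nat_lit 420) (nat_lit 1190816181) (nat_lit 84) (nat_lit 12203649939) (nat_lit 43) (nat_lit 5) (nat_lit 48) (nat_lit 5) (nat_lit 44) (nat_lit 5) (nat_lit 347) (nat_lit 292) (nat_lit 225)))) (XT.nd (nat_lit 94) (nat_lit 252) (nat_lit 0) (XT.lf (nat_lit 0) (nat_lit 2402239647) (nat_lit 336) (nat_lit 9934138442)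 (nat_lit 84) (nat_lit 1733252433) (nat_lit 40) (nat_lit 5) (nat_lit 44) (nat_lit 5) (nat_lit 41) (nat_lit 5) (nat_lit 348) (nat_lit 292) (nat_lit 224)) (XT.nd (nat_lit 94) (nat_lit 252) (nat_lit 0) (XT.lf (nat_lit 0) (nat_lit 4491647186) (nat_lit 336) (nat_lit 4770976917) (nat_lit 84) (nat_lit 5111535313) (nat_lit 40) (nat_lit 5) (nat_lit 44) (nat_lit 5) (nat_lit 41) (nat_lit 5) (nat_lit 349) (nat_lit 292) (nat_lit 223)) (XT.lf (nat_lit 0) (nat_lit 530823170) (nat_lit 252) (nat_lit 6096584139) (nat_lit 336) (nat_lit 8061357224) (nat_lit 37) (nat_lit 5) (nat_lit 40) (nat_lit 5) (nat_lit 41) (nat_lit 5) (nat_lit 350) (nat_lit 292) (nat_lit 222)))))) (XT.nd (nat_lit 564) (nat_lit 420) (nat_lit 0) (XT.nd (nat_lit 282) (nat_lit 336) (nat_lit 0) (XT.nd (nat_lit 94) (nat_lit 252) (nat_lit 0) (XT.lf (nat_lit 0) (nat_lit 6066332042) (nat_lit 252) (nat_lit 2789555086) (nat_lit 336) (nat_lit 6156476319)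 (nat_lit 37) (nat_lit 5) (nat_lit 40) (nat_lit 5) (nat_lit 41) (nat_lit 5) (nat_lit 351) (nat_lit 292) (nat_lit 221)) (XT.nd (nat_lit 94) (nat_lit 252) (nat_lit 0) (XT.lf (nat_lit 0) (nat_lit 11136930565) (nat_lit 336) (nat_lit 3610215442) (nat_lit 84) (nat_lit 599421013) (nat_lit 37) (nat_lit 5) (nat_lit 41) (nat_lit 5) (nat_lit 38) (nat_lit 5) (nat_lit 352) (nat_lit 292) (nat_lit 220)) (XT.lf (nat_lit 0) (nat_lit 1869582873) (nat_lit 252) (nat_lit 11644192530) (nat_lit 336) (nat_lit 2176636902) (nat_lit 34) (nat_lit 5) (nat_lit 37) (nat_lit 5) (nat_lit 38) (nat_lit 5) (nat_lit 353) (nat_lit 292) (nat_lit 219)))) (XT.nd (nat_lit 94) (nat_lit 336) (nat_lit 0) (XT.lf (nat_lit 0) (nat_lit 7565533770) (nat_lit 252) (nat_lit 8414824873) (nat_lit 336) (nat_lit 64117790) (nat_lit 34) (nat_lit 5) (nat_lit 37) (nat_lit 5) (nat_lit 38) (nat_lit 5) (nat_lit 354) (nat_lit 292) (nat_lit 218)) (XT.nd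 (nat_lit 94) (nat_lit 252) (nat_lit 0) (XT.lf (nat_lit 0) (nat_lit 2050053421) (nat_lit 336) (nat_lit 3022264398) (nat_lit 84) (nat_lit 11337261262) (nat_lit 33) (nat_lit 5) (nat_lit 37) (nat_lit 5) (nat_lit 34) (nat_lit 5) (nat_lit 355) (nat_lit 292) (nat_lit 217)) (XT.lf (nat_lit 0) (nat_lit 2626901514) (nat_lit 252) (nat_lit 1606982722) (nat_lit 336) (nat_lit 12551978688) (nat_lit 30) (nat_lit 5) (nat_lit 33) (nat_lit 5) (nat_lit 34) (nat_lit 5) (nat_lit 356) (nat_lit 292) (nat_lit 216))))) (XT.nd (nat_lit 282) (nat_lit 252) (nat_lit 0) (XT.nd (nat_lit 94) (nat_lit 168) (nat_lit 0) (XT.lf (nat_lit 0) (nat_lit 6516428785) (nat_lit 336) (nat_lit 8706637996) (nat_lit 84) (nat_lit 1949834109) (nat_lit 30) (nat_lit 5) (nat_lit 34) (nat_lit 5) (nat_lit 31) (nat_lit 5) (nat_lit 357) (nat_lit 292) (nat_lit 215)) (XT.nd (nat_lit 94) (nat_lit 168) (nat_lit 0) (XT.lf (nat_lit 0) (nat_lit 8866425220)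 (nat_lit 336) (nat_lit 3130091881) (nat_lit 84) (nat_lit 5575571705) (nat_lit 30) (nat_lit 5) (nat_lit 34) (nat_lit 5) (nat_lit 31) (nat_lit 5) (nat_lit 358) (nat_lit 292) (nat_lit 214)) (XT.lf (nat_lit 0) (nat_lit 2645109385) (nat_lit 168) (nat_lit 8651252945) (nat_lit 252) (nat_lit 6687117181) (nat_lit 28) (nat_lit 5) (nat_lit 30) (nat_lit 5) (nat_lit 31) (nat_lit 5) (nat_lit 359) (nat_lit 292) (nat_lit 213)))) (XT.nd (nat_lit 94) (nat_lit 252) (nat_lit 0) (XT.lf (nat_lit 0) (nat_lit 8638465880) (nat_lit 168) (nat_lit 5176989948) (nat_lit 252) (nat_lit 4591785164) (nat_lit 28) (nat_lit 5) (nat_lit 30) (nat_lit 5) (nat_lit 31) (nat_lit 5) (nat_lit 360) (nat_lit 292) (nat_lit 212)) (XT.nd (nat_lit 94) (nat_lit 252) (nat_lit 0) (XT.lf (nat_lit 0) (nat_lit 14791202930) (nat_lit 168) (nat_lit 1603161471) (nat_lit 252) (nat_lit 2450386205) (nat_lit 28) (nat_lit 5) (nat_lit 30) (nat_lit 5)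 (nat_lit 31) (nat_lit 5) (nat_lit 361) (nat_lit 292) (nat_lit 211)) (XT.lf (nat_lit 0) (nat_lit 1828917982) (nat_lit 252) (nat_lit 17245286984) (nat_lit 336) (nat_lit 221011090) (nat_lit 25) (nat_lit 5) (nat_lit 28) (nat_lit 5) (nat_lit 29) (nat_lit 5) (nat_lit 362) (nat_lit 292) (nat_lit 210))))))))
noncomputable def xc97 : XT := (XT.nd (nat_lit 2256) (nat_lit 420) (nat_lit 0) (XT.nd (nat_lit 1128) (nat_lit 504) (nat_lit 0) (XT.nd (nat_lit 564) (nat_lit 420) (nat_lit 0) (XT.nd (nat_lit 282) (nat_lit 168) (nat_lit 0) (XT.nd (nat_lit 94) (nat_lit 0) (nat_lit 0) (XT.lf (nat_lit 0) (nat_lit 2077010692) (nat_lit 336) (nat_lit 11842374763) (nat_lit 84) (nat_lit 5838379450) (nat_lit 24) (nat_lit 5) (nat_lit 28) (nat_lit 5) (nat_lit 25) (nat_lit 5) (nat_lit 363) (nat_lit 292) (nat_lit 209)) (XT.nd (nat_lit 94) (nat_lit 0) (nat_lit 0) (XT.lf (nat_lit 0) (nat_lit 4424466349) (nat_lit 336) (nat_lit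 6071855707) (nat_lit 84) (nat_lit 9738834051) (nat_lit 24) (nat_lit 5) (nat_lit 28) (nat_lit 5) (nat_lit 25) (nat_lit 5) (nat_lit 364) (nat_lit 292) (nat_lit 208)) (XT.lf (nat_lit 0) (nat_lit 6827996835) (nat_lit 336) (nat_lit 147169722) (nat_lit 84) (nat_lit 13752736049) (nat_lit 24) (nat_lit 5) (nat_lit 28) (nat_lit 5) (nat_lit 25) (nat_lit 5) (nat_lit 365) (nat_lit 292) (nat_lit 207)))) (XT.nd (nat_lit 94) (nat_lit 0) (nat_lit 0) (XT.lf (nat_lit 0) (nat_lit 6059286744) (nat_lit 168) (nat_lit 3290664624) (nat_lit 252) (nat_lit 11884648952) (nat_lit 22) (nat_lit 5) (nat_lit 24) (nat_lit 5) (nat_lit 25) (nat_lit 5) (nat_lit 366) (nat_lit 292) (nat_lit 206)) (XT.nd (nat_lit 94) (nat_lit 0) (nat_lit 0) (XT.lf (nat_lit 0) (nat_lit 11940658277) (nat_lit 252) (nat_lit 9324936873) (nat_lit 84) (nat_lit 491739084) (nat_lit 22) (nat_lit 5) (nat_lit 25) (nat_lit 5) (nat_lit 23) (nat_lit 5) (nat_lit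 367) (nat_lit 292) (nat_lit 205)) (XT.lf (nat_lit 0) (nat_lit 14629794485) (nat_lit 252) (nat_lit 3350313433) (nat_lit 84) (nat_lit 4315638552) (nat_lit 22) (nat_lit 5) (nat_lit 25) (nat_lit 5) (nat_lit 23) (nat_lit 5) (nat_lit 368) (nat_lit 292) (nat_lit 204))))) (XT.nd (nat_lit 282) (nat_lit 252) (nat_lit 0) (XT.nd (nat_lit 94) (nat_lit 0) (nat_lit 0) (XT.lf (nat_lit 0) (nat_lit 2844071215) (nat_lit 168) (nat_lit 14571365071) (nat_lit 252) (nat_lit 5435039935) (nat_lit 20) (nat_lit 5) (nat_lit 22) (nat_lit 5) (nat_lit 23) (nat_lit 5) (nat_lit 369) (nat_lit 292) (nat_lit 203)) (XT.nd (nat_lit 94) (nat_lit 0) (nat_lit 0) (XT.lf (nat_lit 0) (nat_lit 9278983221) (nat_lit 168) (nat_lit 11028578719) (nat_lit 252) (nat_lit 3114249779) (nat_lit 20) (nat_lit 5) (nat_lit 22) (nat_lit 5) (nat_lit 23) (nat_lit 5) (nat_lit 370) (nat_lit 292) (nat_lit 202)) (XT.lf (nat_lit 0) (nat_lit 15891531279)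 (nat_lit 168) (nat_lit 7383417015) (nat_lit 252) (nat_lit 736388698) (nat_lit 20) (nat_lit 5) (nat_lit 22) (nat_lit 5) (nat_lit 23) (nat_lit 5) (nat_lit 371) (nat_lit 292) (nat_lit 201)))) (XT.nd (nat_lit 94) (nat_lit 168) (nat_lit 0) (XT.lf (nat_lit 0) (nat_lit 1666493202) (nat_lit 252) (nat_lit 1948594314) (nat_lit 84) (nat_lit 21003991004) (nat_lit 19) (nat_lit 5) (nat_lit 22) (nat_lit 5) (nat_lit 20) (nat_lit 5) (nat_lit 372) (nat_lit 292) (nat_lit 200)) (XT.nd (nat_lit 94) (nat_lit 0) (nat_lit 0) (XT.lf (nat_lit 0) (nat_lit 4162396009) (nat_lit 252) (nat_lit 20771938591) (nat_lit 84) (nat_lit 310072602) (nat_lit 17) (nat_lit 5) (nat_lit 20) (nat_lit 5) (nat_lit 18) (nat_lit 5) (nat_lit 373) (nat_lit 292) (nat_lit 199)) (XT.lf (nat_lit 0) (nat_lit 6779618790) (nat_lit 252) (nat_lit 14812807112) (nat_lit 84) (nat_lit 4295361248) (nat_lit 17) (nat_lit 5) (nat_lit 20) (nat_lit 5) (nat_lit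 18) (nat_lit 5) (nat_lit 374) (nat_lit 292) (nat_lit 198)))))) (XT.nd (nat_lit 564) (nat_lit 336) (nat_lit 0) (XT.nd (nat_lit 282) (nat_lit 0) (nat_lit 0) (XT.nd (nat_lit 94) (nat_lit 168) (nat_lit 0) (XT.lf (nat_lit 0) (nat_lit 9464809421) (nat_lit 252) (nat_lit 8689338636) (nat_lit 84) (nat_lit 8397399545) (nat_lit 17) (nat_lit 5) (nat_lit 20) (nat_lit 5) (nat_lit 18) (nat_lit 5) (nat_lit 375) (nat_lit 292) (nat_lit 197)) (XT.nd (nat_lit 94) (nat_lit 168) (nat_lit 0) (XT.lf (nat_lit 0) (nat_lit 12220470780) (nat_lit 252) (nat_lit 2395825448) (nat_lit 84) (nat_lit 12620011025) (nat_lit 17) (nat_lit 5) (nat_lit 20) (nat_lit 5) (nat_lit 18) (nat_lit 5) (nat_lit 376) (nat_lit 292) (nat_lit 196)) (XT.lf (nat_lit 0) (nat_lit 4157360207) (nat_lit 168) (nat_lit 10933052752) (nat_lit 252) (nat_lit 12851012924) (nat_lit 15) (nat_lit 5) (nat_lit 17) (nat_lit 5) (nat_lit 18) (nat_lit 5) (nat_lit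 377) (nat_lit 292) (nat_lit 195)))) (XT.nd (nat_lit 94) (nat_lit 0) (nat_lit 0) (XT.lf (nat_lit 0) (nat_lit 10945491135) (nat_lit 168) (nat_lit 7116637513) (nat_lit 252) (nat_lit 10605902742) (nat_lit 15) (nat_lit 5) (nat_lit 17) (nat_lit 5) (nat_lit 18) (nat_lit 5) (nat_lit 378) (nat_lit 292) (nat_lit 194)) (XT.nd (nat_lit 94) (nat_lit 0) (nat_lit 0) (XT.lf (nat_lit 0) (nat_lit 17925631501) (nat_lit 168) (nat_lit 3188500716) (nat_lit 252) (nat_lit 8303420755) (nat_lit 15) (nat_lit 5) (nat_lit 17) (nat_lit 5) (nat_lit 18) (nat_lit 5) (nat_lit 379) (nat_lit 292) (nat_lit 193)) (XT.lf (nat_lit 0) (nat_lit 24257750347) (nat_lit 252) (nat_lit 5094883629) (nat_lit 84) (nat_lit 837792344) (nat_lit 15) (nat_lit 5) (nat_lit 18) (nat_lit 5) (nat_lit 16) (nat_lit 4) (nat_lit 380) (nat_lit 292) (nat_lit 192))))) (XT.nd (nat_lit 282) (nat_lit 168) (nat_lit 0) (XT.nd (nat_lit 94) (nat_lit 84) (nat_lit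 0) (XT.lf (nat_lit 0) (nat_lit 1480032820) (nat_lit 84) (nat_lit 26054885031) (nat_lit 168) (nat_lit 3451244841) (nat_lit 14) (nat_lit 5) (nat_lit 15) (nat_lit 5) (nat_lit 16) (nat_lit 4) (nat_lit 381) (nat_lit 292) (nat_lit 191)) (XT.nd (nat_lit 94) (nat_lit 84) (nat_lit 0) (XT.lf (nat_lit 0) (nat_lit 8349321038) (nat_lit 84) (nat_lit 22606504319) (nat_lit 168) (nat_lit 849457222) (nat_lit 14) (nat_lit 5) (nat_lit 15) (nat_lit 5) (nat_lit 16) (nat_lit 4) (nat_lit 382) (nat_lit 292) (nat_lit 190)) (XT.lf (nat_lit 0) (nat_lit 1785224017) (nat_lit 168) (nat_lit 17253599632) (nat_lit 84) (nat_lit 13610764569) (nat_lit 13) (nat_lit 5) (nat_lit 15) (nat_lit 5) (nat_lit 14) (nat_lit 5) (nat_lit 383) (nat_lit 292) (nat_lit 189)))) (XT.nd (nat_lit 94) (nat_lit 168) (nat_lit 0) (XT.lf (nat_lit 0) (nat_lit 4473429606) (nat_lit 168) (nat_lit 10884314131) (nat_lit 84) (nat_lit 18162400262) (nat_lit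 13) (nat_lit 5) (nat_lit 15) (nat_lit 5) (nat_lit 14) (nat_lit 5) (nat_lit 384) (nat_lit 292) (nat_lit 188)) (XT.nd (nat_lit 94) (nat_lit 168) (nat_lit 0) (XT.lf (nat_lit 0) (nat_lit 7234779904) (nat_lit 168) (nat_lit 4333741478) (nat_lit 84) (nat_lit 22849501219) (nat_lit 13) (nat_lit 5) (nat_lit 15) (nat_lit 5) (nat_lit 14) (nat_lit 5) (nat_lit 385) (nat_lit 292) (nat_lit 187)) (XT.lf (nat_lit 0) (nat_lit 2453659926) (nat_lit 168) (nat_lit 7642529463) (nat_lit 252) (nat_lit 25247116992) (nat_lit 11) (nat_lit 5) (nat_lit 13) (nat_lit 5) (nat_lit 14) (nat_lit 5) (nat_lit 386) (nat_lit 292) (nat_lit 186))))))) (XT.nd (nat_lit 1128) (nat_lit 84) (nat_lit 0) (XT.nd (nat_lit 564) (nat_lit 252) (nat_lit 0) (XT.nd (nat_lit 282) (nat_lit 84) (nat_lit 0) (XT.nd (nat_lit 94) (nat_lit 0) (nat_lit 0) (XT.lf (nat_lit 0) (nat_lit 9527827730) (nat_lit 168) (nat_lit 3553970176) (nat_lit 252) (nat_lit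 23214394241) (nat_lit 11) (nat_lit 5) (nat_lit 13) (nat_lit 5) (nat_lit 14) (nat_lit 5) (nat_lit 387) (nat_lit 292) (nat_lit 185)) (XT.nd (nat_lit 94) (nat_lit 0) (nat_lit 0) (XT.lf (nat_lit 0) (nat_lit 16157018059) (nat_lit 252) (nat_lit 20479187980) (nat_lit 84) (nat_lit 642520529) (nat_lit 11) (nat_lit 5) (nat_lit 14) (nat_lit 5) (nat_lit 12) (nat_lit 4) (nat_lit 388) (nat_lit 292) (nat_lit 184)) (XT.lf (nat_lit 0) (nat_lit 19354701769) (nat_lit 252) (nat_lit 14046240466) (nat_lit 84) (nat_lit 4889953681) (nat_lit 11) (nat_lit 5) (nat_lit 14) (nat_lit 5) (nat_lit 12) (nat_lit 4) (nat_lit 389) (nat_lit 292) (nat_lit 183)))) (XT.nd (nat_lit 94) (nat_lit 84) (nat_lit 0) (XT.lf (nat_lit 0) (nat_lit 22642573790) (nat_lit 252) (nat_lit 7428269872) (nat_lit 84) (nat_lit 9263892911) (nat_lit 11) (nat_lit 5) (nat_lit 14) (nat_lit 5) (nat_lit 12) (nat_lit 4) (nat_lit 390) (nat_lit 292) (nat_lit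 182)) (XT.nd (nat_lit 94) (nat_lit 84) (nat_lit 0) (XT.lf (nat_lit 0) (nat_lit 26023698763) (nat_lit 252) (nat_lit 619107556) (nat_lit 84) (nat_lit 13768415187) (nat_lit 11) (nat_lit 5) (nat_lit 14) (nat_lit 5) (nat_lit 12) (nat_lit 4) (nat_lit 391) (nat_lit 292) (nat_lit 181)) (XT.lf (nat_lit 0) (nat_lit 6518935354) (nat_lit 84) (nat_lit 23046961541) (nat_lit 168) (nat_lit 11953452488) (nat_lit 10) (nat_lit 5) (nat_lit 11) (nat_lit 5) (nat_lit 12) (nat_lit 4) (nat_lit 392) (nat_lit 292) (nat_lit 180))))) (XT.nd (nat_lit 282) (nat_lit 252) (nat_lit 0) (XT.nd (nat_lit 94) (nat_lit 0) (nat_lit 0) (XT.lf (nat_lit 0) (nat_lit 13877974029) (nat_lit 84) (nat_lit 19338100864) (nat_lit 168) (nat_lit 9445826449) (nat_lit 10) (nat_lit 5) (nat_lit 11) (nat_lit 5) (nat_lit 12) (nat_lit 4) (nat_lit 393) (nat_lit 292) (nat_lit 179)) (XT.nd (nat_lit 94) (nat_lit 0) (nat_lit 0) (XT.lf (nat_lit 0) (nat_lit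 21452137741) (nat_lit 84) (nat_lit 15519229455) (nat_lit 168) (nat_lit 6868769469) (nat_lit 10) (nat_lit 5) (nat_lit 11) (nat_lit 5) (nat_lit 12) (nat_lit 4) (nat_lit 394) (nat_lit 292) (nat_lit 178)) (XT.lf (nat_lit 0) (nat_lit 29248486405) (nat_lit 84) (nat_lit 11586787725) (nat_lit 168) (nat_lit 4219879461) (nat_lit 10) (nat_lit 5) (nat_lit 11) (nat_lit 5) (nat_lit 12) (nat_lit 4) (nat_lit 395) (nat_lit 292) (nat_lit 177)))) (XT.nd (nat_lit 94) (nat_lit 252) (nat_lit 0) (XT.lf (nat_lit 0) (nat_lit 37274287034) (nat_lit 84) (nat_lit 7537110227) (nat_lit 168) (nat_lit 1496687382) (nat_lit 10) (nat_lit 5) (nat_lit 11) (nat_lit 5) (nat_lit 12) (nat_lit 4) (nat_lit 396) (nat_lit 292) (nat_lit 176)) (XT.nd (nat_lit 94) (nat_lit 168) (nat_lit 0) (XT.lf (nat_lit 0) (nat_lit 1277085569) (nat_lit 168) (nat_lit 2076006514) (nat_lit 84) (nat_lit 44246604792) (nat_lit 9) (nat_lit 5) (nat_lit 11)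 (nat_lit 5) (nat_lit 10) (nat_lit 5) (nat_lit 397) (nat_lit 292) (nat_lit 175)) (XT.lf (nat_lit 0) (nat_lit 4160054222) (nat_lit 252) (nat_lit 43764928932) (nat_lit 84) (nat_lit 1004221000) (nat_lit 7) (nat_lit 5) (nat_lit 10) (nat_lit 5) (nat_lit 8) (nat_lit 4) (nat_lit 398) (nat_lit 292) (nat_lit 174)))))) (XT.nd (nat_lit 564) (nat_lit 84) (nat_lit 0) (XT.nd (nat_lit 282) (nat_lit 0) (nat_lit 0) (XT.nd (nat_lit 94) (nat_lit 0) (nat_lit 0) (XT.lf (nat_lit 0) (nat_lit 7181435206) (nat_lit 252) (nat_lit 37672495712) (nat_lit 84) (nat_lit 5444487461) (nat_lit 7) (nat_lit 5) (nat_lit 10) (nat_lit 5) (nat_lit 8) (nat_lit 4) (nat_lit 399) (nat_lit 292) (nat_lit 173)) (XT.nd (nat_lit 94) (nat_lit 0) (nat_lit 0) (XT.lf (nat_lit 0) (nat_lit 10289549013) (nat_lit 252) (nat_lit 31402585395) (nat_lit 84) (nat_lit 10018170760) (nat_lit 7) (nat_lit 5) (nat_lit 10) (nat_lit 5) (nat_lit 8) (nat_lit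 4) (nat_lit 400) (nat_lit 292) (nat_lit 172)) (XT.lf (nat_lit 0) (nat_lit 13487292730) (nat_lit 252) (nat_lit 24949353769) (nat_lit 84) (nat_lit 14729534050) (nat_lit 7) (nat_lit 5) (nat_lit 10) (nat_lit 5) (nat_lit 8) (nat_lit 4) (nat_lit 401) (nat_lit 292) (nat_lit 171)))) (XT.nd (nat_lit 94) (nat_lit 0) (nat_lit 0) (XT.lf (nat_lit 0) (nat_lit 16777646990) (nat_lit 252) (nat_lit 18306785745) (nat_lit 84) (nat_lit 19582968814) (nat_lit 7) (nat_lit 5) (nat_lit 10) (nat_lit 5) (nat_lit 8) (nat_lit 4) (nat_lit 402) (nat_lit 292) (nat_lit 170)) (XT.nd (nat_lit 94) (nat_lit 0) (nat_lit 0) (XT.lf (nat_lit 0) (nat_lit 20163678747) (nat_lit 252) (nat_lit 11468689755) (nat_lit 84) (nat_lit 24582998964) (nat_lit 7) (nat_lit 5) (nat_lit 10) (nat_lit 5) (nat_lit 8) (nat_lit 4) (nat_lit 403) (nat_lit 292) (nat_lit 169)) (XT.lf (nat_lit 0) (nat_lit 23648544138) (nat_lit 252) (nat_lit 4428691975)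 (nat_lit 84) (nat_lit 29734285049) (nat_lit 7) (nat_lit 5) (nat_lit 10) (nat_lit 5) (nat_lit 8) (nat_lit 4) (nat_lit 404) (nat_lit 292) (nat_lit 168))))) (XT.nd (nat_lit 282) (nat_lit 0) (nat_lit 0) (XT.nd (nat_lit 94) (nat_lit 0) (nat_lit 0) (XT.lf (nat_lit 0) (nat_lit 2877749854) (nat_lit 84) (nat_lit 24386289203) (nat_lit 168) (nat_lit 32192426390) (nat_lit 6) (nat_lit 5) (nat_lit 7) (nat_lit 5) (nat_lit 8) (nat_lit 4) (nat_lit 405) (nat_lit 292) (nat_lit 167)) (XT.nd (nat_lit 94) (nat_lit 0) (nat_lit 0) (XT.lf (nat_lit 0) (nat_lit 10494900170) (nat_lit 84) (nat_lit 20537074548) (nat_lit 168) (nat_lit 30119187183) (nat_lit 6) (nat_lit 5) (nat_lit 7) (nat_lit 5) (nat_lit 8) (nat_lit 4) (nat_lit 406) (nat_lit 292) (nat_lit 166)) (XT.lf (nat_lit 0) (nat_lit 18338795966) (nat_lit 84) (nat_lit 16572230740) (nat_lit 168) (nat_lit 27987553387) (nat_lit 6) (nat_lit 5) (nat_lit 7) (nat_lit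 5) (nat_lit 8) (nat_lit 4) (nat_lit 407) (nat_lit 292) (nat_lit 165)))) (XT.nd (nat_lit 94) (nat_lit 0) (nat_lit 0) (XT.lf (nat_lit 0) (nat_lit 26416748573) (nat_lit 84) (nat_lit 12488062128) (nat_lit 168) (nat_lit 25795538098) (nat_lit 6) (nat_lit 5) (nat_lit 7) (nat_lit 5) (nat_lit 8) (nat_lit 4) (nat_lit 408) (nat_lit 292) (nat_lit 164)) (XT.nd (nat_lit 94) (nat_lit 0) (nat_lit 0) (XT.lf (nat_lit 0) (nat_lit 34736287489) (nat_lit 84) (nat_lit 8280761840) (nat_lit 168) (nat_lit 23541098128) (nat_lit 6) (nat_lit 5) (nat_lit 7) (nat_lit 5) (nat_lit 8) (nat_lit 4) (nat_lit 409) (nat_lit 292) (nat_lit 163)) (XT.lf (nat_lit 0) (nat_lit 43305167397) (nat_lit 84) (nat_lit 3946408231) (nat_lit 168) (nat_lit 21222132102) (nat_lit 6) (nat_lit 5) (nat_lit 7) (nat_lit 5) (nat_lit 8) (nat_lit 4) (nat_lit 410) (nat_lit 292) (nat_lit 162))))))))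
noncomputable def xc98 : XT := (XT.nd (nat_lit 44462) (nat_lit 0) (nat_lit 6132) (XT.nd (nat_lit 43334) (nat_lit 0) (nat_lit 14280) (XT.nd (nat_lit 564) (nat_lit 84) (nat_lit 0) (XT.nd (nat_lit 282) (nat_lit 84) (nat_lit 0) (XT.nd (nat_lit 94) (nat_lit 0) (nat_lit 0) (XT.lf (nat_lit 0) (nat_lit 51617485547) (nat_lit 168) (nat_lit 18322588659) (nat_lit 0) (nat_lit 508581296) (nat_lit 6) (nat_lit 5) (nat_lit 8) (nat_lit 4) (nat_lit 6) (nat_lit 4) (nat_lit 411) (nat_lit 292) (nat_lit 161)) (XT.nd (nat_lit 94) (nat_lit 0) (nat_lit 0) (XT.lf (nat_lit 0) (nat_lit 56154185456) (nat_lit 168) (nat_lit 11312960685) (nat_lit 0) (nat_lit 5016590049) (nat_lit 6) (nat_lit 5) (nat_lit 8) (nat_lit 4) (nat_lit 6) (nat_lit 4) (nat_lit 412) (nat_lit 292) (nat_lit 160)) (XT.lf (nat_lit 0) (nat_lit 60826755175) (nat_lit 168) (nat_lit 4093973845) (nat_lit 0) (nat_lit 9661331295) (nat_lit 6) (nat_lit 5) (nat_lit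 8) (nat_lit 4) (nat_lit 6) (nat_lit 4) (nat_lit 413) (nat_lit 292) (nat_lit 159)))) (XT.nd (nat_lit 94) (nat_lit 0) (nat_lit 0) (XT.lf (nat_lit 0) (nat_lit 3409800595) (nat_lit 84) (nat_lit 62263575078) (nat_lit 84) (nat_lit 11071159469) (nat_lit 5) (nat_lit 4) (nat_lit 6) (nat_lit 5) (nat_lit 6) (nat_lit 4) (nat_lit 414) (nat_lit 292) (nat_lit 158)) (XT.nd (nat_lit 94) (nat_lit 0) (nat_lit 0) (XT.lf (nat_lit 0) (nat_lit 11225359228) (nat_lit 84) (nat_lit 59483053773) (nat_lit 84) (nat_lit 8264458020) (nat_lit 5) (nat_lit 4) (nat_lit 6) (nat_lit 5) (nat_lit 6) (nat_lit 4) (nat_lit 415) (nat_lit 292) (nat_lit 157)) (XT.lf (nat_lit 0) (nat_lit 19275806473) (nat_lit 84) (nat_lit 56619306059) (nat_lit 84) (nat_lit 5375317343) (nat_lit 5) (nat_lit 4) (nat_lit 6) (nat_lit 5) (nat_lit 6) (nat_lit 4) (nat_lit 416) (nat_lit 292) (nat_lit 156))))) (XT.nd (nat_lit 282) (nat_lit 0) (nat_lit 0) (XT.nd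 (nat_lit 94) (nat_lit 84) (nat_lit 0) (XT.lf (nat_lit 0) (nat_lit 27568646191) (nat_lit 84) (nat_lit 53669662622) (nat_lit 84) (nat_lit 2401044456) (nat_lit 5) (nat_lit 4) (nat_lit 6) (nat_lit 5) (nat_lit 6) (nat_lit 4) (nat_lit 417) (nat_lit 292) (nat_lit 155)) (XT.nd (nat_lit 94) (nat_lit 0) (nat_lit 0) (XT.lf (nat_lit 0) (nat_lit 647812617) (nat_lit 168) (nat_lit 49976799634) (nat_lit 84) (nat_lit 35457033724) (nat_lit 4) (nat_lit 5) (nat_lit 6) (nat_lit 5) (nat_lit 5) (nat_lit 4) (nat_lit 418) (nat_lit 292) (nat_lit 154)) (XT.lf (nat_lit 0) (nat_lit 3737224221) (nat_lit 168) (nat_lit 43725375271) (nat_lit 84) (nat_lit 41136422189) (nat_lit 4) (nat_lit 5) (nat_lit 6) (nat_lit 5) (nat_lit 5) (nat_lit 4) (nat_lit 419) (nat_lit 292) (nat_lit 153)))) (XT.nd (nat_lit 42300) (nat_lit 0) (nat_lit 16380) (XT.lf (nat_lit 0) (nat_lit 6918445706) (nat_lit 168) (nat_lit 37286788349) (nat_lit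 84) (nat_lit 46989331166) (nat_lit 4) (nat_lit 5) (nat_lit 6) (nat_lit 5) (nat_lit 5) (nat_lit 4) (nat_lit 420) (nat_lit 292) (nat_lit 152)) (XT.nd (nat_lit 94) (nat_lit 0) (nat_lit 0) (XT.lf (nat_lit 0) (nat_lit 2091543795) (nat_lit 420) (nat_lit 595373702) (nat_lit 420) (nat_lit 595373702) (nat_lit 199) (nat_lit 3) (nat_lit 204) (nat_lit 3) (nat_lit 204) (nat_lit 5) (nat_lit 293) (nat_lit 293) (nat_lit 278)) (XT.lf (nat_lit 84) (nat_lit 1505762672) (nat_lit 0) (nat_lit 4793971697) (nat_lit 420) (nat_lit 290925252) (nat_lit 200) (nat_lit 5) (nat_lit 199) (nat_lit 3) (nat_lit 204) (nat_lit 5) (nat_lit 294) (nat_lit 293) (nat_lit 277)))))) (XT.nd (nat_lit 564) (nat_lit 1176) (nat_lit 0) (XT.nd (nat_lit 282) (nat_lit 504) (nat_lit 0) (XT.nd (nat_lit 94) (nat_lit 0) (nat_lit 0) (XT.lf (nat_lit 0) (nat_lit 1755615487) (nat_lit 420) (nat_lit 2370298946) (nat_lit 504) (nat_lit 2493738525)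 (nat_lit 194) (nat_lit 5) (nat_lit 199) (nat_lit 3) (nat_lit 200) (nat_lit 5) (nat_lit 295) (nat_lit 293) (nat_lit 276)) (XT.nd (nat_lit 94) (nat_lit 0) (nat_lit 0) (XT.lf (nat_lit 84) (nat_lit 389062603) (nat_lit 0) (nat_lit 3393045264) (nat_lit 504) (nat_lit 2870203340) (nat_lit 195) (nat_lit 5) (nat_lit 194) (nat_lit 5) (nat_lit 200) (nat_lit 5) (nat_lit 296) (nat_lit 293) (nat_lit 275)) (XT.lf (nat_lit 84) (nat_lit 3240409214) (nat_lit 0) (nat_lit 2576456087) (nat_lit 504) (nat_lit 871251520) (nat_lit 195) (nat_lit 5) (nat_lit 194) (nat_lit 5) (nat_lit 200) (nat_lit 5) (nat_lit 297) (nat_lit 293) (nat_lit 274)))) (XT.nd (nat_lit 94) (nat_lit 0) (nat_lit 0) (XT.lf (nat_lit 0) (nat_lit 1087577339) (nat_lit 504) (nat_lit 601197401) (nat_lit 588) (nat_lit 5038731014) (nat_lit 188) (nat_lit 5) (nat_lit 194) (nat_lit 5) (nat_lit 195) (nat_lit 5) (nat_lit 298) (nat_lit 293) (nat_lit 273))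 (XT.nd (nat_lit 94) (nat_lit 0) (nat_lit 84) (XT.lf (nat_lit 84) (nat_lit 2328382936) (nat_lit 0) (nat_lit 707974495) (nat_lit 588) (nat_lit 3733519872) (nat_lit 189) (nat_lit 5) (nat_lit 188) (nat_lit 5) (nat_lit 195) (nat_lit 5) (nat_lit 299) (nat_lit 293) (nat_lit 272)) (XT.lf (nat_lit 0) (nat_lit 4981288580) (nat_lit 504) (nat_lit 1500643746) (nat_lit 588) (nat_lit 334014847) (nat_lit 189) (nat_lit 5) (nat_lit 195) (nat_lit 5) (nat_lit 196) (nat_lit 5) (nat_lit 300) (nat_lit 293) (nat_lit 271))))) (XT.nd (nat_lit 282) (nat_lit 672) (nat_lit 0) (XT.nd (nat_lit 94) (nat_lit 0) (nat_lit 0) (XT.lf (nat_lit 0) (nat_lit 70538638) (nat_lit 588) (nat_lit 5355859014) (nat_lit 672) (nat_lit 1438930687) (nat_lit 182) (nat_lit 5) (nat_lit 189) (nat_lit 5) (nat_lit 190) (nat_lit 5) (nat_lit 301) (nat_lit 293) (nat_lit 270)) (XT.nd (nat_lit 94) (nat_lit 0) (nat_lit 0) (XT.lf (nat_lit 0) (nat_lit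 1941751709) (nat_lit 588) (nat_lit 2335688679) (nat_lit 672) (nat_lit 2640279569) (nat_lit 182) (nat_lit 5) (nat_lit 189) (nat_lit 5) (nat_lit 190) (nat_lit 5) (nat_lit 302) (nat_lit 293) (nat_lit 269)) (XT.lf (nat_lit 84) (nat_lit 748851018) (nat_lit 0) (nat_lit 3060918688) (nat_lit 672) (nat_lit 3164210857) (nat_lit 183) (nat_lit 5) (nat_lit 182) (nat_lit 5) (nat_lit 190) (nat_lit 5) (nat_lit 303) (nat_lit 293) (nat_lit 268)))) (XT.nd (nat_lit 94) (nat_lit 672) (nat_lit 0) (XT.lf (nat_lit 84) (nat_lit 3934632160) (nat_lit 0) (nat_lit 1758440689) (nat_lit 672) (nat_lit 1340570842) (nat_lit 183) (nat_lit 5) (nat_lit 182) (nat_lit 5) (nat_lit 190) (nat_lit 5) (nat_lit 304) (nat_lit 293) (nat_lit 267)) (XT.nd (nat_lit 94) (nat_lit 0) (nat_lit 84) (XT.lf (nat_lit 84) (nat_lit 75944803) (nat_lit 0) (nat_lit 387565176) (nat_lit 756) (nat_lit 6633819431) (nat_lit 175) (nat_lit 5) (nat_lit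 174) (nat_lit 5) (nat_lit 183) (nat_lit 5) (nat_lit 305) (nat_lit 293) (nat_lit 266)) (XT.lf (nat_lit 0) (nat_lit 2274304930) (nat_lit 672) (nat_lit 3817492204) (nat_lit 84) (nat_lit 1071737159) (nat_lit 175) (nat_lit 5) (nat_lit 183) (nat_lit 5) (nat_lit 176) (nat_lit 5) (nat_lit 306) (nat_lit 293) (nat_lit 265))))))) (XT.nd (nat_lit 1128) (nat_lit 2688) (nat_lit 0) (XT.nd (nat_lit 564) (nat_lit 3192) (nat_lit 0) (XT.nd (nat_lit 282) (nat_lit 1596) (nat_lit 0) (XT.nd (nat_lit 94) (nat_lit 756) (nat_lit 0) (XT.lf (nat_lit 0) (nat_lit 4082909495) (nat_lit 672) (nat_lit 563160498) (nat_lit 84) (nat_lit 2587827972) (nat_lit 175) (nat_lit 5) (nat_lit 183) (nat_lit 5) (nat_lit 176) (nat_lit 5) (nat_lit 307) (nat_lit 293) (nat_lit 264)) (XT.nd (nat_lit 94) (nat_lit 84) (nat_lit 0) (XT.lf (nat_lit 0) (nat_lit 2805003145) (nat_lit 672) (nat_lit 3109987622) (nat_lit 756) (nat_lit 1392751826)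 (nat_lit 167) (nat_lit 5) (nat_lit 175) (nat_lit 5) (nat_lit 176) (nat_lit 5) (nat_lit 308) (nat_lit 293) (nat_lit 263)) (XT.lf (nat_lit 0) (nat_lit 357560661) (nat_lit 756) (nat_lit 1143031958) (nat_lit 84) (nat_lit 5885099877) (nat_lit 166) (nat_lit 5) (nat_lit 175) (nat_lit 5) (nat_lit 167) (nat_lit 5) (nat_lit 309) (nat_lit 293) (nat_lit 262)))) (XT.nd (nat_lit 94) (nat_lit 840) (nat_lit 0) (XT.lf (nat_lit 0) (nat_lit 2100112469) (nat_lit 840) (nat_lit 5159241624) (nat_lit 84) (nat_lit 207553012) (nat_lit 157) (nat_lit 5) (nat_lit 167) (nat_lit 5) (nat_lit 158) (nat_lit 5) (nat_lit 310) (nat_lit 293) (nat_lit 261)) (XT.nd (nat_lit 94) (nat_lit 840) (nat_lit 0) (XT.lf (nat_lit 0) (nat_lit 3867439339) (nat_lit 840) (nat_lit 1721177148) (nat_lit 84) (nat_lit 1963185569) (nat_lit 157) (nat_lit 5) (nat_lit 167) (nat_lit 5) (nat_lit 158) (nat_lit 5) (nat_lit 311) (nat_lit 293) (nat_lit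 260)) (XT.lf (nat_lit 0) (nat_lit 1816412883) (nat_lit 840) (nat_lit 3836218171) (nat_lit 924) (nat_lit 1988090712) (nat_lit 147) (nat_lit 5) (nat_lit 157) (nat_lit 5) (nat_lit 158) (nat_lit 5) (nat_lit 312) (nat_lit 293) (nat_lit 259))))) (XT.nd (nat_lit 282) (nat_lit 2184) (nat_lit 0) (XT.nd (nat_lit 94) (nat_lit 1008) (nat_lit 0) (XT.lf (nat_lit 0) (nat_lit 5456947069) (nat_lit 840) (nat_lit 2000464202) (nat_lit 924) (nat_lit 276335994) (nat_lit 147) (nat_lit 5) (nat_lit 157) (nat_lit 5) (nat_lit 158) (nat_lit 5) (nat_lit 313) (nat_lit 293) (nat_lit 258)) (XT.nd (nat_lit 94) (nat_lit 0) (nat_lit 0) (XT.lf (nat_lit 0) (nat_lit 1349888910) (nat_lit 924) (nat_lit 69130955) (nat_lit 1008) (nat_lit 6411629311) (nat_lit 135) (nat_lit 5) (nat_lit 146) (nat_lit 5) (nat_lit 147) (nat_lit 5) (nat_lit 314) (nat_lit 293) (nat_lit 257)) (XT.lf (nat_lit 0) (nat_lit 3152655811) (nat_lit 1008) (nat_lit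 2859379558) (nat_lit 84) (nat_lit 1918916537) (nat_lit 135) (nat_lit 5) (nat_lit 147) (nat_lit 5) (nat_lit 136) (nat_lit 5) (nat_lit 315) (nat_lit 293) (nat_lit 256)))) (XT.nd (nat_lit 94) (nat_lit 1176) (nat_lit 0) (XT.lf (nat_lit 0) (nat_lit 847274501) (nat_lit 1008) (nat_lit 4051812734) (nat_lit 1092) (nat_lit 3136759404) (nat_lit 123) (nat_lit 5) (nat_lit 135) (nat_lit 5) (nat_lit 136) (nat_lit 5) (nat_lit 316) (nat_lit 293) (nat_lit 255)) (XT.nd (nat_lit 94) (nat_lit 1176) (nat_lit 0) (XT.lf (nat_lit 0) (nat_lit 4686537996) (nat_lit 1008) (nat_lit 1993986210) (nat_lit 1092) (nat_lit 1464268895) (nat_lit 123) (nat_lit 5) (nat_lit 135) (nat_lit 5) (nat_lit 136) (nat_lit 5) (nat_lit 317) (nat_lit 293) (nat_lit 254)) (XT.lf (nat_lit 0) (nat_lit 211486327) (nat_lit 1176) (nat_lit 7910648128) (nat_lit 84) (nat_lit 136440685) (nat_lit 109) (nat_lit 5) (nat_lit 123) (nat_lit 5) (nat_lit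 110) (nat_lit 5) (nat_lit 318) (nat_lit 293) (nat_lit 253)))))) (XT.nd (nat_lit 564) (nat_lit 1512) (nat_lit 0) (XT.nd (nat_lit 282) (nat_lit 672) (nat_lit 0) (XT.nd (nat_lit 94) (nat_lit 504) (nat_lit 0) (XT.lf (nat_lit 0) (nat_lit 1918520143) (nat_lit 1176) (nat_lit 4109164558) (nat_lit 84) (nat_lit 2347622062) (nat_lit 109) (nat_lit 5) (nat_lit 123) (nat_lit 5) (nat_lit 110) (nat_lit 5) (nat_lit 319) (nat_lit 293) (nat_lit 252)) (XT.nd (nat_lit 94) (nat_lit 504) (nat_lit 0) (XT.lf (nat_lit 0) (nat_lit 3632775039) (nat_lit 1176) (nat_lit 232583892) (nat_lit 84) (nat_lit 4631897809) (nat_lit 109) (nat_lit 5) (nat_lit 123) (nat_lit 5) (nat_lit 110) (nat_lit 5) (nat_lit 320) (nat_lit 293) (nat_lit 251)) (XT.lf (nat_lit 0) (nat_lit 3799253746) (nat_lit 504) (nat_lit 1594284200) (nat_lit 588) (nat_lit 3229832430) (nat_lit 103) (nat_lit 5) (nat_lit 109) (nat_lit 5) (nat_lit 110) (nat_lit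 5) (nat_lit 321) (nat_lit 293) (nat_lit 250)))) (XT.nd (nat_lit 94) (nat_lit 672) (nat_lit 0) (XT.lf (nat_lit 0) (nat_lit 7175375216) (nat_lit 588) (nat_lit 842330988) (nat_lit 84) (nat_lit 736898339) (nat_lit 103) (nat_lit 5) (nat_lit 110) (nat_lit 5) (nat_lit 104) (nat_lit 5) (nat_lit 322) (nat_lit 293) (nat_lit 249)) (XT.nd (nat_lit 94) (nat_lit 0) (nat_lit 0) (XT.lf (nat_lit 0) (nat_lit 126664677) (nat_lit 672) (nat_lit 5619961942) (nat_lit 84) (nat_lit 3143200361) (nat_lit 95) (nat_lit 5) (nat_lit 103) (nat_lit 5) (nat_lit 96) (nat_lit 5) (nat_lit 323) (nat_lit 293) (nat_lit 248)) (XT.lf (nat_lit 0) (nat_lit 1819728433) (nat_lit 672) (nat_lit 1559716852) (nat_lit 84) (nat_lit 5650472639) (nat_lit 95) (nat_lit 5) (nat_lit 103) (nat_lit 5) (nat_lit 96) (nat_lit 5) (nat_lit 324) (nat_lit 293) (nat_lit 247))))) (XT.nd (nat_lit 282) (nat_lit 504) (nat_lit 0) (XT.nd (nat_lit 94) (nat_lit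 504) (nat_lit 0) (XT.lf (nat_lit 0) (nat_lit 2638921655) (nat_lit 504) (nat_lit 911999713) (nat_lit 588) (nat_lit 5624027774) (nat_lit 89) (nat_lit 5) (nat_lit 95) (nat_lit 5) (nat_lit 96) (nat_lit 5) (nat_lit 325) (nat_lit 293) (nat_lit 246)) (XT.nd (nat_lit 94) (nat_lit 504) (nat_lit 0) (XT.lf (nat_lit 0) (nat_lit 5328697382) (nat_lit 588) (nat_lit 2381148995) (nat_lit 84) (nat_lit 1614997391) (nat_lit 89) (nat_lit 5) (nat_lit 96) (nat_lit 5) (nat_lit 90) (nat_lit 5) (nat_lit 326) (nat_lit 293) (nat_lit 245)) (XT.lf (nat_lit 0) (nat_lit 1890947501) (nat_lit 504) (nat_lit 5260197614) (nat_lit 588) (nat_lit 2328707029) (nat_lit 83) (nat_lit 5) (nat_lit 89) (nat_lit 5) (nat_lit 90) (nat_lit 5) (nat_lit 327) (nat_lit 293) (nat_lit 244)))) (XT.nd (nat_lit 94) (nat_lit 504) (nat_lit 0) (XT.lf (nat_lit 0) (nat_lit 6306012652) (nat_lit 504) (nat_lit 2711167119) (nat_lit 588) (nat_lit 623025271)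 (nat_lit 83) (nat_lit 5) (nat_lit 89) (nat_lit 5) (nat_lit 90) (nat_lit 5) (nat_lit 328) (nat_lit 293) (nat_lit 243)) (XT.nd (nat_lit 94) (nat_lit 0) (nat_lit 0) (XT.lf (nat_lit 0) (nat_lit 1022105690) (nat_lit 420) (nat_lit 63553287) (nat_lit 504) (nat_lit 8720488394) (nat_lit 77) (nat_lit 5) (nat_lit 82) (nat_lit 5) (nat_lit 83) (nat_lit 5) (nat_lit 329) (nat_lit 293) (nat_lit 242)) (XT.lf (nat_lit 0) (nat_lit 2859541852) (nat_lit 504) (nat_lit 4465664276) (nat_lit 84) (nat_lit 2651176857) (nat_lit 77) (nat_lit 5) (nat_lit 83) (nat_lit 5) (nat_lit 78) (nat_lit 5) (nat_lit 330) (nat_lit 293) (nat_lit 241))))))))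
noncomputable def xc99 : XT := (XT.nd (nat_lit 2256) (nat_lit 1596) (nat_lit 0) (XT.nd (nat_lit 1128) (nat_lit 1512) (nat_lit 0) (XT.nd (nat_lit 564) (nat_lit 756) (nat_lit 0) (XT.nd (nat_lit 282) (nat_lit 924) (nat_lit 0) (XT.nd (nat_lit 94) (nat_lit 420) (nat_lit 0) (XT.lf (nat_lit 0) (nat_lit 4653725267) (nat_lit 504) (nat_lit 53315412) (nat_lit 84) (nat_lit 5446053706) (nat_lit 77) (nat_lit 5) (nat_lit 83) (nat_lit 5) (nat_lit 78) (nat_lit 5) (nat_lit 331) (nat_lit 293) (nat_lit 240)) (XT.nd (nat_lit 94) (nat_lit 0) (nat_lit 0) (XT.lf (nat_lit 0) (nat_lit 4549408584) (nat_lit 420) (nat_lit 1964973245) (nat_lit 504) (nat_lit 3820684946) (nat_lit 72) (nat_lit 5) (nat_lit 77) (nat_lit 5) (nat_lit 78) (nat_lit 5) (nat_lit 332) (nat_lit 293) (nat_lit 239)) (XT.lf (nat_lit 0) (nat_lit 8408172354) (nat_lit 504) (nat_lit 1274074048) (nat_lit 84) (nat_lit 841310648) (nat_lit 72) (nat_lit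 5) (nat_lit 78) (nat_lit 5) (nat_lit 73) (nat_lit 5) (nat_lit 333) (nat_lit 293) (nat_lit 238)))) (XT.nd (nat_lit 94) (nat_lit 504) (nat_lit 0) (XT.lf (nat_lit 0) (nat_lit 3387896909) (nat_lit 420) (nat_lit 6993830286) (nat_lit 504) (nat_lit 335622891) (nat_lit 67) (nat_lit 5) (nat_lit 72) (nat_lit 5) (nat_lit 73) (nat_lit 5) (nat_lit 334) (nat_lit 293) (nat_lit 237)) (XT.nd (nat_lit 94) (nat_lit 420) (nat_lit 0) (XT.lf (nat_lit 0) (nat_lit 1450067592) (nat_lit 504) (nat_lit 2748375292) (nat_lit 84) (nat_lit 6718942539) (nat_lit 66) (nat_lit 5) (nat_lit 72) (nat_lit 5) (nat_lit 67) (nat_lit 5) (nat_lit 335) (nat_lit 293) (nat_lit 236)) (XT.lf (nat_lit 0) (nat_lit 1974175844) (nat_lit 420) (nat_lit 1298056473) (nat_lit 504) (nat_lit 7851754843) (nat_lit 61) (nat_lit 5) (nat_lit 66) (nat_lit 5) (nat_lit 67) (nat_lit 5) (nat_lit 336) (nat_lit 293) (nat_lit 235))))) (XT.nd (nat_lit 282)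 (nat_lit 420) (nat_lit 0) (XT.nd (nat_lit 94) (nat_lit 336) (nat_lit 0) (XT.lf (nat_lit 0) (nat_lit 5165686900) (nat_lit 504) (nat_lit 4489306152) (nat_lit 84) (nat_lit 1681641025) (nat_lit 61) (nat_lit 5) (nat_lit 67) (nat_lit 5) (nat_lit 62) (nat_lit 5) (nat_lit 337) (nat_lit 293) (nat_lit 234)) (XT.nd (nat_lit 94) (nat_lit 0) (nat_lit 0) (XT.lf (nat_lit 0) (nat_lit 271484879) (nat_lit 336) (nat_lit 6832288677) (nat_lit 420) (nat_lit 4452631928) (nat_lit 57) (nat_lit 5) (nat_lit 61) (nat_lit 5) (nat_lit 62) (nat_lit 5) (nat_lit 338) (nat_lit 293) (nat_lit 233)) (XT.lf (nat_lit 0) (nat_lit 5239016170) (nat_lit 336) (nat_lit 3880295425) (nat_lit 420) (nat_lit 2663233241) (nat_lit 57) (nat_lit 5) (nat_lit 61) (nat_lit 5) (nat_lit 62) (nat_lit 5) (nat_lit 339) (nat_lit 293) (nat_lit 232)))) (XT.nd (nat_lit 94) (nat_lit 420) (nat_lit 0) (XT.lf (nat_lit 0) (nat_lit 10325608639) (nat_lit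 336) (nat_lit 843120876) (nat_lit 420) (nat_lit 847942359) (nat_lit 57) (nat_lit 5) (nat_lit 61) (nat_lit 5) (nat_lit 62) (nat_lit 5) (nat_lit 340) (nat_lit 293) (nat_lit 231)) (XT.nd (nat_lit 94) (nat_lit 0) (nat_lit 0) (XT.lf (nat_lit 0) (nat_lit 1031041447) (nat_lit 420) (nat_lit 8946443397) (nat_lit 84) (nat_lit 2279473233) (nat_lit 52) (nat_lit 5) (nat_lit 57) (nat_lit 5) (nat_lit 53) (nat_lit 5) (nat_lit 341) (nat_lit 293) (nat_lit 230)) (XT.lf (nat_lit 0) (nat_lit 2949443819) (nat_lit 420) (nat_lit 4053699690) (nat_lit 84) (nat_lit 5501401272) (nat_lit 52) (nat_lit 5) (nat_lit 57) (nat_lit 5) (nat_lit 53) (nat_lit 5) (nat_lit 342) (nat_lit 293) (nat_lit 229)))))) (XT.nd (nat_lit 564) (nat_lit 504) (nat_lit 0) (XT.nd (nat_lit 282) (nat_lit 672) (nat_lit 0) (XT.nd (nat_lit 94) (nat_lit 0) (nat_lit 0) (XT.lf (nat_lit 0) (nat_lit 976376568) (nat_lit 336) (nat_lit 3933786803) (nat_lit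 420) (nat_lit 7850255335) (nat_lit 48) (nat_lit 5) (nat_lit 52) (nat_lit 5) (nat_lit 53) (nat_lit 5) (nat_lit 343) (nat_lit 293) (nat_lit 228)) (XT.nd (nat_lit 94) (nat_lit 0) (nat_lit 0) (XT.lf (nat_lit 0) (nat_lit 6214651542) (nat_lit 336) (nat_lit 732959912) (nat_lit 420) (nat_lit 6076196803) (nat_lit 48) (nat_lit 5) (nat_lit 52) (nat_lit 5) (nat_lit 53) (nat_lit 5) (nat_lit 344) (nat_lit 293) (nat_lit 227)) (XT.lf (nat_lit 0) (nat_lit 9048042716) (nat_lit 420) (nat_lit 1738971313) (nat_lit 84) (nat_lit 2508429894) (nat_lit 48) (nat_lit 5) (nat_lit 53) (nat_lit 5) (nat_lit 49) (nat_lit 5) (nat_lit 345) (nat_lit 293) (nat_lit 226)))) (XT.nd (nat_lit 94) (nat_lit 336) (nat_lit 0) (XT.lf (nat_lit 0) (nat_lit 3519350805) (nat_lit 336) (nat_lit 7711772851) (nat_lit 420) (nat_lit 2343906267) (nat_lit 44) (nat_lit 5) (nat_lit 48) (nat_lit 5) (nat_lit 49) (nat_lit 5) (nat_lit 346) (nat_lit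 293) (nat_lit 225)) (XT.nd (nat_lit 94) (nat_lit 336) (nat_lit 0) (XT.lf (nat_lit 0) (nat_lit 8945425060) (nat_lit 336) (nat_lit 4530163018) (nat_lit 420) (nat_lit 387961118) (nat_lit 44) (nat_lit 5) (nat_lit 48) (nat_lit 5) (nat_lit 49) (nat_lit 5) (nat_lit 347) (nat_lit 293) (nat_lit 224)) (XT.lf (nat_lit 0) (nat_lit 337625325) (nat_lit 252) (nat_lit 1237510887) (nat_lit 336) (nat_lit 12586083104) (nat_lit 40) (nat_lit 5) (nat_lit 43) (nat_lit 5) (nat_lit 44) (nat_lit 5) (nat_lit 348) (nat_lit 293) (nat_lit 223))))) (XT.nd (nat_lit 282) (nat_lit 252) (nat_lit 0) (XT.nd (nat_lit 94) (nat_lit 252) (nat_lit 0) (XT.lf (nat_lit 0) (nat_lit 3640605806) (nat_lit 336) (nat_lit 8663968292) (nat_lit 84) (nat_lit 2161948111) (nat_lit 40) (nat_lit 5) (nat_lit 44) (nat_lit 5) (nat_lit 41) (nat_lit 5) (nat_lit 349) (nat_lit 293) (nat_lit 222)) (XT.nd (nat_lit 94) (nat_lit 252) (nat_lit 0) (XT.lf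 (nat_lit 0) (nat_lit 5759789055) (nat_lit 336) (nat_lit 3388199760) (nat_lit 84) (nat_lit 5633683357) (nat_lit 40) (nat_lit 5) (nat_lit 44) (nat_lit 5) (nat_lit 41) (nat_lit 5) (nat_lit 350) (nat_lit 293) (nat_lit 221)) (XT.lf (nat_lit 0) (nat_lit 2062459394) (nat_lit 252) (nat_lit 5880385455) (nat_lit 336) (nat_lit 7163864414) (nat_lit 37) (nat_lit 5) (nat_lit 40) (nat_lit 5) (nat_lit 41) (nat_lit 5) (nat_lit 351) (nat_lit 293) (nat_lit 220)))) (XT.nd (nat_lit 94) (nat_lit 252) (nat_lit 0) (XT.lf (nat_lit 0) (nat_lit 7724010747) (nat_lit 252) (nat_lit 2483021796) (nat_lit 336) (nat_lit 5234431951) (nat_lit 37) (nat_lit 5) (nat_lit 40) (nat_lit 5) (nat_lit 41) (nat_lit 5) (nat_lit 352) (nat_lit 293) (nat_lit 219)) (XT.nd (nat_lit 94) (nat_lit 252) (nat_lit 0) (XT.lf (nat_lit 0) (nat_lit 12530198320) (nat_lit 336) (nat_lit 2265288349) (nat_lit 84) (nat_lit 991515414) (nat_lit 37) (nat_lit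 5) (nat_lit 41) (nat_lit 5) (nat_lit 38) (nat_lit 5) (nat_lit 353) (nat_lit 293) (nat_lit 218)) (XT.lf (nat_lit 0) (nat_lit 3369634479) (nat_lit 252) (nat_lit 11593884781) (nat_lit 336) (nat_lit 1178605484) (nat_lit 34) (nat_lit 5) (nat_lit 37) (nat_lit 5) (nat_lit 38) (nat_lit 5) (nat_lit 354) (nat_lit 293) (nat_lit 217))))))) (XT.nd (nat_lit 1128) (nat_lit 588) (nat_lit 0) (XT.nd (nat_lit 564) (nat_lit 504) (nat_lit 0) (XT.nd (nat_lit 282) (nat_lit 168) (nat_lit 0) (XT.nd (nat_lit 94) (nat_lit 252) (nat_lit 0) (XT.lf (nat_lit 0) (nat_lit 947873929) (nat_lit 336) (nat_lit 7319005193) (nat_lit 84) (nat_lit 8241031317) (nat_lit 33) (nat_lit 5) (nat_lit 37) (nat_lit 5) (nat_lit 34) (nat_lit 5) (nat_lit 355) (nat_lit 293) (nat_lit 216)) (XT.nd (nat_lit 94) (nat_lit 252) (nat_lit 0) (XT.lf (nat_lit 0) (nat_lit 3095804393) (nat_lit 336) (nat_lit 1736586099) (nat_lit 84) (nat_lit 12052941707)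 (nat_lit 33) (nat_lit 5) (nat_lit 37) (nat_lit 5) (nat_lit 34) (nat_lit 5) (nat_lit 356) (nat_lit 293) (nat_lit 215)) (XT.lf (nat_lit 0) (nat_lit 4073739090) (nat_lit 252) (nat_lit 1257607181) (nat_lit 336) (nat_lit 11942505229) (nat_lit 30) (nat_lit 5) (nat_lit 33) (nat_lit 5) (nat_lit 34) (nat_lit 5) (nat_lit 357) (nat_lit 293) (nat_lit 214)))) (XT.nd (nat_lit 94) (nat_lit 168) (nat_lit 0) (XT.lf (nat_lit 0) (nat_lit 7659438714) (nat_lit 336) (nat_lit 7624636140) (nat_lit 84) (nat_lit 2389667110) (nat_lit 30) (nat_lit 5) (nat_lit 34) (nat_lit 5) (nat_lit 31) (nat_lit 5) (nat_lit 358) (nat_lit 293) (nat_lit 213)) (XT.nd (nat_lit 94) (nat_lit 168) (nat_lit 0) (XT.lf (nat_lit 0) (nat_lit 10053991130) (nat_lit 336) (nat_lit 1915866112) (nat_lit 84) (nat_lit 6116395169) (nat_lit 30) (nat_lit 5) (nat_lit 34) (nat_lit 5) (nat_lit 31) (nat_lit 5) (nat_lit 359) (nat_lit 293) (nat_lit 212))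 (XT.lf (nat_lit 0) (nat_lit 4025091077) (nat_lit 168) (nat_lit 8519598199) (nat_lit 252) (nat_lit 5966227003) (nat_lit 28) (nat_lit 5) (nat_lit 30) (nat_lit 5) (nat_lit 31) (nat_lit 5) (nat_lit 360) (nat_lit 293) (nat_lit 211))))) (XT.nd (nat_lit 282) (nat_lit 168) (nat_lit 0) (XT.nd (nat_lit 94) (nat_lit 336) (nat_lit 0) (XT.lf (nat_lit 0) (nat_lit 10165213997) (nat_lit 168) (nat_lit 4949655503) (nat_lit 252) (nat_lit 3833848437) (nat_lit 28) (nat_lit 5) (nat_lit 30) (nat_lit 5) (nat_lit 31) (nat_lit 5) (nat_lit 361) (nat_lit 293) (nat_lit 210)) (XT.nd (nat_lit 94) (nat_lit 336) (nat_lit 0) (XT.lf (nat_lit 0) (nat_lit 16470831749) (nat_lit 168) (nat_lit 1276699309) (nat_lit 252) (nat_lit 1653135697) (nat_lit 28) (nat_lit 5) (nat_lit 30) (nat_lit 5) (nat_lit 31) (nat_lit 5) (nat_lit 362) (nat_lit 293) (nat_lit 209)) (XT.lf (nat_lit 0) (nat_lit 622634299) (nat_lit 336) (nat_lit 16753114380)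 (nat_lit 84) (nat_lit 2489511209) (nat_lit 24) (nat_lit 5) (nat_lit 28) (nat_lit 5) (nat_lit 25) (nat_lit 5) (nat_lit 363) (nat_lit 293) (nat_lit 208)))) (XT.nd (nat_lit 94) (nat_lit 168) (nat_lit 0) (XT.lf (nat_lit 0) (nat_lit 2961869229) (nat_lit 336) (nat_lit 10994766255) (nat_lit 84) (nat_lit 6386289446) (nat_lit 24) (nat_lit 5) (nat_lit 28) (nat_lit 5) (nat_lit 25) (nat_lit 5) (nat_lit 364) (nat_lit 293) (nat_lit 207)) (XT.nd (nat_lit 94) (nat_lit 168) (nat_lit 0) (XT.lf (nat_lit 0) (nat_lit 5357426169) (nat_lit 336) (nat_lit 5081885247) (nat_lit 84) (nat_lit 10396625620) (nat_lit 24) (nat_lit 5) (nat_lit 28) (nat_lit 5) (nat_lit 25) (nat_lit 5) (nat_lit 365) (nat_lit 293) (nat_lit 206)) (XT.lf (nat_lit 0) (nat_lit 1011417885) (nat_lit 168) (nat_lit 6810153533) (nat_lit 252) (nat_lit 13522873290) (nat_lit 22) (nat_lit 5) (nat_lit 24) (nat_lit 5) (nat_lit 25) (nat_lit 5) (nat_lit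 366) (nat_lit 293) (nat_lit 205)))))) (XT.nd (nat_lit 564) (nat_lit 420) (nat_lit 0) (XT.nd (nat_lit 282) (nat_lit 168) (nat_lit 0) (XT.nd (nat_lit 94) (nat_lit 0) (nat_lit 0) (XT.lf (nat_lit 0) (nat_lit 7378327146) (nat_lit 168) (nat_lit 3021359069) (nat_lit 252) (nat_lit 11467900100) (nat_lit 22) (nat_lit 5) (nat_lit 24) (nat_lit 5) (nat_lit 25) (nat_lit 5) (nat_lit 367) (nat_lit 293) (nat_lit 204)) (XT.nd (nat_lit 94) (nat_lit 0) (nat_lit 0) (XT.lf (nat_lit 0) (nat_lit 13051429603) (nat_lit 252) (nat_lit 8495866730) (nat_lit 84) (nat_lit 859878209) (nat_lit 22) (nat_lit 5) (nat_lit 25) (nat_lit 5) (nat_lit 23) (nat_lit 5) (nat_lit 368) (nat_lit 293) (nat_lit 203)) (XT.lf (nat_lit 0) (nat_lit 15801660421) (nat_lit 252) (nat_lit 2369650176) (nat_lit 84) (nat_lit 4791707744) (nat_lit 22) (nat_lit 5) (nat_lit 25) (nat_lit 5) (nat_lit 23) (nat_lit 5) (nat_lit 369) (nat_lit 293) (nat_lit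 202)))) (XT.nd (nat_lit 94) (nat_lit 0) (nat_lit 0) (XT.lf (nat_lit 0) (nat_lit 4005780576) (nat_lit 168) (nat_lit 14656927182) (nat_lit 252) (nat_lit 4872625327) (nat_lit 20) (nat_lit 5) (nat_lit 22) (nat_lit 5) (nat_lit 23) (nat_lit 5) (nat_lit 370) (nat_lit 293) (nat_lit 201)) (XT.nd (nat_lit 94) (nat_lit 0) (nat_lit 0) (XT.lf (nat_lit 0) (nat_lit 10607895670) (nat_lit 168) (nat_lit 11015323819) (nat_lit 252) (nat_lit 2501867326) (nat_lit 20) (nat_lit 5) (nat_lit 22) (nat_lit 5) (nat_lit 23) (nat_lit 5) (nat_lit 371) (nat_lit 293) (nat_lit 200)) (XT.lf (nat_lit 0) (nat_lit 17394124103) (nat_lit 168) (nat_lit 7267840441) (nat_lit 252) (nat_lit 71608410) (nat_lit 20) (nat_lit 5) (nat_lit 22) (nat_lit 5) (nat_lit 23) (nat_lit 5) (nat_lit 372) (nat_lit 293) (nat_lit 199))))) (XT.nd (nat_lit 282) (nat_lit 168) (nat_lit 0) (XT.nd (nat_lit 94) (nat_lit 168) (nat_lit 0) (XT.lf (nat_lit 0)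 (nat_lit 2371650672) (nat_lit 252) (nat_lit 1014578158) (nat_lit 84) (nat_lit 21974385507) (nat_lit 19) (nat_lit 5) (nat_lit 22) (nat_lit 5) (nat_lit 20) (nat_lit 5) (nat_lit 373) (nat_lit 293) (nat_lit 198)) (XT.nd (nat_lit 94) (nat_lit 0) (nat_lit 0) (XT.lf (nat_lit 0) (nat_lit 4938422348) (nat_lit 252) (nat_lit 20413586765) (nat_lit 84) (nat_lit 653562735) (nat_lit 17) (nat_lit 5) (nat_lit 20) (nat_lit 5) (nat_lit 18) (nat_lit 5) (nat_lit 374) (nat_lit 293) (nat_lit 197)) (XT.lf (nat_lit 0) (nat_lit 7617325346) (nat_lit 252) (nat_lit 14299858718) (nat_lit 84) (nat_lit 4752356323) (nat_lit 17) (nat_lit 5) (nat_lit 20) (nat_lit 5) (nat_lit 18) (nat_lit 5) (nat_lit 375) (nat_lit 293) (nat_lit 196)))) (XT.nd (nat_lit 94) (nat_lit 168) (nat_lit 0) (XT.lf (nat_lit 0) (nat_lit 10366888128) (nat_lit 252) (nat_lit 8015793085) (nat_lit 84) (nat_lit 8971820655) (nat_lit 17) (nat_lit 5) (nat_lit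 20) (nat_lit 5) (nat_lit 18) (nat_lit 5) (nat_lit 376) (nat_lit 293) (nat_lit 195)) (XT.nd (nat_lit 94) (nat_lit 168) (nat_lit 0) (XT.lf (nat_lit 0) (nat_lit 13189673575) (nat_lit 252) (nat_lit 1555532460) (nat_lit 84) (nat_lit 13315888713) (nat_lit 17) (nat_lit 5) (nat_lit 20) (nat_lit 5) (nat_lit 18) (nat_lit 5) (nat_lit 377) (nat_lit 293) (nat_lit 194)) (XT.lf (nat_lit 0) (nat_lit 5191542816) (nat_lit 168) (nat_lit 10948270749) (nat_lit 252) (nat_lit 12648567555) (nat_lit 15) (nat_lit 5) (nat_lit 17) (nat_lit 5) (nat_lit 18) (nat_lit 5) (nat_lit 378) (nat_lit 293) (nat_lit 193))))))))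
noncomputable def xc100 : XT := (XT.nd (nat_lit 2256) (nat_lit 252) (nat_lit 0) (XT.nd (nat_lit 1128) (nat_lit 336) (nat_lit 0) (XT.nd (nat_lit 564) (nat_lit 168) (nat_lit 0) (XT.nd (nat_lit 282) (nat_lit 168) (nat_lit 0) (XT.nd (nat_lit 94) (nat_lit 0) (nat_lit 0) (XT.lf (nat_lit 0) (nat_lit 12162885204) (nat_lit 168) (nat_lit 7023279815) (nat_lit 252) (nat_lit 10351924554) (nat_lit 15) (nat_lit 5) (nat_lit 17) (nat_lit 5) (nat_lit 18) (nat_lit 5) (nat_lit 379) (nat_lit 293) (nat_lit 192)) (XT.nd (nat_lit 94) (nat_lit 0) (nat_lit 0) (XT.lf (nat_lit 0) (nat_lit 19333007788) (nat_lit 168) (nat_lit 2982811298) (nat_lit 252) (nat_lit 7995588027) (nat_lit 15) (nat_lit 5) (nat_lit 17) (nat_lit 5) (nat_lit 18) (nat_lit 5) (nat_lit 380) (nat_lit 293) (nat_lit 191)) (XT.lf (nat_lit 0) (nat_lit 25543367935) (nat_lit 252) (nat_lit 4412135683) (nat_lit 84) (nat_lit 1153189009) (nat_lit 15) (nat_lit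 5) (nat_lit 18) (nat_lit 5) (nat_lit 16) (nat_lit 4) (nat_lit 381) (nat_lit 293) (nat_lit 190)))) (XT.nd (nat_lit 94) (nat_lit 84) (nat_lit 0) (XT.lf (nat_lit 0) (nat_lit 2358091951) (nat_lit 84) (nat_lit 26556245940) (nat_lit 168) (nat_lit 3015033325) (nat_lit 14) (nat_lit 5) (nat_lit 15) (nat_lit 5) (nat_lit 16) (nat_lit 4) (nat_lit 382) (nat_lit 293) (nat_lit 189)) (XT.nd (nat_lit 94) (nat_lit 84) (nat_lit 0) (XT.lf (nat_lit 0) (nat_lit 9415306260) (nat_lit 84) (nat_lit 23010176441) (nat_lit 168) (nat_lit 348923175) (nat_lit 14) (nat_lit 5) (nat_lit 15) (nat_lit 5) (nat_lit 16) (nat_lit 4) (nat_lit 383) (nat_lit 293) (nat_lit 188)) (XT.lf (nat_lit 0) (nat_lit 2341295371) (nat_lit 168) (nat_lit 16994309770) (nat_lit 84) (nat_lit 14309629053) (nat_lit 13) (nat_lit 5) (nat_lit 15) (nat_lit 5) (nat_lit 14) (nat_lit 5) (nat_lit 384) (nat_lit 293) (nat_lit 187))))) (XT.nd (nat_lit 282)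 (nat_lit 0) (nat_lit 0) (XT.nd (nat_lit 94) (nat_lit 168) (nat_lit 0) (XT.lf (nat_lit 0) (nat_lit 5097779454) (nat_lit 168) (nat_lit 10451454881) (nat_lit 84) (nat_lit 18994038726) (nat_lit 13) (nat_lit 5) (nat_lit 15) (nat_lit 5) (nat_lit 14) (nat_lit 5) (nat_lit 385) (nat_lit 293) (nat_lit 186)) (XT.nd (nat_lit 94) (nat_lit 168) (nat_lit 0) (XT.lf (nat_lit 0) (nat_lit 7930128430) (nat_lit 168) (nat_lit 3720974963) (nat_lit 84) (nat_lit 23818363454) (nat_lit 13) (nat_lit 5) (nat_lit 15) (nat_lit 5) (nat_lit 14) (nat_lit 5) (nat_lit 386) (nat_lit 293) (nat_lit 185)) (XT.lf (nat_lit 0) (nat_lit 3269272041) (nat_lit 168) (nat_lit 7604141888) (nat_lit 252) (nat_lit 25550259554) (nat_lit 11) (nat_lit 5) (nat_lit 13) (nat_lit 5) (nat_lit 14) (nat_lit 5) (nat_lit 387) (nat_lit 293) (nat_lit 184)))) (XT.nd (nat_lit 94) (nat_lit 0) (nat_lit 0) (XT.lf (nat_lit 0) (nat_lit 10540502375) (nat_lit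 168) (nat_lit 3397115135) (nat_lit 252) (nat_lit 23468940496) (nat_lit 11) (nat_lit 5) (nat_lit 13) (nat_lit 5) (nat_lit 14) (nat_lit 5) (nat_lit 388) (nat_lit 293) (nat_lit 183)) (XT.nd (nat_lit 94) (nat_lit 0) (nat_lit 0) (XT.lf (nat_lit 0) (nat_lit 17097199703) (nat_lit 252) (nat_lit 20406497578) (nat_lit 84) (nat_lit 916219553) (nat_lit 11) (nat_lit 5) (nat_lit 14) (nat_lit 5) (nat_lit 12) (nat_lit 4) (nat_lit 389) (nat_lit 293) (nat_lit 182)) (XT.lf (nat_lit 0) (nat_lit 20380802359) (nat_lit 252) (nat_lit 13795403088) (nat_lit 84) (nat_lit 5287692476) (nat_lit 11) (nat_lit 5) (nat_lit 14) (nat_lit 5) (nat_lit 12) (nat_lit 4) (nat_lit 390) (nat_lit 293) (nat_lit 181)))))) (XT.nd (nat_lit 564) (nat_lit 252) (nat_lit 0) (XT.nd (nat_lit 282) (nat_lit 0) (nat_lit 0) (XT.nd (nat_lit 94) (nat_lit 84) (nat_lit 0) (XT.lf (nat_lit 0) (nat_lit 23757786337) (nat_lit 252) (nat_lit 6992910125)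 (nat_lit 84) (nat_lit 9789822602) (nat_lit 11) (nat_lit 5) (nat_lit 14) (nat_lit 5) (nat_lit 12) (nat_lit 4) (nat_lit 391) (nat_lit 293) (nat_lit 180)) (XT.nd (nat_lit 94) (nat_lit 0) (nat_lit 0) (XT.lf (nat_lit 0) (nat_lit 7472500) (nat_lit 84) (nat_lit 27223900969) (nat_lit 168) (nat_lit 14419408017) (nat_lit 10) (nat_lit 5) (nat_lit 11) (nat_lit 5) (nat_lit 12) (nat_lit 4) (nat_lit 392) (nat_lit 293) (nat_lit 179)) (XT.lf (nat_lit 0) (nat_lit 7360107845) (nat_lit 84) (nat_lit 23517484383) (nat_lit 168) (nat_lit 11915871326) (nat_lit 10) (nat_lit 5) (nat_lit 11) (nat_lit 5) (nat_lit 12) (nat_lit 4) (nat_lit 393) (nat_lit 293) (nat_lit 178)))) (XT.nd (nat_lit 94) (nat_lit 0) (nat_lit 0) (XT.lf (nat_lit 0) (nat_lit 14928060763) (nat_lit 84) (nat_lit 19700983576) (nat_lit 168) (nat_lit 9342780736) (nat_lit 10) (nat_lit 5) (nat_lit 11) (nat_lit 5) (nat_lit 12) (nat_lit 4) (nat_lit 394)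 (nat_lit 293) (nat_lit 177)) (XT.nd (nat_lit 94) (nat_lit 0) (nat_lit 0) (XT.lf (nat_lit 0) (nat_lit 22718385378) (nat_lit 84) (nat_lit 15770841169) (nat_lit 168) (nat_lit 6697737857) (nat_lit 10) (nat_lit 5) (nat_lit 11) (nat_lit 5) (nat_lit 12) (nat_lit 4) (nat_lit 395) (nat_lit 293) (nat_lit 176)) (XT.lf (nat_lit 0) (nat_lit 30738343089) (nat_lit 84) (nat_lit 11723393859) (nat_lit 168) (nat_lit 3978277232) (nat_lit 10) (nat_lit 5) (nat_lit 11) (nat_lit 5) (nat_lit 12) (nat_lit 4) (nat_lit 396) (nat_lit 293) (nat_lit 175))))) (XT.nd (nat_lit 282) (nat_lit 0) (nat_lit 0) (XT.nd (nat_lit 94) (nat_lit 252) (nat_lit 0) (XT.lf (nat_lit 0) (nat_lit 38995409336) (nat_lit 84) (nat_lit 7554868999) (nat_lit 168) (nat_lit 1181864038) (nat_lit 10) (nat_lit 5) (nat_lit 11) (nat_lit 5) (nat_lit 12) (nat_lit 4) (nat_lit 397) (nat_lit 293) (nat_lit 174)) (XT.nd (nat_lit 94) (nat_lit 168) (nat_lit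 0) (XT.lf (nat_lit 0) (nat_lit 1659975766) (nat_lit 168) (nat_lit 1584078580) (nat_lit 84) (nat_lit 45819978061) (nat_lit 9) (nat_lit 5) (nat_lit 11) (nat_lit 5) (nat_lit 10) (nat_lit 5) (nat_lit 398) (nat_lit 293) (nat_lit 173)) (XT.lf (nat_lit 0) (nat_lit 4629561826) (nat_lit 252) (nat_lit 44562008641) (nat_lit 84) (nat_lit 1243287763) (nat_lit 7) (nat_lit 5) (nat_lit 10) (nat_lit 5) (nat_lit 8) (nat_lit 4) (nat_lit 399) (nat_lit 293) (nat_lit 172)))) (XT.nd (nat_lit 94) (nat_lit 0) (nat_lit 0) (XT.lf (nat_lit 0) (nat_lit 7734366121) (nat_lit 252) (nat_lit 38297536981) (nat_lit 84) (nat_lit 5814950288) (nat_lit 7) (nat_lit 5) (nat_lit 10) (nat_lit 5) (nat_lit 8) (nat_lit 4) (nat_lit 400) (nat_lit 293) (nat_lit 171)) (XT.nd (nat_lit 94) (nat_lit 0) (nat_lit 0) (XT.lf (nat_lit 0) (nat_lit 10928899837) (nat_lit 252) (nat_lit 31849580482) (nat_lit 84) (nat_lit 10524353565) (nat_lit 7)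 (nat_lit 5) (nat_lit 10) (nat_lit 5) (nat_lit 8) (nat_lit 4) (nat_lit 401) (nat_lit 293) (nat_lit 170)) (XT.lf (nat_lit 0) (nat_lit 14216140613) (nat_lit 252) (nat_lit 25212128973) (nat_lit 84) (nat_lit 15375887250) (nat_lit 7) (nat_lit 5) (nat_lit 10) (nat_lit 5) (nat_lit 8) (nat_lit 4) (nat_lit 402) (nat_lit 293) (nat_lit 169))))))) (XT.nd (nat_lit 1128) (nat_lit 168) (nat_lit 0) (XT.nd (nat_lit 564) (nat_lit 0) (nat_lit 0) (XT.nd (nat_lit 282) (nat_lit 84) (nat_lit 0) (XT.nd (nat_lit 94) (nat_lit 0) (nat_lit 0) (XT.lf (nat_lit 0) (nat_lit 17599152503) (nat_lit 252) (nat_lit 18378995654) (nat_lit 84) (nat_lit 20374073480) (nat_lit 7) (nat_lit 5) (nat_lit 10) (nat_lit 5) (nat_lit 8) (nat_lit 4) (nat_lit 403) (nat_lit 293) (nat_lit 168)) (XT.nd (nat_lit 94) (nat_lit 0) (nat_lit 0) (XT.lf (nat_lit 0) (nat_lit 21081088827) (nat_lit 252) (nat_lit 11343811330) (nat_lit 84) (nat_lit 25523571090)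 (nat_lit 7) (nat_lit 5) (nat_lit 10) (nat_lit 5) (nat_lit 8) (nat_lit 4) (nat_lit 404) (nat_lit 293) (nat_lit 167)) (XT.lf (nat_lit 0) (nat_lit 24665195116) (nat_lit 252) (nat_lit 4100018471) (nat_lit 84) (nat_lit 30829179951) (nat_lit 7) (nat_lit 5) (nat_lit 10) (nat_lit 5) (nat_lit 8) (nat_lit 4) (nat_lit 405) (nat_lit 293) (nat_lit 166)))) (XT.nd (nat_lit 94) (nat_lit 0) (nat_lit 0) (XT.lf (nat_lit 0) (nat_lit 3428205598) (nat_lit 84) (nat_lit 24960614756) (nat_lit 168) (nat_lit 32901648069) (nat_lit 6) (nat_lit 5) (nat_lit 7) (nat_lit 5) (nat_lit 8) (nat_lit 4) (nat_lit 406) (nat_lit 293) (nat_lit 165)) (XT.nd (nat_lit 94) (nat_lit 0) (nat_lit 0) (XT.lf (nat_lit 0) (nat_lit 11267618894) (nat_lit 84) (nat_lit 20997536263) (nat_lit 168) (nat_lit 30772820357) (nat_lit 6) (nat_lit 5) (nat_lit 7) (nat_lit 5) (nat_lit 8) (nat_lit 4) (nat_lit 407) (nat_lit 293) (nat_lit 164)) (XT.lf (nat_lit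 0) (nat_lit 19341223779) (nat_lit 84) (nat_lit 16915079887) (nat_lit 168) (nat_lit 28583526778) (nat_lit 6) (nat_lit 5) (nat_lit 7) (nat_lit 5) (nat_lit 8) (nat_lit 4) (nat_lit 408) (nat_lit 293) (nat_lit 163))))) (XT.nd (nat_lit 282) (nat_lit 0) (nat_lit 0) (XT.nd (nat_lit 94) (nat_lit 0) (nat_lit 0) (XT.lf (nat_lit 0) (nat_lit 27656545702) (nat_lit 84) (nat_lit 12709440351) (nat_lit 168) (nat_lit 26331726681) (nat_lit 6) (nat_lit 5) (nat_lit 7) (nat_lit 5) (nat_lit 8) (nat_lit 4) (nat_lit 409) (nat_lit 293) (nat_lit 162)) (XT.nd (nat_lit 94) (nat_lit 0) (nat_lit 0) (XT.lf (nat_lit 0) (nat_lit 36221335411) (nat_lit 84) (nat_lit 8376697558) (nat_lit 168) (nat_lit 24015321153) (nat_lit 6) (nat_lit 5) (nat_lit 7) (nat_lit 5) (nat_lit 8) (nat_lit 4) (nat_lit 410) (nat_lit 293) (nat_lit 161)) (XT.lf (nat_lit 0) (nat_lit 45043576189) (nat_lit 84) (nat_lit 3912812940) (nat_lit 168) (nat_lit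 21632151061) (nat_lit 6) (nat_lit 5) (nat_lit 7) (nat_lit 5) (nat_lit 8) (nat_lit 4) (nat_lit 411) (nat_lit 293) (nat_lit 160)))) (XT.nd (nat_lit 94) (nat_lit 0) (nat_lit 0) (XT.lf (nat_lit 0) (nat_lit 53451925893) (nat_lit 168) (nat_lit 18500429646) (nat_lit 0) (nat_lit 672545400) (nat_lit 6) (nat_lit 5) (nat_lit 8) (nat_lit 4) (nat_lit 6) (nat_lit 4) (nat_lit 412) (nat_lit 293) (nat_lit 159)) (XT.nd (nat_lit 94) (nat_lit 0) (nat_lit 0) (XT.lf (nat_lit 0) (nat_lit 58122218642) (nat_lit 168) (nat_lit 11285234473) (nat_lit 0) (nat_lit 5315846420) (nat_lit 6) (nat_lit 5) (nat_lit 8) (nat_lit 4) (nat_lit 6) (nat_lit 4) (nat_lit 413) (nat_lit 293) (nat_lit 158)) (XT.lf (nat_lit 0) (nat_lit 62932804990) (nat_lit 168) (nat_lit 3853837574) (nat_lit 0) (nat_lit 10100252624) (nat_lit 6) (nat_lit 5) (nat_lit 8) (nat_lit 4) (nat_lit 6) (nat_lit 4) (nat_lit 414) (nat_lit 293) (nat_lit 157))))))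 (XT.nd (nat_lit 42958) (nat_lit 0) (nat_lit 15456) (XT.nd (nat_lit 282) (nat_lit 84) (nat_lit 0) (XT.nd (nat_lit 94) (nat_lit 0) (nat_lit 0) (XT.lf (nat_lit 0) (nat_lit 3878837827) (nat_lit 84) (nat_lit 64047809631) (nat_lit 84) (nat_lit 11189864302) (nat_lit 5) (nat_lit 4) (nat_lit 6) (nat_lit 5) (nat_lit 6) (nat_lit 4) (nat_lit 415) (nat_lit 293) (nat_lit 156)) (XT.nd (nat_lit 94) (nat_lit 0) (nat_lit 0) (XT.lf (nat_lit 0) (nat_lit 11925754106) (nat_lit 84) (nat_lit 61185480163) (nat_lit 84) (nat_lit 8302905383) (nat_lit 5) (nat_lit 4) (nat_lit 6) (nat_lit 5) (nat_lit 6) (nat_lit 4) (nat_lit 416) (nat_lit 293) (nat_lit 155)) (XT.lf (nat_lit 0) (nat_lit 20215169027) (nat_lit 84) (nat_lit 58237212328) (nat_lit 84) (nat_lit 5330748654) (nat_lit 5) (nat_lit 4) (nat_lit 6) (nat_lit 5) (nat_lit 6) (nat_lit 4) (nat_lit 417) (nat_lit 293) (nat_lit 154)))) (XT.nd (nat_lit 94) (nat_lit 84) (nat_lit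 0) (XT.lf (nat_lit 0) (nat_lit 28754809192) (nat_lit 84) (nat_lit 55200258033) (nat_lit 84) (nat_lit 2270623754) (nat_lit 5) (nat_lit 4) (nat_lit 6) (nat_lit 5) (nat_lit 6) (nat_lit 4) (nat_lit 418) (nat_lit 293) (nat_lit 153)) (XT.nd (nat_lit 42488) (nat_lit 0) (nat_lit 15960) (XT.lf (nat_lit 0) (nat_lit 862585155) (nat_lit 168) (nat_lit 51200197743) (nat_lit 84) (nat_lit 36681045666) (nat_lit 4) (nat_lit 5) (nat_lit 6) (nat_lit 5) (nat_lit 5) (nat_lit 4) (nat_lit 419) (nat_lit 293) (nat_lit 152)) (XT.lf (nat_lit 0) (nat_lit 427363885) (nat_lit 0) (nat_lit 427363885) (nat_lit 420) (nat_lit 2454315963) (nat_lit 194) (nat_lit 5) (nat_lit 194) (nat_lit 3) (nat_lit 199) (nat_lit 3) (nat_lit 294) (nat_lit 294) (nat_lit 276))))) (XT.nd (nat_lit 282) (nat_lit 0) (nat_lit 0) (XT.nd (nat_lit 94) (nat_lit 504) (nat_lit 0) (XT.lf (nat_lit 0) (nat_lit 3582533143) (nat_lit 0) (nat_lit 120282634)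 (nat_lit 420) (nat_lit 2945867694) (nat_lit 194) (nat_lit 5) (nat_lit 194) (nat_lit 3) (nat_lit 199) (nat_lit 3) (nat_lit 295) (nat_lit 294) (nat_lit 275)) (XT.nd (nat_lit 94) (nat_lit 504) (nat_lit 0) (XT.lf (nat_lit 0) (nat_lit 5685425884) (nat_lit 420) (nat_lit 334567579) (nat_lit 504) (nat_lit 662927079) (nat_lit 194) (nat_lit 5) (nat_lit 199) (nat_lit 3) (nat_lit 200) (nat_lit 5) (nat_lit 296) (nat_lit 294) (nat_lit 274)) (XT.lf (nat_lit 0) (nat_lit 939393735) (nat_lit 504) (nat_lit 4240747221) (nat_lit 588) (nat_lit 1539781236) (nat_lit 188) (nat_lit 5) (nat_lit 194) (nat_lit 5) (nat_lit 195) (nat_lit 5) (nat_lit 297) (nat_lit 294) (nat_lit 273)))) (XT.nd (nat_lit 94) (nat_lit 0) (nat_lit 0) (XT.lf (nat_lit 0) (nat_lit 2843360908) (nat_lit 504) (nat_lit 1424136737) (nat_lit 588) (nat_lit 2492901448) (nat_lit 188) (nat_lit 5) (nat_lit 194) (nat_lit 5) (nat_lit 195) (nat_lit 5) (nat_lit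 298) (nat_lit 294) (nat_lit 272)) (XT.nd (nat_lit 94) (nat_lit 0) (nat_lit 0) (XT.lf (nat_lit 84) (nat_lit 1467480687) (nat_lit 0) (nat_lit 3279933914) (nat_lit 588) (nat_lit 2056935915) (nat_lit 189) (nat_lit 5) (nat_lit 188) (nat_lit 5) (nat_lit 195) (nat_lit 5) (nat_lit 299) (nat_lit 294) (nat_lit 271)) (XT.lf (nat_lit 84) (nat_lit 4437478691) (nat_lit 0) (nat_lit 2216184900) (nat_lit 588) (nat_lit 198143486) (nat_lit 189) (nat_lit 5) (nat_lit 188) (nat_lit 5) (nat_lit 195) (nat_lit 5) (nat_lit 300) (nat_lit 294) (nat_lit 270))))))))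
noncomputable def xc101 : XT := (XT.nd (nat_lit 2256) (nat_lit 4368) (nat_lit 0) (XT.nd (nat_lit 1128) (nat_lit 4368) (nat_lit 0) (XT.nd (nat_lit 564) (nat_lit 2268) (nat_lit 0) (XT.nd (nat_lit 282) (nat_lit 588) (nat_lit 0) (XT.nd (nat_lit 94) (nat_lit 0) (nat_lit 84) (XT.lf (nat_lit 84) (nat_lit 550850313) (nat_lit 0) (nat_lit 1067653419) (nat_lit 672) (nat_lit 5284080593) (nat_lit 182) (nat_lit 5) (nat_lit 181) (nat_lit 5) (nat_lit 189) (nat_lit 5) (nat_lit 301) (nat_lit 294) (nat_lit 269)) (XT.nd (nat_lit 94) (nat_lit 0) (nat_lit 0) (XT.lf (nat_lit 0) (nat_lit 3445333637) (nat_lit 588) (nat_lit 3342805804) (nat_lit 672) (nat_lit 168383510) (nat_lit 182) (nat_lit 5) (nat_lit 189) (nat_lit 5) (nat_lit 190) (nat_lit 5) (nat_lit 302) (nat_lit 294) (nat_lit 268)) (XT.lf (nat_lit 0) (nat_lit 5273147080) (nat_lit 588) (nat_lit 294530683) (nat_lit 672) (nat_lit 1446518121) (nat_lit 182)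 (nat_lit 5) (nat_lit 189) (nat_lit 5) (nat_lit 190) (nat_lit 5) (nat_lit 303) (nat_lit 294) (nat_lit 267)))) (XT.nd (nat_lit 94) (nat_lit 0) (nat_lit 0) (XT.lf (nat_lit 0) (nat_lit 45431497) (nat_lit 672) (nat_lit 4211332542) (nat_lit 756) (nat_lit 2818326094) (nat_lit 174) (nat_lit 5) (nat_lit 182) (nat_lit 5) (nat_lit 183) (nat_lit 5) (nat_lit 304) (nat_lit 294) (nat_lit 266)) (XT.nd (nat_lit 94) (nat_lit 0) (nat_lit 0) (XT.lf (nat_lit 0) (nat_lit 1790242800) (nat_lit 672) (nat_lit 1072336456) (nat_lit 756) (nat_lit 4276935857) (nat_lit 174) (nat_lit 5) (nat_lit 182) (nat_lit 5) (nat_lit 183) (nat_lit 5) (nat_lit 305) (nat_lit 294) (nat_lit 265)) (XT.lf (nat_lit 84) (nat_lit 2165980567) (nat_lit 0) (nat_lit 1382583574) (nat_lit 756) (nat_lit 3658929441) (nat_lit 175) (nat_lit 5) (nat_lit 174) (nat_lit 5) (nat_lit 183) (nat_lit 5) (nat_lit 306) (nat_lit 294) (nat_lit 264))))) (XT.nd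 (nat_lit 282) (nat_lit 1596) (nat_lit 0) (XT.nd (nat_lit 94) (nat_lit 756) (nat_lit 0) (XT.lf (nat_lit 0) (nat_lit 5313706378) (nat_lit 672) (nat_lit 1794916872) (nat_lit 84) (nat_lit 170723823) (nat_lit 175) (nat_lit 5) (nat_lit 183) (nat_lit 5) (nat_lit 176) (nat_lit 5) (nat_lit 307) (nat_lit 294) (nat_lit 263)) (XT.nd (nat_lit 94) (nat_lit 84) (nat_lit 0) (XT.lf (nat_lit 0) (nat_lit 1526685541) (nat_lit 672) (nat_lit 5577568539) (nat_lit 756) (nat_lit 250363365) (nat_lit 167) (nat_lit 5) (nat_lit 175) (nat_lit 5) (nat_lit 176) (nat_lit 5) (nat_lit 308) (nat_lit 294) (nat_lit 262)) (XT.lf (nat_lit 0) (nat_lit 1448323607) (nat_lit 756) (nat_lit 2500870661) (nat_lit 84) (nat_lit 3484038661) (nat_lit 166) (nat_lit 5) (nat_lit 175) (nat_lit 5) (nat_lit 167) (nat_lit 5) (nat_lit 309) (nat_lit 294) (nat_lit 261)))) (XT.nd (nat_lit 94) (nat_lit 840) (nat_lit 0) (XT.lf (nat_lit 0) (nat_lit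 902975428) (nat_lit 756) (nat_lit 2244093788) (nat_lit 840) (nat_lit 4368862423) (nat_lit 157) (nat_lit 5) (nat_lit 166) (nat_lit 5) (nat_lit 167) (nat_lit 5) (nat_lit 310) (nat_lit 294) (nat_lit 260)) (XT.nd (nat_lit 94) (nat_lit 840) (nat_lit 0) (XT.lf (nat_lit 0) (nat_lit 4423796596) (nat_lit 756) (nat_lit 445707911) (nat_lit 840) (nat_lit 2732836038) (nat_lit 157) (nat_lit 5) (nat_lit 166) (nat_lit 5) (nat_lit 167) (nat_lit 5) (nat_lit 311) (nat_lit 294) (nat_lit 259)) (XT.lf (nat_lit 0) (nat_lit 312317189) (nat_lit 840) (nat_lit 6296798748) (nat_lit 924) (nat_lit 1083675943) (nat_lit 147) (nat_lit 5) (nat_lit 157) (nat_lit 5) (nat_lit 158) (nat_lit 5) (nat_lit 312) (nat_lit 294) (nat_lit 258)))))) (XT.nd (nat_lit 564) (nat_lit 2268) (nat_lit 0) (XT.nd (nat_lit 282) (nat_lit 1092) (nat_lit 0) (XT.nd (nat_lit 94) (nat_lit 924) (nat_lit 0) (XT.lf (nat_lit 0) (nat_lit 589395484) (nat_lit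 924) (nat_lit 3860478586) (nat_lit 84) (nat_lit 3336668668) (nat_lit 146) (nat_lit 5) (nat_lit 157) (nat_lit 5) (nat_lit 147) (nat_lit 5) (nat_lit 313) (nat_lit 294) (nat_lit 257)) (XT.nd (nat_lit 94) (nat_lit 924) (nat_lit 0) (XT.lf (nat_lit 0) (nat_lit 2240546455) (nat_lit 924) (nat_lit 284370078) (nat_lit 84) (nat_lit 5359749146) (nat_lit 146) (nat_lit 5) (nat_lit 157) (nat_lit 5) (nat_lit 147) (nat_lit 5) (nat_lit 314) (nat_lit 294) (nat_lit 256)) (XT.lf (nat_lit 0) (nat_lit 3431062604) (nat_lit 924) (nat_lit 496123634) (nat_lit 1008) (nat_lit 4059344053) (nat_lit 135) (nat_lit 5) (nat_lit 146) (nat_lit 5) (nat_lit 147) (nat_lit 5) (nat_lit 315) (nat_lit 294) (nat_lit 255)))) (XT.nd (nat_lit 94) (nat_lit 1092) (nat_lit 0) (XT.lf (nat_lit 0) (nat_lit 5636384452) (nat_lit 1008) (nat_lit 881666582) (nat_lit 84) (nat_lit 1574630062) (nat_lit 135) (nat_lit 5) (nat_lit 147) (nat_lit 5)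 (nat_lit 136) (nat_lit 5) (nat_lit 316) (nat_lit 294) (nat_lit 254)) (XT.nd (nat_lit 94) (nat_lit 84) (nat_lit 0) (XT.lf (nat_lit 0) (nat_lit 2918973776) (nat_lit 1008) (nat_lit 4466530543) (nat_lit 1092) (nat_lit 817223850) (nat_lit 123) (nat_lit 5) (nat_lit 135) (nat_lit 5) (nat_lit 136) (nat_lit 5) (nat_lit 317) (nat_lit 294) (nat_lit 253)) (XT.lf (nat_lit 0) (nat_lit 817634286) (nat_lit 1092) (nat_lit 1510049708) (nat_lit 84) (nat_lit 5989583840) (nat_lit 122) (nat_lit 5) (nat_lit 135) (nat_lit 5) (nat_lit 123) (nat_lit 5) (nat_lit 318) (nat_lit 294) (nat_lit 252))))) (XT.nd (nat_lit 282) (nat_lit 672) (nat_lit 0) (XT.nd (nat_lit 94) (nat_lit 504) (nat_lit 0) (XT.lf (nat_lit 0) (nat_lit 2379958764) (nat_lit 1092) (nat_lit 84512807) (nat_lit 1176) (nat_lit 5971484114) (nat_lit 109) (nat_lit 5) (nat_lit 122) (nat_lit 5) (nat_lit 123) (nat_lit 5) (nat_lit 319) (nat_lit 294) (nat_lit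 251)) (XT.nd (nat_lit 94) (nat_lit 504) (nat_lit 0) (XT.lf (nat_lit 0) (nat_lit 4156064870) (nat_lit 1176) (nat_lit 2198993202) (nat_lit 84) (nat_lit 2203637523) (nat_lit 109) (nat_lit 5) (nat_lit 123) (nat_lit 5) (nat_lit 110) (nat_lit 5) (nat_lit 320) (nat_lit 294) (nat_lit 250)) (XT.lf (nat_lit 0) (nat_lit 1772202388) (nat_lit 504) (nat_lit 4103349747) (nat_lit 588) (nat_lit 2810621437) (nat_lit 103) (nat_lit 5) (nat_lit 109) (nat_lit 5) (nat_lit 110) (nat_lit 5) (nat_lit 321) (nat_lit 294) (nat_lit 249)))) (XT.nd (nat_lit 94) (nat_lit 672) (nat_lit 0) (XT.lf (nat_lit 0) (nat_lit 5873312899) (nat_lit 504) (nat_lit 1755891037) (nat_lit 588) (nat_lit 1189159802) (nat_lit 103) (nat_lit 5) (nat_lit 109) (nat_lit 5) (nat_lit 110) (nat_lit 5) (nat_lit 322) (nat_lit 294) (nat_lit 248)) (XT.nd (nat_lit 94) (nat_lit 0) (nat_lit 0) (XT.lf (nat_lit 0) (nat_lit 449374178) (nat_lit 672) (nat_lit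 7837201764) (nat_lit 84) (nat_lit 668812183) (nat_lit 95) (nat_lit 5) (nat_lit 103) (nat_lit 5) (nat_lit 96) (nat_lit 5) (nat_lit 323) (nat_lit 294) (nat_lit 247)) (XT.lf (nat_lit 0) (nat_lit 2122480166) (nat_lit 672) (nat_lit 3796967786) (nat_lit 84) (nat_lit 3176724856) (nat_lit 95) (nat_lit 5) (nat_lit 103) (nat_lit 5) (nat_lit 96) (nat_lit 5) (nat_lit 324) (nat_lit 294) (nat_lit 246))))))) (XT.nd (nat_lit 1128) (nat_lit 1932) (nat_lit 0) (XT.nd (nat_lit 564) (nat_lit 924) (nat_lit 0) (XT.nd (nat_lit 282) (nat_lit 1008) (nat_lit 0) (XT.nd (nat_lit 94) (nat_lit 0) (nat_lit 0) (XT.lf (nat_lit 0) (nat_lit 335859735) (nat_lit 504) (nat_lit 3475609026) (nat_lit 588) (nat_lit 5431116391) (nat_lit 89) (nat_lit 5) (nat_lit 95) (nat_lit 5) (nat_lit 96) (nat_lit 5) (nat_lit 325) (nat_lit 294) (nat_lit 245)) (XT.nd (nat_lit 94) (nat_lit 0) (nat_lit 0) (XT.lf (nat_lit 0) (nat_lit 4638277197)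 (nat_lit 504) (nat_lit 915650951) (nat_lit 588) (nat_lit 3839717050) (nat_lit 89) (nat_lit 5) (nat_lit 95) (nat_lit 5) (nat_lit 96) (nat_lit 5) (nat_lit 326) (nat_lit 294) (nat_lit 244)) (XT.lf (nat_lit 0) (nat_lit 7330135749) (nat_lit 588) (nat_lit 531558119) (nat_lit 84) (nat_lit 1688461631) (nat_lit 89) (nat_lit 5) (nat_lit 96) (nat_lit 5) (nat_lit 90) (nat_lit 5) (nat_lit 327) (nat_lit 294) (nat_lit 243)))) (XT.nd (nat_lit 94) (nat_lit 504) (nat_lit 0) (XT.lf (nat_lit 0) (nat_lit 3853500605) (nat_lit 504) (nat_lit 5319253879) (nat_lit 588) (nat_lit 538546226) (nat_lit 83) (nat_lit 5) (nat_lit 89) (nat_lit 5) (nat_lit 90) (nat_lit 5) (nat_lit 328) (nat_lit 294) (nat_lit 242)) (XT.nd (nat_lit 94) (nat_lit 420) (nat_lit 0) (XT.lf (nat_lit 0) (nat_lit 1140562398) (nat_lit 588) (nat_lit 1541863266) (nat_lit 84) (nat_lit 7195717965) (nat_lit 82) (nat_lit 5) (nat_lit 89) (nat_lit 5) (nat_lit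 83) (nat_lit 5) (nat_lit 329) (nat_lit 294) (nat_lit 241)) (XT.lf (nat_lit 0) (nat_lit 2855295889) (nat_lit 504) (nat_lit 7127002668) (nat_lit 84) (nat_lit 67974926) (nat_lit 77) (nat_lit 5) (nat_lit 83) (nat_lit 5) (nat_lit 78) (nat_lit 5) (nat_lit 330) (nat_lit 294) (nat_lit 240))))) (XT.nd (nat_lit 282) (nat_lit 504) (nat_lit 0) (XT.nd (nat_lit 94) (nat_lit 420) (nat_lit 0) (XT.lf (nat_lit 0) (nat_lit 4632602280) (nat_lit 504) (nat_lit 2733397343) (nat_lit 84) (nat_lit 2861567233) (nat_lit 77) (nat_lit 5) (nat_lit 83) (nat_lit 5) (nat_lit 78) (nat_lit 5) (nat_lit 331) (nat_lit 294) (nat_lit 239)) (XT.nd (nat_lit 94) (nat_lit 0) (nat_lit 0) (XT.lf (nat_lit 0) (nat_lit 1795664894) (nat_lit 420) (nat_lit 4653906901) (nat_lit 504) (nat_lit 3961378766) (nat_lit 72) (nat_lit 5) (nat_lit 77) (nat_lit 5) (nat_lit 78) (nat_lit 5) (nat_lit 332) (nat_lit 294) (nat_lit 238)) (XT.lf (nat_lit 0)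 (nat_lit 6486524967) (nat_lit 420) (nat_lit 1832263949) (nat_lit 504) (nat_lit 2281469002) (nat_lit 72) (nat_lit 5) (nat_lit 77) (nat_lit 5) (nat_lit 78) (nat_lit 5) (nat_lit 333) (nat_lit 294) (nat_lit 237)))) (XT.nd (nat_lit 94) (nat_lit 84) (nat_lit 0) (XT.lf (nat_lit 0) (nat_lit 490056723) (nat_lit 420) (nat_lit 9739772026) (nat_lit 504) (nat_lit 566213812) (nat_lit 67) (nat_lit 5) (nat_lit 72) (nat_lit 5) (nat_lit 73) (nat_lit 5) (nat_lit 334) (nat_lit 294) (nat_lit 236)) (XT.nd (nat_lit 94) (nat_lit 0) (nat_lit 0) (XT.lf (nat_lit 0) (nat_lit 1208615645) (nat_lit 504) (nat_lit 5740780370) (nat_lit 84) (nat_lit 4047283972) (nat_lit 66) (nat_lit 5) (nat_lit 72) (nat_lit 5) (nat_lit 67) (nat_lit 5) (nat_lit 335) (nat_lit 294) (nat_lit 235)) (XT.lf (nat_lit 0) (nat_lit 2996155642) (nat_lit 504) (nat_lit 1075618355) (nat_lit 84) (nat_lit 7132630040) (nat_lit 66) (nat_lit 5) (nat_lit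 72) (nat_lit 5) (nat_lit 67) (nat_lit 5) (nat_lit 336) (nat_lit 294) (nat_lit 234)))))) (XT.nd (nat_lit 564) (nat_lit 756) (nat_lit 0) (XT.nd (nat_lit 282) (nat_lit 420) (nat_lit 0) (XT.nd (nat_lit 94) (nat_lit 336) (nat_lit 0) (XT.lf (nat_lit 0) (nat_lit 3775534135) (nat_lit 420) (nat_lit 1071399932) (nat_lit 504) (nat_lit 6571487323) (nat_lit 61) (nat_lit 5) (nat_lit 66) (nat_lit 5) (nat_lit 67) (nat_lit 5) (nat_lit 337) (nat_lit 294) (nat_lit 233)) (XT.nd (nat_lit 94) (nat_lit 336) (nat_lit 0) (XT.lf (nat_lit 0) (nat_lit 6757355872) (nat_lit 504) (nat_lit 2894313083) (nat_lit 84) (nat_lit 1987427499) (nat_lit 61) (nat_lit 5) (nat_lit 67) (nat_lit 5) (nat_lit 62) (nat_lit 5) (nat_lit 338) (nat_lit 294) (nat_lit 232)) (XT.lf (nat_lit 0) (nat_lit 1996505641) (nat_lit 336) (nat_lit 6733003331) (nat_lit 420) (nat_lit 3137116431) (nat_lit 57) (nat_lit 5) (nat_lit 61) (nat_lit 5) (nat_lit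 62) (nat_lit 5) (nat_lit 339) (nat_lit 294) (nat_lit 231)))) (XT.nd (nat_lit 94) (nat_lit 420) (nat_lit 0) (XT.lf (nat_lit 0) (nat_lit 7066415711) (nat_lit 336) (nat_lit 3698851998) (nat_lit 420) (nat_lit 1335951486) (nat_lit 57) (nat_lit 5) (nat_lit 61) (nat_lit 5) (nat_lit 62) (nat_lit 5) (nat_lit 340) (nat_lit 294) (nat_lit 230)) (XT.nd (nat_lit 94) (nat_lit 336) (nat_lit 0) (XT.lf (nat_lit 0) (nat_lit 483285099) (nat_lit 420) (nat_lit 88267897) (nat_lit 84) (nat_lit 11772300196) (nat_lit 56) (nat_lit 5) (nat_lit 61) (nat_lit 5) (nat_lit 57) (nat_lit 5) (nat_lit 341) (nat_lit 294) (nat_lit 229)) (XT.lf (nat_lit 0) (nat_lit 2381900114) (nat_lit 420) (nat_lit 7552288609) (nat_lit 84) (nat_lit 2657904108) (nat_lit 52) (nat_lit 5) (nat_lit 57) (nat_lit 5) (nat_lit 53) (nat_lit 5) (nat_lit 342) (nat_lit 294) (nat_lit 228))))) (XT.nd (nat_lit 282) (nat_lit 420) (nat_lit 0) (XT.nd (nat_lit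 94) (nat_lit 336) (nat_lit 0) (XT.lf (nat_lit 0) (nat_lit 4320116522) (nat_lit 420) (nat_lit 2558128169) (nat_lit 84) (nat_lit 5970458003) (nat_lit 52) (nat_lit 5) (nat_lit 57) (nat_lit 5) (nat_lit 53) (nat_lit 5) (nat_lit 343) (nat_lit 294) (nat_lit 227)) (XT.nd (nat_lit 94) (nat_lit 0) (nat_lit 0) (XT.lf (nat_lit 0) (nat_lit 2611466891) (nat_lit 336) (nat_lit 3707607475) (nat_lit 420) (nat_lit 6794248265) (nat_lit 48) (nat_lit 5) (nat_lit 52) (nat_lit 5) (nat_lit 53) (nat_lit 5) (nat_lit 344) (nat_lit 294) (nat_lit 226)) (XT.lf (nat_lit 0) (nat_lit 7963874750) (nat_lit 336) (nat_lit 418022388) (nat_lit 420) (nat_lit 5004263089) (nat_lit 48) (nat_lit 5) (nat_lit 52) (nat_lit 5) (nat_lit 53) (nat_lit 5) (nat_lit 345) (nat_lit 294) (nat_lit 225)))) (XT.nd (nat_lit 94) (nat_lit 420) (nat_lit 0) (XT.lf (nat_lit 0) (nat_lit 10514040625) (nat_lit 420) (nat_lit 246220380) (nat_lit 84) (nat_lit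 2907099270) (nat_lit 48) (nat_lit 5) (nat_lit 53) (nat_lit 5) (nat_lit 49) (nat_lit 5) (nat_lit 346) (nat_lit 294) (nat_lit 224)) (XT.nd (nat_lit 94) (nat_lit 84) (nat_lit 0) (XT.lf (nat_lit 0) (nat_lit 5159451190) (nat_lit 336) (nat_lit 7584887851) (nat_lit 420) (nat_lit 1212013586) (nat_lit 44) (nat_lit 5) (nat_lit 48) (nat_lit 5) (nat_lit 49) (nat_lit 5) (nat_lit 347) (nat_lit 294) (nat_lit 223)) (XT.lf (nat_lit 0) (nat_lit 752866976) (nat_lit 420) (nat_lit 3554926095) (nat_lit 84) (nat_lit 9946974421) (nat_lit 43) (nat_lit 5) (nat_lit 48) (nat_lit 5) (nat_lit 44) (nat_lit 5) (nat_lit 348) (nat_lit 294) (nat_lit 222))))))))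
noncomputable def xc102 : XT := (XT.nd (nat_lit 2256) (nat_lit 840) (nat_lit 0) (XT.nd (nat_lit 1128) (nat_lit 840) (nat_lit 0) (XT.nd (nat_lit 564) (nat_lit 588) (nat_lit 0) (XT.nd (nat_lit 282) (nat_lit 252) (nat_lit 0) (XT.nd (nat_lit 94) (nat_lit 0) (nat_lit 0) (XT.lf (nat_lit 0) (nat_lit 1844479147) (nat_lit 252) (nat_lit 904705054) (nat_lit 336) (nat_lit 11813060871) (nat_lit 40) (nat_lit 5) (nat_lit 43) (nat_lit 5) (nat_lit 44) (nat_lit 5) (nat_lit 349) (nat_lit 294) (nat_lit 221)) (XT.nd (nat_lit 94) (nat_lit 0) (nat_lit 0) (XT.lf (nat_lit 0) (nat_lit 4848421720) (nat_lit 336) (nat_lit 7447898117) (nat_lit 84) (nat_lit 2581723546) (nat_lit 40) (nat_lit 5) (nat_lit 44) (nat_lit 5) (nat_lit 41) (nat_lit 5) (nat_lit 350) (nat_lit 294) (nat_lit 220)) (XT.lf (nat_lit 0) (nat_lit 7000376593) (nat_lit 336) (nat_lit 2053221158) (nat_lit 84) (nat_lit 6150475982) (nat_lit 40) (nat_lit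 5) (nat_lit 44) (nat_lit 5) (nat_lit 41) (nat_lit 5) (nat_lit 351) (nat_lit 294) (nat_lit 219)))) (XT.nd (nat_lit 94) (nat_lit 0) (nat_lit 0) (XT.lf (nat_lit 0) (nat_lit 3551829594) (nat_lit 252) (nat_lit 5681484875) (nat_lit 336) (nat_lit 6306511491) (nat_lit 37) (nat_lit 5) (nat_lit 40) (nat_lit 5) (nat_lit 41) (nat_lit 5) (nat_lit 352) (nat_lit 294) (nat_lit 218)) (XT.nd (nat_lit 94) (nat_lit 0) (nat_lit 0) (XT.lf (nat_lit 0) (nat_lit 9346029241) (nat_lit 252) (nat_lit 2190264600) (nat_lit 336) (nat_lit 4349722891) (nat_lit 37) (nat_lit 5) (nat_lit 40) (nat_lit 5) (nat_lit 41) (nat_lit 5) (nat_lit 353) (nat_lit 294) (nat_lit 217)) (XT.lf (nat_lit 0) (nat_lit 13904581183) (nat_lit 336) (nat_lit 964959867) (nat_lit 84) (nat_lit 1373640965) (nat_lit 37) (nat_lit 5) (nat_lit 41) (nat_lit 5) (nat_lit 38) (nat_lit 5) (nat_lit 354) (nat_lit 294) (nat_lit 216))))) (XT.nd (nat_lit 282) (nat_lit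 252) (nat_lit 0) (XT.nd (nat_lit 94) (nat_lit 84) (nat_lit 0) (XT.lf (nat_lit 0) (nat_lit 4830769957) (nat_lit 252) (nat_lit 11566378176) (nat_lit 336) (nat_lit 212746906) (nat_lit 34) (nat_lit 5) (nat_lit 37) (nat_lit 5) (nat_lit 38) (nat_lit 5) (nat_lit 355) (nat_lit 294) (nat_lit 215)) (XT.nd (nat_lit 94) (nat_lit 0) (nat_lit 0) (XT.lf (nat_lit 0) (nat_lit 1929924671) (nat_lit 336) (nat_lit 6208000565) (nat_lit 84) (nat_lit 8849777144) (nat_lit 33) (nat_lit 5) (nat_lit 37) (nat_lit 5) (nat_lit 34) (nat_lit 5) (nat_lit 356) (nat_lit 294) (nat_lit 214)) (XT.lf (nat_lit 0) (nat_lit 4115796298) (nat_lit 336) (nat_lit 492754130) (nat_lit 84) (nat_lit 12769234555) (nat_lit 33) (nat_lit 5) (nat_lit 37) (nat_lit 5) (nat_lit 34) (nat_lit 5) (nat_lit 357) (nat_lit 294) (nat_lit 213)))) (XT.nd (nat_lit 94) (nat_lit 0) (nat_lit 0) (XT.lf (nat_lit 0) (nat_lit 5484553436) (nat_lit 252) (nat_lit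 921045824) (nat_lit 336) (nat_lit 11373285979) (nat_lit 30) (nat_lit 5) (nat_lit 33) (nat_lit 5) (nat_lit 34) (nat_lit 5) (nat_lit 358) (nat_lit 294) (nat_lit 212)) (XT.nd (nat_lit 94) (nat_lit 0) (nat_lit 0) (XT.lf (nat_lit 0) (nat_lit 8782144872) (nat_lit 336) (nat_lit 6589168030) (nat_lit 84) (nat_lit 2820663125) (nat_lit 30) (nat_lit 5) (nat_lit 34) (nat_lit 5) (nat_lit 31) (nat_lit 5) (nat_lit 359) (nat_lit 294) (nat_lit 211)) (XT.lf (nat_lit 0) (nat_lit 11224310402) (nat_lit 336) (nat_lit 741667438) (nat_lit 84) (nat_lit 6652188031) (nat_lit 30) (nat_lit 5) (nat_lit 34) (nat_lit 5) (nat_lit 31) (nat_lit 5) (nat_lit 360) (nat_lit 294) (nat_lit 210)))))) (XT.nd (nat_lit 564) (nat_lit 336) (nat_lit 0) (XT.nd (nat_lit 282) (nat_lit 336) (nat_lit 0) (XT.nd (nat_lit 94) (nat_lit 0) (nat_lit 0) (XT.lf (nat_lit 0) (nat_lit 5370970428) (nat_lit 168) (nat_lit 8407545576) (nat_lit 252) (nat_lit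 5277967560) (nat_lit 28) (nat_lit 5) (nat_lit 30) (nat_lit 5) (nat_lit 31) (nat_lit 5) (nat_lit 361) (nat_lit 294) (nat_lit 209)) (XT.nd (nat_lit 94) (nat_lit 0) (nat_lit 0) (XT.lf (nat_lit 0) (nat_lit 11664721206) (nat_lit 168) (nat_lit 4738245001) (nat_lit 252) (nat_lit 3105740920) (nat_lit 28) (nat_lit 5) (nat_lit 30) (nat_lit 5) (nat_lit 31) (nat_lit 5) (nat_lit 362) (nat_lit 294) (nat_lit 208)) (XT.lf (nat_lit 0) (nat_lit 18130201126) (nat_lit 168) (nat_lit 962397432) (nat_lit 252) (nat_lit 882892294) (nat_lit 28) (nat_lit 5) (nat_lit 30) (nat_lit 5) (nat_lit 31) (nat_lit 5) (nat_lit 363) (nat_lit 294) (nat_lit 207)))) (XT.nd (nat_lit 94) (nat_lit 0) (nat_lit 0) (XT.lf (nat_lit 0) (nat_lit 1437737326) (nat_lit 336) (nat_lit 16094262938) (nat_lit 84) (nat_lit 2922573770) (nat_lit 24) (nat_lit 5) (nat_lit 28) (nat_lit 5) (nat_lit 25) (nat_lit 5) (nat_lit 364) (nat_lit 294) (nat_lit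 206)) (XT.nd (nat_lit 94) (nat_lit 0) (nat_lit 0) (XT.lf (nat_lit 0) (nat_lit 3825560467) (nat_lit 336) (nat_lit 10192831956) (nat_lit 84) (nat_lit 6929451338) (nat_lit 24) (nat_lit 5) (nat_lit 28) (nat_lit 5) (nat_lit 25) (nat_lit 5) (nat_lit 365) (nat_lit 294) (nat_lit 205)) (XT.lf (nat_lit 0) (nat_lit 6272171067) (nat_lit 336) (nat_lit 4131012386) (nat_lit 84) (nat_lit 11053728889) (nat_lit 24) (nat_lit 5) (nat_lit 28) (nat_lit 5) (nat_lit 25) (nat_lit 5) (nat_lit 366) (nat_lit 294) (nat_lit 204))))) (XT.nd (nat_lit 282) (nat_lit 168) (nat_lit 0) (XT.nd (nat_lit 94) (nat_lit 0) (nat_lit 0) (XT.lf (nat_lit 0) (nat_lit 2139961474) (nat_lit 168) (nat_lit 6661116830) (nat_lit 252) (nat_lit 13180517892) (nat_lit 22) (nat_lit 5) (nat_lit 24) (nat_lit 5) (nat_lit 25) (nat_lit 5) (nat_lit 367) (nat_lit 294) (nat_lit 203)) (XT.nd (nat_lit 94) (nat_lit 0) (nat_lit 0) (XT.lf (nat_lit 0) (nat_lit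 8671254739) (nat_lit 168) (nat_lit 2765698734) (nat_lit 252) (nat_lit 11084739173) (nat_lit 22) (nat_lit 5) (nat_lit 24) (nat_lit 5) (nat_lit 25) (nat_lit 5) (nat_lit 368) (nat_lit 294) (nat_lit 202)) (XT.lf (nat_lit 0) (nat_lit 14152767186) (nat_lit 252) (nat_lit 7707324948) (nat_lit 84) (nat_lit 1218527059) (nat_lit 22) (nat_lit 5) (nat_lit 25) (nat_lit 5) (nat_lit 23) (nat_lit 5) (nat_lit 369) (nat_lit 294) (nat_lit 201)))) (XT.nd (nat_lit 94) (nat_lit 168) (nat_lit 0) (XT.lf (nat_lit 0) (nat_lit 16967305557) (nat_lit 252) (nat_lit 1422824510) (nat_lit 84) (nat_lit 5262260990) (nat_lit 22) (nat_lit 5) (nat_lit 25) (nat_lit 5) (nat_lit 23) (nat_lit 5) (nat_lit 370) (nat_lit 294) (nat_lit 200)) (XT.nd (nat_lit 94) (nat_lit 0) (nat_lit 0) (XT.lf (nat_lit 0) (nat_lit 5139915127) (nat_lit 168) (nat_lit 14766829422) (nat_lit 252) (nat_lit 4336068374) (nat_lit 20) (nat_lit 5) (nat_lit 22)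 (nat_lit 5) (nat_lit 23) (nat_lit 5) (nat_lit 371) (nat_lit 294) (nat_lit 199)) (XT.lf (nat_lit 0) (nat_lit 11916328558) (nat_lit 168) (nat_lit 11022693618) (nat_lit 252) (nat_lit 1912491810) (nat_lit 20) (nat_lit 5) (nat_lit 22) (nat_lit 5) (nat_lit 23) (nat_lit 5) (nat_lit 372) (nat_lit 294) (nat_lit 198))))))) (XT.nd (nat_lit 1128) (nat_lit 252) (nat_lit 0) (XT.nd (nat_lit 564) (nat_lit 336) (nat_lit 0) (XT.nd (nat_lit 282) (nat_lit 0) (nat_lit 0) (XT.nd (nat_lit 94) (nat_lit 168) (nat_lit 0) (XT.lf (nat_lit 0) (nat_lit 561506129) (nat_lit 252) (nat_lit 6601716994) (nat_lit 84) (nat_lit 18316108817) (nat_lit 19) (nat_lit 5) (nat_lit 22) (nat_lit 5) (nat_lit 20) (nat_lit 5) (nat_lit 373) (nat_lit 294) (nat_lit 197)) (XT.nd (nat_lit 94) (nat_lit 168) (nat_lit 0) (XT.lf (nat_lit 0) (nat_lit 3059960326) (nat_lit 252) (nat_lit 110508853) (nat_lit 84) (nat_lit 22955951284) (nat_lit 19)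 (nat_lit 5) (nat_lit 22) (nat_lit 5) (nat_lit 20) (nat_lit 5) (nat_lit 374) (nat_lit 294) (nat_lit 196)) (XT.lf (nat_lit 0) (nat_lit 5700183055) (nat_lit 252) (nat_lit 20103492906) (nat_lit 84) (nat_lit 987924903) (nat_lit 17) (nat_lit 5) (nat_lit 20) (nat_lit 5) (nat_lit 18) (nat_lit 5) (nat_lit 375) (nat_lit 294) (nat_lit 195)))) (XT.nd (nat_lit 94) (nat_lit 0) (nat_lit 0) (XT.lf (nat_lit 0) (nat_lit 8443830632) (nat_lit 252) (nat_lit 13828590761) (nat_lit 84) (nat_lit 5204336715) (nat_lit 17) (nat_lit 5) (nat_lit 20) (nat_lit 5) (nat_lit 18) (nat_lit 5) (nat_lit 376) (nat_lit 294) (nat_lit 194)) (XT.nd (nat_lit 94) (nat_lit 0) (nat_lit 0) (XT.lf (nat_lit 0) (nat_lit 11260878731) (nat_lit 252) (nat_lit 7377218095) (nat_lit 84) (nat_lit 9545444035) (nat_lit 17) (nat_lit 5) (nat_lit 20) (nat_lit 5) (nat_lit 18) (nat_lit 5) (nat_lit 377) (nat_lit 294) (nat_lit 193)) (XT.lf (nat_lit 0)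 (nat_lit 14153953137) (nat_lit 252) (nat_lit 743361555) (nat_lit 84) (nat_lit 14015293232) (nat_lit 17) (nat_lit 5) (nat_lit 20) (nat_lit 5) (nat_lit 18) (nat_lit 5) (nat_lit 378) (nat_lit 294) (nat_lit 192))))) (XT.nd (nat_lit 282) (nat_lit 168) (nat_lit 0) (XT.nd (nat_lit 94) (nat_lit 0) (nat_lit 0) (XT.lf (nat_lit 0) (nat_lit 6204162353) (nat_lit 168) (nat_lit 10983134201) (nat_lit 252) (nat_lit 12475434377) (nat_lit 15) (nat_lit 5) (nat_lit 17) (nat_lit 5) (nat_lit 18) (nat_lit 5) (nat_lit 379) (nat_lit 294) (nat_lit 191)) (XT.nd (nat_lit 94) (nat_lit 0) (nat_lit 0) (XT.lf (nat_lit 0) (nat_lit 13366008079) (nat_lit 168) (nat_lit 6945625213) (nat_lit 252) (nat_lit 10124590983) (nat_lit 15) (nat_lit 5) (nat_lit 17) (nat_lit 5) (nat_lit 18) (nat_lit 5) (nat_lit 380) (nat_lit 294) (nat_lit 190)) (XT.lf (nat_lit 0) (nat_lit 20733566174) (nat_lit 168) (nat_lit 2788783515) (nat_lit 252)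 (nat_lit 7711692544) (nat_lit 15) (nat_lit 5) (nat_lit 17) (nat_lit 5) (nat_lit 18) (nat_lit 5) (nat_lit 381) (nat_lit 294) (nat_lit 189)))) (XT.nd (nat_lit 94) (nat_lit 168) (nat_lit 0) (XT.lf (nat_lit 0) (nat_lit 26837232008) (nat_lit 252) (nat_lit 3758018020) (nat_lit 84) (nat_lit 1461219826) (nat_lit 15) (nat_lit 5) (nat_lit 18) (nat_lit 5) (nat_lit 16) (nat_lit 4) (nat_lit 382) (nat_lit 294) (nat_lit 188)) (XT.nd (nat_lit 94) (nat_lit 84) (nat_lit 0) (XT.lf (nat_lit 0) (nat_lit 3214079581) (nat_lit 84) (nat_lit 27091294110) (nat_lit 168) (nat_lit 2597473926) (nat_lit 14) (nat_lit 5) (nat_lit 15) (nat_lit 5) (nat_lit 16) (nat_lit 4) (nat_lit 383) (nat_lit 294) (nat_lit 187)) (XT.lf (nat_lit 0) (nat_lit 133181691) (nat_lit 168) (nat_lit 23309390053) (nat_lit 84) (nat_lit 10331955940) (nat_lit 13) (nat_lit 5) (nat_lit 15) (nat_lit 5) (nat_lit 14) (nat_lit 5) (nat_lit 384) (nat_lit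 294) (nat_lit 186)))))) (XT.nd (nat_lit 564) (nat_lit 84) (nat_lit 0) (XT.nd (nat_lit 282) (nat_lit 168) (nat_lit 0) (XT.nd (nat_lit 94) (nat_lit 0) (nat_lit 0) (XT.lf (nat_lit 0) (nat_lit 2884945876) (nat_lit 168) (nat_lit 16774020872) (nat_lit 84) (nat_lit 15013755251) (nat_lit 13) (nat_lit 5) (nat_lit 15) (nat_lit 5) (nat_lit 14) (nat_lit 5) (nat_lit 385) (nat_lit 294) (nat_lit 185)) (XT.nd (nat_lit 94) (nat_lit 0) (nat_lit 0) (XT.lf (nat_lit 0) (nat_lit 5712716872) (nat_lit 168) (nat_lit 10050801582) (nat_lit 84) (nat_lit 19835548105) (nat_lit 13) (nat_lit 5) (nat_lit 15) (nat_lit 5) (nat_lit 14) (nat_lit 5) (nat_lit 386) (nat_lit 294) (nat_lit 184)) (XT.lf (nat_lit 0) (nat_lit 8619130457) (nat_lit 168) (nat_lit 3133465439) (nat_lit 84) (nat_lit 24801828917) (nat_lit 13) (nat_lit 5) (nat_lit 15) (nat_lit 5) (nat_lit 14) (nat_lit 5) (nat_lit 387) (nat_lit 294) (nat_lit 183)))) (XT.nd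 (nat_lit 94) (nat_lit 0) (nat_lit 0) (XT.lf (nat_lit 0) (nat_lit 4066363399) (nat_lit 168) (nat_lit 7580871144) (nat_lit 252) (nat_lit 25891202211) (nat_lit 11) (nat_lit 5) (nat_lit 13) (nat_lit 5) (nat_lit 14) (nat_lit 5) (nat_lit 388) (nat_lit 294) (nat_lit 182)) (XT.nd (nat_lit 94) (nat_lit 0) (nat_lit 0) (XT.lf (nat_lit 0) (nat_lit 11542082318) (nat_lit 168) (nat_lit 3251214121) (nat_lit 252) (nat_lit 23758926353) (nat_lit 11) (nat_lit 5) (nat_lit 13) (nat_lit 5) (nat_lit 14) (nat_lit 5) (nat_lit 389) (nat_lit 294) (nat_lit 181)) (XT.lf (nat_lit 0) (nat_lit 18040505653) (nat_lit 252) (nat_lit 20373462890) (nat_lit 84) (nat_lit 1183371370) (nat_lit 11) (nat_lit 5) (nat_lit 14) (nat_lit 5) (nat_lit 12) (nat_lit 4) (nat_lit 390) (nat_lit 294) (nat_lit 180))))) (XT.nd (nat_lit 282) (nat_lit 0) (nat_lit 0) (XT.nd (nat_lit 94) (nat_lit 84) (nat_lit 0) (XT.lf (nat_lit 0) (nat_lit 21413473148)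 (nat_lit 252) (nat_lit 13577438747) (nat_lit 84) (nat_lit 5683181273) (nat_lit 11) (nat_lit 5) (nat_lit 14) (nat_lit 5) (nat_lit 12) (nat_lit 4) (nat_lit 391) (nat_lit 294) (nat_lit 179)) (XT.nd (nat_lit 94) (nat_lit 84) (nat_lit 0) (XT.lf (nat_lit 0) (nat_lit 24883090435) (nat_lit 252) (nat_lit 6583480992) (nat_lit 84) (nat_lit 10317914601) (nat_lit 11) (nat_lit 5) (nat_lit 14) (nat_lit 5) (nat_lit 12) (nat_lit 4) (nat_lit 392) (nat_lit 294) (nat_lit 178)) (XT.lf (nat_lit 0) (nat_lit 627573687) (nat_lit 84) (nat_lit 27831243483) (nat_lit 168) (nat_lit 14470543332) (nat_lit 10) (nat_lit 5) (nat_lit 11) (nat_lit 5) (nat_lit 12) (nat_lit 4) (nat_lit 393) (nat_lit 294) (nat_lit 177)))) (XT.nd (nat_lit 94) (nat_lit 0) (nat_lit 0) (XT.lf (nat_lit 0) (nat_lit 8189502556) (nat_lit 84) (nat_lit 24017042000) (nat_lit 168) (nat_lit 11901299871) (nat_lit 10) (nat_lit 5) (nat_lit 11) (nat_lit 5)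 (nat_lit 12) (nat_lit 4) (nat_lit 394) (nat_lit 294) (nat_lit 176)) (XT.nd (nat_lit 94) (nat_lit 0) (nat_lit 0) (XT.lf (nat_lit 0) (nat_lit 15973984252) (nat_lit 84) (nat_lit 20089129780) (nat_lit 168) (nat_lit 9259988446) (nat_lit 10) (nat_lit 5) (nat_lit 11) (nat_lit 5) (nat_lit 12) (nat_lit 4) (nat_lit 395) (nat_lit 294) (nat_lit 175)) (XT.lf (nat_lit 0) (nat_lit 23988274729) (nat_lit 84) (nat_lit 16043845600) (nat_lit 168) (nat_lit 6544147078) (nat_lit 10) (nat_lit 5) (nat_lit 11) (nat_lit 5) (nat_lit 12) (nat_lit 4) (nat_lit 396) (nat_lit 294) (nat_lit 174))))))))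
noncomputable def xc103 : XT := (XT.nd (nat_lit 44838) (nat_lit 0) (nat_lit 8736) (XT.nd (nat_lit 1128) (nat_lit 84) (nat_lit 0) (XT.nd (nat_lit 564) (nat_lit 84) (nat_lit 0) (XT.nd (nat_lit 282) (nat_lit 168) (nat_lit 0) (XT.nd (nat_lit 94) (nat_lit 84) (nat_lit 0) (XT.lf (nat_lit 0) (nat_lit 32239844143) (nat_lit 84) (nat_lit 11877418830) (nat_lit 168) (nat_lit 3751244318) (nat_lit 10) (nat_lit 5) (nat_lit 11) (nat_lit 5) (nat_lit 12) (nat_lit 4) (nat_lit 397) (nat_lit 294) (nat_lit 173)) (XT.nd (nat_lit 94) (nat_lit 84) (nat_lit 0) (XT.lf (nat_lit 0) (nat_lit 40736383824) (nat_lit 84) (nat_lit 7585965925) (nat_lit 168) (nat_lit 878676889) (nat_lit 10) (nat_lit 5) (nat_lit 11) (nat_lit 5) (nat_lit 12) (nat_lit 4) (nat_lit 398) (nat_lit 294) (nat_lit 172)) (XT.lf (nat_lit 0) (nat_lit 2034401280) (nat_lit 168) (nat_lit 1109850542) (nat_lit 84) (nat_lit 47430177176) (nat_lit 9) (nat_lit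 5) (nat_lit 11) (nat_lit 5) (nat_lit 10) (nat_lit 5) (nat_lit 399) (nat_lit 294) (nat_lit 171)))) (XT.nd (nat_lit 94) (nat_lit 0) (nat_lit 0) (XT.lf (nat_lit 0) (nat_lit 5093453047) (nat_lit 252) (nat_lit 45416945848) (nat_lit 84) (nat_lit 1477449195) (nat_lit 7) (nat_lit 5) (nat_lit 10) (nat_lit 5) (nat_lit 8) (nat_lit 4) (nat_lit 400) (nat_lit 294) (nat_lit 170)) (XT.nd (nat_lit 94) (nat_lit 0) (nat_lit 0) (XT.lf (nat_lit 0) (nat_lit 8284873279) (nat_lit 252) (nat_lit 38974105864) (nat_lit 84) (nat_lit 6184951392) (nat_lit 7) (nat_lit 5) (nat_lit 10) (nat_lit 5) (nat_lit 8) (nat_lit 4) (nat_lit 401) (nat_lit 294) (nat_lit 169)) (XT.lf (nat_lit 0) (nat_lit 11569094188) (nat_lit 252) (nat_lit 32341617027) (nat_lit 84) (nat_lit 11034641158) (nat_lit 7) (nat_lit 5) (nat_lit 10) (nat_lit 5) (nat_lit 8) (nat_lit 4) (nat_lit 402) (nat_lit 294) (nat_lit 168))))) (XT.nd (nat_lit 282) (nat_lit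 84) (nat_lit 0) (XT.nd (nat_lit 94) (nat_lit 0) (nat_lit 0) (XT.lf (nat_lit 0) (nat_lit 14949177011) (nat_lit 252) (nat_lit 25513297163) (nat_lit 84) (nat_lit 16031038913) (nat_lit 7) (nat_lit 5) (nat_lit 10) (nat_lit 5) (nat_lit 8) (nat_lit 4) (nat_lit 403) (nat_lit 294) (nat_lit 167)) (XT.nd (nat_lit 94) (nat_lit 0) (nat_lit 0) (XT.lf (nat_lit 0) (nat_lit 18428272340) (nat_lit 252) (nat_lit 18482781564) (nat_lit 84) (nat_lit 21178801823) (nat_lit 7) (nat_lit 5) (nat_lit 10) (nat_lit 5) (nat_lit 8) (nat_lit 4) (nat_lit 404) (nat_lit 294) (nat_lit 166)) (XT.lf (nat_lit 0) (nat_lit 22009623056) (nat_lit 252) (nat_lit 11243517050) (nat_lit 84) (nat_lit 26482728142) (nat_lit 7) (nat_lit 5) (nat_lit 10) (nat_lit 5) (nat_lit 8) (nat_lit 4) (nat_lit 405) (nat_lit 294) (nat_lit 165)))) (XT.nd (nat_lit 94) (nat_lit 84) (nat_lit 0) (XT.lf (nat_lit 0) (nat_lit 25696567353) (nat_lit 252) (nat_lit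 3788755871) (nat_lit 84) (nat_lit 31947761685) (nat_lit 7) (nat_lit 5) (nat_lit 10) (nat_lit 5) (nat_lit 8) (nat_lit 4) (nat_lit 406) (nat_lit 294) (nat_lit 164)) (XT.nd (nat_lit 94) (nat_lit 0) (nat_lit 0) (XT.lf (nat_lit 0) (nat_lit 3968405111) (nat_lit 84) (nat_lit 25563503807) (nat_lit 168) (nat_lit 33649958395) (nat_lit 6) (nat_lit 5) (nat_lit 7) (nat_lit 5) (nat_lit 8) (nat_lit 4) (nat_lit 407) (nat_lit 294) (nat_lit 163)) (XT.lf (nat_lit 0) (nat_lit 12037793002) (nat_lit 84) (nat_lit 21482708183) (nat_lit 168) (nat_lit 31463304689) (nat_lit 6) (nat_lit 5) (nat_lit 7) (nat_lit 5) (nat_lit 8) (nat_lit 4) (nat_lit 408) (nat_lit 294) (nat_lit 162)))))) (XT.nd (nat_lit 564) (nat_lit 84) (nat_lit 0) (XT.nd (nat_lit 282) (nat_lit 0) (nat_lit 0) (XT.nd (nat_lit 94) (nat_lit 0) (nat_lit 0) (XT.lf (nat_lit 0) (nat_lit 20349024726) (nat_lit 84) (nat_lit 17278679464) (nat_lit 168) (nat_lit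 29214065091) (nat_lit 6) (nat_lit 5) (nat_lit 7) (nat_lit 5) (nat_lit 8) (nat_lit 4) (nat_lit 409) (nat_lit 294) (nat_lit 161)) (XT.nd (nat_lit 94) (nat_lit 0) (nat_lit 0) (XT.lf (nat_lit 0) (nat_lit 28909847221) (nat_lit 84) (nat_lit 12947499055) (nat_lit 168) (nat_lit 26900143072) (nat_lit 6) (nat_lit 5) (nat_lit 7) (nat_lit 5) (nat_lit 8) (nat_lit 4) (nat_lit 410) (nat_lit 294) (nat_lit 160)) (XT.lf (nat_lit 0) (nat_lit 37728240071) (nat_lit 84) (nat_lit 8485129842) (nat_lit 168) (nat_lit 24519381816) (nat_lit 6) (nat_lit 5) (nat_lit 7) (nat_lit 5) (nat_lit 8) (nat_lit 4) (nat_lit 411) (nat_lit 294) (nat_lit 159)))) (XT.nd (nat_lit 94) (nat_lit 0) (nat_lit 0) (XT.lf (nat_lit 0) (nat_lit 46812422940) (nat_lit 84) (nat_lit 3887412429) (nat_lit 168) (nat_lit 22069562203) (nat_lit 6) (nat_lit 5) (nat_lit 7) (nat_lit 5) (nat_lit 8) (nat_lit 4) (nat_lit 412) (nat_lit 294) (nat_lit 158))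 (XT.nd (nat_lit 94) (nat_lit 0) (nat_lit 0) (XT.lf (nat_lit 0) (nat_lit 55329356000) (nat_lit 168) (nat_lit 18706893505) (nat_lit 0) (nat_lit 832814365) (nat_lit 6) (nat_lit 5) (nat_lit 8) (nat_lit 4) (nat_lit 6) (nat_lit 4) (nat_lit 413) (nat_lit 294) (nat_lit 157)) (XT.lf (nat_lit 0) (nat_lit 60137800247) (nat_lit 168) (nat_lit 11279063686) (nat_lit 0) (nat_lit 5615865649) (nat_lit 6) (nat_lit 5) (nat_lit 8) (nat_lit 4) (nat_lit 6) (nat_lit 4) (nat_lit 414) (nat_lit 294) (nat_lit 156))))) (XT.nd (nat_lit 282) (nat_lit 0) (nat_lit 0) (XT.nd (nat_lit 94) (nat_lit 84) (nat_lit 0) (XT.lf (nat_lit 0) (nat_lit 65091086472) (nat_lit 168) (nat_lit 3627998047) (nat_lit 0) (nat_lit 10544522424) (nat_lit 6) (nat_lit 5) (nat_lit 8) (nat_lit 4) (nat_lit 6) (nat_lit 4) (nat_lit 415) (nat_lit 294) (nat_lit 155)) (XT.nd (nat_lit 94) (nat_lit 0) (nat_lit 0) (XT.lf (nat_lit 0) (nat_lit 4340894354) (nat_lit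 84) (nat_lit 65895999511) (nat_lit 84) (nat_lit 11325546569) (nat_lit 5) (nat_lit 4) (nat_lit 6) (nat_lit 5) (nat_lit 6) (nat_lit 4) (nat_lit 416) (nat_lit 294) (nat_lit 154)) (XT.lf (nat_lit 0) (nat_lit 12626987453) (nat_lit 84) (nat_lit 62949065917) (nat_lit 84) (nat_lit 8355442370) (nat_lit 5) (nat_lit 4) (nat_lit 6) (nat_lit 5) (nat_lit 6) (nat_lit 4) (nat_lit 417) (nat_lit 294) (nat_lit 153)))) (XT.nd (nat_lit 42676) (nat_lit 0) (nat_lit 15288) (XT.lf (nat_lit 0) (nat_lit 21163405678) (nat_lit 84) (nat_lit 59913405744) (nat_lit 84) (nat_lit 5297308283) (nat_lit 5) (nat_lit 4) (nat_lit 6) (nat_lit 5) (nat_lit 6) (nat_lit 4) (nat_lit 418) (nat_lit 294) (nat_lit 152)) (XT.nd (nat_lit 94) (nat_lit 588) (nat_lit 0) (XT.lf (nat_lit 0) (nat_lit 1414288238) (nat_lit 0) (nat_lit 1414288238) (nat_lit 420) (nat_lit 511777355) (nat_lit 194) (nat_lit 5) (nat_lit 194) (nat_lit 3) (nat_lit 199)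 (nat_lit 3) (nat_lit 295) (nat_lit 295) (nat_lit 274)) (XT.lf (nat_lit 0) (nat_lit 860960642) (nat_lit 588) (nat_lit 1142863455) (nat_lit 588) (nat_lit 4712443730) (nat_lit 187) (nat_lit 3) (nat_lit 194) (nat_lit 3) (nat_lit 194) (nat_lit 5) (nat_lit 296) (nat_lit 295) (nat_lit 273))))))) (XT.nd (nat_lit 1128) (nat_lit 4704) (nat_lit 0) (XT.nd (nat_lit 564) (nat_lit 1344) (nat_lit 0) (XT.nd (nat_lit 282) (nat_lit 504) (nat_lit 0) (XT.nd (nat_lit 94) (nat_lit 0) (nat_lit 0) (XT.lf (nat_lit 84) (nat_lit 1633593487) (nat_lit 0) (nat_lit 1089513302) (nat_lit 588) (nat_lit 4031749280) (nat_lit 188) (nat_lit 5) (nat_lit 187) (nat_lit 3) (nat_lit 194) (nat_lit 5) (nat_lit 297) (nat_lit 295) (nat_lit 272)) (XT.nd (nat_lit 94) (nat_lit 0) (nat_lit 84) (XT.lf (nat_lit 84) (nat_lit 4481503199) (nat_lit 0) (nat_lit 99564205) (nat_lit 588) (nat_lit 2215885126) (nat_lit 188) (nat_lit 5) (nat_lit 187)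 (nat_lit 3) (nat_lit 194) (nat_lit 5) (nat_lit 298) (nat_lit 295) (nat_lit 271)) (XT.lf (nat_lit 84) (nat_lit 538439958) (nat_lit 0) (nat_lit 5901379152) (nat_lit 588) (nat_lit 402676750) (nat_lit 189) (nat_lit 5) (nat_lit 188) (nat_lit 5) (nat_lit 195) (nat_lit 5) (nat_lit 299) (nat_lit 295) (nat_lit 270)))) (XT.nd (nat_lit 94) (nat_lit 0) (nat_lit 0) (XT.lf (nat_lit 0) (nat_lit 1392010621) (nat_lit 588) (nat_lit 3416645898) (nat_lit 672) (nat_lit 2082102342) (nat_lit 181) (nat_lit 5) (nat_lit 188) (nat_lit 5) (nat_lit 189) (nat_lit 5) (nat_lit 300) (nat_lit 295) (nat_lit 269)) (XT.nd (nat_lit 94) (nat_lit 0) (nat_lit 0) (XT.lf (nat_lit 0) (nat_lit 3165479004) (nat_lit 588) (nat_lit 484595801) (nat_lit 672) (nat_lit 3292786287) (nat_lit 181) (nat_lit 5) (nat_lit 188) (nat_lit 5) (nat_lit 189) (nat_lit 5) (nat_lit 301) (nat_lit 295) (nat_lit 268)) (XT.lf (nat_lit 84) (nat_lit 2550202874)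 (nat_lit 0) (nat_lit 2402589949) (nat_lit 672) (nat_lit 2045397879) (nat_lit 182) (nat_lit 5) (nat_lit 181) (nat_lit 5) (nat_lit 189) (nat_lit 5) (nat_lit 302) (nat_lit 295) (nat_lit 267))))) (XT.nd (nat_lit 282) (nat_lit 756) (nat_lit 0) (XT.nd (nat_lit 94) (nat_lit 588) (nat_lit 0) (XT.lf (nat_lit 84) (nat_lit 5650227771) (nat_lit 0) (nat_lit 1085522666) (nat_lit 672) (nat_lit 321664724) (nat_lit 182) (nat_lit 5) (nat_lit 181) (nat_lit 5) (nat_lit 189) (nat_lit 5) (nat_lit 303) (nat_lit 295) (nat_lit 266)) (XT.nd (nat_lit 94) (nat_lit 0) (nat_lit 0) (XT.lf (nat_lit 0) (nat_lit 1382563150) (nat_lit 672) (nat_lit 5414764469) (nat_lit 756) (nat_lit 322360058) (nat_lit 174) (nat_lit 5) (nat_lit 182) (nat_lit 5) (nat_lit 183) (nat_lit 5) (nat_lit 304) (nat_lit 295) (nat_lit 265)) (XT.lf (nat_lit 0) (nat_lit 3096815168) (nat_lit 672) (nat_lit 2296264505) (nat_lit 756) (nat_lit 1792127227)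 (nat_lit 174) (nat_lit 5) (nat_lit 182) (nat_lit 5) (nat_lit 183) (nat_lit 5) (nat_lit 305) (nat_lit 295) (nat_lit 264)))) (XT.nd (nat_lit 94) (nat_lit 756) (nat_lit 0) (XT.lf (nat_lit 84) (nat_lit 896597431) (nat_lit 0) (nat_lit 3916306210) (nat_lit 756) (nat_lit 2441733434) (nat_lit 175) (nat_lit 5) (nat_lit 174) (nat_lit 5) (nat_lit 183) (nat_lit 5) (nat_lit 306) (nat_lit 295) (nat_lit 263)) (XT.nd (nat_lit 94) (nat_lit 756) (nat_lit 0) (XT.lf (nat_lit 84) (nat_lit 4197150492) (nat_lit 0) (nat_lit 2350222540) (nat_lit 756) (nat_lit 780206595) (nat_lit 175) (nat_lit 5) (nat_lit 174) (nat_lit 5) (nat_lit 183) (nat_lit 5) (nat_lit 307) (nat_lit 295) (nat_lit 262)) (XT.lf (nat_lit 84) (nat_lit 150802440) (nat_lit 0) (nat_lit 706858245) (nat_lit 840) (nat_lit 6546847459) (nat_lit 166) (nat_lit 5) (nat_lit 165) (nat_lit 5) (nat_lit 175) (nat_lit 5) (nat_lit 308) (nat_lit 295) (nat_lit 261))))))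 (XT.nd (nat_lit 564) (nat_lit 3108) (nat_lit 0) (XT.nd (nat_lit 282) (nat_lit 924) (nat_lit 0) (XT.nd (nat_lit 94) (nat_lit 756) (nat_lit 0) (XT.lf (nat_lit 0) (nat_lit 2516542552) (nat_lit 756) (nat_lit 3942788731) (nat_lit 84) (nat_lit 1024919045) (nat_lit 166) (nat_lit 5) (nat_lit 175) (nat_lit 5) (nat_lit 167) (nat_lit 5) (nat_lit 309) (nat_lit 295) (nat_lit 260)) (XT.nd (nat_lit 94) (nat_lit 756) (nat_lit 0) (XT.lf (nat_lit 0) (nat_lit 4179416156) (nat_lit 756) (nat_lit 577186754) (nat_lit 84) (nat_lit 2811580475) (nat_lit 166) (nat_lit 5) (nat_lit 175) (nat_lit 5) (nat_lit 167) (nat_lit 5) (nat_lit 310) (nat_lit 295) (nat_lit 259)) (XT.lf (nat_lit 0) (nat_lit 2911918100) (nat_lit 756) (nat_lit 2957787836) (nat_lit 840) (nat_lit 1786001504) (nat_lit 157) (nat_lit 5) (nat_lit 166) (nat_lit 5) (nat_lit 167) (nat_lit 5) (nat_lit 311) (nat_lit 295) (nat_lit 258)))) (XT.nd (nat_lit 94)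 (nat_lit 924) (nat_lit 0) (XT.lf (nat_lit 0) (nat_lit 6482321714) (nat_lit 756) (nat_lit 1084284450) (nat_lit 840) (nat_lit 180991730) (nat_lit 157) (nat_lit 5) (nat_lit 166) (nat_lit 5) (nat_lit 167) (nat_lit 5) (nat_lit 312) (nat_lit 295) (nat_lit 257)) (XT.nd (nat_lit 94) (nat_lit 0) (nat_lit 0) (XT.lf (nat_lit 0) (nat_lit 1424949318) (nat_lit 924) (nat_lit 5538001294) (nat_lit 84) (nat_lit 879746039) (nat_lit 146) (nat_lit 5) (nat_lit 157) (nat_lit 5) (nat_lit 147) (nat_lit 5) (nat_lit 313) (nat_lit 295) (nat_lit 256)) (XT.lf (nat_lit 0) (nat_lit 3051613123) (nat_lit 924) (nat_lit 1981914181) (nat_lit 84) (nat_lit 2908156390) (nat_lit 146) (nat_lit 5) (nat_lit 157) (nat_lit 5) (nat_lit 147) (nat_lit 5) (nat_lit 314) (nat_lit 295) (nat_lit 255))))) (XT.nd (nat_lit 282) (nat_lit 1176) (nat_lit 0) (XT.nd (nat_lit 94) (nat_lit 1008) (nat_lit 0) (XT.lf (nat_lit 0) (nat_lit 1678794816)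 (nat_lit 924) (nat_lit 3018324488) (nat_lit 1008) (nat_lit 3347805987) (nat_lit 135) (nat_lit 5) (nat_lit 146) (nat_lit 5) (nat_lit 147) (nat_lit 5) (nat_lit 315) (nat_lit 295) (nat_lit 254)) (XT.nd (nat_lit 94) (nat_lit 1008) (nat_lit 0) (XT.lf (nat_lit 0) (nat_lit 5455959844) (nat_lit 924) (nat_lit 911188516) (nat_lit 1008) (nat_lit 1785240760) (nat_lit 135) (nat_lit 5) (nat_lit 146) (nat_lit 5) (nat_lit 147) (nat_lit 5) (nat_lit 316) (nat_lit 295) (nat_lit 253)) (XT.lf (nat_lit 0) (nat_lit 1056242762) (nat_lit 1008) (nat_lit 7010017331) (nat_lit 1092) (nat_lit 197822163) (nat_lit 123) (nat_lit 5) (nat_lit 135) (nat_lit 5) (nat_lit 136) (nat_lit 5) (nat_lit 317) (nat_lit 295) (nat_lit 252)))) (XT.nd (nat_lit 94) (nat_lit 1092) (nat_lit 0) (XT.lf (nat_lit 0) (nat_lit 1402234756) (nat_lit 1092) (nat_lit 3460108816) (nat_lit 84) (nat_lit 3516869973) (nat_lit 122) (nat_lit 5) (nat_lit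 135) (nat_lit 5) (nat_lit 123) (nat_lit 5) (nat_lit 318) (nat_lit 295) (nat_lit 251)) (XT.nd (nat_lit 94) (nat_lit 0) (nat_lit 0) (XT.lf (nat_lit 0) (nat_lit 370173731) (nat_lit 1092) (nat_lit 2637310507) (nat_lit 1176) (nat_lit 5491793808) (nat_lit 109) (nat_lit 5) (nat_lit 122) (nat_lit 5) (nat_lit 123) (nat_lit 5) (nat_lit 319) (nat_lit 295) (nat_lit 250)) (XT.lf (nat_lit 0) (nat_lit 4353880300) (nat_lit 1092) (nat_lit 301699018) (nat_lit 1176) (nat_lit 3967871878) (nat_lit 109) (nat_lit 5) (nat_lit 122) (nat_lit 5) (nat_lit 123) (nat_lit 5) (nat_lit 320) (nat_lit 295) (nat_lit 249))))))))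
noncomputable def xc104 : XT := (XT.nd (nat_lit 2256) (nat_lit 2520) (nat_lit 0) (XT.nd (nat_lit 1128) (nat_lit 2100) (nat_lit 0) (XT.nd (nat_lit 564) (nat_lit 1008) (nat_lit 0) (XT.nd (nat_lit 282) (nat_lit 1092) (nat_lit 0) (XT.nd (nat_lit 94) (nat_lit 588) (nat_lit 0) (XT.lf (nat_lit 0) (nat_lit 6333962633) (nat_lit 1176) (nat_lit 350294433) (nat_lit 84) (nat_lit 2068028577) (nat_lit 109) (nat_lit 5) (nat_lit 123) (nat_lit 5) (nat_lit 110) (nat_lit 5) (nat_lit 321) (nat_lit 295) (nat_lit 248)) (XT.nd (nat_lit 94) (nat_lit 84) (nat_lit 0) (XT.lf (nat_lit 0) (nat_lit 3724601659) (nat_lit 504) (nat_lit 4339364479) (nat_lit 588) (nat_lit 821322541) (nat_lit 103) (nat_lit 5) (nat_lit 109) (nat_lit 5) (nat_lit 110) (nat_lit 5) (nat_lit 322) (nat_lit 295) (nat_lit 247)) (XT.lf (nat_lit 0) (nat_lit 772094728) (nat_lit 588) (nat_lit 1135709019) (nat_lit 84) (nat_lit 7115640122) (nat_lit 102)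 (nat_lit 5) (nat_lit 109) (nat_lit 5) (nat_lit 103) (nat_lit 5) (nat_lit 323) (nat_lit 295) (nat_lit 246)))) (XT.nd (nat_lit 94) (nat_lit 504) (nat_lit 0) (XT.lf (nat_lit 0) (nat_lit 2395301755) (nat_lit 672) (nat_lit 6142994033) (nat_lit 84) (nat_lit 627552426) (nat_lit 95) (nat_lit 5) (nat_lit 103) (nat_lit 5) (nat_lit 96) (nat_lit 5) (nat_lit 324) (nat_lit 295) (nat_lit 245)) (XT.nd (nat_lit 94) (nat_lit 504) (nat_lit 0) (XT.lf (nat_lit 0) (nat_lit 4062182946) (nat_lit 672) (nat_lit 2035759156) (nat_lit 84) (nat_lit 3215074389) (nat_lit 95) (nat_lit 5) (nat_lit 103) (nat_lit 5) (nat_lit 96) (nat_lit 5) (nat_lit 325) (nat_lit 295) (nat_lit 244)) (XT.lf (nat_lit 0) (nat_lit 2206163696) (nat_lit 504) (nat_lit 3559472448) (nat_lit 588) (nat_lit 3699718065) (nat_lit 89) (nat_lit 5) (nat_lit 95) (nat_lit 5) (nat_lit 96) (nat_lit 5) (nat_lit 326) (nat_lit 295) (nat_lit 243))))) (XT.nd (nat_lit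 282) (nat_lit 420) (nat_lit 0) (XT.nd (nat_lit 94) (nat_lit 588) (nat_lit 0) (XT.lf (nat_lit 0) (nat_lit 6586033052) (nat_lit 504) (nat_lit 920873708) (nat_lit 588) (nat_lit 2116107218) (nat_lit 89) (nat_lit 5) (nat_lit 95) (nat_lit 5) (nat_lit 96) (nat_lit 5) (nat_lit 327) (nat_lit 295) (nat_lit 242)) (XT.nd (nat_lit 94) (nat_lit 84) (nat_lit 0) (XT.lf (nat_lit 0) (nat_lit 1287381277) (nat_lit 504) (nat_lit 8010244252) (nat_lit 588) (nat_lit 488206984) (nat_lit 83) (nat_lit 5) (nat_lit 89) (nat_lit 5) (nat_lit 90) (nat_lit 5) (nat_lit 328) (nat_lit 295) (nat_lit 241)) (XT.lf (nat_lit 0) (nat_lit 1172686500) (nat_lit 588) (nat_lit 4201374628) (nat_lit 84) (nat_lit 4579192659) (nat_lit 82) (nat_lit 5) (nat_lit 89) (nat_lit 5) (nat_lit 83) (nat_lit 5) (nat_lit 329) (nat_lit 295) (nat_lit 240)))) (XT.nd (nat_lit 94) (nat_lit 0) (nat_lit 0) (XT.lf (nat_lit 0) (nat_lit 191608990) (nat_lit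 420) (nat_lit 2651333632) (nat_lit 504) (nat_lit 7283878603) (nat_lit 77) (nat_lit 5) (nat_lit 82) (nat_lit 5) (nat_lit 83) (nat_lit 5) (nat_lit 330) (nat_lit 295) (nat_lit 239)) (XT.nd (nat_lit 94) (nat_lit 0) (nat_lit 0) (XT.lf (nat_lit 0) (nat_lit 4577577889) (nat_lit 504) (nat_lit 5533485312) (nat_lit 84) (nat_lit 194431221) (nat_lit 77) (nat_lit 5) (nat_lit 83) (nat_lit 5) (nat_lit 78) (nat_lit 5) (nat_lit 331) (nat_lit 295) (nat_lit 238)) (XT.lf (nat_lit 0) (nat_lit 6360856818) (nat_lit 504) (nat_lit 1058235047) (nat_lit 84) (nat_lit 3070885975) (nat_lit 77) (nat_lit 5) (nat_lit 83) (nat_lit 5) (nat_lit 78) (nat_lit 5) (nat_lit 332) (nat_lit 295) (nat_lit 237)))))) (XT.nd (nat_lit 564) (nat_lit 756) (nat_lit 0) (XT.nd (nat_lit 282) (nat_lit 420) (nat_lit 0) (XT.nd (nat_lit 94) (nat_lit 504) (nat_lit 0) (XT.lf (nat_lit 0) (nat_lit 3593410736) (nat_lit 420) (nat_lit 4610376399) (nat_lit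 504) (nat_lit 2476366593) (nat_lit 72) (nat_lit 5) (nat_lit 77) (nat_lit 5) (nat_lit 78) (nat_lit 5) (nat_lit 333) (nat_lit 295) (nat_lit 236)) (XT.nd (nat_lit 94) (nat_lit 504) (nat_lit 0) (XT.lf (nat_lit 0) (nat_lit 8377306785) (nat_lit 420) (nat_lit 1706909314) (nat_lit 504) (nat_lit 792723237) (nat_lit 72) (nat_lit 5) (nat_lit 77) (nat_lit 5) (nat_lit 78) (nat_lit 5) (nat_lit 334) (nat_lit 295) (nat_lit 235)) (XT.lf (nat_lit 0) (nat_lit 929131107) (nat_lit 504) (nat_lit 8861723793) (nat_lit 84) (nat_lit 1288624168) (nat_lit 66) (nat_lit 5) (nat_lit 72) (nat_lit 5) (nat_lit 67) (nat_lit 5) (nat_lit 335) (nat_lit 295) (nat_lit 234)))) (XT.nd (nat_lit 94) (nat_lit 420) (nat_lit 0) (XT.lf (nat_lit 0) (nat_lit 2702082686) (nat_lit 504) (nat_lit 4213646045) (nat_lit 84) (nat_lit 4371974103) (nat_lit 66) (nat_lit 5) (nat_lit 72) (nat_lit 5) (nat_lit 67) (nat_lit 5) (nat_lit 336) (nat_lit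 295) (nat_lit 233)) (XT.nd (nat_lit 94) (nat_lit 0) (nat_lit 0) (XT.lf (nat_lit 0) (nat_lit 556070856) (nat_lit 420) (nat_lit 3950703005) (nat_lit 504) (nat_lit 6996421078) (nat_lit 61) (nat_lit 5) (nat_lit 66) (nat_lit 5) (nat_lit 67) (nat_lit 5) (nat_lit 337) (nat_lit 295) (nat_lit 232)) (XT.lf (nat_lit 0) (nat_lit 5529661944) (nat_lit 420) (nat_lit 853525763) (nat_lit 504) (nat_lit 5341781206) (nat_lit 61) (nat_lit 5) (nat_lit 66) (nat_lit 5) (nat_lit 67) (nat_lit 5) (nat_lit 338) (nat_lit 295) (nat_lit 231))))) (XT.nd (nat_lit 282) (nat_lit 420) (nat_lit 0) (XT.nd (nat_lit 94) (nat_lit 336) (nat_lit 0) (XT.lf (nat_lit 0) (nat_lit 8313574451) (nat_lit 504) (nat_lit 1352592588) (nat_lit 84) (nat_lit 2287668899) (nat_lit 61) (nat_lit 5) (nat_lit 67) (nat_lit 5) (nat_lit 62) (nat_lit 5) (nat_lit 339) (nat_lit 295) (nat_lit 230)) (XT.nd (nat_lit 94) (nat_lit 0) (nat_lit 0) (XT.lf (nat_lit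 0) (nat_lit 3673324609) (nat_lit 336) (nat_lit 6649066313) (nat_lit 420) (nat_lit 1866916036) (nat_lit 57) (nat_lit 5) (nat_lit 61) (nat_lit 5) (nat_lit 62) (nat_lit 5) (nat_lit 340) (nat_lit 295) (nat_lit 229)) (XT.lf (nat_lit 0) (nat_lit 8851844427) (nat_lit 336) (nat_lit 3529655962) (nat_lit 420) (nat_lit 51031351) (nat_lit 57) (nat_lit 5) (nat_lit 61) (nat_lit 5) (nat_lit 62) (nat_lit 5) (nat_lit 341) (nat_lit 295) (nat_lit 228)))) (XT.nd (nat_lit 94) (nat_lit 0) (nat_lit 0) (XT.lf (nat_lit 0) (nat_lit 1487993666) (nat_lit 336) (nat_lit 285569700) (nat_lit 420) (nat_lit 10909588550) (nat_lit 52) (nat_lit 5) (nat_lit 56) (nat_lit 5) (nat_lit 57) (nat_lit 5) (nat_lit 342) (nat_lit 295) (nat_lit 227)) (XT.nd (nat_lit 94) (nat_lit 0) (nat_lit 0) (XT.lf (nat_lit 0) (nat_lit 3696514910) (nat_lit 420) (nat_lit 6213920506) (nat_lit 84) (nat_lit 3029836760) (nat_lit 52) (nat_lit 5) (nat_lit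 57) (nat_lit 5) (nat_lit 53) (nat_lit 5) (nat_lit 343) (nat_lit 295) (nat_lit 226)) (XT.lf (nat_lit 0) (nat_lit 5657508506) (nat_lit 420) (nat_lit 1112222529) (nat_lit 84) (nat_lit 6436374039) (nat_lit 52) (nat_lit 5) (nat_lit 57) (nat_lit 5) (nat_lit 53) (nat_lit 5) (nat_lit 344) (nat_lit 295) (nat_lit 225))))))) (XT.nd (nat_lit 1128) (nat_lit 924) (nat_lit 0) (XT.nd (nat_lit 564) (nat_lit 588) (nat_lit 0) (XT.nd (nat_lit 282) (nat_lit 336) (nat_lit 0) (XT.nd (nat_lit 94) (nat_lit 336) (nat_lit 0) (XT.lf (nat_lit 0) (nat_lit 4202188622) (nat_lit 336) (nat_lit 3495036729) (nat_lit 420) (nat_lit 5782468589) (nat_lit 48) (nat_lit 5) (nat_lit 52) (nat_lit 5) (nat_lit 53) (nat_lit 5) (nat_lit 345) (nat_lit 295) (nat_lit 224)) (XT.nd (nat_lit 94) (nat_lit 336) (nat_lit 0) (XT.lf (nat_lit 0) (nat_lit 9675125631) (nat_lit 336) (nat_lit 113321938) (nat_lit 420) (nat_lit 3973748909) (nat_lit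 48) (nat_lit 5) (nat_lit 52) (nat_lit 5) (nat_lit 53) (nat_lit 5) (nat_lit 346) (nat_lit 295) (nat_lit 223)) (XT.lf (nat_lit 0) (nat_lit 1225893592) (nat_lit 336) (nat_lit 10741532190) (nat_lit 420) (nat_lit 2085386888) (nat_lit 44) (nat_lit 5) (nat_lit 48) (nat_lit 5) (nat_lit 49) (nat_lit 5) (nat_lit 347) (nat_lit 295) (nat_lit 222)))) (XT.nd (nat_lit 94) (nat_lit 336) (nat_lit 0) (XT.lf (nat_lit 0) (nat_lit 6759710906) (nat_lit 336) (nat_lit 7475745259) (nat_lit 420) (nat_lit 116380014) (nat_lit 44) (nat_lit 5) (nat_lit 48) (nat_lit 5) (nat_lit 49) (nat_lit 5) (nat_lit 348) (nat_lit 295) (nat_lit 221)) (XT.nd (nat_lit 94) (nat_lit 252) (nat_lit 0) (XT.lf (nat_lit 0) (nat_lit 1853193648) (nat_lit 420) (nat_lit 2242976947) (nat_lit 84) (nat_lit 10564110725) (nat_lit 43) (nat_lit 5) (nat_lit 48) (nat_lit 5) (nat_lit 44) (nat_lit 5) (nat_lit 349) (nat_lit 295) (nat_lit 220)) (XT.lf (nat_lit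 0) (nat_lit 3309411848) (nat_lit 252) (nat_lit 583567195) (nat_lit 336) (nat_lit 11084972732) (nat_lit 40) (nat_lit 5) (nat_lit 43) (nat_lit 5) (nat_lit 44) (nat_lit 5) (nat_lit 350) (nat_lit 295) (nat_lit 219))))) (XT.nd (nat_lit 282) (nat_lit 336) (nat_lit 0) (XT.nd (nat_lit 94) (nat_lit 252) (nat_lit 0) (XT.lf (nat_lit 0) (nat_lit 6028823742) (nat_lit 336) (nat_lit 6282068318) (nat_lit 84) (nat_lit 2993617734) (nat_lit 40) (nat_lit 5) (nat_lit 44) (nat_lit 5) (nat_lit 41) (nat_lit 5) (nat_lit 351) (nat_lit 295) (nat_lit 218)) (XT.nd (nat_lit 94) (nat_lit 252) (nat_lit 0) (XT.lf (nat_lit 0) (nat_lit 8216516249) (nat_lit 336) (nat_lit 762152642) (nat_lit 84) (nat_lit 6663023141) (nat_lit 40) (nat_lit 5) (nat_lit 44) (nat_lit 5) (nat_lit 41) (nat_lit 5) (nat_lit 352) (nat_lit 295) (nat_lit 217)) (XT.lf (nat_lit 0) (nat_lit 5002939377) (nat_lit 252) (nat_lit 5498997064) (nat_lit 336)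 (nat_lit 5486517276) (nat_lit 37) (nat_lit 5) (nat_lit 40) (nat_lit 5) (nat_lit 41) (nat_lit 5) (nat_lit 353) (nat_lit 295) (nat_lit 216)))) (XT.nd (nat_lit 94) (nat_lit 336) (nat_lit 0) (XT.lf (nat_lit 0) (nat_lit 10936438072) (nat_lit 252) (nat_lit 1910331723) (nat_lit 336) (nat_lit 3499602059) (nat_lit 37) (nat_lit 5) (nat_lit 40) (nat_lit 5) (nat_lit 41) (nat_lit 5) (nat_lit 354) (nat_lit 295) (nat_lit 215)) (XT.nd (nat_lit 94) (nat_lit 84) (nat_lit 0) (XT.lf (nat_lit 0) (nat_lit 300554126) (nat_lit 252) (nat_lit 14965598011) (nat_lit 336) (nat_lit 1449226468) (nat_lit 34) (nat_lit 5) (nat_lit 37) (nat_lit 5) (nat_lit 38) (nat_lit 5) (nat_lit 355) (nat_lit 295) (nat_lit 214)) (XT.lf (nat_lit 0) (nat_lit 709099161) (nat_lit 336) (nat_lit 10844435922) (nat_lit 84) (nat_lit 5540341641) (nat_lit 33) (nat_lit 5) (nat_lit 37) (nat_lit 5) (nat_lit 34) (nat_lit 5) (nat_lit 356) (nat_lit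 295) (nat_lit 213)))))) (XT.nd (nat_lit 564) (nat_lit 504) (nat_lit 0) (XT.nd (nat_lit 282) (nat_lit 168) (nat_lit 0) (XT.nd (nat_lit 94) (nat_lit 252) (nat_lit 0) (XT.lf (nat_lit 0) (nat_lit 2885990909) (nat_lit 336) (nat_lit 5141800534) (nat_lit 84) (nat_lit 9456469077) (nat_lit 33) (nat_lit 5) (nat_lit 37) (nat_lit 5) (nat_lit 34) (nat_lit 5) (nat_lit 357) (nat_lit 295) (nat_lit 212)) (XT.nd (nat_lit 94) (nat_lit 0) (nat_lit 0) (XT.lf (nat_lit 0) (nat_lit 727429730) (nat_lit 252) (nat_lit 4392463011) (nat_lit 336) (nat_lit 12767223100) (nat_lit 30) (nat_lit 5) (nat_lit 33) (nat_lit 5) (nat_lit 34) (nat_lit 5) (nat_lit 358) (nat_lit 295) (nat_lit 211)) (XT.lf (nat_lit 0) (nat_lit 6863018207) (nat_lit 252) (nat_lit 596295367) (nat_lit 336) (nat_lit 10842065390) (nat_lit 30) (nat_lit 5) (nat_lit 33) (nat_lit 5) (nat_lit 34) (nat_lit 5) (nat_lit 359) (nat_lit 295) (nat_lit 210)))) (XT.nd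 (nat_lit 94) (nat_lit 168) (nat_lit 0) (XT.lf (nat_lit 0) (nat_lit 9887219245) (nat_lit 336) (nat_lit 5596933186) (nat_lit 84) (nat_lit 3243879251) (nat_lit 30) (nat_lit 5) (nat_lit 34) (nat_lit 5) (nat_lit 31) (nat_lit 5) (nat_lit 360) (nat_lit 295) (nat_lit 209)) (XT.nd (nat_lit 94) (nat_lit 0) (nat_lit 0) (XT.lf (nat_lit 0) (nat_lit 404003485) (nat_lit 168) (nat_lit 11980054804) (nat_lit 252) (nat_lit 6784089644) (nat_lit 28) (nat_lit 5) (nat_lit 30) (nat_lit 5) (nat_lit 31) (nat_lit 5) (nat_lit 361) (nat_lit 295) (nat_lit 208)) (XT.lf (nat_lit 0) (nat_lit 6686244104) (nat_lit 168) (nat_lit 8314299932) (nat_lit 252) (nat_lit 4620093944) (nat_lit 28) (nat_lit 5) (nat_lit 30) (nat_lit 5) (nat_lit 31) (nat_lit 5) (nat_lit 362) (nat_lit 295) (nat_lit 207))))) (XT.nd (nat_lit 282) (nat_lit 168) (nat_lit 0) (XT.nd (nat_lit 94) (nat_lit 336) (nat_lit 0) (XT.lf (nat_lit 0) (nat_lit 13140559952)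 (nat_lit 168) (nat_lit 4541891453) (nat_lit 252) (nat_lit 2405228772) (nat_lit 28) (nat_lit 5) (nat_lit 30) (nat_lit 5) (nat_lit 31) (nat_lit 5) (nat_lit 363) (nat_lit 295) (nat_lit 206)) (XT.nd (nat_lit 94) (nat_lit 336) (nat_lit 0) (XT.lf (nat_lit 0) (nat_lit 19772967128) (nat_lit 168) (nat_lit 659313088) (nat_lit 252) (nat_lit 137429641) (nat_lit 28) (nat_lit 5) (nat_lit 30) (nat_lit 5) (nat_lit 31) (nat_lit 5) (nat_lit 364) (nat_lit 295) (nat_lit 205)) (XT.lf (nat_lit 0) (nat_lit 2230971869) (nat_lit 336) (nat_lit 15484773786) (nat_lit 84) (nat_lit 3347981432) (nat_lit 24) (nat_lit 5) (nat_lit 28) (nat_lit 5) (nat_lit 25) (nat_lit 5) (nat_lit 365) (nat_lit 295) (nat_lit 204)))) (XT.nd (nat_lit 94) (nat_lit 168) (nat_lit 0) (XT.lf (nat_lit 0) (nat_lit 4670306756) (nat_lit 336) (nat_lit 9433726038) (nat_lit 84) (nat_lit 7469005236) (nat_lit 24) (nat_lit 5) (nat_lit 28) (nat_lit 5)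 (nat_lit 25) (nat_lit 5) (nat_lit 366) (nat_lit 295) (nat_lit 203)) (XT.nd (nat_lit 94) (nat_lit 168) (nat_lit 0) (XT.lf (nat_lit 0) (nat_lit 7170928365) (nat_lit 336) (nat_lit 3216315566) (nat_lit 84) (nat_lit 11711371116) (nat_lit 24) (nat_lit 5) (nat_lit 28) (nat_lit 5) (nat_lit 25) (nat_lit 5) (nat_lit 367) (nat_lit 295) (nat_lit 202)) (XT.lf (nat_lit 0) (nat_lit 3238501494) (nat_lit 168) (nat_lit 6528792377) (nat_lit 252) (nat_lit 12872658243) (nat_lit 22) (nat_lit 5) (nat_lit 24) (nat_lit 5) (nat_lit 25) (nat_lit 5) (nat_lit 368) (nat_lit 295) (nat_lit 201))))))))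
noncomputable def xc105 : XT := (XT.nd (nat_lit 2256) (nat_lit 420) (nat_lit 0) (XT.nd (nat_lit 1128) (nat_lit 336) (nat_lit 0) (XT.nd (nat_lit 564) (nat_lit 336) (nat_lit 0) (XT.nd (nat_lit 282) (nat_lit 252) (nat_lit 0) (XT.nd (nat_lit 94) (nat_lit 0) (nat_lit 0) (XT.lf (nat_lit 0) (nat_lit 9941228732) (nat_lit 168) (nat_lit 2522803897) (nat_lit 252) (nat_lit 10733452699) (nat_lit 22) (nat_lit 5) (nat_lit 24) (nat_lit 5) (nat_lit 25) (nat_lit 5) (nat_lit 369) (nat_lit 295) (nat_lit 200)) (XT.nd (nat_lit 94) (nat_lit 0) (nat_lit 0) (XT.lf (nat_lit 0) (nat_lit 15246976939) (nat_lit 252) (nat_lit 6956645017) (nat_lit 84) (nat_lit 1568629532) (nat_lit 22) (nat_lit 5) (nat_lit 25) (nat_lit 5) (nat_lit 23) (nat_lit 5) (nat_lit 370) (nat_lit 295) (nat_lit 199)) (XT.lf (nat_lit 0) (nat_lit 18129057276) (nat_lit 252) (nat_lit 507080465) (nat_lit 84) (nat_lit 5728328165) (nat_lit 22) (nat_lit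 5) (nat_lit 25) (nat_lit 5) (nat_lit 23) (nat_lit 5) (nat_lit 371) (nat_lit 295) (nat_lit 198)))) (XT.nd (nat_lit 94) (nat_lit 84) (nat_lit 0) (XT.lf (nat_lit 0) (nat_lit 6249386465) (nat_lit 168) (nat_lit 14900541736) (nat_lit 252) (nat_lit 3823606375) (nat_lit 20) (nat_lit 5) (nat_lit 22) (nat_lit 5) (nat_lit 23) (nat_lit 5) (nat_lit 372) (nat_lit 295) (nat_lit 197)) (XT.nd (nat_lit 94) (nat_lit 84) (nat_lit 0) (XT.lf (nat_lit 0) (nat_lit 13207300184) (nat_lit 168) (nat_lit 11050081505) (nat_lit 252) (nat_lit 1344349261) (nat_lit 20) (nat_lit 5) (nat_lit 22) (nat_lit 5) (nat_lit 23) (nat_lit 5) (nat_lit 373) (nat_lit 295) (nat_lit 196)) (XT.lf (nat_lit 0) (nat_lit 1175215906) (nat_lit 252) (nat_lit 5898978147) (nat_lit 84) (nat_lit 19175236829) (nat_lit 19) (nat_lit 5) (nat_lit 22) (nat_lit 5) (nat_lit 20) (nat_lit 5) (nat_lit 374) (nat_lit 295) (nat_lit 195))))) (XT.nd (nat_lit 282)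 (nat_lit 168) (nat_lit 0) (XT.nd (nat_lit 94) (nat_lit 0) (nat_lit 0) (XT.lf (nat_lit 0) (nat_lit 781928186) (nat_lit 168) (nat_lit 2959021242) (nat_lit 252) (nat_lit 23175983411) (nat_lit 17) (nat_lit 5) (nat_lit 19) (nat_lit 5) (nat_lit 20) (nat_lit 5) (nat_lit 375) (nat_lit 295) (nat_lit 194)) (XT.nd (nat_lit 94) (nat_lit 0) (nat_lit 0) (XT.lf (nat_lit 0) (nat_lit 6449505802) (nat_lit 252) (nat_lit 19839636611) (nat_lit 84) (nat_lit 1314047515) (nat_lit 17) (nat_lit 5) (nat_lit 20) (nat_lit 5) (nat_lit 18) (nat_lit 5) (nat_lit 376) (nat_lit 295) (nat_lit 193)) (XT.lf (nat_lit 0) (nat_lit 9260989063) (nat_lit 252) (nat_lit 13396884663) (nat_lit 84) (nat_lit 5652283122) (nat_lit 17) (nat_lit 5) (nat_lit 20) (nat_lit 5) (nat_lit 18) (nat_lit 5) (nat_lit 377) (nat_lit 295) (nat_lit 192)))) (XT.nd (nat_lit 94) (nat_lit 168) (nat_lit 0) (XT.lf (nat_lit 0) (nat_lit 12148665954) (nat_lit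 252) (nat_lit 6771389634) (nat_lit 84) (nat_lit 10119346951) (nat_lit 17) (nat_lit 5) (nat_lit 20) (nat_lit 5) (nat_lit 18) (nat_lit 5) (nat_lit 378) (nat_lit 295) (nat_lit 191)) (XT.nd (nat_lit 94) (nat_lit 0) (nat_lit 0) (XT.lf (nat_lit 0) (nat_lit 43908795) (nat_lit 168) (nat_lit 15071754876) (nat_lit 252) (nat_lit 14675929559) (nat_lit 15) (nat_lit 5) (nat_lit 17) (nat_lit 5) (nat_lit 18) (nat_lit 5) (nat_lit 379) (nat_lit 295) (nat_lit 190)) (XT.lf (nat_lit 0) (nat_lit 7197726531) (nat_lit 168) (nat_lit 11037116429) (nat_lit 252) (nat_lit 12330414131) (nat_lit 15) (nat_lit 5) (nat_lit 17) (nat_lit 5) (nat_lit 18) (nat_lit 5) (nat_lit 380) (nat_lit 295) (nat_lit 189)))))) (XT.nd (nat_lit 564) (nat_lit 168) (nat_lit 0) (XT.nd (nat_lit 282) (nat_lit 168) (nat_lit 0) (XT.nd (nat_lit 94) (nat_lit 0) (nat_lit 0) (XT.lf (nat_lit 0) (nat_lit 14557498020) (nat_lit 168) (nat_lit 6883058961)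 (nat_lit 252) (nat_lit 9922683458) (nat_lit 15) (nat_lit 5) (nat_lit 17) (nat_lit 5) (nat_lit 18) (nat_lit 5) (nat_lit 381) (nat_lit 295) (nat_lit 188)) (XT.nd (nat_lit 94) (nat_lit 0) (nat_lit 0) (XT.lf (nat_lit 0) (nat_lit 22130083340) (nat_lit 168) (nat_lit 2605710456) (nat_lit 252) (nat_lit 7450493280) (nat_lit 15) (nat_lit 5) (nat_lit 17) (nat_lit 5) (nat_lit 18) (nat_lit 5) (nat_lit 382) (nat_lit 295) (nat_lit 187)) (XT.lf (nat_lit 0) (nat_lit 28141470383) (nat_lit 252) (nat_lit 3130468707) (nat_lit 84) (nat_lit 1762671872) (nat_lit 15) (nat_lit 5) (nat_lit 18) (nat_lit 5) (nat_lit 16) (nat_lit 4) (nat_lit 383) (nat_lit 295) (nat_lit 186)))) (XT.nd (nat_lit 94) (nat_lit 84) (nat_lit 0) (XT.lf (nat_lit 0) (nat_lit 4050231103) (nat_lit 84) (nat_lit 27659999085) (nat_lit 168) (nat_lit 2197239096) (nat_lit 14) (nat_lit 5) (nat_lit 15) (nat_lit 5) (nat_lit 16) (nat_lit 4) (nat_lit 384)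 (nat_lit 295) (nat_lit 185)) (XT.nd (nat_lit 94) (nat_lit 0) (nat_lit 0) (XT.lf (nat_lit 0) (nat_lit 594216579) (nat_lit 168) (nat_lit 23307332744) (nat_lit 84) (nat_lit 10904940752) (nat_lit 13) (nat_lit 5) (nat_lit 15) (nat_lit 5) (nat_lit 14) (nat_lit 5) (nat_lit 385) (nat_lit 295) (nat_lit 184)) (XT.lf (nat_lit 0) (nat_lit 3417547244) (nat_lit 168) (nat_lit 16591155771) (nat_lit 84) (nat_lit 15724277860) (nat_lit 13) (nat_lit 5) (nat_lit 15) (nat_lit 5) (nat_lit 14) (nat_lit 5) (nat_lit 386) (nat_lit 295) (nat_lit 183))))) (XT.nd (nat_lit 282) (nat_lit 0) (nat_lit 0) (XT.nd (nat_lit 94) (nat_lit 168) (nat_lit 0) (XT.lf (nat_lit 0) (nat_lit 6319654010) (nat_lit 168) (nat_lit 9680650197) (nat_lit 84) (nat_lit 20688176765) (nat_lit 13) (nat_lit 5) (nat_lit 15) (nat_lit 5) (nat_lit 14) (nat_lit 5) (nat_lit 387) (nat_lit 295) (nat_lit 182)) (XT.nd (nat_lit 94) (nat_lit 168) (nat_lit 0)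 (XT.lf (nat_lit 0) (nat_lit 9303241945) (nat_lit 168) (nat_lit 2569374706) (nat_lit 84) (nat_lit 25801264342) (nat_lit 13) (nat_lit 5) (nat_lit 15) (nat_lit 5) (nat_lit 14) (nat_lit 5) (nat_lit 388) (nat_lit 295) (nat_lit 181)) (XT.lf (nat_lit 0) (nat_lit 4846954484) (nat_lit 168) (nat_lit 7572219969) (nat_lit 252) (nat_lit 26269434427) (nat_lit 11) (nat_lit 5) (nat_lit 13) (nat_lit 5) (nat_lit 14) (nat_lit 5) (nat_lit 389) (nat_lit 295) (nat_lit 180)))) (XT.nd (nat_lit 94) (nat_lit 0) (nat_lit 0) (XT.lf (nat_lit 0) (nat_lit 12534740235) (nat_lit 168) (nat_lit 3115669867) (nat_lit 252) (nat_lit 24083818683) (nat_lit 11) (nat_lit 5) (nat_lit 13) (nat_lit 5) (nat_lit 14) (nat_lit 5) (nat_lit 390) (nat_lit 295) (nat_lit 179)) (XT.nd (nat_lit 94) (nat_lit 0) (nat_lit 0) (XT.lf (nat_lit 0) (nat_lit 18988574050) (nat_lit 252) (nat_lit 20378830893) (nat_lit 84) (nat_lit 1444663381) (nat_lit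 11) (nat_lit 5) (nat_lit 14) (nat_lit 5) (nat_lit 12) (nat_lit 4) (nat_lit 391) (nat_lit 295) (nat_lit 178)) (XT.lf (nat_lit 0) (nat_lit 22454412757) (nat_lit 252) (nat_lit 13390958799) (nat_lit 84) (nat_lit 6077213916) (nat_lit 11) (nat_lit 5) (nat_lit 14) (nat_lit 5) (nat_lit 12) (nat_lit 4) (nat_lit 392) (nat_lit 295) (nat_lit 177))))))) (XT.nd (nat_lit 1128) (nat_lit 84) (nat_lit 0) (XT.nd (nat_lit 564) (nat_lit 252) (nat_lit 0) (XT.nd (nat_lit 282) (nat_lit 0) (nat_lit 0) (XT.nd (nat_lit 94) (nat_lit 84) (nat_lit 0) (XT.lf (nat_lit 0) (nat_lit 26020248917) (nat_lit 252) (nat_lit 6198451008) (nat_lit 84) (nat_lit 10849073565) (nat_lit 11) (nat_lit 5) (nat_lit 14) (nat_lit 5) (nat_lit 12) (nat_lit 4) (nat_lit 393) (nat_lit 295) (nat_lit 176)) (XT.nd (nat_lit 94) (nat_lit 0) (nat_lit 0) (XT.lf (nat_lit 0) (nat_lit 1230182076) (nat_lit 84) (nat_lit 28471427745) (nat_lit 168) (nat_lit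 14546711683) (nat_lit 10) (nat_lit 5) (nat_lit 11) (nat_lit 5) (nat_lit 12) (nat_lit 4) (nat_lit 394) (nat_lit 295) (nat_lit 175)) (XT.lf (nat_lit 0) (nat_lit 9008996539) (nat_lit 84) (nat_lit 24545678656) (nat_lit 168) (nat_lit 11909019515) (nat_lit 10) (nat_lit 5) (nat_lit 11) (nat_lit 5) (nat_lit 12) (nat_lit 4) (nat_lit 395) (nat_lit 295) (nat_lit 174)))) (XT.nd (nat_lit 94) (nat_lit 0) (nat_lit 0) (XT.lf (nat_lit 0) (nat_lit 17017790183) (nat_lit 84) (nat_lit 20502492566) (nat_lit 168) (nat_lit 9196688580) (nat_lit 10) (nat_lit 5) (nat_lit 11) (nat_lit 5) (nat_lit 12) (nat_lit 4) (nat_lit 396) (nat_lit 295) (nat_lit 173)) (XT.nd (nat_lit 94) (nat_lit 0) (nat_lit 0) (XT.lf (nat_lit 0) (nat_lit 25264028043) (nat_lit 84) (nat_lit 16338100801) (nat_lit 168) (nat_lit 6407190703) (nat_lit 10) (nat_lit 5) (nat_lit 11) (nat_lit 5) (nat_lit 12) (nat_lit 4) (nat_lit 397) (nat_lit 295) (nat_lit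 172)) (XT.lf (nat_lit 0) (nat_lit 33755396478) (nat_lit 84) (nat_lit 12048621711) (nat_lit 168) (nat_lit 3537925778) (nat_lit 10) (nat_lit 5) (nat_lit 11) (nat_lit 5) (nat_lit 12) (nat_lit 4) (nat_lit 398) (nat_lit 295) (nat_lit 171))))) (XT.nd (nat_lit 282) (nat_lit 0) (nat_lit 0) (XT.nd (nat_lit 94) (nat_lit 252) (nat_lit 0) (XT.lf (nat_lit 0) (nat_lit 42499810331) (nat_lit 84) (nat_lit 7630057054) (nat_lit 168) (nat_lit 586219351) (nat_lit 10) (nat_lit 5) (nat_lit 11) (nat_lit 5) (nat_lit 12) (nat_lit 4) (nat_lit 399) (nat_lit 295) (nat_lit 170)) (XT.nd (nat_lit 94) (nat_lit 168) (nat_lit 0) (XT.lf (nat_lit 0) (nat_lit 2401304140) (nat_lit 168) (nat_lit 651919432) (nat_lit 84) (nat_lit 49079051482) (nat_lit 9) (nat_lit 5) (nat_lit 11) (nat_lit 5) (nat_lit 10) (nat_lit 5) (nat_lit 400) (nat_lit 295) (nat_lit 169)) (XT.lf (nat_lit 0) (nat_lit 5552748547) (nat_lit 252) (nat_lit 46329570720)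 (nat_lit 84) (nat_lit 1707282753) (nat_lit 7) (nat_lit 5) (nat_lit 10) (nat_lit 5) (nat_lit 8) (nat_lit 4) (nat_lit 401) (nat_lit 295) (nat_lit 168)))) (XT.nd (nat_lit 94) (nat_lit 0) (nat_lit 0) (XT.lf (nat_lit 0) (nat_lit 8834040390) (nat_lit 252) (nat_lit 39701895338) (nat_lit 84) (nat_lit 6555184044) (nat_lit 7) (nat_lit 5) (nat_lit 10) (nat_lit 5) (nat_lit 8) (nat_lit 4) (nat_lit 402) (nat_lit 295) (nat_lit 167)) (XT.nd (nat_lit 94) (nat_lit 0) (nat_lit 0) (XT.lf (nat_lit 0) (nat_lit 12211282218) (nat_lit 252) (nat_lit 32878244199) (nat_lit 84) (nat_lit 11549847099) (nat_lit 7) (nat_lit 5) (nat_lit 10) (nat_lit 5) (nat_lit 8) (nat_lit 4) (nat_lit 403) (nat_lit 295) (nat_lit 166)) (XT.lf (nat_lit 0) (nat_lit 15687621974) (nat_lit 252) (nat_lit 25852256945) (nat_lit 84) (nat_lit 16695927468) (nat_lit 7) (nat_lit 5) (nat_lit 10) (nat_lit 5) (nat_lit 8) (nat_lit 4) (nat_lit 404) (nat_lit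 295) (nat_lit 165)))))) (XT.nd (nat_lit 564) (nat_lit 0) (nat_lit 0) (XT.nd (nat_lit 282) (nat_lit 84) (nat_lit 0) (XT.nd (nat_lit 94) (nat_lit 0) (nat_lit 0) (XT.lf (nat_lit 0) (nat_lit 19266299971) (nat_lit 252) (nat_lit 18617384620) (nat_lit 84) (nat_lit 21998221836) (nat_lit 7) (nat_lit 5) (nat_lit 10) (nat_lit 5) (nat_lit 8) (nat_lit 4) (nat_lit 405) (nat_lit 295) (nat_lit 164)) (XT.nd (nat_lit 94) (nat_lit 0) (nat_lit 0) (XT.lf (nat_lit 0) (nat_lit 22950651912) (nat_lit 252) (nat_lit 11166883565) (nat_lit 84) (nat_lit 27461672498) (nat_lit 7) (nat_lit 5) (nat_lit 10) (nat_lit 5) (nat_lit 8) (nat_lit 4) (nat_lit 406) (nat_lit 295) (nat_lit 163)) (XT.lf (nat_lit 0) (nat_lit 26744111999) (nat_lit 252) (nat_lit 3493809132) (nat_lit 84) (nat_lit 33091371961) (nat_lit 7) (nat_lit 5) (nat_lit 10) (nat_lit 5) (nat_lit 8) (nat_lit 4) (nat_lit 407) (nat_lit 295) (nat_lit 162)))) (XT.nd (nat_lit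 94) (nat_lit 0) (nat_lit 0) (XT.lf (nat_lit 0) (nat_lit 4499648679) (nat_lit 84) (nat_lit 26195204527) (nat_lit 168) (nat_lit 34437556088) (nat_lit 6) (nat_lit 5) (nat_lit 7) (nat_lit 5) (nat_lit 8) (nat_lit 4) (nat_lit 408) (nat_lit 295) (nat_lit 161)) (XT.nd (nat_lit 94) (nat_lit 0) (nat_lit 0) (XT.lf (nat_lit 0) (nat_lit 12806913189) (nat_lit 84) (nat_lit 21992738191) (nat_lit 168) (nat_lit 32190799999) (nat_lit 6) (nat_lit 5) (nat_lit 7) (nat_lit 5) (nat_lit 8) (nat_lit 4) (nat_lit 409) (nat_lit 295) (nat_lit 160)) (XT.lf (nat_lit 0) (nat_lit 21363887755) (nat_lit 84) (nat_lit 17663073187) (nat_lit 168) (nat_lit 29879286816) (nat_lit 6) (nat_lit 5) (nat_lit 7) (nat_lit 5) (nat_lit 8) (nat_lit 4) (nat_lit 410) (nat_lit 295) (nat_lit 159))))) (XT.nd (nat_lit 282) (nat_lit 0) (nat_lit 0) (XT.nd (nat_lit 94) (nat_lit 0) (nat_lit 0) (XT.lf (nat_lit 0) (nat_lit 30178548375) (nat_lit 84)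 (nat_lit 13202173814) (nat_lit 168) (nat_lit 27500861967) (nat_lit 6) (nat_lit 5) (nat_lit 7) (nat_lit 5) (nat_lit 8) (nat_lit 4) (nat_lit 411) (nat_lit 295) (nat_lit 158)) (XT.nd (nat_lit 94) (nat_lit 0) (nat_lit 0) (XT.lf (nat_lit 0) (nat_lit 39259111235) (nat_lit 84) (nat_lit 8605882047) (nat_lit 168) (nat_lit 25053308510) (nat_lit 6) (nat_lit 5) (nat_lit 7) (nat_lit 5) (nat_lit 8) (nat_lit 4) (nat_lit 412) (nat_lit 295) (nat_lit 157)) (XT.lf (nat_lit 0) (nat_lit 48614040372) (nat_lit 84) (nat_lit 3869913659) (nat_lit 168) (nat_lit 22534345069) (nat_lit 6) (nat_lit 5) (nat_lit 7) (nat_lit 5) (nat_lit 8) (nat_lit 4) (nat_lit 413) (nat_lit 295) (nat_lit 156)))) (XT.nd (nat_lit 94) (nat_lit 0) (nat_lit 0) (XT.lf (nat_lit 0) (nat_lit 57251930563) (nat_lit 168) (nat_lit 18941498712) (nat_lit 0) (nat_lit 989793580) (nat_lit 6) (nat_lit 5) (nat_lit 8) (nat_lit 4) (nat_lit 6) (nat_lit 4)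 (nat_lit 414) (nat_lit 295) (nat_lit 155)) (XT.nd (nat_lit 94) (nat_lit 0) (nat_lit 0) (XT.lf (nat_lit 0) (nat_lit 62203201566) (nat_lit 168) (nat_lit 11293788868) (nat_lit 0) (nat_lit 5917175690) (nat_lit 6) (nat_lit 5) (nat_lit 8) (nat_lit 4) (nat_lit 6) (nat_lit 4) (nat_lit 415) (nat_lit 295) (nat_lit 154)) (XT.lf (nat_lit 0) (nat_lit 67303992123) (nat_lit 168) (nat_lit 3415610707) (nat_lit 0) (nat_lit 10994795641) (nat_lit 6) (nat_lit 5) (nat_lit 8) (nat_lit 4) (nat_lit 6) (nat_lit 4) (nat_lit 416) (nat_lit 295) (nat_lit 153))))))))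
noncomputable def xc106 : XT := (XT.nd (nat_lit 2256) (nat_lit 5880) (nat_lit 0) (XT.nd (nat_lit 1128) (nat_lit 3612) (nat_lit 0) (XT.nd (nat_lit 564) (nat_lit 1260) (nat_lit 0) (XT.nd (nat_lit 282) (nat_lit 588) (nat_lit 0) (XT.nd (nat_lit 94) (nat_lit 0) (nat_lit 0) (XT.lf (nat_lit 0) (nat_lit 1343782562) (nat_lit 588) (nat_lit 1016325848) (nat_lit 588) (nat_lit 1016325848) (nat_lit 187) (nat_lit 3) (nat_lit 194) (nat_lit 3) (nat_lit 194) (nat_lit 5) (nat_lit 296) (nat_lit 296) (nat_lit 272)) (XT.nd (nat_lit 94) (nat_lit 0) (nat_lit 0) (XT.lf (nat_lit 84) (nat_lit 706383080) (nat_lit 0) (nat_lit 3797962812) (nat_lit 588) (nat_lit 2288710554) (nat_lit 188) (nat_lit 5) (nat_lit 187) (nat_lit 3) (nat_lit 194) (nat_lit 5) (nat_lit 297) (nat_lit 296) (nat_lit 271)) (XT.lf (nat_lit 84) (nat_lit 3535741586) (nat_lit 0) (nat_lit 2791301030) (nat_lit 588) (nat_lit 509391016) (nat_lit 188) (nat_lit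 5) (nat_lit 187) (nat_lit 3) (nat_lit 194) (nat_lit 5) (nat_lit 298) (nat_lit 296) (nat_lit 270)))) (XT.nd (nat_lit 94) (nat_lit 0) (nat_lit 0) (XT.lf (nat_lit 0) (nat_lit 1227849901) (nat_lit 588) (nat_lit 479843740) (nat_lit 672) (nat_lit 5175599452) (nat_lit 180) (nat_lit 5) (nat_lit 187) (nat_lit 3) (nat_lit 188) (nat_lit 5) (nat_lit 299) (nat_lit 296) (nat_lit 269)) (XT.nd (nat_lit 94) (nat_lit 0) (nat_lit 84) (XT.lf (nat_lit 84) (nat_lit 2435102686) (nat_lit 0) (nat_lit 528998894) (nat_lit 672) (nat_lit 3969061816) (nat_lit 181) (nat_lit 5) (nat_lit 180) (nat_lit 5) (nat_lit 188) (nat_lit 5) (nat_lit 300) (nat_lit 296) (nat_lit 268)) (XT.lf (nat_lit 0) (nat_lit 4699614001) (nat_lit 588) (nat_lit 1580224168) (nat_lit 672) (nat_lit 706770078) (nat_lit 181) (nat_lit 5) (nat_lit 188) (nat_lit 5) (nat_lit 189) (nat_lit 5) (nat_lit 301) (nat_lit 296) (nat_lit 267))))) (XT.nd (nat_lit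 282) (nat_lit 672) (nat_lit 0) (XT.nd (nat_lit 94) (nat_lit 672) (nat_lit 0) (XT.lf (nat_lit 84) (nat_lit 1412781880) (nat_lit 0) (nat_lit 5031137822) (nat_lit 672) (nat_lit 599512400) (nat_lit 182) (nat_lit 5) (nat_lit 181) (nat_lit 5) (nat_lit 189) (nat_lit 5) (nat_lit 302) (nat_lit 296) (nat_lit 266)) (XT.nd (nat_lit 94) (nat_lit 0) (nat_lit 0) (XT.lf (nat_lit 0) (nat_lit 1070144373) (nat_lit 672) (nat_lit 2620484857) (nat_lit 756) (nat_lit 3412807266) (nat_lit 173) (nat_lit 5) (nat_lit 181) (nat_lit 5) (nat_lit 182) (nat_lit 5) (nat_lit 303) (nat_lit 296) (nat_lit 265)) (XT.lf (nat_lit 84) (nat_lit 447500650) (nat_lit 0) (nat_lit 2274139068) (nat_lit 756) (nat_lit 4445551081) (nat_lit 174) (nat_lit 5) (nat_lit 173) (nat_lit 5) (nat_lit 182) (nat_lit 5) (nat_lit 304) (nat_lit 296) (nat_lit 264)))) (XT.nd (nat_lit 94) (nat_lit 672) (nat_lit 0) (XT.lf (nat_lit 84) (nat_lit 3628155645)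 (nat_lit 0) (nat_lit 763106026) (nat_lit 756) (nat_lit 2842974370) (nat_lit 174) (nat_lit 5) (nat_lit 173) (nat_lit 5) (nat_lit 182) (nat_lit 5) (nat_lit 305) (nat_lit 296) (nat_lit 263)) (XT.nd (nat_lit 94) (nat_lit 756) (nat_lit 0) (XT.lf (nat_lit 0) (nat_lit 6062136474) (nat_lit 672) (nat_lit 442994894) (nat_lit 756) (nat_lit 800074673) (nat_lit 174) (nat_lit 5) (nat_lit 182) (nat_lit 5) (nat_lit 183) (nat_lit 5) (nat_lit 306) (nat_lit 296) (nat_lit 262)) (XT.lf (nat_lit 0) (nat_lit 377002892) (nat_lit 756) (nat_lit 4553746393) (nat_lit 840) (nat_lit 2448424366) (nat_lit 165) (nat_lit 5) (nat_lit 174) (nat_lit 5) (nat_lit 175) (nat_lit 5) (nat_lit 307) (nat_lit 296) (nat_lit 261)))))) (XT.nd (nat_lit 564) (nat_lit 2016) (nat_lit 0) (XT.nd (nat_lit 282) (nat_lit 1596) (nat_lit 0) (XT.nd (nat_lit 94) (nat_lit 0) (nat_lit 0) (XT.lf (nat_lit 0) (nat_lit 1970018882) (nat_lit 756) (nat_lit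 1302500238) (nat_lit 840) (nat_lit 4184372310) (nat_lit 165) (nat_lit 5) (nat_lit 174) (nat_lit 5) (nat_lit 175) (nat_lit 5) (nat_lit 308) (nat_lit 296) (nat_lit 260)) (XT.nd (nat_lit 94) (nat_lit 0) (nat_lit 84) (XT.lf (nat_lit 84) (nat_lit 2053062010) (nat_lit 0) (nat_lit 1525282163) (nat_lit 840) (nat_lit 3959979011) (nat_lit 166) (nat_lit 5) (nat_lit 165) (nat_lit 5) (nat_lit 175) (nat_lit 5) (nat_lit 309) (nat_lit 296) (nat_lit 259)) (XT.lf (nat_lit 0) (nat_lit 5199981672) (nat_lit 756) (nat_lit 2123976484) (nat_lit 84) (nat_lit 299695042) (nat_lit 166) (nat_lit 5) (nat_lit 175) (nat_lit 5) (nat_lit 167) (nat_lit 5) (nat_lit 310) (nat_lit 296) (nat_lit 258)))) (XT.nd (nat_lit 94) (nat_lit 924) (nat_lit 0) (XT.lf (nat_lit 0) (nat_lit 1314071823) (nat_lit 756) (nat_lit 5535028604) (nat_lit 840) (nat_lit 863468198) (nat_lit 157) (nat_lit 5) (nat_lit 166) (nat_lit 5) (nat_lit 167) (nat_lit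 5) (nat_lit 311) (nat_lit 296) (nat_lit 257)) (XT.nd (nat_lit 94) (nat_lit 840) (nat_lit 0) (XT.lf (nat_lit 0) (nat_lit 701494628) (nat_lit 840) (nat_lit 2946636852) (nat_lit 84) (nat_lit 4156986115) (nat_lit 156) (nat_lit 5) (nat_lit 166) (nat_lit 5) (nat_lit 157) (nat_lit 5) (nat_lit 312) (nat_lit 296) (nat_lit 256)) (XT.lf (nat_lit 0) (nat_lit 577011167) (nat_lit 840) (nat_lit 1676289721) (nat_lit 924) (nat_lit 5648529940) (nat_lit 146) (nat_lit 5) (nat_lit 156) (nat_lit 5) (nat_lit 157) (nat_lit 5) (nat_lit 313) (nat_lit 296) (nat_lit 255))))) (XT.nd (nat_lit 282) (nat_lit 1092) (nat_lit 0) (XT.nd (nat_lit 94) (nat_lit 924) (nat_lit 0) (XT.lf (nat_lit 0) (nat_lit 3839584803) (nat_lit 924) (nat_lit 3771522941) (nat_lit 84) (nat_lit 391063747) (nat_lit 146) (nat_lit 5) (nat_lit 157) (nat_lit 5) (nat_lit 147) (nat_lit 5) (nat_lit 314) (nat_lit 296) (nat_lit 254)) (XT.nd (nat_lit 94)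 (nat_lit 924) (nat_lit 0) (XT.lf (nat_lit 0) (nat_lit 5445400382) (nat_lit 924) (nat_lit 163473412) (nat_lit 84) (nat_lit 2497868482) (nat_lit 146) (nat_lit 5) (nat_lit 157) (nat_lit 5) (nat_lit 147) (nat_lit 5) (nat_lit 315) (nat_lit 296) (nat_lit 253)) (XT.lf (nat_lit 0) (nat_lit 3591685466) (nat_lit 924) (nat_lit 3499559908) (nat_lit 1008) (nat_lit 1123806248) (nat_lit 135) (nat_lit 5) (nat_lit 146) (nat_lit 5) (nat_lit 147) (nat_lit 5) (nat_lit 316) (nat_lit 296) (nat_lit 252)))) (XT.nd (nat_lit 94) (nat_lit 1008) (nat_lit 0) (XT.lf (nat_lit 0) (nat_lit 408801211) (nat_lit 1008) (nat_lit 902378122) (nat_lit 84) (nat_lit 7016922570) (nat_lit 134) (nat_lit 5) (nat_lit 146) (nat_lit 5) (nat_lit 135) (nat_lit 5) (nat_lit 317) (nat_lit 296) (nat_lit 251)) (XT.nd (nat_lit 94) (nat_lit 0) (nat_lit 0) (XT.lf (nat_lit 0) (nat_lit 1960985701) (nat_lit 1092) (nat_lit 5509682459) (nat_lit 84)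 (nat_lit 973952113) (nat_lit 122) (nat_lit 5) (nat_lit 135) (nat_lit 5) (nat_lit 123) (nat_lit 5) (nat_lit 318) (nat_lit 296) (nat_lit 250)) (XT.lf (nat_lit 0) (nat_lit 3541563510) (nat_lit 1092) (nat_lit 1705513019) (nat_lit 84) (nat_lit 3318457861) (nat_lit 122) (nat_lit 5) (nat_lit 135) (nat_lit 5) (nat_lit 123) (nat_lit 5) (nat_lit 319) (nat_lit 296) (nat_lit 249))))))) (XT.nd (nat_lit 1128) (nat_lit 2100) (nat_lit 0) (XT.nd (nat_lit 564) (nat_lit 1512) (nat_lit 0) (XT.nd (nat_lit 282) (nat_lit 672) (nat_lit 0) (XT.nd (nat_lit 94) (nat_lit 504) (nat_lit 0) (XT.lf (nat_lit 0) (nat_lit 2224658635) (nat_lit 1092) (nat_lit 2927181890) (nat_lit 1176) (nat_lit 3539121624) (nat_lit 109) (nat_lit 5) (nat_lit 122) (nat_lit 5) (nat_lit 123) (nat_lit 5) (nat_lit 320) (nat_lit 296) (nat_lit 248)) (XT.nd (nat_lit 94) (nat_lit 504) (nat_lit 0) (XT.lf (nat_lit 0) (nat_lit 6276444690) (nat_lit 1092)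 (nat_lit 512908873) (nat_lit 1176) (nat_lit 2031789784) (nat_lit 109) (nat_lit 5) (nat_lit 122) (nat_lit 5) (nat_lit 123) (nat_lit 5) (nat_lit 321) (nat_lit 296) (nat_lit 247)) (XT.lf (nat_lit 0) (nat_lit 1471828719) (nat_lit 504) (nat_lit 7000777913) (nat_lit 588) (nat_lit 483066390) (nat_lit 103) (nat_lit 5) (nat_lit 109) (nat_lit 5) (nat_lit 110) (nat_lit 5) (nat_lit 322) (nat_lit 296) (nat_lit 246)))) (XT.nd (nat_lit 94) (nat_lit 588) (nat_lit 0) (XT.lf (nat_lit 0) (nat_lit 1084357608) (nat_lit 588) (nat_lit 3480574534) (nat_lit 84) (nat_lit 4529459365) (nat_lit 102) (nat_lit 5) (nat_lit 109) (nat_lit 5) (nat_lit 103) (nat_lit 5) (nat_lit 323) (nat_lit 296) (nat_lit 245)) (XT.nd (nat_lit 94) (nat_lit 0) (nat_lit 0) (XT.lf (nat_lit 0) (nat_lit 618156900) (nat_lit 588) (nat_lit 2040532938) (nat_lit 672) (nat_lit 6579691735) (nat_lit 95) (nat_lit 5) (nat_lit 102) (nat_lit 5) (nat_lit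 103) (nat_lit 5) (nat_lit 324) (nat_lit 296) (nat_lit 244)) (XT.lf (nat_lit 0) (nat_lit 4287117598) (nat_lit 672) (nat_lit 4511007224) (nat_lit 84) (nat_lit 588685564) (nat_lit 95) (nat_lit 5) (nat_lit 103) (nat_lit 5) (nat_lit 96) (nat_lit 5) (nat_lit 325) (nat_lit 296) (nat_lit 243))))) (XT.nd (nat_lit 282) (nat_lit 1008) (nat_lit 0) (XT.nd (nat_lit 94) (nat_lit 504) (nat_lit 0) (XT.lf (nat_lit 0) (nat_lit 5951021858) (nat_lit 672) (nat_lit 331244388) (nat_lit 84) (nat_lit 3258174297) (nat_lit 95) (nat_lit 5) (nat_lit 103) (nat_lit 5) (nat_lit 96) (nat_lit 5) (nat_lit 326) (nat_lit 296) (nat_lit 242)) (XT.nd (nat_lit 94) (nat_lit 0) (nat_lit 0) (XT.lf (nat_lit 0) (nat_lit 4024282473) (nat_lit 504) (nat_lit 3647350116) (nat_lit 588) (nat_lit 2027172603) (nat_lit 89) (nat_lit 5) (nat_lit 95) (nat_lit 5) (nat_lit 96) (nat_lit 5) (nat_lit 327) (nat_lit 296) (nat_lit 241)) (XT.lf (nat_lit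 0) (nat_lit 8487317150) (nat_lit 504) (nat_lit 927630319) (nat_lit 588) (nat_lit 448208266) (nat_lit 89) (nat_lit 5) (nat_lit 95) (nat_lit 5) (nat_lit 96) (nat_lit 5) (nat_lit 328) (nat_lit 296) (nat_lit 240)))) (XT.nd (nat_lit 94) (nat_lit 420) (nat_lit 0) (XT.lf (nat_lit 0) (nat_lit 1171921812) (nat_lit 588) (nat_lit 6979500491) (nat_lit 84) (nat_lit 1880439875) (nat_lit 82) (nat_lit 5) (nat_lit 89) (nat_lit 5) (nat_lit 83) (nat_lit 5) (nat_lit 329) (nat_lit 296) (nat_lit 239)) (XT.nd (nat_lit 94) (nat_lit 420) (nat_lit 0) (XT.lf (nat_lit 0) (nat_lit 2824095073) (nat_lit 588) (nat_lit 2607650681) (nat_lit 84) (nat_lit 4774301450) (nat_lit 82) (nat_lit 5) (nat_lit 89) (nat_lit 5) (nat_lit 83) (nat_lit 5) (nat_lit 330) (nat_lit 296) (nat_lit 238)) (XT.lf (nat_lit 0) (nat_lit 1904061816) (nat_lit 420) (nat_lit 2610434825) (nat_lit 504) (nat_lit 5871650307) (nat_lit 77) (nat_lit 5) (nat_lit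 82) (nat_lit 5) (nat_lit 83) (nat_lit 5) (nat_lit 331) (nat_lit 296) (nat_lit 237)))))) (XT.nd (nat_lit 564) (nat_lit 1176) (nat_lit 0) (XT.nd (nat_lit 282) (nat_lit 504) (nat_lit 0) (XT.nd (nat_lit 94) (nat_lit 420) (nat_lit 0) (XT.lf (nat_lit 0) (nat_lit 6256479765) (nat_lit 504) (nat_lit 3998042161) (nat_lit 84) (nat_lit 317442252) (nat_lit 77) (nat_lit 5) (nat_lit 83) (nat_lit 5) (nat_lit 78) (nat_lit 5) (nat_lit 332) (nat_lit 296) (nat_lit 236)) (XT.nd (nat_lit 94) (nat_lit 0) (nat_lit 0) (XT.lf (nat_lit 0) (nat_lit 576225183) (nat_lit 420) (nat_lit 7478317120) (nat_lit 504) (nat_lit 2709040693) (nat_lit 72) (nat_lit 5) (nat_lit 77) (nat_lit 5) (nat_lit 78) (nat_lit 5) (nat_lit 333) (nat_lit 296) (nat_lit 235)) (XT.lf (nat_lit 0) (nat_lit 5343700304) (nat_lit 420) (nat_lit 4576620261) (nat_lit 504) (nat_lit 1040552673) (nat_lit 72) (nat_lit 5) (nat_lit 77) (nat_lit 5) (nat_lit 78)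 (nat_lit 5) (nat_lit 334) (nat_lit 296) (nat_lit 234)))) (XT.nd (nat_lit 94) (nat_lit 420) (nat_lit 0) (XT.lf (nat_lit 0) (nat_lit 636711399) (nat_lit 504) (nat_lit 945100666) (nat_lit 84) (nat_lit 9583261683) (nat_lit 71) (nat_lit 5) (nat_lit 77) (nat_lit 5) (nat_lit 72) (nat_lit 5) (nat_lit 335) (nat_lit 296) (nat_lit 233)) (XT.nd (nat_lit 94) (nat_lit 0) (nat_lit 0) (XT.lf (nat_lit 0) (nat_lit 2370155274) (nat_lit 504) (nat_lit 7482607438) (nat_lit 84) (nat_lit 1521805588) (nat_lit 66) (nat_lit 5) (nat_lit 72) (nat_lit 5) (nat_lit 67) (nat_lit 5) (nat_lit 336) (nat_lit 296) (nat_lit 232)) (XT.lf (nat_lit 0) (nat_lit 4155605835) (nat_lit 504) (nat_lit 2740166461) (nat_lit 84) (nat_lit 4694929230) (nat_lit 66) (nat_lit 5) (nat_lit 72) (nat_lit 5) (nat_lit 67) (nat_lit 5) (nat_lit 337) (nat_lit 296) (nat_lit 231))))) (XT.nd (nat_lit 282) (nat_lit 420) (nat_lit 0) (XT.nd (nat_lit 94)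 (nat_lit 336) (nat_lit 0) (XT.lf (nat_lit 0) (nat_lit 2161171566) (nat_lit 420) (nat_lit 3829636905) (nat_lit 504) (nat_lit 5822987897) (nat_lit 61) (nat_lit 5) (nat_lit 66) (nat_lit 5) (nat_lit 67) (nat_lit 5) (nat_lit 338) (nat_lit 296) (nat_lit 230)) (XT.nd (nat_lit 94) (nat_lit 336) (nat_lit 0) (XT.lf (nat_lit 0) (nat_lit 7241200295) (nat_lit 420) (nat_lit 643769841) (nat_lit 504) (nat_lit 4158858252) (nat_lit 61) (nat_lit 5) (nat_lit 66) (nat_lit 5) (nat_lit 67) (nat_lit 5) (nat_lit 339) (nat_lit 296) (nat_lit 229)) (XT.lf (nat_lit 0) (nat_lit 143172617) (nat_lit 336) (nat_lit 9696513730) (nat_lit 420) (nat_lit 2441330922) (nat_lit 57) (nat_lit 5) (nat_lit 61) (nat_lit 5) (nat_lit 62) (nat_lit 5) (nat_lit 340) (nat_lit 296) (nat_lit 228)))) (XT.nd (nat_lit 94) (nat_lit 420) (nat_lit 0) (XT.lf (nat_lit 0) (nat_lit 5306470057) (nat_lit 336) (nat_lit 6579862007) (nat_lit 420) (nat_lit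 638335893) (nat_lit 57) (nat_lit 5) (nat_lit 61) (nat_lit 5) (nat_lit 62) (nat_lit 5) (nat_lit 341) (nat_lit 296) (nat_lit 227)) (XT.nd (nat_lit 94) (nat_lit 336) (nat_lit 0) (XT.lf (nat_lit 0) (nat_lit 1171080420) (nat_lit 420) (nat_lit 2188724291) (nat_lit 84) (nat_lit 9416538568) (nat_lit 56) (nat_lit 5) (nat_lit 61) (nat_lit 5) (nat_lit 57) (nat_lit 5) (nat_lit 342) (nat_lit 296) (nat_lit 226)) (XT.lf (nat_lit 0) (nat_lit 3021352989) (nat_lit 336) (nat_lit 7816043) (nat_lit 420) (nat_lit 10006341328) (nat_lit 52) (nat_lit 5) (nat_lit 56) (nat_lit 5) (nat_lit 57) (nat_lit 5) (nat_lit 343) (nat_lit 296) (nat_lit 225))))))))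
noncomputable def xc107 : XT := (XT.nd (nat_lit 2256) (nat_lit 1092) (nat_lit 0) (XT.nd (nat_lit 1128) (nat_lit 1092) (nat_lit 0) (XT.nd (nat_lit 564) (nat_lit 504) (nat_lit 0) (XT.nd (nat_lit 282) (nat_lit 420) (nat_lit 0) (XT.nd (nat_lit 94) (nat_lit 336) (nat_lit 0) (XT.lf (nat_lit 0) (nat_lit 4978389483) (nat_lit 420) (nat_lit 4927204211) (nat_lit 84) (nat_lit 3396149516) (nat_lit 52) (nat_lit 5) (nat_lit 57) (nat_lit 5) (nat_lit 53) (nat_lit 5) (nat_lit 344) (nat_lit 296) (nat_lit 224)) (XT.nd (nat_lit 94) (nat_lit 0) (nat_lit 0) (XT.lf (nat_lit 0) (nat_lit 294090802) (nat_lit 336) (nat_lit 6673902764) (nat_lit 420) (nat_lit 6608925937) (nat_lit 48) (nat_lit 5) (nat_lit 52) (nat_lit 5) (nat_lit 53) (nat_lit 5) (nat_lit 345) (nat_lit 296) (nat_lit 223)) (XT.lf (nat_lit 0) (nat_lit 5752796685) (nat_lit 336) (nat_lit 3295275066) (nat_lit 420) (nat_lit 4811728669) (nat_lit 48) (nat_lit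 5) (nat_lit 52) (nat_lit 5) (nat_lit 53) (nat_lit 5) (nat_lit 346) (nat_lit 296) (nat_lit 222)))) (XT.nd (nat_lit 94) (nat_lit 420) (nat_lit 0) (XT.lf (nat_lit 0) (nat_lit 11172484920) (nat_lit 420) (nat_lit 2801313471) (nat_lit 84) (nat_lit 178341659) (nat_lit 48) (nat_lit 5) (nat_lit 53) (nat_lit 5) (nat_lit 49) (nat_lit 5) (nat_lit 347) (nat_lit 296) (nat_lit 221)) (XT.nd (nat_lit 94) (nat_lit 84) (nat_lit 0) (XT.lf (nat_lit 0) (nat_lit 2660905729) (nat_lit 336) (nat_lit 10740597170) (nat_lit 420) (nat_lit 1050901007) (nat_lit 44) (nat_lit 5) (nat_lit 48) (nat_lit 5) (nat_lit 49) (nat_lit 5) (nat_lit 348) (nat_lit 296) (nat_lit 220)) (XT.lf (nat_lit 0) (nat_lit 927034731) (nat_lit 420) (nat_lit 6446900119) (nat_lit 84) (nat_lit 7387555174) (nat_lit 43) (nat_lit 5) (nat_lit 48) (nat_lit 5) (nat_lit 44) (nat_lit 5) (nat_lit 349) (nat_lit 296) (nat_lit 219))))) (XT.nd (nat_lit 282) (nat_lit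 252) (nat_lit 0) (XT.nd (nat_lit 94) (nat_lit 252) (nat_lit 0) (XT.lf (nat_lit 0) (nat_lit 2923838616) (nat_lit 420) (nat_lit 974593864) (nat_lit 84) (nat_lit 11182088680) (nat_lit 43) (nat_lit 5) (nat_lit 48) (nat_lit 5) (nat_lit 44) (nat_lit 5) (nat_lit 350) (nat_lit 296) (nat_lit 218)) (XT.nd (nat_lit 94) (nat_lit 0) (nat_lit 0) (XT.lf (nat_lit 0) (nat_lit 4736373792) (nat_lit 252) (nat_lit 273156813) (nat_lit 336) (nat_lit 10399130711) (nat_lit 40) (nat_lit 5) (nat_lit 43) (nat_lit 5) (nat_lit 44) (nat_lit 5) (nat_lit 351) (nat_lit 296) (nat_lit 217)) (XT.lf (nat_lit 0) (nat_lit 7184803584) (nat_lit 336) (nat_lit 5162827594) (nat_lit 84) (nat_lit 3398623960) (nat_lit 40) (nat_lit 5) (nat_lit 44) (nat_lit 5) (nat_lit 41) (nat_lit 5) (nat_lit 352) (nat_lit 296) (nat_lit 216)))) (XT.nd (nat_lit 94) (nat_lit 0) (nat_lit 0) (XT.lf (nat_lit 0) (nat_lit 498745315) (nat_lit 252) (nat_lit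 8917378472) (nat_lit 336) (nat_lit 6678595916) (nat_lit 37) (nat_lit 5) (nat_lit 40) (nat_lit 5) (nat_lit 41) (nat_lit 5) (nat_lit 353) (nat_lit 296) (nat_lit 215)) (XT.nd (nat_lit 94) (nat_lit 0) (nat_lit 0) (XT.lf (nat_lit 0) (nat_lit 6419603655) (nat_lit 252) (nat_lit 5332093442) (nat_lit 336) (nat_lit 4701252811) (nat_lit 37) (nat_lit 5) (nat_lit 40) (nat_lit 5) (nat_lit 41) (nat_lit 5) (nat_lit 354) (nat_lit 296) (nat_lit 214)) (XT.lf (nat_lit 0) (nat_lit 12499107961) (nat_lit 252) (nat_lit 1642323557) (nat_lit 336) (nat_lit 2681468481) (nat_lit 37) (nat_lit 5) (nat_lit 40) (nat_lit 5) (nat_lit 41) (nat_lit 5) (nat_lit 355) (nat_lit 296) (nat_lit 213)))))) (XT.nd (nat_lit 564) (nat_lit 504) (nat_lit 0) (XT.nd (nat_lit 282) (nat_lit 252) (nat_lit 0) (XT.nd (nat_lit 94) (nat_lit 84) (nat_lit 0) (XT.lf (nat_lit 0) (nat_lit 1547813611) (nat_lit 252) (nat_lit 15076476967) (nat_lit 336)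 (nat_lit 579485413) (nat_lit 34) (nat_lit 5) (nat_lit 37) (nat_lit 5) (nat_lit 38) (nat_lit 5) (nat_lit 356) (nat_lit 296) (nat_lit 212)) (XT.nd (nat_lit 94) (nat_lit 0) (nat_lit 0) (XT.lf (nat_lit 0) (nat_lit 1600371800) (nat_lit 336) (nat_lit 9959810285) (nat_lit 84) (nat_lit 6034448043) (nat_lit 33) (nat_lit 5) (nat_lit 37) (nat_lit 5) (nat_lit 34) (nat_lit 5) (nat_lit 357) (nat_lit 296) (nat_lit 211)) (XT.lf (nat_lit 0) (nat_lit 3818609455) (nat_lit 336) (nat_lit 4117100181) (nat_lit 84) (nat_lit 10062282869) (nat_lit 33) (nat_lit 5) (nat_lit 37) (nat_lit 5) (nat_lit 34) (nat_lit 5) (nat_lit 358) (nat_lit 296) (nat_lit 210)))) (XT.nd (nat_lit 94) (nat_lit 0) (nat_lit 0) (XT.lf (nat_lit 0) (nat_lit 1922088311) (nat_lit 252) (nat_lit 4185949561) (nat_lit 336) (nat_lit 12305788341) (nat_lit 30) (nat_lit 5) (nat_lit 33) (nat_lit 5) (nat_lit 34) (nat_lit 5) (nat_lit 359) (nat_lit 296)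 (nat_lit 209)) (XT.nd (nat_lit 94) (nat_lit 0) (nat_lit 0) (XT.lf (nat_lit 0) (nat_lit 8212637203) (nat_lit 252) (nat_lit 282404380) (nat_lit 336) (nat_lit 10346725503) (nat_lit 30) (nat_lit 5) (nat_lit 33) (nat_lit 5) (nat_lit 34) (nat_lit 5) (nat_lit 360) (nat_lit 296) (nat_lit 208)) (XT.lf (nat_lit 0) (nat_lit 10977221103) (nat_lit 336) (nat_lit 4644809750) (nat_lit 84) (nat_lit 3660326515) (nat_lit 30) (nat_lit 5) (nat_lit 34) (nat_lit 5) (nat_lit 31) (nat_lit 5) (nat_lit 361) (nat_lit 296) (nat_lit 207))))) (XT.nd (nat_lit 282) (nat_lit 336) (nat_lit 0) (XT.nd (nat_lit 94) (nat_lit 0) (nat_lit 0) (XT.lf (nat_lit 0) (nat_lit 1530759982) (nat_lit 168) (nat_lit 12008197360) (nat_lit 252) (nat_lit 6197606307) (nat_lit 28) (nat_lit 5) (nat_lit 30) (nat_lit 5) (nat_lit 31) (nat_lit 5) (nat_lit 362) (nat_lit 296) (nat_lit 206)) (XT.nd (nat_lit 94) (nat_lit 0) (nat_lit 0) (XT.lf (nat_lit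 0) (nat_lit 7974247438) (nat_lit 168) (nat_lit 8239124566) (nat_lit 252) (nat_lit 3990484542) (nat_lit 28) (nat_lit 5) (nat_lit 30) (nat_lit 5) (nat_lit 31) (nat_lit 5) (nat_lit 363) (nat_lit 296) (nat_lit 205)) (XT.lf (nat_lit 0) (nat_lit 14596151808) (nat_lit 168) (nat_lit 4359781588) (nat_lit 252) (nat_lit 1730195991) (nat_lit 28) (nat_lit 5) (nat_lit 30) (nat_lit 5) (nat_lit 31) (nat_lit 5) (nat_lit 364) (nat_lit 296) (nat_lit 204)))) (XT.nd (nat_lit 94) (nat_lit 0) (nat_lit 0) (XT.lf (nat_lit 0) (nat_lit 217386652) (nat_lit 252) (nat_lit 358342198) (nat_lit 336) (nat_lit 20607855982) (nat_lit 24) (nat_lit 5) (nat_lit 27) (nat_lit 5) (nat_lit 28) (nat_lit 5) (nat_lit 365) (nat_lit 296) (nat_lit 203)) (XT.nd (nat_lit 94) (nat_lit 0) (nat_lit 0) (XT.lf (nat_lit 0) (nat_lit 3004451992) (nat_lit 336) (nat_lit 14922043569) (nat_lit 84) (nat_lit 3766745487) (nat_lit 24) (nat_lit 5) (nat_lit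 28) (nat_lit 5) (nat_lit 25) (nat_lit 5) (nat_lit 366) (nat_lit 296) (nat_lit 202)) (XT.lf (nat_lit 0) (nat_lit 5498228841) (nat_lit 336) (nat_lit 8714766885) (nat_lit 84) (nat_lit 8006050345) (nat_lit 24) (nat_lit 5) (nat_lit 28) (nat_lit 5) (nat_lit 25) (nat_lit 5) (nat_lit 367) (nat_lit 296) (nat_lit 201))))))) (XT.nd (nat_lit 1128) (nat_lit 504) (nat_lit 0) (XT.nd (nat_lit 564) (nat_lit 252) (nat_lit 0) (XT.nd (nat_lit 282) (nat_lit 168) (nat_lit 0) (XT.nd (nat_lit 94) (nat_lit 168) (nat_lit 0) (XT.lf (nat_lit 0) (nat_lit 8055829060) (nat_lit 336) (nat_lit 2335027498) (nat_lit 84) (nat_lit 12370743647) (nat_lit 24) (nat_lit 5) (nat_lit 28) (nat_lit 5) (nat_lit 25) (nat_lit 5) (nat_lit 368) (nat_lit 296) (nat_lit 200)) (XT.nd (nat_lit 94) (nat_lit 0) (nat_lit 0) (XT.lf (nat_lit 0) (nat_lit 4309957209) (nat_lit 168) (nat_lit 6412434700) (nat_lit 252) (nat_lit 12597691844) (nat_lit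 22) (nat_lit 5) (nat_lit 24) (nat_lit 5) (nat_lit 25) (nat_lit 5) (nat_lit 369) (nat_lit 296) (nat_lit 199)) (XT.lf (nat_lit 0) (nat_lit 11191271196) (nat_lit 168) (nat_lit 2291844725) (nat_lit 252) (nat_lit 10412437254) (nat_lit 22) (nat_lit 5) (nat_lit 24) (nat_lit 5) (nat_lit 25) (nat_lit 5) (nat_lit 370) (nat_lit 296) (nat_lit 198)))) (XT.nd (nat_lit 94) (nat_lit 168) (nat_lit 0) (XT.lf (nat_lit 0) (nat_lit 16336282348) (nat_lit 252) (nat_lit 6241310126) (nat_lit 84) (nat_lit 1911085451) (nat_lit 22) (nat_lit 5) (nat_lit 25) (nat_lit 5) (nat_lit 23) (nat_lit 5) (nat_lit 371) (nat_lit 296) (nat_lit 197)) (XT.nd (nat_lit 94) (nat_lit 0) (nat_lit 0) (XT.lf (nat_lit 0) (nat_lit 388015640) (nat_lit 168) (nat_lit 18904999357) (nat_lit 252) (nat_lit 5806733463) (nat_lit 20) (nat_lit 5) (nat_lit 22) (nat_lit 5) (nat_lit 23) (nat_lit 5) (nat_lit 372) (nat_lit 296) (nat_lit 196)) (XT.lf (nat_lit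 0) (nat_lit 7336973353) (nat_lit 168) (nat_lit 15057593725) (nat_lit 252) (nat_lit 3333573871) (nat_lit 20) (nat_lit 5) (nat_lit 22) (nat_lit 5) (nat_lit 23) (nat_lit 5) (nat_lit 373) (nat_lit 296) (nat_lit 195))))) (XT.nd (nat_lit 282) (nat_lit 0) (nat_lit 0) (XT.nd (nat_lit 94) (nat_lit 252) (nat_lit 0) (XT.lf (nat_lit 0) (nat_lit 14483706031) (nat_lit 168) (nat_lit 11096935870) (nat_lit 252) (nat_lit 795758034) (nat_lit 20) (nat_lit 5) (nat_lit 22) (nat_lit 5) (nat_lit 23) (nat_lit 5) (nat_lit 374) (nat_lit 296) (nat_lit 194)) (XT.nd (nat_lit 94) (nat_lit 168) (nat_lit 0) (XT.lf (nat_lit 0) (nat_lit 1772630634) (nat_lit 252) (nat_lit 5228200782) (nat_lit 84) (nat_lit 20043741915) (nat_lit 19) (nat_lit 5) (nat_lit 22) (nat_lit 5) (nat_lit 20) (nat_lit 5) (nat_lit 375) (nat_lit 296) (nat_lit 193)) (XT.lf (nat_lit 0) (nat_lit 1651171252) (nat_lit 168) (nat_lit 2758245601) (nat_lit 252)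 (nat_lit 23323650097) (nat_lit 17) (nat_lit 5) (nat_lit 19) (nat_lit 5) (nat_lit 20) (nat_lit 5) (nat_lit 376) (nat_lit 296) (nat_lit 192)))) (XT.nd (nat_lit 94) (nat_lit 0) (nat_lit 0) (XT.lf (nat_lit 0) (nat_lit 7188140463) (nat_lit 252) (nat_lit 19620143124) (nat_lit 84) (nat_lit 1632777139) (nat_lit 17) (nat_lit 5) (nat_lit 20) (nat_lit 5) (nat_lit 18) (nat_lit 5) (nat_lit 377) (nat_lit 296) (nat_lit 191)) (XT.nd (nat_lit 94) (nat_lit 0) (nat_lit 0) (XT.lf (nat_lit 0) (nat_lit 10070582131) (nat_lit 252) (nat_lit 13002758193) (nat_lit 84) (nat_lit 6097139350) (nat_lit 17) (nat_lit 5) (nat_lit 20) (nat_lit 5) (nat_lit 18) (nat_lit 5) (nat_lit 378) (nat_lit 296) (nat_lit 190)) (XT.lf (nat_lit 0) (nat_lit 13032066458) (nat_lit 252) (nat_lit 6196210671) (nat_lit 84) (nat_lit 10694574788) (nat_lit 17) (nat_lit 5) (nat_lit 20) (nat_lit 5) (nat_lit 18) (nat_lit 5) (nat_lit 379) (nat_lit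 296) (nat_lit 189)))))) (XT.nd (nat_lit 564) (nat_lit 252) (nat_lit 0) (XT.nd (nat_lit 282) (nat_lit 84) (nat_lit 0) (XT.nd (nat_lit 94) (nat_lit 0) (nat_lit 0) (XT.lf (nat_lit 0) (nat_lit 822413658) (nat_lit 168) (nat_lit 15261098644) (nat_lit 252) (nat_lit 14615113529) (nat_lit 15) (nat_lit 5) (nat_lit 17) (nat_lit 5) (nat_lit 18) (nat_lit 5) (nat_lit 380) (nat_lit 296) (nat_lit 188)) (XT.nd (nat_lit 94) (nat_lit 0) (nat_lit 0) (XT.lf (nat_lit 0) (nat_lit 8174632668) (nat_lit 168) (nat_lit 11109741690) (nat_lit 252) (nat_lit 12212395237) (nat_lit 15) (nat_lit 5) (nat_lit 17) (nat_lit 5) (nat_lit 18) (nat_lit 5) (nat_lit 381) (nat_lit 296) (nat_lit 187)) (XT.lf (nat_lit 0) (nat_lit 15739892597) (nat_lit 168) (nat_lit 6835012501) (nat_lit 252) (nat_lit 9745066730) (nat_lit 15) (nat_lit 5) (nat_lit 17) (nat_lit 5) (nat_lit 18) (nat_lit 5) (nat_lit 382) (nat_lit 296) (nat_lit 186)))) (XT.nd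 (nat_lit 94) (nat_lit 84) (nat_lit 0) (XT.lf (nat_lit 0) (nat_lit 23525245059) (nat_lit 168) (nat_lit 2432926581) (nat_lit 252) (nat_lit 7210828198) (nat_lit 15) (nat_lit 5) (nat_lit 17) (nat_lit 5) (nat_lit 18) (nat_lit 5) (nat_lit 383) (nat_lit 296) (nat_lit 185)) (XT.nd (nat_lit 94) (nat_lit 84) (nat_lit 0) (XT.lf (nat_lit 0) (nat_lit 29458165947) (nat_lit 252) (nat_lit 2527536595) (nat_lit 84) (nat_lit 2058296478) (nat_lit 15) (nat_lit 5) (nat_lit 18) (nat_lit 5) (nat_lit 16) (nat_lit 4) (nat_lit 384) (nat_lit 296) (nat_lit 184)) (XT.lf (nat_lit 0) (nat_lit 4868678274) (nat_lit 84) (nat_lit 28262393120) (nat_lit 168) (nat_lit 1813073018) (nat_lit 14) (nat_lit 5) (nat_lit 15) (nat_lit 5) (nat_lit 16) (nat_lit 4) (nat_lit 385) (nat_lit 296) (nat_lit 183))))) (XT.nd (nat_lit 282) (nat_lit 168) (nat_lit 0) (XT.nd (nat_lit 94) (nat_lit 0) (nat_lit 0) (XT.lf (nat_lit 0) (nat_lit 1042480208)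 (nat_lit 168) (nat_lit 23348133825) (nat_lit 84) (nat_lit 11480720585) (nat_lit 13) (nat_lit 5) (nat_lit 15) (nat_lit 5) (nat_lit 14) (nat_lit 5) (nat_lit 386) (nat_lit 296) (nat_lit 182)) (XT.nd (nat_lit 94) (nat_lit 0) (nat_lit 0) (XT.lf (nat_lit 0) (nat_lit 3940409652) (nat_lit 168) (nat_lit 16444253438) (nat_lit 84) (nat_lit 16442309202) (nat_lit 13) (nat_lit 5) (nat_lit 15) (nat_lit 5) (nat_lit 14) (nat_lit 5) (nat_lit 387) (nat_lit 296) (nat_lit 181)) (XT.lf (nat_lit 0) (nat_lit 6919945868) (nat_lit 168) (nat_lit 9339403930) (nat_lit 84) (nat_lit 21553155956) (nat_lit 13) (nat_lit 5) (nat_lit 15) (nat_lit 5) (nat_lit 14) (nat_lit 5) (nat_lit 388) (nat_lit 296) (nat_lit 180)))) (XT.nd (nat_lit 94) (nat_lit 168) (nat_lit 0) (XT.lf (nat_lit 0) (nat_lit 9983866096) (nat_lit 168) (nat_lit 2026962837) (nat_lit 84) (nat_lit 26818024692) (nat_lit 13) (nat_lit 5) (nat_lit 15) (nat_lit 5)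 (nat_lit 14) (nat_lit 5) (nat_lit 389) (nat_lit 296) (nat_lit 179)) (XT.nd (nat_lit 94) (nat_lit 0) (nat_lit 0) (XT.lf (nat_lit 0) (nat_lit 5612974735) (nat_lit 168) (nat_lit 7577732899) (nat_lit 252) (nat_lit 26684529487) (nat_lit 11) (nat_lit 5) (nat_lit 13) (nat_lit 5) (nat_lit 14) (nat_lit 5) (nat_lit 390) (nat_lit 296) (nat_lit 178)) (XT.lf (nat_lit 0) (nat_lit 13520567097) (nat_lit 168) (nat_lit 2989922083) (nat_lit 252) (nat_lit 24443164486) (nat_lit 11) (nat_lit 5) (nat_lit 13) (nat_lit 5) (nat_lit 14) (nat_lit 5) (nat_lit 391) (nat_lit 296) (nat_lit 177))))))))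
noncomputable def xc108 : XT := (XT.nd (nat_lit 2256) (nat_lit 0) (nat_lit 0) (XT.nd (nat_lit 1128) (nat_lit 84) (nat_lit 0) (XT.nd (nat_lit 564) (nat_lit 252) (nat_lit 0) (XT.nd (nat_lit 282) (nat_lit 84) (nat_lit 0) (XT.nd (nat_lit 94) (nat_lit 0) (nat_lit 0) (XT.lf (nat_lit 0) (nat_lit 19943002524) (nat_lit 252) (nat_lit 20421456756) (nat_lit 84) (nat_lit 1700751557) (nat_lit 11) (nat_lit 5) (nat_lit 14) (nat_lit 5) (nat_lit 12) (nat_lit 4) (nat_lit 392) (nat_lit 296) (nat_lit 176)) (XT.nd (nat_lit 94) (nat_lit 0) (nat_lit 0) (XT.lf (nat_lit 0) (nat_lit 23505283916) (nat_lit 252) (nat_lit 13234674162) (nat_lit 84) (nat_lit 6470557704) (nat_lit 11) (nat_lit 5) (nat_lit 14) (nat_lit 5) (nat_lit 12) (nat_lit 4) (nat_lit 393) (nat_lit 296) (nat_lit 175)) (XT.lf (nat_lit 0) (nat_lit 27170993378) (nat_lit 252) (nat_lit 5836379556) (nat_lit 84) (nat_lit 11384182582) (nat_lit 11) (nat_lit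 5) (nat_lit 14) (nat_lit 5) (nat_lit 12) (nat_lit 4) (nat_lit 394) (nat_lit 296) (nat_lit 174)))) (XT.nd (nat_lit 94) (nat_lit 0) (nat_lit 0) (XT.lf (nat_lit 0) (nat_lit 1816930139) (nat_lit 84) (nat_lit 29144641767) (nat_lit 168) (nat_lit 14647300237) (nat_lit 10) (nat_lit 5) (nat_lit 11) (nat_lit 5) (nat_lit 12) (nat_lit 4) (nat_lit 395) (nat_lit 296) (nat_lit 173)) (XT.nd (nat_lit 94) (nat_lit 0) (nat_lit 0) (XT.lf (nat_lit 0) (nat_lit 9820392229) (nat_lit 84) (nat_lit 25103490681) (nat_lit 168) (nat_lit 11938374185) (nat_lit 10) (nat_lit 5) (nat_lit 11) (nat_lit 5) (nat_lit 12) (nat_lit 4) (nat_lit 396) (nat_lit 296) (nat_lit 172)) (XT.lf (nat_lit 0) (nat_lit 18061458844) (nat_lit 84) (nat_lit 20941072732) (nat_lit 168) (nat_lit 9152178812) (nat_lit 10) (nat_lit 5) (nat_lit 11) (nat_lit 5) (nat_lit 12) (nat_lit 4) (nat_lit 397) (nat_lit 296) (nat_lit 171))))) (XT.nd (nat_lit 282)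 (nat_lit 252) (nat_lit 0) (XT.nd (nat_lit 94) (nat_lit 0) (nat_lit 0) (XT.lf (nat_lit 0) (nat_lit 26547811522) (nat_lit 84) (nat_lit 16653508110) (nat_lit 168) (nat_lit 6286117093) (nat_lit 10) (nat_lit 5) (nat_lit 11) (nat_lit 5) (nat_lit 12) (nat_lit 4) (nat_lit 398) (nat_lit 296) (nat_lit 170)) (XT.nd (nat_lit 94) (nat_lit 0) (nat_lit 0) (XT.lf (nat_lit 0) (nat_lit 35287360431) (nat_lit 84) (nat_lit 12236800357) (nat_lit 168) (nat_lit 3337517557) (nat_lit 10) (nat_lit 5) (nat_lit 11) (nat_lit 5) (nat_lit 12) (nat_lit 4) (nat_lit 399) (nat_lit 296) (nat_lit 169)) (XT.lf (nat_lit 0) (nat_lit 44288251748) (nat_lit 84) (nat_lit 7686832637) (nat_lit 168) (nat_lit 303631801) (nat_lit 10) (nat_lit 5) (nat_lit 11) (nat_lit 5) (nat_lit 12) (nat_lit 4) (nat_lit 400) (nat_lit 296) (nat_lit 168)))) (XT.nd (nat_lit 94) (nat_lit 168) (nat_lit 0) (XT.lf (nat_lit 0) (nat_lit 2761584238) (nat_lit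 168) (nat_lit 208954390) (nat_lit 84) (nat_lit 50768465731) (nat_lit 9) (nat_lit 5) (nat_lit 11) (nat_lit 5) (nat_lit 10) (nat_lit 5) (nat_lit 401) (nat_lit 296) (nat_lit 167)) (XT.nd (nat_lit 94) (nat_lit 0) (nat_lit 0) (XT.lf (nat_lit 0) (nat_lit 6008429862) (nat_lit 252) (nat_lit 47299824457) (nat_lit 84) (nat_lit 1933340583) (nat_lit 7) (nat_lit 5) (nat_lit 10) (nat_lit 5) (nat_lit 8) (nat_lit 4) (nat_lit 402) (nat_lit 296) (nat_lit 166)) (XT.lf (nat_lit 0) (nat_lit 9382916117) (nat_lit 252) (nat_lit 40480701663) (nat_lit 84) (nat_lit 6926321097) (nat_lit 7) (nat_lit 5) (nat_lit 10) (nat_lit 5) (nat_lit 8) (nat_lit 4) (nat_lit 403) (nat_lit 296) (nat_lit 165)))))) (XT.nd (nat_lit 564) (nat_lit 0) (nat_lit 0) (XT.nd (nat_lit 282) (nat_lit 84) (nat_lit 0) (XT.nd (nat_lit 94) (nat_lit 0) (nat_lit 0) (XT.lf (nat_lit 0) (nat_lit 12856583154) (nat_lit 252) (nat_lit 33459106597) (nat_lit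 84) (nat_lit 12070769515) (nat_lit 7) (nat_lit 5) (nat_lit 10) (nat_lit 5) (nat_lit 8) (nat_lit 4) (nat_lit 404) (nat_lit 296) (nat_lit 164)) (XT.nd (nat_lit 94) (nat_lit 0) (nat_lit 0) (XT.lf (nat_lit 0) (nat_lit 16432668796) (nat_lit 252) (nat_lit 26228494396) (nat_lit 84) (nat_lit 17371481002) (nat_lit 7) (nat_lit 5) (nat_lit 10) (nat_lit 5) (nat_lit 8) (nat_lit 4) (nat_lit 405) (nat_lit 296) (nat_lit 163)) (XT.lf (nat_lit 0) (nat_lit 20114506328) (nat_lit 252) (nat_lit 18782125372) (nat_lit 84) (nat_lit 22833396376) (nat_lit 7) (nat_lit 5) (nat_lit 10) (nat_lit 5) (nat_lit 8) (nat_lit 4) (nat_lit 406) (nat_lit 296) (nat_lit 162)))) (XT.nd (nat_lit 94) (nat_lit 84) (nat_lit 0) (XT.lf (nat_lit 0) (nat_lit 23905527610) (nat_lit 252) (nat_lit 11113058729) (nat_lit 84) (nat_lit 28461606715) (nat_lit 7) (nat_lit 5) (nat_lit 10) (nat_lit 5) (nat_lit 8) (nat_lit 4) (nat_lit 407) (nat_lit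 296) (nat_lit 161)) (XT.nd (nat_lit 94) (nat_lit 84) (nat_lit 0) (XT.lf (nat_lit 0) (nat_lit 27809266269) (nat_lit 252) (nat_lit 3214146094) (nat_lit 84) (nat_lit 34261358100) (nat_lit 7) (nat_lit 5) (nat_lit 10) (nat_lit 5) (nat_lit 8) (nat_lit 4) (nat_lit 408) (nat_lit 296) (nat_lit 160)) (XT.lf (nat_lit 0) (nat_lit 5023181050) (nat_lit 84) (nat_lit 26856010526) (nat_lit 168) (nat_lit 35264706034) (nat_lit 6) (nat_lit 5) (nat_lit 7) (nat_lit 5) (nat_lit 8) (nat_lit 4) (nat_lit 409) (nat_lit 296) (nat_lit 159))))) (XT.nd (nat_lit 282) (nat_lit 0) (nat_lit 0) (XT.nd (nat_lit 94) (nat_lit 0) (nat_lit 0) (XT.lf (nat_lit 0) (nat_lit 13576423387) (nat_lit 84) (nat_lit 22527815363) (nat_lit 168) (nat_lit 32955529258) (nat_lit 6) (nat_lit 5) (nat_lit 7) (nat_lit 5) (nat_lit 8) (nat_lit 4) (nat_lit 410) (nat_lit 296) (nat_lit 158)) (XT.nd (nat_lit 94) (nat_lit 0) (nat_lit 0) (XT.lf (nat_lit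 0) (nat_lit 22387463997) (nat_lit 84) (nat_lit 18068341636) (nat_lit 168) (nat_lit 30579370565) (nat_lit 6) (nat_lit 5) (nat_lit 7) (nat_lit 5) (nat_lit 8) (nat_lit 4) (nat_lit 411) (nat_lit 296) (nat_lit 157)) (XT.lf (nat_lit 0) (nat_lit 31464515695) (nat_lit 84) (nat_lit 13473432647) (nat_lit 168) (nat_lit 28134015125) (nat_lit 6) (nat_lit 5) (nat_lit 7) (nat_lit 5) (nat_lit 8) (nat_lit 4) (nat_lit 412) (nat_lit 296) (nat_lit 156)))) (XT.nd (nat_lit 94) (nat_lit 0) (nat_lit 0) (XT.lf (nat_lit 0) (nat_lit 40816039241) (nat_lit 84) (nat_lit 8738805462) (nat_lit 168) (nat_lit 25617183613) (nat_lit 6) (nat_lit 5) (nat_lit 7) (nat_lit 5) (nat_lit 8) (nat_lit 4) (nat_lit 413) (nat_lit 296) (nat_lit 155)) (XT.nd (nat_lit 94) (nat_lit 0) (nat_lit 0) (XT.lf (nat_lit 0) (nat_lit 50450751237) (nat_lit 84) (nat_lit 3860046911) (nat_lit 168) (nat_lit 23026530076) (nat_lit 6) (nat_lit 5) (nat_lit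 7) (nat_lit 5) (nat_lit 8) (nat_lit 4) (nat_lit 414) (nat_lit 296) (nat_lit 154)) (XT.lf (nat_lit 0) (nat_lit 59221822381) (nat_lit 168) (nat_lit 19203829893) (nat_lit 0) (nat_lit 1143870202) (nat_lit 6) (nat_lit 5) (nat_lit 8) (nat_lit 4) (nat_lit 6) (nat_lit 4) (nat_lit 415) (nat_lit 296) (nat_lit 153))))))) (XT.nd (nat_lit 44086) (nat_lit 0) (nat_lit 9744) (XT.nd (nat_lit 43522) (nat_lit 0) (nat_lit 13272) (XT.nd (nat_lit 43240) (nat_lit 0) (nat_lit 14616) (XT.nd (nat_lit 43052) (nat_lit 0) (nat_lit 14616) (XT.lf (nat_lit 0) (nat_lit 64320717081) (nat_lit 168) (nat_lit 11328808759) (nat_lit 0) (nat_lit 6220290989) (nat_lit 6) (nat_lit 5) (nat_lit 8) (nat_lit 4) (nat_lit 6) (nat_lit 4) (nat_lit 416) (nat_lit 296) (nat_lit 152)) (XT.nd (nat_lit 94) (nat_lit 588) (nat_lit 0) (XT.lf (nat_lit 0) (nat_lit 3136015992) (nat_lit 588) (nat_lit 140730466) (nat_lit 588) (nat_lit 140730466) (nat_lit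 187) (nat_lit 3) (nat_lit 194) (nat_lit 3) (nat_lit 194) (nat_lit 5) (nat_lit 297) (nat_lit 297) (nat_lit 270)) (XT.lf (nat_lit 0) (nat_lit 1154279641) (nat_lit 588) (nat_lit 4367230887) (nat_lit 672) (nat_lit 1357788793) (nat_lit 180) (nat_lit 5) (nat_lit 187) (nat_lit 3) (nat_lit 188) (nat_lit 5) (nat_lit 298) (nat_lit 297) (nat_lit 269)))) (XT.nd (nat_lit 94) (nat_lit 0) (nat_lit 0) (XT.lf (nat_lit 0) (nat_lit 2847570130) (nat_lit 588) (nat_lit 1569752001) (nat_lit 672) (nat_lit 2509895441) (nat_lit 180) (nat_lit 5) (nat_lit 187) (nat_lit 3) (nat_lit 188) (nat_lit 5) (nat_lit 299) (nat_lit 297) (nat_lit 268)) (XT.nd (nat_lit 94) (nat_lit 0) (nat_lit 0) (XT.lf (nat_lit 84) (nat_lit 1304652914) (nat_lit 0) (nat_lit 3235280265) (nat_lit 672) (nat_lit 2438681226) (nat_lit 181) (nat_lit 5) (nat_lit 180) (nat_lit 5) (nat_lit 188) (nat_lit 5) (nat_lit 300) (nat_lit 297) (nat_lit 267)) (XT.lf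 (nat_lit 84) (nat_lit 4265725929) (nat_lit 0) (nat_lit 1970697830) (nat_lit 672) (nat_lit 797006169) (nat_lit 181) (nat_lit 5) (nat_lit 180) (nat_lit 5) (nat_lit 188) (nat_lit 5) (nat_lit 301) (nat_lit 297) (nat_lit 266))))) (XT.nd (nat_lit 282) (nat_lit 672) (nat_lit 0) (XT.nd (nat_lit 94) (nat_lit 0) (nat_lit 84) (XT.lf (nat_lit 84) (nat_lit 187276164) (nat_lit 0) (nat_lit 628371403) (nat_lit 756) (nat_lit 6276247329) (nat_lit 173) (nat_lit 5) (nat_lit 172) (nat_lit 5) (nat_lit 181) (nat_lit 5) (nat_lit 302) (nat_lit 297) (nat_lit 265)) (XT.nd (nat_lit 94) (nat_lit 0) (nat_lit 0) (XT.lf (nat_lit 0) (nat_lit 2436511052) (nat_lit 672) (nat_lit 3913063942) (nat_lit 756) (nat_lit 803424983) (nat_lit 173) (nat_lit 5) (nat_lit 181) (nat_lit 5) (nat_lit 182) (nat_lit 5) (nat_lit 303) (nat_lit 297) (nat_lit 264)) (XT.lf (nat_lit 0) (nat_lit 4054002704) (nat_lit 672) (nat_lit 872423247) (nat_lit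 756) (nat_lit 2291524932) (nat_lit 173) (nat_lit 5) (nat_lit 181) (nat_lit 5) (nat_lit 182) (nat_lit 5) (nat_lit 304) (nat_lit 297) (nat_lit 263)))) (XT.nd (nat_lit 94) (nat_lit 756) (nat_lit 0) (XT.lf (nat_lit 84) (nat_lit 2272149825) (nat_lit 0) (nat_lit 3413786856) (nat_lit 756) (nat_lit 1600365973) (nat_lit 174) (nat_lit 5) (nat_lit 173) (nat_lit 5) (nat_lit 182) (nat_lit 5) (nat_lit 305) (nat_lit 297) (nat_lit 262)) (XT.nd (nat_lit 94) (nat_lit 756) (nat_lit 0) (XT.lf (nat_lit 84) (nat_lit 5496958881) (nat_lit 0) (nat_lit 1823764715) (nat_lit 756) (nat_lit 37801831) (nat_lit 174) (nat_lit 5) (nat_lit 173) (nat_lit 5) (nat_lit 182) (nat_lit 5) (nat_lit 306) (nat_lit 297) (nat_lit 261)) (XT.lf (nat_lit 84) (nat_lit 1364563713) (nat_lit 0) (nat_lit 134521414) (nat_lit 840) (nat_lit 5934989330) (nat_lit 165) (nat_lit 5) (nat_lit 164) (nat_lit 5) (nat_lit 174) (nat_lit 5) (nat_lit 307)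 (nat_lit 297) (nat_lit 260)))))) (XT.nd (nat_lit 564) (nat_lit 2772) (nat_lit 0) (XT.nd (nat_lit 282) (nat_lit 840) (nat_lit 0) (XT.nd (nat_lit 94) (nat_lit 0) (nat_lit 0) (XT.lf (nat_lit 0) (nat_lit 3063961714) (nat_lit 756) (nat_lit 2835559940) (nat_lit 840) (nat_lit 1613265221) (nat_lit 165) (nat_lit 5) (nat_lit 174) (nat_lit 5) (nat_lit 175) (nat_lit 5) (nat_lit 308) (nat_lit 297) (nat_lit 259)) (XT.nd (nat_lit 94) (nat_lit 0) (nat_lit 0) (XT.lf (nat_lit 84) (nat_lit 470038249) (nat_lit 0) (nat_lit 4160545997) (nat_lit 840) (nat_lit 2965045806) (nat_lit 166) (nat_lit 5) (nat_lit 165) (nat_lit 5) (nat_lit 175) (nat_lit 5) (nat_lit 309) (nat_lit 297) (nat_lit 258)) (XT.lf (nat_lit 84) (nat_lit 3901894436) (nat_lit 0) (nat_lit 2321898494) (nat_lit 840) (nat_lit 1458163499) (nat_lit 166) (nat_lit 5) (nat_lit 165) (nat_lit 5) (nat_lit 175) (nat_lit 5) (nat_lit 310) (nat_lit 297) (nat_lit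 257)))) (XT.nd (nat_lit 94) (nat_lit 0) (nat_lit 84) (XT.lf (nat_lit 0) (nat_lit 42749874) (nat_lit 840) (nat_lit 368266669) (nat_lit 924) (nat_lit 7361706447) (nat_lit 155) (nat_lit 5) (nat_lit 165) (nat_lit 5) (nat_lit 166) (nat_lit 5) (nat_lit 311) (nat_lit 297) (nat_lit 256)) (XT.nd (nat_lit 94) (nat_lit 0) (nat_lit 0) (XT.lf (nat_lit 0) (nat_lit 1558120269) (nat_lit 840) (nat_lit 4719984654) (nat_lit 84) (nat_lit 1588004558) (nat_lit 156) (nat_lit 5) (nat_lit 166) (nat_lit 5) (nat_lit 157) (nat_lit 5) (nat_lit 312) (nat_lit 297) (nat_lit 255)) (XT.lf (nat_lit 0) (nat_lit 3080583073) (nat_lit 840) (nat_lit 1226116154) (nat_lit 84) (nat_lit 3657134977) (nat_lit 156) (nat_lit 5) (nat_lit 166) (nat_lit 5) (nat_lit 157) (nat_lit 5) (nat_lit 313) (nat_lit 297) (nat_lit 254))))) (XT.nd (nat_lit 282) (nat_lit 1092) (nat_lit 0) (XT.nd (nat_lit 94) (nat_lit 924) (nat_lit 0) (XT.lf (nat_lit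 0) (nat_lit 2388421433) (nat_lit 840) (nat_lit 2238985546) (nat_lit 924) (nat_lit 3438089928) (nat_lit 146) (nat_lit 5) (nat_lit 156) (nat_lit 5) (nat_lit 157) (nat_lit 5) (nat_lit 314) (nat_lit 297) (nat_lit 253)) (XT.nd (nat_lit 94) (nat_lit 924) (nat_lit 0) (XT.lf (nat_lit 0) (nat_lit 6105602559) (nat_lit 840) (nat_lit 83897173) (nat_lit 924) (nat_lit 1982019178) (nat_lit 146) (nat_lit 5) (nat_lit 156) (nat_lit 5) (nat_lit 157) (nat_lit 5) (nat_lit 315) (nat_lit 297) (nat_lit 252)) (XT.lf (nat_lit 0) (nat_lit 1632889590) (nat_lit 924) (nat_lit 6160519124) (nat_lit 1008) (nat_lit 487812489) (nat_lit 135) (nat_lit 5) (nat_lit 146) (nat_lit 5) (nat_lit 147) (nat_lit 5) (nat_lit 316) (nat_lit 297) (nat_lit 251)))) (XT.nd (nat_lit 94) (nat_lit 1008) (nat_lit 0) (XT.lf (nat_lit 0) (nat_lit 1010481415) (nat_lit 1008) (nat_lit 2951722656) (nat_lit 84) (nat_lit 4432625745) (nat_lit 134) (nat_lit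 5) (nat_lit 146) (nat_lit 5) (nat_lit 135) (nat_lit 5) (nat_lit 317) (nat_lit 297) (nat_lit 250)) (XT.nd (nat_lit 94) (nat_lit 0) (nat_lit 0) (XT.lf (nat_lit 0) (nat_lit 835733616) (nat_lit 1008) (nat_lit 1675293435) (nat_lit 1092) (nat_lit 6002006735) (nat_lit 122) (nat_lit 5) (nat_lit 134) (nat_lit 5) (nat_lit 135) (nat_lit 5) (nat_lit 318) (nat_lit 297) (nat_lit 249)) (XT.lf (nat_lit 0) (nat_lit 4054617651) (nat_lit 1092) (nat_lit 3874605631) (nat_lit 84) (nat_lit 705953472) (nat_lit 122) (nat_lit 5) (nat_lit 135) (nat_lit 5) (nat_lit 123) (nat_lit 5) (nat_lit 319) (nat_lit 297) (nat_lit 248))))))))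
noncomputable def xc109 : XT := (XT.nd (nat_lit 2256) (nat_lit 2688) (nat_lit 0) (XT.nd (nat_lit 1128) (nat_lit 2184) (nat_lit 0) (XT.nd (nat_lit 564) (nat_lit 1092) (nat_lit 0) (XT.nd (nat_lit 282) (nat_lit 1176) (nat_lit 0) (XT.nd (nat_lit 94) (nat_lit 1092) (nat_lit 0) (XT.lf (nat_lit 0) (nat_lit 5623070110) (nat_lit 1092) (nat_lit 6805859) (nat_lit 84) (nat_lit 3132104879) (nat_lit 122) (nat_lit 5) (nat_lit 135) (nat_lit 5) (nat_lit 123) (nat_lit 5) (nat_lit 320) (nat_lit 297) (nat_lit 247)) (XT.nd (nat_lit 94) (nat_lit 0) (nat_lit 0) (XT.lf (nat_lit 0) (nat_lit 4027467962) (nat_lit 1092) (nat_lit 3213712292) (nat_lit 1176) (nat_lit 1651660658) (nat_lit 109) (nat_lit 5) (nat_lit 122) (nat_lit 5) (nat_lit 123) (nat_lit 5) (nat_lit 321) (nat_lit 297) (nat_lit 246)) (XT.lf (nat_lit 0) (nat_lit 8152726318) (nat_lit 1092) (nat_lit 718709886) (nat_lit 1176) (nat_lit 157652342) (nat_lit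 109) (nat_lit 5) (nat_lit 122) (nat_lit 5) (nat_lit 123) (nat_lit 5) (nat_lit 322) (nat_lit 297) (nat_lit 245)))) (XT.nd (nat_lit 94) (nat_lit 588) (nat_lit 0) (XT.lf (nat_lit 0) (nat_lit 1368520956) (nat_lit 588) (nat_lit 5934284428) (nat_lit 84) (nat_lit 1866047701) (nat_lit 102) (nat_lit 5) (nat_lit 109) (nat_lit 5) (nat_lit 103) (nat_lit 5) (nat_lit 323) (nat_lit 297) (nat_lit 244)) (XT.nd (nat_lit 94) (nat_lit 588) (nat_lit 0) (XT.lf (nat_lit 0) (nat_lit 2918678785) (nat_lit 588) (nat_lit 1865273105) (nat_lit 84) (nat_lit 4529709148) (nat_lit 102) (nat_lit 5) (nat_lit 109) (nat_lit 5) (nat_lit 103) (nat_lit 5) (nat_lit 324) (nat_lit 297) (nat_lit 243)) (XT.lf (nat_lit 0) (nat_lit 2343073159) (nat_lit 588) (nat_lit 2161519998) (nat_lit 672) (nat_lit 4958881032) (nat_lit 95) (nat_lit 5) (nat_lit 102) (nat_lit 5) (nat_lit 103) (nat_lit 5) (nat_lit 325) (nat_lit 297) (nat_lit 242)))))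 (XT.nd (nat_lit 282) (nat_lit 588) (nat_lit 0) (XT.nd (nat_lit 94) (nat_lit 504) (nat_lit 0) (XT.lf (nat_lit 0) (nat_lit 6129922454) (nat_lit 672) (nat_lit 2936373859) (nat_lit 84) (nat_lit 552068281) (nat_lit 95) (nat_lit 5) (nat_lit 103) (nat_lit 5) (nat_lit 96) (nat_lit 5) (nat_lit 326) (nat_lit 297) (nat_lit 241)) (XT.nd (nat_lit 94) (nat_lit 0) (nat_lit 0) (XT.lf (nat_lit 0) (nat_lit 1348581901) (nat_lit 504) (nat_lit 6458790722) (nat_lit 588) (nat_lit 1970757084) (nat_lit 89) (nat_lit 5) (nat_lit 95) (nat_lit 5) (nat_lit 96) (nat_lit 5) (nat_lit 327) (nat_lit 297) (nat_lit 240)) (XT.lf (nat_lit 0) (nat_lit 5795123565) (nat_lit 504) (nat_lit 3739282690) (nat_lit 588) (nat_lit 408639322) (nat_lit 89) (nat_lit 5) (nat_lit 95) (nat_lit 5) (nat_lit 96) (nat_lit 5) (nat_lit 328) (nat_lit 297) (nat_lit 239)))) (XT.nd (nat_lit 94) (nat_lit 0) (nat_lit 0) (XT.lf (nat_lit 0) (nat_lit 225785664)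 (nat_lit 504) (nat_lit 921624586) (nat_lit 588) (nat_lit 8966348402) (nat_lit 82) (nat_lit 5) (nat_lit 88) (nat_lit 5) (nat_lit 89) (nat_lit 5) (nat_lit 329) (nat_lit 297) (nat_lit 238)) (XT.nd (nat_lit 94) (nat_lit 0) (nat_lit 0) (XT.lf (nat_lit 0) (nat_lit 2774745367) (nat_lit 588) (nat_lit 5523734491) (nat_lit 84) (nat_lit 1990289106) (nat_lit 82) (nat_lit 5) (nat_lit 89) (nat_lit 5) (nat_lit 83) (nat_lit 5) (nat_lit 330) (nat_lit 297) (nat_lit 237)) (XT.lf (nat_lit 0) (nat_lit 4431034822) (nat_lit 588) (nat_lit 1066634782) (nat_lit 84) (nat_lit 4972310221) (nat_lit 82) (nat_lit 5) (nat_lit 89) (nat_lit 5) (nat_lit 83) (nat_lit 5) (nat_lit 331) (nat_lit 297) (nat_lit 236)))))) (XT.nd (nat_lit 564) (nat_lit 840) (nat_lit 0) (XT.nd (nat_lit 282) (nat_lit 504) (nat_lit 0) (XT.nd (nat_lit 94) (nat_lit 420) (nat_lit 0) (XT.lf (nat_lit 0) (nat_lit 3568520997) (nat_lit 420) (nat_lit 2575558996)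 (nat_lit 504) (nat_lit 4512666168) (nat_lit 77) (nat_lit 5) (nat_lit 82) (nat_lit 5) (nat_lit 83) (nat_lit 5) (nat_lit 332) (nat_lit 297) (nat_lit 235)) (XT.nd (nat_lit 94) (nat_lit 420) (nat_lit 0) (XT.lf (nat_lit 0) (nat_lit 7896388638) (nat_lit 504) (nat_lit 2516107691) (nat_lit 84) (nat_lit 437337483) (nat_lit 77) (nat_lit 5) (nat_lit 83) (nat_lit 5) (nat_lit 78) (nat_lit 5) (nat_lit 333) (nat_lit 297) (nat_lit 234)) (XT.lf (nat_lit 0) (nat_lit 2183703911) (nat_lit 420) (nat_lit 7538779475) (nat_lit 504) (nat_lit 1325919806) (nat_lit 72) (nat_lit 5) (nat_lit 77) (nat_lit 5) (nat_lit 78) (nat_lit 5) (nat_lit 334) (nat_lit 297) (nat_lit 233)))) (XT.nd (nat_lit 94) (nat_lit 420) (nat_lit 0) (XT.lf (nat_lit 0) (nat_lit 343123378) (nat_lit 504) (nat_lit 4205577730) (nat_lit 84) (nat_lit 6704469479) (nat_lit 71) (nat_lit 5) (nat_lit 77) (nat_lit 5) (nat_lit 72) (nat_lit 5) (nat_lit 335)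 (nat_lit 297) (nat_lit 232)) (XT.nd (nat_lit 94) (nat_lit 0) (nat_lit 0) (XT.lf (nat_lit 0) (nat_lit 564704412) (nat_lit 420) (nat_lit 1449741214) (nat_lit 504) (nat_lit 9450189946) (nat_lit 66) (nat_lit 5) (nat_lit 71) (nat_lit 5) (nat_lit 72) (nat_lit 5) (nat_lit 336) (nat_lit 297) (nat_lit 231)) (XT.lf (nat_lit 0) (nat_lit 3772202916) (nat_lit 504) (nat_lit 6158697646) (nat_lit 84) (nat_lit 1750770048) (nat_lit 66) (nat_lit 5) (nat_lit 72) (nat_lit 5) (nat_lit 67) (nat_lit 5) (nat_lit 337) (nat_lit 297) (nat_lit 230))))) (XT.nd (nat_lit 282) (nat_lit 420) (nat_lit 0) (XT.nd (nat_lit 94) (nat_lit 420) (nat_lit 0) (XT.lf (nat_lit 0) (nat_lit 5573055056) (nat_lit 504) (nat_lit 1316022753) (nat_lit 84) (nat_lit 5016794526) (nat_lit 66) (nat_lit 5) (nat_lit 72) (nat_lit 5) (nat_lit 67) (nat_lit 5) (nat_lit 338) (nat_lit 297) (nat_lit 229)) (XT.nd (nat_lit 94) (nat_lit 0) (nat_lit 0) (XT.lf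 (nat_lit 0) (nat_lit 3721978583) (nat_lit 420) (nat_lit 3719242923) (nat_lit 504) (nat_lit 4695529454) (nat_lit 61) (nat_lit 5) (nat_lit 66) (nat_lit 5) (nat_lit 67) (nat_lit 5) (nat_lit 339) (nat_lit 297) (nat_lit 228)) (XT.lf (nat_lit 0) (nat_lit 8914572458) (nat_lit 420) (nat_lit 441502917) (nat_lit 504) (nat_lit 3019139727) (nat_lit 61) (nat_lit 5) (nat_lit 66) (nat_lit 5) (nat_lit 67) (nat_lit 5) (nat_lit 340) (nat_lit 297) (nat_lit 227)))) (XT.nd (nat_lit 94) (nat_lit 84) (nat_lit 0) (XT.lf (nat_lit 0) (nat_lit 1621202031) (nat_lit 336) (nat_lit 9730058749) (nat_lit 420) (nat_lit 1269238621) (nat_lit 57) (nat_lit 5) (nat_lit 61) (nat_lit 5) (nat_lit 62) (nat_lit 5) (nat_lit 341) (nat_lit 297) (nat_lit 226)) (XT.nd (nat_lit 94) (nat_lit 0) (nat_lit 0) (XT.lf (nat_lit 0) (nat_lit 541007113) (nat_lit 420) (nat_lit 5978166243) (nat_lit 84) (nat_lit 6353599791) (nat_lit 56) (nat_lit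 5) (nat_lit 61) (nat_lit 5) (nat_lit 57) (nat_lit 5) (nat_lit 342) (nat_lit 297) (nat_lit 225)) (XT.lf (nat_lit 0) (nat_lit 2357598929) (nat_lit 420) (nat_lit 843124581) (nat_lit 84) (nat_lit 9932538103) (nat_lit 56) (nat_lit 5) (nat_lit 61) (nat_lit 5) (nat_lit 57) (nat_lit 5) (nat_lit 343) (nat_lit 297) (nat_lit 224))))))) (XT.nd (nat_lit 1128) (nat_lit 1092) (nat_lit 0) (XT.nd (nat_lit 564) (nat_lit 588) (nat_lit 0) (XT.nd (nat_lit 282) (nat_lit 336) (nat_lit 0) (XT.nd (nat_lit 94) (nat_lit 336) (nat_lit 0) (XT.lf (nat_lit 0) (nat_lit 4255178213) (nat_lit 420) (nat_lit 8889649355) (nat_lit 84) (nat_lit 256301704) (nat_lit 52) (nat_lit 5) (nat_lit 57) (nat_lit 5) (nat_lit 53) (nat_lit 5) (nat_lit 344) (nat_lit 297) (nat_lit 223)) (XT.nd (nat_lit 94) (nat_lit 336) (nat_lit 0) (XT.lf (nat_lit 0) (nat_lit 6230862021) (nat_lit 420) (nat_lit 3688224015) (nat_lit 84) (nat_lit 3757683970)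 (nat_lit 52) (nat_lit 5) (nat_lit 57) (nat_lit 5) (nat_lit 53) (nat_lit 5) (nat_lit 345) (nat_lit 297) (nat_lit 222)) (XT.lf (nat_lit 0) (nat_lit 1680841192) (nat_lit 336) (nat_lit 6581950101) (nat_lit 420) (nat_lit 5698384168) (nat_lit 48) (nat_lit 5) (nat_lit 52) (nat_lit 5) (nat_lit 53) (nat_lit 5) (nat_lit 346) (nat_lit 297) (nat_lit 221)))) (XT.nd (nat_lit 94) (nat_lit 336) (nat_lit 0) (XT.lf (nat_lit 0) (nat_lit 7267344416) (nat_lit 336) (nat_lit 3107570543) (nat_lit 420) (nat_lit 3879012070) (nat_lit 48) (nat_lit 5) (nat_lit 52) (nat_lit 5) (nat_lit 53) (nat_lit 5) (nat_lit 347) (nat_lit 297) (nat_lit 220)) (XT.nd (nat_lit 94) (nat_lit 336) (nat_lit 0) (XT.lf (nat_lit 0) (nat_lit 12536512274) (nat_lit 420) (nat_lit 1560450203) (nat_lit 84) (nat_lit 459348481) (nat_lit 48) (nat_lit 5) (nat_lit 53) (nat_lit 5) (nat_lit 49) (nat_lit 5) (nat_lit 348) (nat_lit 297) (nat_lit 219)) (XT.lf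 (nat_lit 0) (nat_lit 4057655982) (nat_lit 336) (nat_lit 10759411967) (nat_lit 420) (nat_lit 49449587) (nat_lit 44) (nat_lit 5) (nat_lit 48) (nat_lit 5) (nat_lit 49) (nat_lit 5) (nat_lit 349) (nat_lit 297) (nat_lit 218))))) (XT.nd (nat_lit 282) (nat_lit 252) (nat_lit 0) (XT.nd (nat_lit 94) (nat_lit 252) (nat_lit 0) (XT.lf (nat_lit 0) (nat_lit 1938504102) (nat_lit 420) (nat_lit 5349066954) (nat_lit 84) (nat_lit 7898325469) (nat_lit 43) (nat_lit 5) (nat_lit 48) (nat_lit 5) (nat_lit 44) (nat_lit 5) (nat_lit 350) (nat_lit 297) (nat_lit 217)) (XT.nd (nat_lit 94) (nat_lit 0) (nat_lit 0) (XT.lf (nat_lit 0) (nat_lit 259082000) (nat_lit 252) (nat_lit 3711148371) (nat_lit 336) (nat_lit 11545505826) (nat_lit 40) (nat_lit 5) (nat_lit 43) (nat_lit 5) (nat_lit 44) (nat_lit 5) (nat_lit 351) (nat_lit 297) (nat_lit 216)) (XT.lf (nat_lit 0) (nat_lit 6101980222) (nat_lit 336) (nat_lit 9725858602) (nat_lit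 84) (nat_lit 26866192) (nat_lit 40) (nat_lit 5) (nat_lit 44) (nat_lit 5) (nat_lit 41) (nat_lit 5) (nat_lit 352) (nat_lit 297) (nat_lit 215)))) (XT.nd (nat_lit 94) (nat_lit 252) (nat_lit 0) (XT.lf (nat_lit 0) (nat_lit 8319218159) (nat_lit 336) (nat_lit 4086719980) (nat_lit 84) (nat_lit 3797692998) (nat_lit 40) (nat_lit 5) (nat_lit 44) (nat_lit 5) (nat_lit 41) (nat_lit 5) (nat_lit 353) (nat_lit 297) (nat_lit 214)) (XT.nd (nat_lit 94) (nat_lit 0) (nat_lit 0) (XT.lf (nat_lit 0) (nat_lit 1737846728) (nat_lit 252) (nat_lit 8866588756) (nat_lit 336) (nat_lit 5959011147) (nat_lit 37) (nat_lit 5) (nat_lit 40) (nat_lit 5) (nat_lit 41) (nat_lit 5) (nat_lit 354) (nat_lit 297) (nat_lit 213)) (XT.lf (nat_lit 0) (nat_lit 7805459387) (nat_lit 252) (nat_lit 5179998960) (nat_lit 336) (nat_lit 3948231956) (nat_lit 37) (nat_lit 5) (nat_lit 40) (nat_lit 5) (nat_lit 41) (nat_lit 5) (nat_lit 355) (nat_lit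 297) (nat_lit 212)))))) (XT.nd (nat_lit 564) (nat_lit 504) (nat_lit 0) (XT.nd (nat_lit 282) (nat_lit 252) (nat_lit 0) (XT.nd (nat_lit 94) (nat_lit 336) (nat_lit 0) (XT.lf (nat_lit 0) (nat_lit 14037742305) (nat_lit 252) (nat_lit 1385389440) (nat_lit 336) (nat_lit 1892858124) (nat_lit 37) (nat_lit 5) (nat_lit 40) (nat_lit 5) (nat_lit 41) (nat_lit 5) (nat_lit 356) (nat_lit 297) (nat_lit 211)) (XT.nd (nat_lit 94) (nat_lit 0) (nat_lit 0) (XT.lf (nat_lit 0) (nat_lit 257740641) (nat_lit 336) (nat_lit 14951274271) (nat_lit 84) (nat_lit 2499981772) (nat_lit 33) (nat_lit 5) (nat_lit 37) (nat_lit 5) (nat_lit 34) (nat_lit 5) (nat_lit 357) (nat_lit 297) (nat_lit 210)) (XT.lf (nat_lit 0) (nat_lit 2467784323) (nat_lit 336) (nat_lit 9120071514) (nat_lit 84) (nat_lit 6524778057) (nat_lit 33) (nat_lit 5) (nat_lit 37) (nat_lit 5) (nat_lit 34) (nat_lit 5) (nat_lit 358) (nat_lit 297) (nat_lit 209)))) (XT.nd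 (nat_lit 94) (nat_lit 252) (nat_lit 0) (XT.lf (nat_lit 0) (nat_lit 4730197790) (nat_lit 336) (nat_lit 3130770161) (nat_lit 84) (nat_lit 10668357308) (nat_lit 33) (nat_lit 5) (nat_lit 37) (nat_lit 5) (nat_lit 34) (nat_lit 5) (nat_lit 359) (nat_lit 297) (nat_lit 208)) (XT.nd (nat_lit 94) (nat_lit 0) (nat_lit 0) (XT.lf (nat_lit 0) (nat_lit 3084355329) (nat_lit 252) (nat_lit 3993331706) (nat_lit 336) (nat_lit 11880823633) (nat_lit 30) (nat_lit 5) (nat_lit 33) (nat_lit 5) (nat_lit 34) (nat_lit 5) (nat_lit 360) (nat_lit 297) (nat_lit 207)) (XT.lf (nat_lit 0) (nat_lit 9515439463) (nat_lit 336) (nat_lit 9863961488) (nat_lit 84) (nat_lit 21096236) (nat_lit 30) (nat_lit 5) (nat_lit 34) (nat_lit 5) (nat_lit 31) (nat_lit 5) (nat_lit 361) (nat_lit 297) (nat_lit 206))))) (XT.nd (nat_lit 282) (nat_lit 336) (nat_lit 0) (XT.nd (nat_lit 94) (nat_lit 168) (nat_lit 0) (XT.lf (nat_lit 0) (nat_lit 12054605086)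 (nat_lit 336) (nat_lit 3729843382) (nat_lit 84) (nat_lit 4070973116) (nat_lit 30) (nat_lit 5) (nat_lit 34) (nat_lit 5) (nat_lit 31) (nat_lit 5) (nat_lit 362) (nat_lit 297) (nat_lit 205)) (XT.nd (nat_lit 94) (nat_lit 0) (nat_lit 0) (XT.lf (nat_lit 0) (nat_lit 2626448039) (nat_lit 168) (nat_lit 12057542977) (nat_lit 252) (nat_lit 5640137229) (nat_lit 28) (nat_lit 5) (nat_lit 30) (nat_lit 5) (nat_lit 31) (nat_lit 5) (nat_lit 363) (nat_lit 297) (nat_lit 204)) (XT.lf (nat_lit 0) (nat_lit 9238165401) (nat_lit 168) (nat_lit 8181338105) (nat_lit 252) (nat_lit 3387133430) (nat_lit 28) (nat_lit 5) (nat_lit 30) (nat_lit 5) (nat_lit 31) (nat_lit 5) (nat_lit 364) (nat_lit 297) (nat_lit 203)))) (XT.nd (nat_lit 94) (nat_lit 336) (nat_lit 0) (XT.lf (nat_lit 0) (nat_lit 16034778287) (nat_lit 168) (nat_lit 4191152739) (nat_lit 252) (nat_lit 1078636981) (nat_lit 28) (nat_lit 5) (nat_lit 30) (nat_lit 5)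 (nat_lit 31) (nat_lit 5) (nat_lit 365) (nat_lit 297) (nat_lit 202)) (XT.nd (nat_lit 94) (nat_lit 0) (nat_lit 0) (XT.lf (nat_lit 0) (nat_lit 1215963016) (nat_lit 252) (nat_lit 57663031) (nat_lit 336) (nat_lit 20543989660) (nat_lit 24) (nat_lit 5) (nat_lit 27) (nat_lit 5) (nat_lit 28) (nat_lit 5) (nat_lit 366) (nat_lit 297) (nat_lit 201)) (XT.lf (nat_lit 0) (nat_lit 3760191919) (nat_lit 336) (nat_lit 14403633069) (nat_lit 84) (nat_lit 4179834623) (nat_lit 24) (nat_lit 5) (nat_lit 28) (nat_lit 5) (nat_lit 25) (nat_lit 5) (nat_lit 367) (nat_lit 297) (nat_lit 200))))))))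
noncomputable def xc110 : XT := (XT.nd (nat_lit 2256) (nat_lit 420) (nat_lit 0) (XT.nd (nat_lit 1128) (nat_lit 504) (nat_lit 0) (XT.nd (nat_lit 564) (nat_lit 252) (nat_lit 0) (XT.nd (nat_lit 282) (nat_lit 168) (nat_lit 0) (XT.nd (nat_lit 94) (nat_lit 168) (nat_lit 0) (XT.lf (nat_lit 0) (nat_lit 6311352805) (nat_lit 336) (nat_lit 8033427229) (nat_lit 84) (nat_lit 8541648212) (nat_lit 24) (nat_lit 5) (nat_lit 28) (nat_lit 5) (nat_lit 25) (nat_lit 5) (nat_lit 368) (nat_lit 297) (nat_lit 199)) (XT.nd (nat_lit 94) (nat_lit 168) (nat_lit 0) (XT.lf (nat_lit 0) (nat_lit 8928914630) (nat_lit 336) (nat_lit 1484525446) (nat_lit 84) (nat_lit 13033005183) (nat_lit 24) (nat_lit 5) (nat_lit 28) (nat_lit 5) (nat_lit 25) (nat_lit 5) (nat_lit 369) (nat_lit 297) (nat_lit 198)) (XT.lf (nat_lit 0) (nat_lit 5357110376) (nat_lit 168) (nat_lit 6311350057) (nat_lit 252) (nat_lit 12354124773) (nat_lit 22) (nat_lit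 5) (nat_lit 24) (nat_lit 5) (nat_lit 25) (nat_lit 5) (nat_lit 370) (nat_lit 297) (nat_lit 197)))) (XT.nd (nat_lit 94) (nat_lit 168) (nat_lit 0) (XT.lf (nat_lit 0) (nat_lit 12424276736) (nat_lit 168) (nat_lit 2072038257) (nat_lit 252) (nat_lit 10120193210) (nat_lit 22) (nat_lit 5) (nat_lit 24) (nat_lit 5) (nat_lit 25) (nat_lit 5) (nat_lit 371) (nat_lit 297) (nat_lit 196)) (XT.nd (nat_lit 94) (nat_lit 168) (nat_lit 0) (XT.lf (nat_lit 0) (nat_lit 17422831041) (nat_lit 252) (nat_lit 5558944037) (nat_lit 84) (nat_lit 2246753545) (nat_lit 22) (nat_lit 5) (nat_lit 25) (nat_lit 5) (nat_lit 23) (nat_lit 5) (nat_lit 372) (nat_lit 297) (nat_lit 195)) (XT.lf (nat_lit 0) (nat_lit 1267023667) (nat_lit 168) (nat_lit 19195356174) (nat_lit 252) (nat_lit 5396476146) (nat_lit 20) (nat_lit 5) (nat_lit 22) (nat_lit 5) (nat_lit 23) (nat_lit 5) (nat_lit 373) (nat_lit 297) (nat_lit 194))))) (XT.nd (nat_lit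 282) (nat_lit 168) (nat_lit 0) (XT.nd (nat_lit 94) (nat_lit 84) (nat_lit 0) (XT.lf (nat_lit 0) (nat_lit 8405330818) (nat_lit 168) (nat_lit 15237571989) (nat_lit 252) (nat_lit 2864396665) (nat_lit 20) (nat_lit 5) (nat_lit 22) (nat_lit 5) (nat_lit 23) (nat_lit 5) (nat_lit 374) (nat_lit 297) (nat_lit 193)) (XT.nd (nat_lit 94) (nat_lit 84) (nat_lit 0) (XT.lf (nat_lit 0) (nat_lit 15748327777) (nat_lit 168) (nat_lit 11162757428) (nat_lit 252) (nat_lit 265122949) (nat_lit 20) (nat_lit 5) (nat_lit 22) (nat_lit 5) (nat_lit 23) (nat_lit 5) (nat_lit 375) (nat_lit 297) (nat_lit 192)) (XT.lf (nat_lit 0) (nat_lit 2355337232) (nat_lit 252) (nat_lit 4587192214) (nat_lit 84) (nat_lit 20922936862) (nat_lit 19) (nat_lit 5) (nat_lit 22) (nat_lit 5) (nat_lit 20) (nat_lit 5) (nat_lit 376) (nat_lit 297) (nat_lit 191)))) (XT.nd (nat_lit 94) (nat_lit 0) (nat_lit 0) (XT.lf (nat_lit 0) (nat_lit 2497309861) (nat_lit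 168) (nat_lit 2568571506) (nat_lit 252) (nat_lit 23509703247) (nat_lit 17) (nat_lit 5) (nat_lit 19) (nat_lit 5) (nat_lit 20) (nat_lit 5) (nat_lit 377) (nat_lit 297) (nat_lit 190)) (XT.nd (nat_lit 94) (nat_lit 0) (nat_lit 0) (XT.lf (nat_lit 0) (nat_lit 7917764677) (nat_lit 252) (nat_lit 19443275519) (nat_lit 84) (nat_lit 1944921311) (nat_lit 17) (nat_lit 5) (nat_lit 20) (nat_lit 5) (nat_lit 18) (nat_lit 5) (nat_lit 378) (nat_lit 297) (nat_lit 189)) (XT.lf (nat_lit 0) (nat_lit 10874323873) (nat_lit 252) (nat_lit 12644357720) (nat_lit 84) (nat_lit 6539815153) (nat_lit 17) (nat_lit 5) (nat_lit 20) (nat_lit 5) (nat_lit 18) (nat_lit 5) (nat_lit 379) (nat_lit 297) (nat_lit 188)))))) (XT.nd (nat_lit 564) (nat_lit 336) (nat_lit 0) (XT.nd (nat_lit 282) (nat_lit 0) (nat_lit 0) (XT.nd (nat_lit 94) (nat_lit 168) (nat_lit 0) (XT.lf (nat_lit 0) (nat_lit 13912834228) (nat_lit 252) (nat_lit 5649703506)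 (nat_lit 84) (nat_lit 11272143931) (nat_lit 17) (nat_lit 5) (nat_lit 20) (nat_lit 5) (nat_lit 18) (nat_lit 5) (nat_lit 380) (nat_lit 297) (nat_lit 187)) (XT.nd (nat_lit 94) (nat_lit 0) (nat_lit 0) (XT.lf (nat_lit 0) (nat_lit 1579020620) (nat_lit 168) (nat_lit 15472771414) (nat_lit 252) (nat_lit 14582962133) (nat_lit 15) (nat_lit 5) (nat_lit 17) (nat_lit 5) (nat_lit 18) (nat_lit 5) (nat_lit 381) (nat_lit 297) (nat_lit 186)) (XT.lf (nat_lit 0) (nat_lit 9137175417) (nat_lit 168) (nat_lit 11200582783) (nat_lit 252) (nat_lit 12120349115) (nat_lit 15) (nat_lit 5) (nat_lit 17) (nat_lit 5) (nat_lit 18) (nat_lit 5) (nat_lit 382) (nat_lit 297) (nat_lit 185)))) (XT.nd (nat_lit 94) (nat_lit 0) (nat_lit 0) (XT.lf (nat_lit 0) (nat_lit 16915636382) (nat_lit 168) (nat_lit 6800961031) (nat_lit 252) (nat_lit 9590684289) (nat_lit 15) (nat_lit 5) (nat_lit 17) (nat_lit 5) (nat_lit 18) (nat_lit 5) (nat_lit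 383) (nat_lit 297) (nat_lit 184)) (XT.nd (nat_lit 94) (nat_lit 0) (nat_lit 0) (XT.lf (nat_lit 0) (nat_lit 24921653859) (nat_lit 168) (nat_lit 2269805251) (nat_lit 252) (nat_lit 6991609742) (nat_lit 15) (nat_lit 5) (nat_lit 17) (nat_lit 5) (nat_lit 18) (nat_lit 5) (nat_lit 384) (nat_lit 297) (nat_lit 183)) (XT.lf (nat_lit 0) (nat_lit 30789361832) (nat_lit 252) (nat_lit 1947374403) (nat_lit 84) (nat_lit 2348811683) (nat_lit 15) (nat_lit 5) (nat_lit 18) (nat_lit 5) (nat_lit 16) (nat_lit 4) (nat_lit 385) (nat_lit 297) (nat_lit 182))))) (XT.nd (nat_lit 282) (nat_lit 168) (nat_lit 0) (XT.nd (nat_lit 94) (nat_lit 84) (nat_lit 0) (XT.lf (nat_lit 0) (nat_lit 5671456246) (nat_lit 84) (nat_lit 28898569362) (nat_lit 168) (nat_lit 1443787140) (nat_lit 14) (nat_lit 5) (nat_lit 15) (nat_lit 5) (nat_lit 16) (nat_lit 4) (nat_lit 386) (nat_lit 297) (nat_lit 181)) (XT.nd (nat_lit 94) (nat_lit 0) (nat_lit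 0) (XT.lf (nat_lit 0) (nat_lit 1479179678) (nat_lit 168) (nat_lit 23430579551) (nat_lit 84) (nat_lit 12060268634) (nat_lit 13) (nat_lit 5) (nat_lit 15) (nat_lit 5) (nat_lit 14) (nat_lit 5) (nat_lit 387) (nat_lit 297) (nat_lit 180)) (XT.lf (nat_lit 0) (nat_lit 4454786002) (nat_lit 168) (nat_lit 16331962809) (nat_lit 84) (nat_lit 17168941943) (nat_lit 13) (nat_lit 5) (nat_lit 15) (nat_lit 5) (nat_lit 14) (nat_lit 5) (nat_lit 388) (nat_lit 297) (nat_lit 179)))) (XT.nd (nat_lit 94) (nat_lit 168) (nat_lit 0) (XT.lf (nat_lit 0) (nat_lit 7514894501) (nat_lit 168) (nat_lit 9025567076) (nat_lit 84) (nat_lit 22431702584) (nat_lit 13) (nat_lit 5) (nat_lit 15) (nat_lit 5) (nat_lit 14) (nat_lit 5) (nat_lit 389) (nat_lit 297) (nat_lit 178)) (XT.nd (nat_lit 94) (nat_lit 168) (nat_lit 0) (XT.lf (nat_lit 0) (nat_lit 10662357517) (nat_lit 168) (nat_lit 1504582025) (nat_lit 84) (nat_lit 27853456002) (nat_lit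 13) (nat_lit 5) (nat_lit 15) (nat_lit 5) (nat_lit 14) (nat_lit 5) (nat_lit 390) (nat_lit 297) (nat_lit 177)) (XT.lf (nat_lit 0) (nat_lit 6366268818) (nat_lit 168) (nat_lit 7596994171) (nat_lit 252) (nat_lit 27136141195) (nat_lit 11) (nat_lit 5) (nat_lit 13) (nat_lit 5) (nat_lit 14) (nat_lit 5) (nat_lit 391) (nat_lit 297) (nat_lit 176))))))) (XT.nd (nat_lit 1128) (nat_lit 84) (nat_lit 0) (XT.nd (nat_lit 564) (nat_lit 252) (nat_lit 0) (XT.nd (nat_lit 282) (nat_lit 84) (nat_lit 0) (XT.nd (nat_lit 94) (nat_lit 0) (nat_lit 0) (XT.lf (nat_lit 0) (nat_lit 14501578456) (nat_lit 168) (nat_lit 2873445316) (nat_lit 252) (nat_lit 24836587641) (nat_lit 11) (nat_lit 5) (nat_lit 13) (nat_lit 5) (nat_lit 14) (nat_lit 5) (nat_lit 392) (nat_lit 297) (nat_lit 175)) (XT.nd (nat_lit 94) (nat_lit 0) (nat_lit 0) (XT.lf (nat_lit 0) (nat_lit 20905352347) (nat_lit 252) (nat_lit 20500298482) (nat_lit 84) (nat_lit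 1952262592) (nat_lit 11) (nat_lit 5) (nat_lit 14) (nat_lit 5) (nat_lit 12) (nat_lit 4) (nat_lit 393) (nat_lit 297) (nat_lit 174)) (XT.lf (nat_lit 0) (nat_lit 24567717595) (nat_lit 252) (nat_lit 13107389960) (nat_lit 84) (nat_lit 6863955601) (nat_lit 11) (nat_lit 5) (nat_lit 14) (nat_lit 5) (nat_lit 12) (nat_lit 4) (nat_lit 394) (nat_lit 297) (nat_lit 173)))) (XT.nd (nat_lit 94) (nat_lit 84) (nat_lit 0) (XT.lf (nat_lit 0) (nat_lit 28337028293) (nat_lit 252) (nat_lit 5495911492) (nat_lit 84) (nat_lit 11924105441) (nat_lit 11) (nat_lit 5) (nat_lit 14) (nat_lit 5) (nat_lit 12) (nat_lit 4) (nat_lit 395) (nat_lit 297) (nat_lit 172)) (XT.nd (nat_lit 94) (nat_lit 0) (nat_lit 0) (XT.lf (nat_lit 0) (nat_lit 2389372139) (nat_lit 84) (nat_lit 29851128559) (nat_lit 168) (nat_lit 14771759430) (nat_lit 10) (nat_lit 5) (nat_lit 11) (nat_lit 5) (nat_lit 12) (nat_lit 4) (nat_lit 396) (nat_lit 297) (nat_lit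 171)) (XT.lf (nat_lit 0) (nat_lit 10625422997) (nat_lit 84) (nat_lit 25690625078) (nat_lit 168) (nat_lit 11988767263) (nat_lit 10) (nat_lit 5) (nat_lit 11) (nat_lit 5) (nat_lit 12) (nat_lit 4) (nat_lit 397) (nat_lit 297) (nat_lit 170))))) (XT.nd (nat_lit 282) (nat_lit 252) (nat_lit 0) (XT.nd (nat_lit 94) (nat_lit 0) (nat_lit 0) (XT.lf (nat_lit 0) (nat_lit 19106910731) (nat_lit 84) (nat_lit 21404917359) (nat_lit 168) (nat_lit 9125812435) (nat_lit 10) (nat_lit 5) (nat_lit 11) (nat_lit 5) (nat_lit 12) (nat_lit 4) (nat_lit 398) (nat_lit 297) (nat_lit 169)) (XT.nd (nat_lit 94) (nat_lit 0) (nat_lit 0) (XT.lf (nat_lit 0) (nat_lit 27841740975) (nat_lit 84) (nat_lit 16990010676) (nat_lit 168) (nat_lit 6180226373) (nat_lit 10) (nat_lit 5) (nat_lit 11) (nat_lit 5) (nat_lit 12) (nat_lit 4) (nat_lit 399) (nat_lit 297) (nat_lit 168)) (XT.lf (nat_lit 0) (nat_lit 36838055507) (nat_lit 84) (nat_lit 12441789872)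 (nat_lit 168) (nat_lit 3149263482) (nat_lit 10) (nat_lit 5) (nat_lit 11) (nat_lit 5) (nat_lit 12) (nat_lit 4) (nat_lit 400) (nat_lit 297) (nat_lit 167)))) (XT.nd (nat_lit 94) (nat_lit 252) (nat_lit 0) (XT.lf (nat_lit 0) (nat_lit 46104239833) (nat_lit 84) (nat_lit 7756015529) (nat_lit 168) (nat_lit 30098588) (nat_lit 10) (nat_lit 5) (nat_lit 11) (nat_lit 5) (nat_lit 12) (nat_lit 4) (nat_lit 401) (nat_lit 297) (nat_lit 166)) (XT.nd (nat_lit 94) (nat_lit 0) (nat_lit 0) (XT.lf (nat_lit 0) (nat_lit 224837929) (nat_lit 168) (nat_lit 2893494735) (nat_lit 252) (nat_lit 52277695538) (nat_lit 7) (nat_lit 5) (nat_lit 9) (nat_lit 5) (nat_lit 10) (nat_lit 5) (nat_lit 402) (nat_lit 297) (nat_lit 165)) (XT.lf (nat_lit 0) (nat_lit 6461442376) (nat_lit 252) (nat_lit 48327755843) (nat_lit 84) (nat_lit 2156151297) (nat_lit 7) (nat_lit 5) (nat_lit 10) (nat_lit 5) (nat_lit 8) (nat_lit 4) (nat_lit 403) (nat_lit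 297) (nat_lit 164)))))) (XT.nd (nat_lit 564) (nat_lit 84) (nat_lit 0) (XT.nd (nat_lit 282) (nat_lit 0) (nat_lit 0) (XT.nd (nat_lit 94) (nat_lit 0) (nat_lit 0) (XT.lf (nat_lit 0) (nat_lit 9932517058) (nat_lit 252) (nat_lit 41310420901) (nat_lit 84) (nat_lit 7299016834) (nat_lit 7) (nat_lit 5) (nat_lit 10) (nat_lit 5) (nat_lit 8) (nat_lit 4) (nat_lit 404) (nat_lit 297) (nat_lit 163)) (XT.nd (nat_lit 94) (nat_lit 0) (nat_lit 0) (XT.lf (nat_lit 0) (nat_lit 13506088291) (nat_lit 252) (nat_lit 34083940731) (nat_lit 84) (nat_lit 12598193034) (nat_lit 7) (nat_lit 5) (nat_lit 10) (nat_lit 5) (nat_lit 8) (nat_lit 4) (nat_lit 405) (nat_lit 297) (nat_lit 162)) (XT.lf (nat_lit 0) (nat_lit 17185487017) (nat_lit 252) (nat_lit 26641579497) (nat_lit 84) (nat_lit 18058619283) (nat_lit 7) (nat_lit 5) (nat_lit 10) (nat_lit 5) (nat_lit 8) (nat_lit 4) (nat_lit 406) (nat_lit 297) (nat_lit 161)))) (XT.nd (nat_lit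 94) (nat_lit 0) (nat_lit 0) (XT.lf (nat_lit 0) (nat_lit 20974142822) (nat_lit 252) (nat_lit 18976400138) (nat_lit 84) (nat_lit 23685385272) (nat_lit 7) (nat_lit 5) (nat_lit 10) (nat_lit 5) (nat_lit 8) (nat_lit 4) (nat_lit 407) (nat_lit 297) (nat_lit 160)) (XT.nd (nat_lit 94) (nat_lit 0) (nat_lit 0) (XT.lf (nat_lit 0) (nat_lit 24875587130) (nat_lit 252) (nat_lit 11081257904) (nat_lit 84) (nat_lit 29483735736) (nat_lit 7) (nat_lit 5) (nat_lit 10) (nat_lit 5) (nat_lit 8) (nat_lit 4) (nat_lit 408) (nat_lit 297) (nat_lit 159)) (XT.lf (nat_lit 0) (nat_lit 28893456495) (nat_lit 252) (nat_lit 2948793696) (nat_lit 84) (nat_lit 35459075344) (nat_lit 7) (nat_lit 5) (nat_lit 10) (nat_lit 5) (nat_lit 8) (nat_lit 4) (nat_lit 409) (nat_lit 297) (nat_lit 158))))) (XT.nd (nat_lit 282) (nat_lit 0) (nat_lit 0) (XT.nd (nat_lit 94) (nat_lit 0) (nat_lit 0) (XT.lf (nat_lit 0) (nat_lit 5540195385) (nat_lit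 84) (nat_lit 27546260032) (nat_lit 168) (nat_lit 36131737779) (nat_lit 6) (nat_lit 5) (nat_lit 7) (nat_lit 5) (nat_lit 8) (nat_lit 4) (nat_lit 410) (nat_lit 297) (nat_lit 157)) (XT.nd (nat_lit 94) (nat_lit 0) (nat_lit 0) (XT.lf (nat_lit 0) (nat_lit 14347724832) (nat_lit 84) (nat_lit 23088169084) (nat_lit 168) (nat_lit 33757777103) (nat_lit 6) (nat_lit 5) (nat_lit 7) (nat_lit 5) (nat_lit 8) (nat_lit 4) (nat_lit 411) (nat_lit 297) (nat_lit 156)) (XT.lf (nat_lit 0) (nat_lit 23421370939) (nat_lit 84) (nat_lit 18494601298) (nat_lit 168) (nat_lit 31314553591) (nat_lit 6) (nat_lit 5) (nat_lit 7) (nat_lit 5) (nat_lit 8) (nat_lit 4) (nat_lit 412) (nat_lit 297) (nat_lit 155)))) (XT.nd (nat_lit 94) (nat_lit 0) (nat_lit 0) (XT.lf (nat_lit 0) (nat_lit 32769591295) (nat_lit 84) (nat_lit 13761274987) (nat_lit 168) (nat_lit 28799789904) (nat_lit 6) (nat_lit 5) (nat_lit 7) (nat_lit 5) (nat_lit 8) (nat_lit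 4) (nat_lit 413) (nat_lit 297) (nat_lit 154)) (XT.nd (nat_lit 94) (nat_lit 0) (nat_lit 0) (XT.lf (nat_lit 0) (nat_lit 42401099420) (nat_lit 84) (nat_lit 8883778196) (nat_lit 168) (nat_lit 26211142017) (nat_lit 6) (nat_lit 5) (nat_lit 7) (nat_lit 5) (nat_lit 8) (nat_lit 4) (nat_lit 414) (nat_lit 297) (nat_lit 153)) (XT.lf (nat_lit 0) (nat_lit 52324872888) (nat_lit 84) (nat_lit 3857564587) (nat_lit 168) (nat_lit 23546197040) (nat_lit 6) (nat_lit 5) (nat_lit 7) (nat_lit 5) (nat_lit 8) (nat_lit 4) (nat_lit 415) (nat_lit 297) (nat_lit 152))))))))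
noncomputable def xc111 : XT := (XT.nd (nat_lit 45308) (nat_lit 0) (nat_lit 3864) (XT.nd (nat_lit 44180) (nat_lit 0) (nat_lit 9744) (XT.nd (nat_lit 43616) (nat_lit 0) (nat_lit 13272) (XT.nd (nat_lit 43334) (nat_lit 0) (nat_lit 13944) (XT.nd (nat_lit 43146) (nat_lit 0) (nat_lit 14616) (XT.lf (nat_lit 0) (nat_lit 61241225806) (nat_lit 168) (nat_lit 19493535076) (nat_lit 0) (nat_lit 1295414420) (nat_lit 6) (nat_lit 5) (nat_lit 8) (nat_lit 4) (nat_lit 6) (nat_lit 4) (nat_lit 416) (nat_lit 297) (nat_lit 151)) (XT.nd (nat_lit 94) (nat_lit 0) (nat_lit 0) (XT.lf (nat_lit 0) (nat_lit 701108507) (nat_lit 0) (nat_lit 701108507) (nat_lit 588) (nat_lit 2060467826) (nat_lit 180) (nat_lit 5) (nat_lit 180) (nat_lit 3) (nat_lit 187) (nat_lit 3) (nat_lit 298) (nat_lit 298) (nat_lit 268)) (XT.lf (nat_lit 0) (nat_lit 4243221130) (nat_lit 0) (nat_lit 210002039) (nat_lit 588) (nat_lit 2521610289) (nat_lit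 180) (nat_lit 5) (nat_lit 180) (nat_lit 3) (nat_lit 187) (nat_lit 3) (nat_lit 299) (nat_lit 298) (nat_lit 267)))) (XT.nd (nat_lit 94) (nat_lit 672) (nat_lit 0) (XT.lf (nat_lit 84) (nat_lit 103442829) (nat_lit 0) (nat_lit 5996452014) (nat_lit 672) (nat_lit 927912875) (nat_lit 181) (nat_lit 5) (nat_lit 180) (nat_lit 5) (nat_lit 188) (nat_lit 5) (nat_lit 300) (nat_lit 298) (nat_lit 266)) (XT.nd (nat_lit 94) (nat_lit 0) (nat_lit 0) (XT.lf (nat_lit 0) (nat_lit 668004066) (nat_lit 672) (nat_lit 4043041494) (nat_lit 756) (nat_lit 2372482339) (nat_lit 172) (nat_lit 5) (nat_lit 180) (nat_lit 5) (nat_lit 181) (nat_lit 5) (nat_lit 301) (nat_lit 298) (nat_lit 265)) (XT.lf (nat_lit 0) (nat_lit 2232308157) (nat_lit 672) (nat_lit 1117057598) (nat_lit 756) (nat_lit 3793529962) (nat_lit 172) (nat_lit 5) (nat_lit 180) (nat_lit 5) (nat_lit 181) (nat_lit 5) (nat_lit 302) (nat_lit 298) (nat_lit 264)))))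 (XT.nd (nat_lit 282) (nat_lit 672) (nat_lit 0) (XT.nd (nat_lit 94) (nat_lit 0) (nat_lit 0) (XT.lf (nat_lit 84) (nat_lit 1903878030) (nat_lit 0) (nat_lit 1900161544) (nat_lit 756) (nat_lit 3401626805) (nat_lit 173) (nat_lit 5) (nat_lit 172) (nat_lit 5) (nat_lit 181) (nat_lit 5) (nat_lit 303) (nat_lit 298) (nat_lit 263)) (XT.nd (nat_lit 94) (nat_lit 0) (nat_lit 84) (XT.lf (nat_lit 84) (nat_lit 5008376391) (nat_lit 0) (nat_lit 369292937) (nat_lit 756) (nat_lit 1894445878) (nat_lit 173) (nat_lit 5) (nat_lit 172) (nat_lit 5) (nat_lit 181) (nat_lit 5) (nat_lit 304) (nat_lit 298) (nat_lit 262)) (XT.lf (nat_lit 84) (nat_lit 838367128) (nat_lit 0) (nat_lit 6125536163) (nat_lit 756) (nat_lit 378114434) (nat_lit 174) (nat_lit 5) (nat_lit 173) (nat_lit 5) (nat_lit 182) (nat_lit 5) (nat_lit 305) (nat_lit 298) (nat_lit 261)))) (XT.nd (nat_lit 94) (nat_lit 0) (nat_lit 0) (XT.lf (nat_lit 0) (nat_lit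 1133034331) (nat_lit 756) (nat_lit 3380575284) (nat_lit 840) (nat_lit 2901246836) (nat_lit 164) (nat_lit 5) (nat_lit 173) (nat_lit 5) (nat_lit 174) (nat_lit 5) (nat_lit 306) (nat_lit 298) (nat_lit 260)) (XT.nd (nat_lit 94) (nat_lit 0) (nat_lit 0) (XT.lf (nat_lit 0) (nat_lit 2628900084) (nat_lit 756) (nat_lit 199539985) (nat_lit 840) (nat_lit 4663324151) (nat_lit 164) (nat_lit 5) (nat_lit 173) (nat_lit 5) (nat_lit 174) (nat_lit 5) (nat_lit 307) (nat_lit 298) (nat_lit 259)) (XT.lf (nat_lit 84) (nat_lit 3108806829) (nat_lit 0) (nat_lit 1040528211) (nat_lit 840) (nat_lit 3422637925) (nat_lit 165) (nat_lit 5) (nat_lit 164) (nat_lit 5) (nat_lit 174) (nat_lit 5) (nat_lit 308) (nat_lit 298) (nat_lit 258)))))) (XT.nd (nat_lit 564) (nat_lit 2016) (nat_lit 0) (XT.nd (nat_lit 282) (nat_lit 756) (nat_lit 0) (XT.nd (nat_lit 94) (nat_lit 840) (nat_lit 0) (XT.lf (nat_lit 0) (nat_lit 5675755334) (nat_lit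 756) (nat_lit 1174242344) (nat_lit 840) (nat_lit 806179805) (nat_lit 165) (nat_lit 5) (nat_lit 174) (nat_lit 5) (nat_lit 175) (nat_lit 5) (nat_lit 309) (nat_lit 298) (nat_lit 257)) (XT.nd (nat_lit 94) (nat_lit 840) (nat_lit 0) (XT.lf (nat_lit 84) (nat_lit 2216120108) (nat_lit 0) (nat_lit 5016324654) (nat_lit 840) (nat_lit 511302806) (nat_lit 166) (nat_lit 5) (nat_lit 165) (nat_lit 5) (nat_lit 175) (nat_lit 5) (nat_lit 310) (nat_lit 298) (nat_lit 256)) (XT.lf (nat_lit 0) (nat_lit 946292515) (nat_lit 840) (nat_lit 2142655812) (nat_lit 924) (nat_lit 4746131087) (nat_lit 155) (nat_lit 5) (nat_lit 165) (nat_lit 5) (nat_lit 166) (nat_lit 5) (nat_lit 311) (nat_lit 298) (nat_lit 255)))) (XT.nd (nat_lit 94) (nat_lit 756) (nat_lit 0) (XT.lf (nat_lit 84) (nat_lit 1334571884) (nat_lit 0) (nat_lit 1069366600) (nat_lit 924) (nat_lit 5526418722) (nat_lit 156) (nat_lit 5) (nat_lit 155) (nat_lit 5) (nat_lit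 166) (nat_lit 5) (nat_lit 312) (nat_lit 298) (nat_lit 254)) (XT.nd (nat_lit 94) (nat_lit 840) (nat_lit 0) (XT.lf (nat_lit 0) (nat_lit 3892883792) (nat_lit 840) (nat_lit 3108916748) (nat_lit 84) (nat_lit 1027419210) (nat_lit 156) (nat_lit 5) (nat_lit 166) (nat_lit 5) (nat_lit 157) (nat_lit 5) (nat_lit 313) (nat_lit 298) (nat_lit 253)) (XT.lf (nat_lit 0) (nat_lit 449476688) (nat_lit 840) (nat_lit 4948776026) (nat_lit 924) (nat_lit 2734010656) (nat_lit 146) (nat_lit 5) (nat_lit 156) (nat_lit 5) (nat_lit 157) (nat_lit 5) (nat_lit 314) (nat_lit 298) (nat_lit 252))))) (XT.nd (nat_lit 282) (nat_lit 1008) (nat_lit 0) (XT.nd (nat_lit 94) (nat_lit 1008) (nat_lit 0) (XT.lf (nat_lit 0) (nat_lit 4149751985) (nat_lit 840) (nat_lit 2788873480) (nat_lit 924) (nat_lit 1300426157) (nat_lit 146) (nat_lit 5) (nat_lit 156) (nat_lit 5) (nat_lit 157) (nat_lit 5) (nat_lit 315) (nat_lit 298) (nat_lit 251)) (XT.nd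 (nat_lit 94) (nat_lit 924) (nat_lit 0) (XT.lf (nat_lit 0) (nat_lit 130617315) (nat_lit 924) (nat_lit 420549671) (nat_lit 84) (nat_lit 7799451790) (nat_lit 145) (nat_lit 5) (nat_lit 156) (nat_lit 5) (nat_lit 146) (nat_lit 5) (nat_lit 316) (nat_lit 298) (nat_lit 250)) (XT.lf (nat_lit 0) (nat_lit 1588460758) (nat_lit 1008) (nat_lit 5100193429) (nat_lit 84) (nat_lit 1776457270) (nat_lit 134) (nat_lit 5) (nat_lit 146) (nat_lit 5) (nat_lit 135) (nat_lit 5) (nat_lit 317) (nat_lit 298) (nat_lit 249)))) (XT.nd (nat_lit 94) (nat_lit 1008) (nat_lit 0) (XT.lf (nat_lit 0) (nat_lit 3060489581) (nat_lit 1008) (nat_lit 1346574952) (nat_lit 84) (nat_lit 4177217163) (nat_lit 134) (nat_lit 5) (nat_lit 146) (nat_lit 5) (nat_lit 135) (nat_lit 5) (nat_lit 318) (nat_lit 298) (nat_lit 248)) (XT.nd (nat_lit 94) (nat_lit 0) (nat_lit 0) (XT.lf (nat_lit 0) (nat_lit 2541115396) (nat_lit 1008) (nat_lit 2022399770)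 (nat_lit 1092) (nat_lit 4144246786) (nat_lit 122) (nat_lit 5) (nat_lit 134) (nat_lit 5) (nat_lit 135) (nat_lit 5) (nat_lit 319) (nat_lit 298) (nat_lit 247)) (XT.lf (nat_lit 0) (nat_lit 6092743515) (nat_lit 1092) (nat_lit 2295806608) (nat_lit 84) (nat_lit 447309247) (nat_lit 122) (nat_lit 5) (nat_lit 135) (nat_lit 5) (nat_lit 123) (nat_lit 5) (nat_lit 320) (nat_lit 298) (nat_lit 246))))))) (XT.nd (nat_lit 1128) (nat_lit 2100) (nat_lit 0) (XT.nd (nat_lit 564) (nat_lit 1512) (nat_lit 0) (XT.nd (nat_lit 282) (nat_lit 588) (nat_lit 0) (XT.nd (nat_lit 94) (nat_lit 588) (nat_lit 0) (XT.lf (nat_lit 0) (nat_lit 1674550720) (nat_lit 1092) (nat_lit 5994376204) (nat_lit 1176) (nat_lit 1299167287) (nat_lit 109) (nat_lit 5) (nat_lit 122) (nat_lit 5) (nat_lit 123) (nat_lit 5) (nat_lit 321) (nat_lit 298) (nat_lit 245)) (XT.nd (nat_lit 94) (nat_lit 504) (nat_lit 0) (XT.lf (nat_lit 0) (nat_lit 172469256)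 (nat_lit 1176) (nat_lit 3323258811) (nat_lit 84) (nat_lit 5609196293) (nat_lit 108) (nat_lit 5) (nat_lit 122) (nat_lit 5) (nat_lit 109) (nat_lit 5) (nat_lit 322) (nat_lit 298) (nat_lit 244)) (XT.lf (nat_lit 0) (nat_lit 738617306) (nat_lit 504) (nat_lit 895111959) (nat_lit 588) (nat_lit 7612893480) (nat_lit 102) (nat_lit 5) (nat_lit 108) (nat_lit 5) (nat_lit 109) (nat_lit 5) (nat_lit 323) (nat_lit 298) (nat_lit 243)))) (XT.nd (nat_lit 94) (nat_lit 588) (nat_lit 0) (XT.lf (nat_lit 0) (nat_lit 3157507755) (nat_lit 588) (nat_lit 4446860980) (nat_lit 84) (nat_lit 1787946143) (nat_lit 102) (nat_lit 5) (nat_lit 109) (nat_lit 5) (nat_lit 103) (nat_lit 5) (nat_lit 324) (nat_lit 298) (nat_lit 242)) (XT.nd (nat_lit 94) (nat_lit 588) (nat_lit 0) (XT.lf (nat_lit 0) (nat_lit 4703205014) (nat_lit 588) (nat_lit 301965373) (nat_lit 84) (nat_lit 4538268797) (nat_lit 102) (nat_lit 5) (nat_lit 109) (nat_lit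 5) (nat_lit 103) (nat_lit 5) (nat_lit 325) (nat_lit 298) (nat_lit 241)) (XT.lf (nat_lit 0) (nat_lit 4020427127) (nat_lit 588) (nat_lit 2282838179) (nat_lit 672) (nat_lit 3395910109) (nat_lit 95) (nat_lit 5) (nat_lit 102) (nat_lit 5) (nat_lit 103) (nat_lit 5) (nat_lit 326) (nat_lit 298) (nat_lit 240))))) (XT.nd (nat_lit 282) (nat_lit 924) (nat_lit 0) (XT.nd (nat_lit 94) (nat_lit 588) (nat_lit 0) (XT.lf (nat_lit 0) (nat_lit 7928573705) (nat_lit 672) (nat_lit 1414478125) (nat_lit 84) (nat_lit 517565702) (nat_lit 95) (nat_lit 5) (nat_lit 103) (nat_lit 5) (nat_lit 96) (nat_lit 5) (nat_lit 327) (nat_lit 298) (nat_lit 239)) (XT.nd (nat_lit 94) (nat_lit 84) (nat_lit 0) (XT.lf (nat_lit 0) (nat_lit 2986981864) (nat_lit 504) (nat_lit 6638513448) (nat_lit 588) (nat_lit 401030349) (nat_lit 89) (nat_lit 5) (nat_lit 95) (nat_lit 5) (nat_lit 96) (nat_lit 5) (nat_lit 328) (nat_lit 298) (nat_lit 238))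 (XT.lf (nat_lit 0) (nat_lit 1137096692) (nat_lit 588) (nat_lit 2686351403) (nat_lit 84) (nat_lit 6374394451) (nat_lit 88) (nat_lit 5) (nat_lit 95) (nat_lit 5) (nat_lit 89) (nat_lit 5) (nat_lit 329) (nat_lit 298) (nat_lit 237)))) (XT.nd (nat_lit 94) (nat_lit 420) (nat_lit 0) (XT.lf (nat_lit 0) (nat_lit 1802705202) (nat_lit 504) (nat_lit 899161308) (nat_lit 588) (nat_lit 7672979513) (nat_lit 82) (nat_lit 5) (nat_lit 88) (nat_lit 5) (nat_lit 89) (nat_lit 5) (nat_lit 330) (nat_lit 298) (nat_lit 236)) (XT.nd (nat_lit 94) (nat_lit 420) (nat_lit 0) (XT.lf (nat_lit 0) (nat_lit 4334470331) (nat_lit 588) (nat_lit 4121882899) (nat_lit 84) (nat_lit 2100489938) (nat_lit 82) (nat_lit 5) (nat_lit 89) (nat_lit 5) (nat_lit 83) (nat_lit 5) (nat_lit 331) (nat_lit 298) (nat_lit 235)) (XT.lf (nat_lit 0) (nat_lit 434848706) (nat_lit 420) (nat_lit 5567258512) (nat_lit 504) (nat_lit 4742960404) (nat_lit 77)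 (nat_lit 5) (nat_lit 82) (nat_lit 5) (nat_lit 83) (nat_lit 5) (nat_lit 332) (nat_lit 298) (nat_lit 234)))))) (XT.nd (nat_lit 564) (nat_lit 1176) (nat_lit 0) (XT.nd (nat_lit 282) (nat_lit 420) (nat_lit 0) (XT.nd (nat_lit 94) (nat_lit 504) (nat_lit 0) (XT.lf (nat_lit 0) (nat_lit 5189485851) (nat_lit 420) (nat_lit 2546461007) (nat_lit 504) (nat_lit 3202829903) (nat_lit 77) (nat_lit 5) (nat_lit 82) (nat_lit 5) (nat_lit 83) (nat_lit 5) (nat_lit 333) (nat_lit 298) (nat_lit 233)) (XT.nd (nat_lit 94) (nat_lit 504) (nat_lit 0) (XT.lf (nat_lit 0) (nat_lit 9501488118) (nat_lit 504) (nat_lit 1083351906) (nat_lit 84) (nat_lit 554430748) (nat_lit 77) (nat_lit 5) (nat_lit 83) (nat_lit 5) (nat_lit 78) (nat_lit 5) (nat_lit 334) (nat_lit 298) (nat_lit 232)) (XT.lf (nat_lit 0) (nat_lit 12913390) (nat_lit 504) (nat_lit 7598218254) (nat_lit 84) (nat_lit 3733810637) (nat_lit 71) (nat_lit 5) (nat_lit 77) (nat_lit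 5) (nat_lit 72) (nat_lit 5) (nat_lit 335) (nat_lit 298) (nat_lit 231)))) (XT.nd (nat_lit 94) (nat_lit 420) (nat_lit 0) (XT.lf (nat_lit 0) (nat_lit 1665490791) (nat_lit 504) (nat_lit 2854160471) (nat_lit 84) (nat_lit 7037380414) (nat_lit 71) (nat_lit 5) (nat_lit 77) (nat_lit 5) (nat_lit 72) (nat_lit 5) (nat_lit 336) (nat_lit 298) (nat_lit 230)) (XT.nd (nat_lit 94) (nat_lit 0) (nat_lit 0) (XT.lf (nat_lit 0) (nat_lit 2048998623) (nat_lit 420) (nat_lit 1314735151) (nat_lit 504) (nat_lit 8412219902) (nat_lit 66) (nat_lit 5) (nat_lit 71) (nat_lit 5) (nat_lit 72) (nat_lit 5) (nat_lit 337) (nat_lit 298) (nat_lit 229)) (XT.lf (nat_lit 0) (nat_lit 5139020391) (nat_lit 504) (nat_lit 4885903531) (nat_lit 84) (nat_lit 1976064763) (nat_lit 66) (nat_lit 5) (nat_lit 72) (nat_lit 5) (nat_lit 67) (nat_lit 5) (nat_lit 338) (nat_lit 298) (nat_lit 228))))) (XT.nd (nat_lit 282) (nat_lit 756) (nat_lit 0) (XT.nd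 (nat_lit 94) (nat_lit 0) (nat_lit 0) (XT.lf (nat_lit 0) (nat_lit 64176504) (nat_lit 420) (nat_lit 6894577845) (nat_lit 504) (nat_lit 5274653896) (nat_lit 61) (nat_lit 5) (nat_lit 66) (nat_lit 5) (nat_lit 67) (nat_lit 5) (nat_lit 339) (nat_lit 298) (nat_lit 227)) (XT.nd (nat_lit 94) (nat_lit 0) (nat_lit 0) (XT.lf (nat_lit 0) (nat_lit 5242689652) (nat_lit 420) (nat_lit 3618997467) (nat_lit 504) (nat_lit 3610593165) (nat_lit 61) (nat_lit 5) (nat_lit 66) (nat_lit 5) (nat_lit 67) (nat_lit 5) (nat_lit 340) (nat_lit 298) (nat_lit 226)) (XT.lf (nat_lit 0) (nat_lit 10553998630) (nat_lit 420) (nat_lit 246128415) (nat_lit 504) (nat_lit 1919233833) (nat_lit 61) (nat_lit 5) (nat_lit 66) (nat_lit 5) (nat_lit 67) (nat_lit 5) (nat_lit 341) (nat_lit 298) (nat_lit 225)))) (XT.nd (nat_lit 94) (nat_lit 420) (nat_lit 0) (XT.lf (nat_lit 0) (nat_lit 3057767034) (nat_lit 336) (nat_lit 9780461308) (nat_lit 420)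 (nat_lit 134719223) (nat_lit 57) (nat_lit 5) (nat_lit 61) (nat_lit 5) (nat_lit 62) (nat_lit 5) (nat_lit 342) (nat_lit 298) (nat_lit 224)) (XT.nd (nat_lit 94) (nat_lit 336) (nat_lit 0) (XT.lf (nat_lit 0) (nat_lit 1673408804) (nat_lit 420) (nat_lit 4792538705) (nat_lit 84) (nat_lit 6767910404) (nat_lit 56) (nat_lit 5) (nat_lit 61) (nat_lit 5) (nat_lit 57) (nat_lit 5) (nat_lit 343) (nat_lit 298) (nat_lit 223)) (XT.lf (nat_lit 0) (nat_lit 469935805) (nat_lit 336) (nat_lit 3047496323) (nat_lit 420) (nat_lit 9985986592) (nat_lit 52) (nat_lit 5) (nat_lit 56) (nat_lit 5) (nat_lit 57) (nat_lit 5) (nat_lit 344) (nat_lit 298) (nat_lit 222))))))))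
noncomputable def xc112 : XT := (XT.nd (nat_lit 2162) (nat_lit 924) (nat_lit 0) (XT.nd (nat_lit 1034) (nat_lit 1092) (nat_lit 0) (XT.nd (nat_lit 470) (nat_lit 924) (nat_lit 0) (XT.nd (nat_lit 188) (nat_lit 336) (nat_lit 0) (XT.nd (nat_lit 94) (nat_lit 0) (nat_lit 0) (XT.lf (nat_lit 0) (nat_lit 5452212369) (nat_lit 420) (nat_lit 7815351156) (nat_lit 84) (nat_lit 512795863) (nat_lit 52) (nat_lit 5) (nat_lit 57) (nat_lit 5) (nat_lit 53) (nat_lit 5) (nat_lit 345) (nat_lit 298) (nat_lit 221)) (XT.lf (nat_lit 0) (nat_lit 7457116348) (nat_lit 420) (nat_lit 2493269601) (nat_lit 84) (nat_lit 4115247640) (nat_lit 52) (nat_lit 5) (nat_lit 57) (nat_lit 5) (nat_lit 53) (nat_lit 5) (nat_lit 346) (nat_lit 298) (nat_lit 220))) (XT.nd (nat_lit 94) (nat_lit 0) (nat_lit 0) (XT.lf (nat_lit 0) (nat_lit 3028981249) (nat_lit 336) (nat_lit 6504847927) (nat_lit 420) (nat_lit 4825683750) (nat_lit 48) (nat_lit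 5) (nat_lit 52) (nat_lit 5) (nat_lit 53) (nat_lit 5) (nat_lit 347) (nat_lit 298) (nat_lit 219)) (XT.nd (nat_lit 94) (nat_lit 0) (nat_lit 0) (XT.lf (nat_lit 0) (nat_lit 8749697059) (nat_lit 336) (nat_lit 2931215969) (nat_lit 420) (nat_lit 2981462872) (nat_lit 48) (nat_lit 5) (nat_lit 52) (nat_lit 5) (nat_lit 53) (nat_lit 5) (nat_lit 348) (nat_lit 298) (nat_lit 218)) (XT.lf (nat_lit 0) (nat_lit 13882545529) (nat_lit 420) (nat_lit 359762354) (nat_lit 84) (nat_lit 732749467) (nat_lit 48) (nat_lit 5) (nat_lit 53) (nat_lit 5) (nat_lit 49) (nat_lit 5) (nat_lit 349) (nat_lit 298) (nat_lit 217))))) (XT.nd (nat_lit 282) (nat_lit 252) (nat_lit 0) (XT.nd (nat_lit 94) (nat_lit 252) (nat_lit 0) (XT.lf (nat_lit 0) (nat_lit 903227293) (nat_lit 420) (nat_lit 9884762160) (nat_lit 84) (nat_lit 4507204360) (nat_lit 43) (nat_lit 5) (nat_lit 48) (nat_lit 5) (nat_lit 44) (nat_lit 5) (nat_lit 350) (nat_lit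 298) (nat_lit 216)) (XT.nd (nat_lit 94) (nat_lit 252) (nat_lit 0) (XT.lf (nat_lit 0) (nat_lit 2923120167) (nat_lit 420) (nat_lit 4294065187) (nat_lit 84) (nat_lit 8408240747) (nat_lit 43) (nat_lit 5) (nat_lit 48) (nat_lit 5) (nat_lit 44) (nat_lit 5) (nat_lit 351) (nat_lit 298) (nat_lit 215)) (XT.lf (nat_lit 0) (nat_lit 1475576649) (nat_lit 252) (nat_lit 3526442961) (nat_lit 336) (nat_lit 10964038679) (nat_lit 40) (nat_lit 5) (nat_lit 43) (nat_lit 5) (nat_lit 44) (nat_lit 5) (nat_lit 352) (nat_lit 298) (nat_lit 214)))) (XT.nd (nat_lit 94) (nat_lit 252) (nat_lit 0) (XT.lf (nat_lit 0) (nat_lit 7175414805) (nat_lit 336) (nat_lit 8828373536) (nat_lit 84) (nat_lit 312579446) (nat_lit 40) (nat_lit 5) (nat_lit 44) (nat_lit 5) (nat_lit 41) (nat_lit 5) (nat_lit 353) (nat_lit 298) (nat_lit 213)) (XT.nd (nat_lit 94) (nat_lit 252) (nat_lit 0) (XT.lf (nat_lit 0) (nat_lit 9434798884) (nat_lit 336)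 (nat_lit 3050472622) (nat_lit 84) (nat_lit 4191736129) (nat_lit 40) (nat_lit 5) (nat_lit 44) (nat_lit 5) (nat_lit 41) (nat_lit 5) (nat_lit 354) (nat_lit 298) (nat_lit 212)) (XT.lf (nat_lit 0) (nat_lit 2942881974) (nat_lit 252) (nat_lit 8833606859) (nat_lit 336) (nat_lit 5272004613) (nat_lit 37) (nat_lit 5) (nat_lit 40) (nat_lit 5) (nat_lit 41) (nat_lit 5) (nat_lit 355) (nat_lit 298) (nat_lit 211)))))) (XT.nd (nat_lit 564) (nat_lit 504) (nat_lit 0) (XT.nd (nat_lit 282) (nat_lit 252) (nat_lit 0) (XT.nd (nat_lit 94) (nat_lit 336) (nat_lit 0) (XT.lf (nat_lit 0) (nat_lit 9163977608) (nat_lit 252) (nat_lit 5041989066) (nat_lit 336) (nat_lit 3225102531) (nat_lit 37) (nat_lit 5) (nat_lit 40) (nat_lit 5) (nat_lit 41) (nat_lit 5) (nat_lit 356) (nat_lit 298) (nat_lit 210)) (XT.nd (nat_lit 94) (nat_lit 336) (nat_lit 0) (XT.lf (nat_lit 0) (nat_lit 15555889017) (nat_lit 252) (nat_lit 1138724619) (nat_lit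 336) (nat_lit 1131435255) (nat_lit 37) (nat_lit 5) (nat_lit 40) (nat_lit 5) (nat_lit 41) (nat_lit 5) (nat_lit 357) (nat_lit 298) (nat_lit 209)) (XT.lf (nat_lit 0) (nat_lit 1058942043) (nat_lit 336) (nat_lit 14300803648) (nat_lit 84) (nat_lit 2871624877) (nat_lit 33) (nat_lit 5) (nat_lit 37) (nat_lit 5) (nat_lit 34) (nat_lit 5) (nat_lit 358) (nat_lit 298) (nat_lit 208)))) (XT.nd (nat_lit 94) (nat_lit 252) (nat_lit 0) (XT.lf (nat_lit 0) (nat_lit 3313646881) (nat_lit 336) (nat_lit 8322328041) (nat_lit 84) (nat_lit 7012345566) (nat_lit 33) (nat_lit 5) (nat_lit 37) (nat_lit 5) (nat_lit 34) (nat_lit 5) (nat_lit 359) (nat_lit 298) (nat_lit 207)) (XT.nd (nat_lit 94) (nat_lit 252) (nat_lit 0) (XT.lf (nat_lit 0) (nat_lit 5623062092) (nat_lit 336) (nat_lit 2179845675) (nat_lit 84) (nat_lit 11275797422) (nat_lit 33) (nat_lit 5) (nat_lit 37) (nat_lit 5) (nat_lit 34) (nat_lit 5) (nat_lit 360) (nat_lit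 298) (nat_lit 206)) (XT.lf (nat_lit 0) (nat_lit 4217338865) (nat_lit 252) (nat_lit 3813837952) (nat_lit 336) (nat_lit 11490452088) (nat_lit 30) (nat_lit 5) (nat_lit 33) (nat_lit 5) (nat_lit 34) (nat_lit 5) (nat_lit 361) (nat_lit 298) (nat_lit 205))))) (XT.nd (nat_lit 282) (nat_lit 336) (nat_lit 0) (XT.nd (nat_lit 94) (nat_lit 168) (nat_lit 0) (XT.lf (nat_lit 0) (nat_lit 10525345467) (nat_lit 336) (nat_lit 9142629386) (nat_lit 84) (nat_lit 309991227) (nat_lit 30) (nat_lit 5) (nat_lit 34) (nat_lit 5) (nat_lit 31) (nat_lit 5) (nat_lit 362) (nat_lit 298) (nat_lit 204)) (XT.nd (nat_lit 94) (nat_lit 168) (nat_lit 0) (XT.lf (nat_lit 0) (nat_lit 13121728862) (nat_lit 336) (nat_lit 2849236802) (nat_lit 84) (nat_lit 4476747490) (nat_lit 30) (nat_lit 5) (nat_lit 34) (nat_lit 5) (nat_lit 31) (nat_lit 5) (nat_lit 363) (nat_lit 298) (nat_lit 203)) (XT.lf (nat_lit 0) (nat_lit 3694013701) (nat_lit 168)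 (nat_lit 12127544732) (nat_lit 252) (nat_lit 5109786397) (nat_lit 28) (nat_lit 5) (nat_lit 30) (nat_lit 5) (nat_lit 31) (nat_lit 5) (nat_lit 364) (nat_lit 298) (nat_lit 202)))) (XT.nd (nat_lit 94) (nat_lit 336) (nat_lit 0) (XT.lf (nat_lit 0) (nat_lit 10481042973) (nat_lit 168) (nat_lit 8140311597) (nat_lit 252) (nat_lit 2808143212) (nat_lit 28) (nat_lit 5) (nat_lit 30) (nat_lit 5) (nat_lit 31) (nat_lit 5) (nat_lit 365) (nat_lit 298) (nat_lit 201)) (XT.nd (nat_lit 94) (nat_lit 336) (nat_lit 0) (XT.lf (nat_lit 0) (nat_lit 17459591085) (nat_lit 168) (nat_lit 4035289929) (nat_lit 252) (nat_lit 448649554) (nat_lit 28) (nat_lit 5) (nat_lit 30) (nat_lit 5) (nat_lit 31) (nat_lit 5) (nat_lit 366) (nat_lit 298) (nat_lit 200)) (XT.lf (nat_lit 0) (nat_lit 1955197568) (nat_lit 336) (nat_lit 20288216738) (nat_lit 84) (nat_lit 229157517) (nat_lit 24) (nat_lit 5) (nat_lit 28) (nat_lit 5) (nat_lit 25)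 (nat_lit 5) (nat_lit 367) (nat_lit 298) (nat_lit 199))))))) (XT.nd (nat_lit 1128) (nat_lit 336) (nat_lit 0) (XT.nd (nat_lit 564) (nat_lit 420) (nat_lit 0) (XT.nd (nat_lit 282) (nat_lit 168) (nat_lit 0) (XT.nd (nat_lit 94) (nat_lit 0) (nat_lit 0) (XT.lf (nat_lit 0) (nat_lit 4500112739) (nat_lit 336) (nat_lit 13927257790) (nat_lit 84) (nat_lit 4588177980) (nat_lit 24) (nat_lit 5) (nat_lit 28) (nat_lit 5) (nat_lit 25) (nat_lit 5) (nat_lit 368) (nat_lit 298) (nat_lit 198)) (XT.nd (nat_lit 94) (nat_lit 0) (nat_lit 0) (XT.lf (nat_lit 0) (nat_lit 7111616643) (nat_lit 336) (nat_lit 7387324865) (nat_lit 84) (nat_lit 9076825809) (nat_lit 24) (nat_lit 5) (nat_lit 28) (nat_lit 5) (nat_lit 25) (nat_lit 5) (nat_lit 369) (nat_lit 298) (nat_lit 197)) (XT.lf (nat_lit 0) (nat_lit 9792143477) (nat_lit 336) (nat_lit 662322061) (nat_lit 84) (nat_lit 13699284893) (nat_lit 24) (nat_lit 5) (nat_lit 28) (nat_lit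 5) (nat_lit 25) (nat_lit 5) (nat_lit 370) (nat_lit 298) (nat_lit 196)))) (XT.nd (nat_lit 94) (nat_lit 0) (nat_lit 0) (XT.lf (nat_lit 0) (nat_lit 6382614487) (nat_lit 168) (nat_lit 6224893611) (nat_lit 252) (nat_lit 12140565687) (nat_lit 22) (nat_lit 5) (nat_lit 24) (nat_lit 5) (nat_lit 25) (nat_lit 5) (nat_lit 371) (nat_lit 298) (nat_lit 195)) (XT.nd (nat_lit 94) (nat_lit 0) (nat_lit 0) (XT.lf (nat_lit 0) (nat_lit 13643021642) (nat_lit 168) (nat_lit 1862645548) (nat_lit 252) (nat_lit 9855318856) (nat_lit 22) (nat_lit 5) (nat_lit 24) (nat_lit 5) (nat_lit 25) (nat_lit 5) (nat_lit 372) (nat_lit 298) (nat_lit 194)) (XT.lf (nat_lit 0) (nat_lit 18508701010) (nat_lit 252) (nat_lit 4907302499) (nat_lit 84) (nat_lit 2576454256) (nat_lit 22) (nat_lit 5) (nat_lit 25) (nat_lit 5) (nat_lit 23) (nat_lit 5) (nat_lit 373) (nat_lit 298) (nat_lit 193))))) (XT.nd (nat_lit 282) (nat_lit 168) (nat_lit 0)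 (XT.nd (nat_lit 94) (nat_lit 84) (nat_lit 0) (XT.lf (nat_lit 0) (nat_lit 2121928259) (nat_lit 168) (nat_lit 19512228762) (nat_lit 252) (nat_lit 5008463322) (nat_lit 20) (nat_lit 5) (nat_lit 22) (nat_lit 5) (nat_lit 23) (nat_lit 5) (nat_lit 374) (nat_lit 298) (nat_lit 192)) (XT.nd (nat_lit 94) (nat_lit 84) (nat_lit 0) (XT.lf (nat_lit 0) (nat_lit 9456998750) (nat_lit 168) (nat_lit 15440117658) (nat_lit 252) (nat_lit 2414586186) (nat_lit 20) (nat_lit 5) (nat_lit 22) (nat_lit 5) (nat_lit 23) (nat_lit 5) (nat_lit 375) (nat_lit 298) (nat_lit 191)) (XT.lf (nat_lit 0) (nat_lit 244052032) (nat_lit 252) (nat_lit 11000497302) (nat_lit 84) (nat_lit 16757242387) (nat_lit 19) (nat_lit 5) (nat_lit 22) (nat_lit 5) (nat_lit 20) (nat_lit 5) (nat_lit 376) (nat_lit 298) (nat_lit 190)))) (XT.nd (nat_lit 94) (nat_lit 168) (nat_lit 0) (XT.lf (nat_lit 0) (nat_lit 2924847900) (nat_lit 252) (nat_lit 3973880349)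 (nat_lit 84) (nat_lit 21814114609) (nat_lit 19) (nat_lit 5) (nat_lit 22) (nat_lit 5) (nat_lit 20) (nat_lit 5) (nat_lit 377) (nat_lit 298) (nat_lit 189)) (XT.nd (nat_lit 94) (nat_lit 0) (nat_lit 0) (XT.lf (nat_lit 0) (nat_lit 3322592381) (nat_lit 168) (nat_lit 2389316878) (nat_lit 252) (nat_lit 23733330290) (nat_lit 17) (nat_lit 5) (nat_lit 19) (nat_lit 5) (nat_lit 20) (nat_lit 5) (nat_lit 378) (nat_lit 298) (nat_lit 188)) (XT.lf (nat_lit 0) (nat_lit 8639989092) (nat_lit 252) (nat_lit 19307427364) (nat_lit 84) (nat_lit 2251251197) (nat_lit 17) (nat_lit 5) (nat_lit 20) (nat_lit 5) (nat_lit 18) (nat_lit 5) (nat_lit 379) (nat_lit 298) (nat_lit 187)))))) (XT.nd (nat_lit 564) (nat_lit 168) (nat_lit 0) (XT.nd (nat_lit 282) (nat_lit 0) (nat_lit 0) (XT.nd (nat_lit 94) (nat_lit 168) (nat_lit 0) (XT.lf (nat_lit 0) (nat_lit 11673866041) (nat_lit 252) (nat_lit 12319950951) (nat_lit 84) (nat_lit 6981188923)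 (nat_lit 17) (nat_lit 5) (nat_lit 20) (nat_lit 5) (nat_lit 18) (nat_lit 5) (nat_lit 380) (nat_lit 298) (nat_lit 186)) (XT.nd (nat_lit 94) (nat_lit 168) (nat_lit 0) (XT.lf (nat_lit 0) (nat_lit 14792665676) (nat_lit 252) (nat_lit 5130002551) (nat_lit 84) (nat_lit 11853044506) (nat_lit 17) (nat_lit 5) (nat_lit 20) (nat_lit 5) (nat_lit 18) (nat_lit 5) (nat_lit 381) (nat_lit 298) (nat_lit 185)) (XT.lf (nat_lit 0) (nat_lit 2315777375) (nat_lit 168) (nat_lit 15706490471) (nat_lit 252) (nat_lit 14578554450) (nat_lit 15) (nat_lit 5) (nat_lit 17) (nat_lit 5) (nat_lit 18) (nat_lit 5) (nat_lit 382) (nat_lit 298) (nat_lit 184)))) (XT.nd (nat_lit 94) (nat_lit 0) (nat_lit 0) (XT.lf (nat_lit 0) (nat_lit 10087554057) (nat_lit 168) (nat_lit 11309258796) (nat_lit 252) (nat_lit 12053325807) (nat_lit 15) (nat_lit 5) (nat_lit 17) (nat_lit 5) (nat_lit 18) (nat_lit 5) (nat_lit 383) (nat_lit 298) (nat_lit 183))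 (XT.nd (nat_lit 94) (nat_lit 0) (nat_lit 0) (XT.lf (nat_lit 0) (nat_lit 18087088232) (nat_lit 168) (nat_lit 6780421227) (nat_lit 252) (nat_lit 9458554056) (nat_lit 15) (nat_lit 5) (nat_lit 17) (nat_lit 5) (nat_lit 18) (nat_lit 5) (nat_lit 384) (nat_lit 298) (nat_lit 182)) (XT.lf (nat_lit 0) (nat_lit 26321836304) (nat_lit 168) (nat_lit 2115756415) (nat_lit 252) (nat_lit 6791820598) (nat_lit 15) (nat_lit 5) (nat_lit 17) (nat_lit 5) (nat_lit 18) (nat_lit 5) (nat_lit 385) (nat_lit 298) (nat_lit 181))))) (XT.nd (nat_lit 282) (nat_lit 0) (nat_lit 0) (XT.nd (nat_lit 94) (nat_lit 168) (nat_lit 0) (XT.lf (nat_lit 0) (nat_lit 32137066364) (nat_lit 252) (nat_lit 1388232202) (nat_lit 84) (nat_lit 2634904556) (nat_lit 15) (nat_lit 5) (nat_lit 18) (nat_lit 5) (nat_lit 16) (nat_lit 4) (nat_lit 386) (nat_lit 298) (nat_lit 180)) (XT.nd (nat_lit 94) (nat_lit 84) (nat_lit 0) (XT.lf (nat_lit 0) (nat_lit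 6460510207) (nat_lit 84) (nat_lit 29568680187) (nat_lit 168) (nat_lit 1088255968) (nat_lit 14) (nat_lit 5) (nat_lit 15) (nat_lit 5) (nat_lit 16) (nat_lit 4) (nat_lit 387) (nat_lit 298) (nat_lit 179)) (XT.lf (nat_lit 0) (nat_lit 1905464559) (nat_lit 168) (nat_lit 23553569141) (nat_lit 84) (nat_lit 12644535755) (nat_lit 13) (nat_lit 5) (nat_lit 15) (nat_lit 5) (nat_lit 14) (nat_lit 5) (nat_lit 388) (nat_lit 298) (nat_lit 178)))) (XT.nd (nat_lit 94) (nat_lit 0) (nat_lit 0) (XT.lf (nat_lit 0) (nat_lit 4961875940) (nat_lit 168) (nat_lit 16253036997) (nat_lit 84) (nat_lit 17905251688) (nat_lit 13) (nat_lit 5) (nat_lit 15) (nat_lit 5) (nat_lit 14) (nat_lit 5) (nat_lit 389) (nat_lit 298) (nat_lit 177)) (XT.nd (nat_lit 94) (nat_lit 0) (nat_lit 0) (XT.lf (nat_lit 0) (nat_lit 8105753003) (nat_lit 168) (nat_lit 8737739229) (nat_lit 84) (nat_lit 23325021877) (nat_lit 13) (nat_lit 5) (nat_lit 15)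 (nat_lit 5) (nat_lit 14) (nat_lit 5) (nat_lit 390) (nat_lit 298) (nat_lit 176)) (XT.lf (nat_lit 0) (nat_lit 11340026169) (nat_lit 168) (nat_lit 1000670793) (nat_lit 84) (nat_lit 28908898116) (nat_lit 13) (nat_lit 5) (nat_lit 15) (nat_lit 5) (nat_lit 14) (nat_lit 5) (nat_lit 391) (nat_lit 298) (nat_lit 175))))))))
noncomputable def xc113 : XT := (XT.nd (nat_lit 2256) (nat_lit 0) (nat_lit 0) (XT.nd (nat_lit 1128) (nat_lit 84) (nat_lit 0) (XT.nd (nat_lit 564) (nat_lit 252) (nat_lit 0) (XT.nd (nat_lit 282) (nat_lit 84) (nat_lit 0) (XT.nd (nat_lit 94) (nat_lit 0) (nat_lit 0) (XT.lf (nat_lit 0) (nat_lit 7108602569) (nat_lit 168) (nat_lit 7629625770) (nat_lit 252) (nat_lit 27624000812) (nat_lit 11) (nat_lit 5) (nat_lit 13) (nat_lit 5) (nat_lit 14) (nat_lit 5) (nat_lit 392) (nat_lit 298) (nat_lit 174)) (XT.nd (nat_lit 94) (nat_lit 0) (nat_lit 0) (XT.lf (nat_lit 0) (nat_lit 15479720422) (nat_lit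 168) (nat_lit 2765746931) (nat_lit 252) (nat_lit 25263785912) (nat_lit 11) (nat_lit 5) (nat_lit 13) (nat_lit 5) (nat_lit 14) (nat_lit 5) (nat_lit 393) (nat_lit 298) (nat_lit 173)) (XT.lf (nat_lit 0) (nat_lit 21877152389) (nat_lit 252) (nat_lit 20614411905) (nat_lit 84) (nat_lit 2199795932) (nat_lit 11) (nat_lit 5) (nat_lit 14) (nat_lit 5) (nat_lit 12) (nat_lit 4) (nat_lit 394) (nat_lit 298) (nat_lit 172)))) (XT.nd (nat_lit 94) (nat_lit 84) (nat_lit 0) (XT.lf (nat_lit 0) (nat_lit 25643316957) (nat_lit 252) (nat_lit 13008000493) (nat_lit 84) (nat_lit 7258128330) (nat_lit 11) (nat_lit 5) (nat_lit 14) (nat_lit 5) (nat_lit 12) (nat_lit 4) (nat_lit 395) (nat_lit 298) (nat_lit 171)) (XT.nd (nat_lit 94) (nat_lit 84) (nat_lit 0) (XT.lf (nat_lit 0) (nat_lit 29520034964) (nat_lit 252) (nat_lit 5175772085) (nat_lit 84) (nat_lit 12469688797) (nat_lit 11) (nat_lit 5) (nat_lit 14) (nat_lit 5) (nat_lit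 12) (nat_lit 4) (nat_lit 396) (nat_lit 298) (nat_lit 170)) (XT.lf (nat_lit 0) (nat_lit 2948989338) (nat_lit 84) (nat_lit 30591184917) (nat_lit 168) (nat_lit 14919600052) (nat_lit 10) (nat_lit 5) (nat_lit 11) (nat_lit 5) (nat_lit 12) (nat_lit 4) (nat_lit 397) (nat_lit 298) (nat_lit 169))))) (XT.nd (nat_lit 282) (nat_lit 252) (nat_lit 0) (XT.nd (nat_lit 94) (nat_lit 0) (nat_lit 0) (XT.lf (nat_lit 0) (nat_lit 11425758407) (nat_lit 84) (nat_lit 26307278269) (nat_lit 168) (nat_lit 12059658698) (nat_lit 10) (nat_lit 5) (nat_lit 11) (nat_lit 5) (nat_lit 12) (nat_lit 4) (nat_lit 398) (nat_lit 298) (nat_lit 168)) (XT.nd (nat_lit 94) (nat_lit 0) (nat_lit 0) (XT.lf (nat_lit 0) (nat_lit 20156011866) (nat_lit 84) (nat_lit 21894118502) (nat_lit 168) (nat_lit 9116995502) (nat_lit 10) (nat_lit 5) (nat_lit 11) (nat_lit 5) (nat_lit 12) (nat_lit 4) (nat_lit 399) (nat_lit 298) (nat_lit 167)) (XT.lf (nat_lit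 0) (nat_lit 29147887227) (nat_lit 84) (nat_lit 17347592088) (nat_lit 168) (nat_lit 6088867592) (nat_lit 10) (nat_lit 5) (nat_lit 11) (nat_lit 5) (nat_lit 12) (nat_lit 4) (nat_lit 400) (nat_lit 298) (nat_lit 166)))) (XT.nd (nat_lit 94) (nat_lit 252) (nat_lit 0) (XT.lf (nat_lit 0) (nat_lit 38409765860) (nat_lit 84) (nat_lit 12663461188) (nat_lit 168) (nat_lit 2972452436) (nat_lit 10) (nat_lit 5) (nat_lit 11) (nat_lit 5) (nat_lit 12) (nat_lit 4) (nat_lit 401) (nat_lit 298) (nat_lit 165)) (XT.nd (nat_lit 94) (nat_lit 168) (nat_lit 0) (XT.lf (nat_lit 0) (nat_lit 230416945) (nat_lit 168) (nat_lit 7604537677) (nat_lit 84) (nat_lit 47717458779) (nat_lit 9) (nat_lit 5) (nat_lit 11) (nat_lit 5) (nat_lit 10) (nat_lit 5) (nat_lit 402) (nat_lit 298) (nat_lit 164)) (XT.lf (nat_lit 0) (nat_lit 650167214) (nat_lit 168) (nat_lit 2821964901) (nat_lit 252) (nat_lit 53632750353) (nat_lit 7) (nat_lit 5)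 (nat_lit 9) (nat_lit 5) (nat_lit 10) (nat_lit 5) (nat_lit 403) (nat_lit 298) (nat_lit 163)))))) (XT.nd (nat_lit 564) (nat_lit 84) (nat_lit 0) (XT.nd (nat_lit 282) (nat_lit 0) (nat_lit 0) (XT.nd (nat_lit 94) (nat_lit 0) (nat_lit 0) (XT.lf (nat_lit 0) (nat_lit 6912698148) (nat_lit 252) (nat_lit 49413518103) (nat_lit 84) (nat_lit 2376221651) (nat_lit 7) (nat_lit 5) (nat_lit 10) (nat_lit 5) (nat_lit 8) (nat_lit 4) (nat_lit 404) (nat_lit 298) (nat_lit 162)) (XT.nd (nat_lit 94) (nat_lit 0) (nat_lit 0) (XT.lf (nat_lit 0) (nat_lit 10483830575) (nat_lit 252) (nat_lit 42191045723) (nat_lit 84) (nat_lit 7673908726) (nat_lit 7) (nat_lit 5) (nat_lit 10) (nat_lit 5) (nat_lit 8) (nat_lit 4) (nat_lit 405) (nat_lit 298) (nat_lit 161)) (XT.lf (nat_lit 0) (nat_lit 14160863825) (nat_lit 252) (nat_lit 34752571772) (nat_lit 84) (nat_lit 13132890626) (nat_lit 7) (nat_lit 5) (nat_lit 10) (nat_lit 5) (nat_lit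 8) (nat_lit 4) (nat_lit 406) (nat_lit 298) (nat_lit 160)))) (XT.nd (nat_lit 94) (nat_lit 0) (nat_lit 0) (XT.lf (nat_lit 0) (nat_lit 17947225279) (nat_lit 252) (nat_lit 27091162815) (nat_lit 84) (nat_lit 18758255694) (nat_lit 7) (nat_lit 5) (nat_lit 10) (nat_lit 5) (nat_lit 8) (nat_lit 4) (nat_lit 407) (nat_lit 298) (nat_lit 159)) (XT.nd (nat_lit 94) (nat_lit 0) (nat_lit 0) (XT.lf (nat_lit 0) (nat_lit 21846444222) (nat_lit 252) (nat_lit 19199677615) (nat_lit 84) (nat_lit 24555247359) (nat_lit 7) (nat_lit 5) (nat_lit 10) (nat_lit 5) (nat_lit 8) (nat_lit 4) (nat_lit 408) (nat_lit 298) (nat_lit 158)) (XT.lf (nat_lit 0) (nat_lit 25862155134) (nat_lit 252) (nat_lit 11070760481) (nat_lit 84) (nat_lit 30529269025) (nat_lit 7) (nat_lit 5) (nat_lit 10) (nat_lit 5) (nat_lit 8) (nat_lit 4) (nat_lit 409) (nat_lit 298) (nat_lit 157))))) (XT.nd (nat_lit 282) (nat_lit 0) (nat_lit 0) (XT.nd (nat_lit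 94) (nat_lit 84) (nat_lit 0) (XT.lf (nat_lit 0) (nat_lit 29998101080) (nat_lit 252) (nat_lit 2696834411) (nat_lit 84) (nat_lit 36685889106) (nat_lit 7) (nat_lit 5) (nat_lit 10) (nat_lit 5) (nat_lit 8) (nat_lit 4) (nat_lit 410) (nat_lit 298) (nat_lit 156)) (XT.nd (nat_lit 94) (nat_lit 0) (nat_lit 0) (XT.lf (nat_lit 0) (nat_lit 6051836999) (nat_lit 84) (nat_lit 28266335165) (nat_lit 168) (nat_lit 37039044189) (nat_lit 6) (nat_lit 5) (nat_lit 7) (nat_lit 5) (nat_lit 8) (nat_lit 4) (nat_lit 411) (nat_lit 298) (nat_lit 155)) (XT.lf (nat_lit 0) (nat_lit 15122179916) (nat_lit 84) (nat_lit 23674068254) (nat_lit 168) (nat_lit 34597888503) (nat_lit 6) (nat_lit 5) (nat_lit 7) (nat_lit 5) (nat_lit 8) (nat_lit 4) (nat_lit 412) (nat_lit 298) (nat_lit 154)))) (XT.nd (nat_lit 94) (nat_lit 0) (nat_lit 0) (XT.lf (nat_lit 0) (nat_lit 24467196400) (nat_lit 84) (nat_lit 18942003703) (nat_lit 168) (nat_lit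 32085130465) (nat_lit 6) (nat_lit 5) (nat_lit 7) (nat_lit 5) (nat_lit 8) (nat_lit 4) (nat_lit 413) (nat_lit 298) (nat_lit 153)) (XT.nd (nat_lit 94) (nat_lit 0) (nat_lit 0) (XT.lf (nat_lit 0) (nat_lit 34095596988) (nat_lit 84) (nat_lit 14065730734) (nat_lit 168) (nat_lit 29498427923) (nat_lit 6) (nat_lit 5) (nat_lit 7) (nat_lit 5) (nat_lit 8) (nat_lit 4) (nat_lit 414) (nat_lit 298) (nat_lit 152)) (XT.lf (nat_lit 0) (nat_lit 44016356356) (nat_lit 84) (nat_lit 9040704149) (nat_lit 168) (nat_lit 26835369798) (nat_lit 6) (nat_lit 5) (nat_lit 7) (nat_lit 5) (nat_lit 8) (nat_lit 4) (nat_lit 415) (nat_lit 298) (nat_lit 151))))))) (XT.nd (nat_lit 44274) (nat_lit 0) (nat_lit 9744) (XT.nd (nat_lit 43710) (nat_lit 0) (nat_lit 13188) (XT.nd (nat_lit 43428) (nat_lit 0) (nat_lit 13860) (XT.nd (nat_lit 43240) (nat_lit 0) (nat_lit 13860) (XT.lf (nat_lit 0) (nat_lit 54238721692) (nat_lit 84) (nat_lit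 3862240097) (nat_lit 168) (nat_lit 24093473841) (nat_lit 6) (nat_lit 5) (nat_lit 7) (nat_lit 5) (nat_lit 8) (nat_lit 4) (nat_lit 416) (nat_lit 298) (nat_lit 150)) (XT.nd (nat_lit 94) (nat_lit 756) (nat_lit 0) (XT.lf (nat_lit 0) (nat_lit 1517540589) (nat_lit 0) (nat_lit 1517540589) (nat_lit 588) (nat_lit 477641610) (nat_lit 180) (nat_lit 5) (nat_lit 180) (nat_lit 3) (nat_lit 187) (nat_lit 3) (nat_lit 299) (nat_lit 299) (nat_lit 266)) (XT.lf (nat_lit 0) (nat_lit 582615803) (nat_lit 756) (nat_lit 1169420646) (nat_lit 756) (nat_lit 5327669528) (nat_lit 171) (nat_lit 3) (nat_lit 180) (nat_lit 3) (nat_lit 180) (nat_lit 5) (nat_lit 300) (nat_lit 299) (nat_lit 265)))) (XT.nd (nat_lit 94) (nat_lit 0) (nat_lit 84) (XT.lf (nat_lit 84) (nat_lit 1732103553) (nat_lit 0) (nat_lit 371645801) (nat_lit 756) (nat_lit 5033277080) (nat_lit 172) (nat_lit 5) (nat_lit 171) (nat_lit 3) (nat_lit 180) (nat_lit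 5) (nat_lit 301) (nat_lit 299) (nat_lit 264)) (XT.nd (nat_lit 94) (nat_lit 0) (nat_lit 0) (XT.lf (nat_lit 0) (nat_lit 3634847813) (nat_lit 672) (nat_lit 2492048209) (nat_lit 756) (nat_lit 1070670093) (nat_lit 172) (nat_lit 5) (nat_lit 180) (nat_lit 5) (nat_lit 181) (nat_lit 5) (nat_lit 302) (nat_lit 299) (nat_lit 263)) (XT.lf (nat_lit 84) (nat_lit 483988841) (nat_lit 0) (nat_lit 4679873621) (nat_lit 756) (nat_lit 2097936737) (nat_lit 173) (nat_lit 5) (nat_lit 172) (nat_lit 5) (nat_lit 181) (nat_lit 5) (nat_lit 303) (nat_lit 299) (nat_lit 262))))) (XT.nd (nat_lit 282) (nat_lit 0) (nat_lit 84) (XT.nd (nat_lit 94) (nat_lit 756) (nat_lit 0) (XT.lf (nat_lit 84) (nat_lit 3572361158) (nat_lit 0) (nat_lit 3137200677) (nat_lit 756) (nat_lit 619686080) (nat_lit 173) (nat_lit 5) (nat_lit 172) (nat_lit 5) (nat_lit 181) (nat_lit 5) (nat_lit 304) (nat_lit 299) (nat_lit 261)) (XT.nd (nat_lit 94) (nat_lit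 0) (nat_lit 84) (XT.lf (nat_lit 0) (nat_lit 830326465) (nat_lit 756) (nat_lit 684457759) (nat_lit 840) (nat_lit 5885712436) (nat_lit 163) (nat_lit 5) (nat_lit 172) (nat_lit 5) (nat_lit 173) (nat_lit 5) (nat_lit 305) (nat_lit 299) (nat_lit 260)) (XT.lf (nat_lit 0) (nat_lit 2285106884) (nat_lit 756) (nat_lit 4982048045) (nat_lit 840) (nat_lit 207697749) (nat_lit 164) (nat_lit 5) (nat_lit 173) (nat_lit 5) (nat_lit 174) (nat_lit 5) (nat_lit 306) (nat_lit 299) (nat_lit 259)))) (XT.nd (nat_lit 94) (nat_lit 0) (nat_lit 0) (XT.lf (nat_lit 0) (nat_lit 3755053197) (nat_lit 756) (nat_lit 1817721809) (nat_lit 840) (nat_lit 1979907582) (nat_lit 164) (nat_lit 5) (nat_lit 173) (nat_lit 5) (nat_lit 174) (nat_lit 5) (nat_lit 307) (nat_lit 299) (nat_lit 258)) (XT.nd (nat_lit 94) (nat_lit 0) (nat_lit 0) (XT.lf (nat_lit 84) (nat_lit 1440811969) (nat_lit 0) (nat_lit 3792989370) (nat_lit 840) (nat_lit 2400497356)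 (nat_lit 165) (nat_lit 5) (nat_lit 164) (nat_lit 5) (nat_lit 174) (nat_lit 5) (nat_lit 308) (nat_lit 299) (nat_lit 257)) (XT.lf (nat_lit 84) (nat_lit 4806312564) (nat_lit 0) (nat_lit 1921203890) (nat_lit 840) (nat_lit 992112229) (nat_lit 165) (nat_lit 5) (nat_lit 164) (nat_lit 5) (nat_lit 174) (nat_lit 5) (nat_lit 309) (nat_lit 299) (nat_lit 256)))))) (XT.nd (nat_lit 564) (nat_lit 2016) (nat_lit 0) (XT.nd (nat_lit 282) (nat_lit 756) (nat_lit 0) (XT.nd (nat_lit 94) (nat_lit 0) (nat_lit 0) (XT.lf (nat_lit 0) (nat_lit 406310349) (nat_lit 840) (nat_lit 7369381181) (nat_lit 924) (nat_lit 33359218) (nat_lit 155) (nat_lit 5) (nat_lit 165) (nat_lit 5) (nat_lit 166) (nat_lit 5) (nat_lit 310) (nat_lit 299) (nat_lit 255)) (XT.nd (nat_lit 94) (nat_lit 0) (nat_lit 0) (XT.lf (nat_lit 0) (nat_lit 1830092014) (nat_lit 840) (nat_lit 4006388316) (nat_lit 924) (nat_lit 2064575741) (nat_lit 155) (nat_lit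 5) (nat_lit 165) (nat_lit 5) (nat_lit 166) (nat_lit 5) (nat_lit 311) (nat_lit 299) (nat_lit 254)) (XT.lf (nat_lit 0) (nat_lit 3251693777) (nat_lit 840) (nat_lit 572447520) (nat_lit 924) (nat_lit 4173408717) (nat_lit 155) (nat_lit 5) (nat_lit 165) (nat_lit 5) (nat_lit 166) (nat_lit 5) (nat_lit 312) (nat_lit 299) (nat_lit 253)))) (XT.nd (nat_lit 94) (nat_lit 756) (nat_lit 0) (XT.lf (nat_lit 84) (nat_lit 2996004818) (nat_lit 0) (nat_lit 1706156640) (nat_lit 924) (nat_lit 3395539718) (nat_lit 156) (nat_lit 5) (nat_lit 155) (nat_lit 5) (nat_lit 166) (nat_lit 5) (nat_lit 313) (nat_lit 299) (nat_lit 252)) (XT.nd (nat_lit 94) (nat_lit 840) (nat_lit 0) (XT.lf (nat_lit 0) (nat_lit 6164593938) (nat_lit 840) (nat_lit 1551998803) (nat_lit 84) (nat_lit 485576013) (nat_lit 156) (nat_lit 5) (nat_lit 166) (nat_lit 5) (nat_lit 157) (nat_lit 5) (nat_lit 314) (nat_lit 299) (nat_lit 251)) (XT.lf (nat_lit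 0) (nat_lit 2099966708) (nat_lit 840) (nat_lit 5568220461) (nat_lit 924) (nat_lit 642000138) (nat_lit 146) (nat_lit 5) (nat_lit 156) (nat_lit 5) (nat_lit 157) (nat_lit 5) (nat_lit 315) (nat_lit 299) (nat_lit 250))))) (XT.nd (nat_lit 282) (nat_lit 1008) (nat_lit 0) (XT.nd (nat_lit 94) (nat_lit 924) (nat_lit 0) (XT.lf (nat_lit 0) (nat_lit 755049378) (nat_lit 924) (nat_lit 2564417778) (nat_lit 84) (nat_lit 5102812192) (nat_lit 145) (nat_lit 5) (nat_lit 156) (nat_lit 5) (nat_lit 146) (nat_lit 5) (nat_lit 316) (nat_lit 299) (nat_lit 249)) (XT.nd (nat_lit 94) (nat_lit 0) (nat_lit 0) (XT.lf (nat_lit 0) (nat_lit 1179260883) (nat_lit 924) (nat_lit 973676084) (nat_lit 1008) (nat_lit 6385775942) (nat_lit 134) (nat_lit 5) (nat_lit 145) (nat_lit 5) (nat_lit 146) (nat_lit 5) (nat_lit 317) (nat_lit 299) (nat_lit 248)) (XT.lf (nat_lit 0) (nat_lit 3595688728) (nat_lit 1008) (nat_lit 3612663046) (nat_lit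 84) (nat_lit 1450518736) (nat_lit 134) (nat_lit 5) (nat_lit 146) (nat_lit 5) (nat_lit 135) (nat_lit 5) (nat_lit 318) (nat_lit 299) (nat_lit 247)))) (XT.nd (nat_lit 94) (nat_lit 0) (nat_lit 0) (XT.lf (nat_lit 0) (nat_lit 212110330) (nat_lit 1008) (nat_lit 4844471765) (nat_lit 1092) (nat_lit 3727152146) (nat_lit 122) (nat_lit 5) (nat_lit 134) (nat_lit 5) (nat_lit 135) (nat_lit 5) (nat_lit 319) (nat_lit 299) (nat_lit 246)) (XT.nd (nat_lit 94) (nat_lit 0) (nat_lit 0) (XT.lf (nat_lit 0) (nat_lit 4199885888) (nat_lit 1008) (nat_lit 2362782845) (nat_lit 1092) (nat_lit 2349955365) (nat_lit 122) (nat_lit 5) (nat_lit 134) (nat_lit 5) (nat_lit 135) (nat_lit 5) (nat_lit 320) (nat_lit 299) (nat_lit 245)) (XT.lf (nat_lit 0) (nat_lit 8080774617) (nat_lit 1092) (nat_lit 768694269) (nat_lit 84) (nat_lit 197263250) (nat_lit 122) (nat_lit 5) (nat_lit 135) (nat_lit 5) (nat_lit 123) (nat_lit 5) (nat_lit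 321) (nat_lit 299) (nat_lit 244))))))))
noncomputable def xc114 : XT := (XT.nd (nat_lit 2256) (nat_lit 2352) (nat_lit 0) (XT.nd (nat_lit 1128) (nat_lit 2100) (nat_lit 0) (XT.nd (nat_lit 564) (nat_lit 1512) (nat_lit 0) (XT.nd (nat_lit 282) (nat_lit 588) (nat_lit 0) (XT.nd (nat_lit 94) (nat_lit 504) (nat_lit 0) (XT.lf (nat_lit 0) (nat_lit 473212132) (nat_lit 1176) (nat_lit 5880703055) (nat_lit 84) (nat_lit 2830411465) (nat_lit 108) (nat_lit 5) (nat_lit 122) (nat_lit 5) (nat_lit 109) (nat_lit 5) (nat_lit 322) (nat_lit 299) (nat_lit 243)) (XT.nd (nat_lit 94) (nat_lit 504) (nat_lit 0) (XT.lf (nat_lit 0) (nat_lit 1909791404) (nat_lit 1176) (nat_lit 1849506936) (nat_lit 84) (nat_lit 5567558222) (nat_lit 108) (nat_lit 5) (nat_lit 122) (nat_lit 5) (nat_lit 109) (nat_lit 5) (nat_lit 323) (nat_lit 299) (nat_lit 242)) (XT.lf (nat_lit 0) (nat_lit 2322323932) (nat_lit 504) (nat_lit 1057433104) (nat_lit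 588) (nat_lit 6094524283) (nat_lit 102) (nat_lit 5) (nat_lit 108) (nat_lit 5) (nat_lit 109) (nat_lit 5) (nat_lit 324) (nat_lit 299) (nat_lit 241)))) (XT.nd (nat_lit 94) (nat_lit 588) (nat_lit 0) (XT.lf (nat_lit 0) (nat_lit 4898501249) (nat_lit 588) (nat_lit 3012326475) (nat_lit 84) (nat_lit 1715475931) (nat_lit 102) (nat_lit 5) (nat_lit 109) (nat_lit 5) (nat_lit 103) (nat_lit 5) (nat_lit 325) (nat_lit 299) (nat_lit 240)) (XT.nd (nat_lit 94) (nat_lit 0) (nat_lit 0) (XT.lf (nat_lit 0) (nat_lit 1238740379) (nat_lit 588) (nat_lit 5216258319) (nat_lit 672) (nat_lit 3328452245) (nat_lit 95) (nat_lit 5) (nat_lit 102) (nat_lit 5) (nat_lit 103) (nat_lit 5) (nat_lit 326) (nat_lit 299) (nat_lit 239)) (XT.lf (nat_lit 0) (nat_lit 5654728833) (nat_lit 588) (nat_lit 2404700286) (nat_lit 672) (nat_lit 1886169945) (nat_lit 95) (nat_lit 5) (nat_lit 102) (nat_lit 5) (nat_lit 103) (nat_lit 5) (nat_lit 327)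 (nat_lit 299) (nat_lit 238))))) (XT.nd (nat_lit 282) (nat_lit 924) (nat_lit 0) (XT.nd (nat_lit 94) (nat_lit 84) (nat_lit 0) (XT.lf (nat_lit 0) (nat_lit 60274564) (nat_lit 504) (nat_lit 9628024979) (nat_lit 588) (nat_lit 425374254) (nat_lit 89) (nat_lit 5) (nat_lit 95) (nat_lit 5) (nat_lit 96) (nat_lit 5) (nat_lit 328) (nat_lit 299) (nat_lit 237)) (XT.nd (nat_lit 94) (nat_lit 0) (nat_lit 0) (XT.lf (nat_lit 0) (nat_lit 1098180792) (nat_lit 588) (nat_lit 5715378269) (nat_lit 84) (nat_lit 3471959686) (nat_lit 88) (nat_lit 5) (nat_lit 95) (nat_lit 5) (nat_lit 89) (nat_lit 5) (nat_lit 329) (nat_lit 299) (nat_lit 236)) (XT.lf (nat_lit 0) (nat_lit 2630457978) (nat_lit 588) (nat_lit 1277591644) (nat_lit 84) (nat_lit 6555531902) (nat_lit 88) (nat_lit 5) (nat_lit 95) (nat_lit 5) (nat_lit 89) (nat_lit 5) (nat_lit 330) (nat_lit 299) (nat_lit 235)))) (XT.nd (nat_lit 94) (nat_lit 420) (nat_lit 0) (XT.lf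 (nat_lit 0) (nat_lit 3335520186) (nat_lit 504) (nat_lit 879024477) (nat_lit 588) (nat_lit 6432588501) (nat_lit 82) (nat_lit 5) (nat_lit 88) (nat_lit 5) (nat_lit 89) (nat_lit 5) (nat_lit 331) (nat_lit 299) (nat_lit 234)) (XT.nd (nat_lit 94) (nat_lit 420) (nat_lit 0) (XT.lf (nat_lit 0) (nat_lit 5855256530) (nat_lit 588) (nat_lit 2769750565) (nat_lit 84) (nat_lit 2211234146) (nat_lit 82) (nat_lit 5) (nat_lit 89) (nat_lit 5) (nat_lit 83) (nat_lit 5) (nat_lit 332) (nat_lit 299) (nat_lit 233)) (XT.lf (nat_lit 0) (nat_lit 1913256953) (nat_lit 420) (nat_lit 5634178815) (nat_lit 504) (nat_lit 3483853558) (nat_lit 77) (nat_lit 5) (nat_lit 82) (nat_lit 5) (nat_lit 83) (nat_lit 5) (nat_lit 333) (nat_lit 299) (nat_lit 232)))))) (XT.nd (nat_lit 564) (nat_lit 1176) (nat_lit 0) (XT.nd (nat_lit 282) (nat_lit 420) (nat_lit 0) (XT.nd (nat_lit 94) (nat_lit 504) (nat_lit 0) (XT.lf (nat_lit 0) (nat_lit 6771240549)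 (nat_lit 420) (nat_lit 2522913702) (nat_lit 504) (nat_lit 1938258640) (nat_lit 77) (nat_lit 5) (nat_lit 82) (nat_lit 5) (nat_lit 83) (nat_lit 5) (nat_lit 334) (nat_lit 299) (nat_lit 231)) (XT.nd (nat_lit 94) (nat_lit 84) (nat_lit 0) (XT.lf (nat_lit 0) (nat_lit 310592441) (nat_lit 420) (nat_lit 10768260781) (nat_lit 504) (nat_lit 361509976) (nat_lit 72) (nat_lit 5) (nat_lit 77) (nat_lit 5) (nat_lit 78) (nat_lit 5) (nat_lit 335) (nat_lit 299) (nat_lit 230)) (XT.lf (nat_lit 0) (nat_lit 1285603315) (nat_lit 504) (nat_lit 6396527163) (nat_lit 84) (nat_lit 3970870486) (nat_lit 71) (nat_lit 5) (nat_lit 77) (nat_lit 5) (nat_lit 72) (nat_lit 5) (nat_lit 336) (nat_lit 299) (nat_lit 229)))) (XT.nd (nat_lit 94) (nat_lit 420) (nat_lit 0) (XT.lf (nat_lit 0) (nat_lit 2951155546) (nat_lit 504) (nat_lit 1548618245) (nat_lit 84) (nat_lit 7373203338) (nat_lit 71) (nat_lit 5) (nat_lit 77) (nat_lit 5) (nat_lit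 72) (nat_lit 5) (nat_lit 337) (nat_lit 299) (nat_lit 228)) (XT.nd (nat_lit 94) (nat_lit 0) (nat_lit 0) (XT.lf (nat_lit 0) (nat_lit 3492425567) (nat_lit 420) (nat_lit 1186202530) (nat_lit 504) (nat_lit 7420905807) (nat_lit 66) (nat_lit 5) (nat_lit 71) (nat_lit 5) (nat_lit 72) (nat_lit 5) (nat_lit 338) (nat_lit 299) (nat_lit 227)) (XT.lf (nat_lit 0) (nat_lit 6474176724) (nat_lit 504) (nat_lit 3660351070) (nat_lit 84) (nat_lit 2198213756) (nat_lit 66) (nat_lit 5) (nat_lit 72) (nat_lit 5) (nat_lit 67) (nat_lit 5) (nat_lit 339) (nat_lit 299) (nat_lit 226))))) (XT.nd (nat_lit 282) (nat_lit 756) (nat_lit 0) (XT.nd (nat_lit 94) (nat_lit 0) (nat_lit 0) (XT.lf (nat_lit 0) (nat_lit 1429240402) (nat_lit 420) (nat_lit 6899248665) (nat_lit 504) (nat_lit 4244668941) (nat_lit 61) (nat_lit 5) (nat_lit 66) (nat_lit 5) (nat_lit 67) (nat_lit 5) (nat_lit 340) (nat_lit 299) (nat_lit 225)) (XT.nd (nat_lit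 94) (nat_lit 0) (nat_lit 0) (XT.lf (nat_lit 0) (nat_lit 6727302678) (nat_lit 420) (nat_lit 3528411322) (nat_lit 504) (nat_lit 2564908336) (nat_lit 61) (nat_lit 5) (nat_lit 66) (nat_lit 5) (nat_lit 67) (nat_lit 5) (nat_lit 341) (nat_lit 299) (nat_lit 224)) (XT.lf (nat_lit 0) (nat_lit 12163509782) (nat_lit 420) (nat_lit 57080349) (nat_lit 504) (nat_lit 855923858) (nat_lit 61) (nat_lit 5) (nat_lit 66) (nat_lit 5) (nat_lit 67) (nat_lit 5) (nat_lit 342) (nat_lit 299) (nat_lit 223)))) (XT.nd (nat_lit 94) (nat_lit 336) (nat_lit 0) (XT.lf (nat_lit 0) (nat_lit 945988727) (nat_lit 420) (nat_lit 8891444177) (nat_lit 84) (nat_lit 3500889262) (nat_lit 56) (nat_lit 5) (nat_lit 61) (nat_lit 5) (nat_lit 57) (nat_lit 5) (nat_lit 343) (nat_lit 299) (nat_lit 222)) (XT.nd (nat_lit 94) (nat_lit 336) (nat_lit 0) (XT.lf (nat_lit 0) (nat_lit 2774834245) (nat_lit 420) (nat_lit 3651360470) (nat_lit 84) (nat_lit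 7182190692) (nat_lit 56) (nat_lit 5) (nat_lit 61) (nat_lit 5) (nat_lit 57) (nat_lit 5) (nat_lit 344) (nat_lit 299) (nat_lit 221)) (XT.lf (nat_lit 0) (nat_lit 1761193220) (nat_lit 336) (nat_lit 2895936236) (nat_lit 420) (nat_lit 9229854617) (nat_lit 52) (nat_lit 5) (nat_lit 56) (nat_lit 5) (nat_lit 57) (nat_lit 5) (nat_lit 345) (nat_lit 299) (nat_lit 220))))))) (XT.nd (nat_lit 1128) (nat_lit 1092) (nat_lit 0) (XT.nd (nat_lit 564) (nat_lit 504) (nat_lit 0) (XT.nd (nat_lit 282) (nat_lit 420) (nat_lit 0) (XT.nd (nat_lit 94) (nat_lit 336) (nat_lit 0) (XT.lf (nat_lit 0) (nat_lit 6623265487) (nat_lit 420) (nat_lit 6787705258) (nat_lit 84) (nat_lit 762519370) (nat_lit 52) (nat_lit 5) (nat_lit 57) (nat_lit 5) (nat_lit 53) (nat_lit 5) (nat_lit 346) (nat_lit 299) (nat_lit 219)) (XT.nd (nat_lit 94) (nat_lit 336) (nat_lit 0) (XT.lf (nat_lit 0) (nat_lit 8660192420) (nat_lit 420) (nat_lit 1338823050)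 (nat_lit 84) (nat_lit 4469616471) (nat_lit 52) (nat_lit 5) (nat_lit 57) (nat_lit 5) (nat_lit 53) (nat_lit 5) (nat_lit 347) (nat_lit 299) (nat_lit 218)) (XT.lf (nat_lit 0) (nat_lit 4342147336) (nat_lit 336) (nat_lit 6442008144) (nat_lit 420) (nat_lit 3988084435) (nat_lit 48) (nat_lit 5) (nat_lit 52) (nat_lit 5) (nat_lit 53) (nat_lit 5) (nat_lit 348) (nat_lit 299) (nat_lit 217)))) (XT.nd (nat_lit 94) (nat_lit 420) (nat_lit 0) (XT.lf (nat_lit 0) (nat_lit 10203544524) (nat_lit 336) (nat_lit 2765546256) (nat_lit 420) (nat_lit 2116375602) (nat_lit 48) (nat_lit 5) (nat_lit 52) (nat_lit 5) (nat_lit 53) (nat_lit 5) (nat_lit 349) (nat_lit 299) (nat_lit 216)) (XT.nd (nat_lit 94) (nat_lit 84) (nat_lit 0) (XT.lf (nat_lit 0) (nat_lit 820697983) (nat_lit 336) (nat_lit 14401040733) (nat_lit 420) (nat_lit 186718765) (nat_lit 44) (nat_lit 5) (nat_lit 48) (nat_lit 5) (nat_lit 49) (nat_lit 5) (nat_lit 350)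 (nat_lit 299) (nat_lit 215)) (XT.lf (nat_lit 0) (nat_lit 1827951332) (nat_lit 420) (nat_lit 9007074518) (nat_lit 84) (nat_lit 4904024872) (nat_lit 43) (nat_lit 5) (nat_lit 48) (nat_lit 5) (nat_lit 44) (nat_lit 5) (nat_lit 351) (nat_lit 299) (nat_lit 214))))) (XT.nd (nat_lit 282) (nat_lit 252) (nat_lit 0) (XT.nd (nat_lit 94) (nat_lit 252) (nat_lit 0) (XT.lf (nat_lit 0) (nat_lit 3883498283) (nat_lit 420) (nat_lit 3278669793) (nat_lit 84) (nat_lit 8918263015) (nat_lit 43) (nat_lit 5) (nat_lit 48) (nat_lit 5) (nat_lit 44) (nat_lit 5) (nat_lit 352) (nat_lit 299) (nat_lit 213)) (XT.nd (nat_lit 94) (nat_lit 0) (nat_lit 0) (XT.lf (nat_lit 0) (nat_lit 2658203293) (nat_lit 252) (nat_lit 3353766449) (nat_lit 336) (nat_lit 10420187008) (nat_lit 40) (nat_lit 5) (nat_lit 43) (nat_lit 5) (nat_lit 44) (nat_lit 5) (nat_lit 353) (nat_lit 299) (nat_lit 212)) (XT.lf (nat_lit 0) (nat_lit 8229748844) (nat_lit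 336) (nat_lit 7974084468) (nat_lit 84) (nat_lit 590275858) (nat_lit 40) (nat_lit 5) (nat_lit 44) (nat_lit 5) (nat_lit 41) (nat_lit 5) (nat_lit 354) (nat_lit 299) (nat_lit 211)))) (XT.nd (nat_lit 94) (nat_lit 252) (nat_lit 0) (XT.lf (nat_lit 0) (nat_lit 10534160462) (nat_lit 336) (nat_lit 2050984268) (nat_lit 84) (nat_lit 4581628008) (nat_lit 40) (nat_lit 5) (nat_lit 44) (nat_lit 5) (nat_lit 41) (nat_lit 5) (nat_lit 355) (nat_lit 299) (nat_lit 210)) (XT.nd (nat_lit 94) (nat_lit 0) (nat_lit 0) (XT.lf (nat_lit 0) (nat_lit 4117088016) (nat_lit 252) (nat_lit 8817836779) (nat_lit 336) (nat_lit 4615335285) (nat_lit 37) (nat_lit 5) (nat_lit 40) (nat_lit 5) (nat_lit 41) (nat_lit 5) (nat_lit 356) (nat_lit 299) (nat_lit 209)) (XT.lf (nat_lit 0) (nat_lit 10498474785) (nat_lit 252) (nat_lit 4917386853) (nat_lit 336) (nat_lit 2529637963) (nat_lit 37) (nat_lit 5) (nat_lit 40) (nat_lit 5) (nat_lit 41)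 (nat_lit 5) (nat_lit 357) (nat_lit 299) (nat_lit 208)))))) (XT.nd (nat_lit 564) (nat_lit 504) (nat_lit 0) (XT.nd (nat_lit 282) (nat_lit 252) (nat_lit 0) (XT.nd (nat_lit 94) (nat_lit 336) (nat_lit 0) (XT.lf (nat_lit 0) (nat_lit 17056951714) (nat_lit 252) (nat_lit 901567397) (nat_lit 336) (nat_lit 394984292) (nat_lit 37) (nat_lit 5) (nat_lit 40) (nat_lit 5) (nat_lit 41) (nat_lit 5) (nat_lit 358) (nat_lit 299) (nat_lit 207)) (XT.nd (nat_lit 94) (nat_lit 0) (nat_lit 0) (XT.lf (nat_lit 0) (nat_lit 1837997417) (nat_lit 336) (nat_lit 13696150200) (nat_lit 84) (nat_lit 3237366286) (nat_lit 33) (nat_lit 5) (nat_lit 37) (nat_lit 5) (nat_lit 34) (nat_lit 5) (nat_lit 359) (nat_lit 299) (nat_lit 206)) (XT.lf (nat_lit 0) (nat_lit 4140160594) (nat_lit 336) (nat_lit 7563852353) (nat_lit 84) (nat_lit 7498128897) (nat_lit 33) (nat_lit 5) (nat_lit 37) (nat_lit 5) (nat_lit 34) (nat_lit 5) (nat_lit 360)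 (nat_lit 299) (nat_lit 205)))) (XT.nd (nat_lit 94) (nat_lit 252) (nat_lit 0) (XT.lf (nat_lit 0) (nat_lit 6499404815) (nat_lit 336) (nat_lit 1261516084) (nat_lit 84) (nat_lit 11885677519) (nat_lit 33) (nat_lit 5) (nat_lit 37) (nat_lit 5) (nat_lit 34) (nat_lit 5) (nat_lit 361) (nat_lit 299) (nat_lit 204)) (XT.nd (nat_lit 94) (nat_lit 0) (nat_lit 0) (XT.lf (nat_lit 0) (nat_lit 5323999777) (nat_lit 252) (nat_lit 3646744102) (nat_lit 336) (nat_lit 11132916767) (nat_lit 30) (nat_lit 5) (nat_lit 33) (nat_lit 5) (nat_lit 34) (nat_lit 5) (nat_lit 362) (nat_lit 299) (nat_lit 203)) (XT.lf (nat_lit 0) (nat_lit 11524212183) (nat_lit 336) (nat_lit 8459773764) (nat_lit 84) (nat_lit 590768954) (nat_lit 30) (nat_lit 5) (nat_lit 34) (nat_lit 5) (nat_lit 31) (nat_lit 5) (nat_lit 363) (nat_lit 299) (nat_lit 202))))) (XT.nd (nat_lit 282) (nat_lit 336) (nat_lit 0) (XT.nd (nat_lit 94) (nat_lit 168) (nat_lit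 0) (XT.lf (nat_lit 0) (nat_lit 14180860369) (nat_lit 336) (nat_lit 2000339929) (nat_lit 84) (nat_lit 4878541210) (nat_lit 30) (nat_lit 5) (nat_lit 34) (nat_lit 5) (nat_lit 31) (nat_lit 5) (nat_lit 364) (nat_lit 299) (nat_lit 201)) (XT.nd (nat_lit 94) (nat_lit 0) (nat_lit 0) (XT.lf (nat_lit 0) (nat_lit 4736262796) (nat_lit 168) (nat_lit 12217710073) (nat_lit 252) (nat_lit 4604764602) (nat_lit 28) (nat_lit 5) (nat_lit 30) (nat_lit 5) (nat_lit 31) (nat_lit 5) (nat_lit 365) (nat_lit 299) (nat_lit 200)) (XT.lf (nat_lit 0) (nat_lit 11705794947) (nat_lit 168) (nat_lit 8115465771) (nat_lit 252) (nat_lit 2251718277) (nat_lit 28) (nat_lit 5) (nat_lit 30) (nat_lit 5) (nat_lit 31) (nat_lit 5) (nat_lit 366) (nat_lit 299) (nat_lit 199)))) (XT.nd (nat_lit 94) (nat_lit 252) (nat_lit 0) (XT.lf (nat_lit 0) (nat_lit 158316364) (nat_lit 252) (nat_lit 3731554254) (nat_lit 84) (nat_lit 18713652903) (nat_lit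 27) (nat_lit 5) (nat_lit 30) (nat_lit 5) (nat_lit 28) (nat_lit 5) (nat_lit 367) (nat_lit 299) (nat_lit 198)) (XT.nd (nat_lit 94) (nat_lit 0) (nat_lit 0) (XT.lf (nat_lit 0) (nat_lit 2620420594) (nat_lit 336) (nat_lit 20022012848) (nat_lit 84) (nat_lit 506647902) (nat_lit 24) (nat_lit 5) (nat_lit 28) (nat_lit 5) (nat_lit 25) (nat_lit 5) (nat_lit 368) (nat_lit 299) (nat_lit 197)) (XT.lf (nat_lit 0) (nat_lit 5226048727) (nat_lit 336) (nat_lit 13490779107) (nat_lit 84) (nat_lit 4992668047) (nat_lit 24) (nat_lit 5) (nat_lit 28) (nat_lit 5) (nat_lit 25) (nat_lit 5) (nat_lit 369) (nat_lit 299) (nat_lit 196))))))))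
noncomputable def xc115 : XT := (XT.nd (nat_lit 2256) (nat_lit 420) (nat_lit 0) (XT.nd (nat_lit 1128) (nat_lit 504) (nat_lit 0) (XT.nd (nat_lit 564) (nat_lit 252) (nat_lit 0) (XT.nd (nat_lit 282) (nat_lit 168) (nat_lit 0) (XT.nd (nat_lit 94) (nat_lit 168) (nat_lit 0) (XT.lf (nat_lit 0) (nat_lit 7900876462) (nat_lit 336) (nat_lit 6774213920) (nat_lit 84) (nat_lit 9612578455) (nat_lit 24) (nat_lit 5) (nat_lit 28) (nat_lit 5) (nat_lit 25) (nat_lit 5) (nat_lit 370) (nat_lit 299) (nat_lit 195)) (XT.nd (nat_lit 94) (nat_lit 0) (nat_lit 0) (XT.lf (nat_lit 0) (nat_lit 136697402) (nat_lit 168) (nat_lit 10512055671) (nat_lit 252) (nat_lit 14235344022) (nat_lit 22) (nat_lit 5) (nat_lit 24) (nat_lit 5) (nat_lit 25) (nat_lit 5) (nat_lit 371) (nat_lit 299) (nat_lit 194)) (XT.lf (nat_lit 0) (nat_lit 7389003496) (nat_lit 168) (nat_lit 6152466773) (nat_lit 252) (nat_lit 11955720175) (nat_lit 22) (nat_lit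 5) (nat_lit 24) (nat_lit 5) (nat_lit 25) (nat_lit 5) (nat_lit 372) (nat_lit 299) (nat_lit 193)))) (XT.nd (nat_lit 94) (nat_lit 168) (nat_lit 0) (XT.lf (nat_lit 0) (nat_lit 14850172539) (nat_lit 168) (nat_lit 1662968995) (nat_lit 252) (nat_lit 9616504886) (nat_lit 22) (nat_lit 5) (nat_lit 24) (nat_lit 5) (nat_lit 25) (nat_lit 5) (nat_lit 373) (nat_lit 299) (nat_lit 192)) (XT.nd (nat_lit 94) (nat_lit 168) (nat_lit 0) (XT.lf (nat_lit 0) (nat_lit 19595906518) (nat_lit 252) (nat_lit 4284265156) (nat_lit 84) (nat_lit 2900972402) (nat_lit 22) (nat_lit 5) (nat_lit 25) (nat_lit 5) (nat_lit 23) (nat_lit 5) (nat_lit 374) (nat_lit 299) (nat_lit 191)) (XT.lf (nat_lit 0) (nat_lit 2955023919) (nat_lit 168) (nat_lit 19855401682) (nat_lit 252) (nat_lit 4641313682) (nat_lit 20) (nat_lit 5) (nat_lit 22) (nat_lit 5) (nat_lit 23) (nat_lit 5) (nat_lit 375) (nat_lit 299) (nat_lit 190))))) (XT.nd (nat_lit 282)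 (nat_lit 168) (nat_lit 0) (XT.nd (nat_lit 94) (nat_lit 84) (nat_lit 0) (XT.lf (nat_lit 0) (nat_lit 10494410021) (nat_lit 168) (nat_lit 15664924087) (nat_lit 252) (nat_lit 1982734185) (nat_lit 20) (nat_lit 5) (nat_lit 22) (nat_lit 5) (nat_lit 23) (nat_lit 5) (nat_lit 376) (nat_lit 299) (nat_lit 189)) (XT.nd (nat_lit 94) (nat_lit 0) (nat_lit 0) (XT.lf (nat_lit 0) (nat_lit 733184292) (nat_lit 252) (nat_lit 10608714635) (nat_lit 84) (nat_lit 17511990135) (nat_lit 19) (nat_lit 5) (nat_lit 22) (nat_lit 5) (nat_lit 20) (nat_lit 5) (nat_lit 377) (nat_lit 299) (nat_lit 188)) (XT.lf (nat_lit 0) (nat_lit 3482605137) (nat_lit 252) (nat_lit 3386306253) (nat_lit 84) (nat_lit 22718551225) (nat_lit 19) (nat_lit 5) (nat_lit 22) (nat_lit 5) (nat_lit 20) (nat_lit 5) (nat_lit 378) (nat_lit 299) (nat_lit 187)))) (XT.nd (nat_lit 94) (nat_lit 0) (nat_lit 0) (XT.lf (nat_lit 0) (nat_lit 4129161280) (nat_lit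 168) (nat_lit 2219839283) (nat_lit 252) (nat_lit 23993812078) (nat_lit 17) (nat_lit 5) (nat_lit 19) (nat_lit 5) (nat_lit 20) (nat_lit 5) (nat_lit 379) (nat_lit 299) (nat_lit 186)) (XT.nd (nat_lit 94) (nat_lit 0) (nat_lit 0) (XT.lf (nat_lit 0) (nat_lit 9356362341) (nat_lit 252) (nat_lit 19211115848) (nat_lit 84) (nat_lit 2552504097) (nat_lit 17) (nat_lit 5) (nat_lit 20) (nat_lit 5) (nat_lit 18) (nat_lit 5) (nat_lit 380) (nat_lit 299) (nat_lit 185)) (XT.lf (nat_lit 0) (nat_lit 12470803014) (nat_lit 252) (nat_lit 12027920096) (nat_lit 84) (nat_lit 7422110254) (nat_lit 17) (nat_lit 5) (nat_lit 20) (nat_lit 5) (nat_lit 18) (nat_lit 5) (nat_lit 381) (nat_lit 299) (nat_lit 184)))))) (XT.nd (nat_lit 564) (nat_lit 336) (nat_lit 0) (XT.nd (nat_lit 282) (nat_lit 0) (nat_lit 0) (XT.nd (nat_lit 94) (nat_lit 168) (nat_lit 0) (XT.lf (nat_lit 0) (nat_lit 15673204487) (nat_lit 252) (nat_lit 4635347533)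 (nat_lit 84) (nat_lit 12438242983) (nat_lit 17) (nat_lit 5) (nat_lit 20) (nat_lit 5) (nat_lit 18) (nat_lit 5) (nat_lit 382) (nat_lit 299) (nat_lit 183)) (XT.nd (nat_lit 94) (nat_lit 0) (nat_lit 0) (XT.lf (nat_lit 0) (nat_lit 3034633595) (nat_lit 168) (nat_lit 15962022079) (nat_lit 252) (nat_lit 14601048192) (nat_lit 15) (nat_lit 5) (nat_lit 17) (nat_lit 5) (nat_lit 18) (nat_lit 5) (nat_lit 383) (nat_lit 299) (nat_lit 182)) (XT.lf (nat_lit 0) (nat_lit 11027879408) (nat_lit 168) (nat_lit 11435433019) (nat_lit 252) (nat_lit 12010449862) (nat_lit 15) (nat_lit 5) (nat_lit 17) (nat_lit 5) (nat_lit 18) (nat_lit 5) (nat_lit 384) (nat_lit 299) (nat_lit 181)))) (XT.nd (nat_lit 94) (nat_lit 0) (nat_lit 0) (XT.lf (nat_lit 0) (nat_lit 19256528196) (nat_lit 168) (nat_lit 6772949107) (nat_lit 252) (nat_lit 9347764338) (nat_lit 15) (nat_lit 5) (nat_lit 17) (nat_lit 5) (nat_lit 18) (nat_lit 5) (nat_lit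 385) (nat_lit 299) (nat_lit 180)) (XT.nd (nat_lit 94) (nat_lit 0) (nat_lit 0) (XT.lf (nat_lit 0) (nat_lit 27728249920) (nat_lit 168) (nat_lit 1970224419) (nat_lit 252) (nat_lit 6610509720) (nat_lit 15) (nat_lit 5) (nat_lit 17) (nat_lit 5) (nat_lit 18) (nat_lit 5) (nat_lit 386) (nat_lit 299) (nat_lit 179)) (XT.lf (nat_lit 0) (nat_lit 33503257794) (nat_lit 252) (nat_lit 848451279) (nat_lit 84) (nat_lit 2917233385) (nat_lit 15) (nat_lit 5) (nat_lit 18) (nat_lit 5) (nat_lit 16) (nat_lit 4) (nat_lit 387) (nat_lit 299) (nat_lit 178))))) (XT.nd (nat_lit 282) (nat_lit 168) (nat_lit 0) (XT.nd (nat_lit 94) (nat_lit 84) (nat_lit 0) (XT.lf (nat_lit 0) (nat_lit 7237701654) (nat_lit 84) (nat_lit 30272935701) (nat_lit 168) (nat_lit 745413107) (nat_lit 14) (nat_lit 5) (nat_lit 15) (nat_lit 5) (nat_lit 16) (nat_lit 4) (nat_lit 388) (nat_lit 299) (nat_lit 177)) (XT.nd (nat_lit 94) (nat_lit 0) (nat_lit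 0) (XT.lf (nat_lit 0) (nat_lit 2322430732) (nat_lit 168) (nat_lit 23716109358) (nat_lit 84) (nat_lit 13234452876) (nat_lit 13) (nat_lit 5) (nat_lit 15) (nat_lit 5) (nat_lit 14) (nat_lit 5) (nat_lit 389) (nat_lit 299) (nat_lit 176)) (XT.lf (nat_lit 0) (nat_lit 5462829664) (nat_lit 168) (nat_lit 16206327869) (nat_lit 84) (nat_lit 18652299468) (nat_lit 13) (nat_lit 5) (nat_lit 15) (nat_lit 5) (nat_lit 14) (nat_lit 5) (nat_lit 390) (nat_lit 299) (nat_lit 175)))) (XT.nd (nat_lit 94) (nat_lit 168) (nat_lit 0) (XT.lf (nat_lit 0) (nat_lit 8693729279) (nat_lit 168) (nat_lit 8474609849) (nat_lit 84) (nat_lit 24234309949) (nat_lit 13) (nat_lit 5) (nat_lit 15) (nat_lit 5) (nat_lit 14) (nat_lit 5) (nat_lit 391) (nat_lit 299) (nat_lit 174)) (XT.nd (nat_lit 94) (nat_lit 168) (nat_lit 0) (XT.lf (nat_lit 0) (nat_lit 12018141116) (nat_lit 168) (nat_lit 513748526) (nat_lit 84) (nat_lit 29985687337) (nat_lit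 13) (nat_lit 5) (nat_lit 15) (nat_lit 5) (nat_lit 14) (nat_lit 5) (nat_lit 392) (nat_lit 299) (nat_lit 173)) (XT.lf (nat_lit 0) (nat_lit 7841668602) (nat_lit 168) (nat_lit 7675285595) (nat_lit 252) (nat_lit 28147914239) (nat_lit 11) (nat_lit 5) (nat_lit 13) (nat_lit 5) (nat_lit 14) (nat_lit 5) (nat_lit 393) (nat_lit 299) (nat_lit 172))))))) (XT.nd (nat_lit 1128) (nat_lit 84) (nat_lit 0) (XT.nd (nat_lit 564) (nat_lit 252) (nat_lit 0) (XT.nd (nat_lit 282) (nat_lit 84) (nat_lit 0) (XT.nd (nat_lit 94) (nat_lit 0) (nat_lit 0) (XT.lf (nat_lit 0) (nat_lit 16456875317) (nat_lit 168) (nat_lit 2666365228) (nat_lit 252) (nat_lit 25724528166) (nat_lit 11) (nat_lit 5) (nat_lit 13) (nat_lit 5) (nat_lit 14) (nat_lit 5) (nat_lit 394) (nat_lit 299) (nat_lit 171)) (XT.nd (nat_lit 94) (nat_lit 0) (nat_lit 0) (XT.lf (nat_lit 0) (nat_lit 22859902907) (nat_lit 252) (nat_lit 20762946011) (nat_lit 84) (nat_lit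 2443925692) (nat_lit 11) (nat_lit 5) (nat_lit 14) (nat_lit 5) (nat_lit 12) (nat_lit 4) (nat_lit 395) (nat_lit 299) (nat_lit 170)) (XT.lf (nat_lit 0) (nat_lit 26733661135) (nat_lit 252) (nat_lit 12935484529) (nat_lit 84) (nat_lit 7653776368) (nat_lit 11) (nat_lit 5) (nat_lit 14) (nat_lit 5) (nat_lit 12) (nat_lit 4) (nat_lit 396) (nat_lit 299) (nat_lit 169)))) (XT.nd (nat_lit 94) (nat_lit 84) (nat_lit 0) (XT.lf (nat_lit 0) (nat_lit 30721675303) (nat_lit 252) (nat_lit 4874762262) (nat_lit 84) (nat_lit 13021764241) (nat_lit 11) (nat_lit 5) (nat_lit 14) (nat_lit 5) (nat_lit 12) (nat_lit 4) (nat_lit 397) (nat_lit 299) (nat_lit 168)) (XT.nd (nat_lit 94) (nat_lit 0) (nat_lit 0) (XT.lf (nat_lit 0) (nat_lit 3497194910) (nat_lit 84) (nat_lit 31365160354) (nat_lit 168) (nat_lit 15090390535) (nat_lit 10) (nat_lit 5) (nat_lit 11) (nat_lit 5) (nat_lit 12) (nat_lit 4) (nat_lit 398) (nat_lit 299) (nat_lit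 167)) (XT.lf (nat_lit 0) (nat_lit 12223009199) (nat_lit 84) (nat_lit 26953694977) (nat_lit 168) (nat_lit 12150562319) (nat_lit 10) (nat_lit 5) (nat_lit 11) (nat_lit 5) (nat_lit 12) (nat_lit 4) (nat_lit 399) (nat_lit 299) (nat_lit 166))))) (XT.nd (nat_lit 282) (nat_lit 252) (nat_lit 0) (XT.nd (nat_lit 94) (nat_lit 0) (nat_lit 0) (XT.lf (nat_lit 0) (nat_lit 21210578866) (nat_lit 84) (nat_lit 22408812006) (nat_lit 168) (nat_lit 9125184148) (nat_lit 10) (nat_lit 5) (nat_lit 11) (nat_lit 5) (nat_lit 12) (nat_lit 4) (nat_lit 400) (nat_lit 299) (nat_lit 165)) (XT.nd (nat_lit 94) (nat_lit 0) (nat_lit 0) (XT.lf (nat_lit 0) (nat_lit 30468281267) (nat_lit 84) (nat_lit 17726275135) (nat_lit 168) (nat_lit 6011436052) (nat_lit 10) (nat_lit 5) (nat_lit 11) (nat_lit 5) (nat_lit 12) (nat_lit 4) (nat_lit 401) (nat_lit 299) (nat_lit 164)) (XT.lf (nat_lit 0) (nat_lit 40004745552) (nat_lit 84) (nat_lit 12901719748)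 (nat_lit 168) (nat_lit 2806415692) (nat_lit 10) (nat_lit 5) (nat_lit 11) (nat_lit 5) (nat_lit 12) (nat_lit 4) (nat_lit 402) (nat_lit 299) (nat_lit 163)))) (XT.nd (nat_lit 94) (nat_lit 168) (nat_lit 0) (XT.lf (nat_lit 0) (nat_lit 482934227) (nat_lit 168) (nat_lit 7442673784) (nat_lit 84) (nat_lit 49340885633) (nat_lit 9) (nat_lit 5) (nat_lit 11) (nat_lit 5) (nat_lit 10) (nat_lit 5) (nat_lit 403) (nat_lit 299) (nat_lit 162)) (XT.nd (nat_lit 94) (nat_lit 0) (nat_lit 0) (XT.lf (nat_lit 0) (nat_lit 1063901569) (nat_lit 168) (nat_lit 2757767462) (nat_lit 252) (nat_lit 55045541071) (nat_lit 7) (nat_lit 5) (nat_lit 9) (nat_lit 5) (nat_lit 10) (nat_lit 5) (nat_lit 404) (nat_lit 299) (nat_lit 161)) (XT.lf (nat_lit 0) (nat_lit 7363078588) (nat_lit 252) (nat_lit 50557366043) (nat_lit 84) (nat_lit 2594038130) (nat_lit 7) (nat_lit 5) (nat_lit 10) (nat_lit 5) (nat_lit 8) (nat_lit 4) (nat_lit 405) (nat_lit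 299) (nat_lit 160)))))) (XT.nd (nat_lit 564) (nat_lit 84) (nat_lit 0) (XT.nd (nat_lit 282) (nat_lit 0) (nat_lit 0) (XT.nd (nat_lit 94) (nat_lit 0) (nat_lit 0) (XT.lf (nat_lit 0) (nat_lit 11037817487) (nat_lit 252) (nat_lit 43122662494) (nat_lit 84) (nat_lit 8051619109) (nat_lit 7) (nat_lit 5) (nat_lit 10) (nat_lit 5) (nat_lit 8) (nat_lit 4) (nat_lit 406) (nat_lit 299) (nat_lit 159)) (XT.nd (nat_lit 94) (nat_lit 0) (nat_lit 0) (XT.lf (nat_lit 0) (nat_lit 14821953576) (nat_lit 252) (nat_lit 35464910570) (nat_lit 84) (nat_lit 13675625378) (nat_lit 7) (nat_lit 5) (nat_lit 10) (nat_lit 5) (nat_lit 8) (nat_lit 4) (nat_lit 407) (nat_lit 299) (nat_lit 158)) (XT.lf (nat_lit 0) (nat_lit 18719014066) (nat_lit 252) (nat_lit 27576972444) (nat_lit 84) (nat_lit 19471299101) (nat_lit 7) (nat_lit 5) (nat_lit 10) (nat_lit 5) (nat_lit 8) (nat_lit 4) (nat_lit 408) (nat_lit 299) (nat_lit 157)))) (XT.nd (nat_lit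 94) (nat_lit 0) (nat_lit 0) (XT.lf (nat_lit 0) (nat_lit 22732631426) (nat_lit 252) (nat_lit 19451495731) (nat_lit 84) (nat_lit 25444042453) (nat_lit 7) (nat_lit 5) (nat_lit 10) (nat_lit 5) (nat_lit 8) (nat_lit 4) (nat_lit 409) (nat_lit 299) (nat_lit 156)) (XT.nd (nat_lit 94) (nat_lit 0) (nat_lit 0) (XT.lf (nat_lit 0) (nat_lit 26866546767) (nat_lit 252) (nat_lit 11080906636) (nat_lit 84) (nat_lit 31599422656) (nat_lit 7) (nat_lit 5) (nat_lit 10) (nat_lit 5) (nat_lit 8) (nat_lit 4) (nat_lit 410) (nat_lit 299) (nat_lit 155)) (XT.lf (nat_lit 0) (nat_lit 31124613332) (nat_lit 252) (nat_lit 2457402892) (nat_lit 84) (nat_lit 37943177169) (nat_lit 7) (nat_lit 5) (nat_lit 10) (nat_lit 5) (nat_lit 8) (nat_lit 4) (nat_lit 411) (nat_lit 299) (nat_lit 154))))) (XT.nd (nat_lit 282) (nat_lit 0) (nat_lit 0) (XT.nd (nat_lit 94) (nat_lit 0) (nat_lit 0) (XT.lf (nat_lit 0) (nat_lit 6559206908) (nat_lit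 84) (nat_lit 29016661320) (nat_lit 168) (nat_lit 37987080271) (nat_lit 6) (nat_lit 5) (nat_lit 7) (nat_lit 5) (nat_lit 8) (nat_lit 4) (nat_lit 412) (nat_lit 299) (nat_lit 153)) (XT.nd (nat_lit 94) (nat_lit 0) (nat_lit 0) (XT.lf (nat_lit 0) (nat_lit 15901115856) (nat_lit 84) (nat_lit 24285820592) (nat_lit 168) (nat_lit 35476267578) (nat_lit 6) (nat_lit 5) (nat_lit 7) (nat_lit 5) (nat_lit 8) (nat_lit 4) (nat_lit 413) (nat_lit 299) (nat_lit 152)) (XT.lf (nat_lit 0) (nat_lit 25526502343) (nat_lit 84) (nat_lit 19410734647) (nat_lit 168) (nat_lit 32891451888) (nat_lit 6) (nat_lit 5) (nat_lit 7) (nat_lit 5) (nat_lit 8) (nat_lit 4) (nat_lit 414) (nat_lit 299) (nat_lit 151)))) (XT.nd (nat_lit 94) (nat_lit 0) (nat_lit 0) (XT.lf (nat_lit 0) (nat_lit 35444338239) (nat_lit 84) (nat_lit 14386859394) (nat_lit 168) (nat_lit 30230223881) (nat_lit 6) (nat_lit 5) (nat_lit 7) (nat_lit 5) (nat_lit 8) (nat_lit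 4) (nat_lit 415) (nat_lit 299) (nat_lit 150)) (XT.nd (nat_lit 43334) (nat_lit 0) (nat_lit 13860) (XT.lf (nat_lit 0) (nat_lit 45663868004) (nat_lit 84) (nat_lit 9209512057) (nat_lit 168) (nat_lit 27490103015) (nat_lit 6) (nat_lit 5) (nat_lit 7) (nat_lit 5) (nat_lit 8) (nat_lit 4) (nat_lit 416) (nat_lit 299) (nat_lit 149)) (XT.lf (nat_lit 0) (nat_lit 1035424855) (nat_lit 756) (nat_lit 1265978191) (nat_lit 756) (nat_lit 1265978191) (nat_lit 171) (nat_lit 3) (nat_lit 180) (nat_lit 3) (nat_lit 180) (nat_lit 5) (nat_lit 300) (nat_lit 300) (nat_lit 264))))))))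
noncomputable def xc116 : XT := (XT.nd (nat_lit 2256) (nat_lit 4704) (nat_lit 0) (XT.nd (nat_lit 1128) (nat_lit 3864) (nat_lit 0) (XT.nd (nat_lit 564) (nat_lit 756) (nat_lit 0) (XT.nd (nat_lit 282) (nat_lit 672) (nat_lit 0) (XT.nd (nat_lit 94) (nat_lit 0) (nat_lit 0) (XT.lf (nat_lit 84) (nat_lit 325956704) (nat_lit 0) (nat_lit 3222573733) (nat_lit 756) (nat_lit 3645042021) (nat_lit 172) (nat_lit 5) (nat_lit 171) (nat_lit 3) (nat_lit 180) (nat_lit 5) (nat_lit 301) (nat_lit 300) (nat_lit 263)) (XT.nd (nat_lit 94) (nat_lit 0) (nat_lit 0) (XT.lf (nat_lit 84) (nat_lit 3295420969) (nat_lit 0) (nat_lit 1744601742) (nat_lit 756) (nat_lit 2215455422) (nat_lit 172) (nat_lit 5) (nat_lit 171) (nat_lit 3) (nat_lit 180) (nat_lit 5) (nat_lit 302) (nat_lit 300) (nat_lit 262)) (XT.lf (nat_lit 84) (nat_lit 6327142048) (nat_lit 0) (nat_lit 193940928) (nat_lit 756) (nat_lit 800248874) (nat_lit 172) (nat_lit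 5) (nat_lit 171) (nat_lit 3) (nat_lit 180) (nat_lit 5) (nat_lit 303) (nat_lit 300) (nat_lit 261)))) (XT.nd (nat_lit 94) (nat_lit 0) (nat_lit 0) (XT.lf (nat_lit 0) (nat_lit 624754374) (nat_lit 756) (nat_lit 5336384287) (nat_lit 840) (nat_lit 1428786714) (nat_lit 163) (nat_lit 5) (nat_lit 172) (nat_lit 5) (nat_lit 173) (nat_lit 5) (nat_lit 304) (nat_lit 300) (nat_lit 260)) (XT.nd (nat_lit 94) (nat_lit 0) (nat_lit 0) (XT.lf (nat_lit 0) (nat_lit 2035613301) (nat_lit 756) (nat_lit 2285944192) (nat_lit 840) (nat_lit 3140375091) (nat_lit 163) (nat_lit 5) (nat_lit 172) (nat_lit 5) (nat_lit 173) (nat_lit 5) (nat_lit 305) (nat_lit 300) (nat_lit 259)) (XT.lf (nat_lit 84) (nat_lit 844875133) (nat_lit 0) (nat_lit 2601180198) (nat_lit 840) (nat_lit 4091726399) (nat_lit 164) (nat_lit 5) (nat_lit 163) (nat_lit 5) (nat_lit 173) (nat_lit 5) (nat_lit 306) (nat_lit 300) (nat_lit 258))))) (XT.nd (nat_lit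 282) (nat_lit 756) (nat_lit 0) (XT.nd (nat_lit 94) (nat_lit 0) (nat_lit 84) (XT.lf (nat_lit 84) (nat_lit 4090319854) (nat_lit 0) (nat_lit 782500161) (nat_lit 840) (nat_lit 2744245326) (nat_lit 164) (nat_lit 5) (nat_lit 163) (nat_lit 5) (nat_lit 173) (nat_lit 5) (nat_lit 307) (nat_lit 300) (nat_lit 257)) (XT.nd (nat_lit 94) (nat_lit 0) (nat_lit 0) (XT.lf (nat_lit 0) (nat_lit 6305128439) (nat_lit 756) (nat_lit 305197718) (nat_lit 840) (nat_lit 1089906534) (nat_lit 164) (nat_lit 5) (nat_lit 173) (nat_lit 5) (nat_lit 174) (nat_lit 5) (nat_lit 308) (nat_lit 300) (nat_lit 256)) (XT.lf (nat_lit 84) (nat_lit 3038467173) (nat_lit 0) (nat_lit 4733481162) (nat_lit 840) (nat_lit 14556351) (nat_lit 165) (nat_lit 5) (nat_lit 164) (nat_lit 5) (nat_lit 174) (nat_lit 5) (nat_lit 309) (nat_lit 300) (nat_lit 255)))) (XT.nd (nat_lit 94) (nat_lit 0) (nat_lit 0) (XT.lf (nat_lit 0) (nat_lit 1336039267) (nat_lit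 840) (nat_lit 1428942410) (nat_lit 924) (nat_lit 5111618367) (nat_lit 154) (nat_lit 5) (nat_lit 164) (nat_lit 5) (nat_lit 165) (nat_lit 5) (nat_lit 310) (nat_lit 300) (nat_lit 254)) (XT.nd (nat_lit 94) (nat_lit 0) (nat_lit 84) (XT.lf (nat_lit 84) (nat_lit 2002358297) (nat_lit 0) (nat_lit 699553524) (nat_lit 924) (nat_lit 5268587510) (nat_lit 155) (nat_lit 5) (nat_lit 154) (nat_lit 5) (nat_lit 165) (nat_lit 5) (nat_lit 311) (nat_lit 300) (nat_lit 253)) (XT.lf (nat_lit 0) (nat_lit 4094454540) (nat_lit 840) (nat_lit 2543165771) (nat_lit 924) (nat_lit 1430369603) (nat_lit 155) (nat_lit 5) (nat_lit 165) (nat_lit 5) (nat_lit 166) (nat_lit 5) (nat_lit 312) (nat_lit 300) (nat_lit 252)))))) (XT.nd (nat_lit 564) (nat_lit 2184) (nat_lit 0) (XT.nd (nat_lit 282) (nat_lit 1764) (nat_lit 0) (XT.nd (nat_lit 94) (nat_lit 0) (nat_lit 0) (XT.lf (nat_lit 84) (nat_lit 969020395) (nat_lit 0) (nat_lit 4534339587)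 (nat_lit 924) (nat_lit 2666162453) (nat_lit 156) (nat_lit 5) (nat_lit 155) (nat_lit 5) (nat_lit 166) (nat_lit 5) (nat_lit 313) (nat_lit 300) (nat_lit 251)) (XT.nd (nat_lit 94) (nat_lit 0) (nat_lit 0) (XT.lf (nat_lit 84) (nat_lit 4612983175) (nat_lit 0) (nat_lit 2326932560) (nat_lit 924) (nat_lit 1334966593) (nat_lit 156) (nat_lit 5) (nat_lit 155) (nat_lit 5) (nat_lit 166) (nat_lit 5) (nat_lit 314) (nat_lit 300) (nat_lit 250)) (XT.lf (nat_lit 84) (nat_lit 8339826420) (nat_lit 0) (nat_lit 39887129) (nat_lit 924) (nat_lit 5252414) (nat_lit 156) (nat_lit 5) (nat_lit 155) (nat_lit 5) (nat_lit 166) (nat_lit 5) (nat_lit 315) (nat_lit 300) (nat_lit 249)))) (XT.nd (nat_lit 94) (nat_lit 924) (nat_lit 0) (XT.lf (nat_lit 0) (nat_lit 1358005811) (nat_lit 924) (nat_lit 4807083170) (nat_lit 84) (nat_lit 2332505284) (nat_lit 145) (nat_lit 5) (nat_lit 156) (nat_lit 5) (nat_lit 146) (nat_lit 5) (nat_lit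 316) (nat_lit 300) (nat_lit 248)) (XT.nd (nat_lit 94) (nat_lit 924) (nat_lit 0) (XT.lf (nat_lit 0) (nat_lit 2724694611) (nat_lit 924) (nat_lit 1102607147) (nat_lit 84) (nat_lit 4787773004) (nat_lit 145) (nat_lit 5) (nat_lit 156) (nat_lit 5) (nat_lit 146) (nat_lit 5) (nat_lit 317) (nat_lit 300) (nat_lit 247)) (XT.lf (nat_lit 0) (nat_lit 2741521197) (nat_lit 924) (nat_lit 1381011381) (nat_lit 1008) (nat_lit 4614169489) (nat_lit 134) (nat_lit 5) (nat_lit 145) (nat_lit 5) (nat_lit 146) (nat_lit 5) (nat_lit 318) (nat_lit 300) (nat_lit 246))))) (XT.nd (nat_lit 282) (nat_lit 1176) (nat_lit 0) (XT.nd (nat_lit 94) (nat_lit 1008) (nat_lit 0) (XT.lf (nat_lit 0) (nat_lit 5549165920) (nat_lit 1008) (nat_lit 2176493082) (nat_lit 84) (nat_lit 1137043905) (nat_lit 134) (nat_lit 5) (nat_lit 146) (nat_lit 5) (nat_lit 135) (nat_lit 5) (nat_lit 319) (nat_lit 300) (nat_lit 245)) (XT.nd (nat_lit 94) (nat_lit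 0) (nat_lit 0) (XT.lf (nat_lit 0) (nat_lit 1751174513) (nat_lit 1008) (nat_lit 5263989557) (nat_lit 1092) (nat_lit 1977744229) (nat_lit 122) (nat_lit 5) (nat_lit 134) (nat_lit 5) (nat_lit 135) (nat_lit 5) (nat_lit 320) (nat_lit 300) (nat_lit 244)) (XT.lf (nat_lit 0) (nat_lit 5816492403) (nat_lit 1008) (nat_lit 2697269818) (nat_lit 1092) (nat_lit 613929459) (nat_lit 122) (nat_lit 5) (nat_lit 134) (nat_lit 5) (nat_lit 135) (nat_lit 5) (nat_lit 321) (nat_lit 300) (nat_lit 243)))) (XT.nd (nat_lit 94) (nat_lit 0) (nat_lit 0) (XT.lf (nat_lit 0) (nat_lit 717588587) (nat_lit 1092) (nat_lit 30749404) (nat_lit 1176) (nat_lit 8519070469) (nat_lit 108) (nat_lit 5) (nat_lit 121) (nat_lit 5) (nat_lit 122) (nat_lit 5) (nat_lit 322) (nat_lit 300) (nat_lit 242)) (XT.nd (nat_lit 94) (nat_lit 0) (nat_lit 0) (XT.lf (nat_lit 0) (nat_lit 2167780449) (nat_lit 1176) (nat_lit 4533642194) (nat_lit 84) (nat_lit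 2709111391) (nat_lit 108) (nat_lit 5) (nat_lit 122) (nat_lit 5) (nat_lit 109) (nat_lit 5) (nat_lit 323) (nat_lit 300) (nat_lit 241)) (XT.lf (nat_lit 0) (nat_lit 3598382659) (nat_lit 1176) (nat_lit 423463710) (nat_lit 84) (nat_lit 5537395175) (nat_lit 108) (nat_lit 5) (nat_lit 122) (nat_lit 5) (nat_lit 109) (nat_lit 5) (nat_lit 324) (nat_lit 300) (nat_lit 240))))))) (XT.nd (nat_lit 1128) (nat_lit 1596) (nat_lit 0) (XT.nd (nat_lit 564) (nat_lit 1428) (nat_lit 0) (XT.nd (nat_lit 282) (nat_lit 588) (nat_lit 0) (XT.nd (nat_lit 94) (nat_lit 588) (nat_lit 0) (XT.lf (nat_lit 0) (nat_lit 3862676045) (nat_lit 504) (nat_lit 1216815235) (nat_lit 588) (nat_lit 4632999914) (nat_lit 102) (nat_lit 5) (nat_lit 108) (nat_lit 5) (nat_lit 109) (nat_lit 5) (nat_lit 325) (nat_lit 300) (nat_lit 239)) (XT.nd (nat_lit 94) (nat_lit 588) (nat_lit 0) (XT.lf (nat_lit 0) (nat_lit 6596141278) (nat_lit 588) (nat_lit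 1626456587) (nat_lit 84) (nat_lit 1648334674) (nat_lit 102) (nat_lit 5) (nat_lit 109) (nat_lit 5) (nat_lit 103) (nat_lit 5) (nat_lit 326) (nat_lit 300) (nat_lit 238)) (XT.lf (nat_lit 0) (nat_lit 2741417242) (nat_lit 588) (nat_lit 5427520158) (nat_lit 672) (nat_lit 1865180940) (nat_lit 95) (nat_lit 5) (nat_lit 102) (nat_lit 5) (nat_lit 103) (nat_lit 5) (nat_lit 327) (nat_lit 300) (nat_lit 237)))) (XT.nd (nat_lit 94) (nat_lit 588) (nat_lit 0) (XT.lf (nat_lit 0) (nat_lit 7250273643) (nat_lit 588) (nat_lit 2527313726) (nat_lit 672) (nat_lit 425287843) (nat_lit 95) (nat_lit 5) (nat_lit 102) (nat_lit 5) (nat_lit 103) (nat_lit 5) (nat_lit 328) (nat_lit 300) (nat_lit 236)) (XT.nd (nat_lit 94) (nat_lit 0) (nat_lit 0) (XT.lf (nat_lit 0) (nat_lit 1028386456) (nat_lit 588) (nat_lit 8868667379) (nat_lit 84) (nat_lit 479884577) (nat_lit 88) (nat_lit 5) (nat_lit 95) (nat_lit 5) (nat_lit 89) (nat_lit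 5) (nat_lit 329) (nat_lit 300) (nat_lit 235)) (XT.lf (nat_lit 0) (nat_lit 2546493348) (nat_lit 588) (nat_lit 4445380744) (nat_lit 84) (nat_lit 3563616841) (nat_lit 88) (nat_lit 5) (nat_lit 95) (nat_lit 5) (nat_lit 89) (nat_lit 5) (nat_lit 330) (nat_lit 300) (nat_lit 234))))) (XT.nd (nat_lit 282) (nat_lit 924) (nat_lit 0) (XT.nd (nat_lit 94) (nat_lit 0) (nat_lit 0) (XT.lf (nat_lit 0) (nat_lit 88241655) (nat_lit 504) (nat_lit 3996380749) (nat_lit 588) (nat_lit 6655893801) (nat_lit 82) (nat_lit 5) (nat_lit 88) (nat_lit 5) (nat_lit 89) (nat_lit 5) (nat_lit 331) (nat_lit 300) (nat_lit 233)) (XT.nd (nat_lit 94) (nat_lit 0) (nat_lit 0) (XT.lf (nat_lit 0) (nat_lit 4828371274) (nat_lit 504) (nat_lit 861107169) (nat_lit 588) (nat_lit 5241304845) (nat_lit 82) (nat_lit 5) (nat_lit 88) (nat_lit 5) (nat_lit 89) (nat_lit 5) (nat_lit 332) (nat_lit 300) (nat_lit 232)) (XT.lf (nat_lit 0) (nat_lit 7341067211)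 (nat_lit 588) (nat_lit 1463359774) (nat_lit 84) (nat_lit 2322708739) (nat_lit 82) (nat_lit 5) (nat_lit 89) (nat_lit 5) (nat_lit 83) (nat_lit 5) (nat_lit 333) (nat_lit 300) (nat_lit 231)))) (XT.nd (nat_lit 94) (nat_lit 504) (nat_lit 0) (XT.lf (nat_lit 0) (nat_lit 3350725666) (nat_lit 420) (nat_lit 5709432348) (nat_lit 504) (nat_lit 2269002397) (nat_lit 77) (nat_lit 5) (nat_lit 82) (nat_lit 5) (nat_lit 83) (nat_lit 5) (nat_lit 334) (nat_lit 300) (nat_lit 230)) (XT.nd (nat_lit 94) (nat_lit 504) (nat_lit 0) (XT.lf (nat_lit 0) (nat_lit 8317868450) (nat_lit 420) (nat_lit 2504706946) (nat_lit 504) (nat_lit 715269371) (nat_lit 77) (nat_lit 5) (nat_lit 82) (nat_lit 5) (nat_lit 83) (nat_lit 5) (nat_lit 335) (nat_lit 300) (nat_lit 229)) (XT.lf (nat_lit 0) (nat_lit 868827166) (nat_lit 504) (nat_lit 10077075055) (nat_lit 84) (nat_lit 806904326) (nat_lit 71) (nat_lit 5) (nat_lit 77) (nat_lit 5) (nat_lit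 72) (nat_lit 5) (nat_lit 336) (nat_lit 300) (nat_lit 228)))))) (XT.nd (nat_lit 564) (nat_lit 756) (nat_lit 0) (XT.nd (nat_lit 282) (nat_lit 420) (nat_lit 0) (XT.nd (nat_lit 94) (nat_lit 420) (nat_lit 0) (XT.lf (nat_lit 0) (nat_lit 2522386737) (nat_lit 504) (nat_lit 5242713588) (nat_lit 84) (nat_lit 4208093689) (nat_lit 71) (nat_lit 5) (nat_lit 77) (nat_lit 5) (nat_lit 72) (nat_lit 5) (nat_lit 337) (nat_lit 300) (nat_lit 227)) (XT.nd (nat_lit 94) (nat_lit 420) (nat_lit 0) (XT.lf (nat_lit 0) (nat_lit 4203581929) (nat_lit 504) (nat_lit 285174473) (nat_lit 84) (nat_lit 7712467324) (nat_lit 71) (nat_lit 5) (nat_lit 77) (nat_lit 5) (nat_lit 72) (nat_lit 5) (nat_lit 338) (nat_lit 300) (nat_lit 226)) (XT.lf (nat_lit 0) (nat_lit 4898864435) (nat_lit 420) (nat_lit 1063712699) (nat_lit 504) (nat_lit 6473024583) (nat_lit 66) (nat_lit 5) (nat_lit 71) (nat_lit 5) (nat_lit 72) (nat_lit 5) (nat_lit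 339) (nat_lit 300) (nat_lit 225)))) (XT.nd (nat_lit 94) (nat_lit 420) (nat_lit 0) (XT.lf (nat_lit 0) (nat_lit 7781075490) (nat_lit 504) (nat_lit 2478369467) (nat_lit 84) (nat_lit 2417719520) (nat_lit 66) (nat_lit 5) (nat_lit 72) (nat_lit 5) (nat_lit 67) (nat_lit 5) (nat_lit 340) (nat_lit 300) (nat_lit 224)) (XT.nd (nat_lit 94) (nat_lit 0) (nat_lit 0) (XT.lf (nat_lit 0) (nat_lit 2755884048) (nat_lit 420) (nat_lit 6916447327) (nat_lit 504) (nat_lit 3253447455) (nat_lit 61) (nat_lit 5) (nat_lit 66) (nat_lit 5) (nat_lit 67) (nat_lit 5) (nat_lit 341) (nat_lit 300) (nat_lit 223)) (XT.lf (nat_lit 0) (nat_lit 8179629074) (nat_lit 420) (nat_lit 3447027721) (nat_lit 504) (nat_lit 1555374691) (nat_lit 61) (nat_lit 5) (nat_lit 66) (nat_lit 5) (nat_lit 67) (nat_lit 5) (nat_lit 342) (nat_lit 300) (nat_lit 222))))) (XT.nd (nat_lit 282) (nat_lit 336) (nat_lit 0) (XT.nd (nat_lit 94) (nat_lit 0) (nat_lit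 0) (XT.lf (nat_lit 0) (nat_lit 174660664) (nat_lit 420) (nat_lit 13143661609) (nat_lit 84) (nat_lit 128429470) (nat_lit 56) (nat_lit 5) (nat_lit 61) (nat_lit 5) (nat_lit 57) (nat_lit 5) (nat_lit 343) (nat_lit 300) (nat_lit 221)) (XT.nd (nat_lit 94) (nat_lit 0) (nat_lit 0) (XT.lf (nat_lit 0) (nat_lit 1993306393) (nat_lit 420) (nat_lit 7916111988) (nat_lit 84) (nat_lit 3807743759) (nat_lit 56) (nat_lit 5) (nat_lit 61) (nat_lit 5) (nat_lit 57) (nat_lit 5) (nat_lit 344) (nat_lit 300) (nat_lit 220)) (XT.lf (nat_lit 0) (nat_lit 3848237245) (nat_lit 420) (nat_lit 2551199628) (nat_lit 84) (nat_lit 7597202260) (nat_lit 56) (nat_lit 5) (nat_lit 61) (nat_lit 5) (nat_lit 57) (nat_lit 5) (nat_lit 345) (nat_lit 300) (nat_lit 219)))) (XT.nd (nat_lit 94) (nat_lit 0) (nat_lit 0) (XT.lf (nat_lit 0) (nat_lit 3016859116) (nat_lit 336) (nat_lit 2754250711) (nat_lit 420) (nat_lit 8513405643) (nat_lit 52)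 (nat_lit 5) (nat_lit 56) (nat_lit 5) (nat_lit 57) (nat_lit 5) (nat_lit 346) (nat_lit 300) (nat_lit 218)) (XT.nd (nat_lit 94) (nat_lit 0) (nat_lit 0) (XT.lf (nat_lit 0) (nat_lit 7771269030) (nat_lit 420) (nat_lit 5803421979) (nat_lit 84) (nat_lit 1006134341) (nat_lit 52) (nat_lit 5) (nat_lit 57) (nat_lit 5) (nat_lit 53) (nat_lit 5) (nat_lit 347) (nat_lit 300) (nat_lit 217)) (XT.lf (nat_lit 0) (nat_lit 9842996226) (nat_lit 420) (nat_lit 221546601) (nat_lit 84) (nat_lit 4821537212) (nat_lit 52) (nat_lit 5) (nat_lit 57) (nat_lit 5) (nat_lit 53) (nat_lit 5) (nat_lit 348) (nat_lit 300) (nat_lit 216))))))))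
noncomputable def xc117 : XT := (XT.nd (nat_lit 2256) (nat_lit 924) (nat_lit 0) (XT.nd (nat_lit 1128) (nat_lit 924) (nat_lit 0) (XT.nd (nat_lit 564) (nat_lit 588) (nat_lit 0) (XT.nd (nat_lit 282) (nat_lit 252) (nat_lit 0) (XT.nd (nat_lit 94) (nat_lit 420) (nat_lit 0) (XT.lf (nat_lit 0) (nat_lit 5623802260) (nat_lit 336) (nat_lit 6392886527) (nat_lit 420) (nat_lit 3182992822) (nat_lit 48) (nat_lit 5) (nat_lit 52) (nat_lit 5) (nat_lit 53) (nat_lit 5) (nat_lit 349) (nat_lit 300) (nat_lit 215)) (XT.nd (nat_lit 94) (nat_lit 420) (nat_lit 0) (XT.lf (nat_lit 0) (nat_lit 11632413431) (nat_lit 336) (nat_lit 2609935930) (nat_lit 420) (nat_lit 1281185737) (nat_lit 48) (nat_lit 5) (nat_lit 52) (nat_lit 5) (nat_lit 53) (nat_lit 5) (nat_lit 350) (nat_lit 300) (nat_lit 214)) (XT.lf (nat_lit 0) (nat_lit 681132931) (nat_lit 420) (nat_lit 13889558934) (nat_lit 84) (nat_lit 1286103780) (nat_lit 43) (nat_lit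 5) (nat_lit 48) (nat_lit 5) (nat_lit 44) (nat_lit 5) (nat_lit 351) (nat_lit 300) (nat_lit 213)))) (XT.nd (nat_lit 94) (nat_lit 252) (nat_lit 0) (XT.lf (nat_lit 0) (nat_lit 2728227320) (nat_lit 420) (nat_lit 8172315734) (nat_lit 84) (nat_lit 5297918513) (nat_lit 43) (nat_lit 5) (nat_lit 48) (nat_lit 5) (nat_lit 44) (nat_lit 5) (nat_lit 352) (nat_lit 300) (nat_lit 212)) (XT.nd (nat_lit 94) (nat_lit 252) (nat_lit 0) (XT.lf (nat_lit 0) (nat_lit 4822130664) (nat_lit 420) (nat_lit 2299825440) (nat_lit 84) (nat_lit 9429325551) (nat_lit 43) (nat_lit 5) (nat_lit 48) (nat_lit 5) (nat_lit 44) (nat_lit 5) (nat_lit 353) (nat_lit 300) (nat_lit 211)) (XT.lf (nat_lit 0) (nat_lit 3810151791) (nat_lit 252) (nat_lit 3192440085) (nat_lit 336) (nat_lit 9911821183) (nat_lit 40) (nat_lit 5) (nat_lit 43) (nat_lit 5) (nat_lit 44) (nat_lit 5) (nat_lit 354) (nat_lit 300) (nat_lit 210))))) (XT.nd (nat_lit 282)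 (nat_lit 336) (nat_lit 0) (XT.nd (nat_lit 94) (nat_lit 252) (nat_lit 0) (XT.lf (nat_lit 0) (nat_lit 9267492603) (nat_lit 336) (nat_lit 7160123952) (nat_lit 84) (nat_lit 860706377) (nat_lit 40) (nat_lit 5) (nat_lit 44) (nat_lit 5) (nat_lit 41) (nat_lit 5) (nat_lit 355) (nat_lit 300) (nat_lit 209)) (XT.nd (nat_lit 94) (nat_lit 252) (nat_lit 0) (XT.lf (nat_lit 0) (nat_lit 11619809199) (nat_lit 336) (nat_lit 1085314408) (nat_lit 84) (nat_lit 4968209366) (nat_lit 40) (nat_lit 5) (nat_lit 44) (nat_lit 5) (nat_lit 41) (nat_lit 5) (nat_lit 356) (nat_lit 300) (nat_lit 208)) (XT.lf (nat_lit 0) (nat_lit 5263547882) (nat_lit 252) (nat_lit 8818732034) (nat_lit 336) (nat_lit 3986885223) (nat_lit 37) (nat_lit 5) (nat_lit 40) (nat_lit 5) (nat_lit 41) (nat_lit 5) (nat_lit 357) (nat_lit 300) (nat_lit 207)))) (XT.nd (nat_lit 94) (nat_lit 336) (nat_lit 0) (XT.lf (nat_lit 0) (nat_lit 11812123562) (nat_lit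 252) (nat_lit 4805560390) (nat_lit 336) (nat_lit 1859729430) (nat_lit 37) (nat_lit 5) (nat_lit 40) (nat_lit 5) (nat_lit 41) (nat_lit 5) (nat_lit 358) (nat_lit 300) (nat_lit 206)) (XT.nd (nat_lit 94) (nat_lit 252) (nat_lit 0) (XT.lf (nat_lit 0) (nat_lit 312178840) (nat_lit 336) (nat_lit 357759089) (nat_lit 84) (nat_lit 18228762953) (nat_lit 36) (nat_lit 5) (nat_lit 40) (nat_lit 5) (nat_lit 37) (nat_lit 5) (nat_lit 359) (nat_lit 300) (nat_lit 205)) (XT.lf (nat_lit 0) (nat_lit 2597003135) (nat_lit 336) (nat_lit 13134826049) (nat_lit 84) (nat_lit 3598055018) (nat_lit 33) (nat_lit 5) (nat_lit 37) (nat_lit 5) (nat_lit 34) (nat_lit 5) (nat_lit 360) (nat_lit 300) (nat_lit 204)))))) (XT.nd (nat_lit 564) (nat_lit 504) (nat_lit 0) (XT.nd (nat_lit 282) (nat_lit 168) (nat_lit 0) (XT.nd (nat_lit 94) (nat_lit 252) (nat_lit 0) (XT.lf (nat_lit 0) (nat_lit 4949424872) (nat_lit 336) (nat_lit 6842071051)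 (nat_lit 84) (nat_lit 7983073683) (nat_lit 33) (nat_lit 5) (nat_lit 37) (nat_lit 5) (nat_lit 34) (nat_lit 5) (nat_lit 361) (nat_lit 300) (nat_lit 203)) (XT.nd (nat_lit 94) (nat_lit 252) (nat_lit 0) (XT.lf (nat_lit 0) (nat_lit 7361331854) (nat_lit 336) (nat_lit 373115104) (nat_lit 84) (nat_lit 12499044085) (nat_lit 33) (nat_lit 5) (nat_lit 37) (nat_lit 5) (nat_lit 34) (nat_lit 5) (nat_lit 362) (nat_lit 300) (nat_lit 202)) (XT.lf (nat_lit 0) (nat_lit 6407161563) (nat_lit 252) (nat_lit 3491370502) (nat_lit 336) (nat_lit 10806573853) (nat_lit 30) (nat_lit 5) (nat_lit 33) (nat_lit 5) (nat_lit 34) (nat_lit 5) (nat_lit 363) (nat_lit 300) (nat_lit 201)))) (XT.nd (nat_lit 94) (nat_lit 168) (nat_lit 0) (XT.lf (nat_lit 0) (nat_lit 12514205644) (nat_lit 336) (nat_lit 7812983866) (nat_lit 84) (nat_lit 864189046) (nat_lit 30) (nat_lit 5) (nat_lit 34) (nat_lit 5) (nat_lit 31) (nat_lit 5) (nat_lit 364)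 (nat_lit 300) (nat_lit 200)) (XT.nd (nat_lit 94) (nat_lit 168) (nat_lit 0) (XT.lf (nat_lit 0) (nat_lit 15234184676) (nat_lit 336) (nat_lit 1180640589) (nat_lit 84) (nat_lit 5277211734) (nat_lit 30) (nat_lit 5) (nat_lit 34) (nat_lit 5) (nat_lit 31) (nat_lit 5) (nat_lit 365) (nat_lit 300) (nat_lit 199)) (XT.lf (nat_lit 0) (nat_lit 5755870300) (nat_lit 168) (nat_lit 12327598286) (nat_lit 252) (nat_lit 4123382941) (nat_lit 28) (nat_lit 5) (nat_lit 30) (nat_lit 5) (nat_lit 31) (nat_lit 5) (nat_lit 366) (nat_lit 300) (nat_lit 198))))) (XT.nd (nat_lit 282) (nat_lit 168) (nat_lit 0) (XT.nd (nat_lit 94) (nat_lit 336) (nat_lit 0) (XT.lf (nat_lit 0) (nat_lit 12915215189) (nat_lit 168) (nat_lit 8106268488) (nat_lit 252) (nat_lit 1716158436) (nat_lit 28) (nat_lit 5) (nat_lit 30) (nat_lit 5) (nat_lit 31) (nat_lit 5) (nat_lit 367) (nat_lit 300) (nat_lit 197)) (XT.nd (nat_lit 94) (nat_lit 252) (nat_lit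 0) (XT.lf (nat_lit 0) (nat_lit 738555297) (nat_lit 252) (nat_lit 3012960319) (nat_lit 84) (nat_lit 19533526645) (nat_lit 27) (nat_lit 5) (nat_lit 30) (nat_lit 5) (nat_lit 28) (nat_lit 5) (nat_lit 368) (nat_lit 300) (nat_lit 196)) (XT.lf (nat_lit 0) (nat_lit 3270453335) (nat_lit 336) (nat_lit 19800577231) (nat_lit 84) (nat_lit 776725034) (nat_lit 24) (nat_lit 5) (nat_lit 28) (nat_lit 5) (nat_lit 25) (nat_lit 5) (nat_lit 369) (nat_lit 300) (nat_lit 195)))) (XT.nd (nat_lit 94) (nat_lit 168) (nat_lit 0) (XT.lf (nat_lit 0) (nat_lit 5939753331) (nat_lit 336) (nat_lit 13092195960) (nat_lit 84) (nat_lit 5394163400) (nat_lit 24) (nat_lit 5) (nat_lit 28) (nat_lit 5) (nat_lit 25) (nat_lit 5) (nat_lit 370) (nat_lit 300) (nat_lit 194)) (XT.nd (nat_lit 94) (nat_lit 168) (nat_lit 0) (XT.lf (nat_lit 0) (nat_lit 8680912355) (nat_lit 336) (nat_lit 6191976628) (nat_lit 84) (nat_lit 10149872601) (nat_lit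 24) (nat_lit 5) (nat_lit 28) (nat_lit 5) (nat_lit 25) (nat_lit 5) (nat_lit 371) (nat_lit 300) (nat_lit 193)) (XT.lf (nat_lit 0) (nat_lit 925152248) (nat_lit 168) (nat_lit 10580510832) (nat_lit 252) (nat_lit 14132310832) (nat_lit 22) (nat_lit 5) (nat_lit 24) (nat_lit 5) (nat_lit 25) (nat_lit 5) (nat_lit 372) (nat_lit 300) (nat_lit 192))))))) (XT.nd (nat_lit 1128) (nat_lit 336) (nat_lit 0) (XT.nd (nat_lit 564) (nat_lit 336) (nat_lit 0) (XT.nd (nat_lit 282) (nat_lit 252) (nat_lit 0) (XT.nd (nat_lit 94) (nat_lit 0) (nat_lit 0) (XT.lf (nat_lit 0) (nat_lit 8378700070) (nat_lit 168) (nat_lit 6093514712) (nat_lit 252) (nat_lit 11798385468) (nat_lit 22) (nat_lit 5) (nat_lit 24) (nat_lit 5) (nat_lit 25) (nat_lit 5) (nat_lit 373) (nat_lit 300) (nat_lit 191)) (XT.nd (nat_lit 94) (nat_lit 0) (nat_lit 0) (XT.lf (nat_lit 0) (nat_lit 16048294585) (nat_lit 168) (nat_lit 1472349811) (nat_lit 252) (nat_lit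 9402529213) (nat_lit 22) (nat_lit 5) (nat_lit 24) (nat_lit 5) (nat_lit 25) (nat_lit 5) (nat_lit 374) (nat_lit 300) (nat_lit 190)) (XT.lf (nat_lit 0) (nat_lit 20686403716) (nat_lit 252) (nat_lit 3687827931) (nat_lit 84) (nat_lit 3221059687) (nat_lit 22) (nat_lit 5) (nat_lit 25) (nat_lit 5) (nat_lit 23) (nat_lit 5) (nat_lit 375) (nat_lit 300) (nat_lit 189)))) (XT.nd (nat_lit 94) (nat_lit 84) (nat_lit 0) (XT.lf (nat_lit 0) (nat_lit 3768496110) (nat_lit 168) (nat_lit 20224714267) (nat_lit 252) (nat_lit 4293725761) (nat_lit 20) (nat_lit 5) (nat_lit 22) (nat_lit 5) (nat_lit 23) (nat_lit 5) (nat_lit 376) (nat_lit 300) (nat_lit 188)) (XT.nd (nat_lit 94) (nat_lit 84) (nat_lit 0) (XT.lf (nat_lit 0) (nat_lit 11519898177) (nat_lit 168) (nat_lit 15911734729) (nat_lit 252) (nat_lit 1567507727) (nat_lit 20) (nat_lit 5) (nat_lit 22) (nat_lit 5) (nat_lit 23) (nat_lit 5) (nat_lit 377) (nat_lit 300) (nat_lit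 187)) (XT.lf (nat_lit 0) (nat_lit 1208955636) (nat_lit 252) (nat_lit 10248191591) (nat_lit 84) (nat_lit 18276199427) (nat_lit 19) (nat_lit 5) (nat_lit 22) (nat_lit 5) (nat_lit 20) (nat_lit 5) (nat_lit 378) (nat_lit 300) (nat_lit 186))))) (XT.nd (nat_lit 282) (nat_lit 168) (nat_lit 0) (XT.nd (nat_lit 94) (nat_lit 168) (nat_lit 0) (XT.lf (nat_lit 0) (nat_lit 4029986488) (nat_lit 252) (nat_lit 2822617152) (nat_lit 84) (nat_lit 23637508755) (nat_lit 19) (nat_lit 5) (nat_lit 22) (nat_lit 5) (nat_lit 20) (nat_lit 5) (nat_lit 379) (nat_lit 300) (nat_lit 185)) (XT.nd (nat_lit 94) (nat_lit 0) (nat_lit 0) (XT.lf (nat_lit 0) (nat_lit 4919060247) (nat_lit 168) (nat_lit 2059533554) (nat_lit 252) (nat_lit 24290518759) (nat_lit 17) (nat_lit 5) (nat_lit 19) (nat_lit 5) (nat_lit 20) (nat_lit 5) (nat_lit 380) (nat_lit 300) (nat_lit 184)) (XT.lf (nat_lit 0) (nat_lit 10068375748) (nat_lit 252) (nat_lit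 19152975343) (nat_lit 84) (nat_lit 2849385822) (nat_lit 17) (nat_lit 5) (nat_lit 20) (nat_lit 5) (nat_lit 18) (nat_lit 5) (nat_lit 381) (nat_lit 300) (nat_lit 183)))) (XT.nd (nat_lit 94) (nat_lit 168) (nat_lit 0) (XT.lf (nat_lit 0) (nat_lit 13266676447) (nat_lit 252) (nat_lit 11766755458) (nat_lit 84) (nat_lit 7863402362) (nat_lit 17) (nat_lit 5) (nat_lit 20) (nat_lit 5) (nat_lit 18) (nat_lit 5) (nat_lit 382) (nat_lit 300) (nat_lit 182)) (XT.nd (nat_lit 94) (nat_lit 168) (nat_lit 0) (XT.lf (nat_lit 0) (nat_lit 16556046222) (nat_lit 252) (nat_lit 4164077098) (nat_lit 84) (nat_lit 13028684665) (nat_lit 17) (nat_lit 5) (nat_lit 20) (nat_lit 5) (nat_lit 18) (nat_lit 5) (nat_lit 383) (nat_lit 300) (nat_lit 181)) (XT.lf (nat_lit 0) (nat_lit 3737447465) (nat_lit 168) (nat_lit 16239179585) (nat_lit 252) (nat_lit 14649675792) (nat_lit 15) (nat_lit 5) (nat_lit 17) (nat_lit 5) (nat_lit 18) (nat_lit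 5) (nat_lit 384) (nat_lit 300) (nat_lit 180)))))) (XT.nd (nat_lit 564) (nat_lit 168) (nat_lit 0) (XT.nd (nat_lit 282) (nat_lit 168) (nat_lit 0) (XT.nd (nat_lit 94) (nat_lit 0) (nat_lit 0) (XT.lf (nat_lit 0) (nat_lit 11960180361) (nat_lit 168) (nat_lit 11578810998) (nat_lit 252) (nat_lit 11990916491) (nat_lit 15) (nat_lit 5) (nat_lit 17) (nat_lit 5) (nat_lit 18) (nat_lit 5) (nat_lit 385) (nat_lit 300) (nat_lit 179)) (XT.nd (nat_lit 94) (nat_lit 0) (nat_lit 0) (XT.lf (nat_lit 0) (nat_lit 20426164072) (nat_lit 168) (nat_lit 6778138031) (nat_lit 252) (nat_lit 9257470041) (nat_lit 15) (nat_lit 5) (nat_lit 17) (nat_lit 5) (nat_lit 18) (nat_lit 5) (nat_lit 386) (nat_lit 300) (nat_lit 178)) (XT.lf (nat_lit 0) (nat_lit 29143289783) (nat_lit 168) (nat_lit 1832685956) (nat_lit 252) (nat_lit 6446788584) (nat_lit 15) (nat_lit 5) (nat_lit 17) (nat_lit 5) (nat_lit 18) (nat_lit 5) (nat_lit 387) (nat_lit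 300) (nat_lit 177)))) (XT.nd (nat_lit 94) (nat_lit 168) (nat_lit 0) (XT.lf (nat_lit 0) (nat_lit 34889888839) (nat_lit 252) (nat_lit 326458344) (nat_lit 84) (nat_lit 3196429756) (nat_lit 15) (nat_lit 5) (nat_lit 18) (nat_lit 5) (nat_lit 16) (nat_lit 4) (nat_lit 388) (nat_lit 300) (nat_lit 176)) (XT.nd (nat_lit 94) (nat_lit 84) (nat_lit 0) (XT.lf (nat_lit 0) (nat_lit 8004814337) (nat_lit 84) (nat_lit 31011602386) (nat_lit 168) (nat_lit 414247525) (nat_lit 14) (nat_lit 5) (nat_lit 15) (nat_lit 5) (nat_lit 16) (nat_lit 4) (nat_lit 389) (nat_lit 300) (nat_lit 175)) (XT.lf (nat_lit 0) (nat_lit 2731124018) (nat_lit 168) (nat_lit 23917309452) (nat_lit 84) (nat_lit 13830933309) (nat_lit 13) (nat_lit 5) (nat_lit 15) (nat_lit 5) (nat_lit 14) (nat_lit 5) (nat_lit 390) (nat_lit 300) (nat_lit 174))))) (XT.nd (nat_lit 282) (nat_lit 168) (nat_lit 0) (XT.nd (nat_lit 94) (nat_lit 0) (nat_lit 0) (XT.lf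 (nat_lit 0) (nat_lit 5958751518) (nat_lit 168) (nat_lit 16190780972) (nat_lit 84) (nat_lit 19411134131) (nat_lit 13) (nat_lit 5) (nat_lit 15) (nat_lit 5) (nat_lit 14) (nat_lit 5) (nat_lit 391) (nat_lit 300) (nat_lit 173)) (XT.nd (nat_lit 94) (nat_lit 0) (nat_lit 0) (XT.lf (nat_lit 0) (nat_lit 9279989625) (nat_lit 168) (nat_lit 8234953151) (nat_lit 84) (nat_lit 25160756272) (nat_lit 13) (nat_lit 5) (nat_lit 15) (nat_lit 5) (nat_lit 14) (nat_lit 5) (nat_lit 392) (nat_lit 300) (nat_lit 172)) (XT.lf (nat_lit 0) (nat_lit 12697934081) (nat_lit 168) (nat_lit 42410323) (nat_lit 84) (nat_lit 31085158984) (nat_lit 13) (nat_lit 5) (nat_lit 15) (nat_lit 5) (nat_lit 14) (nat_lit 5) (nat_lit 393) (nat_lit 300) (nat_lit 171)))) (XT.nd (nat_lit 94) (nat_lit 0) (nat_lit 0) (XT.lf (nat_lit 0) (nat_lit 8567091621) (nat_lit 168) (nat_lit 7733665755) (nat_lit 252) (nat_lit 28707759417) (nat_lit 11) (nat_lit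 5) (nat_lit 13) (nat_lit 5) (nat_lit 14) (nat_lit 5) (nat_lit 394) (nat_lit 300) (nat_lit 170)) (XT.nd (nat_lit 94) (nat_lit 0) (nat_lit 0) (XT.lf (nat_lit 0) (nat_lit 17434867058) (nat_lit 168) (nat_lit 2574867658) (nat_lit 252) (nat_lit 26218651814) (nat_lit 11) (nat_lit 5) (nat_lit 13) (nat_lit 5) (nat_lit 14) (nat_lit 5) (nat_lit 395) (nat_lit 300) (nat_lit 169)) (XT.lf (nat_lit 0) (nat_lit 23855079153) (nat_lit 252) (nat_lit 20945138580) (nat_lit 84) (nat_lit 2685202480) (nat_lit 11) (nat_lit 5) (nat_lit 14) (nat_lit 5) (nat_lit 12) (nat_lit 4) (nat_lit 396) (nat_lit 300) (nat_lit 168))))))))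
noncomputable def xc118 : XT := (XT.nd (nat_lit 45590) (nat_lit 0) (nat_lit 7476) (XT.nd (nat_lit 1128) (nat_lit 84) (nat_lit 0) (XT.nd (nat_lit 564) (nat_lit 252) (nat_lit 0) (XT.nd (nat_lit 282) (nat_lit 0) (nat_lit 0) (XT.nd (nat_lit 94) (nat_lit 84) (nat_lit 0) (XT.lf (nat_lit 0) (nat_lit 27840308854) (nat_lit 252) (nat_lit 12888900886) (nat_lit 84) (nat_lit 8051581836) (nat_lit 11) (nat_lit 5) (nat_lit 14) (nat_lit 5) (nat_lit 12) (nat_lit 4) (nat_lit 397) (nat_lit 300) (nat_lit 167)) (XT.nd (nat_lit 94) (nat_lit 84) (nat_lit 0) (XT.lf (nat_lit 0) (nat_lit 31943595466) (nat_lit 252) (nat_lit 4591754127) (nat_lit 84) (nat_lit 13581150281) (nat_lit 11) (nat_lit 5) (nat_lit 14) (nat_lit 5) (nat_lit 12) (nat_lit 4) (nat_lit 398) (nat_lit 300) (nat_lit 166)) (XT.lf (nat_lit 0) (nat_lit 4035338584) (nat_lit 84) (nat_lit 32173456155) (nat_lit 168) (nat_lit 15283754427) (nat_lit 10) (nat_lit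 5) (nat_lit 11) (nat_lit 5) (nat_lit 12) (nat_lit 4) (nat_lit 399) (nat_lit 300) (nat_lit 165)))) (XT.nd (nat_lit 94) (nat_lit 0) (nat_lit 0) (XT.lf (nat_lit 0) (nat_lit 13018732020) (nat_lit 84) (nat_lit 27630167213) (nat_lit 168) (nat_lit 12261043316) (nat_lit 10) (nat_lit 5) (nat_lit 11) (nat_lit 5) (nat_lit 12) (nat_lit 4) (nat_lit 400) (nat_lit 300) (nat_lit 164)) (XT.nd (nat_lit 94) (nat_lit 0) (nat_lit 0) (XT.lf (nat_lit 0) (nat_lit 22272383761) (nat_lit 84) (nat_lit 22949176441) (nat_lit 168) (nat_lit 9149882087) (nat_lit 10) (nat_lit 5) (nat_lit 11) (nat_lit 5) (nat_lit 12) (nat_lit 4) (nat_lit 401) (nat_lit 300) (nat_lit 163)) (XT.lf (nat_lit 0) (nat_lit 31804919181) (nat_lit 84) (nat_lit 18126120665) (nat_lit 168) (nat_lit 5947370813) (nat_lit 10) (nat_lit 5) (nat_lit 11) (nat_lit 5) (nat_lit 12) (nat_lit 4) (nat_lit 402) (nat_lit 300) (nat_lit 162))))) (XT.nd (nat_lit 282)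 (nat_lit 0) (nat_lit 0) (XT.nd (nat_lit 94) (nat_lit 252) (nat_lit 0) (XT.lf (nat_lit 0) (nat_lit 41625223599) (nat_lit 84) (nat_lit 13156504294) (nat_lit 168) (nat_lit 2650524417) (nat_lit 10) (nat_lit 5) (nat_lit 11) (nat_lit 5) (nat_lit 12) (nat_lit 4) (nat_lit 403) (nat_lit 300) (nat_lit 161)) (XT.nd (nat_lit 94) (nat_lit 168) (nat_lit 0) (XT.lf (nat_lit 0) (nat_lit 728745602) (nat_lit 168) (nat_lit 7299342911) (nat_lit 84) (nat_lit 51006098358) (nat_lit 9) (nat_lit 5) (nat_lit 11) (nat_lit 5) (nat_lit 10) (nat_lit 5) (nat_lit 404) (nat_lit 300) (nat_lit 160)) (XT.lf (nat_lit 0) (nat_lit 1467149320) (nat_lit 168) (nat_lit 2700564071) (nat_lit 252) (nat_lit 56516925837) (nat_lit 7) (nat_lit 5) (nat_lit 9) (nat_lit 5) (nat_lit 10) (nat_lit 5) (nat_lit 405) (nat_lit 300) (nat_lit 159)))) (XT.nd (nat_lit 94) (nat_lit 0) (nat_lit 0) (XT.lf (nat_lit 0) (nat_lit 7813436996) (nat_lit 252)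 (nat_lit 51759653463) (nat_lit 84) (nat_lit 2810068456) (nat_lit 7) (nat_lit 5) (nat_lit 10) (nat_lit 5) (nat_lit 8) (nat_lit 4) (nat_lit 406) (nat_lit 300) (nat_lit 158)) (XT.nd (nat_lit 94) (nat_lit 0) (nat_lit 0) (XT.lf (nat_lit 0) (nat_lit 11595414633) (nat_lit 252) (nat_lit 44105448613) (nat_lit 84) (nat_lit 8432756783) (nat_lit 7) (nat_lit 5) (nat_lit 10) (nat_lit 5) (nat_lit 8) (nat_lit 4) (nat_lit 407) (nat_lit 300) (nat_lit 157)) (XT.lf (nat_lit 0) (nat_lit 15490381570) (nat_lit 252) (nat_lit 36220950908) (nat_lit 84) (nat_lit 14227152191) (nat_lit 7) (nat_lit 5) (nat_lit 10) (nat_lit 5) (nat_lit 8) (nat_lit 4) (nat_lit 408) (nat_lit 300) (nat_lit 156)))))) (XT.nd (nat_lit 564) (nat_lit 0) (nat_lit 0) (XT.nd (nat_lit 282) (nat_lit 84) (nat_lit 0) (XT.nd (nat_lit 94) (nat_lit 0) (nat_lit 0) (XT.lf (nat_lit 0) (nat_lit 19501968326) (nat_lit 252) (nat_lit 28098811170) (nat_lit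 84) (nat_lit 20198655664) (nat_lit 7) (nat_lit 5) (nat_lit 10) (nat_lit 5) (nat_lit 8) (nat_lit 4) (nat_lit 409) (nat_lit 300) (nat_lit 155)) (XT.nd (nat_lit 94) (nat_lit 0) (nat_lit 0) (XT.lf (nat_lit 0) (nat_lit 23633914119) (nat_lit 252) (nat_lit 19731458714) (nat_lit 84) (nat_lit 26352833269) (nat_lit 7) (nat_lit 5) (nat_lit 10) (nat_lit 5) (nat_lit 8) (nat_lit 4) (nat_lit 410) (nat_lit 300) (nat_lit 154)) (XT.lf (nat_lit 0) (nat_lit 27890070356) (nat_lit 252) (nat_lit 11111094290) (nat_lit 84) (nat_lit 32695421344) (nat_lit 7) (nat_lit 5) (nat_lit 10) (nat_lit 5) (nat_lit 8) (nat_lit 4) (nat_lit 411) (nat_lit 300) (nat_lit 153)))) (XT.nd (nat_lit 94) (nat_lit 84) (nat_lit 0) (XT.lf (nat_lit 0) (nat_lit 32274404220) (nat_lit 252) (nat_lit 2229682818) (nat_lit 84) (nat_lit 39232331845) (nat_lit 7) (nat_lit 5) (nat_lit 10) (nat_lit 5) (nat_lit 8) (nat_lit 4) (nat_lit 412) (nat_lit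 300) (nat_lit 152)) (XT.nd (nat_lit 94) (nat_lit 0) (nat_lit 0) (XT.lf (nat_lit 0) (nat_lit 7063365177) (nat_lit 84) (nat_lit 29797706650) (nat_lit 168) (nat_lit 38976362138) (nat_lit 6) (nat_lit 5) (nat_lit 7) (nat_lit 5) (nat_lit 8) (nat_lit 4) (nat_lit 413) (nat_lit 300) (nat_lit 151)) (XT.lf (nat_lit 0) (nat_lit 16685828191) (nat_lit 84) (nat_lit 24923772038) (nat_lit 168) (nat_lit 36393376566) (nat_lit 6) (nat_lit 5) (nat_lit 7) (nat_lit 5) (nat_lit 8) (nat_lit 4) (nat_lit 414) (nat_lit 300) (nat_lit 150))))) (XT.nd (nat_lit 43616) (nat_lit 0) (nat_lit 13104) (XT.nd (nat_lit 94) (nat_lit 0) (nat_lit 0) (XT.lf (nat_lit 0) (nat_lit 26600828517) (nat_lit 84) (nat_lit 19901013500) (nat_lit 168) (nat_lit 33733923650) (nat_lit 6) (nat_lit 5) (nat_lit 7) (nat_lit 5) (nat_lit 8) (nat_lit 4) (nat_lit 415) (nat_lit 300) (nat_lit 149)) (XT.nd (nat_lit 43428) (nat_lit 0) (nat_lit 13860) (XT.lf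 (nat_lit 0) (nat_lit 36817607973) (nat_lit 84) (nat_lit 14724749299) (nat_lit 168) (nat_lit 30995524501) (nat_lit 6) (nat_lit 5) (nat_lit 7) (nat_lit 5) (nat_lit 8) (nat_lit 4) (nat_lit 416) (nat_lit 300) (nat_lit 148)) (XT.lf (nat_lit 0) (nat_lit 2495563770) (nat_lit 756) (nat_lit 565620174) (nat_lit 756) (nat_lit 565620174) (nat_lit 171) (nat_lit 3) (nat_lit 180) (nat_lit 3) (nat_lit 180) (nat_lit 5) (nat_lit 301) (nat_lit 301) (nat_lit 262)))) (XT.nd (nat_lit 94) (nat_lit 756) (nat_lit 0) (XT.lf (nat_lit 84) (nat_lit 1800292404) (nat_lit 0) (nat_lit 4642972958) (nat_lit 756) (nat_lit 873602584) (nat_lit 172) (nat_lit 5) (nat_lit 171) (nat_lit 3) (nat_lit 180) (nat_lit 5) (nat_lit 302) (nat_lit 301) (nat_lit 261)) (XT.nd (nat_lit 94) (nat_lit 0) (nat_lit 0) (XT.lf (nat_lit 0) (nat_lit 503224951) (nat_lit 756) (nat_lit 2571001609) (nat_lit 840) (nat_lit 4309306129) (nat_lit 162) (nat_lit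 5) (nat_lit 171) (nat_lit 3) (nat_lit 172) (nat_lit 5) (nat_lit 303) (nat_lit 301) (nat_lit 260)) (XT.lf (nat_lit 84) (nat_lit 436349007) (nat_lit 0) (nat_lit 1418459059) (nat_lit 840) (nat_lit 5598970571) (nat_lit 163) (nat_lit 5) (nat_lit 162) (nat_lit 5) (nat_lit 172) (nat_lit 5) (nat_lit 304) (nat_lit 301) (nat_lit 259))))))) (XT.nd (nat_lit 1128) (nat_lit 4116) (nat_lit 0) (XT.nd (nat_lit 564) (nat_lit 840) (nat_lit 0) (XT.nd (nat_lit 282) (nat_lit 756) (nat_lit 0) (XT.nd (nat_lit 94) (nat_lit 0) (nat_lit 0) (XT.lf (nat_lit 0) (nat_lit 3225729240) (nat_lit 756) (nat_lit 3968283467) (nat_lit 840) (nat_lit 333129848) (nat_lit 163) (nat_lit 5) (nat_lit 172) (nat_lit 5) (nat_lit 173) (nat_lit 5) (nat_lit 305) (nat_lit 301) (nat_lit 258)) (XT.nd (nat_lit 94) (nat_lit 0) (nat_lit 0) (XT.lf (nat_lit 0) (nat_lit 4602701291) (nat_lit 756) (nat_lit 869389711) (nat_lit 840) (nat_lit 2132053339)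 (nat_lit 163) (nat_lit 5) (nat_lit 172) (nat_lit 5) (nat_lit 173) (nat_lit 5) (nat_lit 306) (nat_lit 301) (nat_lit 257)) (XT.lf (nat_lit 84) (nat_lit 2343426235) (nat_lit 0) (nat_lit 3652757254) (nat_lit 840) (nat_lit 1688387830) (nat_lit 164) (nat_lit 5) (nat_lit 163) (nat_lit 5) (nat_lit 173) (nat_lit 5) (nat_lit 307) (nat_lit 301) (nat_lit 256)))) (XT.nd (nat_lit 94) (nat_lit 756) (nat_lit 0) (XT.lf (nat_lit 84) (nat_lit 5645208977) (nat_lit 0) (nat_lit 1748504000) (nat_lit 840) (nat_lit 375212094) (nat_lit 164) (nat_lit 5) (nat_lit 163) (nat_lit 5) (nat_lit 173) (nat_lit 5) (nat_lit 308) (nat_lit 301) (nat_lit 255)) (XT.nd (nat_lit 94) (nat_lit 0) (nat_lit 0) (XT.lf (nat_lit 0) (nat_lit 925707364) (nat_lit 840) (nat_lit 6681326787) (nat_lit 924) (nat_lit 249796161) (nat_lit 154) (nat_lit 5) (nat_lit 164) (nat_lit 5) (nat_lit 165) (nat_lit 5) (nat_lit 309) (nat_lit 301) (nat_lit 254))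 (XT.lf (nat_lit 0) (nat_lit 2253285529) (nat_lit 840) (nat_lit 3377580675) (nat_lit 924) (nat_lit 2316858220) (nat_lit 154) (nat_lit 5) (nat_lit 164) (nat_lit 5) (nat_lit 165) (nat_lit 5) (nat_lit 310) (nat_lit 301) (nat_lit 253))))) (XT.nd (nat_lit 282) (nat_lit 840) (nat_lit 0) (XT.nd (nat_lit 94) (nat_lit 0) (nat_lit 0) (XT.lf (nat_lit 0) (nat_lit 3577253533) (nat_lit 840) (nat_lit 1370445) (nat_lit 924) (nat_lit 4464394583) (nat_lit 154) (nat_lit 5) (nat_lit 164) (nat_lit 5) (nat_lit 165) (nat_lit 5) (nat_lit 311) (nat_lit 301) (nat_lit 252)) (XT.nd (nat_lit 94) (nat_lit 0) (nat_lit 84) (XT.lf (nat_lit 84) (nat_lit 3521399230) (nat_lit 0) (nat_lit 1412378940) (nat_lit 924) (nat_lit 3207940465) (nat_lit 155) (nat_lit 5) (nat_lit 154) (nat_lit 5) (nat_lit 165) (nat_lit 5) (nat_lit 312) (nat_lit 301) (nat_lit 251)) (XT.lf (nat_lit 0) (nat_lit 6298250619) (nat_lit 840) (nat_lit 1128608965)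 (nat_lit 924) (nat_lit 817859130) (nat_lit 155) (nat_lit 5) (nat_lit 165) (nat_lit 5) (nat_lit 166) (nat_lit 5) (nat_lit 313) (nat_lit 301) (nat_lit 250)))) (XT.nd (nat_lit 94) (nat_lit 924) (nat_lit 0) (XT.lf (nat_lit 84) (nat_lit 2477335689) (nat_lit 0) (nat_lit 5225714070) (nat_lit 924) (nat_lit 648100729) (nat_lit 156) (nat_lit 5) (nat_lit 155) (nat_lit 5) (nat_lit 166) (nat_lit 5) (nat_lit 314) (nat_lit 301) (nat_lit 249)) (XT.nd (nat_lit 94) (nat_lit 0) (nat_lit 0) (XT.lf (nat_lit 0) (nat_lit 647876521) (nat_lit 924) (nat_lit 2278676705) (nat_lit 1008) (nat_lit 5535173654) (nat_lit 144) (nat_lit 5) (nat_lit 155) (nat_lit 5) (nat_lit 156) (nat_lit 5) (nat_lit 315) (nat_lit 301) (nat_lit 248)) (XT.lf (nat_lit 84) (nat_lit 1420631842) (nat_lit 0) (nat_lit 524621096) (nat_lit 1008) (nat_lit 6631219458) (nat_lit 145) (nat_lit 5) (nat_lit 144) (nat_lit 5) (nat_lit 156) (nat_lit 5) (nat_lit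 316) (nat_lit 301) (nat_lit 247)))))) (XT.nd (nat_lit 564) (nat_lit 2184) (nat_lit 0) (XT.nd (nat_lit 282) (nat_lit 1092) (nat_lit 0) (XT.nd (nat_lit 94) (nat_lit 924) (nat_lit 0) (XT.lf (nat_lit 0) (nat_lit 3287823392) (nat_lit 924) (nat_lit 3461139042) (nat_lit 84) (nat_lit 1945815502) (nat_lit 145) (nat_lit 5) (nat_lit 156) (nat_lit 5) (nat_lit 146) (nat_lit 5) (nat_lit 317) (nat_lit 301) (nat_lit 246)) (XT.nd (nat_lit 94) (nat_lit 0) (nat_lit 0) (XT.lf (nat_lit 0) (nat_lit 319665880) (nat_lit 924) (nat_lit 4323625040) (nat_lit 1008) (nat_lit 4174502853) (nat_lit 134) (nat_lit 5) (nat_lit 145) (nat_lit 5) (nat_lit 146) (nat_lit 5) (nat_lit 318) (nat_lit 301) (nat_lit 245)) (XT.lf (nat_lit 0) (nat_lit 4261841566) (nat_lit 924) (nat_lit 1778634753) (nat_lit 1008) (nat_lit 2904303973) (nat_lit 134) (nat_lit 5) (nat_lit 145) (nat_lit 5) (nat_lit 146) (nat_lit 5) (nat_lit 319) (nat_lit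 301) (nat_lit 244)))) (XT.nd (nat_lit 94) (nat_lit 1092) (nat_lit 0) (XT.lf (nat_lit 0) (nat_lit 7454095448) (nat_lit 1008) (nat_lit 787502166) (nat_lit 84) (nat_lit 835082423) (nat_lit 134) (nat_lit 5) (nat_lit 146) (nat_lit 5) (nat_lit 135) (nat_lit 5) (nat_lit 320) (nat_lit 301) (nat_lit 243)) (XT.nd (nat_lit 94) (nat_lit 84) (nat_lit 0) (XT.lf (nat_lit 0) (nat_lit 3247177753) (nat_lit 1008) (nat_lit 5680558981) (nat_lit 1092) (nat_lit 284568827) (nat_lit 122) (nat_lit 5) (nat_lit 134) (nat_lit 5) (nat_lit 135) (nat_lit 5) (nat_lit 321) (nat_lit 301) (nat_lit 242)) (XT.lf (nat_lit 0) (nat_lit 1047237170) (nat_lit 1092) (nat_lit 1968483975) (nat_lit 84) (nat_lit 6337002927) (nat_lit 121) (nat_lit 5) (nat_lit 134) (nat_lit 5) (nat_lit 122) (nat_lit 5) (nat_lit 322) (nat_lit 301) (nat_lit 241))))) (XT.nd (nat_lit 282) (nat_lit 588) (nat_lit 0) (XT.nd (nat_lit 94) (nat_lit 504) (nat_lit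 0) (XT.lf (nat_lit 0) (nat_lit 2164347833) (nat_lit 1092) (nat_lit 238629094) (nat_lit 1176) (nat_lit 7094909991) (nat_lit 108) (nat_lit 5) (nat_lit 121) (nat_lit 5) (nat_lit 122) (nat_lit 5) (nat_lit 323) (nat_lit 301) (nat_lit 240)) (XT.nd (nat_lit 94) (nat_lit 504) (nat_lit 0) (XT.lf (nat_lit 0) (nat_lit 3815377105) (nat_lit 1176) (nat_lit 3235409214) (nat_lit 84) (nat_lit 2596432980) (nat_lit 108) (nat_lit 5) (nat_lit 122) (nat_lit 5) (nat_lit 109) (nat_lit 5) (nat_lit 324) (nat_lit 301) (nat_lit 239)) (XT.lf (nat_lit 0) (nat_lit 978641280) (nat_lit 504) (nat_lit 4273875781) (nat_lit 588) (nat_lit 4549373702) (nat_lit 102) (nat_lit 5) (nat_lit 108) (nat_lit 5) (nat_lit 109) (nat_lit 5) (nat_lit 325) (nat_lit 301) (nat_lit 238)))) (XT.nd (nat_lit 94) (nat_lit 588) (nat_lit 0) (XT.lf (nat_lit 0) (nat_lit 5363805592) (nat_lit 504) (nat_lit 1373639376) (nat_lit 588) (nat_lit 3223927542)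 (nat_lit 102) (nat_lit 5) (nat_lit 108) (nat_lit 5) (nat_lit 109) (nat_lit 5) (nat_lit 326) (nat_lit 301) (nat_lit 237)) (XT.nd (nat_lit 94) (nat_lit 588) (nat_lit 0) (XT.lf (nat_lit 0) (nat_lit 8254848567) (nat_lit 588) (nat_lit 285243361) (nat_lit 84) (nat_lit 1586238857) (nat_lit 102) (nat_lit 5) (nat_lit 109) (nat_lit 5) (nat_lit 103) (nat_lit 5) (nat_lit 327) (nat_lit 301) (nat_lit 236)) (XT.lf (nat_lit 0) (nat_lit 4203945519) (nat_lit 588) (nat_lit 5642395718) (nat_lit 672) (nat_lit 449331937) (nat_lit 95) (nat_lit 5) (nat_lit 102) (nat_lit 5) (nat_lit 103) (nat_lit 5) (nat_lit 328) (nat_lit 301) (nat_lit 235))))))))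
noncomputable def xc119 : XT := (XT.nd (nat_lit 2256) (nat_lit 1764) (nat_lit 0) (XT.nd (nat_lit 1128) (nat_lit 1932) (nat_lit 0) (XT.nd (nat_lit 564) (nat_lit 1344) (nat_lit 0) (XT.nd (nat_lit 282) (nat_lit 504) (nat_lit 0) (XT.nd (nat_lit 94) (nat_lit 504) (nat_lit 0) (XT.lf (nat_lit 0) (nat_lit 970923523) (nat_lit 672) (nat_lit 1669823075) (nat_lit 84) (nat_lit 7830098635) (nat_lit 94) (nat_lit 5) (nat_lit 102) (nat_lit 5) (nat_lit 95) (nat_lit 5) (nat_lit 329) (nat_lit 301) (nat_lit 234)) (XT.nd (nat_lit 94) (nat_lit 0) (nat_lit 0) (XT.lf (nat_lit 0) (nat_lit 2432011297) (nat_lit 588) (nat_lit 7739935300) (nat_lit 84) (nat_lit 479267696) (nat_lit 88) (nat_lit 5) (nat_lit 95) (nat_lit 5) (nat_lit 89) (nat_lit 5) (nat_lit 330) (nat_lit 301) (nat_lit 233)) (XT.lf (nat_lit 0) (nat_lit 3955934022) (nat_lit 588) (nat_lit 3221731904) (nat_lit 84) (nat_lit 3659061511) (nat_lit 88) (nat_lit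 5) (nat_lit 95) (nat_lit 5) (nat_lit 89) (nat_lit 5) (nat_lit 331) (nat_lit 301) (nat_lit 232)))) (XT.nd (nat_lit 94) (nat_lit 0) (nat_lit 0) (XT.lf (nat_lit 0) (nat_lit 1438649273) (nat_lit 504) (nat_lit 4076459564) (nat_lit 588) (nat_lit 5513347848) (nat_lit 82) (nat_lit 5) (nat_lit 88) (nat_lit 5) (nat_lit 89) (nat_lit 5) (nat_lit 332) (nat_lit 301) (nat_lit 231)) (XT.nd (nat_lit 94) (nat_lit 0) (nat_lit 0) (XT.lf (nat_lit 0) (nat_lit 6285201247) (nat_lit 504) (nat_lit 845309746) (nat_lit 588) (nat_lit 4095464577) (nat_lit 82) (nat_lit 5) (nat_lit 88) (nat_lit 5) (nat_lit 89) (nat_lit 5) (nat_lit 333) (nat_lit 301) (nat_lit 230)) (XT.lf (nat_lit 0) (nat_lit 8795682236) (nat_lit 588) (nat_lit 198936401) (nat_lit 84) (nat_lit 2435096445) (nat_lit 82) (nat_lit 5) (nat_lit 89) (nat_lit 5) (nat_lit 83) (nat_lit 5) (nat_lit 334) (nat_lit 301) (nat_lit 229))))) (XT.nd (nat_lit 282) (nat_lit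 420) (nat_lit 0) (XT.nd (nat_lit 94) (nat_lit 504) (nat_lit 0) (XT.lf (nat_lit 0) (nat_lit 4751125265) (nat_lit 420) (nat_lit 5792906729) (nat_lit 504) (nat_lit 1094845558) (nat_lit 77) (nat_lit 5) (nat_lit 82) (nat_lit 5) (nat_lit 83) (nat_lit 5) (nat_lit 335) (nat_lit 301) (nat_lit 228)) (XT.nd (nat_lit 94) (nat_lit 420) (nat_lit 0) (XT.lf (nat_lit 0) (nat_lit 460171744) (nat_lit 504) (nat_lit 2026671736) (nat_lit 84) (nat_lit 9368290642) (nat_lit 76) (nat_lit 5) (nat_lit 82) (nat_lit 5) (nat_lit 77) (nat_lit 5) (nat_lit 336) (nat_lit 301) (nat_lit 227)) (XT.lf (nat_lit 0) (nat_lit 2056701369) (nat_lit 504) (nat_lit 9078013444) (nat_lit 84) (nat_lit 942613043) (nat_lit 71) (nat_lit 5) (nat_lit 77) (nat_lit 5) (nat_lit 72) (nat_lit 5) (nat_lit 337) (nat_lit 301) (nat_lit 226)))) (XT.nd (nat_lit 94) (nat_lit 420) (nat_lit 0) (XT.lf (nat_lit 0) (nat_lit 3726614248) (nat_lit 504) (nat_lit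 4133219341) (nat_lit 84) (nat_lit 4445910920) (nat_lit 71) (nat_lit 5) (nat_lit 77) (nat_lit 5) (nat_lit 72) (nat_lit 5) (nat_lit 338) (nat_lit 301) (nat_lit 225)) (XT.nd (nat_lit 94) (nat_lit 0) (nat_lit 0) (XT.lf (nat_lit 0) (nat_lit 959079893) (nat_lit 420) (nat_lit 4476503331) (nat_lit 504) (nat_lit 7106126157) (nat_lit 66) (nat_lit 5) (nat_lit 71) (nat_lit 5) (nat_lit 72) (nat_lit 5) (nat_lit 339) (nat_lit 301) (nat_lit 224)) (XT.lf (nat_lit 0) (nat_lit 6272009857) (nat_lit 420) (nat_lit 946859051) (nat_lit 504) (nat_lit 5565529810) (nat_lit 66) (nat_lit 5) (nat_lit 71) (nat_lit 5) (nat_lit 72) (nat_lit 5) (nat_lit 340) (nat_lit 301) (nat_lit 223)))))) (XT.nd (nat_lit 564) (nat_lit 1092) (nat_lit 0) (XT.nd (nat_lit 282) (nat_lit 420) (nat_lit 0) (XT.nd (nat_lit 94) (nat_lit 420) (nat_lit 0) (XT.lf (nat_lit 0) (nat_lit 9062966040) (nat_lit 504) (nat_lit 1336478302) (nat_lit 84) (nat_lit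 2635064583) (nat_lit 66) (nat_lit 5) (nat_lit 72) (nat_lit 5) (nat_lit 67) (nat_lit 5) (nat_lit 341) (nat_lit 301) (nat_lit 222)) (XT.nd (nat_lit 94) (nat_lit 0) (nat_lit 0) (XT.lf (nat_lit 0) (nat_lit 4047698619) (nat_lit 420) (nat_lit 6945828725) (nat_lit 504) (nat_lit 2298003837) (nat_lit 61) (nat_lit 5) (nat_lit 66) (nat_lit 5) (nat_lit 67) (nat_lit 5) (nat_lit 342) (nat_lit 301) (nat_lit 221)) (XT.lf (nat_lit 0) (nat_lit 9603306369) (nat_lit 420) (nat_lit 3374420528) (nat_lit 504) (nat_lit 579051551) (nat_lit 61) (nat_lit 5) (nat_lit 66) (nat_lit 5) (nat_lit 67) (nat_lit 5) (nat_lit 343) (nat_lit 301) (nat_lit 220)))) (XT.nd (nat_lit 94) (nat_lit 0) (nat_lit 0) (XT.lf (nat_lit 0) (nat_lit 1167458283) (nat_lit 420) (nat_lit 12337762103) (nat_lit 84) (nat_lit 324774440) (nat_lit 56) (nat_lit 5) (nat_lit 61) (nat_lit 5) (nat_lit 57) (nat_lit 5) (nat_lit 344) (nat_lit 301) (nat_lit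 219)) (XT.nd (nat_lit 94) (nat_lit 0) (nat_lit 0) (XT.lf (nat_lit 0) (nat_lit 3012793497) (nat_lit 420) (nat_lit 6984641415) (nat_lit 84) (nat_lit 4112363502) (nat_lit 56) (nat_lit 5) (nat_lit 61) (nat_lit 5) (nat_lit 57) (nat_lit 5) (nat_lit 345) (nat_lit 301) (nat_lit 218)) (XT.lf (nat_lit 0) (nat_lit 4896431345) (nat_lit 420) (nat_lit 1488802778) (nat_lit 84) (nat_lit 8013685158) (nat_lit 56) (nat_lit 5) (nat_lit 61) (nat_lit 5) (nat_lit 57) (nat_lit 5) (nat_lit 346) (nat_lit 301) (nat_lit 217))))) (XT.nd (nat_lit 282) (nat_lit 420) (nat_lit 0) (XT.nd (nat_lit 94) (nat_lit 336) (nat_lit 0) (XT.lf (nat_lit 0) (nat_lit 4240309287) (nat_lit 336) (nat_lit 2621882680) (nat_lit 420) (nat_lit 7834130953) (nat_lit 52) (nat_lit 5) (nat_lit 56) (nat_lit 5) (nat_lit 57) (nat_lit 5) (nat_lit 347) (nat_lit 301) (nat_lit 216)) (XT.nd (nat_lit 94) (nat_lit 336) (nat_lit 0) (XT.lf (nat_lit 0) (nat_lit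 8899023996) (nat_lit 420) (nat_lit 4859390171) (nat_lit 84) (nat_lit 1244271770) (nat_lit 52) (nat_lit 5) (nat_lit 57) (nat_lit 5) (nat_lit 53) (nat_lit 5) (nat_lit 348) (nat_lit 301) (nat_lit 215)) (XT.lf (nat_lit 0) (nat_lit 879447808) (nat_lit 336) (nat_lit 10137585576) (nat_lit 420) (nat_lit 4301006083) (nat_lit 48) (nat_lit 5) (nat_lit 52) (nat_lit 5) (nat_lit 53) (nat_lit 5) (nat_lit 349) (nat_lit 301) (nat_lit 214)))) (XT.nd (nat_lit 94) (nat_lit 420) (nat_lit 0) (XT.lf (nat_lit 0) (nat_lit 6877246849) (nat_lit 336) (nat_lit 6356980404) (nat_lit 420) (nat_lit 2407953177) (nat_lit 48) (nat_lit 5) (nat_lit 52) (nat_lit 5) (nat_lit 53) (nat_lit 5) (nat_lit 350) (nat_lit 301) (nat_lit 213)) (XT.nd (nat_lit 94) (nat_lit 420) (nat_lit 0) (XT.lf (nat_lit 0) (nat_lit 13039678498) (nat_lit 336) (nat_lit 2463796801) (nat_lit 420) (nat_lit 473460766) (nat_lit 48) (nat_lit 5) (nat_lit 52)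 (nat_lit 5) (nat_lit 53) (nat_lit 5) (nat_lit 351) (nat_lit 301) (nat_lit 212)) (XT.lf (nat_lit 0) (nat_lit 1520491986) (nat_lit 420) (nat_lit 13239652144) (nat_lit 84) (nat_lit 1560569379) (nat_lit 43) (nat_lit 5) (nat_lit 48) (nat_lit 5) (nat_lit 44) (nat_lit 5) (nat_lit 352) (nat_lit 301) (nat_lit 211))))))) (XT.nd (nat_lit 1128) (nat_lit 672) (nat_lit 0) (XT.nd (nat_lit 564) (nat_lit 588) (nat_lit 0) (XT.nd (nat_lit 282) (nat_lit 252) (nat_lit 0) (XT.nd (nat_lit 94) (nat_lit 252) (nat_lit 0) (XT.lf (nat_lit 0) (nat_lit 3606443428) (nat_lit 420) (nat_lit 7377662258) (nat_lit 84) (nat_lit 5689696550) (nat_lit 43) (nat_lit 5) (nat_lit 48) (nat_lit 5) (nat_lit 44) (nat_lit 5) (nat_lit 353) (nat_lit 301) (nat_lit 210)) (XT.nd (nat_lit 94) (nat_lit 252) (nat_lit 0) (XT.lf (nat_lit 0) (nat_lit 5741394659) (nat_lit 420) (nat_lit 1354635776) (nat_lit 84) (nat_lit 9942335480) (nat_lit 43)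 (nat_lit 5) (nat_lit 48) (nat_lit 5) (nat_lit 44) (nat_lit 5) (nat_lit 354) (nat_lit 301) (nat_lit 209)) (XT.lf (nat_lit 0) (nat_lit 4934459759) (nat_lit 252) (nat_lit 3041826369) (nat_lit 336) (nat_lit 9436940767) (nat_lit 40) (nat_lit 5) (nat_lit 43) (nat_lit 5) (nat_lit 44) (nat_lit 5) (nat_lit 355) (nat_lit 301) (nat_lit 208)))) (XT.nd (nat_lit 94) (nat_lit 252) (nat_lit 0) (XT.lf (nat_lit 0) (nat_lit 10291050405) (nat_lit 336) (nat_lit 6383784814) (nat_lit 84) (nat_lit 1124586034) (nat_lit 40) (nat_lit 5) (nat_lit 44) (nat_lit 5) (nat_lit 41) (nat_lit 5) (nat_lit 356) (nat_lit 301) (nat_lit 207)) (XT.nd (nat_lit 94) (nat_lit 252) (nat_lit 0) (XT.lf (nat_lit 0) (nat_lit 12694150860) (nat_lit 336) (nat_lit 150673044) (nat_lit 84) (nat_lit 5352289578) (nat_lit 40) (nat_lit 5) (nat_lit 44) (nat_lit 5) (nat_lit 41) (nat_lit 5) (nat_lit 357) (nat_lit 301) (nat_lit 206)) (XT.lf (nat_lit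 0) (nat_lit 6385200950) (nat_lit 252) (nat_lit 8835793177) (nat_lit 336) (nat_lit 3384651982) (nat_lit 37) (nat_lit 5) (nat_lit 40) (nat_lit 5) (nat_lit 41) (nat_lit 5) (nat_lit 358) (nat_lit 301) (nat_lit 205))))) (XT.nd (nat_lit 282) (nat_lit 252) (nat_lit 0) (XT.nd (nat_lit 94) (nat_lit 336) (nat_lit 0) (XT.lf (nat_lit 0) (nat_lit 13107962907) (nat_lit 252) (nat_lit 4705920202) (nat_lit 336) (nat_lit 1213378441) (nat_lit 37) (nat_lit 5) (nat_lit 40) (nat_lit 5) (nat_lit 41) (nat_lit 5) (nat_lit 359) (nat_lit 301) (nat_lit 204)) (XT.nd (nat_lit 94) (nat_lit 0) (nat_lit 0) (XT.lf (nat_lit 0) (nat_lit 559623774) (nat_lit 252) (nat_lit 436861274) (nat_lit 336) (nat_lit 18465431936) (nat_lit 33) (nat_lit 5) (nat_lit 36) (nat_lit 5) (nat_lit 37) (nat_lit 5) (nat_lit 360) (nat_lit 301) (nat_lit 203)) (XT.lf (nat_lit 0) (nat_lit 3337955722) (nat_lit 336) (nat_lit 12614497678) (nat_lit 84)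 (nat_lit 3954505286) (nat_lit 33) (nat_lit 5) (nat_lit 37) (nat_lit 5) (nat_lit 34) (nat_lit 5) (nat_lit 361) (nat_lit 301) (nat_lit 202)))) (XT.nd (nat_lit 94) (nat_lit 252) (nat_lit 0) (XT.lf (nat_lit 0) (nat_lit 5743444327) (nat_lit 336) (nat_lit 6154555488) (nat_lit 84) (nat_lit 8468095585) (nat_lit 33) (nat_lit 5) (nat_lit 37) (nat_lit 5) (nat_lit 34) (nat_lit 5) (nat_lit 362) (nat_lit 301) (nat_lit 201)) (XT.nd (nat_lit 94) (nat_lit 0) (nat_lit 0) (XT.lf (nat_lit 0) (nat_lit 497920406) (nat_lit 252) (nat_lit 7717878339) (nat_lit 336) (nat_lit 12623937568) (nat_lit 30) (nat_lit 5) (nat_lit 33) (nat_lit 5) (nat_lit 34) (nat_lit 5) (nat_lit 363) (nat_lit 301) (nat_lit 200)) (XT.lf (nat_lit 0) (nat_lit 7469519675) (nat_lit 252) (nat_lit 3347079455) (nat_lit 336) (nat_lit 10509886233) (nat_lit 30) (nat_lit 5) (nat_lit 33) (nat_lit 5) (nat_lit 34) (nat_lit 5) (nat_lit 364) (nat_lit 301)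 (nat_lit 199)))))) (XT.nd (nat_lit 564) (nat_lit 168) (nat_lit 0) (XT.nd (nat_lit 282) (nat_lit 336) (nat_lit 0) (XT.nd (nat_lit 94) (nat_lit 168) (nat_lit 0) (XT.lf (nat_lit 0) (nat_lit 13497410457) (nat_lit 336) (nat_lit 7199987648) (nat_lit 84) (nat_lit 1130974781) (nat_lit 30) (nat_lit 5) (nat_lit 34) (nat_lit 5) (nat_lit 31) (nat_lit 5) (nat_lit 365) (nat_lit 301) (nat_lit 198)) (XT.nd (nat_lit 94) (nat_lit 168) (nat_lit 0) (XT.lf (nat_lit 0) (nat_lit 16283810491) (nat_lit 336) (nat_lit 387755755) (nat_lit 84) (nat_lit 5673585001) (nat_lit 30) (nat_lit 5) (nat_lit 34) (nat_lit 5) (nat_lit 31) (nat_lit 5) (nat_lit 366) (nat_lit 301) (nat_lit 197)) (XT.lf (nat_lit 0) (nat_lit 6755389184) (nat_lit 168) (nat_lit 12456818118) (nat_lit 252) (nat_lit 3664046698) (nat_lit 28) (nat_lit 5) (nat_lit 30) (nat_lit 5) (nat_lit 31) (nat_lit 5) (nat_lit 367) (nat_lit 301) (nat_lit 196)))) (XT.nd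 (nat_lit 94) (nat_lit 336) (nat_lit 0) (XT.lf (nat_lit 0) (nat_lit 14111985410) (nat_lit 168) (nat_lit 8112232342) (nat_lit 252) (nat_lit 1199852933) (nat_lit 28) (nat_lit 5) (nat_lit 30) (nat_lit 5) (nat_lit 31) (nat_lit 5) (nat_lit 368) (nat_lit 301) (nat_lit 195)) (XT.nd (nat_lit 94) (nat_lit 252) (nat_lit 0) (XT.lf (nat_lit 0) (nat_lit 1302703789) (nat_lit 252) (nat_lit 2321505337) (nat_lit 84) (nat_lit 20364615641) (nat_lit 27) (nat_lit 5) (nat_lit 30) (nat_lit 5) (nat_lit 28) (nat_lit 5) (nat_lit 369) (nat_lit 301) (nat_lit 194)) (XT.lf (nat_lit 0) (nat_lit 3906946111) (nat_lit 336) (nat_lit 19622157202) (nat_lit 84) (nat_lit 1040107724) (nat_lit 24) (nat_lit 5) (nat_lit 28) (nat_lit 5) (nat_lit 25) (nat_lit 5) (nat_lit 370) (nat_lit 301) (nat_lit 193))))) (XT.nd (nat_lit 282) (nat_lit 0) (nat_lit 0) (XT.nd (nat_lit 94) (nat_lit 168) (nat_lit 0) (XT.lf (nat_lit 0) (nat_lit 6642904813)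 (nat_lit 336) (nat_lit 12729637038) (nat_lit 84) (nat_lit 5793491306) (nat_lit 24) (nat_lit 5) (nat_lit 28) (nat_lit 5) (nat_lit 25) (nat_lit 5) (nat_lit 371) (nat_lit 301) (nat_lit 192)) (XT.nd (nat_lit 94) (nat_lit 168) (nat_lit 0) (XT.lf (nat_lit 0) (nat_lit 9453433955) (nat_lit 336) (nat_lit 5638615588) (nat_lit 84) (nat_lit 10689648467) (nat_lit 24) (nat_lit 5) (nat_lit 28) (nat_lit 5) (nat_lit 25) (nat_lit 5) (nat_lit 372) (nat_lit 301) (nat_lit 191)) (XT.lf (nat_lit 0) (nat_lit 1691598665) (nat_lit 168) (nat_lit 10666335445) (nat_lit 252) (nat_lit 14058325143) (nat_lit 22) (nat_lit 5) (nat_lit 24) (nat_lit 5) (nat_lit 25) (nat_lit 5) (nat_lit 373) (nat_lit 301) (nat_lit 190)))) (XT.nd (nat_lit 94) (nat_lit 0) (nat_lit 0) (XT.lf (nat_lit 0) (nat_lit 9354023377) (nat_lit 168) (nat_lit 6047524025) (nat_lit 252) (nat_lit 11667445482) (nat_lit 22) (nat_lit 5) (nat_lit 24) (nat_lit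 5) (nat_lit 25) (nat_lit 5) (nat_lit 374) (nat_lit 301) (nat_lit 189)) (XT.nd (nat_lit 94) (nat_lit 0) (nat_lit 0) (XT.lf (nat_lit 0) (nat_lit 17239859230) (nat_lit 168) (nat_lit 1290165649) (nat_lit 252) (nat_lit 9212252103) (nat_lit 22) (nat_lit 5) (nat_lit 24) (nat_lit 5) (nat_lit 25) (nat_lit 5) (nat_lit 375) (nat_lit 301) (nat_lit 188)) (XT.lf (nat_lit 0) (nat_lit 21782095983) (nat_lit 252) (nat_lit 3116095844) (nat_lit 84) (nat_lit 3537437077) (nat_lit 22) (nat_lit 5) (nat_lit 25) (nat_lit 5) (nat_lit 23) (nat_lit 5) (nat_lit 376) (nat_lit 301) (nat_lit 187))))))))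
noncomputable def xc120 : XT := (XT.nd (nat_lit 2256) (nat_lit 336) (nat_lit 0) (XT.nd (nat_lit 1128) (nat_lit 420) (nat_lit 0) (XT.nd (nat_lit 564) (nat_lit 168) (nat_lit 0) (XT.nd (nat_lit 282) (nat_lit 168) (nat_lit 0) (XT.nd (nat_lit 94) (nat_lit 84) (nat_lit 0) (XT.lf (nat_lit 0) (nat_lit 4564428554) (nat_lit 168) (nat_lit 20620058678) (nat_lit 252) (nat_lit 3964473143) (nat_lit 20) (nat_lit 5) (nat_lit 22) (nat_lit 5) (nat_lit 23) (nat_lit 5) (nat_lit 377) (nat_lit 301) (nat_lit 186)) (XT.nd (nat_lit 94) (nat_lit 84) (nat_lit 0) (XT.lf (nat_lit 0) (nat_lit 12535704704) (nat_lit 168) (nat_lit 16180341152) (nat_lit 252) (nat_lit 1167644485) (nat_lit 20) (nat_lit 5) (nat_lit 22) (nat_lit 5) (nat_lit 23) (nat_lit 5) (nat_lit 378) (nat_lit 301) (nat_lit 185)) (XT.lf (nat_lit 0) (nat_lit 1672641400) (nat_lit 252) (nat_lit 9917326273) (nat_lit 84) (nat_lit 19050989002) (nat_lit 19) (nat_lit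 5) (nat_lit 22) (nat_lit 5) (nat_lit 20) (nat_lit 5) (nat_lit 379) (nat_lit 301) (nat_lit 184)))) (XT.nd (nat_lit 94) (nat_lit 168) (nat_lit 0) (XT.lf (nat_lit 0) (nat_lit 4568309028) (nat_lit 252) (nat_lit 2281059837) (nat_lit 84) (nat_lit 24572237960) (nat_lit 19) (nat_lit 5) (nat_lit 22) (nat_lit 5) (nat_lit 20) (nat_lit 5) (nat_lit 380) (nat_lit 301) (nat_lit 183)) (XT.nd (nat_lit 94) (nat_lit 0) (nat_lit 0) (XT.lf (nat_lit 0) (nat_lit 5694240909) (nat_lit 168) (nat_lit 1907829561) (nat_lit 252) (nat_lit 24622905934) (nat_lit 17) (nat_lit 5) (nat_lit 19) (nat_lit 5) (nat_lit 20) (nat_lit 5) (nat_lit 381) (nat_lit 301) (nat_lit 182)) (XT.lf (nat_lit 0) (nat_lit 10777467792) (nat_lit 252) (nat_lit 19131751370) (nat_lit 84) (nat_lit 3142572932) (nat_lit 17) (nat_lit 5) (nat_lit 20) (nat_lit 5) (nat_lit 18) (nat_lit 5) (nat_lit 382) (nat_lit 301) (nat_lit 181))))) (XT.nd (nat_lit 282)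 (nat_lit 0) (nat_lit 0) (XT.nd (nat_lit 94) (nat_lit 168) (nat_lit 0) (XT.lf (nat_lit 0) (nat_lit 14062979688) (nat_lit 252) (nat_lit 11535049407) (nat_lit 84) (nat_lit 8305864391) (nat_lit 17) (nat_lit 5) (nat_lit 20) (nat_lit 5) (nat_lit 18) (nat_lit 5) (nat_lit 383) (nat_lit 301) (nat_lit 180)) (XT.nd (nat_lit 94) (nat_lit 168) (nat_lit 0) (XT.lf (nat_lit 0) (nat_lit 17442742696) (nat_lit 252) (nat_lit 3714622780) (nat_lit 84) (nat_lit 13625296059) (nat_lit 17) (nat_lit 5) (nat_lit 20) (nat_lit 5) (nat_lit 18) (nat_lit 5) (nat_lit 384) (nat_lit 301) (nat_lit 179)) (XT.lf (nat_lit 0) (nat_lit 4425991839) (nat_lit 168) (nat_lit 16537821654) (nat_lit 252) (nat_lit 14723740750) (nat_lit 15) (nat_lit 5) (nat_lit 17) (nat_lit 5) (nat_lit 18) (nat_lit 5) (nat_lit 385) (nat_lit 301) (nat_lit 178)))) (XT.nd (nat_lit 94) (nat_lit 0) (nat_lit 0) (XT.lf (nat_lit 0) (nat_lit 12886410067) (nat_lit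 168) (nat_lit 11739138719) (nat_lit 252) (nat_lit 11993987965) (nat_lit 15) (nat_lit 5) (nat_lit 17) (nat_lit 5) (nat_lit 18) (nat_lit 5) (nat_lit 386) (nat_lit 301) (nat_lit 177)) (XT.nd (nat_lit 94) (nat_lit 0) (nat_lit 0) (XT.lf (nat_lit 0) (nat_lit 21598137637) (nat_lit 168) (nat_lit 6795616838) (nat_lit 252) (nat_lit 9186889112) (nat_lit 15) (nat_lit 5) (nat_lit 17) (nat_lit 5) (nat_lit 18) (nat_lit 5) (nat_lit 387) (nat_lit 301) (nat_lit 176)) (XT.lf (nat_lit 0) (nat_lit 30569294790) (nat_lit 168) (nat_lit 1702648132) (nat_lit 252) (nat_lit 6299827682) (nat_lit 15) (nat_lit 5) (nat_lit 17) (nat_lit 5) (nat_lit 18) (nat_lit 5) (nat_lit 388) (nat_lit 301) (nat_lit 175)))))) (XT.nd (nat_lit 564) (nat_lit 84) (nat_lit 0) (XT.nd (nat_lit 282) (nat_lit 168) (nat_lit 0) (XT.nd (nat_lit 94) (nat_lit 84) (nat_lit 0) (XT.lf (nat_lit 0) (nat_lit 182925464) (nat_lit 84) (nat_lit 36117780209)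 (nat_lit 168) (nat_lit 3291989688) (nat_lit 14) (nat_lit 5) (nat_lit 15) (nat_lit 5) (nat_lit 16) (nat_lit 4) (nat_lit 389) (nat_lit 301) (nat_lit 174)) (XT.nd (nat_lit 94) (nat_lit 84) (nat_lit 0) (XT.lf (nat_lit 0) (nat_lit 8763559860) (nat_lit 84) (nat_lit 31785001898) (nat_lit 168) (nat_lit 93800029) (nat_lit 14) (nat_lit 5) (nat_lit 15) (nat_lit 5) (nat_lit 16) (nat_lit 4) (nat_lit 390) (nat_lit 301) (nat_lit 173)) (XT.lf (nat_lit 0) (nat_lit 3132543601) (nat_lit 168) (nat_lit 24156376441) (nat_lit 84) (nat_lit 14434874956) (nat_lit 13) (nat_lit 5) (nat_lit 15) (nat_lit 5) (nat_lit 14) (nat_lit 5) (nat_lit 391) (nat_lit 301) (nat_lit 172)))) (XT.nd (nat_lit 94) (nat_lit 168) (nat_lit 0) (XT.lf (nat_lit 0) (nat_lit 6450703406) (nat_lit 168) (nat_lit 16205430775) (nat_lit 84) (nat_lit 20182794628) (nat_lit 13) (nat_lit 5) (nat_lit 15) (nat_lit 5) (nat_lit 14) (nat_lit 5) (nat_lit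 392) (nat_lit 301) (nat_lit 171)) (XT.nd (nat_lit 94) (nat_lit 168) (nat_lit 0) (XT.lf (nat_lit 0) (nat_lit 9865662117) (nat_lit 168) (nat_lit 8017623306) (nat_lit 84) (nat_lit 26105546059) (nat_lit 13) (nat_lit 5) (nat_lit 15) (nat_lit 5) (nat_lit 14) (nat_lit 5) (nat_lit 393) (nat_lit 301) (nat_lit 170)) (XT.lf (nat_lit 0) (nat_lit 423204485) (nat_lit 168) (nat_lit 12961596589) (nat_lit 252) (nat_lit 31789643630) (nat_lit 11) (nat_lit 5) (nat_lit 13) (nat_lit 5) (nat_lit 14) (nat_lit 5) (nat_lit 394) (nat_lit 301) (nat_lit 169))))) (XT.nd (nat_lit 282) (nat_lit 84) (nat_lit 0) (XT.nd (nat_lit 94) (nat_lit 0) (nat_lit 0) (XT.lf (nat_lit 0) (nat_lit 9286433446) (nat_lit 168) (nat_lit 7804490973) (nat_lit 252) (nat_lit 29303483931) (nat_lit 11) (nat_lit 5) (nat_lit 13) (nat_lit 5) (nat_lit 14) (nat_lit 5) (nat_lit 395) (nat_lit 301) (nat_lit 168)) (XT.nd (nat_lit 94) (nat_lit 0) (nat_lit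 0) (XT.lf (nat_lit 0) (nat_lit 18415466254) (nat_lit 168) (nat_lit 2490849156) (nat_lit 252) (nat_lit 26746060449) (nat_lit 11) (nat_lit 5) (nat_lit 13) (nat_lit 5) (nat_lit 14) (nat_lit 5) (nat_lit 396) (nat_lit 301) (nat_lit 167)) (XT.lf (nat_lit 0) (nat_lit 24864134836) (nat_lit 252) (nat_lit 21160312110) (nat_lit 84) (nat_lit 2924155106) (nat_lit 11) (nat_lit 5) (nat_lit 14) (nat_lit 5) (nat_lit 12) (nat_lit 4) (nat_lit 397) (nat_lit 301) (nat_lit 166)))) (XT.nd (nat_lit 94) (nat_lit 84) (nat_lit 0) (XT.lf (nat_lit 0) (nat_lit 28964801910) (nat_lit 252) (nat_lit 12867384296) (nat_lit 84) (nat_lit 8452210309) (nat_lit 11) (nat_lit 5) (nat_lit 14) (nat_lit 5) (nat_lit 12) (nat_lit 4) (nat_lit 398) (nat_lit 301) (nat_lit 165)) (XT.nd (nat_lit 94) (nat_lit 84) (nat_lit 0) (XT.lf (nat_lit 0) (nat_lit 33187429351) (nat_lit 252) (nat_lit 4325686752) (nat_lit 84) (nat_lit 14148654239) (nat_lit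 11) (nat_lit 5) (nat_lit 14) (nat_lit 5) (nat_lit 12) (nat_lit 4) (nat_lit 399) (nat_lit 301) (nat_lit 164)) (XT.lf (nat_lit 0) (nat_lit 4564711031) (nat_lit 84) (nat_lit 33016524559) (nat_lit 168) (nat_lit 15499368045) (nat_lit 10) (nat_lit 5) (nat_lit 11) (nat_lit 5) (nat_lit 12) (nat_lit 4) (nat_lit 400) (nat_lit 301) (nat_lit 163))))))) (XT.nd (nat_lit 1128) (nat_lit 84) (nat_lit 0) (XT.nd (nat_lit 564) (nat_lit 0) (nat_lit 0) (XT.nd (nat_lit 282) (nat_lit 252) (nat_lit 0) (XT.nd (nat_lit 94) (nat_lit 0) (nat_lit 0) (XT.lf (nat_lit 0) (nat_lit 13814433907) (nat_lit 84) (nat_lit 28337033398) (nat_lit 168) (nat_lit 12390715902) (nat_lit 10) (nat_lit 5) (nat_lit 11) (nat_lit 5) (nat_lit 12) (nat_lit 4) (nat_lit 401) (nat_lit 301) (nat_lit 162)) (XT.nd (nat_lit 94) (nat_lit 0) (nat_lit 0) (XT.lf (nat_lit 0) (nat_lit 23343158593) (nat_lit 84) (nat_lit 23515432144) (nat_lit 168) (nat_lit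 9190638270) (nat_lit 10) (nat_lit 5) (nat_lit 11) (nat_lit 5) (nat_lit 12) (nat_lit 4) (nat_lit 402) (nat_lit 301) (nat_lit 161)) (XT.lf (nat_lit 0) (nat_lit 33159766859) (nat_lit 84) (nat_lit 18547226559) (nat_lit 168) (nat_lit 5896152342) (nat_lit 10) (nat_lit 5) (nat_lit 11) (nat_lit 5) (nat_lit 12) (nat_lit 4) (nat_lit 403) (nat_lit 301) (nat_lit 160)))) (XT.nd (nat_lit 94) (nat_lit 252) (nat_lit 0) (XT.lf (nat_lit 0) (nat_lit 43273408813) (nat_lit 84) (nat_lit 13427785755) (nat_lit 168) (nat_lit 2504187312) (nat_lit 10) (nat_lit 5) (nat_lit 11) (nat_lit 5) (nat_lit 12) (nat_lit 4) (nat_lit 404) (nat_lit 301) (nat_lit 159)) (XT.nd (nat_lit 94) (nat_lit 168) (nat_lit 0) (XT.lf (nat_lit 0) (nat_lit 968504056) (nat_lit 168) (nat_lit 7173724624) (nat_lit 84) (nat_lit 52714898176) (nat_lit 9) (nat_lit 5) (nat_lit 11) (nat_lit 5) (nat_lit 10) (nat_lit 5) (nat_lit 405) (nat_lit 301) (nat_lit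 158)) (XT.lf (nat_lit 0) (nat_lit 1860966215) (nat_lit 168) (nat_lit 2650039396) (nat_lit 252) (nat_lit 58047844582) (nat_lit 7) (nat_lit 5) (nat_lit 9) (nat_lit 5) (nat_lit 10) (nat_lit 5) (nat_lit 406) (nat_lit 301) (nat_lit 157))))) (XT.nd (nat_lit 282) (nat_lit 0) (nat_lit 0) (XT.nd (nat_lit 94) (nat_lit 0) (nat_lit 0) (XT.lf (nat_lit 0) (nat_lit 8264600976) (nat_lit 252) (nat_lit 53020830830) (nat_lit 84) (nat_lit 3024763004) (nat_lit 7) (nat_lit 5) (nat_lit 10) (nat_lit 5) (nat_lit 8) (nat_lit 4) (nat_lit 407) (nat_lit 301) (nat_lit 156)) (XT.nd (nat_lit 94) (nat_lit 0) (nat_lit 0) (XT.lf (nat_lit 0) (nat_lit 12157537310) (nat_lit 252) (nat_lit 45139670100) (nat_lit 84) (nat_lit 8817918534) (nat_lit 7) (nat_lit 5) (nat_lit 10) (nat_lit 5) (nat_lit 8) (nat_lit 4) (nat_lit 408) (nat_lit 301) (nat_lit 155)) (XT.lf (nat_lit 0) (nat_lit 16167154518) (nat_lit 252) (nat_lit 37020767001)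 (nat_lit 84) (nat_lit 14788219410) (nat_lit 7) (nat_lit 5) (nat_lit 10) (nat_lit 5) (nat_lit 8) (nat_lit 4) (nat_lit 409) (nat_lit 301) (nat_lit 154)))) (XT.nd (nat_lit 94) (nat_lit 0) (nat_lit 0) (XT.lf (nat_lit 0) (nat_lit 20297189983) (nat_lit 252) (nat_lit 28656553865) (nat_lit 84) (nat_lit 20941230576) (nat_lit 7) (nat_lit 5) (nat_lit 10) (nat_lit 5) (nat_lit 8) (nat_lit 4) (nat_lit 410) (nat_lit 301) (nat_lit 153)) (XT.nd (nat_lit 94) (nat_lit 0) (nat_lit 0) (XT.lf (nat_lit 0) (nat_lit 24551493332) (nat_lit 252) (nat_lit 20039234369) (nat_lit 84) (nat_lit 27282687285) (nat_lit 7) (nat_lit 5) (nat_lit 10) (nat_lit 5) (nat_lit 8) (nat_lit 4) (nat_lit 411) (nat_lit 301) (nat_lit 152)) (XT.lf (nat_lit 0) (nat_lit 28934030020) (nat_lit 252) (nat_lit 11160776269) (nat_lit 84) (nat_lit 33818500439) (nat_lit 7) (nat_lit 5) (nat_lit 10) (nat_lit 5) (nat_lit 8) (nat_lit 4) (nat_lit 412)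 (nat_lit 301) (nat_lit 151)))))) (XT.nd (nat_lit 43992) (nat_lit 0) (nat_lit 12348) (XT.nd (nat_lit 282) (nat_lit 0) (nat_lit 0) (XT.nd (nat_lit 94) (nat_lit 84) (nat_lit 0) (XT.lf (nat_lit 0) (nat_lit 33448885031) (nat_lit 252) (nat_lit 2012903912) (nat_lit 84) (nat_lit 40554762098) (nat_lit 7) (nat_lit 5) (nat_lit 10) (nat_lit 5) (nat_lit 8) (nat_lit 4) (nat_lit 413) (nat_lit 301) (nat_lit 150)) (XT.nd (nat_lit 94) (nat_lit 0) (nat_lit 0) (XT.lf (nat_lit 0) (nat_lit 7565334099) (nat_lit 84) (nat_lit 30609981635) (nat_lit 168) (nat_lit 40007466118) (nat_lit 6) (nat_lit 5) (nat_lit 7) (nat_lit 5) (nat_lit 8) (nat_lit 4) (nat_lit 414) (nat_lit 301) (nat_lit 149)) (XT.lf (nat_lit 0) (nat_lit 17477584114) (nat_lit 84) (nat_lit 25588306235) (nat_lit 168) (nat_lit 37349734919) (nat_lit 6) (nat_lit 5) (nat_lit 7) (nat_lit 5) (nat_lit 8) (nat_lit 4) (nat_lit 415) (nat_lit 301) (nat_lit 148))))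 (XT.nd (nat_lit 43522) (nat_lit 0) (nat_lit 13104) (XT.lf (nat_lit 0) (nat_lit 27691695956) (nat_lit 84) (nat_lit 20413092604) (nat_lit 168) (nat_lit 34613005719) (nat_lit 6) (nat_lit 5) (nat_lit 7) (nat_lit 5) (nat_lit 8) (nat_lit 4) (nat_lit 416) (nat_lit 301) (nat_lit 147)) (XT.nd (nat_lit 94) (nat_lit 0) (nat_lit 0) (XT.lf (nat_lit 0) (nat_lit 111500580) (nat_lit 0) (nat_lit 111500580) (nat_lit 756) (nat_lit 3467959310) (nat_lit 162) (nat_lit 5) (nat_lit 162) (nat_lit 3) (nat_lit 171) (nat_lit 3) (nat_lit 302) (nat_lit 302) (nat_lit 260)) (XT.lf (nat_lit 0) (nat_lit 1776375485) (nat_lit 756) (nat_lit 4234271914) (nat_lit 840) (nat_lit 1438686398) (nat_lit 162) (nat_lit 5) (nat_lit 171) (nat_lit 3) (nat_lit 172) (nat_lit 5) (nat_lit 303) (nat_lit 302) (nat_lit 259))))) (XT.nd (nat_lit 282) (nat_lit 756) (nat_lit 0) (XT.nd (nat_lit 94) (nat_lit 0) (nat_lit 0) (XT.lf (nat_lit 0) (nat_lit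 3097789976) (nat_lit 756) (nat_lit 1249749632) (nat_lit 840) (nat_lit 3173094002) (nat_lit 162) (nat_lit 5) (nat_lit 171) (nat_lit 3) (nat_lit 172) (nat_lit 5) (nat_lit 304) (nat_lit 302) (nat_lit 258)) (XT.nd (nat_lit 94) (nat_lit 0) (nat_lit 0) (XT.lf (nat_lit 84) (nat_lit 1836645461) (nat_lit 0) (nat_lit 2590839582) (nat_lit 840) (nat_lit 3167905565) (nat_lit 163) (nat_lit 5) (nat_lit 162) (nat_lit 5) (nat_lit 172) (nat_lit 5) (nat_lit 305) (nat_lit 302) (nat_lit 257)) (XT.lf (nat_lit 84) (nat_lit 5017841097) (nat_lit 0) (nat_lit 743960377) (nat_lit 840) (nat_lit 1912024855) (nat_lit 163) (nat_lit 5) (nat_lit 162) (nat_lit 5) (nat_lit 172) (nat_lit 5) (nat_lit 306) (nat_lit 302) (nat_lit 256)))) (XT.nd (nat_lit 94) (nat_lit 840) (nat_lit 0) (XT.lf (nat_lit 84) (nat_lit 513317809) (nat_lit 0) (nat_lit 6592828117) (nat_lit 840) (nat_lit 649738907) (nat_lit 164) (nat_lit 5) (nat_lit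 163) (nat_lit 5) (nat_lit 173) (nat_lit 5) (nat_lit 307) (nat_lit 302) (nat_lit 255)) (XT.nd (nat_lit 94) (nat_lit 0) (nat_lit 0) (XT.lf (nat_lit 0) (nat_lit 626700960) (nat_lit 840) (nat_lit 4046180300) (nat_lit 924) (nat_lit 3167979586) (nat_lit 153) (nat_lit 5) (nat_lit 163) (nat_lit 5) (nat_lit 164) (nat_lit 5) (nat_lit 308) (nat_lit 302) (nat_lit 254)) (XT.lf (nat_lit 0) (nat_lit 1883178328) (nat_lit 840) (nat_lit 785837862) (nat_lit 924) (nat_lit 5260876646) (nat_lit 153) (nat_lit 5) (nat_lit 163) (nat_lit 5) (nat_lit 164) (nat_lit 5) (nat_lit 309) (nat_lit 302) (nat_lit 253))))))))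
noncomputable def xc121 : XT := (XT.nd (nat_lit 2256) (nat_lit 3528) (nat_lit 0) (XT.nd (nat_lit 1128) (nat_lit 3276) (nat_lit 0) (XT.nd (nat_lit 564) (nat_lit 1932) (nat_lit 0) (XT.nd (nat_lit 282) (nat_lit 756) (nat_lit 0) (XT.nd (nat_lit 94) (nat_lit 0) (nat_lit 84) (XT.lf (nat_lit 84) (nat_lit 2600335730) (nat_lit 0) (nat_lit 559415078) (nat_lit 924) (nat_lit 4862713126) (nat_lit 154) (nat_lit 5) (nat_lit 153) (nat_lit 5) (nat_lit 164) (nat_lit 5) (nat_lit 310) (nat_lit 302) (nat_lit 252)) (XT.nd (nat_lit 94) (nat_lit 0) (nat_lit 0) (XT.lf (nat_lit 0) (nat_lit 4456791162) (nat_lit 840) (nat_lit 2054672505) (nat_lit 924) (nat_lit 1607222092) (nat_lit 154) (nat_lit 5) (nat_lit 164) (nat_lit 5) (nat_lit 165) (nat_lit 5) (nat_lit 311) (nat_lit 302) (nat_lit 251)) (XT.lf (nat_lit 84) (nat_lit 1411717888) (nat_lit 0) (nat_lit 4359934225) (nat_lit 924) (nat_lit 2447115430) (nat_lit 155)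 (nat_lit 5) (nat_lit 154) (nat_lit 5) (nat_lit 165) (nat_lit 5) (nat_lit 312) (nat_lit 302) (nat_lit 250)))) (XT.nd (nat_lit 94) (nat_lit 840) (nat_lit 0) (XT.lf (nat_lit 84) (nat_lit 5001231734) (nat_lit 0) (nat_lit 2106364583) (nat_lit 924) (nat_lit 1215143105) (nat_lit 155) (nat_lit 5) (nat_lit 154) (nat_lit 5) (nat_lit 165) (nat_lit 5) (nat_lit 313) (nat_lit 302) (nat_lit 249)) (XT.nd (nat_lit 94) (nat_lit 0) (nat_lit 0) (XT.lf (nat_lit 0) (nat_lit 18219948) (nat_lit 924) (nat_lit 8185075918) (nat_lit 1008) (nat_lit 227895135) (nat_lit 144) (nat_lit 5) (nat_lit 155) (nat_lit 5) (nat_lit 156) (nat_lit 5) (nat_lit 314) (nat_lit 302) (nat_lit 248)) (XT.lf (nat_lit 0) (nat_lit 1281736954) (nat_lit 924) (nat_lit 4610780085) (nat_lit 1008) (nat_lit 2649732299) (nat_lit 144) (nat_lit 5) (nat_lit 155) (nat_lit 5) (nat_lit 156) (nat_lit 5) (nat_lit 315) (nat_lit 302) (nat_lit 247))))) (XT.nd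 (nat_lit 282) (nat_lit 1932) (nat_lit 0) (XT.nd (nat_lit 94) (nat_lit 0) (nat_lit 0) (XT.lf (nat_lit 0) (nat_lit 2546201459) (nat_lit 924) (nat_lit 954073755) (nat_lit 1008) (nat_lit 5157817284) (nat_lit 144) (nat_lit 5) (nat_lit 155) (nat_lit 5) (nat_lit 156) (nat_lit 5) (nat_lit 316) (nat_lit 302) (nat_lit 246)) (XT.nd (nat_lit 94) (nat_lit 0) (nat_lit 84) (XT.lf (nat_lit 84) (nat_lit 2845787785) (nat_lit 0) (nat_lit 995234859) (nat_lit 1008) (nat_lit 4936930671) (nat_lit 145) (nat_lit 5) (nat_lit 144) (nat_lit 5) (nat_lit 156) (nat_lit 5) (nat_lit 317) (nat_lit 302) (nat_lit 245)) (XT.lf (nat_lit 0) (nat_lit 5165652465) (nat_lit 924) (nat_lit 2162019906) (nat_lit 84) (nat_lit 1574325542) (nat_lit 145) (nat_lit 5) (nat_lit 156) (nat_lit 5) (nat_lit 146) (nat_lit 5) (nat_lit 318) (nat_lit 302) (nat_lit 244)))) (XT.nd (nat_lit 94) (nat_lit 1092) (nat_lit 0) (XT.lf (nat_lit 0) (nat_lit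 1721751285) (nat_lit 924) (nat_lit 4801800985) (nat_lit 1008) (nat_lit 2506720618) (nat_lit 134) (nat_lit 5) (nat_lit 145) (nat_lit 5) (nat_lit 146) (nat_lit 5) (nat_lit 319) (nat_lit 302) (nat_lit 243)) (XT.nd (nat_lit 94) (nat_lit 1092) (nat_lit 0) (XT.lf (nat_lit 0) (nat_lit 5744274623) (nat_lit 924) (nat_lit 2167568326) (nat_lit 1008) (nat_lit 1251183348) (nat_lit 134) (nat_lit 5) (nat_lit 145) (nat_lit 5) (nat_lit 146) (nat_lit 5) (nat_lit 320) (nat_lit 302) (nat_lit 242)) (XT.lf (nat_lit 0) (nat_lit 19961892) (nat_lit 1092) (nat_lit 8731158583) (nat_lit 84) (nat_lit 549587819) (nat_lit 121) (nat_lit 5) (nat_lit 134) (nat_lit 5) (nat_lit 122) (nat_lit 5) (nat_lit 321) (nat_lit 302) (nat_lit 241)))))) (XT.nd (nat_lit 564) (nat_lit 1680) (nat_lit 0) (XT.nd (nat_lit 282) (nat_lit 504) (nat_lit 0) (XT.nd (nat_lit 94) (nat_lit 1092) (nat_lit 0) (XT.lf (nat_lit 0) (nat_lit 1329829804)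 (nat_lit 1092) (nat_lit 4751323084) (nat_lit 84) (nat_lit 3360451237) (nat_lit 121) (nat_lit 5) (nat_lit 134) (nat_lit 5) (nat_lit 122) (nat_lit 5) (nat_lit 322) (nat_lit 302) (nat_lit 240)) (XT.nd (nat_lit 94) (nat_lit 1092) (nat_lit 0) (XT.lf (nat_lit 0) (nat_lit 2648381544) (nat_lit 1092) (nat_lit 675662927) (nat_lit 84) (nat_lit 6263935936) (nat_lit 121) (nat_lit 5) (nat_lit 134) (nat_lit 5) (nat_lit 122) (nat_lit 5) (nat_lit 323) (nat_lit 302) (nat_lit 239)) (XT.lf (nat_lit 0) (nat_lit 3571580211) (nat_lit 1092) (nat_lit 440696446) (nat_lit 1176) (nat_lit 5726598574) (nat_lit 108) (nat_lit 5) (nat_lit 121) (nat_lit 5) (nat_lit 122) (nat_lit 5) (nat_lit 324) (nat_lit 302) (nat_lit 238)))) (XT.nd (nat_lit 94) (nat_lit 504) (nat_lit 0) (XT.lf (nat_lit 0) (nat_lit 5420439729) (nat_lit 1176) (nat_lit 1982152171) (nat_lit 84) (nat_lit 2491910098) (nat_lit 108) (nat_lit 5) (nat_lit 122)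 (nat_lit 5) (nat_lit 109) (nat_lit 5) (nat_lit 325) (nat_lit 302) (nat_lit 237)) (XT.nd (nat_lit 94) (nat_lit 0) (nat_lit 0) (XT.lf (nat_lit 0) (nat_lit 2348830362) (nat_lit 504) (nat_lit 4521887627) (nat_lit 588) (nat_lit 3184395199) (nat_lit 102) (nat_lit 5) (nat_lit 108) (nat_lit 5) (nat_lit 109) (nat_lit 5) (nat_lit 326) (nat_lit 302) (nat_lit 236)) (XT.lf (nat_lit 0) (nat_lit 6829648262) (nat_lit 504) (nat_lit 1528270399) (nat_lit 588) (nat_lit 1863142733) (nat_lit 102) (nat_lit 5) (nat_lit 108) (nat_lit 5) (nat_lit 109) (nat_lit 5) (nat_lit 327) (nat_lit 302) (nat_lit 235))))) (XT.nd (nat_lit 282) (nat_lit 1008) (nat_lit 0) (XT.nd (nat_lit 94) (nat_lit 84) (nat_lit 0) (XT.lf (nat_lit 0) (nat_lit 1035991567) (nat_lit 588) (nat_lit 8853125029) (nat_lit 672) (nat_lit 503208352) (nat_lit 95) (nat_lit 5) (nat_lit 102) (nat_lit 5) (nat_lit 103) (nat_lit 5) (nat_lit 328) (nat_lit 302)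 (nat_lit 234)) (XT.nd (nat_lit 94) (nat_lit 0) (nat_lit 0) (XT.lf (nat_lit 0) (nat_lit 904521591) (nat_lit 672) (nat_lit 4947207953) (nat_lit 84) (nat_lit 4716254920) (nat_lit 94) (nat_lit 5) (nat_lit 102) (nat_lit 5) (nat_lit 95) (nat_lit 5) (nat_lit 329) (nat_lit 302) (nat_lit 233)) (XT.lf (nat_lit 0) (nat_lit 2318625583) (nat_lit 672) (nat_lit 432773186) (nat_lit 84) (nat_lit 7998458727) (nat_lit 94) (nat_lit 5) (nat_lit 102) (nat_lit 5) (nat_lit 95) (nat_lit 5) (nat_lit 330) (nat_lit 302) (nat_lit 232)))) (XT.nd (nat_lit 94) (nat_lit 504) (nat_lit 0) (XT.lf (nat_lit 0) (nat_lit 3797897711) (nat_lit 588) (nat_lit 6659353758) (nat_lit 84) (nat_lit 479549387) (nat_lit 88) (nat_lit 5) (nat_lit 95) (nat_lit 5) (nat_lit 89) (nat_lit 5) (nat_lit 331) (nat_lit 302) (nat_lit 231)) (XT.nd (nat_lit 94) (nat_lit 504) (nat_lit 0) (XT.lf (nat_lit 0) (nat_lit 5330259600) (nat_lit 588) (nat_lit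 2040791299) (nat_lit 84) (nat_lit 3758355068) (nat_lit 88) (nat_lit 5) (nat_lit 95) (nat_lit 5) (nat_lit 89) (nat_lit 5) (nat_lit 332) (nat_lit 302) (nat_lit 230)) (XT.lf (nat_lit 0) (nat_lit 2751094600) (nat_lit 504) (nat_lit 4161615703) (nat_lit 588) (nat_lit 4415279363) (nat_lit 82) (nat_lit 5) (nat_lit 88) (nat_lit 5) (nat_lit 89) (nat_lit 5) (nat_lit 333) (nat_lit 302) (nat_lit 229))))))) (XT.nd (nat_lit 1128) (nat_lit 1344) (nat_lit 0) (XT.nd (nat_lit 564) (nat_lit 1260) (nat_lit 0) (XT.nd (nat_lit 282) (nat_lit 420) (nat_lit 0) (XT.nd (nat_lit 94) (nat_lit 504) (nat_lit 0) (XT.lf (nat_lit 0) (nat_lit 7709768188) (nat_lit 504) (nat_lit 831539463) (nat_lit 588) (nat_lit 2991597336) (nat_lit 82) (nat_lit 5) (nat_lit 88) (nat_lit 5) (nat_lit 89) (nat_lit 5) (nat_lit 334) (nat_lit 302) (nat_lit 228)) (XT.nd (nat_lit 94) (nat_lit 84) (nat_lit 0) (XT.lf (nat_lit 0) (nat_lit 1048222485)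 (nat_lit 420) (nat_lit 9184886542) (nat_lit 504) (nat_lit 1510752183) (nat_lit 77) (nat_lit 5) (nat_lit 82) (nat_lit 5) (nat_lit 83) (nat_lit 5) (nat_lit 335) (nat_lit 302) (nat_lit 227)) (XT.lf (nat_lit 0) (nat_lit 41150382) (nat_lit 504) (nat_lit 5842928140) (nat_lit 84) (nat_lit 6076561824) (nat_lit 76) (nat_lit 5) (nat_lit 82) (nat_lit 5) (nat_lit 77) (nat_lit 5) (nat_lit 336) (nat_lit 302) (nat_lit 226)))) (XT.nd (nat_lit 94) (nat_lit 420) (nat_lit 0) (XT.lf (nat_lit 0) (nat_lit 1587137006) (nat_lit 504) (nat_lit 879850864) (nat_lit 84) (nat_lit 9717450231) (nat_lit 76) (nat_lit 5) (nat_lit 82) (nat_lit 5) (nat_lit 77) (nat_lit 5) (nat_lit 337) (nat_lit 302) (nat_lit 225)) (XT.nd (nat_lit 94) (nat_lit 0) (nat_lit 0) (XT.lf (nat_lit 0) (nat_lit 3212635176) (nat_lit 504) (nat_lit 8125660407) (nat_lit 84) (nat_lit 1075972095) (nat_lit 71) (nat_lit 5) (nat_lit 77) (nat_lit 5) (nat_lit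 72) (nat_lit 5) (nat_lit 338) (nat_lit 302) (nat_lit 224)) (XT.lf (nat_lit 0) (nat_lit 4901475918) (nat_lit 504) (nat_lit 3064674598) (nat_lit 84) (nat_lit 4684740994) (nat_lit 71) (nat_lit 5) (nat_lit 77) (nat_lit 5) (nat_lit 72) (nat_lit 5) (nat_lit 339) (nat_lit 302) (nat_lit 223))))) (XT.nd (nat_lit 282) (nat_lit 840) (nat_lit 0) (XT.nd (nat_lit 94) (nat_lit 0) (nat_lit 0) (XT.lf (nat_lit 0) (nat_lit 2173370657) (nat_lit 420) (nat_lit 4469951227) (nat_lit 504) (nat_lit 6251577528) (nat_lit 66) (nat_lit 5) (nat_lit 71) (nat_lit 5) (nat_lit 72) (nat_lit 5) (nat_lit 340) (nat_lit 302) (nat_lit 222)) (XT.nd (nat_lit 94) (nat_lit 0) (nat_lit 0) (XT.lf (nat_lit 0) (nat_lit 7615384246) (nat_lit 420) (nat_lit 835257553) (nat_lit 504) (nat_lit 4695540826) (nat_lit 66) (nat_lit 5) (nat_lit 71) (nat_lit 5) (nat_lit 72) (nat_lit 5) (nat_lit 341) (nat_lit 302) (nat_lit 221)) (XT.lf (nat_lit 0)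 (nat_lit 10322954104) (nat_lit 504) (nat_lit 231375421) (nat_lit 84) (nat_lit 2850712999) (nat_lit 66) (nat_lit 5) (nat_lit 72) (nat_lit 5) (nat_lit 67) (nat_lit 5) (nat_lit 342) (nat_lit 302) (nat_lit 220)))) (XT.nd (nat_lit 94) (nat_lit 420) (nat_lit 0) (XT.lf (nat_lit 0) (nat_lit 5308103362) (nat_lit 420) (nat_lit 6987080499) (nat_lit 504) (nat_lit 1375507954) (nat_lit 61) (nat_lit 5) (nat_lit 66) (nat_lit 5) (nat_lit 67) (nat_lit 5) (nat_lit 343) (nat_lit 302) (nat_lit 219)) (XT.nd (nat_lit 94) (nat_lit 336) (nat_lit 0) (XT.lf (nat_lit 0) (nat_lit 359461105) (nat_lit 504) (nat_lit 2946979392) (nat_lit 84) (nat_lit 10638596971) (nat_lit 60) (nat_lit 5) (nat_lit 66) (nat_lit 5) (nat_lit 61) (nat_lit 5) (nat_lit 344) (nat_lit 302) (nat_lit 218)) (XT.lf (nat_lit 0) (nat_lit 2132548234) (nat_lit 420) (nat_lit 11578748689) (nat_lit 84) (nat_lit 515812076) (nat_lit 56) (nat_lit 5) (nat_lit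 61) (nat_lit 5) (nat_lit 57) (nat_lit 5) (nat_lit 345) (nat_lit 302) (nat_lit 217)))))) (XT.nd (nat_lit 564) (nat_lit 672) (nat_lit 0) (XT.nd (nat_lit 282) (nat_lit 336) (nat_lit 0) (XT.nd (nat_lit 94) (nat_lit 336) (nat_lit 0) (XT.lf (nat_lit 0) (nat_lit 4007158809) (nat_lit 420) (nat_lit 6094003282) (nat_lit 84) (nat_lit 4415375023) (nat_lit 56) (nat_lit 5) (nat_lit 61) (nat_lit 5) (nat_lit 57) (nat_lit 5) (nat_lit 346) (nat_lit 302) (nat_lit 216)) (XT.nd (nat_lit 94) (nat_lit 336) (nat_lit 0) (XT.lf (nat_lit 0) (nat_lit 5922099198) (nat_lit 420) (nat_lit 461083679) (nat_lit 84) (nat_lit 8432359884) (nat_lit 56) (nat_lit 5) (nat_lit 61) (nat_lit 5) (nat_lit 57) (nat_lit 5) (nat_lit 347) (nat_lit 302) (nat_lit 215)) (XT.lf (nat_lit 0) (nat_lit 5434758871) (nat_lit 336) (nat_lit 2498308934) (nat_lit 420) (nat_lit 7189665521) (nat_lit 52) (nat_lit 5) (nat_lit 56) (nat_lit 5) (nat_lit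 57) (nat_lit 5) (nat_lit 348) (nat_lit 302) (nat_lit 214)))) (XT.nd (nat_lit 94) (nat_lit 336) (nat_lit 0) (XT.lf (nat_lit 0) (nat_lit 10009209981) (nat_lit 420) (nat_lit 3952666144) (nat_lit 84) (nat_lit 1477533619) (nat_lit 52) (nat_lit 5) (nat_lit 57) (nat_lit 5) (nat_lit 53) (nat_lit 5) (nat_lit 349) (nat_lit 302) (nat_lit 213)) (XT.nd (nat_lit 94) (nat_lit 0) (nat_lit 0) (XT.lf (nat_lit 0) (nat_lit 1953370941) (nat_lit 336) (nat_lit 10224803585) (nat_lit 420) (nat_lit 3586895543) (nat_lit 48) (nat_lit 5) (nat_lit 52) (nat_lit 5) (nat_lit 53) (nat_lit 5) (nat_lit 350) (nat_lit 302) (nat_lit 212)) (XT.lf (nat_lit 0) (nat_lit 8105630882) (nat_lit 336) (nat_lit 6333826483) (nat_lit 420) (nat_lit 1660638785) (nat_lit 48) (nat_lit 5) (nat_lit 52) (nat_lit 5) (nat_lit 53) (nat_lit 5) (nat_lit 351) (nat_lit 302) (nat_lit 211))))) (XT.nd (nat_lit 282) (nat_lit 252) (nat_lit 0) (XT.nd (nat_lit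 94) (nat_lit 336) (nat_lit 0) (XT.lf (nat_lit 0) (nat_lit 302880411) (nat_lit 420) (nat_lit 2020533887) (nat_lit 84) (nat_lit 14122531442) (nat_lit 47) (nat_lit 5) (nat_lit 52) (nat_lit 5) (nat_lit 48) (nat_lit 5) (nat_lit 352) (nat_lit 302) (nat_lit 210)) (XT.nd (nat_lit 94) (nat_lit 0) (nat_lit 0) (XT.lf (nat_lit 0) (nat_lit 2337405183) (nat_lit 420) (nat_lit 12633597109) (nat_lit 84) (nat_lit 1829647867) (nat_lit 43) (nat_lit 5) (nat_lit 48) (nat_lit 5) (nat_lit 44) (nat_lit 5) (nat_lit 353) (nat_lit 302) (nat_lit 209)) (XT.lf (nat_lit 0) (nat_lit 4464875517) (nat_lit 420) (nat_lit 6620449078) (nat_lit 84) (nat_lit 6080141971) (nat_lit 43) (nat_lit 5) (nat_lit 48) (nat_lit 5) (nat_lit 44) (nat_lit 5) (nat_lit 354) (nat_lit 302) (nat_lit 208)))) (XT.nd (nat_lit 94) (nat_lit 252) (nat_lit 0) (XT.lf (nat_lit 0) (nat_lit 6643560573) (nat_lit 420) (nat_lit 440353336) (nat_lit 84) (nat_lit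 10458176229) (nat_lit 43) (nat_lit 5) (nat_lit 48) (nat_lit 5) (nat_lit 44) (nat_lit 5) (nat_lit 355) (nat_lit 302) (nat_lit 207)) (XT.nd (nat_lit 94) (nat_lit 0) (nat_lit 0) (XT.lf (nat_lit 0) (nat_lit 6034022724) (nat_lit 252) (nat_lit 2901326642) (nat_lit 336) (nat_lit 8993666956) (nat_lit 40) (nat_lit 5) (nat_lit 43) (nat_lit 5) (nat_lit 44) (nat_lit 5) (nat_lit 356) (nat_lit 302) (nat_lit 206)) (XT.lf (nat_lit 0) (nat_lit 11302728230) (nat_lit 336) (nat_lit 5642510358) (nat_lit 84) (nat_lit 1382596331) (nat_lit 40) (nat_lit 5) (nat_lit 44) (nat_lit 5) (nat_lit 41) (nat_lit 5) (nat_lit 357) (nat_lit 302) (nat_lit 205))))))))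
noncomputable def xc122 : XT := (XT.nd (nat_lit 2256) (nat_lit 756) (nat_lit 0) (XT.nd (nat_lit 1128) (nat_lit 756) (nat_lit 0) (XT.nd (nat_lit 564) (nat_lit 420) (nat_lit 0) (XT.nd (nat_lit 282) (nat_lit 336) (nat_lit 0) (XT.nd (nat_lit 94) (nat_lit 0) (nat_lit 0) (XT.lf (nat_lit 0) (nat_lit 771125416) (nat_lit 252) (nat_lit 12996022357) (nat_lit 336) (nat_lit 4971173334) (nat_lit 37) (nat_lit 5) (nat_lit 40) (nat_lit 5) (nat_lit 41) (nat_lit 5) (nat_lit 358) (nat_lit 302) (nat_lit 204)) (XT.nd (nat_lit 94) (nat_lit 0) (nat_lit 0) (XT.lf (nat_lit 0) (nat_lit 7484852668) (nat_lit 252) (nat_lit 8868565461) (nat_lit 336) (nat_lit 2806741468) (nat_lit 37) (nat_lit 5) (nat_lit 40) (nat_lit 5) (nat_lit 41) (nat_lit 5) (nat_lit 359) (nat_lit 302) (nat_lit 203)) (XT.lf (nat_lit 0) (nat_lit 14388907710) (nat_lit 252) (nat_lit 4617916915) (nat_lit 336) (nat_lit 588689850) (nat_lit 37) (nat_lit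 5) (nat_lit 40) (nat_lit 5) (nat_lit 41) (nat_lit 5) (nat_lit 360) (nat_lit 302) (nat_lit 202)))) (XT.nd (nat_lit 94) (nat_lit 0) (nat_lit 0) (XT.lf (nat_lit 0) (nat_lit 1457585512) (nat_lit 252) (nat_lit 207972910) (nat_lit 336) (nat_lit 18378266678) (nat_lit 33) (nat_lit 5) (nat_lit 36) (nat_lit 5) (nat_lit 37) (nat_lit 5) (nat_lit 361) (nat_lit 302) (nat_lit 201)) (XT.nd (nat_lit 94) (nat_lit 0) (nat_lit 0) (XT.lf (nat_lit 0) (nat_lit 4062758522) (nat_lit 336) (nat_lit 12132977014) (nat_lit 84) (nat_lit 4307499041) (nat_lit 33) (nat_lit 5) (nat_lit 37) (nat_lit 5) (nat_lit 34) (nat_lit 5) (nat_lit 362) (nat_lit 302) (nat_lit 200)) (XT.lf (nat_lit 0) (nat_lit 6524135303) (nat_lit 336) (nat_lit 5499012962) (nat_lit 84) (nat_lit 8954082873) (nat_lit 33) (nat_lit 5) (nat_lit 37) (nat_lit 5) (nat_lit 34) (nat_lit 5) (nat_lit 363) (nat_lit 302) (nat_lit 199))))) (XT.nd (nat_lit 282) (nat_lit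 168) (nat_lit 0) (XT.nd (nat_lit 94) (nat_lit 0) (nat_lit 0) (XT.lf (nat_lit 0) (nat_lit 1351121316) (nat_lit 252) (nat_lit 7712201886) (nat_lit 336) (nat_lit 12402581854) (nat_lit 30) (nat_lit 5) (nat_lit 33) (nat_lit 5) (nat_lit 34) (nat_lit 5) (nat_lit 364) (nat_lit 302) (nat_lit 198)) (XT.nd (nat_lit 94) (nat_lit 0) (nat_lit 0) (XT.lf (nat_lit 0) (nat_lit 8513650321) (nat_lit 252) (nat_lit 3213272787) (nat_lit 336) (nat_lit 10241417459) (nat_lit 30) (nat_lit 5) (nat_lit 33) (nat_lit 5) (nat_lit 34) (nat_lit 5) (nat_lit 365) (nat_lit 302) (nat_lit 197)) (XT.lf (nat_lit 0) (nat_lit 14475836088) (nat_lit 336) (nat_lit 6618643431) (nat_lit 84) (nat_lit 1391815506) (nat_lit 30) (nat_lit 5) (nat_lit 34) (nat_lit 5) (nat_lit 31) (nat_lit 5) (nat_lit 366) (nat_lit 302) (nat_lit 196)))) (XT.nd (nat_lit 94) (nat_lit 0) (nat_lit 0) (XT.lf (nat_lit 0) (nat_lit 388402148) (nat_lit 168) (nat_lit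 16947227173) (nat_lit 252) (nat_lit 5683908749) (nat_lit 28) (nat_lit 5) (nat_lit 30) (nat_lit 5) (nat_lit 31) (nat_lit 5) (nat_lit 367) (nat_lit 302) (nat_lit 195)) (XT.nd (nat_lit 94) (nat_lit 0) (nat_lit 0) (XT.lf (nat_lit 0) (nat_lit 7737258771) (nat_lit 168) (nat_lit 12605025580) (nat_lit 252) (nat_lit 3225249590) (nat_lit 28) (nat_lit 5) (nat_lit 30) (nat_lit 5) (nat_lit 31) (nat_lit 5) (nat_lit 368) (nat_lit 302) (nat_lit 194)) (XT.lf (nat_lit 0) (nat_lit 15298683458) (nat_lit 168) (nat_lit 8132912418) (nat_lit 252) (nat_lit 701274799) (nat_lit 28) (nat_lit 5) (nat_lit 30) (nat_lit 5) (nat_lit 31) (nat_lit 5) (nat_lit 369) (nat_lit 302) (nat_lit 193)))))) (XT.nd (nat_lit 564) (nat_lit 252) (nat_lit 0) (XT.nd (nat_lit 282) (nat_lit 168) (nat_lit 0) (XT.nd (nat_lit 94) (nat_lit 252) (nat_lit 0) (XT.lf (nat_lit 0) (nat_lit 1852281526) (nat_lit 252) (nat_lit 1655103661) (nat_lit 84)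 (nat_lit 21208108702) (nat_lit 27) (nat_lit 5) (nat_lit 30) (nat_lit 5) (nat_lit 28) (nat_lit 5) (nat_lit 370) (nat_lit 302) (nat_lit 192)) (XT.nd (nat_lit 94) (nat_lit 0) (nat_lit 0) (XT.lf (nat_lit 0) (nat_lit 4531474757) (nat_lit 336) (nat_lit 19485131760) (nat_lit 84) (nat_lit 1297480879) (nat_lit 24) (nat_lit 5) (nat_lit 28) (nat_lit 5) (nat_lit 25) (nat_lit 5) (nat_lit 371) (nat_lit 302) (nat_lit 191)) (XT.lf (nat_lit 0) (nat_lit 7337111600) (nat_lit 336) (nat_lit 12401353444) (nat_lit 84) (nat_lit 6191450172) (nat_lit 24) (nat_lit 5) (nat_lit 28) (nat_lit 5) (nat_lit 25) (nat_lit 5) (nat_lit 372) (nat_lit 302) (nat_lit 190)))) (XT.nd (nat_lit 94) (nat_lit 168) (nat_lit 0) (XT.lf (nat_lit 0) (nat_lit 10220085691) (nat_lit 336) (nat_lit 5112246481) (nat_lit 84) (nat_lit 11232822561) (nat_lit 24) (nat_lit 5) (nat_lit 28) (nat_lit 5) (nat_lit 25) (nat_lit 5) (nat_lit 373) (nat_lit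 302) (nat_lit 189)) (XT.nd (nat_lit 94) (nat_lit 0) (nat_lit 0) (XT.lf (nat_lit 0) (nat_lit 2438105736) (nat_lit 168) (nat_lit 10769164838) (nat_lit 252) (nat_lit 14012377707) (nat_lit 22) (nat_lit 5) (nat_lit 24) (nat_lit 5) (nat_lit 25) (nat_lit 5) (nat_lit 374) (nat_lit 302) (nat_lit 188)) (XT.lf (nat_lit 0) (nat_lit 10317196465) (nat_lit 168) (nat_lit 6014020542) (nat_lit 252) (nat_lit 11561866150) (nat_lit 22) (nat_lit 5) (nat_lit 24) (nat_lit 5) (nat_lit 25) (nat_lit 5) (nat_lit 375) (nat_lit 302) (nat_lit 187))))) (XT.nd (nat_lit 282) (nat_lit 84) (nat_lit 0) (XT.nd (nat_lit 94) (nat_lit 168) (nat_lit 0) (XT.lf (nat_lit 0) (nat_lit 18427251572) (nat_lit 168) (nat_lit 1115828361) (nat_lit 252) (nat_lit 9044611607) (nat_lit 22) (nat_lit 5) (nat_lit 24) (nat_lit 5) (nat_lit 25) (nat_lit 5) (nat_lit 376) (nat_lit 302) (nat_lit 186)) (XT.nd (nat_lit 94) (nat_lit 168) (nat_lit 0) (XT.lf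 (nat_lit 0) (nat_lit 22884839006) (nat_lit 252) (nat_lit 2567276261) (nat_lit 84) (nat_lit 3850797046) (nat_lit 22) (nat_lit 5) (nat_lit 25) (nat_lit 5) (nat_lit 23) (nat_lit 5) (nat_lit 377) (nat_lit 302) (nat_lit 185)) (XT.lf (nat_lit 0) (nat_lit 5344810111) (nat_lit 168) (nat_lit 21041378118) (nat_lit 252) (nat_lit 3652399957) (nat_lit 20) (nat_lit 5) (nat_lit 22) (nat_lit 5) (nat_lit 23) (nat_lit 5) (nat_lit 378) (nat_lit 302) (nat_lit 184)))) (XT.nd (nat_lit 94) (nat_lit 84) (nat_lit 0) (XT.lf (nat_lit 0) (nat_lit 13543985916) (nat_lit 168) (nat_lit 16470581215) (nat_lit 252) (nat_lit 781948299) (nat_lit 20) (nat_lit 5) (nat_lit 22) (nat_lit 5) (nat_lit 23) (nat_lit 5) (nat_lit 379) (nat_lit 302) (nat_lit 183)) (XT.nd (nat_lit 94) (nat_lit 0) (nat_lit 0) (XT.lf (nat_lit 0) (nat_lit 2125456386) (nat_lit 252) (nat_lit 9614619404) (nat_lit 84) (nat_lit 19837463389) (nat_lit 19) (nat_lit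 5) (nat_lit 22) (nat_lit 5) (nat_lit 20) (nat_lit 5) (nat_lit 380) (nat_lit 302) (nat_lit 182)) (XT.lf (nat_lit 0) (nat_lit 5098833593) (nat_lit 252) (nat_lit 1759974455) (nat_lit 84) (nat_lit 25523980953) (nat_lit 19) (nat_lit 5) (nat_lit 22) (nat_lit 5) (nat_lit 20) (nat_lit 5) (nat_lit 381) (nat_lit 302) (nat_lit 181))))))) (XT.nd (nat_lit 1128) (nat_lit 252) (nat_lit 0) (XT.nd (nat_lit 564) (nat_lit 168) (nat_lit 0) (XT.nd (nat_lit 282) (nat_lit 168) (nat_lit 0) (XT.nd (nat_lit 94) (nat_lit 0) (nat_lit 0) (XT.lf (nat_lit 0) (nat_lit 6456569189) (nat_lit 168) (nat_lit 1764190113) (nat_lit 252) (nat_lit 24990511089) (nat_lit 17) (nat_lit 5) (nat_lit 19) (nat_lit 5) (nat_lit 20) (nat_lit 5) (nat_lit 382) (nat_lit 302) (nat_lit 180)) (XT.nd (nat_lit 94) (nat_lit 0) (nat_lit 0) (XT.lf (nat_lit 0) (nat_lit 11485028335) (nat_lit 252) (nat_lit 19146294955) (nat_lit 84) (nat_lit 3432714861)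 (nat_lit 17) (nat_lit 5) (nat_lit 20) (nat_lit 5) (nat_lit 18) (nat_lit 5) (nat_lit 383) (nat_lit 302) (nat_lit 179)) (XT.lf (nat_lit 0) (nat_lit 14861161972) (nat_lit 252) (nat_lit 11331490733) (nat_lit 84) (nat_lit 8750273606) (nat_lit 17) (nat_lit 5) (nat_lit 20) (nat_lit 5) (nat_lit 18) (nat_lit 5) (nat_lit 384) (nat_lit 302) (nat_lit 178)))) (XT.nd (nat_lit 94) (nat_lit 168) (nat_lit 0) (XT.lf (nat_lit 0) (nat_lit 18334806142) (nat_lit 252) (nat_lit 3285503336) (nat_lit 84) (nat_lit 14228987141) (nat_lit 17) (nat_lit 5) (nat_lit 20) (nat_lit 5) (nat_lit 18) (nat_lit 5) (nat_lit 385) (nat_lit 302) (nat_lit 177)) (XT.nd (nat_lit 94) (nat_lit 0) (nat_lit 0) (XT.lf (nat_lit 0) (nat_lit 5101960064) (nat_lit 168) (nat_lit 16857850654) (nat_lit 252) (nat_lit 14822614213) (nat_lit 15) (nat_lit 5) (nat_lit 17) (nat_lit 5) (nat_lit 18) (nat_lit 5) (nat_lit 386) (nat_lit 302) (nat_lit 176))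 (XT.lf (nat_lit 0) (nat_lit 13808451803) (nat_lit 168) (nat_lit 11916200931) (nat_lit 252) (nat_lit 12018990244) (nat_lit 15) (nat_lit 5) (nat_lit 17) (nat_lit 5) (nat_lit 18) (nat_lit 5) (nat_lit 387) (nat_lit 302) (nat_lit 175))))) (XT.nd (nat_lit 282) (nat_lit 84) (nat_lit 0) (XT.nd (nat_lit 94) (nat_lit 84) (nat_lit 0) (XT.lf (nat_lit 0) (nat_lit 22774530557) (nat_lit 168) (nat_lit 6825048091) (nat_lit 252) (nat_lit 9135299214) (nat_lit 15) (nat_lit 5) (nat_lit 17) (nat_lit 5) (nat_lit 18) (nat_lit 5) (nat_lit 388) (nat_lit 302) (nat_lit 174)) (XT.nd (nat_lit 94) (nat_lit 84) (nat_lit 0) (XT.lf (nat_lit 0) (nat_lit 32008553650) (nat_lit 168) (nat_lit 1579646646) (nat_lit 252) (nat_lit 6168853222) (nat_lit 15) (nat_lit 5) (nat_lit 17) (nat_lit 5) (nat_lit 18) (nat_lit 5) (nat_lit 389) (nat_lit 302) (nat_lit 173)) (XT.lf (nat_lit 0) (nat_lit 683839876) (nat_lit 84) (nat_lit 37055122800)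 (nat_lit 168) (nat_lit 3070773503) (nat_lit 14) (nat_lit 5) (nat_lit 15) (nat_lit 5) (nat_lit 16) (nat_lit 4) (nat_lit 390) (nat_lit 302) (nat_lit 172)))) (XT.nd (nat_lit 94) (nat_lit 0) (nat_lit 0) (XT.lf (nat_lit 0) (nat_lit 212471206) (nat_lit 168) (nat_lit 32378821026) (nat_lit 84) (nat_lit 9300894031) (nat_lit 13) (nat_lit 5) (nat_lit 15) (nat_lit 5) (nat_lit 14) (nat_lit 5) (nat_lit 391) (nat_lit 302) (nat_lit 171)) (XT.nd (nat_lit 94) (nat_lit 0) (nat_lit 0) (XT.lf (nat_lit 0) (nat_lit 3527645266) (nat_lit 168) (nat_lit 24432610719) (nat_lit 84) (nat_lit 15047162423) (nat_lit 13) (nat_lit 5) (nat_lit 15) (nat_lit 5) (nat_lit 14) (nat_lit 5) (nat_lit 392) (nat_lit 302) (nat_lit 170)) (XT.lf (nat_lit 0) (nat_lit 6939708007) (nat_lit 168) (nat_lit 16249396227) (nat_lit 84) (nat_lit 20968312224) (nat_lit 13) (nat_lit 5) (nat_lit 15) (nat_lit 5) (nat_lit 14) (nat_lit 5) (nat_lit 393)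 (nat_lit 302) (nat_lit 169)))))) (XT.nd (nat_lit 564) (nat_lit 84) (nat_lit 0) (XT.nd (nat_lit 282) (nat_lit 0) (nat_lit 0) (XT.nd (nat_lit 94) (nat_lit 168) (nat_lit 0) (XT.lf (nat_lit 0) (nat_lit 10451839831) (nat_lit 168) (nat_lit 7821549937) (nat_lit 84) (nat_lit 27069862568) (nat_lit 13) (nat_lit 5) (nat_lit 15) (nat_lit 5) (nat_lit 14) (nat_lit 5) (nat_lit 394) (nat_lit 302) (nat_lit 168)) (XT.nd (nat_lit 94) (nat_lit 0) (nat_lit 0) (XT.lf (nat_lit 0) (nat_lit 876442141) (nat_lit 168) (nat_lit 13199566684) (nat_lit 252) (nat_lit 32489753011) (nat_lit 11) (nat_lit 5) (nat_lit 13) (nat_lit 5) (nat_lit 14) (nat_lit 5) (nat_lit 395) (nat_lit 302) (nat_lit 167)) (XT.lf (nat_lit 0) (nat_lit 10001197768) (nat_lit 168) (nat_lit 7887517099) (nat_lit 252) (nat_lit 29935102823) (nat_lit 11) (nat_lit 5) (nat_lit 13) (nat_lit 5) (nat_lit 14) (nat_lit 5) (nat_lit 396) (nat_lit 302) (nat_lit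 166)))) (XT.nd (nat_lit 94) (nat_lit 0) (nat_lit 0) (XT.lf (nat_lit 0) (nat_lit 19400395063) (nat_lit 168) (nat_lit 2413930568) (nat_lit 252) (nat_lit 27306721679) (nat_lit 11) (nat_lit 5) (nat_lit 13) (nat_lit 5) (nat_lit 14) (nat_lit 5) (nat_lit 397) (nat_lit 302) (nat_lit 165)) (XT.nd (nat_lit 94) (nat_lit 0) (nat_lit 0) (XT.lf (nat_lit 0) (nat_lit 25888505441) (nat_lit 252) (nat_lit 21407870032) (nat_lit 84) (nat_lit 3161292213) (nat_lit 11) (nat_lit 5) (nat_lit 14) (nat_lit 5) (nat_lit 12) (nat_lit 4) (nat_lit 398) (nat_lit 302) (nat_lit 164)) (XT.lf (nat_lit 0) (nat_lit 30108668505) (nat_lit 252) (nat_lit 12870141537) (nat_lit 84) (nat_lit 8856312533) (nat_lit 11) (nat_lit 5) (nat_lit 14) (nat_lit 5) (nat_lit 12) (nat_lit 4) (nat_lit 399) (nat_lit 302) (nat_lit 163))))) (XT.nd (nat_lit 282) (nat_lit 0) (nat_lit 0) (XT.nd (nat_lit 94) (nat_lit 84) (nat_lit 0) (XT.lf (nat_lit 0)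 (nat_lit 34454801966) (nat_lit 252) (nat_lit 4075562216) (nat_lit 84) (nat_lit 14725074067) (nat_lit 11) (nat_lit 5) (nat_lit 14) (nat_lit 5) (nat_lit 12) (nat_lit 4) (nat_lit 400) (nat_lit 302) (nat_lit 162)) (XT.nd (nat_lit 94) (nat_lit 0) (nat_lit 0) (XT.lf (nat_lit 0) (nat_lit 5086548008) (nat_lit 84) (nat_lit 33894868053) (nat_lit 168) (nat_lit 15736958293) (nat_lit 10) (nat_lit 5) (nat_lit 11) (nat_lit 5) (nat_lit 12) (nat_lit 4) (nat_lit 401) (nat_lit 302) (nat_lit 161)) (XT.lf (nat_lit 0) (nat_lit 14611576542) (nat_lit 84) (nat_lit 29074677586) (nat_lit 168) (nat_lit 12539241129) (nat_lit 10) (nat_lit 5) (nat_lit 11) (nat_lit 5) (nat_lit 12) (nat_lit 4) (nat_lit 402) (nat_lit 302) (nat_lit 160)))) (XT.nd (nat_lit 94) (nat_lit 0) (nat_lit 0) (XT.lf (nat_lit 0) (nat_lit 24424599792) (nat_lit 84) (nat_lit 24107840368) (nat_lit 168) (nat_lit 9247044695) (nat_lit 10) (nat_lit 5) (nat_lit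 11) (nat_lit 5) (nat_lit 12) (nat_lit 4) (nat_lit 403) (nat_lit 302) (nat_lit 159)) (XT.nd (nat_lit 94) (nat_lit 0) (nat_lit 0) (XT.lf (nat_lit 0) (nat_lit 34534764523) (nat_lit 84) (nat_lit 18989726788) (nat_lit 168) (nat_lit 5857300319) (nat_lit 10) (nat_lit 5) (nat_lit 11) (nat_lit 5) (nat_lit 12) (nat_lit 4) (nat_lit 404) (nat_lit 302) (nat_lit 158)) (XT.lf (nat_lit 0) (nat_lit 44951494468) (nat_lit 84) (nat_lit 13715566226) (nat_lit 168) (nat_lit 2366848403) (nat_lit 10) (nat_lit 5) (nat_lit 11) (nat_lit 5) (nat_lit 12) (nat_lit 4) (nat_lit 405) (nat_lit 302) (nat_lit 157))))))))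
noncomputable def xc123 : XT := (XT.nd (nat_lit 45778) (nat_lit 0) (nat_lit 5460) (XT.nd (nat_lit 44650) (nat_lit 0) (nat_lit 11508) (XT.nd (nat_lit 564) (nat_lit 84) (nat_lit 0) (XT.nd (nat_lit 282) (nat_lit 0) (nat_lit 0) (XT.nd (nat_lit 94) (nat_lit 168) (nat_lit 0) (XT.lf (nat_lit 0) (nat_lit 1202831828) (nat_lit 168) (nat_lit 7065055687) (nat_lit 84) (nat_lit 54469112184) (nat_lit 9) (nat_lit 5) (nat_lit 11) (nat_lit 5) (nat_lit 10) (nat_lit 5) (nat_lit 406) (nat_lit 302) (nat_lit 156)) (XT.nd (nat_lit 94) (nat_lit 0) (nat_lit 0) (XT.lf (nat_lit 0) (nat_lit 2246358940) (nat_lit 168) (nat_lit 2605899849) (nat_lit 252) (nat_lit 59639318293) (nat_lit 7) (nat_lit 5) (nat_lit 9) (nat_lit 5) (nat_lit 10) (nat_lit 5) (nat_lit 407) (nat_lit 302) (nat_lit 155)) (XT.lf (nat_lit 0) (nat_lit 8717374725) (nat_lit 252) (nat_lit 54341443201) (nat_lit 84) (nat_lit 3238556157) (nat_lit 7) (nat_lit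 5) (nat_lit 10) (nat_lit 5) (nat_lit 8) (nat_lit 4) (nat_lit 408) (nat_lit 302) (nat_lit 154)))) (XT.nd (nat_lit 94) (nat_lit 0) (nat_lit 0) (XT.lf (nat_lit 0) (nat_lit 12725081605) (nat_lit 252) (nat_lit 46225679422) (nat_lit 84) (nat_lit 9207690595) (nat_lit 7) (nat_lit 5) (nat_lit 10) (nat_lit 5) (nat_lit 8) (nat_lit 4) (nat_lit 409) (nat_lit 302) (nat_lit 153)) (XT.nd (nat_lit 94) (nat_lit 0) (nat_lit 0) (XT.lf (nat_lit 0) (nat_lit 16853264182) (nat_lit 252) (nat_lit 37864511214) (nat_lit 84) (nat_lit 15359570396) (nat_lit 7) (nat_lit 5) (nat_lit 10) (nat_lit 5) (nat_lit 8) (nat_lit 4) (nat_lit 410) (nat_lit 302) (nat_lit 152)) (XT.lf (nat_lit 0) (nat_lit 21105770355) (nat_lit 252) (nat_lit 29250145091) (nat_lit 84) (nat_lit 21699929757) (nat_lit 7) (nat_lit 5) (nat_lit 10) (nat_lit 5) (nat_lit 8) (nat_lit 4) (nat_lit 411) (nat_lit 302) (nat_lit 151))))) (XT.nd (nat_lit 282) (nat_lit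 84) (nat_lit 0) (XT.nd (nat_lit 94) (nat_lit 0) (nat_lit 0) (XT.lf (nat_lit 0) (nat_lit 25486563905) (nat_lit 252) (nat_lit 20374551562) (nat_lit 84) (nat_lit 28234678557) (nat_lit 7) (nat_lit 5) (nat_lit 10) (nat_lit 5) (nat_lit 8) (nat_lit 4) (nat_lit 412) (nat_lit 302) (nat_lit 150)) (XT.nd (nat_lit 94) (nat_lit 0) (nat_lit 0) (XT.lf (nat_lit 0) (nat_lit 29999728190) (nat_lit 252) (nat_lit 11229457644) (nat_lit 84) (nat_lit 34969907866) (nat_lit 7) (nat_lit 5) (nat_lit 10) (nat_lit 5) (nat_lit 8) (nat_lit 4) (nat_lit 413) (nat_lit 302) (nat_lit 149)) (XT.lf (nat_lit 0) (nat_lit 34649469953) (nat_lit 252) (nat_lit 1806339152) (nat_lit 84) (nat_lit 41911895625) (nat_lit 7) (nat_lit 5) (nat_lit 10) (nat_lit 5) (nat_lit 8) (nat_lit 4) (nat_lit 414) (nat_lit 302) (nat_lit 148)))) (XT.nd (nat_lit 94) (nat_lit 0) (nat_lit 0) (XT.lf (nat_lit 0) (nat_lit 8066101210) (nat_lit 84) (nat_lit 31454038751)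 (nat_lit 168) (nat_lit 41081028003) (nat_lit 6) (nat_lit 5) (nat_lit 7) (nat_lit 5) (nat_lit 8) (nat_lit 4) (nat_lit 415) (nat_lit 302) (nat_lit 147)) (XT.nd (nat_lit 43616) (nat_lit 0) (nat_lit 13104) (XT.lf (nat_lit 0) (nat_lit 18277625647) (nat_lit 84) (nat_lit 26279844102) (nat_lit 168) (nat_lit 38345918540) (nat_lit 6) (nat_lit 5) (nat_lit 7) (nat_lit 5) (nat_lit 8) (nat_lit 4) (nat_lit 416) (nat_lit 302) (nat_lit 146)) (XT.lf (nat_lit 0) (nat_lit 762912259) (nat_lit 0) (nat_lit 762912259) (nat_lit 756) (nat_lit 2233462170) (nat_lit 162) (nat_lit 5) (nat_lit 162) (nat_lit 3) (nat_lit 171) (nat_lit 3) (nat_lit 303) (nat_lit 303) (nat_lit 258)))))) (XT.nd (nat_lit 564) (nat_lit 756) (nat_lit 0) (XT.nd (nat_lit 282) (nat_lit 840) (nat_lit 0) (XT.nd (nat_lit 94) (nat_lit 0) (nat_lit 0) (XT.lf (nat_lit 0) (nat_lit 4332864125) (nat_lit 756) (nat_lit 3006705025) (nat_lit 840) (nat_lit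 251665292) (nat_lit 162) (nat_lit 5) (nat_lit 171) (nat_lit 3) (nat_lit 172) (nat_lit 5) (nat_lit 304) (nat_lit 303) (nat_lit 257)) (XT.nd (nat_lit 94) (nat_lit 0) (nat_lit 0) (XT.lf (nat_lit 84) (nat_lit 30086484) (nat_lit 0) (nat_lit 5590241979) (nat_lit 840) (nat_lit 2047083741) (nat_lit 163) (nat_lit 5) (nat_lit 162) (nat_lit 5) (nat_lit 172) (nat_lit 5) (nat_lit 305) (nat_lit 303) (nat_lit 256)) (XT.lf (nat_lit 84) (nat_lit 3198210366) (nat_lit 0) (nat_lit 3732726346) (nat_lit 840) (nat_lit 815754421) (nat_lit 163) (nat_lit 5) (nat_lit 162) (nat_lit 5) (nat_lit 172) (nat_lit 5) (nat_lit 306) (nat_lit 303) (nat_lit 255)))) (XT.nd (nat_lit 94) (nat_lit 0) (nat_lit 84) (XT.lf (nat_lit 0) (nat_lit 397214001) (nat_lit 840) (nat_lit 1395314587) (nat_lit 924) (nat_lit 6037435521) (nat_lit 152) (nat_lit 5) (nat_lit 162) (nat_lit 5) (nat_lit 163) (nat_lit 5) (nat_lit 307) (nat_lit 303) (nat_lit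 254)) (XT.nd (nat_lit 94) (nat_lit 0) (nat_lit 0) (XT.lf (nat_lit 0) (nat_lit 1605843751) (nat_lit 840) (nat_lit 6060565407) (nat_lit 924) (nat_lit 250126233) (nat_lit 153) (nat_lit 5) (nat_lit 163) (nat_lit 5) (nat_lit 164) (nat_lit 5) (nat_lit 308) (nat_lit 303) (nat_lit 253)) (XT.lf (nat_lit 0) (nat_lit 2840336216) (nat_lit 840) (nat_lit 2813827317) (nat_lit 924) (nat_lit 2352181190) (nat_lit 153) (nat_lit 5) (nat_lit 163) (nat_lit 5) (nat_lit 164) (nat_lit 5) (nat_lit 309) (nat_lit 303) (nat_lit 252))))) (XT.nd (nat_lit 282) (nat_lit 840) (nat_lit 0) (XT.nd (nat_lit 94) (nat_lit 0) (nat_lit 0) (XT.lf (nat_lit 84) (nat_lit 517180036) (nat_lit 0) (nat_lit 3557739634) (nat_lit 924) (nat_lit 4025390742) (nat_lit 154) (nat_lit 5) (nat_lit 153) (nat_lit 5) (nat_lit 164) (nat_lit 5) (nat_lit 310) (nat_lit 303) (nat_lit 251)) (XT.nd (nat_lit 94) (nat_lit 0) (nat_lit 84) (XT.lf (nat_lit 84)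 (nat_lit 3984571960) (nat_lit 0) (nat_lit 1350304110) (nat_lit 924) (nat_lit 2862895904) (nat_lit 154) (nat_lit 5) (nat_lit 153) (nat_lit 5) (nat_lit 164) (nat_lit 5) (nat_lit 311) (nat_lit 303) (nat_lit 250)) (XT.lf (nat_lit 0) (nat_lit 6602225503) (nat_lit 840) (nat_lit 775314153) (nat_lit 924) (nat_lit 921874383) (nat_lit 154) (nat_lit 5) (nat_lit 164) (nat_lit 5) (nat_lit 165) (nat_lit 5) (nat_lit 312) (nat_lit 303) (nat_lit 249)))) (XT.nd (nat_lit 94) (nat_lit 924) (nat_lit 0) (XT.lf (nat_lit 84) (nat_lit 2784937134) (nat_lit 0) (nat_lit 5125743879) (nat_lit 924) (nat_lit 493641853) (nat_lit 155) (nat_lit 5) (nat_lit 154) (nat_lit 5) (nat_lit 165) (nat_lit 5) (nat_lit 313) (nat_lit 303) (nat_lit 248)) (XT.nd (nat_lit 94) (nat_lit 0) (nat_lit 0) (XT.lf (nat_lit 0) (nat_lit 701087998) (nat_lit 924) (nat_lit 2074945289) (nat_lit 1008) (nat_lit 5737346046) (nat_lit 143) (nat_lit 5)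 (nat_lit 154) (nat_lit 5) (nat_lit 155) (nat_lit 5) (nat_lit 314) (nat_lit 303) (nat_lit 247)) (XT.lf (nat_lit 84) (nat_lit 1579761286) (nat_lit 0) (nat_lit 320443082) (nat_lit 1008) (nat_lit 6726307097) (nat_lit 144) (nat_lit 5) (nat_lit 143) (nat_lit 5) (nat_lit 155) (nat_lit 5) (nat_lit 315) (nat_lit 303) (nat_lit 246))))))) (XT.nd (nat_lit 1128) (nat_lit 2604) (nat_lit 0) (XT.nd (nat_lit 564) (nat_lit 2604) (nat_lit 0) (XT.nd (nat_lit 282) (nat_lit 924) (nat_lit 0) (XT.nd (nat_lit 94) (nat_lit 0) (nat_lit 0) (XT.lf (nat_lit 0) (nat_lit 3143236819) (nat_lit 924) (nat_lit 3400424329) (nat_lit 1008) (nat_lit 2199432920) (nat_lit 144) (nat_lit 5) (nat_lit 155) (nat_lit 5) (nat_lit 156) (nat_lit 5) (nat_lit 316) (nat_lit 303) (nat_lit 245)) (XT.nd (nat_lit 94) (nat_lit 0) (nat_lit 0) (XT.lf (nat_lit 84) (nat_lit 335713189) (nat_lit 0) (nat_lit 4059740181) (nat_lit 1008) (nat_lit 4468895050)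 (nat_lit 145) (nat_lit 5) (nat_lit 144) (nat_lit 5) (nat_lit 156) (nat_lit 5) (nat_lit 317) (nat_lit 303) (nat_lit 244)) (XT.lf (nat_lit 84) (nat_lit 4233317675) (nat_lit 0) (nat_lit 1453525689) (nat_lit 1008) (nat_lit 3302650691) (nat_lit 145) (nat_lit 5) (nat_lit 144) (nat_lit 5) (nat_lit 156) (nat_lit 5) (nat_lit 318) (nat_lit 303) (nat_lit 243)))) (XT.nd (nat_lit 94) (nat_lit 1008) (nat_lit 0) (XT.lf (nat_lit 0) (nat_lit 6996504255) (nat_lit 924) (nat_lit 905932412) (nat_lit 84) (nat_lit 1216896252) (nat_lit 145) (nat_lit 5) (nat_lit 156) (nat_lit 5) (nat_lit 146) (nat_lit 5) (nat_lit 319) (nat_lit 303) (nat_lit 242)) (XT.nd (nat_lit 94) (nat_lit 84) (nat_lit 0) (XT.lf (nat_lit 0) (nat_lit 3084840384) (nat_lit 924) (nat_lit 5274416172) (nat_lit 1008) (nat_lit 893687882) (nat_lit 134) (nat_lit 5) (nat_lit 145) (nat_lit 5) (nat_lit 146) (nat_lit 5) (nat_lit 320) (nat_lit 303) (nat_lit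 241)) (XT.lf (nat_lit 0) (nat_lit 342883626) (nat_lit 1008) (nat_lit 2202324910) (nat_lit 84) (nat_lit 6846218950) (nat_lit 133) (nat_lit 5) (nat_lit 145) (nat_lit 5) (nat_lit 134) (nat_lit 5) (nat_lit 321) (nat_lit 303) (nat_lit 240))))) (XT.nd (nat_lit 282) (nat_lit 504) (nat_lit 0) (XT.nd (nat_lit 94) (nat_lit 1092) (nat_lit 0) (XT.lf (nat_lit 0) (nat_lit 1589260733) (nat_lit 1092) (nat_lit 7647980448) (nat_lit 84) (nat_lit 297110959) (nat_lit 121) (nat_lit 5) (nat_lit 134) (nat_lit 5) (nat_lit 122) (nat_lit 5) (nat_lit 322) (nat_lit 303) (nat_lit 239)) (XT.nd (nat_lit 94) (nat_lit 1092) (nat_lit 0) (XT.lf (nat_lit 0) (nat_lit 2892567643) (nat_lit 1092) (nat_lit 3585477290) (nat_lit 84) (nat_lit 3203214864) (nat_lit 121) (nat_lit 5) (nat_lit 134) (nat_lit 5) (nat_lit 122) (nat_lit 5) (nat_lit 323) (nat_lit 303) (nat_lit 238)) (XT.lf (nat_lit 0) (nat_lit 588910301) (nat_lit 1092) (nat_lit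 3623177551) (nat_lit 1176) (nat_lit 5621499410) (nat_lit 108) (nat_lit 5) (nat_lit 121) (nat_lit 5) (nat_lit 122) (nat_lit 5) (nat_lit 324) (nat_lit 303) (nat_lit 237)))) (XT.nd (nat_lit 94) (nat_lit 504) (nat_lit 0) (XT.lf (nat_lit 0) (nat_lit 4943058150) (nat_lit 1092) (nat_lit 637497257) (nat_lit 1176) (nat_lit 4409944486) (nat_lit 108) (nat_lit 5) (nat_lit 121) (nat_lit 5) (nat_lit 122) (nat_lit 5) (nat_lit 325) (nat_lit 303) (nat_lit 236)) (XT.nd (nat_lit 94) (nat_lit 504) (nat_lit 0) (XT.lf (nat_lit 0) (nat_lit 6987194417) (nat_lit 1176) (nat_lit 770217523) (nat_lit 84) (nat_lit 2395105601) (nat_lit 108) (nat_lit 5) (nat_lit 122) (nat_lit 5) (nat_lit 109) (nat_lit 5) (nat_lit 326) (nat_lit 303) (nat_lit 235)) (XT.lf (nat_lit 0) (nat_lit 3682133625) (nat_lit 504) (nat_lit 4770745292) (nat_lit 588) (nat_lit 1866305860) (nat_lit 102) (nat_lit 5) (nat_lit 108) (nat_lit 5) (nat_lit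 109) (nat_lit 5) (nat_lit 327) (nat_lit 303) (nat_lit 234)))))) (XT.nd (nat_lit 564) (nat_lit 1428) (nat_lit 0) (XT.nd (nat_lit 282) (nat_lit 504) (nat_lit 0) (XT.nd (nat_lit 94) (nat_lit 672) (nat_lit 0) (XT.lf (nat_lit 0) (nat_lit 8263956613) (nat_lit 504) (nat_lit 1681058177) (nat_lit 588) (nat_lit 546694929) (nat_lit 102) (nat_lit 5) (nat_lit 108) (nat_lit 5) (nat_lit 109) (nat_lit 5) (nat_lit 328) (nat_lit 303) (nat_lit 233)) (XT.nd (nat_lit 94) (nat_lit 0) (nat_lit 0) (XT.lf (nat_lit 0) (nat_lit 809248440) (nat_lit 672) (nat_lit 8352418674) (nat_lit 84) (nat_lit 1507395514) (nat_lit 94) (nat_lit 5) (nat_lit 102) (nat_lit 5) (nat_lit 95) (nat_lit 5) (nat_lit 329) (nat_lit 303) (nat_lit 232)) (XT.lf (nat_lit 0) (nat_lit 2210547629) (nat_lit 672) (nat_lit 3850508931) (nat_lit 84) (nat_lit 4790322095) (nat_lit 94) (nat_lit 5) (nat_lit 102) (nat_lit 5) (nat_lit 95) (nat_lit 5) (nat_lit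 330) (nat_lit 303) (nat_lit 231)))) (XT.nd (nat_lit 94) (nat_lit 0) (nat_lit 0) (XT.lf (nat_lit 0) (nat_lit 782042989) (nat_lit 504) (nat_lit 2855777474) (nat_lit 588) (nat_lit 7402158193) (nat_lit 88) (nat_lit 5) (nat_lit 94) (nat_lit 5) (nat_lit 95) (nat_lit 5) (nat_lit 331) (nat_lit 303) (nat_lit 230)) (XT.nd (nat_lit 94) (nat_lit 0) (nat_lit 0) (XT.lf (nat_lit 0) (nat_lit 5129688431) (nat_lit 588) (nat_lit 5623490820) (nat_lit 84) (nat_lit 480703148) (nat_lit 88) (nat_lit 5) (nat_lit 95) (nat_lit 5) (nat_lit 89) (nat_lit 5) (nat_lit 332) (nat_lit 303) (nat_lit 229)) (XT.lf (nat_lit 0) (nat_lit 6673049434) (nat_lit 588) (nat_lit 899106359) (nat_lit 84) (nat_lit 3861564104) (nat_lit 88) (nat_lit 5) (nat_lit 95) (nat_lit 5) (nat_lit 89) (nat_lit 5) (nat_lit 333) (nat_lit 303) (nat_lit 228))))) (XT.nd (nat_lit 282) (nat_lit 504) (nat_lit 0) (XT.nd (nat_lit 94) (nat_lit 420) (nat_lit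 0) (XT.lf (nat_lit 0) (nat_lit 4029128972) (nat_lit 504) (nat_lit 4251852865) (nat_lit 588) (nat_lit 3358334748) (nat_lit 82) (nat_lit 5) (nat_lit 88) (nat_lit 5) (nat_lit 89) (nat_lit 5) (nat_lit 334) (nat_lit 303) (nat_lit 227)) (XT.nd (nat_lit 94) (nat_lit 420) (nat_lit 0) (XT.lf (nat_lit 0) (nat_lit 9105657946) (nat_lit 504) (nat_lit 819710081) (nat_lit 588) (nat_lit 1926414181) (nat_lit 82) (nat_lit 5) (nat_lit 88) (nat_lit 5) (nat_lit 89) (nat_lit 5) (nat_lit 335) (nat_lit 303) (nat_lit 226)) (XT.lf (nat_lit 0) (nat_lit 2263774205) (nat_lit 420) (nat_lit 9384284573) (nat_lit 504) (nat_lit 422006170) (nat_lit 77) (nat_lit 5) (nat_lit 82) (nat_lit 5) (nat_lit 83) (nat_lit 5) (nat_lit 336) (nat_lit 303) (nat_lit 225)))) (XT.nd (nat_lit 94) (nat_lit 420) (nat_lit 0) (XT.lf (nat_lit 0) (nat_lit 1121669437) (nat_lit 504) (nat_lit 4850782777) (nat_lit 84) (nat_lit 6321911554) (nat_lit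 76) (nat_lit 5) (nat_lit 82) (nat_lit 5) (nat_lit 77) (nat_lit 5) (nat_lit 337) (nat_lit 303) (nat_lit 224)) (XT.nd (nat_lit 94) (nat_lit 0) (nat_lit 0) (XT.lf (nat_lit 0) (nat_lit 235619150) (nat_lit 420) (nat_lit 2449849289) (nat_lit 504) (nat_lit 9840672564) (nat_lit 71) (nat_lit 5) (nat_lit 76) (nat_lit 5) (nat_lit 77) (nat_lit 5) (nat_lit 338) (nat_lit 303) (nat_lit 223)) (XT.lf (nat_lit 0) (nat_lit 4339711472) (nat_lit 504) (nat_lit 7216862822) (nat_lit 84) (nat_lit 1207297002) (nat_lit 71) (nat_lit 5) (nat_lit 77) (nat_lit 5) (nat_lit 72) (nat_lit 5) (nat_lit 339) (nat_lit 303) (nat_lit 222))))))))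
noncomputable def xc124 : XT := (XT.nd (nat_lit 2256) (nat_lit 1512) (nat_lit 0) (XT.nd (nat_lit 1128) (nat_lit 1260) (nat_lit 0) (XT.nd (nat_lit 564) (nat_lit 1008) (nat_lit 0) (XT.nd (nat_lit 282) (nat_lit 504) (nat_lit 0) (XT.nd (nat_lit 94) (nat_lit 420) (nat_lit 0) (XT.lf (nat_lit 0) (nat_lit 6050011978) (nat_lit 504) (nat_lit 2033886050) (nat_lit 84) (nat_lit 4924991992) (nat_lit 71) (nat_lit 5) (nat_lit 77) (nat_lit 5) (nat_lit 72) (nat_lit 5) (nat_lit 340) (nat_lit 303) (nat_lit 221)) (XT.nd (nat_lit 94) (nat_lit 0) (nat_lit 0) (XT.lf (nat_lit 0) (nat_lit 3355140960) (nat_lit 420) (nat_lit 4471803781) (nat_lit 504) (nat_lit 5434202418) (nat_lit 66) (nat_lit 5) (nat_lit 71) (nat_lit 5) (nat_lit 72) (nat_lit 5) (nat_lit 341) (nat_lit 303) (nat_lit 220)) (XT.lf (nat_lit 0) (nat_lit 8932349433) (nat_lit 420) (nat_lit 728545362) (nat_lit 504) (nat_lit 3860332453) (nat_lit 66) (nat_lit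 5) (nat_lit 71) (nat_lit 5) (nat_lit 72) (nat_lit 5) (nat_lit 342) (nat_lit 303) (nat_lit 219)))) (XT.nd (nat_lit 94) (nat_lit 84) (nat_lit 0) (XT.lf (nat_lit 0) (nat_lit 857348149) (nat_lit 420) (nat_lit 10715168663) (nat_lit 504) (nat_lit 2216268601) (nat_lit 61) (nat_lit 5) (nat_lit 66) (nat_lit 5) (nat_lit 67) (nat_lit 5) (nat_lit 343) (nat_lit 303) (nat_lit 218)) (XT.nd (nat_lit 94) (nat_lit 84) (nat_lit 0) (XT.lf (nat_lit 0) (nat_lit 6540357035) (nat_lit 420) (nat_lit 7039921479) (nat_lit 504) (nat_lit 483275265) (nat_lit 61) (nat_lit 5) (nat_lit 66) (nat_lit 5) (nat_lit 67) (nat_lit 5) (nat_lit 344) (nat_lit 303) (nat_lit 217)) (XT.lf (nat_lit 0) (nat_lit 1259098889) (nat_lit 504) (nat_lit 1981732560) (nat_lit 84) (nat_lit 11106223830) (nat_lit 60) (nat_lit 5) (nat_lit 66) (nat_lit 5) (nat_lit 61) (nat_lit 5) (nat_lit 345) (nat_lit 303) (nat_lit 216))))) (XT.nd (nat_lit 282) (nat_lit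 336) (nat_lit 0) (XT.nd (nat_lit 94) (nat_lit 336) (nat_lit 0) (XT.lf (nat_lit 0) (nat_lit 3072535711) (nat_lit 420) (nat_lit 10863817913) (nat_lit 84) (nat_lit 702052737) (nat_lit 56) (nat_lit 5) (nat_lit 61) (nat_lit 5) (nat_lit 57) (nat_lit 5) (nat_lit 346) (nat_lit 303) (nat_lit 215)) (XT.nd (nat_lit 94) (nat_lit 336) (nat_lit 0) (XT.lf (nat_lit 0) (nat_lit 4978983527) (nat_lit 420) (nat_lit 5241334469) (nat_lit 84) (nat_lit 4717383062) (nat_lit 56) (nat_lit 5) (nat_lit 61) (nat_lit 5) (nat_lit 57) (nat_lit 5) (nat_lit 347) (nat_lit 303) (nat_lit 214)) (XT.lf (nat_lit 0) (nat_lit 545885817) (nat_lit 336) (nat_lit 6387330873) (nat_lit 420) (nat_lit 8313458737) (nat_lit 52) (nat_lit 5) (nat_lit 56) (nat_lit 5) (nat_lit 57) (nat_lit 5) (nat_lit 348) (nat_lit 303) (nat_lit 213)))) (XT.nd (nat_lit 94) (nat_lit 336) (nat_lit 0) (XT.lf (nat_lit 0) (nat_lit 6603273082) (nat_lit 336) (nat_lit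 2383038143) (nat_lit 420) (nat_lit 6577779351) (nat_lit 52) (nat_lit 5) (nat_lit 56) (nat_lit 5) (nat_lit 57) (nat_lit 5) (nat_lit 349) (nat_lit 303) (nat_lit 212)) (XT.nd (nat_lit 94) (nat_lit 336) (nat_lit 0) (XT.lf (nat_lit 0) (nat_lit 11104393753) (nat_lit 420) (nat_lit 3080463218) (nat_lit 84) (nat_lit 1706494797) (nat_lit 52) (nat_lit 5) (nat_lit 57) (nat_lit 5) (nat_lit 53) (nat_lit 5) (nat_lit 350) (nat_lit 303) (nat_lit 211)) (XT.lf (nat_lit 0) (nat_lit 2998590213) (nat_lit 336) (nat_lit 10328173743) (nat_lit 420) (nat_lit 2900843000) (nat_lit 48) (nat_lit 5) (nat_lit 52) (nat_lit 5) (nat_lit 53) (nat_lit 5) (nat_lit 351) (nat_lit 303) (nat_lit 210)))))) (XT.nd (nat_lit 564) (nat_lit 588) (nat_lit 0) (XT.nd (nat_lit 282) (nat_lit 252) (nat_lit 0) (XT.nd (nat_lit 94) (nat_lit 420) (nat_lit 0) (XT.lf (nat_lit 0) (nat_lit 9311963414) (nat_lit 336) (nat_lit 6322998816) (nat_lit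 420) (nat_lit 938843801) (nat_lit 48) (nat_lit 5) (nat_lit 52) (nat_lit 5) (nat_lit 53) (nat_lit 5) (nat_lit 352) (nat_lit 303) (nat_lit 209)) (XT.nd (nat_lit 94) (nat_lit 336) (nat_lit 0) (XT.lf (nat_lit 0) (nat_lit 1047182432) (nat_lit 420) (nat_lit 1139639795) (nat_lit 84) (nat_lit 14744087599) (nat_lit 47) (nat_lit 5) (nat_lit 52) (nat_lit 5) (nat_lit 48) (nat_lit 5) (nat_lit 353) (nat_lit 303) (nat_lit 208)) (XT.lf (nat_lit 0) (nat_lit 3134047423) (nat_lit 420) (nat_lit 12068962469) (nat_lit 84) (nat_lit 2093995300) (nat_lit 43) (nat_lit 5) (nat_lit 48) (nat_lit 5) (nat_lit 44) (nat_lit 5) (nat_lit 354) (nat_lit 303) (nat_lit 207)))) (XT.nd (nat_lit 94) (nat_lit 252) (nat_lit 0) (XT.lf (nat_lit 0) (nat_lit 5305694689) (nat_lit 420) (nat_lit 5898160061) (nat_lit 84) (nat_lit 6470011773) (nat_lit 43) (nat_lit 5) (nat_lit 48) (nat_lit 5) (nat_lit 44) (nat_lit 5) (nat_lit 355) (nat_lit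 303) (nat_lit 206)) (XT.nd (nat_lit 94) (nat_lit 0) (nat_lit 0) (XT.lf (nat_lit 0) (nat_lit 454793052) (nat_lit 252) (nat_lit 7080517601) (nat_lit 336) (nat_lit 10527428409) (nat_lit 40) (nat_lit 5) (nat_lit 43) (nat_lit 5) (nat_lit 44) (nat_lit 5) (nat_lit 356) (nat_lit 303) (nat_lit 205)) (XT.lf (nat_lit 0) (nat_lit 7111603715) (nat_lit 252) (nat_lit 2770378812) (nat_lit 336) (nat_lit 8580235475) (nat_lit 40) (nat_lit 5) (nat_lit 43) (nat_lit 5) (nat_lit 44) (nat_lit 5) (nat_lit 357) (nat_lit 303) (nat_lit 204))))) (XT.nd (nat_lit 282) (nat_lit 336) (nat_lit 0) (XT.nd (nat_lit 94) (nat_lit 252) (nat_lit 0) (XT.lf (nat_lit 0) (nat_lit 12304740911) (nat_lit 336) (nat_lit 4933885146) (nat_lit 84) (nat_lit 1635387501) (nat_lit 40) (nat_lit 5) (nat_lit 44) (nat_lit 5) (nat_lit 41) (nat_lit 5) (nat_lit 358) (nat_lit 303) (nat_lit 203)) (XT.nd (nat_lit 94) (nat_lit 0) (nat_lit 0) (XT.lf (nat_lit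 0) (nat_lit 1669628257) (nat_lit 252) (nat_lit 13165012237) (nat_lit 336) (nat_lit 4462976385) (nat_lit 37) (nat_lit 5) (nat_lit 40) (nat_lit 5) (nat_lit 41) (nat_lit 5) (nat_lit 359) (nat_lit 303) (nat_lit 202)) (XT.lf (nat_lit 0) (nat_lit 8565183734) (nat_lit 252) (nat_lit 8916636662) (nat_lit 336) (nat_lit 2251361198) (nat_lit 37) (nat_lit 5) (nat_lit 40) (nat_lit 5) (nat_lit 41) (nat_lit 5) (nat_lit 360) (nat_lit 303) (nat_lit 201)))) (XT.nd (nat_lit 94) (nat_lit 252) (nat_lit 0) (XT.lf (nat_lit 0) (nat_lit 15809648) (nat_lit 336) (nat_lit 4525064374) (nat_lit 84) (nat_lit 15641783199) (nat_lit 36) (nat_lit 5) (nat_lit 40) (nat_lit 5) (nat_lit 37) (nat_lit 5) (nat_lit 361) (nat_lit 303) (nat_lit 200)) (XT.nd (nat_lit 94) (nat_lit 0) (nat_lit 0) (XT.lf (nat_lit 0) (nat_lit 2317707862) (nat_lit 336) (nat_lit 18313952196) (nat_lit 84) (nat_lit 13376340) (nat_lit 33) (nat_lit 5) (nat_lit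 37) (nat_lit 5) (nat_lit 34) (nat_lit 5) (nat_lit 362) (nat_lit 303) (nat_lit 199)) (XT.lf (nat_lit 0) (nat_lit 4773227995) (nat_lit 336) (nat_lit 11688213029) (nat_lit 84) (nat_lit 4657788373) (nat_lit 33) (nat_lit 5) (nat_lit 37) (nat_lit 5) (nat_lit 34) (nat_lit 5) (nat_lit 363) (nat_lit 303) (nat_lit 198))))))) (XT.nd (nat_lit 1128) (nat_lit 588) (nat_lit 0) (XT.nd (nat_lit 564) (nat_lit 504) (nat_lit 0) (XT.nd (nat_lit 282) (nat_lit 168) (nat_lit 0) (XT.nd (nat_lit 94) (nat_lit 252) (nat_lit 0) (XT.lf (nat_lit 0) (nat_lit 7293332052) (nat_lit 336) (nat_lit 4873278414) (nat_lit 84) (nat_lit 9441898881) (nat_lit 33) (nat_lit 5) (nat_lit 37) (nat_lit 5) (nat_lit 34) (nat_lit 5) (nat_lit 364) (nat_lit 303) (nat_lit 197)) (XT.nd (nat_lit 94) (nat_lit 0) (nat_lit 0) (XT.lf (nat_lit 0) (nat_lit 2181149176) (nat_lit 252) (nat_lit 7720857127) (nat_lit 336) (nat_lit 12210655251) (nat_lit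 30) (nat_lit 5) (nat_lit 33) (nat_lit 5) (nat_lit 34) (nat_lit 5) (nat_lit 365) (nat_lit 303) (nat_lit 196)) (XT.lf (nat_lit 0) (nat_lit 9542018776) (nat_lit 252) (nat_lit 3089389561) (nat_lit 336) (nat_lit 9999826095) (nat_lit 30) (nat_lit 5) (nat_lit 33) (nat_lit 5) (nat_lit 34) (nat_lit 5) (nat_lit 366) (nat_lit 303) (nat_lit 195)))) (XT.nd (nat_lit 94) (nat_lit 168) (nat_lit 0) (XT.lf (nat_lit 0) (nat_lit 15451422805) (nat_lit 336) (nat_lit 6066932053) (nat_lit 84) (nat_lit 1647368929) (nat_lit 30) (nat_lit 5) (nat_lit 34) (nat_lit 5) (nat_lit 31) (nat_lit 5) (nat_lit 367) (nat_lit 303) (nat_lit 194)) (XT.nd (nat_lit 94) (nat_lit 0) (nat_lit 0) (XT.lf (nat_lit 0) (nat_lit 1149669114) (nat_lit 168) (nat_lit 17241792089) (nat_lit 252) (nat_lit 5324336345) (nat_lit 28) (nat_lit 5) (nat_lit 30) (nat_lit 5) (nat_lit 31) (nat_lit 5) (nat_lit 368) (nat_lit 303) (nat_lit 193)) (XT.lf (nat_lit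 0) (nat_lit 8703812629) (nat_lit 168) (nat_lit 12771921891) (nat_lit 252) (nat_lit 2805568337) (nat_lit 28) (nat_lit 5) (nat_lit 30) (nat_lit 5) (nat_lit 31) (nat_lit 5) (nat_lit 369) (nat_lit 303) (nat_lit 192))))) (XT.nd (nat_lit 282) (nat_lit 168) (nat_lit 0) (XT.nd (nat_lit 94) (nat_lit 336) (nat_lit 0) (XT.lf (nat_lit 0) (nat_lit 16477791177) (nat_lit 168) (nat_lit 8167904204) (nat_lit 252) (nat_lit 218975529) (nat_lit 28) (nat_lit 5) (nat_lit 30) (nat_lit 5) (nat_lit 31) (nat_lit 5) (nat_lit 370) (nat_lit 303) (nat_lit 191)) (XT.nd (nat_lit 94) (nat_lit 252) (nat_lit 0) (XT.lf (nat_lit 0) (nat_lit 2388735746) (nat_lit 252) (nat_lit 1011778353) (nat_lit 84) (nat_lit 22065181673) (nat_lit 27) (nat_lit 5) (nat_lit 30) (nat_lit 5) (nat_lit 28) (nat_lit 5) (nat_lit 371) (nat_lit 303) (nat_lit 190)) (XT.lf (nat_lit 0) (nat_lit 5145545759) (nat_lit 336) (nat_lit 19388004654) (nat_lit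 84) (nat_lit 1549497777) (nat_lit 24) (nat_lit 5) (nat_lit 28) (nat_lit 5) (nat_lit 25) (nat_lit 5) (nat_lit 372) (nat_lit 303) (nat_lit 189)))) (XT.nd (nat_lit 94) (nat_lit 168) (nat_lit 0) (XT.lf (nat_lit 0) (nat_lit 8023917331) (nat_lit 336) (nat_lit 12105711801) (nat_lit 84) (nat_lit 6588811889) (nat_lit 24) (nat_lit 5) (nat_lit 28) (nat_lit 5) (nat_lit 25) (nat_lit 5) (nat_lit 373) (nat_lit 303) (nat_lit 188)) (XT.nd (nat_lit 94) (nat_lit 168) (nat_lit 0) (XT.lf (nat_lit 0) (nat_lit 10982451772) (nat_lit 336) (nat_lit 4611091205) (nat_lit 84) (nat_lit 11780290072) (nat_lit 24) (nat_lit 5) (nat_lit 28) (nat_lit 5) (nat_lit 25) (nat_lit 5) (nat_lit 374) (nat_lit 303) (nat_lit 187)) (XT.lf (nat_lit 0) (nat_lit 3166643719) (nat_lit 168) (nat_lit 10888676525) (nat_lit 252) (nat_lit 13993541105) (nat_lit 22) (nat_lit 5) (nat_lit 24) (nat_lit 5) (nat_lit 25) (nat_lit 5) (nat_lit 375) (nat_lit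 303) (nat_lit 186)))))) (XT.nd (nat_lit 564) (nat_lit 336) (nat_lit 0) (XT.nd (nat_lit 282) (nat_lit 252) (nat_lit 0) (XT.nd (nat_lit 94) (nat_lit 0) (nat_lit 0) (XT.lf (nat_lit 0) (nat_lit 11270353227) (nat_lit 168) (nat_lit 5992567281) (nat_lit 252) (nat_lit 11480691071) (nat_lit 22) (nat_lit 5) (nat_lit 24) (nat_lit 5) (nat_lit 25) (nat_lit 5) (nat_lit 376) (nat_lit 303) (nat_lit 185)) (XT.nd (nat_lit 94) (nat_lit 0) (nat_lit 0) (XT.lf (nat_lit 0) (nat_lit 19612777332) (nat_lit 168) (nat_lit 948781894) (nat_lit 252) (nat_lit 8898619270) (nat_lit 22) (nat_lit 5) (nat_lit 24) (nat_lit 5) (nat_lit 25) (nat_lit 5) (nat_lit 377) (nat_lit 303) (nat_lit 184)) (XT.lf (nat_lit 0) (nat_lit 23996445622) (nat_lit 252) (nat_lit 2039672516) (nat_lit 84) (nat_lit 4161805709) (nat_lit 22) (nat_lit 5) (nat_lit 25) (nat_lit 5) (nat_lit 23) (nat_lit 5) (nat_lit 378) (nat_lit 303) (nat_lit 183)))) (XT.nd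 (nat_lit 94) (nat_lit 84) (nat_lit 0) (XT.lf (nat_lit 0) (nat_lit 6111541286) (nat_lit 168) (nat_lit 21488665191) (nat_lit 252) (nat_lit 3356416630) (nat_lit 20) (nat_lit 5) (nat_lit 22) (nat_lit 5) (nat_lit 23) (nat_lit 5) (nat_lit 379) (nat_lit 303) (nat_lit 182)) (XT.nd (nat_lit 94) (nat_lit 84) (nat_lit 0) (XT.lf (nat_lit 0) (nat_lit 14546819472) (nat_lit 168) (nat_lit 16782337372) (nat_lit 252) (nat_lit 409284986) (nat_lit 20) (nat_lit 5) (nat_lit 22) (nat_lit 5) (nat_lit 23) (nat_lit 5) (nat_lit 380) (nat_lit 303) (nat_lit 181)) (XT.lf (nat_lit 0) (nat_lit 2568558904) (nat_lit 252) (nat_lit 9338668496) (nat_lit 84) (nat_lit 20636715361) (nat_lit 19) (nat_lit 5) (nat_lit 22) (nat_lit 5) (nat_lit 20) (nat_lit 5) (nat_lit 381) (nat_lit 303) (nat_lit 180))))) (XT.nd (nat_lit 282) (nat_lit 168) (nat_lit 0) (XT.nd (nat_lit 94) (nat_lit 168) (nat_lit 0) (XT.lf (nat_lit 0) (nat_lit 5622768793)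 (nat_lit 252) (nat_lit 1257788648) (nat_lit 84) (nat_lit 26493973738) (nat_lit 19) (nat_lit 5) (nat_lit 22) (nat_lit 5) (nat_lit 20) (nat_lit 5) (nat_lit 382) (nat_lit 303) (nat_lit 179)) (XT.nd (nat_lit 94) (nat_lit 0) (nat_lit 0) (XT.lf (nat_lit 0) (nat_lit 7207831305) (nat_lit 168) (nat_lit 1628108977) (nat_lit 252) (nat_lit 25392950285) (nat_lit 17) (nat_lit 5) (nat_lit 19) (nat_lit 5) (nat_lit 20) (nat_lit 5) (nat_lit 383) (nat_lit 303) (nat_lit 178)) (XT.lf (nat_lit 0) (nat_lit 12192402635) (nat_lit 252) (nat_lit 19195557348) (nat_lit 84) (nat_lit 3720435927) (nat_lit 17) (nat_lit 5) (nat_lit 20) (nat_lit 5) (nat_lit 18) (nat_lit 5) (nat_lit 384) (nat_lit 303) (nat_lit 177)))) (XT.nd (nat_lit 94) (nat_lit 168) (nat_lit 0) (XT.lf (nat_lit 0) (nat_lit 15662632409) (nat_lit 252) (nat_lit 11154859331) (nat_lit 84) (nat_lit 9197387476) (nat_lit 17) (nat_lit 5) (nat_lit 20) (nat_lit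 5) (nat_lit 18) (nat_lit 5) (nat_lit 385) (nat_lit 303) (nat_lit 176)) (XT.nd (nat_lit 94) (nat_lit 168) (nat_lit 0) (XT.lf (nat_lit 0) (nat_lit 19233713178) (nat_lit 252) (nat_lit 2875319395) (nat_lit 84) (nat_lit 14840653529) (nat_lit 17) (nat_lit 5) (nat_lit 20) (nat_lit 5) (nat_lit 18) (nat_lit 5) (nat_lit 386) (nat_lit 303) (nat_lit 175)) (XT.lf (nat_lit 0) (nat_lit 5766971480) (nat_lit 168) (nat_lit 17199211155) (nat_lit 252) (nat_lit 14945731793) (nat_lit 15) (nat_lit 5) (nat_lit 17) (nat_lit 5) (nat_lit 18) (nat_lit 5) (nat_lit 387) (nat_lit 303) (nat_lit 174))))))))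
noncomputable def xc125 : XT := (XT.nd (nat_lit 2256) (nat_lit 84) (nat_lit 0) (XT.nd (nat_lit 1128) (nat_lit 336) (nat_lit 0) (XT.nd (nat_lit 564) (nat_lit 168) (nat_lit 0) (XT.nd (nat_lit 282) (nat_lit 168) (nat_lit 0) (XT.nd (nat_lit 94) (nat_lit 0) (nat_lit 0) (XT.lf (nat_lit 0) (nat_lit 14728124531) (nat_lit 168) (nat_lit 12109819582) (nat_lit 252) (nat_lit 12065309823) (nat_lit 15) (nat_lit 5) (nat_lit 17) (nat_lit 5) (nat_lit 18) (nat_lit 5) (nat_lit 388) (nat_lit 303) (nat_lit 173)) (XT.nd (nat_lit 94) (nat_lit 0) (nat_lit 0) (XT.lf (nat_lit 0) (nat_lit 23957370027) (nat_lit 168) (nat_lit 6866126446) (nat_lit 252) (nat_lit 9102034597) (nat_lit 15) (nat_lit 5) (nat_lit 17) (nat_lit 5) (nat_lit 18) (nat_lit 5) (nat_lit 389) (nat_lit 303) (nat_lit 172)) (XT.lf (nat_lit 0) (nat_lit 33463310590) (nat_lit 168) (nat_lit 1463244076) (nat_lit 252) (nat_lit 6053144033) (nat_lit 15) (nat_lit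 5) (nat_lit 17) (nat_lit 5) (nat_lit 18) (nat_lit 5) (nat_lit 390) (nat_lit 303) (nat_lit 171)))) (XT.nd (nat_lit 94) (nat_lit 84) (nat_lit 0) (XT.lf (nat_lit 0) (nat_lit 1170948502) (nat_lit 84) (nat_lit 38032321462) (nat_lit 168) (nat_lit 2861847325) (nat_lit 14) (nat_lit 5) (nat_lit 15) (nat_lit 5) (nat_lit 16) (nat_lit 4) (nat_lit 391) (nat_lit 303) (nat_lit 170)) (XT.nd (nat_lit 94) (nat_lit 0) (nat_lit 0) (XT.lf (nat_lit 0) (nat_lit 508090610) (nat_lit 168) (nat_lit 32924161576) (nat_lit 84) (nat_lit 9749072709) (nat_lit 13) (nat_lit 5) (nat_lit 15) (nat_lit 5) (nat_lit 14) (nat_lit 5) (nat_lit 392) (nat_lit 303) (nat_lit 169)) (XT.lf (nat_lit 0) (nat_lit 3917344458) (nat_lit 168) (nat_lit 24745401959) (nat_lit 84) (nat_lit 15668669039) (nat_lit 13) (nat_lit 5) (nat_lit 15) (nat_lit 5) (nat_lit 14) (nat_lit 5) (nat_lit 393) (nat_lit 303) (nat_lit 168))))) (XT.nd (nat_lit 282) (nat_lit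 0) (nat_lit 0) (XT.nd (nat_lit 94) (nat_lit 168) (nat_lit 0) (XT.lf (nat_lit 0) (nat_lit 7426751845) (nat_lit 168) (nat_lit 16321876596) (nat_lit 84) (nat_lit 21768712620) (nat_lit 13) (nat_lit 5) (nat_lit 15) (nat_lit 5) (nat_lit 14) (nat_lit 5) (nat_lit 394) (nat_lit 303) (nat_lit 167)) (XT.nd (nat_lit 94) (nat_lit 168) (nat_lit 0) (XT.lf (nat_lit 0) (nat_lit 11039583906) (nat_lit 168) (nat_lit 7645733879) (nat_lit 84) (nat_lit 28054889333) (nat_lit 13) (nat_lit 5) (nat_lit 15) (nat_lit 5) (nat_lit 14) (nat_lit 5) (nat_lit 395) (nat_lit 303) (nat_lit 166)) (XT.lf (nat_lit 0) (nat_lit 1317661202) (nat_lit 168) (nat_lit 13454618339) (nat_lit 252) (nat_lit 33228468711) (nat_lit 11) (nat_lit 5) (nat_lit 13) (nat_lit 5) (nat_lit 14) (nat_lit 5) (nat_lit 396) (nat_lit 303) (nat_lit 165)))) (XT.nd (nat_lit 94) (nat_lit 0) (nat_lit 0) (XT.lf (nat_lit 0) (nat_lit 10712834661) (nat_lit 168)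 (nat_lit 7982529730) (nat_lit 252) (nat_lit 30602696594) (nat_lit 11) (nat_lit 5) (nat_lit 13) (nat_lit 5) (nat_lit 14) (nat_lit 5) (nat_lit 397) (nat_lit 303) (nat_lit 164)) (XT.nd (nat_lit 94) (nat_lit 0) (nat_lit 0) (XT.lf (nat_lit 0) (nat_lit 20391331813) (nat_lit 168) (nat_lit 2343757179) (nat_lit 252) (nat_lit 27900665147) (nat_lit 11) (nat_lit 5) (nat_lit 13) (nat_lit 5) (nat_lit 14) (nat_lit 5) (nat_lit 398) (nat_lit 303) (nat_lit 163)) (XT.lf (nat_lit 0) (nat_lit 26929611415) (nat_lit 252) (nat_lit 21687293178) (nat_lit 84) (nat_lit 3397103818) (nat_lit 11) (nat_lit 5) (nat_lit 14) (nat_lit 5) (nat_lit 12) (nat_lit 4) (nat_lit 399) (nat_lit 303) (nat_lit 162)))))) (XT.nd (nat_lit 564) (nat_lit 252) (nat_lit 0) (XT.nd (nat_lit 282) (nat_lit 0) (nat_lit 0) (XT.nd (nat_lit 94) (nat_lit 84) (nat_lit 0) (XT.lf (nat_lit 0) (nat_lit 31273426467) (nat_lit 252) (nat_lit 12896447811)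 (nat_lit 84) (nat_lit 9264526065) (nat_lit 11) (nat_lit 5) (nat_lit 14) (nat_lit 5) (nat_lit 12) (nat_lit 4) (nat_lit 400) (nat_lit 303) (nat_lit 161)) (XT.nd (nat_lit 94) (nat_lit 84) (nat_lit 0) (XT.lf (nat_lit 0) (nat_lit 35747332678) (nat_lit 252) (nat_lit 3840441876) (nat_lit 84) (nat_lit 15311200096) (nat_lit 11) (nat_lit 5) (nat_lit 14) (nat_lit 5) (nat_lit 12) (nat_lit 4) (nat_lit 401) (nat_lit 303) (nat_lit 160)) (XT.lf (nat_lit 0) (nat_lit 5602034279) (nat_lit 84) (nat_lit 34809038791) (nat_lit 168) (nat_lit 15996300639) (nat_lit 10) (nat_lit 5) (nat_lit 11) (nat_lit 5) (nat_lit 12) (nat_lit 4) (nat_lit 402) (nat_lit 303) (nat_lit 159)))) (XT.nd (nat_lit 94) (nat_lit 0) (nat_lit 0) (XT.lf (nat_lit 0) (nat_lit 15411580306) (nat_lit 84) (nat_lit 29843528797) (nat_lit 168) (nat_lit 12706324858) (nat_lit 10) (nat_lit 5) (nat_lit 11) (nat_lit 5) (nat_lit 12) (nat_lit 4) (nat_lit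 403) (nat_lit 303) (nat_lit 158)) (XT.nd (nat_lit 94) (nat_lit 0) (nat_lit 0) (XT.lf (nat_lit 0) (nat_lit 25518372367) (nat_lit 84) (nat_lit 24726702533) (nat_lit 168) (nat_lit 9318734365) (nat_lit 10) (nat_lit 5) (nat_lit 11) (nat_lit 5) (nat_lit 12) (nat_lit 4) (nat_lit 404) (nat_lit 303) (nat_lit 157)) (XT.lf (nat_lit 0) (nat_lit 35931831051) (nat_lit 84) (nat_lit 19453790581) (nat_lit 168) (nat_lit 5830371569) (nat_lit 10) (nat_lit 5) (nat_lit 11) (nat_lit 5) (nat_lit 12) (nat_lit 4) (nat_lit 405) (nat_lit 303) (nat_lit 156))))) (XT.nd (nat_lit 282) (nat_lit 0) (nat_lit 0) (XT.nd (nat_lit 94) (nat_lit 252) (nat_lit 0) (XT.lf (nat_lit 0) (nat_lit 46661662792) (nat_lit 84) (nat_lit 14019878035) (nat_lit 168) (nat_lit 2237984952) (nat_lit 10) (nat_lit 5) (nat_lit 11) (nat_lit 5) (nat_lit 12) (nat_lit 4) (nat_lit 406) (nat_lit 303) (nat_lit 155)) (XT.nd (nat_lit 94) (nat_lit 168) (nat_lit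 0) (XT.lf (nat_lit 0) (nat_lit 1432322478) (nat_lit 168) (nat_lit 6972626932) (nat_lit 84) (nat_lit 56270595931) (nat_lit 9) (nat_lit 5) (nat_lit 11) (nat_lit 5) (nat_lit 10) (nat_lit 5) (nat_lit 407) (nat_lit 303) (nat_lit 154)) (XT.lf (nat_lit 0) (nat_lit 2624288443) (nat_lit 168) (nat_lit 2567872394) (nat_lit 252) (nat_lit 61292448445) (nat_lit 7) (nat_lit 5) (nat_lit 9) (nat_lit 5) (nat_lit 10) (nat_lit 5) (nat_lit 408) (nat_lit 303) (nat_lit 153)))) (XT.nd (nat_lit 94) (nat_lit 0) (nat_lit 0) (XT.lf (nat_lit 0) (nat_lit 9172541217) (nat_lit 252) (nat_lit 55722128376) (nat_lit 84) (nat_lit 3451867583) (nat_lit 7) (nat_lit 5) (nat_lit 10) (nat_lit 5) (nat_lit 8) (nat_lit 4) (nat_lit 409) (nat_lit 303) (nat_lit 152)) (XT.nd (nat_lit 94) (nat_lit 0) (nat_lit 0) (XT.lf (nat_lit 0) (nat_lit 13298926618) (nat_lit 252) (nat_lit 47363913540) (nat_lit 84) (nat_lit 9602650036) (nat_lit 7)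 (nat_lit 5) (nat_lit 10) (nat_lit 5) (nat_lit 8) (nat_lit 4) (nat_lit 410) (nat_lit 303) (nat_lit 151)) (XT.lf (nat_lit 0) (nat_lit 17549689652) (nat_lit 252) (nat_lit 38752411988) (nat_lit 84) (nat_lit 15941945044) (nat_lit 7) (nat_lit 5) (nat_lit 10) (nat_lit 5) (nat_lit 8) (nat_lit 4) (nat_lit 411) (nat_lit 303) (nat_lit 150))))))) (XT.nd (nat_lit 44744) (nat_lit 0) (nat_lit 10668) (XT.nd (nat_lit 44180) (nat_lit 0) (nat_lit 12264) (XT.nd (nat_lit 282) (nat_lit 84) (nat_lit 0) (XT.nd (nat_lit 94) (nat_lit 0) (nat_lit 0) (XT.lf (nat_lit 0) (nat_lit 21928792476) (nat_lit 252) (nat_lit 29879596899) (nat_lit 84) (nat_lit 22475661494) (nat_lit 7) (nat_lit 5) (nat_lit 10) (nat_lit 5) (nat_lit 8) (nat_lit 4) (nat_lit 412) (nat_lit 303) (nat_lit 149)) (XT.nd (nat_lit 94) (nat_lit 0) (nat_lit 0) (XT.lf (nat_lit 0) (nat_lit 26440316872) (nat_lit 252) (nat_lit 20737197879) (nat_lit 84) (nat_lit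 29209889493) (nat_lit 7) (nat_lit 5) (nat_lit 10) (nat_lit 5) (nat_lit 8) (nat_lit 4) (nat_lit 413) (nat_lit 303) (nat_lit 148)) (XT.lf (nat_lit 0) (nat_lit 31088468053) (nat_lit 252) (nat_lit 11316693255) (nat_lit 84) (nat_lit 36150906049) (nat_lit 7) (nat_lit 5) (nat_lit 10) (nat_lit 5) (nat_lit 8) (nat_lit 4) (nat_lit 414) (nat_lit 303) (nat_lit 147)))) (XT.nd (nat_lit 94) (nat_lit 84) (nat_lit 0) (XT.lf (nat_lit 0) (nat_lit 35877578583) (nat_lit 252) (nat_lit 1609302129) (nat_lit 84) (nat_lit 43305180916) (nat_lit 7) (nat_lit 5) (nat_lit 10) (nat_lit 5) (nat_lit 8) (nat_lit 4) (nat_lit 415) (nat_lit 303) (nat_lit 146)) (XT.nd (nat_lit 43710) (nat_lit 0) (nat_lit 13104) (XT.lf (nat_lit 0) (nat_lit 8566622147) (nat_lit 84) (nat_lit 32330472220) (nat_lit 168) (nat_lit 42197742431) (nat_lit 6) (nat_lit 5) (nat_lit 7) (nat_lit 5) (nat_lit 8) (nat_lit 4) (nat_lit 416) (nat_lit 303) (nat_lit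 145)) (XT.lf (nat_lit 0) (nat_lit 1396138206) (nat_lit 0) (nat_lit 1396138206) (nat_lit 756) (nat_lit 1040184806) (nat_lit 162) (nat_lit 5) (nat_lit 162) (nat_lit 3) (nat_lit 171) (nat_lit 3) (nat_lit 304) (nat_lit 304) (nat_lit 256))))) (XT.nd (nat_lit 282) (nat_lit 0) (nat_lit 0) (XT.nd (nat_lit 94) (nat_lit 840) (nat_lit 0) (XT.lf (nat_lit 0) (nat_lit 5911852152) (nat_lit 0) (nat_lit 917691931) (nat_lit 756) (nat_lit 912981037) (nat_lit 162) (nat_lit 5) (nat_lit 162) (nat_lit 3) (nat_lit 171) (nat_lit 3) (nat_lit 305) (nat_lit 304) (nat_lit 255)) (XT.nd (nat_lit 94) (nat_lit 0) (nat_lit 0) (XT.lf (nat_lit 0) (nat_lit 260773780) (nat_lit 840) (nat_lit 6529695295) (nat_lit 924) (nat_lit 1032924892) (nat_lit 152) (nat_lit 5) (nat_lit 162) (nat_lit 5) (nat_lit 163) (nat_lit 5) (nat_lit 306) (nat_lit 304) (nat_lit 254)) (XT.lf (nat_lit 0) (nat_lit 1434674757) (nat_lit 840) (nat_lit 3397483128)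 (nat_lit 924) (nat_lit 3075058561) (nat_lit 152) (nat_lit 5) (nat_lit 162) (nat_lit 5) (nat_lit 163) (nat_lit 5) (nat_lit 307) (nat_lit 304) (nat_lit 253)))) (XT.nd (nat_lit 94) (nat_lit 0) (nat_lit 0) (XT.lf (nat_lit 0) (nat_lit 2600383530) (nat_lit 840) (nat_lit 193508917) (nat_lit 924) (nat_lit 5201321641) (nat_lit 152) (nat_lit 5) (nat_lit 162) (nat_lit 5) (nat_lit 163) (nat_lit 5) (nat_lit 308) (nat_lit 304) (nat_lit 252)) (XT.nd (nat_lit 94) (nat_lit 0) (nat_lit 84) (XT.lf (nat_lit 84) (nat_lit 3148652097) (nat_lit 0) (nat_lit 641569583) (nat_lit 924) (nat_lit 4296278953) (nat_lit 153) (nat_lit 5) (nat_lit 152) (nat_lit 5) (nat_lit 163) (nat_lit 5) (nat_lit 309) (nat_lit 304) (nat_lit 251)) (XT.lf (nat_lit 0) (nat_lit 4992627496) (nat_lit 840) (nat_lit 1623695297) (nat_lit 924) (nat_lit 1565231171) (nat_lit 153) (nat_lit 5) (nat_lit 163) (nat_lit 5) (nat_lit 164) (nat_lit 5) (nat_lit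 310) (nat_lit 304) (nat_lit 250)))))) (XT.nd (nat_lit 564) (nat_lit 840) (nat_lit 0) (XT.nd (nat_lit 282) (nat_lit 0) (nat_lit 0) (XT.nd (nat_lit 94) (nat_lit 840) (nat_lit 0) (XT.lf (nat_lit 84) (nat_lit 1797641155) (nat_lit 0) (nat_lit 4418317792) (nat_lit 924) (nat_lit 2064279378) (nat_lit 154) (nat_lit 5) (nat_lit 153) (nat_lit 5) (nat_lit 164) (nat_lit 5) (nat_lit 311) (nat_lit 304) (nat_lit 249)) (XT.nd (nat_lit 94) (nat_lit 840) (nat_lit 0) (XT.lf (nat_lit 84) (nat_lit 5334503524) (nat_lit 0) (nat_lit 2119892179) (nat_lit 924) (nat_lit 928465777) (nat_lit 154) (nat_lit 5) (nat_lit 153) (nat_lit 5) (nat_lit 164) (nat_lit 5) (nat_lit 312) (nat_lit 304) (nat_lit 248)) (XT.lf (nat_lit 0) (nat_lit 205936917) (nat_lit 924) (nat_lit 8018189797) (nat_lit 1008) (nat_lit 265610425) (nat_lit 143) (nat_lit 5) (nat_lit 154) (nat_lit 5) (nat_lit 155) (nat_lit 5) (nat_lit 313) (nat_lit 304)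 (nat_lit 247)))) (XT.nd (nat_lit 94) (nat_lit 0) (nat_lit 0) (XT.lf (nat_lit 0) (nat_lit 1371977789) (nat_lit 924) (nat_lit 4491640628) (nat_lit 1008) (nat_lit 2735681797) (nat_lit 143) (nat_lit 5) (nat_lit 154) (nat_lit 5) (nat_lit 155) (nat_lit 5) (nat_lit 314) (nat_lit 304) (nat_lit 246)) (XT.nd (nat_lit 94) (nat_lit 0) (nat_lit 0) (XT.lf (nat_lit 0) (nat_lit 2537243102) (nat_lit 924) (nat_lit 881366297) (nat_lit 1008) (nat_lit 5294947378) (nat_lit 143) (nat_lit 5) (nat_lit 154) (nat_lit 5) (nat_lit 155) (nat_lit 5) (nat_lit 315) (nat_lit 304) (nat_lit 245)) (XT.lf (nat_lit 84) (nat_lit 2873901050) (nat_lit 0) (nat_lit 857427409) (nat_lit 1008) (nat_lit 5100401074) (nat_lit 144) (nat_lit 5) (nat_lit 143) (nat_lit 5) (nat_lit 155) (nat_lit 5) (nat_lit 316) (nat_lit 304) (nat_lit 244))))) (XT.nd (nat_lit 282) (nat_lit 924) (nat_lit 0) (XT.nd (nat_lit 94) (nat_lit 0) (nat_lit 0) (XT.lf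 (nat_lit 0) (nat_lit 4954536859) (nat_lit 924) (nat_lit 2232705224) (nat_lit 1008) (nat_lit 1766711658) (nat_lit 144) (nat_lit 5) (nat_lit 155) (nat_lit 5) (nat_lit 156) (nat_lit 5) (nat_lit 317) (nat_lit 304) (nat_lit 243)) (XT.nd (nat_lit 94) (nat_lit 0) (nat_lit 0) (XT.lf (nat_lit 84) (nat_lit 1606363236) (nat_lit 0) (nat_lit 4600178499) (nat_lit 1008) (nat_lit 2873847061) (nat_lit 145) (nat_lit 5) (nat_lit 144) (nat_lit 5) (nat_lit 156) (nat_lit 5) (nat_lit 318) (nat_lit 304) (nat_lit 242)) (XT.lf (nat_lit 84) (nat_lit 5586900609) (nat_lit 0) (nat_lit 1900705619) (nat_lit 1008) (nat_lit 1723574341) (nat_lit 145) (nat_lit 5) (nat_lit 144) (nat_lit 5) (nat_lit 156) (nat_lit 5) (nat_lit 319) (nat_lit 304) (nat_lit 241)))) (XT.nd (nat_lit 94) (nat_lit 84) (nat_lit 0) (XT.lf (nat_lit 0) (nat_lit 317112833) (nat_lit 924) (nat_lit 8471186012) (nat_lit 1008) (nat_lit 558481519) (nat_lit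 134) (nat_lit 5) (nat_lit 145) (nat_lit 5) (nat_lit 146) (nat_lit 5) (nat_lit 320) (nat_lit 304) (nat_lit 240)) (XT.nd (nat_lit 94) (nat_lit 0) (nat_lit 0) (XT.lf (nat_lit 0) (nat_lit 655720422) (nat_lit 1008) (nat_lit 5079940809) (nat_lit 84) (nat_lit 3750043797) (nat_lit 133) (nat_lit 5) (nat_lit 145) (nat_lit 5) (nat_lit 134) (nat_lit 5) (nat_lit 321) (nat_lit 304) (nat_lit 239)) (XT.lf (nat_lit 0) (nat_lit 1865199371) (nat_lit 1008) (nat_lit 1038556103) (nat_lit 84) (nat_lit 6726076837) (nat_lit 133) (nat_lit 5) (nat_lit 145) (nat_lit 5) (nat_lit 134) (nat_lit 5) (nat_lit 322) (nat_lit 304) (nat_lit 238))))))))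
noncomputable def xc126 : XT := (XT.nd (nat_lit 2256) (nat_lit 2688) (nat_lit 0) (XT.nd (nat_lit 1128) (nat_lit 1848) (nat_lit 0) (XT.nd (nat_lit 564) (nat_lit 1680) (nat_lit 0) (XT.nd (nat_lit 282) (nat_lit 504) (nat_lit 0) (XT.nd (nat_lit 94) (nat_lit 1092) (nat_lit 0) (XT.lf (nat_lit 0) (nat_lit 3114292233) (nat_lit 1092) (nat_lit 6611414292) (nat_lit 84) (nat_lit 52771097) (nat_lit 121) (nat_lit 5) (nat_lit 134) (nat_lit 5) (nat_lit 122) (nat_lit 5) (nat_lit 323) (nat_lit 304) (nat_lit 237)) (XT.nd (nat_lit 94) (nat_lit 1092) (nat_lit 0) (XT.lf (nat_lit 0) (nat_lit 4413628528) (nat_lit 1092) (nat_lit 2461269617) (nat_lit 84) (nat_lit 3056587947) (nat_lit 121) (nat_lit 5) (nat_lit 134) (nat_lit 5) (nat_lit 122) (nat_lit 5) (nat_lit 324) (nat_lit 304) (nat_lit 236)) (XT.lf (nat_lit 0) (nat_lit 1830017104) (nat_lit 1092) (nat_lit 3913128666) (nat_lit 1176) (nat_lit 4346514054) (nat_lit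 108) (nat_lit 5) (nat_lit 121) (nat_lit 5) (nat_lit 122) (nat_lit 5) (nat_lit 325) (nat_lit 304) (nat_lit 235)))) (XT.nd (nat_lit 94) (nat_lit 504) (nat_lit 0) (XT.lf (nat_lit 0) (nat_lit 6282374993) (nat_lit 1092) (nat_lit 829551244) (nat_lit 1176) (nat_lit 3140976880) (nat_lit 108) (nat_lit 5) (nat_lit 121) (nat_lit 5) (nat_lit 122) (nat_lit 5) (nat_lit 326) (nat_lit 304) (nat_lit 234)) (XT.nd (nat_lit 94) (nat_lit 0) (nat_lit 0) (XT.lf (nat_lit 0) (nat_lit 412166780) (nat_lit 504) (nat_lit 8111591822) (nat_lit 588) (nat_lit 1897531630) (nat_lit 102) (nat_lit 5) (nat_lit 108) (nat_lit 5) (nat_lit 109) (nat_lit 5) (nat_lit 327) (nat_lit 304) (nat_lit 233)) (XT.lf (nat_lit 0) (nat_lit 4982108337) (nat_lit 504) (nat_lit 5020880292) (nat_lit 588) (nat_lit 591275573) (nat_lit 102) (nat_lit 5) (nat_lit 108) (nat_lit 5) (nat_lit 109) (nat_lit 5) (nat_lit 328) (nat_lit 304) (nat_lit 232)))))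 (XT.nd (nat_lit 282) (nat_lit 1008) (nat_lit 0) (XT.nd (nat_lit 94) (nat_lit 588) (nat_lit 0) (XT.lf (nat_lit 0) (nat_lit 714475152) (nat_lit 588) (nat_lit 1110405871) (nat_lit 84) (nat_lit 8948379661) (nat_lit 101) (nat_lit 5) (nat_lit 108) (nat_lit 5) (nat_lit 102) (nat_lit 5) (nat_lit 329) (nat_lit 304) (nat_lit 231)) (XT.nd (nat_lit 94) (nat_lit 0) (nat_lit 0) (XT.lf (nat_lit 0) (nat_lit 2073894666) (nat_lit 672) (nat_lit 7398867932) (nat_lit 84) (nat_lit 1484157046) (nat_lit 94) (nat_lit 5) (nat_lit 102) (nat_lit 5) (nat_lit 95) (nat_lit 5) (nat_lit 330) (nat_lit 304) (nat_lit 230)) (XT.lf (nat_lit 0) (nat_lit 3481363184) (nat_lit 672) (nat_lit 2793855580) (nat_lit 84) (nat_lit 4870958134) (nat_lit 94) (nat_lit 5) (nat_lit 102) (nat_lit 5) (nat_lit 95) (nat_lit 5) (nat_lit 331) (nat_lit 304) (nat_lit 229)))) (XT.nd (nat_lit 94) (nat_lit 504) (nat_lit 0) (XT.lf (nat_lit 0) (nat_lit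 1970399312) (nat_lit 504) (nat_lit 2957880021) (nat_lit 588) (nat_lit 6413236831) (nat_lit 88) (nat_lit 5) (nat_lit 94) (nat_lit 5) (nat_lit 95) (nat_lit 5) (nat_lit 332) (nat_lit 304) (nat_lit 228)) (XT.nd (nat_lit 94) (nat_lit 504) (nat_lit 0) (XT.lf (nat_lit 0) (nat_lit 6430854054) (nat_lit 588) (nat_lit 4629099860) (nat_lit 84) (nat_lit 482704877) (nat_lit 88) (nat_lit 5) (nat_lit 95) (nat_lit 5) (nat_lit 89) (nat_lit 5) (nat_lit 333) (nat_lit 304) (nat_lit 227)) (XT.lf (nat_lit 0) (nat_lit 210847704) (nat_lit 504) (nat_lit 7778961274) (nat_lit 588) (nat_lit 3760004331) (nat_lit 82) (nat_lit 5) (nat_lit 88) (nat_lit 5) (nat_lit 89) (nat_lit 5) (nat_lit 334) (nat_lit 304) (nat_lit 226)))))) (XT.nd (nat_lit 564) (nat_lit 924) (nat_lit 0) (XT.nd (nat_lit 282) (nat_lit 420) (nat_lit 0) (XT.nd (nat_lit 94) (nat_lit 504) (nat_lit 0) (XT.lf (nat_lit 0) (nat_lit 5276133758) (nat_lit 504)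 (nat_lit 4347183965) (nat_lit 588) (nat_lit 2339336750) (nat_lit 82) (nat_lit 5) (nat_lit 88) (nat_lit 5) (nat_lit 89) (nat_lit 5) (nat_lit 335) (nat_lit 304) (nat_lit 225)) (XT.nd (nat_lit 94) (nat_lit 504) (nat_lit 0) (XT.lf (nat_lit 0) (nat_lit 10476295891) (nat_lit 504) (nat_lit 809741522) (nat_lit 588) (nat_lit 896796090) (nat_lit 82) (nat_lit 5) (nat_lit 88) (nat_lit 5) (nat_lit 89) (nat_lit 5) (nat_lit 336) (nat_lit 304) (nat_lit 224)) (XT.lf (nat_lit 0) (nat_lit 620470514) (nat_lit 504) (nat_lit 8967971435) (nat_lit 84) (nat_lit 2819986592) (nat_lit 76) (nat_lit 5) (nat_lit 82) (nat_lit 5) (nat_lit 77) (nat_lit 5) (nat_lit 337) (nat_lit 304) (nat_lit 223)))) (XT.nd (nat_lit 94) (nat_lit 420) (nat_lit 0) (XT.lf (nat_lit 0) (nat_lit 2171759148) (nat_lit 504) (nat_lit 3897376062) (nat_lit 84) (nat_lit 6571492321) (nat_lit 76) (nat_lit 5) (nat_lit 82) (nat_lit 5) (nat_lit 77) (nat_lit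 5) (nat_lit 338) (nat_lit 304) (nat_lit 222)) (XT.nd (nat_lit 94) (nat_lit 0) (nat_lit 0) (XT.lf (nat_lit 0) (nat_lit 1335529533) (nat_lit 420) (nat_lit 2428816701) (nat_lit 504) (nat_lit 9115955837) (nat_lit 71) (nat_lit 5) (nat_lit 76) (nat_lit 5) (nat_lit 77) (nat_lit 5) (nat_lit 339) (nat_lit 304) (nat_lit 221)) (XT.lf (nat_lit 0) (nat_lit 5440867461) (nat_lit 504) (nat_lit 6348642349) (nat_lit 84) (nat_lit 1336890064) (nat_lit 71) (nat_lit 5) (nat_lit 77) (nat_lit 5) (nat_lit 72) (nat_lit 5) (nat_lit 340) (nat_lit 304) (nat_lit 220))))) (XT.nd (nat_lit 282) (nat_lit 504) (nat_lit 0) (XT.nd (nat_lit 94) (nat_lit 420) (nat_lit 0) (XT.lf (nat_lit 0) (nat_lit 7175122905) (nat_lit 504) (nat_lit 1037825732) (nat_lit 84) (nat_lit 5167062336) (nat_lit 71) (nat_lit 5) (nat_lit 77) (nat_lit 5) (nat_lit 72) (nat_lit 5) (nat_lit 341) (nat_lit 304) (nat_lit 219)) (XT.nd (nat_lit 94) (nat_lit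 0) (nat_lit 0) (XT.lf (nat_lit 0) (nat_lit 4507538570) (nat_lit 420) (nat_lit 4481811682) (nat_lit 504) (nat_lit 4651382248) (nat_lit 66) (nat_lit 5) (nat_lit 71) (nat_lit 5) (nat_lit 72) (nat_lit 5) (nat_lit 342) (nat_lit 304) (nat_lit 218)) (XT.lf (nat_lit 0) (nat_lit 10226117679) (nat_lit 420) (nat_lit 626379526) (nat_lit 504) (nat_lit 3057325315) (nat_lit 66) (nat_lit 5) (nat_lit 71) (nat_lit 5) (nat_lit 72) (nat_lit 5) (nat_lit 343) (nat_lit 304) (nat_lit 217)))) (XT.nd (nat_lit 94) (nat_lit 84) (nat_lit 0) (XT.lf (nat_lit 0) (nat_lit 1919524845) (nat_lit 420) (nat_lit 10888504249) (nat_lit 504) (nat_lit 1378209169) (nat_lit 61) (nat_lit 5) (nat_lit 66) (nat_lit 5) (nat_lit 67) (nat_lit 5) (nat_lit 344) (nat_lit 304) (nat_lit 216)) (XT.nd (nat_lit 94) (nat_lit 0) (nat_lit 0) (XT.lf (nat_lit 0) (nat_lit 373561295) (nat_lit 504) (nat_lit 6726639716) (nat_lit 84) (nat_lit 7370108218)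 (nat_lit 60) (nat_lit 5) (nat_lit 66) (nat_lit 5) (nat_lit 61) (nat_lit 5) (nat_lit 345) (nat_lit 304) (nat_lit 215)) (XT.lf (nat_lit 0) (nat_lit 2133998395) (nat_lit 504) (nat_lit 1049147493) (nat_lit 84) (nat_lit 11580183195) (nat_lit 60) (nat_lit 5) (nat_lit 66) (nat_lit 5) (nat_lit 61) (nat_lit 5) (nat_lit 346) (nat_lit 304) (nat_lit 214))))))) (XT.nd (nat_lit 1128) (nat_lit 1008) (nat_lit 0) (XT.nd (nat_lit 564) (nat_lit 672) (nat_lit 0) (XT.nd (nat_lit 282) (nat_lit 336) (nat_lit 0) (XT.nd (nat_lit 94) (nat_lit 336) (nat_lit 0) (XT.lf (nat_lit 0) (nat_lit 3989901481) (nat_lit 420) (nat_lit 10190331560) (nat_lit 84) (nat_lit 883982631) (nat_lit 56) (nat_lit 5) (nat_lit 61) (nat_lit 5) (nat_lit 57) (nat_lit 5) (nat_lit 347) (nat_lit 304) (nat_lit 213)) (XT.nd (nat_lit 94) (nat_lit 336) (nat_lit 0) (XT.lf (nat_lit 0) (nat_lit 5930729847) (nat_lit 420) (nat_lit 4423927663) (nat_lit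 84) (nat_lit 5018972333) (nat_lit 56) (nat_lit 5) (nat_lit 61) (nat_lit 5) (nat_lit 57) (nat_lit 5) (nat_lit 348) (nat_lit 304) (nat_lit 212)) (XT.lf (nat_lit 0) (nat_lit 1532775965) (nat_lit 336) (nat_lit 6398414397) (nat_lit 420) (nat_lit 7761509807) (nat_lit 52) (nat_lit 5) (nat_lit 56) (nat_lit 5) (nat_lit 57) (nat_lit 5) (nat_lit 349) (nat_lit 304) (nat_lit 211)))) (XT.nd (nat_lit 94) (nat_lit 336) (nat_lit 0) (XT.lf (nat_lit 0) (nat_lit 7748777348) (nat_lit 336) (nat_lit 2275608996) (nat_lit 420) (nat_lit 5996369317) (nat_lit 52) (nat_lit 5) (nat_lit 56) (nat_lit 5) (nat_lit 57) (nat_lit 5) (nat_lit 350) (nat_lit 304) (nat_lit 210)) (XT.nd (nat_lit 94) (nat_lit 336) (nat_lit 0) (XT.lf (nat_lit 0) (nat_lit 12187037353) (nat_lit 420) (nat_lit 2240141892) (nat_lit 84) (nat_lit 1931705031) (nat_lit 52) (nat_lit 5) (nat_lit 57) (nat_lit 5) (nat_lit 53) (nat_lit 5) (nat_lit 351) (nat_lit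 304) (nat_lit 209)) (XT.lf (nat_lit 0) (nat_lit 4017887901) (nat_lit 336) (nat_lit 10447400196) (nat_lit 420) (nat_lit 2240745092) (nat_lit 48) (nat_lit 5) (nat_lit 52) (nat_lit 5) (nat_lit 53) (nat_lit 5) (nat_lit 352) (nat_lit 304) (nat_lit 208))))) (XT.nd (nat_lit 282) (nat_lit 252) (nat_lit 0) (XT.nd (nat_lit 94) (nat_lit 420) (nat_lit 0) (XT.lf (nat_lit 0) (nat_lit 10499122536) (nat_lit 336) (nat_lit 6324106898) (nat_lit 420) (nat_lit 240475562) (nat_lit 48) (nat_lit 5) (nat_lit 52) (nat_lit 5) (nat_lit 53) (nat_lit 5) (nat_lit 353) (nat_lit 304) (nat_lit 207)) (XT.nd (nat_lit 94) (nat_lit 336) (nat_lit 0) (XT.lf (nat_lit 0) (nat_lit 1771027676) (nat_lit 420) (nat_lit 287324921) (nat_lit 84) (nat_lit 15374027714) (nat_lit 47) (nat_lit 5) (nat_lit 52) (nat_lit 5) (nat_lit 48) (nat_lit 5) (nat_lit 354) (nat_lit 304) (nat_lit 206)) (XT.lf (nat_lit 0) (nat_lit 3912490992) (nat_lit 420)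 (nat_lit 11543466030) (nat_lit 84) (nat_lit 2354239320) (nat_lit 43) (nat_lit 5) (nat_lit 48) (nat_lit 5) (nat_lit 44) (nat_lit 5) (nat_lit 355) (nat_lit 304) (nat_lit 205)))) (XT.nd (nat_lit 94) (nat_lit 252) (nat_lit 0) (XT.lf (nat_lit 0) (nat_lit 6130974424) (nat_lit 420) (nat_lit 5208418856) (nat_lit 84) (nat_lit 6860039137) (nat_lit 43) (nat_lit 5) (nat_lit 48) (nat_lit 5) (nat_lit 44) (nat_lit 5) (nat_lit 356) (nat_lit 304) (nat_lit 204)) (XT.nd (nat_lit 94) (nat_lit 0) (nat_lit 0) (XT.lf (nat_lit 0) (nat_lit 1332641672) (nat_lit 252) (nat_lit 7085766357) (nat_lit 336) (nat_lit 10182357587) (nat_lit 40) (nat_lit 5) (nat_lit 43) (nat_lit 5) (nat_lit 44) (nat_lit 5) (nat_lit 357) (nat_lit 304) (nat_lit 203)) (XT.lf (nat_lit 0) (nat_lit 8169842320) (nat_lit 252) (nat_lit 2648455231) (nat_lit 336) (nat_lit 8194989892) (nat_lit 40) (nat_lit 5) (nat_lit 43) (nat_lit 5) (nat_lit 44) (nat_lit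 5) (nat_lit 358) (nat_lit 304) (nat_lit 202)))))) (XT.nd (nat_lit 564) (nat_lit 420) (nat_lit 0) (XT.nd (nat_lit 282) (nat_lit 336) (nat_lit 0) (XT.nd (nat_lit 94) (nat_lit 252) (nat_lit 0) (XT.lf (nat_lit 0) (nat_lit 13299218936) (nat_lit 336) (nat_lit 4255626320) (nat_lit 84) (nat_lit 1883580644) (nat_lit 40) (nat_lit 5) (nat_lit 44) (nat_lit 5) (nat_lit 41) (nat_lit 5) (nat_lit 359) (nat_lit 304) (nat_lit 201)) (XT.nd (nat_lit 94) (nat_lit 0) (nat_lit 0) (XT.lf (nat_lit 0) (nat_lit 2544180751) (nat_lit 252) (nat_lit 13353094320) (nat_lit 336) (nat_lit 3978254690) (nat_lit 37) (nat_lit 5) (nat_lit 40) (nat_lit 5) (nat_lit 41) (nat_lit 5) (nat_lit 360) (nat_lit 304) (nat_lit 200)) (XT.lf (nat_lit 0) (nat_lit 9628758765) (nat_lit 252) (nat_lit 8979635040) (nat_lit 336) (nat_lit 1716813955) (nat_lit 37) (nat_lit 5) (nat_lit 40) (nat_lit 5) (nat_lit 41) (nat_lit 5) (nat_lit 361) (nat_lit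 304) (nat_lit 199)))) (XT.nd (nat_lit 94) (nat_lit 252) (nat_lit 0) (XT.lf (nat_lit 0) (nat_lit 590657989) (nat_lit 336) (nat_lit 3877987659) (nat_lit 84) (nat_lit 16320383635) (nat_lit 36) (nat_lit 5) (nat_lit 40) (nat_lit 5) (nat_lit 37) (nat_lit 5) (nat_lit 362) (nat_lit 304) (nat_lit 198)) (XT.nd (nat_lit 94) (nat_lit 0) (nat_lit 0) (XT.lf (nat_lit 0) (nat_lit 2956505360) (nat_lit 336) (nat_lit 18085480764) (nat_lit 84) (nat_lit 224030446) (nat_lit 33) (nat_lit 5) (nat_lit 37) (nat_lit 5) (nat_lit 34) (nat_lit 5) (nat_lit 363) (nat_lit 304) (nat_lit 197)) (XT.lf (nat_lit 0) (nat_lit 5471099668) (nat_lit 336) (nat_lit 11278283861) (nat_lit 84) (nat_lit 5006097794) (nat_lit 33) (nat_lit 5) (nat_lit 37) (nat_lit 5) (nat_lit 34) (nat_lit 5) (nat_lit 364) (nat_lit 304) (nat_lit 196))))) (XT.nd (nat_lit 282) (nat_lit 168) (nat_lit 0) (XT.nd (nat_lit 94) (nat_lit 252) (nat_lit 0) (XT.lf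 (nat_lit 0) (nat_lit 8052792566) (nat_lit 336) (nat_lit 4275306619) (nat_lit 84) (nat_lit 9932384344) (nat_lit 33) (nat_lit 5) (nat_lit 37) (nat_lit 5) (nat_lit 34) (nat_lit 5) (nat_lit 365) (nat_lit 304) (nat_lit 195)) (XT.nd (nat_lit 94) (nat_lit 0) (nat_lit 0) (XT.lf (nat_lit 0) (nat_lit 2990224835) (nat_lit 252) (nat_lit 7743429030) (nat_lit 336) (nat_lit 12046920475) (nat_lit 30) (nat_lit 5) (nat_lit 33) (nat_lit 5) (nat_lit 34) (nat_lit 5) (nat_lit 366) (nat_lit 304) (nat_lit 194)) (XT.lf (nat_lit 0) (nat_lit 10556987250) (nat_lit 252) (nat_lit 2974903927) (nat_lit 336) (nat_lit 9783860385) (nat_lit 30) (nat_lit 5) (nat_lit 33) (nat_lit 5) (nat_lit 34) (nat_lit 5) (nat_lit 367) (nat_lit 304) (nat_lit 193)))) (XT.nd (nat_lit 94) (nat_lit 168) (nat_lit 0) (XT.lf (nat_lit 0) (nat_lit 16426047323) (nat_lit 336) (nat_lit 5542949472) (nat_lit 84) (nat_lit 1898263268) (nat_lit 30) (nat_lit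 5) (nat_lit 34) (nat_lit 5) (nat_lit 31) (nat_lit 5) (nat_lit 368) (nat_lit 304) (nat_lit 192)) (XT.nd (nat_lit 94) (nat_lit 0) (nat_lit 0) (XT.lf (nat_lit 0) (nat_lit 1890157389) (nat_lit 168) (nat_lit 17559159145) (nat_lit 252) (nat_lit 4985351983) (nat_lit 28) (nat_lit 5) (nat_lit 30) (nat_lit 5) (nat_lit 31) (nat_lit 5) (nat_lit 369) (nat_lit 304) (nat_lit 191)) (XT.lf (nat_lit 0) (nat_lit 9657286040) (nat_lit 168) (nat_lit 12957251568) (nat_lit 252) (nat_lit 2403657552) (nat_lit 28) (nat_lit 5) (nat_lit 30) (nat_lit 5) (nat_lit 31) (nat_lit 5) (nat_lit 370) (nat_lit 304) (nat_lit 190))))))))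
noncomputable def xc127 : XT := (XT.nd (nat_lit 2256) (nat_lit 504) (nat_lit 0) (XT.nd (nat_lit 1128) (nat_lit 504) (nat_lit 0) (XT.nd (nat_lit 564) (nat_lit 252) (nat_lit 0) (XT.nd (nat_lit 282) (nat_lit 168) (nat_lit 0) (XT.nd (nat_lit 94) (nat_lit 252) (nat_lit 0) (XT.lf (nat_lit 0) (nat_lit 243414828) (nat_lit 252) (nat_lit 7970886048) (nat_lit 84) (nat_lit 17405746270) (nat_lit 27) (nat_lit 5) (nat_lit 30) (nat_lit 5) (nat_lit 28) (nat_lit 5) (nat_lit 371) (nat_lit 304) (nat_lit 189)) (XT.nd (nat_lit 94) (nat_lit 252) (nat_lit 0) (XT.lf (nat_lit 0) (nat_lit 2913446072) (nat_lit 252) (nat_lit 389654294) (nat_lit 84) (nat_lit 22936999976) (nat_lit 27) (nat_lit 5) (nat_lit 30) (nat_lit 5) (nat_lit 28) (nat_lit 5) (nat_lit 372) (nat_lit 304) (nat_lit 188)) (XT.lf (nat_lit 0) (nat_lit 5750601102) (nat_lit 336) (nat_lit 19329397881) (nat_lit 84) (nat_lit 1796782219) (nat_lit 24) (nat_lit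 5) (nat_lit 28) (nat_lit 5) (nat_lit 25) (nat_lit 5) (nat_lit 373) (nat_lit 304) (nat_lit 187)))) (XT.nd (nat_lit 94) (nat_lit 168) (nat_lit 0) (XT.lf (nat_lit 0) (nat_lit 8704805639) (nat_lit 336) (nat_lit 11841187784) (nat_lit 84) (nat_lit 6986324040) (nat_lit 24) (nat_lit 5) (nat_lit 28) (nat_lit 5) (nat_lit 25) (nat_lit 5) (nat_lit 374) (nat_lit 304) (nat_lit 186)) (XT.nd (nat_lit 94) (nat_lit 168) (nat_lit 0) (XT.lf (nat_lit 0) (nat_lit 11742060902) (nat_lit 336) (nat_lit 4133471421) (nat_lit 84) (nat_lit 12332927156) (nat_lit 24) (nat_lit 5) (nat_lit 28) (nat_lit 5) (nat_lit 25) (nat_lit 5) (nat_lit 375) (nat_lit 304) (nat_lit 185)) (XT.lf (nat_lit 0) (nat_lit 3879090636) (nat_lit 168) (nat_lit 11024588351) (nat_lit 252) (nat_lit 14000965583) (nat_lit 22) (nat_lit 5) (nat_lit 24) (nat_lit 5) (nat_lit 25) (nat_lit 5) (nat_lit 376) (nat_lit 304) (nat_lit 184))))) (XT.nd (nat_lit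 282) (nat_lit 252) (nat_lit 0) (XT.nd (nat_lit 94) (nat_lit 0) (nat_lit 0) (XT.lf (nat_lit 0) (nat_lit 12215545004) (nat_lit 168) (nat_lit 5982762525) (nat_lit 252) (nat_lit 11423037405) (nat_lit 22) (nat_lit 5) (nat_lit 24) (nat_lit 5) (nat_lit 25) (nat_lit 5) (nat_lit 377) (nat_lit 304) (nat_lit 183)) (XT.nd (nat_lit 94) (nat_lit 0) (nat_lit 0) (XT.lf (nat_lit 0) (nat_lit 20798669478) (nat_lit 168) (nat_lit 788500300) (nat_lit 252) (nat_lit 8773356110) (nat_lit 22) (nat_lit 5) (nat_lit 24) (nat_lit 5) (nat_lit 25) (nat_lit 5) (nat_lit 378) (nat_lit 304) (nat_lit 182)) (XT.lf (nat_lit 0) (nat_lit 25118690433) (nat_lit 252) (nat_lit 1531677918) (nat_lit 84) (nat_lit 4471104834) (nat_lit 22) (nat_lit 5) (nat_lit 25) (nat_lit 5) (nat_lit 23) (nat_lit 5) (nat_lit 379) (nat_lit 304) (nat_lit 181)))) (XT.nd (nat_lit 94) (nat_lit 84) (nat_lit 0) (XT.lf (nat_lit 0) (nat_lit 6866440378) (nat_lit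 168) (nat_lit 21961960407) (nat_lit 252) (nat_lit 3075495894) (nat_lit 20) (nat_lit 5) (nat_lit 22) (nat_lit 5) (nat_lit 23) (nat_lit 5) (nat_lit 380) (nat_lit 304) (nat_lit 180)) (XT.nd (nat_lit 94) (nat_lit 84) (nat_lit 0) (XT.lf (nat_lit 0) (nat_lit 15546210557) (nat_lit 168) (nat_lit 17115535121) (nat_lit 252) (nat_lit 48578396) (nat_lit 20) (nat_lit 5) (nat_lit 22) (nat_lit 5) (nat_lit 23) (nat_lit 5) (nat_lit 381) (nat_lit 304) (nat_lit 179)) (XT.lf (nat_lit 0) (nat_lit 3003054608) (nat_lit 252) (nat_lit 9088162355) (nat_lit 84) (nat_lit 21449828296) (nat_lit 19) (nat_lit 5) (nat_lit 22) (nat_lit 5) (nat_lit 20) (nat_lit 5) (nat_lit 382) (nat_lit 304) (nat_lit 178)))))) (XT.nd (nat_lit 564) (nat_lit 168) (nat_lit 0) (XT.nd (nat_lit 282) (nat_lit 168) (nat_lit 0) (XT.nd (nat_lit 94) (nat_lit 168) (nat_lit 0) (XT.lf (nat_lit 0) (nat_lit 6141274798) (nat_lit 252) (nat_lit 773012042)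 (nat_lit 84) (nat_lit 27483448669) (nat_lit 19) (nat_lit 5) (nat_lit 22) (nat_lit 5) (nat_lit 20) (nat_lit 5) (nat_lit 383) (nat_lit 304) (nat_lit 177)) (XT.nd (nat_lit 94) (nat_lit 0) (nat_lit 0) (XT.lf (nat_lit 0) (nat_lit 7949739449) (nat_lit 168) (nat_lit 1499109020) (nat_lit 252) (nat_lit 25829915086) (nat_lit 17) (nat_lit 5) (nat_lit 19) (nat_lit 5) (nat_lit 20) (nat_lit 5) (nat_lit 384) (nat_lit 304) (nat_lit 176)) (XT.lf (nat_lit 0) (nat_lit 12900895163) (nat_lit 252) (nat_lit 19278585082) (nat_lit 84) (nat_lit 4006337227) (nat_lit 17) (nat_lit 5) (nat_lit 20) (nat_lit 5) (nat_lit 18) (nat_lit 5) (nat_lit 385) (nat_lit 304) (nat_lit 175)))) (XT.nd (nat_lit 94) (nat_lit 168) (nat_lit 0) (XT.lf (nat_lit 0) (nat_lit 16468763777) (nat_lit 252) (nat_lit 11004021227) (nat_lit 84) (nat_lit 9647945660) (nat_lit 17) (nat_lit 5) (nat_lit 20) (nat_lit 5) (nat_lit 18) (nat_lit 5) (nat_lit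 386) (nat_lit 304) (nat_lit 174)) (XT.nd (nat_lit 94) (nat_lit 168) (nat_lit 0) (XT.lf (nat_lit 0) (nat_lit 20140908591) (nat_lit 252) (nat_lit 2482748435) (nat_lit 84) (nat_lit 15461178553) (nat_lit 17) (nat_lit 5) (nat_lit 20) (nat_lit 5) (nat_lit 18) (nat_lit 5) (nat_lit 387) (nat_lit 304) (nat_lit 173)) (XT.lf (nat_lit 0) (nat_lit 6422576618) (nat_lit 168) (nat_lit 17561888565) (nat_lit 252) (nat_lit 15092590586) (nat_lit 15) (nat_lit 5) (nat_lit 17) (nat_lit 5) (nat_lit 18) (nat_lit 5) (nat_lit 388) (nat_lit 304) (nat_lit 172))))) (XT.nd (nat_lit 282) (nat_lit 168) (nat_lit 0) (XT.nd (nat_lit 94) (nat_lit 0) (nat_lit 0) (XT.lf (nat_lit 0) (nat_lit 15647188168) (nat_lit 168) (nat_lit 12319852373) (nat_lit 252) (nat_lit 12132390788) (nat_lit 15) (nat_lit 5) (nat_lit 17) (nat_lit 5) (nat_lit 18) (nat_lit 5) (nat_lit 389) (nat_lit 304) (nat_lit 171)) (XT.nd (nat_lit 94) (nat_lit 0)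 (nat_lit 0) (XT.lf (nat_lit 0) (nat_lit 25148634120) (nat_lit 168) (nat_lit 6918577126) (nat_lit 252) (nat_lit 9086483180) (nat_lit 15) (nat_lit 5) (nat_lit 17) (nat_lit 5) (nat_lit 18) (nat_lit 5) (nat_lit 390) (nat_lit 304) (nat_lit 170)) (XT.lf (nat_lit 0) (nat_lit 34935770816) (nat_lit 168) (nat_lit 1353028271) (nat_lit 252) (nat_lit 5952028656) (nat_lit 15) (nat_lit 5) (nat_lit 17) (nat_lit 5) (nat_lit 18) (nat_lit 5) (nat_lit 391) (nat_lit 304) (nat_lit 169)))) (XT.nd (nat_lit 94) (nat_lit 84) (nat_lit 0) (XT.lf (nat_lit 0) (nat_lit 1645560872) (nat_lit 84) (nat_lit 39049972121) (nat_lit 168) (nat_lit 2664457993) (nat_lit 14) (nat_lit 5) (nat_lit 15) (nat_lit 5) (nat_lit 16) (nat_lit 4) (nat_lit 392) (nat_lit 304) (nat_lit 168)) (XT.nd (nat_lit 94) (nat_lit 0) (nat_lit 0) (XT.lf (nat_lit 0) (nat_lit 795754308) (nat_lit 168) (nat_lit 33513559671) (nat_lit 84) (nat_lit 10201676680)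 (nat_lit 13) (nat_lit 5) (nat_lit 15) (nat_lit 5) (nat_lit 14) (nat_lit 5) (nat_lit 393) (nat_lit 304) (nat_lit 167)) (XT.lf (nat_lit 0) (nat_lit 4302519176) (nat_lit 168) (nat_lit 25094225314) (nat_lit 84) (nat_lit 16300258804) (nat_lit 13) (nat_lit 5) (nat_lit 15) (nat_lit 5) (nat_lit 14) (nat_lit 5) (nat_lit 394) (nat_lit 304) (nat_lit 166))))))) (XT.nd (nat_lit 1128) (nat_lit 252) (nat_lit 0) (XT.nd (nat_lit 564) (nat_lit 84) (nat_lit 0) (XT.nd (nat_lit 282) (nat_lit 0) (nat_lit 0) (XT.nd (nat_lit 94) (nat_lit 168) (nat_lit 0) (XT.lf (nat_lit 0) (nat_lit 7912788175) (nat_lit 168) (nat_lit 16422147587) (nat_lit 84) (nat_lit 22585018002) (nat_lit 13) (nat_lit 5) (nat_lit 15) (nat_lit 5) (nat_lit 14) (nat_lit 5) (nat_lit 395) (nat_lit 304) (nat_lit 165)) (XT.nd (nat_lit 94) (nat_lit 168) (nat_lit 0) (XT.lf (nat_lit 0) (nat_lit 11629926451) (nat_lit 168) (nat_lit 7489243207) (nat_lit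 84) (nat_lit 29061812329) (nat_lit 13) (nat_lit 5) (nat_lit 15) (nat_lit 5) (nat_lit 14) (nat_lit 5) (nat_lit 396) (nat_lit 304) (nat_lit 164)) (XT.lf (nat_lit 0) (nat_lit 1748033202) (nat_lit 168) (nat_lit 13726706271) (nat_lit 252) (nat_lit 34005986337) (nat_lit 11) (nat_lit 5) (nat_lit 13) (nat_lit 5) (nat_lit 14) (nat_lit 5) (nat_lit 397) (nat_lit 304) (nat_lit 163)))) (XT.nd (nat_lit 94) (nat_lit 0) (nat_lit 0) (XT.lf (nat_lit 0) (nat_lit 11422744856) (nat_lit 168) (nat_lit 8089342917) (nat_lit 252) (nat_lit 31306409379) (nat_lit 11) (nat_lit 5) (nat_lit 13) (nat_lit 5) (nat_lit 14) (nat_lit 5) (nat_lit 398) (nat_lit 304) (nat_lit 162)) (XT.nd (nat_lit 94) (nat_lit 0) (nat_lit 0) (XT.lf (nat_lit 0) (nat_lit 21389915398) (nat_lit 168) (nat_lit 2279997323) (nat_lit 252) (nat_lit 28527980714) (nat_lit 11) (nat_lit 5) (nat_lit 13) (nat_lit 5) (nat_lit 14) (nat_lit 5) (nat_lit 399) (nat_lit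 304) (nat_lit 161)) (XT.lf (nat_lit 0) (nat_lit 27988861220) (nat_lit 252) (nat_lit 21998136498) (nat_lit 84) (nat_lit 3632062769) (nat_lit 11) (nat_lit 5) (nat_lit 14) (nat_lit 5) (nat_lit 12) (nat_lit 4) (nat_lit 400) (nat_lit 304) (nat_lit 160))))) (XT.nd (nat_lit 282) (nat_lit 0) (nat_lit 0) (XT.nd (nat_lit 94) (nat_lit 84) (nat_lit 0) (XT.lf (nat_lit 0) (nat_lit 32460586345) (nat_lit 252) (nat_lit 12945643349) (nat_lit 84) (nat_lit 9677476841) (nat_lit 11) (nat_lit 5) (nat_lit 14) (nat_lit 5) (nat_lit 12) (nat_lit 4) (nat_lit 401) (nat_lit 304) (nat_lit 159)) (XT.nd (nat_lit 94) (nat_lit 84) (nat_lit 0) (XT.lf (nat_lit 0) (nat_lit 37066638359) (nat_lit 252) (nat_lit 3619442864) (nat_lit 84) (nat_lit 15907816715) (nat_lit 11) (nat_lit 5) (nat_lit 14) (nat_lit 5) (nat_lit 12) (nat_lit 4) (nat_lit 402) (nat_lit 304) (nat_lit 158)) (XT.lf (nat_lit 0) (nat_lit 6112307323) (nat_lit 84)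 (nat_lit 35759638107) (nat_lit 168) (nat_lit 16277217242) (nat_lit 10) (nat_lit 5) (nat_lit 11) (nat_lit 5) (nat_lit 12) (nat_lit 4) (nat_lit 403) (nat_lit 304) (nat_lit 157)))) (XT.nd (nat_lit 94) (nat_lit 0) (nat_lit 0) (XT.lf (nat_lit 0) (nat_lit 16215828123) (nat_lit 84) (nat_lit 30644060452) (nat_lit 168) (nat_lit 12891715869) (nat_lit 10) (nat_lit 5) (nat_lit 11) (nat_lit 5) (nat_lit 12) (nat_lit 4) (nat_lit 404) (nat_lit 304) (nat_lit 156)) (XT.nd (nat_lit 94) (nat_lit 0) (nat_lit 0) (XT.lf (nat_lit 0) (nat_lit 26626113906) (nat_lit 84) (nat_lit 25372359567) (nat_lit 168) (nat_lit 9405379379) (nat_lit 10) (nat_lit 5) (nat_lit 11) (nat_lit 5) (nat_lit 12) (nat_lit 4) (nat_lit 405) (nat_lit 304) (nat_lit 155)) (XT.lf (nat_lit 0) (nat_lit 37352868149) (nat_lit 84) (nat_lit 19939621674) (nat_lit 168) (nat_lit 5814958140) (nat_lit 10) (nat_lit 5) (nat_lit 11) (nat_lit 5) (nat_lit 12)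 (nat_lit 4) (nat_lit 406) (nat_lit 304) (nat_lit 154)))))) (XT.nd (nat_lit 564) (nat_lit 0) (nat_lit 0) (XT.nd (nat_lit 282) (nat_lit 0) (nat_lit 0) (XT.nd (nat_lit 94) (nat_lit 252) (nat_lit 0) (XT.lf (nat_lit 0) (nat_lit 48406089310) (nat_lit 84) (nat_lit 14340782891) (nat_lit 168) (nat_lit 2117105505) (nat_lit 10) (nat_lit 5) (nat_lit 11) (nat_lit 5) (nat_lit 12) (nat_lit 4) (nat_lit 407) (nat_lit 304) (nat_lit 153)) (XT.nd (nat_lit 94) (nat_lit 168) (nat_lit 0) (XT.lf (nat_lit 0) (nat_lit 1657542833) (nat_lit 168) (nat_lit 6895780335) (nat_lit 84) (nat_lit 58121235969) (nat_lit 9) (nat_lit 5) (nat_lit 11) (nat_lit 5) (nat_lit 10) (nat_lit 5) (nat_lit 408) (nat_lit 304) (nat_lit 152)) (XT.lf (nat_lit 0) (nat_lit 2995673075) (nat_lit 168) (nat_lit 2535703429) (nat_lit 252) (nat_lit 63008416611) (nat_lit 7) (nat_lit 5) (nat_lit 9) (nat_lit 5) (nat_lit 10) (nat_lit 5) (nat_lit 409) (nat_lit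 304) (nat_lit 151)))) (XT.nd (nat_lit 94) (nat_lit 0) (nat_lit 0) (XT.lf (nat_lit 0) (nat_lit 9630864275) (nat_lit 252) (nat_lit 57163615283) (nat_lit 84) (nat_lit 3665103443) (nat_lit 7) (nat_lit 5) (nat_lit 10) (nat_lit 5) (nat_lit 8) (nat_lit 4) (nat_lit 410) (nat_lit 304) (nat_lit 150)) (XT.nd (nat_lit 94) (nat_lit 0) (nat_lit 0) (XT.lf (nat_lit 0) (nat_lit 13879936583) (nat_lit 252) (nat_lit 48554892171) (nat_lit 84) (nat_lit 10003366101) (nat_lit 7) (nat_lit 5) (nat_lit 10) (nat_lit 5) (nat_lit 8) (nat_lit 4) (nat_lit 411) (nat_lit 304) (nat_lit 149)) (XT.lf (nat_lit 0) (nat_lit 18257399517) (nat_lit 252) (nat_lit 39684771979) (nat_lit 84) (nat_lit 16536081241) (nat_lit 7) (nat_lit 5) (nat_lit 10) (nat_lit 5) (nat_lit 8) (nat_lit 4) (nat_lit 412) (nat_lit 304) (nat_lit 148))))) (XT.nd (nat_lit 44086) (nat_lit 0) (nat_lit 12096) (XT.nd (nat_lit 94) (nat_lit 0) (nat_lit 0) (XT.lf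 (nat_lit 0) (nat_lit 22767333332) (nat_lit 252) (nat_lit 30544986827) (nat_lit 84) (nat_lit 23269338039) (nat_lit 7) (nat_lit 5) (nat_lit 10) (nat_lit 5) (nat_lit 8) (nat_lit 4) (nat_lit 413) (nat_lit 304) (nat_lit 147)) (XT.nd (nat_lit 94) (nat_lit 0) (nat_lit 0) (XT.lf (nat_lit 0) (nat_lit 27413941757) (nat_lit 252) (nat_lit 21127017477) (nat_lit 84) (nat_lit 30209412595) (nat_lit 7) (nat_lit 5) (nat_lit 10) (nat_lit 5) (nat_lit 8) (nat_lit 4) (nat_lit 414) (nat_lit 304) (nat_lit 146)) (XT.lf (nat_lit 0) (nat_lit 32201555919) (nat_lit 252) (nat_lit 11422085395) (nat_lit 84) (nat_lit 37362773785) (nat_lit 7) (nat_lit 5) (nat_lit 10) (nat_lit 5) (nat_lit 8) (nat_lit 4) (nat_lit 415) (nat_lit 304) (nat_lit 145)))) (XT.nd (nat_lit 94) (nat_lit 0) (nat_lit 0) (XT.lf (nat_lit 0) (nat_lit 112980145) (nat_lit 924) (nat_lit 1898728521) (nat_lit 924) (nat_lit 1898728521) (nat_lit 151) (nat_lit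 3) (nat_lit 162) (nat_lit 3) (nat_lit 162) (nat_lit 5) (nat_lit 305) (nat_lit 305) (nat_lit 254)) (XT.nd (nat_lit 94) (nat_lit 0) (nat_lit 84) (XT.lf (nat_lit 0) (nat_lit 1335302256) (nat_lit 924) (nat_lit 709353181) (nat_lit 924) (nat_lit 5858332370) (nat_lit 151) (nat_lit 3) (nat_lit 162) (nat_lit 3) (nat_lit 162) (nat_lit 5) (nat_lit 306) (nat_lit 305) (nat_lit 253)) (XT.lf (nat_lit 0) (nat_lit 2459713662) (nat_lit 840) (nat_lit 5487055427) (nat_lit 924) (nat_lit 41671183) (nat_lit 152) (nat_lit 5) (nat_lit 162) (nat_lit 5) (nat_lit 163) (nat_lit 5) (nat_lit 307) (nat_lit 305) (nat_lit 252))))))))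
noncomputable def xc128 : XT := (XT.nd (nat_lit 2162) (nat_lit 4536) (nat_lit 0) (XT.nd (nat_lit 1034) (nat_lit 3444) (nat_lit 0) (XT.nd (nat_lit 470) (nat_lit 840) (nat_lit 0) (XT.nd (nat_lit 188) (nat_lit 0) (nat_lit 0) (XT.nd (nat_lit 94) (nat_lit 0) (nat_lit 0) (XT.lf (nat_lit 0) (nat_lit 3604131144) (nat_lit 840) (nat_lit 2295181029) (nat_lit 924) (nat_lit 2177878702) (nat_lit 152) (nat_lit 5) (nat_lit 162) (nat_lit 5) (nat_lit 163) (nat_lit 5) (nat_lit 308) (nat_lit 305) (nat_lit 251)) (XT.lf (nat_lit 84) (nat_lit 991787984) (nat_lit 0) (nat_lit 3760133844) (nat_lit 924) (nat_lit 3417949199) (nat_lit 153) (nat_lit 5) (nat_lit 152) (nat_lit 5) (nat_lit 163) (nat_lit 5) (nat_lit 309) (nat_lit 305) (nat_lit 250))) (XT.nd (nat_lit 94) (nat_lit 0) (nat_lit 84) (XT.lf (nat_lit 84) (nat_lit 4405715178) (nat_lit 0) (nat_lit 1512620490) (nat_lit 924) (nat_lit 2347791866) (nat_lit 153) (nat_lit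 5) (nat_lit 152) (nat_lit 5) (nat_lit 163) (nat_lit 5) (nat_lit 310) (nat_lit 305) (nat_lit 249)) (XT.nd (nat_lit 94) (nat_lit 0) (nat_lit 0) (XT.lf (nat_lit 0) (nat_lit 7089371286) (nat_lit 840) (nat_lit 472329443) (nat_lit 924) (nat_lit 804817133) (nat_lit 153) (nat_lit 5) (nat_lit 163) (nat_lit 5) (nat_lit 164) (nat_lit 5) (nat_lit 311) (nat_lit 305) (nat_lit 248)) (XT.lf (nat_lit 84) (nat_lit 3042902301) (nat_lit 0) (nat_lit 5261133017) (nat_lit 924) (nat_lit 165924900) (nat_lit 154) (nat_lit 5) (nat_lit 153) (nat_lit 5) (nat_lit 164) (nat_lit 5) (nat_lit 312) (nat_lit 305) (nat_lit 247))))) (XT.nd (nat_lit 282) (nat_lit 0) (nat_lit 84) (XT.nd (nat_lit 94) (nat_lit 0) (nat_lit 0) (XT.lf (nat_lit 0) (nat_lit 927033561) (nat_lit 924) (nat_lit 1933522974) (nat_lit 1008) (nat_lit 5716930720) (nat_lit 142) (nat_lit 5) (nat_lit 153) (nat_lit 5) (nat_lit 154) (nat_lit 5) (nat_lit 313) (nat_lit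 305) (nat_lit 246)) (XT.nd (nat_lit 94) (nat_lit 0) (nat_lit 84) (XT.lf (nat_lit 84) (nat_lit 1676714460) (nat_lit 0) (nat_lit 353534988) (nat_lit 1008) (nat_lit 6658823507) (nat_lit 143) (nat_lit 5) (nat_lit 142) (nat_lit 5) (nat_lit 154) (nat_lit 5) (nat_lit 314) (nat_lit 305) (nat_lit 245)) (XT.lf (nat_lit 0) (nat_lit 3174374645) (nat_lit 924) (nat_lit 3410801666) (nat_lit 1008) (nat_lit 2218881342) (nat_lit 143) (nat_lit 5) (nat_lit 154) (nat_lit 5) (nat_lit 155) (nat_lit 5) (nat_lit 315) (nat_lit 305) (nat_lit 244)))) (XT.nd (nat_lit 94) (nat_lit 0) (nat_lit 0) (XT.lf (nat_lit 84) (nat_lit 280354453) (nat_lit 0) (nat_lit 4045274427) (nat_lit 1008) (nat_lit 4597999897) (nat_lit 144) (nat_lit 5) (nat_lit 143) (nat_lit 5) (nat_lit 155) (nat_lit 5) (nat_lit 316) (nat_lit 305) (nat_lit 243)) (XT.nd (nat_lit 94) (nat_lit 0) (nat_lit 84) (XT.lf (nat_lit 84) (nat_lit 4134405765) (nat_lit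 0) (nat_lit 1379840141) (nat_lit 1008) (nat_lit 3532747893) (nat_lit 144) (nat_lit 5) (nat_lit 143) (nat_lit 5) (nat_lit 155) (nat_lit 5) (nat_lit 317) (nat_lit 305) (nat_lit 242)) (XT.lf (nat_lit 0) (nat_lit 6720472356) (nat_lit 924) (nat_lit 1104196631) (nat_lit 1008) (nat_lit 1350245420) (nat_lit 144) (nat_lit 5) (nat_lit 155) (nat_lit 5) (nat_lit 156) (nat_lit 5) (nat_lit 318) (nat_lit 305) (nat_lit 241)))))) (XT.nd (nat_lit 564) (nat_lit 1680) (nat_lit 0) (XT.nd (nat_lit 282) (nat_lit 1008) (nat_lit 0) (XT.nd (nat_lit 94) (nat_lit 924) (nat_lit 0) (XT.lf (nat_lit 84) (nat_lit 2841757087) (nat_lit 0) (nat_lit 5132813745) (nat_lit 1008) (nat_lit 1332035718) (nat_lit 145) (nat_lit 5) (nat_lit 144) (nat_lit 5) (nat_lit 156) (nat_lit 5) (nat_lit 319) (nat_lit 305) (nat_lit 240)) (XT.nd (nat_lit 94) (nat_lit 924) (nat_lit 0) (XT.lf (nat_lit 84) (nat_lit 6910042725) (nat_lit 0) (nat_lit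 2337929833) (nat_lit 1008) (nat_lit 195142291) (nat_lit 145) (nat_lit 5) (nat_lit 144) (nat_lit 5) (nat_lit 156) (nat_lit 5) (nat_lit 320) (nat_lit 305) (nat_lit 239)) (XT.lf (nat_lit 0) (nat_lit 947492881) (nat_lit 1008) (nat_lit 8071834394) (nat_lit 84) (nat_lit 564650924) (nat_lit 133) (nat_lit 5) (nat_lit 145) (nat_lit 5) (nat_lit 134) (nat_lit 5) (nat_lit 321) (nat_lit 305) (nat_lit 238)))) (XT.nd (nat_lit 94) (nat_lit 1008) (nat_lit 0) (XT.lf (nat_lit 0) (nat_lit 2142280881) (nat_lit 1008) (nat_lit 4042422972) (nat_lit 84) (nat_lit 3543914068) (nat_lit 133) (nat_lit 5) (nat_lit 145) (nat_lit 5) (nat_lit 134) (nat_lit 5) (nat_lit 322) (nat_lit 305) (nat_lit 237)) (XT.nd (nat_lit 94) (nat_lit 0) (nat_lit 0) (XT.lf (nat_lit 0) (nat_lit 90129555) (nat_lit 1008) (nat_lit 3255931675) (nat_lit 1092) (nat_lit 6532661994) (nat_lit 121) (nat_lit 5) (nat_lit 133) (nat_lit 5) (nat_lit 134)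 (nat_lit 5) (nat_lit 323) (nat_lit 305) (nat_lit 236)) (XT.lf (nat_lit 0) (nat_lit 4413140688) (nat_lit 1008) (nat_lit 187911070) (nat_lit 1092) (nat_lit 5432108296) (nat_lit 121) (nat_lit 5) (nat_lit 133) (nat_lit 5) (nat_lit 134) (nat_lit 5) (nat_lit 324) (nat_lit 305) (nat_lit 235))))) (XT.nd (nat_lit 282) (nat_lit 588) (nat_lit 0) (XT.nd (nat_lit 94) (nat_lit 1092) (nat_lit 0) (XT.lf (nat_lit 0) (nat_lit 5897058544) (nat_lit 1092) (nat_lit 1375383845) (nat_lit 84) (nat_lit 2919982248) (nat_lit 121) (nat_lit 5) (nat_lit 134) (nat_lit 5) (nat_lit 122) (nat_lit 5) (nat_lit 325) (nat_lit 305) (nat_lit 234)) (XT.nd (nat_lit 94) (nat_lit 0) (nat_lit 0) (XT.lf (nat_lit 0) (nat_lit 3037166684) (nat_lit 1092) (nat_lit 4201546781) (nat_lit 1176) (nat_lit 3117845820) (nat_lit 108) (nat_lit 5) (nat_lit 121) (nat_lit 5) (nat_lit 122) (nat_lit 5) (nat_lit 326) (nat_lit 305) (nat_lit 233)) (XT.lf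 (nat_lit 0) (nat_lit 7592956988) (nat_lit 1092) (nat_lit 1017353780) (nat_lit 1176) (nat_lit 1915931867) (nat_lit 108) (nat_lit 5) (nat_lit 121) (nat_lit 5) (nat_lit 122) (nat_lit 5) (nat_lit 327) (nat_lit 305) (nat_lit 232)))) (XT.nd (nat_lit 94) (nat_lit 84) (nat_lit 0) (XT.lf (nat_lit 0) (nat_lit 1575117151) (nat_lit 504) (nat_lit 8462218866) (nat_lit 588) (nat_lit 663546411) (nat_lit 102) (nat_lit 5) (nat_lit 108) (nat_lit 5) (nat_lit 109) (nat_lit 5) (nat_lit 328) (nat_lit 305) (nat_lit 231)) (XT.nd (nat_lit 94) (nat_lit 0) (nat_lit 0) (XT.lf (nat_lit 0) (nat_lit 631349702) (nat_lit 588) (nat_lit 4634773817) (nat_lit 84) (nat_lit 5614203910) (nat_lit 101) (nat_lit 5) (nat_lit 108) (nat_lit 5) (nat_lit 102) (nat_lit 5) (nat_lit 329) (nat_lit 305) (nat_lit 230)) (XT.lf (nat_lit 0) (nat_lit 1928352916) (nat_lit 588) (nat_lit 33954037) (nat_lit 84) (nat_lit 9103657662) (nat_lit 101)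 (nat_lit 5) (nat_lit 108) (nat_lit 5) (nat_lit 102) (nat_lit 5) (nat_lit 330) (nat_lit 305) (nat_lit 229))))))) (XT.nd (nat_lit 1128) (nat_lit 2016) (nat_lit 0) (XT.nd (nat_lit 564) (nat_lit 924) (nat_lit 0) (XT.nd (nat_lit 282) (nat_lit 504) (nat_lit 0) (XT.nd (nat_lit 94) (nat_lit 504) (nat_lit 0) (XT.lf (nat_lit 0) (nat_lit 3304323691) (nat_lit 672) (nat_lit 6487574130) (nat_lit 84) (nat_lit 1464342495) (nat_lit 94) (nat_lit 5) (nat_lit 102) (nat_lit 5) (nat_lit 95) (nat_lit 5) (nat_lit 331) (nat_lit 305) (nat_lit 228)) (XT.nd (nat_lit 94) (nat_lit 504) (nat_lit 0) (XT.lf (nat_lit 0) (nat_lit 4720360410) (nat_lit 672) (nat_lit 1774103602) (nat_lit 84) (nat_lit 4958113588) (nat_lit 94) (nat_lit 5) (nat_lit 102) (nat_lit 5) (nat_lit 95) (nat_lit 5) (nat_lit 332) (nat_lit 305) (nat_lit 227)) (XT.lf (nat_lit 0) (nat_lit 3126642276) (nat_lit 504) (nat_lit 3062343769) (nat_lit 588) (nat_lit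 5465826131) (nat_lit 88) (nat_lit 5) (nat_lit 94) (nat_lit 5) (nat_lit 95) (nat_lit 5) (nat_lit 333) (nat_lit 305) (nat_lit 226)))) (XT.nd (nat_lit 94) (nat_lit 504) (nat_lit 0) (XT.lf (nat_lit 0) (nat_lit 7704704592) (nat_lit 588) (nat_lit 3673108017) (nat_lit 84) (nat_lit 485532753) (nat_lit 88) (nat_lit 5) (nat_lit 95) (nat_lit 5) (nat_lit 89) (nat_lit 5) (nat_lit 334) (nat_lit 305) (nat_lit 225)) (XT.nd (nat_lit 94) (nat_lit 0) (nat_lit 0) (XT.lf (nat_lit 0) (nat_lit 1305746533) (nat_lit 504) (nat_lit 7984729502) (nat_lit 588) (nat_lit 2787227535) (nat_lit 82) (nat_lit 5) (nat_lit 88) (nat_lit 5) (nat_lit 89) (nat_lit 5) (nat_lit 335) (nat_lit 305) (nat_lit 224)) (XT.lf (nat_lit 0) (nat_lit 6495331683) (nat_lit 504) (nat_lit 4447630886) (nat_lit 588) (nat_lit 1355273327) (nat_lit 82) (nat_lit 5) (nat_lit 88) (nat_lit 5) (nat_lit 89) (nat_lit 5) (nat_lit 336) (nat_lit 305) (nat_lit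 223))))) (XT.nd (nat_lit 282) (nat_lit 420) (nat_lit 0) (XT.nd (nat_lit 94) (nat_lit 420) (nat_lit 0) (XT.lf (nat_lit 0) (nat_lit 98197723) (nat_lit 588) (nat_lit 702336824) (nat_lit 84) (nat_lit 11725735330) (nat_lit 81) (nat_lit 5) (nat_lit 88) (nat_lit 5) (nat_lit 82) (nat_lit 5) (nat_lit 337) (nat_lit 305) (nat_lit 222)) (XT.nd (nat_lit 94) (nat_lit 0) (nat_lit 0) (XT.lf (nat_lit 0) (nat_lit 1624494585) (nat_lit 504) (nat_lit 8175385939) (nat_lit 84) (nat_lit 2959396001) (nat_lit 76) (nat_lit 5) (nat_lit 82) (nat_lit 5) (nat_lit 77) (nat_lit 5) (nat_lit 338) (nat_lit 305) (nat_lit 221)) (XT.lf (nat_lit 0) (nat_lit 3194262619) (nat_lit 504) (nat_lit 2979792576) (nat_lit 84) (nat_lit 6825635182) (nat_lit 76) (nat_lit 5) (nat_lit 82) (nat_lit 5) (nat_lit 77) (nat_lit 5) (nat_lit 339) (nat_lit 305) (nat_lit 220)))) (XT.nd (nat_lit 94) (nat_lit 0) (nat_lit 0) (XT.lf (nat_lit 0) (nat_lit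 2404820203) (nat_lit 420) (nat_lit 2412876270) (nat_lit 504) (nat_lit 8429768380) (nat_lit 71) (nat_lit 5) (nat_lit 76) (nat_lit 5) (nat_lit 77) (nat_lit 5) (nat_lit 340) (nat_lit 305) (nat_lit 219)) (XT.nd (nat_lit 94) (nat_lit 0) (nat_lit 0) (XT.lf (nat_lit 0) (nat_lit 6518904436) (nat_lit 504) (nat_lit 5518184708) (nat_lit 84) (nat_lit 1465041311) (nat_lit 71) (nat_lit 5) (nat_lit 77) (nat_lit 5) (nat_lit 72) (nat_lit 5) (nat_lit 341) (nat_lit 305) (nat_lit 218)) (XT.lf (nat_lit 0) (nat_lit 8279578954) (nat_lit 504) (nat_lit 73620489) (nat_lit 84) (nat_lit 5411341806) (nat_lit 71) (nat_lit 5) (nat_lit 77) (nat_lit 5) (nat_lit 72) (nat_lit 5) (nat_lit 342) (nat_lit 305) (nat_lit 217)))))) (XT.nd (nat_lit 564) (nat_lit 756) (nat_lit 0) (XT.nd (nat_lit 282) (nat_lit 420) (nat_lit 0) (XT.nd (nat_lit 94) (nat_lit 420) (nat_lit 0) (XT.lf (nat_lit 0) (nat_lit 5633562676) (nat_lit 420) (nat_lit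 4499748093) (nat_lit 504) (nat_lit 3900640622) (nat_lit 66) (nat_lit 5) (nat_lit 71) (nat_lit 5) (nat_lit 72) (nat_lit 5) (nat_lit 343) (nat_lit 305) (nat_lit 216)) (XT.nd (nat_lit 94) (nat_lit 420) (nat_lit 0) (XT.lf (nat_lit 0) (nat_lit 11499762060) (nat_lit 420) (nat_lit 528435748) (nat_lit 504) (nat_lit 2284076720) (nat_lit 66) (nat_lit 5) (nat_lit 71) (nat_lit 5) (nat_lit 72) (nat_lit 5) (nat_lit 344) (nat_lit 305) (nat_lit 215)) (XT.lf (nat_lit 0) (nat_lit 2953288723) (nat_lit 420) (nat_lit 11076621286) (nat_lit 504) (nat_lit 567879064) (nat_lit 61) (nat_lit 5) (nat_lit 66) (nat_lit 5) (nat_lit 67) (nat_lit 5) (nat_lit 345) (nat_lit 305) (nat_lit 214)))) (XT.nd (nat_lit 94) (nat_lit 336) (nat_lit 0) (XT.lf (nat_lit 0) (nat_lit 1195876361) (nat_lit 504) (nat_lit 5971034823) (nat_lit 84) (nat_lit 7724349202) (nat_lit 60) (nat_lit 5) (nat_lit 66) (nat_lit 5) (nat_lit 61) (nat_lit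 5) (nat_lit 346) (nat_lit 305) (nat_lit 213)) (XT.nd (nat_lit 94) (nat_lit 336) (nat_lit 0) (XT.lf (nat_lit 0) (nat_lit 2986509926) (nat_lit 504) (nat_lit 146529723) (nat_lit 84) (nat_lit 12061154935) (nat_lit 60) (nat_lit 5) (nat_lit 66) (nat_lit 5) (nat_lit 61) (nat_lit 5) (nat_lit 347) (nat_lit 305) (nat_lit 212)) (XT.lf (nat_lit 0) (nat_lit 4887010182) (nat_lit 420) (nat_lit 9555806838) (nat_lit 84) (nat_lit 1062065430) (nat_lit 56) (nat_lit 5) (nat_lit 61) (nat_lit 5) (nat_lit 57) (nat_lit 5) (nat_lit 348) (nat_lit 305) (nat_lit 211))))) (XT.nd (nat_lit 282) (nat_lit 420) (nat_lit 0) (XT.nd (nat_lit 94) (nat_lit 336) (nat_lit 0) (XT.lf (nat_lit 0) (nat_lit 6864749063) (nat_lit 420) (nat_lit 3639221699) (nat_lit 84) (nat_lit 5320709202) (nat_lit 56) (nat_lit 5) (nat_lit 61) (nat_lit 5) (nat_lit 57) (nat_lit 5) (nat_lit 349) (nat_lit 305) (nat_lit 210)) (XT.nd (nat_lit 94) (nat_lit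 0) (nat_lit 0) (XT.lf (nat_lit 0) (nat_lit 2492806861) (nat_lit 336) (nat_lit 6420913324) (nat_lit 420) (nat_lit 7240408373) (nat_lit 52) (nat_lit 5) (nat_lit 56) (nat_lit 5) (nat_lit 57) (nat_lit 5) (nat_lit 350) (nat_lit 305) (nat_lit 209)) (XT.lf (nat_lit 0) (nat_lit 8874066886) (nat_lit 336) (nat_lit 2175588452) (nat_lit 420) (nat_lit 5443451491) (nat_lit 52) (nat_lit 5) (nat_lit 56) (nat_lit 5) (nat_lit 57) (nat_lit 5) (nat_lit 351) (nat_lit 305) (nat_lit 208)))) (XT.nd (nat_lit 94) (nat_lit 420) (nat_lit 0) (XT.lf (nat_lit 0) (nat_lit 13259505770) (nat_lit 420) (nat_lit 1429200571) (nat_lit 84) (nat_lit 2153690632) (nat_lit 52) (nat_lit 5) (nat_lit 57) (nat_lit 5) (nat_lit 53) (nat_lit 5) (nat_lit 352) (nat_lit 305) (nat_lit 207)) (XT.nd (nat_lit 94) (nat_lit 84) (nat_lit 0) (XT.lf (nat_lit 0) (nat_lit 5013915031) (nat_lit 336) (nat_lit 10582225101) (nat_lit 420) (nat_lit 1604609357)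 (nat_lit 48) (nat_lit 5) (nat_lit 52) (nat_lit 5) (nat_lit 53) (nat_lit 5) (nat_lit 353) (nat_lit 305) (nat_lit 206)) (XT.lf (nat_lit 0) (nat_lit 427659107) (nat_lit 420) (nat_lit 5904670888) (nat_lit 84) (nat_lit 11237741601) (nat_lit 47) (nat_lit 5) (nat_lit 52) (nat_lit 5) (nat_lit 48) (nat_lit 5) (nat_lit 354) (nat_lit 305) (nat_lit 205))))))))
noncomputable def xc129 : XT := (XT.nd (nat_lit 2256) (nat_lit 924) (nat_lit 0) (XT.nd (nat_lit 1128) (nat_lit 924) (nat_lit 0) (XT.nd (nat_lit 564) (nat_lit 588) (nat_lit 0) (XT.nd (nat_lit 282) (nat_lit 252) (nat_lit 0) (XT.nd (nat_lit 94) (nat_lit 0) (nat_lit 0) (XT.lf (nat_lit 0) (nat_lit 549914610) (nat_lit 336) (nat_lit 1931900959) (nat_lit 420) (nat_lit 15468796997) (nat_lit 43) (nat_lit 5) (nat_lit 47) (nat_lit 5) (nat_lit 48) (nat_lit 5) (nat_lit 355) (nat_lit 305) (nat_lit 204)) (XT.nd (nat_lit 94) (nat_lit 0) (nat_lit 0) (XT.lf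 (nat_lit 0) (nat_lit 4674712452) (nat_lit 420) (nat_lit 11054966080) (nat_lit 84) (nat_lit 2610981165) (nat_lit 43) (nat_lit 5) (nat_lit 48) (nat_lit 5) (nat_lit 44) (nat_lit 5) (nat_lit 356) (nat_lit 305) (nat_lit 203)) (XT.lf (nat_lit 0) (nat_lit 6942697326) (nat_lit 420) (nat_lit 4548980328) (nat_lit 84) (nat_lit 7250935487) (nat_lit 43) (nat_lit 5) (nat_lit 48) (nat_lit 5) (nat_lit 44) (nat_lit 5) (nat_lit 357) (nat_lit 305) (nat_lit 202)))) (XT.nd (nat_lit 94) (nat_lit 0) (nat_lit 0) (XT.lf (nat_lit 0) (nat_lit 2186542206) (nat_lit 252) (nat_lit 7103868058) (nat_lit 336) (nat_lit 9866358991) (nat_lit 40) (nat_lit 5) (nat_lit 43) (nat_lit 5) (nat_lit 44) (nat_lit 5) (nat_lit 358) (nat_lit 305) (nat_lit 201)) (XT.nd (nat_lit 94) (nat_lit 0) (nat_lit 0) (XT.lf (nat_lit 0) (nat_lit 9211263244) (nat_lit 252) (nat_lit 2535060683) (nat_lit 336) (nat_lit 7836375334) (nat_lit 40) (nat_lit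 5) (nat_lit 43) (nat_lit 5) (nat_lit 44) (nat_lit 5) (nat_lit 359) (nat_lit 305) (nat_lit 200)) (XT.lf (nat_lit 0) (nat_lit 14288214901) (nat_lit 336) (nat_lit 3605575418) (nat_lit 84) (nat_lit 2127769741) (nat_lit 40) (nat_lit 5) (nat_lit 44) (nat_lit 5) (nat_lit 41) (nat_lit 5) (nat_lit 360) (nat_lit 305) (nat_lit 199))))) (XT.nd (nat_lit 282) (nat_lit 252) (nat_lit 0) (XT.nd (nat_lit 94) (nat_lit 84) (nat_lit 0) (XT.lf (nat_lit 0) (nat_lit 3397108875) (nat_lit 252) (nat_lit 13560039896) (nat_lit 336) (nat_lit 3515412360) (nat_lit 37) (nat_lit 5) (nat_lit 40) (nat_lit 5) (nat_lit 41) (nat_lit 5) (nat_lit 361) (nat_lit 305) (nat_lit 198)) (XT.nd (nat_lit 94) (nat_lit 84) (nat_lit 0) (XT.lf (nat_lit 0) (nat_lit 10678034496) (nat_lit 252) (nat_lit 9057227444) (nat_lit 336) (nat_lit 1201491807) (nat_lit 37) (nat_lit 5) (nat_lit 40) (nat_lit 5) (nat_lit 41) (nat_lit 5) (nat_lit 362) (nat_lit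 305) (nat_lit 197)) (XT.lf (nat_lit 0) (nat_lit 1149306406) (nat_lit 336) (nat_lit 3257487873) (nat_lit 84) (nat_lit 17008547196) (nat_lit 36) (nat_lit 5) (nat_lit 40) (nat_lit 5) (nat_lit 37) (nat_lit 5) (nat_lit 363) (nat_lit 305) (nat_lit 196)))) (XT.nd (nat_lit 94) (nat_lit 0) (nat_lit 0) (XT.lf (nat_lit 0) (nat_lit 3581524247) (nat_lit 336) (nat_lit 17897087242) (nat_lit 84) (nat_lit 428761987) (nat_lit 33) (nat_lit 5) (nat_lit 37) (nat_lit 5) (nat_lit 34) (nat_lit 5) (nat_lit 364) (nat_lit 305) (nat_lit 195)) (XT.nd (nat_lit 94) (nat_lit 0) (nat_lit 0) (XT.lf (nat_lit 0) (nat_lit 6158033748) (nat_lit 336) (nat_lit 10901389393) (nat_lit 84) (nat_lit 5353126397) (nat_lit 33) (nat_lit 5) (nat_lit 37) (nat_lit 5) (nat_lit 34) (nat_lit 5) (nat_lit 365) (nat_lit 305) (nat_lit 194)) (XT.lf (nat_lit 0) (nat_lit 8804204103) (nat_lit 336) (nat_lit 3703164823) (nat_lit 84) (nat_lit 10426359617)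 (nat_lit 33) (nat_lit 5) (nat_lit 37) (nat_lit 5) (nat_lit 34) (nat_lit 5) (nat_lit 366) (nat_lit 305) (nat_lit 193)))))) (XT.nd (nat_lit 564) (nat_lit 420) (nat_lit 0) (XT.nd (nat_lit 282) (nat_lit 252) (nat_lit 0) (XT.nd (nat_lit 94) (nat_lit 0) (nat_lit 0) (XT.lf (nat_lit 0) (nat_lit 3780463892) (nat_lit 252) (nat_lit 7779540597) (nat_lit 336) (nat_lit 11910229211) (nat_lit 30) (nat_lit 5) (nat_lit 33) (nat_lit 5) (nat_lit 34) (nat_lit 5) (nat_lit 367) (nat_lit 305) (nat_lit 192)) (XT.nd (nat_lit 94) (nat_lit 0) (nat_lit 0) (XT.lf (nat_lit 0) (nat_lit 11560822319) (nat_lit 252) (nat_lit 2869323104) (nat_lit 336) (nat_lit 9592353269) (nat_lit 30) (nat_lit 5) (nat_lit 33) (nat_lit 5) (nat_lit 34) (nat_lit 5) (nat_lit 368) (nat_lit 305) (nat_lit 191)) (XT.lf (nat_lit 0) (nat_lit 17401528164) (nat_lit 336) (nat_lit 5044899815) (nat_lit 84) (nat_lit 2145099302) (nat_lit 30) (nat_lit 5)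 (nat_lit 34) (nat_lit 5) (nat_lit 31) (nat_lit 5) (nat_lit 369) (nat_lit 305) (nat_lit 190)))) (XT.nd (nat_lit 94) (nat_lit 84) (nat_lit 0) (XT.lf (nat_lit 0) (nat_lit 2611851414) (nat_lit 168) (nat_lit 17899225473) (nat_lit 252) (nat_lit 4665714187) (nat_lit 28) (nat_lit 5) (nat_lit 30) (nat_lit 5) (nat_lit 31) (nat_lit 5) (nat_lit 370) (nat_lit 305) (nat_lit 189)) (XT.nd (nat_lit 94) (nat_lit 84) (nat_lit 0) (XT.lf (nat_lit 0) (nat_lit 10599823058) (nat_lit 168) (nat_lit 13160800657) (nat_lit 252) (nat_lit 2018244934) (nat_lit 28) (nat_lit 5) (nat_lit 30) (nat_lit 5) (nat_lit 31) (nat_lit 5) (nat_lit 371) (nat_lit 305) (nat_lit 188)) (XT.lf (nat_lit 0) (nat_lit 688069823) (nat_lit 252) (nat_lit 7584143372) (nat_lit 84) (nat_lit 18127475395) (nat_lit 27) (nat_lit 5) (nat_lit 30) (nat_lit 5) (nat_lit 28) (nat_lit 5) (nat_lit 372) (nat_lit 305) (nat_lit 187))))) (XT.nd (nat_lit 282) (nat_lit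 168) (nat_lit 0) (XT.nd (nat_lit 94) (nat_lit 0) (nat_lit 0) (XT.lf (nat_lit 0) (nat_lit 217429037) (nat_lit 252) (nat_lit 3212456969) (nat_lit 336) (nat_lit 23609448955) (nat_lit 24) (nat_lit 5) (nat_lit 27) (nat_lit 5) (nat_lit 28) (nat_lit 5) (nat_lit 373) (nat_lit 305) (nat_lit 186)) (XT.nd (nat_lit 94) (nat_lit 0) (nat_lit 0) (XT.lf (nat_lit 0) (nat_lit 6348022860) (nat_lit 336) (nat_lit 19308045605) (nat_lit 84) (nat_lit 2039930560) (nat_lit 24) (nat_lit 5) (nat_lit 28) (nat_lit 5) (nat_lit 25) (nat_lit 5) (nat_lit 374) (nat_lit 305) (nat_lit 185)) (XT.lf (nat_lit 0) (nat_lit 9381204687) (nat_lit 336) (nat_lit 11606360036) (nat_lit 84) (nat_lit 7384712008) (nat_lit 24) (nat_lit 5) (nat_lit 28) (nat_lit 5) (nat_lit 25) (nat_lit 5) (nat_lit 375) (nat_lit 305) (nat_lit 184)))) (XT.nd (nat_lit 94) (nat_lit 168) (nat_lit 0) (XT.lf (nat_lit 0) (nat_lit 12500390757) (nat_lit 336) (nat_lit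 3677802470) (nat_lit 84) (nat_lit 12891593118) (nat_lit 24) (nat_lit 5) (nat_lit 28) (nat_lit 5) (nat_lit 25) (nat_lit 5) (nat_lit 376) (nat_lit 305) (nat_lit 183)) (XT.nd (nat_lit 94) (nat_lit 0) (nat_lit 0) (XT.lf (nat_lit 0) (nat_lit 4577238495) (nat_lit 168) (nat_lit 11176656757) (nat_lit 252) (nat_lit 14033875158) (nat_lit 22) (nat_lit 5) (nat_lit 24) (nat_lit 5) (nat_lit 25) (nat_lit 5) (nat_lit 377) (nat_lit 305) (nat_lit 182)) (XT.lf (nat_lit 0) (nat_lit 13154746830) (nat_lit 168) (nat_lit 5984238025) (nat_lit 252) (nat_lit 11388092052) (nat_lit 22) (nat_lit 5) (nat_lit 24) (nat_lit 5) (nat_lit 25) (nat_lit 5) (nat_lit 378) (nat_lit 305) (nat_lit 181))))))) (XT.nd (nat_lit 1128) (nat_lit 336) (nat_lit 0) (XT.nd (nat_lit 564) (nat_lit 336) (nat_lit 0) (XT.nd (nat_lit 282) (nat_lit 84) (nat_lit 0) (XT.nd (nat_lit 94) (nat_lit 168) (nat_lit 0) (XT.lf (nat_lit 0) (nat_lit 21987094509)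 (nat_lit 168) (nat_lit 634485867) (nat_lit 252) (nat_lit 8667968837) (nat_lit 22) (nat_lit 5) (nat_lit 24) (nat_lit 5) (nat_lit 25) (nat_lit 5) (nat_lit 379) (nat_lit 305) (nat_lit 180)) (XT.nd (nat_lit 94) (nat_lit 168) (nat_lit 0) (XT.lf (nat_lit 0) (nat_lit 26253314220) (nat_lit 252) (nat_lit 1041770089) (nat_lit 84) (nat_lit 4779313751) (nat_lit 22) (nat_lit 5) (nat_lit 25) (nat_lit 5) (nat_lit 23) (nat_lit 5) (nat_lit 380) (nat_lit 305) (nat_lit 179)) (XT.lf (nat_lit 0) (nat_lit 7611249284) (nat_lit 168) (nat_lit 22461350811) (nat_lit 252) (nat_lit 2808669027) (nat_lit 20) (nat_lit 5) (nat_lit 22) (nat_lit 5) (nat_lit 23) (nat_lit 5) (nat_lit 381) (nat_lit 305) (nat_lit 178)))) (XT.nd (nat_lit 94) (nat_lit 0) (nat_lit 0) (XT.lf (nat_lit 0) (nat_lit 295124932) (nat_lit 252) (nat_lit 17171936140) (nat_lit 84) (nat_lit 16245892314) (nat_lit 19) (nat_lit 5) (nat_lit 22) (nat_lit 5)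 (nat_lit 20) (nat_lit 5) (nat_lit 382) (nat_lit 305) (nat_lit 177)) (XT.nd (nat_lit 94) (nat_lit 0) (nat_lit 0) (XT.lf (nat_lit 0) (nat_lit 3430000097) (nat_lit 252) (nat_lit 8861875937) (nat_lit 84) (nat_lit 22277878448) (nat_lit 19) (nat_lit 5) (nat_lit 22) (nat_lit 5) (nat_lit 20) (nat_lit 5) (nat_lit 383) (nat_lit 305) (nat_lit 176)) (XT.lf (nat_lit 0) (nat_lit 6655466923) (nat_lit 252) (nat_lit 304231040) (nat_lit 84) (nat_lit 28493636814) (nat_lit 19) (nat_lit 5) (nat_lit 22) (nat_lit 5) (nat_lit 20) (nat_lit 5) (nat_lit 384) (nat_lit 305) (nat_lit 175))))) (XT.nd (nat_lit 282) (nat_lit 168) (nat_lit 0) (XT.nd (nat_lit 94) (nat_lit 0) (nat_lit 0) (XT.lf (nat_lit 0) (nat_lit 8683937153) (nat_lit 168) (nat_lit 1376740458) (nat_lit 252) (nat_lit 26301169729) (nat_lit 17) (nat_lit 5) (nat_lit 19) (nat_lit 5) (nat_lit 20) (nat_lit 5) (nat_lit 385) (nat_lit 305) (nat_lit 174)) (XT.nd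 (nat_lit 94) (nat_lit 0) (nat_lit 0) (XT.lf (nat_lit 0) (nat_lit 13611773217) (nat_lit 252) (nat_lit 19394515358) (nat_lit 84) (nat_lit 4290998446) (nat_lit 17) (nat_lit 5) (nat_lit 20) (nat_lit 5) (nat_lit 18) (nat_lit 5) (nat_lit 386) (nat_lit 305) (nat_lit 173)) (XT.lf (nat_lit 0) (nat_lit 17280896137) (nat_lit 252) (nat_lit 10877923906) (nat_lit 84) (nat_lit 10102671902) (nat_lit 17) (nat_lit 5) (nat_lit 20) (nat_lit 5) (nat_lit 18) (nat_lit 5) (nat_lit 387) (nat_lit 305) (nat_lit 172)))) (XT.nd (nat_lit 94) (nat_lit 168) (nat_lit 0) (XT.lf (nat_lit 0) (nat_lit 21057808942) (nat_lit 252) (nat_lit 2106540039) (nat_lit 84) (nat_lit 16091435250) (nat_lit 17) (nat_lit 5) (nat_lit 20) (nat_lit 5) (nat_lit 18) (nat_lit 5) (nat_lit 388) (nat_lit 305) (nat_lit 171)) (XT.nd (nat_lit 94) (nat_lit 0) (nat_lit 0) (XT.lf (nat_lit 0) (nat_lit 7070262115) (nat_lit 168) (nat_lit 17945907871) (nat_lit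 252) (nat_lit 15262746404) (nat_lit 15) (nat_lit 5) (nat_lit 17) (nat_lit 5) (nat_lit 18) (nat_lit 5) (nat_lit 389) (nat_lit 305) (nat_lit 170)) (XT.lf (nat_lit 0) (nat_lit 16567348598) (nat_lit 168) (nat_lit 12546191424) (nat_lit 252) (nat_lit 12219732060) (nat_lit 15) (nat_lit 5) (nat_lit 17) (nat_lit 5) (nat_lit 18) (nat_lit 5) (nat_lit 390) (nat_lit 305) (nat_lit 169)))))) (XT.nd (nat_lit 564) (nat_lit 168) (nat_lit 0) (XT.nd (nat_lit 282) (nat_lit 84) (nat_lit 0) (XT.nd (nat_lit 94) (nat_lit 84) (nat_lit 0) (XT.lf (nat_lit 0) (nat_lit 26350256906) (nat_lit 168) (nat_lit 6982154499) (nat_lit 252) (nat_lit 9088083807) (nat_lit 15) (nat_lit 5) (nat_lit 17) (nat_lit 5) (nat_lit 18) (nat_lit 5) (nat_lit 391) (nat_lit 305) (nat_lit 168)) (XT.nd (nat_lit 94) (nat_lit 84) (nat_lit 0) (XT.lf (nat_lit 0) (nat_lit 36428105732) (nat_lit 168) (nat_lit 1248610830) (nat_lit 252) (nat_lit 5864882619)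 (nat_lit 15) (nat_lit 5) (nat_lit 17) (nat_lit 5) (nat_lit 18) (nat_lit 5) (nat_lit 392) (nat_lit 305) (nat_lit 167)) (XT.lf (nat_lit 0) (nat_lit 2108924199) (nat_lit 84) (nat_lit 40108727065) (nat_lit 168) (nat_lit 2477896176) (nat_lit 14) (nat_lit 5) (nat_lit 15) (nat_lit 5) (nat_lit 16) (nat_lit 4) (nat_lit 393) (nat_lit 305) (nat_lit 166)))) (XT.nd (nat_lit 94) (nat_lit 0) (nat_lit 0) (XT.lf (nat_lit 0) (nat_lit 1076229714) (nat_lit 168) (nat_lit 34146772838) (nat_lit 84) (nat_lit 10659403948) (nat_lit 13) (nat_lit 5) (nat_lit 15) (nat_lit 5) (nat_lit 14) (nat_lit 5) (nat_lit 394) (nat_lit 305) (nat_lit 165)) (XT.nd (nat_lit 94) (nat_lit 0) (nat_lit 0) (XT.lf (nat_lit 0) (nat_lit 4684012715) (nat_lit 168) (nat_lit 25478637876) (nat_lit 84) (nat_lit 16942788254) (nat_lit 13) (nat_lit 5) (nat_lit 15) (nat_lit 5) (nat_lit 14) (nat_lit 5) (nat_lit 395) (nat_lit 305) (nat_lit 164)) (XT.lf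 (nat_lit 0) (nat_lit 8398739743) (nat_lit 168) (nat_lit 16549557710) (nat_lit 84) (nat_lit 23418249027) (nat_lit 13) (nat_lit 5) (nat_lit 15) (nat_lit 5) (nat_lit 14) (nat_lit 5) (nat_lit 396) (nat_lit 305) (nat_lit 163))))) (XT.nd (nat_lit 282) (nat_lit 0) (nat_lit 0) (XT.nd (nat_lit 94) (nat_lit 168) (nat_lit 0) (XT.lf (nat_lit 0) (nat_lit 12223873313) (nat_lit 168) (nat_lit 7351209502) (nat_lit 84) (nat_lit 30091822077) (nat_lit 13) (nat_lit 5) (nat_lit 15) (nat_lit 5) (nat_lit 14) (nat_lit 5) (nat_lit 397) (nat_lit 305) (nat_lit 162)) (XT.nd (nat_lit 94) (nat_lit 0) (nat_lit 0) (XT.lf (nat_lit 0) (nat_lit 2168674531) (nat_lit 168) (nat_lit 14015817837) (nat_lit 252) (nat_lit 34822566860) (nat_lit 11) (nat_lit 5) (nat_lit 13) (nat_lit 5) (nat_lit 14) (nat_lit 5) (nat_lit 398) (nat_lit 305) (nat_lit 161)) (XT.lf (nat_lit 0) (nat_lit 12132283797) (nat_lit 168) (nat_lit 8207797971) (nat_lit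 252) (nat_lit 32046447301) (nat_lit 11) (nat_lit 5) (nat_lit 13) (nat_lit 5) (nat_lit 14) (nat_lit 5) (nat_lit 399) (nat_lit 305) (nat_lit 160)))) (XT.nd (nat_lit 94) (nat_lit 0) (nat_lit 0) (XT.lf (nat_lit 0) (nat_lit 22397749478) (nat_lit 168) (nat_lit 2222341085) (nat_lit 252) (nat_lit 29188816817) (nat_lit 11) (nat_lit 5) (nat_lit 13) (nat_lit 5) (nat_lit 14) (nat_lit 5) (nat_lit 400) (nat_lit 305) (nat_lit 159)) (XT.nd (nat_lit 94) (nat_lit 0) (nat_lit 0) (XT.lf (nat_lit 0) (nat_lit 29067654285) (nat_lit 252) (nat_lit 22340026020) (nat_lit 84) (nat_lit 3866626131) (nat_lit 11) (nat_lit 5) (nat_lit 14) (nat_lit 5) (nat_lit 12) (nat_lit 4) (nat_lit 401) (nat_lit 305) (nat_lit 158)) (XT.lf (nat_lit 0) (nat_lit 33671654403) (nat_lit 252) (nat_lit 13017130253) (nat_lit 84) (nat_lit 10095780676) (nat_lit 11) (nat_lit 5) (nat_lit 14) (nat_lit 5) (nat_lit 12) (nat_lit 4) (nat_lit 402) (nat_lit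 305) (nat_lit 157))))))))
noncomputable def xc130 : XT := (XT.nd (nat_lit 46154) (nat_lit 0) (nat_lit 5796) (XT.nd (nat_lit 1128) (nat_lit 0) (nat_lit 0) (XT.nd (nat_lit 564) (nat_lit 252) (nat_lit 0) (XT.nd (nat_lit 282) (nat_lit 0) (nat_lit 0) (XT.nd (nat_lit 94) (nat_lit 84) (nat_lit 0) (XT.lf (nat_lit 0) (nat_lit 38414336429) (nat_lit 252) (nat_lit 3411734788) (nat_lit 84) (nat_lit 16515703992) (nat_lit 11) (nat_lit 5) (nat_lit 14) (nat_lit 5) (nat_lit 12) (nat_lit 4) (nat_lit 403) (nat_lit 305) (nat_lit 156)) (XT.nd (nat_lit 94) (nat_lit 0) (nat_lit 0) (XT.lf (nat_lit 0) (nat_lit 6618460846) (nat_lit 84) (nat_lit 36747316144) (nat_lit 168) (nat_lit 16579575226) (nat_lit 10) (nat_lit 5) (nat_lit 11) (nat_lit 5) (nat_lit 12) (nat_lit 4) (nat_lit 404) (nat_lit 305) (nat_lit 155)) (XT.lf (nat_lit 0) (nat_lit 17025669130) (nat_lit 84) (nat_lit 31476789911) (nat_lit 168) (nat_lit 13095204114)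 (nat_lit 10) (nat_lit 5) (nat_lit 11) (nat_lit 5) (nat_lit 12) (nat_lit 4) (nat_lit 405) (nat_lit 305) (nat_lit 154)))) (XT.nd (nat_lit 94) (nat_lit 0) (nat_lit 0) (XT.lf (nat_lit 0) (nat_lit 27749438408) (nat_lit 84) (nat_lit 26045191351) (nat_lit 168) (nat_lit 9506689158) (nat_lit 10) (nat_lit 5) (nat_lit 11) (nat_lit 5) (nat_lit 12) (nat_lit 4) (nat_lit 406) (nat_lit 305) (nat_lit 153)) (XT.nd (nat_lit 94) (nat_lit 0) (nat_lit 0) (XT.lf (nat_lit 0) (nat_lit 38799764357) (nat_lit 84) (nat_lit 20447457644) (nat_lit 168) (nat_lit 5810685488) (nat_lit 10) (nat_lit 5) (nat_lit 11) (nat_lit 5) (nat_lit 12) (nat_lit 4) (nat_lit 407) (nat_lit 305) (nat_lit 152)) (XT.lf (nat_lit 0) (nat_lit 50186947036) (nat_lit 84) (nat_lit 14678371117) (nat_lit 168) (nat_lit 2003748041) (nat_lit 10) (nat_lit 5) (nat_lit 11) (nat_lit 5) (nat_lit 12) (nat_lit 4) (nat_lit 408) (nat_lit 305) (nat_lit 151)))))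 (XT.nd (nat_lit 282) (nat_lit 0) (nat_lit 0) (XT.nd (nat_lit 94) (nat_lit 168) (nat_lit 0) (XT.lf (nat_lit 0) (nat_lit 1879034837) (nat_lit 168) (nat_lit 6833906268) (nat_lit 84) (nat_lit 60022952386) (nat_lit 9) (nat_lit 5) (nat_lit 11) (nat_lit 5) (nat_lit 10) (nat_lit 5) (nat_lit 409) (nat_lit 305) (nat_lit 150)) (XT.nd (nat_lit 94) (nat_lit 0) (nat_lit 0) (XT.lf (nat_lit 0) (nat_lit 3361391557) (nat_lit 168) (nat_lit 2509157732) (nat_lit 252) (nat_lit 64788484213) (nat_lit 7) (nat_lit 5) (nat_lit 9) (nat_lit 5) (nat_lit 10) (nat_lit 5) (nat_lit 410) (nat_lit 305) (nat_lit 149)) (XT.lf (nat_lit 0) (nat_lit 10093090553) (nat_lit 252) (nat_lit 58666722575) (nat_lit 84) (nat_lit 3878657552) (nat_lit 7) (nat_lit 5) (nat_lit 10) (nat_lit 5) (nat_lit 8) (nat_lit 4) (nat_lit 411) (nat_lit 305) (nat_lit 148)))) (XT.nd (nat_lit 94) (nat_lit 0) (nat_lit 0) (XT.lf (nat_lit 0) (nat_lit 14468962906)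 (nat_lit 252) (nat_lit 49799216251) (nat_lit 84) (nat_lit 10410401489) (nat_lit 7) (nat_lit 5) (nat_lit 10) (nat_lit 5) (nat_lit 8) (nat_lit 4) (nat_lit 412) (nat_lit 305) (nat_lit 147)) (XT.nd (nat_lit 94) (nat_lit 0) (nat_lit 0) (XT.lf (nat_lit 0) (nat_lit 18977353964) (nat_lit 252) (nat_lit 40661966373) (nat_lit 84) (nat_lit 17142716287) (nat_lit 7) (nat_lit 5) (nat_lit 10) (nat_lit 5) (nat_lit 8) (nat_lit 4) (nat_lit 413) (nat_lit 305) (nat_lit 146)) (XT.lf (nat_lit 0) (nat_lit 23622466021) (nat_lit 252) (nat_lit 31246456067) (nat_lit 84) (nat_lit 24081877166) (nat_lit 7) (nat_lit 5) (nat_lit 10) (nat_lit 5) (nat_lit 8) (nat_lit 4) (nat_lit 414) (nat_lit 305) (nat_lit 145)))))) (XT.nd (nat_lit 44462) (nat_lit 0) (nat_lit 11340) (XT.nd (nat_lit 44180) (nat_lit 0) (nat_lit 12096) (XT.nd (nat_lit 43992) (nat_lit 0) (nat_lit 12096) (XT.lf (nat_lit 0) (nat_lit 28408628807) (nat_lit 252)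 (nat_lit 21543909091) (nat_lit 84) (nat_lit 31234352152) (nat_lit 7) (nat_lit 5) (nat_lit 10) (nat_lit 5) (nat_lit 8) (nat_lit 4) (nat_lit 415) (nat_lit 305) (nat_lit 144)) (XT.nd (nat_lit 94) (nat_lit 0) (nat_lit 0) (XT.lf (nat_lit 0) (nat_lit 1211352045) (nat_lit 924) (nat_lit 1390793276) (nat_lit 924) (nat_lit 1390793276) (nat_lit 151) (nat_lit 3) (nat_lit 162) (nat_lit 3) (nat_lit 162) (nat_lit 5) (nat_lit 306) (nat_lit 306) (nat_lit 252)) (XT.lf (nat_lit 84) (nat_lit 375734016) (nat_lit 0) (nat_lit 3128588126) (nat_lit 924) (nat_lit 4568427042) (nat_lit 152) (nat_lit 5) (nat_lit 151) (nat_lit 3) (nat_lit 162) (nat_lit 5) (nat_lit 307) (nat_lit 306) (nat_lit 251)))) (XT.nd (nat_lit 94) (nat_lit 0) (nat_lit 84) (XT.lf (nat_lit 84) (nat_lit 3667751644) (nat_lit 0) (nat_lit 938612038) (nat_lit 924) (nat_lit 3556539893) (nat_lit 152) (nat_lit 5) (nat_lit 151) (nat_lit 3) (nat_lit 162)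 (nat_lit 5) (nat_lit 308) (nat_lit 306) (nat_lit 250)) (XT.nd (nat_lit 94) (nat_lit 0) (nat_lit 0) (XT.lf (nat_lit 0) (nat_lit 5714974388) (nat_lit 840) (nat_lit 1230237207) (nat_lit 924) (nat_lit 1311674137) (nat_lit 152) (nat_lit 5) (nat_lit 162) (nat_lit 5) (nat_lit 163) (nat_lit 5) (nat_lit 309) (nat_lit 306) (nat_lit 249)) (XT.lf (nat_lit 84) (nat_lit 2147125910) (nat_lit 0) (nat_lit 4702267585) (nat_lit 924) (nat_lit 1504825377) (nat_lit 153) (nat_lit 5) (nat_lit 152) (nat_lit 5) (nat_lit 163) (nat_lit 5) (nat_lit 310) (nat_lit 306) (nat_lit 248))))) (XT.nd (nat_lit 282) (nat_lit 0) (nat_lit 0) (XT.nd (nat_lit 94) (nat_lit 840) (nat_lit 0) (XT.lf (nat_lit 84) (nat_lit 5633070717) (nat_lit 0) (nat_lit 2360258177) (nat_lit 924) (nat_lit 462202660) (nat_lit 153) (nat_lit 5) (nat_lit 152) (nat_lit 5) (nat_lit 163) (nat_lit 5) (nat_lit 311) (nat_lit 306) (nat_lit 247)) (XT.nd (nat_lit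 94) (nat_lit 0) (nat_lit 0) (XT.lf (nat_lit 0) (nat_lit 569806003) (nat_lit 924) (nat_lit 7910066856) (nat_lit 1008) (nat_lit 81029076) (nat_lit 142) (nat_lit 5) (nat_lit 153) (nat_lit 5) (nat_lit 154) (nat_lit 5) (nat_lit 312) (nat_lit 306) (nat_lit 246)) (XT.lf (nat_lit 0) (nat_lit 1641296953) (nat_lit 924) (nat_lit 4429838238) (nat_lit 1008) (nat_lit 2597879664) (nat_lit 142) (nat_lit 5) (nat_lit 153) (nat_lit 5) (nat_lit 154) (nat_lit 5) (nat_lit 313) (nat_lit 306) (nat_lit 245)))) (XT.nd (nat_lit 94) (nat_lit 0) (nat_lit 0) (XT.lf (nat_lit 0) (nat_lit 2710300094) (nat_lit 924) (nat_lit 864692591) (nat_lit 1008) (nat_lit 5206741257) (nat_lit 142) (nat_lit 5) (nat_lit 153) (nat_lit 5) (nat_lit 154) (nat_lit 5) (nat_lit 314) (nat_lit 306) (nat_lit 244)) (XT.nd (nat_lit 94) (nat_lit 0) (nat_lit 84) (XT.lf (nat_lit 84) (nat_lit 2846034426) (nat_lit 0) (nat_lit 960010438) (nat_lit 1008)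 (nat_lit 5092244173) (nat_lit 143) (nat_lit 5) (nat_lit 142) (nat_lit 5) (nat_lit 154) (nat_lit 5) (nat_lit 315) (nat_lit 306) (nat_lit 243)) (XT.lf (nat_lit 0) (nat_lit 4928405954) (nat_lit 924) (nat_lit 2368724113) (nat_lit 1008) (nat_lit 1721694261) (nat_lit 143) (nat_lit 5) (nat_lit 154) (nat_lit 5) (nat_lit 155) (nat_lit 5) (nat_lit 316) (nat_lit 306) (nat_lit 242))))))) (XT.nd (nat_lit 1128) (nat_lit 2688) (nat_lit 0) (XT.nd (nat_lit 564) (nat_lit 2016) (nat_lit 0) (XT.nd (nat_lit 282) (nat_lit 924) (nat_lit 0) (XT.nd (nat_lit 94) (nat_lit 0) (nat_lit 0) (XT.lf (nat_lit 84) (nat_lit 1425237276) (nat_lit 0) (nat_lit 4651601778) (nat_lit 1008) (nat_lit 3066662419) (nat_lit 144) (nat_lit 5) (nat_lit 143) (nat_lit 5) (nat_lit 155) (nat_lit 5) (nat_lit 317) (nat_lit 306) (nat_lit 241)) (XT.nd (nat_lit 94) (nat_lit 0) (nat_lit 84) (XT.lf (nat_lit 84) (nat_lit 5364601281) (nat_lit 0)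 (nat_lit 1889078662) (nat_lit 1008) (nat_lit 2018717515) (nat_lit 144) (nat_lit 5) (nat_lit 143) (nat_lit 5) (nat_lit 155) (nat_lit 5) (nat_lit 318) (nat_lit 306) (nat_lit 240)) (XT.lf (nat_lit 0) (nat_lit 8445649907) (nat_lit 924) (nat_lit 11647422) (nat_lit 1008) (nat_lit 948780742) (nat_lit 144) (nat_lit 5) (nat_lit 155) (nat_lit 5) (nat_lit 156) (nat_lit 5) (nat_lit 319) (nat_lit 306) (nat_lit 239)))) (XT.nd (nat_lit 94) (nat_lit 0) (nat_lit 0) (XT.lf (nat_lit 0) (nat_lit 157727540) (nat_lit 1008) (nat_lit 5499484663) (nat_lit 1092) (nat_lit 3885849340) (nat_lit 132) (nat_lit 5) (nat_lit 144) (nat_lit 5) (nat_lit 145) (nat_lit 5) (nat_lit 320) (nat_lit 306) (nat_lit 238)) (XT.nd (nat_lit 94) (nat_lit 0) (nat_lit 84) (XT.lf (nat_lit 0) (nat_lit 1261045033) (nat_lit 1008) (nat_lit 1492092744) (nat_lit 1092) (nat_lit 6931881088) (nat_lit 132) (nat_lit 5) (nat_lit 144) (nat_lit 5) (nat_lit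 145) (nat_lit 5) (nat_lit 321) (nat_lit 306) (nat_lit 237)) (XT.lf (nat_lit 0) (nat_lit 2399011742) (nat_lit 1008) (nat_lit 7162996272) (nat_lit 84) (nat_lit 269467337) (nat_lit 133) (nat_lit 5) (nat_lit 145) (nat_lit 5) (nat_lit 134) (nat_lit 5) (nat_lit 322) (nat_lit 306) (nat_lit 236))))) (XT.nd (nat_lit 282) (nat_lit 1092) (nat_lit 0) (XT.nd (nat_lit 94) (nat_lit 1008) (nat_lit 0) (XT.lf (nat_lit 0) (nat_lit 3588077215) (nat_lit 1008) (nat_lit 3043523741) (nat_lit 84) (nat_lit 3350489501) (nat_lit 133) (nat_lit 5) (nat_lit 145) (nat_lit 5) (nat_lit 134) (nat_lit 5) (nat_lit 323) (nat_lit 306) (nat_lit 235)) (XT.nd (nat_lit 94) (nat_lit 0) (nat_lit 0) (XT.lf (nat_lit 0) (nat_lit 1205756254) (nat_lit 1008) (nat_lit 3592982717) (nat_lit 1092) (nat_lit 5339214537) (nat_lit 121) (nat_lit 5) (nat_lit 133) (nat_lit 5) (nat_lit 134) (nat_lit 5) (nat_lit 324) (nat_lit 306) (nat_lit 234))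 (XT.lf (nat_lit 0) (nat_lit 5629320195) (nat_lit 1008) (nat_lit 422753927) (nat_lit 1092) (nat_lit 4246517253) (nat_lit 121) (nat_lit 5) (nat_lit 133) (nat_lit 5) (nat_lit 134) (nat_lit 5) (nat_lit 325) (nat_lit 306) (nat_lit 233)))) (XT.nd (nat_lit 94) (nat_lit 1092) (nat_lit 0) (XT.lf (nat_lit 0) (nat_lit 7346713021) (nat_lit 1092) (nat_lit 324673829) (nat_lit 84) (nat_lit 2792845617) (nat_lit 121) (nat_lit 5) (nat_lit 134) (nat_lit 5) (nat_lit 122) (nat_lit 5) (nat_lit 326) (nat_lit 306) (nat_lit 232)) (XT.nd (nat_lit 94) (nat_lit 0) (nat_lit 0) (XT.lf (nat_lit 0) (nat_lit 4213596611) (nat_lit 1092) (nat_lit 4489007580) (nat_lit 1176) (nat_lit 1931845989) (nat_lit 108) (nat_lit 5) (nat_lit 121) (nat_lit 5) (nat_lit 122) (nat_lit 5) (nat_lit 327) (nat_lit 306) (nat_lit 231)) (XT.lf (nat_lit 0) (nat_lit 8878074600) (nat_lit 1092) (nat_lit 1201377536) (nat_lit 1176) (nat_lit 731239382)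 (nat_lit 108) (nat_lit 5) (nat_lit 121) (nat_lit 5) (nat_lit 122) (nat_lit 5) (nat_lit 328) (nat_lit 306) (nat_lit 230)))))) (XT.nd (nat_lit 564) (nat_lit 1008) (nat_lit 0) (XT.nd (nat_lit 282) (nat_lit 504) (nat_lit 0) (XT.nd (nat_lit 94) (nat_lit 588) (nat_lit 0) (XT.lf (nat_lit 0) (nat_lit 521396103) (nat_lit 588) (nat_lit 8291003067) (nat_lit 84) (nat_lit 2179153845) (nat_lit 101) (nat_lit 5) (nat_lit 108) (nat_lit 5) (nat_lit 102) (nat_lit 5) (nat_lit 329) (nat_lit 306) (nat_lit 229)) (XT.nd (nat_lit 94) (nat_lit 588) (nat_lit 0) (XT.lf (nat_lit 0) (nat_lit 1806817793) (nat_lit 588) (nat_lit 3700979046) (nat_lit 84) (nat_lit 5669794407) (nat_lit 101) (nat_lit 5) (nat_lit 108) (nat_lit 5) (nat_lit 102) (nat_lit 5) (nat_lit 330) (nat_lit 306) (nat_lit 228)) (XT.lf (nat_lit 0) (nat_lit 1030837895) (nat_lit 588) (nat_lit 2088660883) (nat_lit 672) (nat_lit 8250370907) (nat_lit 94) (nat_lit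 5) (nat_lit 101) (nat_lit 5) (nat_lit 102) (nat_lit 5) (nat_lit 331) (nat_lit 306) (nat_lit 227)))) (XT.nd (nat_lit 94) (nat_lit 504) (nat_lit 0) (XT.lf (nat_lit 0) (nat_lit 4503823649) (nat_lit 672) (nat_lit 5615593388) (nat_lit 84) (nat_lit 1447812526) (nat_lit 94) (nat_lit 5) (nat_lit 102) (nat_lit 5) (nat_lit 95) (nat_lit 5) (nat_lit 332) (nat_lit 306) (nat_lit 226)) (XT.nd (nat_lit 94) (nat_lit 504) (nat_lit 0) (XT.lf (nat_lit 0) (nat_lit 5930771042) (nat_lit 672) (nat_lit 788270998) (nat_lit 84) (nat_lit 5051752465) (nat_lit 94) (nat_lit 5) (nat_lit 102) (nat_lit 5) (nat_lit 95) (nat_lit 5) (nat_lit 333) (nat_lit 306) (nat_lit 225)) (XT.lf (nat_lit 0) (nat_lit 4253860535) (nat_lit 504) (nat_lit 3169289536) (nat_lit 588) (nat_lit 4556938333) (nat_lit 88) (nat_lit 5) (nat_lit 94) (nat_lit 5) (nat_lit 95) (nat_lit 5) (nat_lit 334) (nat_lit 306) (nat_lit 224))))) (XT.nd (nat_lit 282)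 (nat_lit 504) (nat_lit 0) (XT.nd (nat_lit 94) (nat_lit 504) (nat_lit 0) (XT.lf (nat_lit 0) (nat_lit 8954400372) (nat_lit 588) (nat_lit 2752605336) (nat_lit 84) (nat_lit 489167127) (nat_lit 88) (nat_lit 5) (nat_lit 95) (nat_lit 5) (nat_lit 89) (nat_lit 5) (nat_lit 335) (nat_lit 306) (nat_lit 223)) (XT.nd (nat_lit 94) (nat_lit 0) (nat_lit 0) (XT.lf (nat_lit 0) (nat_lit 2370121647) (nat_lit 504) (nat_lit 8198972137) (nat_lit 588) (nat_lit 1848817950) (nat_lit 82) (nat_lit 5) (nat_lit 88) (nat_lit 5) (nat_lit 89) (nat_lit 5) (nat_lit 336) (nat_lit 306) (nat_lit 222)) (XT.lf (nat_lit 0) (nat_lit 7689797511) (nat_lit 504) (nat_lit 4553224244) (nat_lit 588) (nat_lit 403287151) (nat_lit 82) (nat_lit 5) (nat_lit 88) (nat_lit 5) (nat_lit 89) (nat_lit 5) (nat_lit 337) (nat_lit 306) (nat_lit 221)))) (XT.nd (nat_lit 94) (nat_lit 0) (nat_lit 0) (XT.lf (nat_lit 0) (nat_lit 267133449) (nat_lit 420)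 (nat_lit 781445860) (nat_lit 504) (nat_lit 11833451414) (nat_lit 76) (nat_lit 5) (nat_lit 81) (nat_lit 5) (nat_lit 82) (nat_lit 5) (nat_lit 338) (nat_lit 306) (nat_lit 220)) (XT.nd (nat_lit 94) (nat_lit 0) (nat_lit 0) (XT.lf (nat_lit 0) (nat_lit 2601312634) (nat_lit 504) (nat_lit 7421643327) (nat_lit 84) (nat_lit 3100047655) (nat_lit 76) (nat_lit 5) (nat_lit 82) (nat_lit 5) (nat_lit 77) (nat_lit 5) (nat_lit 339) (nat_lit 306) (nat_lit 219)) (XT.lf (nat_lit 0) (nat_lit 4191886814) (nat_lit 504) (nat_lit 2095270340) (nat_lit 84) (nat_lit 7084669619) (nat_lit 76) (nat_lit 5) (nat_lit 82) (nat_lit 5) (nat_lit 77) (nat_lit 5) (nat_lit 340) (nat_lit 306) (nat_lit 218))))))))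
noncomputable def xc131 : XT := (XT.nd (nat_lit 2256) (nat_lit 1596) (nat_lit 0) (XT.nd (nat_lit 1128) (nat_lit 1344) (nat_lit 0) (XT.nd (nat_lit 564) (nat_lit 672) (nat_lit 0) (XT.nd (nat_lit 282) (nat_lit 504) (nat_lit 0) (XT.nd (nat_lit 94) (nat_lit 420) (nat_lit 0) (XT.lf (nat_lit 0) (nat_lit 3446375243) (nat_lit 420) (nat_lit 2401845617) (nat_lit 504) (nat_lit 7779691734) (nat_lit 71) (nat_lit 5) (nat_lit 76) (nat_lit 5) (nat_lit 77) (nat_lit 5) (nat_lit 341) (nat_lit 306) (nat_lit 217)) (XT.nd (nat_lit 94) (nat_lit 420) (nat_lit 0) (XT.lf (nat_lit 0) (nat_lit 7576497010) (nat_lit 504) (nat_lit 4722829578) (nat_lit 84) (nat_lit 1592029403) (nat_lit 71) (nat_lit 5) (nat_lit 77) (nat_lit 5) (nat_lit 72) (nat_lit 5) (nat_lit 342) (nat_lit 306) (nat_lit 216)) (XT.lf (nat_lit 0) (nat_lit 879171293) (nat_lit 420) (nat_lit 8495579352) (nat_lit 504) (nat_lit 4787762715) (nat_lit 66) (nat_lit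 5) (nat_lit 71) (nat_lit 5) (nat_lit 72) (nat_lit 5) (nat_lit 343) (nat_lit 306) (nat_lit 215)))) (XT.nd (nat_lit 94) (nat_lit 504) (nat_lit 0) (XT.lf (nat_lit 0) (nat_lit 6736073859) (nat_lit 420) (nat_lit 4525407556) (nat_lit 504) (nat_lit 3179634507) (nat_lit 66) (nat_lit 5) (nat_lit 71) (nat_lit 5) (nat_lit 72) (nat_lit 5) (nat_lit 344) (nat_lit 306) (nat_lit 214)) (XT.nd (nat_lit 94) (nat_lit 504) (nat_lit 0) (XT.lf (nat_lit 0) (nat_lit 12756226304) (nat_lit 420) (nat_lit 434407239) (nat_lit 504) (nat_lit 1538272066) (nat_lit 66) (nat_lit 5) (nat_lit 71) (nat_lit 5) (nat_lit 72) (nat_lit 5) (nat_lit 345) (nat_lit 306) (nat_lit 213)) (XT.lf (nat_lit 0) (nat_lit 212670448) (nat_lit 504) (nat_lit 11064530452) (nat_lit 84) (nat_lit 3746501983) (nat_lit 60) (nat_lit 5) (nat_lit 66) (nat_lit 5) (nat_lit 61) (nat_lit 5) (nat_lit 346) (nat_lit 306) (nat_lit 212))))) (XT.nd (nat_lit 282)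 (nat_lit 336) (nat_lit 0) (XT.nd (nat_lit 94) (nat_lit 336) (nat_lit 0) (XT.lf (nat_lit 0) (nat_lit 1995661991) (nat_lit 504) (nat_lit 5249113292) (nat_lit 84) (nat_lit 8082122225) (nat_lit 60) (nat_lit 5) (nat_lit 66) (nat_lit 5) (nat_lit 61) (nat_lit 5) (nat_lit 347) (nat_lit 306) (nat_lit 211)) (XT.nd (nat_lit 94) (nat_lit 0) (nat_lit 0) (XT.lf (nat_lit 0) (nat_lit 743662312) (nat_lit 336) (nat_lit 3082586917) (nat_lit 420) (nat_lit 11813526265) (nat_lit 56) (nat_lit 5) (nat_lit 60) (nat_lit 5) (nat_lit 61) (nat_lit 5) (nat_lit 348) (nat_lit 306) (nat_lit 210)) (XT.lf (nat_lit 0) (nat_lit 5766118159) (nat_lit 420) (nat_lit 8957907150) (nat_lit 84) (nat_lit 1236743800) (nat_lit 56) (nat_lit 5) (nat_lit 61) (nat_lit 5) (nat_lit 57) (nat_lit 5) (nat_lit 349) (nat_lit 306) (nat_lit 209)))) (XT.nd (nat_lit 94) (nat_lit 336) (nat_lit 0) (XT.lf (nat_lit 0) (nat_lit 7783289224) (nat_lit 420)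 (nat_lit 2884792470) (nat_lit 84) (nat_lit 5623143275) (nat_lit 56) (nat_lit 5) (nat_lit 61) (nat_lit 5) (nat_lit 57) (nat_lit 5) (nat_lit 350) (nat_lit 306) (nat_lit 208)) (XT.nd (nat_lit 94) (nat_lit 0) (nat_lit 0) (XT.lf (nat_lit 0) (nat_lit 3428548898) (nat_lit 336) (nat_lit 6454525727) (nat_lit 420) (nat_lit 6748270077) (nat_lit 52) (nat_lit 5) (nat_lit 56) (nat_lit 5) (nat_lit 57) (nat_lit 5) (nat_lit 351) (nat_lit 306) (nat_lit 207)) (XT.lf (nat_lit 0) (nat_lit 9981815747) (nat_lit 336) (nat_lit 2082570094) (nat_lit 420) (nat_lit 4917153914) (nat_lit 52) (nat_lit 5) (nat_lit 56) (nat_lit 5) (nat_lit 57) (nat_lit 5) (nat_lit 352) (nat_lit 306) (nat_lit 206)))))) (XT.nd (nat_lit 564) (nat_lit 588) (nat_lit 0) (XT.nd (nat_lit 282) (nat_lit 336) (nat_lit 0) (XT.nd (nat_lit 94) (nat_lit 420) (nat_lit 0) (XT.lf (nat_lit 0) (nat_lit 14324074200) (nat_lit 420) (nat_lit 645266822) (nat_lit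 84) (nat_lit 2372956163) (nat_lit 52) (nat_lit 5) (nat_lit 57) (nat_lit 5) (nat_lit 53) (nat_lit 5) (nat_lit 353) (nat_lit 306) (nat_lit 205)) (XT.nd (nat_lit 94) (nat_lit 84) (nat_lit 0) (XT.lf (nat_lit 0) (nat_lit 5989200188) (nat_lit 336) (nat_lit 10732427006) (nat_lit 420) (nat_lit 990547241) (nat_lit 48) (nat_lit 5) (nat_lit 52) (nat_lit 5) (nat_lit 53) (nat_lit 5) (nat_lit 354) (nat_lit 306) (nat_lit 204)) (XT.lf (nat_lit 0) (nat_lit 1071790268) (nat_lit 420) (nat_lit 5277757344) (nat_lit 84) (nat_lit 11743855347) (nat_lit 47) (nat_lit 5) (nat_lit 52) (nat_lit 5) (nat_lit 48) (nat_lit 5) (nat_lit 355) (nat_lit 306) (nat_lit 203)))) (XT.nd (nat_lit 94) (nat_lit 0) (nat_lit 0) (XT.lf (nat_lit 0) (nat_lit 1368720204) (nat_lit 336) (nat_lit 1809889873) (nat_lit 420) (nat_lit 15307525737) (nat_lit 43) (nat_lit 5) (nat_lit 47) (nat_lit 5) (nat_lit 48) (nat_lit 5) (nat_lit 356) (nat_lit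 306) (nat_lit 202)) (XT.nd (nat_lit 94) (nat_lit 0) (nat_lit 0) (XT.lf (nat_lit 0) (nat_lit 5422599144) (nat_lit 420) (nat_lit 10601453236) (nat_lit 84) (nat_lit 2864797562) (nat_lit 43) (nat_lit 5) (nat_lit 48) (nat_lit 5) (nat_lit 44) (nat_lit 5) (nat_lit 357) (nat_lit 306) (nat_lit 201)) (XT.lf (nat_lit 0) (nat_lit 7742761493) (nat_lit 420) (nat_lit 3917722489) (nat_lit 84) (nat_lit 7643392451) (nat_lit 43) (nat_lit 5) (nat_lit 48) (nat_lit 5) (nat_lit 44) (nat_lit 5) (nat_lit 358) (nat_lit 306) (nat_lit 200))))) (XT.nd (nat_lit 282) (nat_lit 336) (nat_lit 0) (XT.nd (nat_lit 94) (nat_lit 0) (nat_lit 0) (XT.lf (nat_lit 0) (nat_lit 3018782641) (nat_lit 252) (nat_lit 7134469482) (nat_lit 336) (nat_lit 9577978249) (nat_lit 40) (nat_lit 5) (nat_lit 43) (nat_lit 5) (nat_lit 44) (nat_lit 5) (nat_lit 359) (nat_lit 306) (nat_lit 199)) (XT.nd (nat_lit 94) (nat_lit 0) (nat_lit 0) (XT.lf (nat_lit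 0) (nat_lit 10238284399) (nat_lit 252) (nat_lit 2429730507) (nat_lit 336) (nat_lit 7502932581) (nat_lit 40) (nat_lit 5) (nat_lit 43) (nat_lit 5) (nat_lit 44) (nat_lit 5) (nat_lit 360) (nat_lit 306) (nat_lit 198)) (XT.lf (nat_lit 0) (nat_lit 15273709618) (nat_lit 336) (nat_lit 2981690675) (nat_lit 84) (nat_lit 2368523560) (nat_lit 40) (nat_lit 5) (nat_lit 44) (nat_lit 5) (nat_lit 41) (nat_lit 5) (nat_lit 361) (nat_lit 306) (nat_lit 197)))) (XT.nd (nat_lit 94) (nat_lit 84) (nat_lit 0) (XT.lf (nat_lit 0) (nat_lit 4230628959) (nat_lit 252) (nat_lit 13785661771) (nat_lit 336) (nat_lit 3072941666) (nat_lit 37) (nat_lit 5) (nat_lit 40) (nat_lit 5) (nat_lit 41) (nat_lit 5) (nat_lit 362) (nat_lit 306) (nat_lit 196)) (XT.nd (nat_lit 94) (nat_lit 84) (nat_lit 0) (XT.lf (nat_lit 0) (nat_lit 11715367541) (nat_lit 252) (nat_lit 9149117535) (nat_lit 336) (nat_lit 703870471) (nat_lit 37) (nat_lit 5)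 (nat_lit 40) (nat_lit 5) (nat_lit 41) (nat_lit 5) (nat_lit 363) (nat_lit 306) (nat_lit 195)) (XT.lf (nat_lit 0) (nat_lit 1693267778) (nat_lit 336) (nat_lit 2661626554) (nat_lit 84) (nat_lit 17707249934) (nat_lit 36) (nat_lit 5) (nat_lit 40) (nat_lit 5) (nat_lit 37) (nat_lit 5) (nat_lit 364) (nat_lit 306) (nat_lit 194))))))) (XT.nd (nat_lit 1128) (nat_lit 588) (nat_lit 0) (XT.nd (nat_lit 564) (nat_lit 504) (nat_lit 0) (XT.nd (nat_lit 282) (nat_lit 252) (nat_lit 0) (XT.nd (nat_lit 94) (nat_lit 0) (nat_lit 0) (XT.lf (nat_lit 0) (nat_lit 4194326466) (nat_lit 336) (nat_lit 17747220645) (nat_lit 84) (nat_lit 628124967) (nat_lit 33) (nat_lit 5) (nat_lit 37) (nat_lit 5) (nat_lit 34) (nat_lit 5) (nat_lit 365) (nat_lit 306) (nat_lit 193)) (XT.nd (nat_lit 94) (nat_lit 0) (nat_lit 0) (XT.lf (nat_lit 0) (nat_lit 6835620445) (nat_lit 336) (nat_lit 10555844296) (nat_lit 84) (nat_lit 5699549899) (nat_lit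 33) (nat_lit 5) (nat_lit 37) (nat_lit 5) (nat_lit 34) (nat_lit 5) (nat_lit 366) (nat_lit 306) (nat_lit 192)) (XT.lf (nat_lit 0) (nat_lit 9549188407) (nat_lit 336) (nat_lit 3155025814) (nat_lit 84) (nat_lit 10924626799) (nat_lit 33) (nat_lit 5) (nat_lit 37) (nat_lit 5) (nat_lit 34) (nat_lit 5) (nat_lit 367) (nat_lit 306) (nat_lit 191)))) (XT.nd (nat_lit 94) (nat_lit 0) (nat_lit 0) (XT.lf (nat_lit 0) (nat_lit 4553883747) (nat_lit 252) (nat_lit 7828851025) (nat_lit 336) (nat_lit 11799517327) (nat_lit 30) (nat_lit 5) (nat_lit 33) (nat_lit 5) (nat_lit 34) (nat_lit 5) (nat_lit 368) (nat_lit 306) (nat_lit 190)) (XT.nd (nat_lit 94) (nat_lit 0) (nat_lit 0) (XT.lf (nat_lit 0) (nat_lit 12555701967) (nat_lit 252) (nat_lit 2772185476) (nat_lit 336) (nat_lit 9424217685) (nat_lit 30) (nat_lit 5) (nat_lit 33) (nat_lit 5) (nat_lit 34) (nat_lit 5) (nat_lit 369) (nat_lit 306) (nat_lit 189)) (XT.lf (nat_lit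 0) (nat_lit 18379630740) (nat_lit 336) (nat_lit 4571088823) (nat_lit 84) (nat_lit 2388452291) (nat_lit 30) (nat_lit 5) (nat_lit 34) (nat_lit 5) (nat_lit 31) (nat_lit 5) (nat_lit 370) (nat_lit 306) (nat_lit 188))))) (XT.nd (nat_lit 282) (nat_lit 252) (nat_lit 0) (XT.nd (nat_lit 94) (nat_lit 84) (nat_lit 0) (XT.lf (nat_lit 0) (nat_lit 3316641457) (nat_lit 168) (nat_lit 18261932976) (nat_lit 252) (nat_lit 4364254331) (nat_lit 28) (nat_lit 5) (nat_lit 30) (nat_lit 5) (nat_lit 31) (nat_lit 5) (nat_lit 371) (nat_lit 306) (nat_lit 187)) (XT.nd (nat_lit 94) (nat_lit 84) (nat_lit 0) (XT.lf (nat_lit 0) (nat_lit 11533483188) (nat_lit 168) (nat_lit 13382395094) (nat_lit 252) (nat_lit 1648126730) (nat_lit 28) (nat_lit 5) (nat_lit 30) (nat_lit 5) (nat_lit 31) (nat_lit 5) (nat_lit 372) (nat_lit 306) (nat_lit 186)) (XT.lf (nat_lit 0) (nat_lit 1120618400) (nat_lit 252) (nat_lit 7222955110) (nat_lit 84)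 (nat_lit 18860789008) (nat_lit 27) (nat_lit 5) (nat_lit 30) (nat_lit 5) (nat_lit 28) (nat_lit 5) (nat_lit 373) (nat_lit 306) (nat_lit 185)))) (XT.nd (nat_lit 94) (nat_lit 0) (nat_lit 0) (XT.lf (nat_lit 0) (nat_lit 814429075) (nat_lit 252) (nat_lit 3126492786) (nat_lit 336) (nat_lit 23923146969) (nat_lit 24) (nat_lit 5) (nat_lit 27) (nat_lit 5) (nat_lit 28) (nat_lit 5) (nat_lit 374) (nat_lit 306) (nat_lit 184)) (XT.nd (nat_lit 94) (nat_lit 0) (nat_lit 0) (XT.lf (nat_lit 0) (nat_lit 6939137536) (nat_lit 336) (nat_lit 19322788453) (nat_lit 84) (nat_lit 2279513628) (nat_lit 24) (nat_lit 5) (nat_lit 28) (nat_lit 5) (nat_lit 25) (nat_lit 5) (nat_lit 375) (nat_lit 306) (nat_lit 183)) (XT.lf (nat_lit 0) (nat_lit 10054491447) (nat_lit 336) (nat_lit 11399904466) (nat_lit 84) (nat_lit 7784680971) (nat_lit 24) (nat_lit 5) (nat_lit 28) (nat_lit 5) (nat_lit 25) (nat_lit 5) (nat_lit 376) (nat_lit 306)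 (nat_lit 182)))))) (XT.nd (nat_lit 564) (nat_lit 252) (nat_lit 0) (XT.nd (nat_lit 282) (nat_lit 168) (nat_lit 0) (XT.nd (nat_lit 94) (nat_lit 168) (nat_lit 0) (XT.lf (nat_lit 0) (nat_lit 13258872235) (nat_lit 336) (nat_lit 3242587643) (nat_lit 84) (nat_lit 13457132496) (nat_lit 24) (nat_lit 5) (nat_lit 28) (nat_lit 5) (nat_lit 25) (nat_lit 5) (nat_lit 377) (nat_lit 306) (nat_lit 181)) (XT.nd (nat_lit 94) (nat_lit 0) (nat_lit 0) (XT.lf (nat_lit 0) (nat_lit 5262799164) (nat_lit 168) (nat_lit 11344675174) (nat_lit 252) (nat_lit 14091563976) (nat_lit 22) (nat_lit 5) (nat_lit 24) (nat_lit 5) (nat_lit 25) (nat_lit 5) (nat_lit 378) (nat_lit 306) (nat_lit 180)) (XT.lf (nat_lit 0) (nat_lit 14089863357) (nat_lit 168) (nat_lit 5996657316) (nat_lit 252) (nat_lit 11375108054) (nat_lit 22) (nat_lit 5) (nat_lit 24) (nat_lit 5) (nat_lit 25) (nat_lit 5) (nat_lit 379) (nat_lit 306) (nat_lit 179)))) (XT.nd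 (nat_lit 94) (nat_lit 168) (nat_lit 0) (XT.lf (nat_lit 0) (nat_lit 23180158430) (nat_lit 168) (nat_lit 486267356) (nat_lit 252) (nat_lit 8581666316) (nat_lit 22) (nat_lit 5) (nat_lit 24) (nat_lit 5) (nat_lit 25) (nat_lit 5) (nat_lit 380) (nat_lit 306) (nat_lit 178)) (XT.nd (nat_lit 94) (nat_lit 168) (nat_lit 0) (XT.lf (nat_lit 0) (nat_lit 27402028148) (nat_lit 252) (nat_lit 568505638) (nat_lit 84) (nat_lit 5087031171) (nat_lit 22) (nat_lit 5) (nat_lit 25) (nat_lit 5) (nat_lit 23) (nat_lit 5) (nat_lit 381) (nat_lit 306) (nat_lit 177)) (XT.lf (nat_lit 0) (nat_lit 8347639002) (nat_lit 168) (nat_lit 22986968750) (nat_lit 252) (nat_lit 2555022313) (nat_lit 20) (nat_lit 5) (nat_lit 22) (nat_lit 5) (nat_lit 23) (nat_lit 5) (nat_lit 382) (nat_lit 306) (nat_lit 176))))) (XT.nd (nat_lit 282) (nat_lit 0) (nat_lit 0) (XT.nd (nat_lit 94) (nat_lit 168) (nat_lit 0) (XT.lf (nat_lit 0) (nat_lit 628086411)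 (nat_lit 252) (nat_lit 17211521785) (nat_lit 84) (nat_lit 16907716212) (nat_lit 19) (nat_lit 5) (nat_lit 22) (nat_lit 5) (nat_lit 20) (nat_lit 5) (nat_lit 383) (nat_lit 306) (nat_lit 175)) (XT.nd (nat_lit 94) (nat_lit 168) (nat_lit 0) (XT.lf (nat_lit 0) (nat_lit 3850406343) (nat_lit 252) (nat_lit 8658665502) (nat_lit 84) (nat_lit 23121937139) (nat_lit 19) (nat_lit 5) (nat_lit 22) (nat_lit 5) (nat_lit 20) (nat_lit 5) (nat_lit 384) (nat_lit 306) (nat_lit 174)) (XT.lf (nat_lit 0) (nat_lit 152978250) (nat_lit 168) (nat_lit 7014958341) (nat_lit 252) (nat_lit 29374309575) (nat_lit 17) (nat_lit 5) (nat_lit 19) (nat_lit 5) (nat_lit 20) (nat_lit 5) (nat_lit 385) (nat_lit 306) (nat_lit 173)))) (XT.nd (nat_lit 94) (nat_lit 0) (nat_lit 0) (XT.lf (nat_lit 0) (nat_lit 9412004376) (nat_lit 168) (nat_lit 1260579210) (nat_lit 252) (nat_lit 26806548499) (nat_lit 17) (nat_lit 5) (nat_lit 19) (nat_lit 5)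 (nat_lit 20) (nat_lit 5) (nat_lit 386) (nat_lit 306) (nat_lit 172)) (XT.nd (nat_lit 94) (nat_lit 0) (nat_lit 0) (XT.lf (nat_lit 0) (nat_lit 14326270372) (nat_lit 252) (nat_lit 19542571736) (nat_lit 84) (nat_lit 4574979559) (nat_lit 17) (nat_lit 5) (nat_lit 20) (nat_lit 5) (nat_lit 18) (nat_lit 5) (nat_lit 387) (nat_lit 306) (nat_lit 171)) (XT.lf (nat_lit 0) (nat_lit 18100340276) (nat_lit 252) (nat_lit 10775591925) (nat_lit 84) (nat_lit 10562275838) (nat_lit 17) (nat_lit 5) (nat_lit 20) (nat_lit 5) (nat_lit 18) (nat_lit 5) (nat_lit 388) (nat_lit 306) (nat_lit 170))))))))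
noncomputable def xc132 : XT := (XT.nd (nat_lit 2256) (nat_lit 0) (nat_lit 0) (XT.nd (nat_lit 1128) (nat_lit 336) (nat_lit 0) (XT.nd (nat_lit 564) (nat_lit 252) (nat_lit 0) (XT.nd (nat_lit 282) (nat_lit 84) (nat_lit 0) (XT.nd (nat_lit 94) (nat_lit 168) (nat_lit 0) (XT.lf (nat_lit 0) (nat_lit 21985806022) (nat_lit 252) (nat_lit 1745511430) (nat_lit 84) (nat_lit 16732288276) (nat_lit 17) (nat_lit 5) (nat_lit 20) (nat_lit 5) (nat_lit 18) (nat_lit 5) (nat_lit 389) (nat_lit 306) (nat_lit 169)) (XT.nd (nat_lit 94) (nat_lit 0) (nat_lit 0) (XT.lf (nat_lit 0) (nat_lit 7711455369) (nat_lit 168) (nat_lit 18351332497) (nat_lit 252) (nat_lit 15455811192) (nat_lit 15) (nat_lit 5) (nat_lit 17) (nat_lit 5) (nat_lit 18) (nat_lit 5) (nat_lit 390) (nat_lit 306) (nat_lit 168)) (XT.lf (nat_lit 0) (nat_lit 17490262426) (nat_lit 168) (nat_lit 12788762041) (nat_lit 252) (nat_lit 12326884830) (nat_lit 15) (nat_lit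 5) (nat_lit 17) (nat_lit 5) (nat_lit 18) (nat_lit 5) (nat_lit 391) (nat_lit 306) (nat_lit 167)))) (XT.nd (nat_lit 94) (nat_lit 84) (nat_lit 0) (XT.lf (nat_lit 0) (nat_lit 27564133319) (nat_lit 168) (nat_lit 7056640748) (nat_lit 252) (nat_lit 9106323692) (nat_lit 15) (nat_lit 5) (nat_lit 17) (nat_lit 5) (nat_lit 18) (nat_lit 5) (nat_lit 392) (nat_lit 306) (nat_lit 166)) (XT.nd (nat_lit 94) (nat_lit 84) (nat_lit 0) (XT.lf (nat_lit 0) (nat_lit 37942457950) (nat_lit 168) (nat_lit 1149625680) (nat_lit 252) (nat_lit 5791125879) (nat_lit 15) (nat_lit 5) (nat_lit 17) (nat_lit 5) (nat_lit 18) (nat_lit 5) (nat_lit 393) (nat_lit 306) (nat_lit 165)) (XT.lf (nat_lit 0) (nat_lit 2562227536) (nat_lit 84) (nat_lit 41209294442) (nat_lit 168) (nat_lit 2301493751) (nat_lit 14) (nat_lit 5) (nat_lit 15) (nat_lit 5) (nat_lit 16) (nat_lit 4) (nat_lit 394) (nat_lit 306) (nat_lit 164))))) (XT.nd (nat_lit 282)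 (nat_lit 168) (nat_lit 0) (XT.nd (nat_lit 94) (nat_lit 0) (nat_lit 0) (XT.lf (nat_lit 0) (nat_lit 1350247970) (nat_lit 168) (nat_lit 34823646344) (nat_lit 84) (nat_lit 11122940938) (nat_lit 13) (nat_lit 5) (nat_lit 15) (nat_lit 5) (nat_lit 14) (nat_lit 5) (nat_lit 395) (nat_lit 306) (nat_lit 163)) (XT.nd (nat_lit 94) (nat_lit 0) (nat_lit 0) (XT.lf (nat_lit 0) (nat_lit 5062636251) (nat_lit 168) (nat_lit 25898275406) (nat_lit 84) (nat_lit 17597108256) (nat_lit 13) (nat_lit 5) (nat_lit 15) (nat_lit 5) (nat_lit 14) (nat_lit 5) (nat_lit 396) (nat_lit 306) (nat_lit 162)) (XT.lf (nat_lit 0) (nat_lit 8885501394) (nat_lit 168) (nat_lit 16703524897) (nat_lit 84) (nat_lit 24269426742) (nat_lit 13) (nat_lit 5) (nat_lit 15) (nat_lit 5) (nat_lit 14) (nat_lit 5) (nat_lit 397) (nat_lit 306) (nat_lit 161)))) (XT.nd (nat_lit 94) (nat_lit 168) (nat_lit 0) (XT.lf (nat_lit 0) (nat_lit 12822406711) (nat_lit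 168) (nat_lit 7230824346) (nat_lit 84) (nat_lit 31146115695) (nat_lit 13) (nat_lit 5) (nat_lit 15) (nat_lit 5) (nat_lit 14) (nat_lit 5) (nat_lit 398) (nat_lit 306) (nat_lit 160)) (XT.nd (nat_lit 94) (nat_lit 0) (nat_lit 0) (XT.lf (nat_lit 0) (nat_lit 2580650144) (nat_lit 168) (nat_lit 14321972035) (nat_lit 252) (nat_lit 35678535135) (nat_lit 11) (nat_lit 5) (nat_lit 13) (nat_lit 5) (nat_lit 14) (nat_lit 5) (nat_lit 399) (nat_lit 306) (nat_lit 159)) (XT.lf (nat_lit 0) (nat_lit 12842765490) (nat_lit 168) (nat_lit 8337762351) (nat_lit 252) (nat_lit 32823076984) (nat_lit 11) (nat_lit 5) (nat_lit 13) (nat_lit 5) (nat_lit 14) (nat_lit 5) (nat_lit 400) (nat_lit 306) (nat_lit 158)))))) (XT.nd (nat_lit 564) (nat_lit 252) (nat_lit 0) (XT.nd (nat_lit 282) (nat_lit 84) (nat_lit 0) (XT.nd (nat_lit 94) (nat_lit 0) (nat_lit 0) (XT.lf (nat_lit 0) (nat_lit 23416406477) (nat_lit 168) (nat_lit 2170499073)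 (nat_lit 252) (nat_lit 29883378982) (nat_lit 11) (nat_lit 5) (nat_lit 13) (nat_lit 5) (nat_lit 14) (nat_lit 5) (nat_lit 401) (nat_lit 306) (nat_lit 157)) (XT.nd (nat_lit 94) (nat_lit 0) (nat_lit 0) (XT.lf (nat_lit 0) (nat_lit 30167383849) (nat_lit 252) (nat_lit 22712656021) (nat_lit 84) (nat_lit 4101236500) (nat_lit 11) (nat_lit 5) (nat_lit 14) (nat_lit 5) (nat_lit 12) (nat_lit 4) (nat_lit 402) (nat_lit 306) (nat_lit 156)) (XT.lf (nat_lit 0) (nat_lit 34908135516) (nat_lit 252) (nat_lit 13110369530) (nat_lit 84) (nat_lit 10520044696) (nat_lit 11) (nat_lit 5) (nat_lit 14) (nat_lit 5) (nat_lit 12) (nat_lit 4) (nat_lit 403) (nat_lit 306) (nat_lit 155)))) (XT.nd (nat_lit 94) (nat_lit 84) (nat_lit 0) (XT.lf (nat_lit 0) (nat_lit 39792047809) (nat_lit 252) (nat_lit 3216536626) (nat_lit 84) (nat_lit 17135639234) (nat_lit 11) (nat_lit 5) (nat_lit 14) (nat_lit 5) (nat_lit 12) (nat_lit 4) (nat_lit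 404) (nat_lit 306) (nat_lit 154)) (XT.nd (nat_lit 94) (nat_lit 0) (nat_lit 0) (XT.lf (nat_lit 0) (nat_lit 7121548103) (nat_lit 84) (nat_lit 37772771581) (nat_lit 168) (nat_lit 16903285077) (nat_lit 10) (nat_lit 5) (nat_lit 11) (nat_lit 5) (nat_lit 12) (nat_lit 4) (nat_lit 405) (nat_lit 306) (nat_lit 153)) (XT.lf (nat_lit 0) (nat_lit 17842422169) (nat_lit 84) (nat_lit 32342278097) (nat_lit 168) (nat_lit 13316619087) (nat_lit 10) (nat_lit 5) (nat_lit 11) (nat_lit 5) (nat_lit 12) (nat_lit 4) (nat_lit 406) (nat_lit 306) (nat_lit 152))))) (XT.nd (nat_lit 282) (nat_lit 252) (nat_lit 0) (XT.nd (nat_lit 94) (nat_lit 0) (nat_lit 0) (XT.lf (nat_lit 0) (nat_lit 28889939957) (nat_lit 84) (nat_lit 26745616239) (nat_lit 168) (nat_lit 9622408788) (nat_lit 10) (nat_lit 5) (nat_lit 11) (nat_lit 5) (nat_lit 12) (nat_lit 4) (nat_lit 407) (nat_lit 306) (nat_lit 151)) (XT.nd (nat_lit 94) (nat_lit 0) (nat_lit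 0) (XT.lf (nat_lit 0) (nat_lit 40274398912) (nat_lit 84) (nat_lit 20977569331) (nat_lit 168) (nat_lit 5817210788) (nat_lit 10) (nat_lit 5) (nat_lit 11) (nat_lit 5) (nat_lit 12) (nat_lit 4) (nat_lit 408) (nat_lit 306) (nat_lit 150)) (XT.lf (nat_lit 0) (nat_lit 52006410542) (nat_lit 84) (nat_lit 15032760951) (nat_lit 168) (nat_lit 1897478246) (nat_lit 10) (nat_lit 5) (nat_lit 11) (nat_lit 5) (nat_lit 12) (nat_lit 4) (nat_lit 409) (nat_lit 306) (nat_lit 149)))) (XT.nd (nat_lit 94) (nat_lit 168) (nat_lit 0) (XT.lf (nat_lit 0) (nat_lit 2097317296) (nat_lit 168) (nat_lit 6786440927) (nat_lit 84) (nat_lit 61977701323) (nat_lit 9) (nat_lit 5) (nat_lit 11) (nat_lit 5) (nat_lit 10) (nat_lit 5) (nat_lit 410) (nat_lit 306) (nat_lit 148)) (XT.nd (nat_lit 94) (nat_lit 0) (nat_lit 0) (XT.lf (nat_lit 0) (nat_lit 3722285785) (nat_lit 168) (nat_lit 2488017482) (nat_lit 252) (nat_lit 66633992448) (nat_lit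 7) (nat_lit 5) (nat_lit 9) (nat_lit 5) (nat_lit 10) (nat_lit 5) (nat_lit 411) (nat_lit 306) (nat_lit 147)) (XT.lf (nat_lit 0) (nat_lit 10559951422) (nat_lit 252) (nat_lit 60232357439) (nat_lit 84) (nat_lit 4092912462) (nat_lit 7) (nat_lit 5) (nat_lit 10) (nat_lit 5) (nat_lit 8) (nat_lit 4) (nat_lit 412) (nat_lit 306) (nat_lit 146))))))) (XT.nd (nat_lit 45214) (nat_lit 0) (nat_lit 8484) (XT.nd (nat_lit 44650) (nat_lit 0) (nat_lit 11256) (XT.nd (nat_lit 44368) (nat_lit 0) (nat_lit 12096) (XT.nd (nat_lit 94) (nat_lit 0) (nat_lit 0) (XT.lf (nat_lit 0) (nat_lit 15066846112) (nat_lit 252) (nat_lit 51097566604) (nat_lit 84) (nat_lit 10824313583) (nat_lit 7) (nat_lit 5) (nat_lit 10) (nat_lit 5) (nat_lit 8) (nat_lit 4) (nat_lit 413) (nat_lit 306) (nat_lit 145)) (XT.nd (nat_lit 44180) (nat_lit 0) (nat_lit 12096) (XT.lf (nat_lit 0) (nat_lit 19710506792) (nat_lit 252) (nat_lit 41684441404) (nat_lit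 84) (nat_lit 17762588258) (nat_lit 7) (nat_lit 5) (nat_lit 10) (nat_lit 5) (nat_lit 8) (nat_lit 4) (nat_lit 414) (nat_lit 306) (nat_lit 144)) (XT.lf (nat_lit 0) (nat_lit 2278922478) (nat_lit 924) (nat_lit 900684325) (nat_lit 924) (nat_lit 900684325) (nat_lit 151) (nat_lit 3) (nat_lit 162) (nat_lit 3) (nat_lit 162) (nat_lit 5) (nat_lit 307) (nat_lit 307) (nat_lit 250)))) (XT.nd (nat_lit 94) (nat_lit 0) (nat_lit 0) (XT.lf (nat_lit 84) (nat_lit 1443032035) (nat_lit 0) (nat_lit 4178492336) (nat_lit 924) (nat_lit 2630488932) (nat_lit 152) (nat_lit 5) (nat_lit 151) (nat_lit 3) (nat_lit 162) (nat_lit 5) (nat_lit 308) (nat_lit 307) (nat_lit 249)) (XT.nd (nat_lit 94) (nat_lit 0) (nat_lit 84) (XT.lf (nat_lit 84) (nat_lit 4805361028) (nat_lit 0) (nat_lit 1891974752) (nat_lit 924) (nat_lit 1649761254) (nat_lit 152) (nat_lit 5) (nat_lit 151) (nat_lit 3) (nat_lit 162) (nat_lit 5) (nat_lit 309) (nat_lit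 307) (nat_lit 248)) (XT.lf (nat_lit 0) (nat_lit 7772842758) (nat_lit 840) (nat_lit 199572945) (nat_lit 924) (nat_lit 473922994) (nat_lit 152) (nat_lit 5) (nat_lit 162) (nat_lit 5) (nat_lit 163) (nat_lit 5) (nat_lit 310) (nat_lit 307) (nat_lit 247))))) (XT.nd (nat_lit 282) (nat_lit 0) (nat_lit 84) (XT.nd (nat_lit 94) (nat_lit 0) (nat_lit 0) (XT.lf (nat_lit 0) (nat_lit 341000042) (nat_lit 924) (nat_lit 5280148188) (nat_lit 1008) (nat_lit 2927108389) (nat_lit 141) (nat_lit 5) (nat_lit 152) (nat_lit 5) (nat_lit 153) (nat_lit 5) (nat_lit 311) (nat_lit 307) (nat_lit 246)) (XT.nd (nat_lit 94) (nat_lit 0) (nat_lit 0) (XT.lf (nat_lit 0) (nat_lit 1338323482) (nat_lit 924) (nat_lit 1834450214) (nat_lit 1008) (nat_lit 5481572774) (nat_lit 141) (nat_lit 5) (nat_lit 152) (nat_lit 5) (nat_lit 153) (nat_lit 5) (nat_lit 312) (nat_lit 307) (nat_lit 245)) (XT.lf (nat_lit 84) (nat_lit 1731821944) (nat_lit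 0) (nat_lit 616290212) (nat_lit 1008) (nat_lit 6416332795) (nat_lit 142) (nat_lit 5) (nat_lit 141) (nat_lit 5) (nat_lit 153) (nat_lit 5) (nat_lit 313) (nat_lit 307) (nat_lit 244)))) (XT.nd (nat_lit 94) (nat_lit 0) (nat_lit 0) (XT.lf (nat_lit 0) (nat_lit 3393950671) (nat_lit 924) (nat_lit 3472333353) (nat_lit 1008) (nat_lit 2011668720) (nat_lit 142) (nat_lit 5) (nat_lit 153) (nat_lit 5) (nat_lit 154) (nat_lit 5) (nat_lit 314) (nat_lit 307) (nat_lit 243)) (XT.nd (nat_lit 94) (nat_lit 0) (nat_lit 0) (XT.lf (nat_lit 84) (nat_lit 173916611) (nat_lit 0) (nat_lit 4272732826) (nat_lit 1008) (nat_lit 4549261310) (nat_lit 143) (nat_lit 5) (nat_lit 142) (nat_lit 5) (nat_lit 154) (nat_lit 5) (nat_lit 315) (nat_lit 307) (nat_lit 242)) (XT.lf (nat_lit 84) (nat_lit 3985421242) (nat_lit 0) (nat_lit 1550013202) (nat_lit 1008) (nat_lit 3582118875) (nat_lit 143) (nat_lit 5) (nat_lit 142) (nat_lit 5) (nat_lit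 154) (nat_lit 5) (nat_lit 316) (nat_lit 307) (nat_lit 241)))))) (XT.nd (nat_lit 564) (nat_lit 2016) (nat_lit 0) (XT.nd (nat_lit 282) (nat_lit 924) (nat_lit 0) (XT.nd (nat_lit 94) (nat_lit 0) (nat_lit 0) (XT.lf (nat_lit 0) (nat_lit 6638746689) (nat_lit 924) (nat_lit 1362329050) (nat_lit 1008) (nat_lit 1242617895) (nat_lit 143) (nat_lit 5) (nat_lit 154) (nat_lit 5) (nat_lit 155) (nat_lit 5) (nat_lit 317) (nat_lit 307) (nat_lit 240)) (XT.nd (nat_lit 94) (nat_lit 0) (nat_lit 0) (XT.lf (nat_lit 84) (nat_lit 2538312879) (nat_lit 0) (nat_lit 5248239334) (nat_lit 1008) (nat_lit 1586999989) (nat_lit 144) (nat_lit 5) (nat_lit 143) (nat_lit 5) (nat_lit 155) (nat_lit 5) (nat_lit 318) (nat_lit 307) (nat_lit 239)) (XT.lf (nat_lit 84) (nat_lit 6567657798) (nat_lit 0) (nat_lit 2386474146) (nat_lit 1008) (nat_lit 553917579) (nat_lit 144) (nat_lit 5) (nat_lit 143) (nat_lit 5) (nat_lit 155) (nat_lit 5)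 (nat_lit 319) (nat_lit 307) (nat_lit 238)))) (XT.nd (nat_lit 94) (nat_lit 0) (nat_lit 0) (XT.lf (nat_lit 0) (nat_lit 487809267) (nat_lit 1008) (nat_lit 8582592740) (nat_lit 1092) (nat_lit 576678388) (nat_lit 132) (nat_lit 5) (nat_lit 144) (nat_lit 5) (nat_lit 145) (nat_lit 5) (nat_lit 320) (nat_lit 307) (nat_lit 237)) (XT.nd (nat_lit 94) (nat_lit 0) (nat_lit 0) (XT.lf (nat_lit 0) (nat_lit 1576955767) (nat_lit 1008) (nat_lit 4586061054) (nat_lit 1092) (nat_lit 3626515502) (nat_lit 132) (nat_lit 5) (nat_lit 144) (nat_lit 5) (nat_lit 145) (nat_lit 5) (nat_lit 321) (nat_lit 307) (nat_lit 236)) (XT.lf (nat_lit 0) (nat_lit 2671949915) (nat_lit 1008) (nat_lit 487030807) (nat_lit 1092) (nat_lit 6778393876) (nat_lit 132) (nat_lit 5) (nat_lit 144) (nat_lit 5) (nat_lit 145) (nat_lit 5) (nat_lit 322) (nat_lit 307) (nat_lit 235))))) (XT.nd (nat_lit 282) (nat_lit 1092) (nat_lit 0) (XT.nd (nat_lit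 94) (nat_lit 924) (nat_lit 0) (XT.lf (nat_lit 84) (nat_lit 3794774984) (nat_lit 0) (nat_lit 16682014) (nat_lit 1092) (nat_lit 6278121045) (nat_lit 133) (nat_lit 5) (nat_lit 132) (nat_lit 5) (nat_lit 145) (nat_lit 5) (nat_lit 323) (nat_lit 307) (nat_lit 234)) (XT.nd (nat_lit 94) (nat_lit 1008) (nat_lit 0) (XT.lf (nat_lit 0) (nat_lit 4996989864) (nat_lit 1008) (nat_lit 2080247774) (nat_lit 84) (nat_lit 3169032916) (nat_lit 133) (nat_lit 5) (nat_lit 145) (nat_lit 5) (nat_lit 134) (nat_lit 5) (nat_lit 324) (nat_lit 307) (nat_lit 233)) (XT.lf (nat_lit 0) (nat_lit 2290052395) (nat_lit 1008) (nat_lit 3926496718) (nat_lit 1092) (nat_lit 4191455308) (nat_lit 121) (nat_lit 5) (nat_lit 133) (nat_lit 5) (nat_lit 134) (nat_lit 5) (nat_lit 325) (nat_lit 307) (nat_lit 232)))) (XT.nd (nat_lit 94) (nat_lit 1092) (nat_lit 0) (XT.lf (nat_lit 0) (nat_lit 6819268208) (nat_lit 1008) (nat_lit 651311808) (nat_lit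 1092) (nat_lit 3104371820) (nat_lit 121) (nat_lit 5) (nat_lit 133) (nat_lit 5) (nat_lit 134) (nat_lit 5) (nat_lit 326) (nat_lit 307) (nat_lit 231)) (XT.nd (nat_lit 94) (nat_lit 0) (nat_lit 0) (XT.lf (nat_lit 0) (nat_lit 708114312) (nat_lit 1092) (nat_lit 8065179617) (nat_lit 1176) (nat_lit 1973570162) (nat_lit 108) (nat_lit 5) (nat_lit 121) (nat_lit 5) (nat_lit 122) (nat_lit 5) (nat_lit 327) (nat_lit 307) (nat_lit 230)) (XT.lf (nat_lit 0) (nat_lit 5362390701) (nat_lit 1092) (nat_lit 4776067678) (nat_lit 1176) (nat_lit 785053900) (nat_lit 108) (nat_lit 5) (nat_lit 121) (nat_lit 5) (nat_lit 122) (nat_lit 5) (nat_lit 328) (nat_lit 307) (nat_lit 229))))))))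
noncomputable def xc133 : XT := (XT.nd (nat_lit 2256) (nat_lit 2352) (nat_lit 0) (XT.nd (nat_lit 1128) (nat_lit 2016) (nat_lit 0) (XT.nd (nat_lit 564) (nat_lit 1008) (nat_lit 0) (XT.nd (nat_lit 282) (nat_lit 1092) (nat_lit 0) (XT.nd (nat_lit 94) (nat_lit 504) (nat_lit 0) (XT.lf (nat_lit 0) (nat_lit 408097875) (nat_lit 1176) (nat_lit 969716454) (nat_lit 84) (nat_lit 9728495621) (nat_lit 107) (nat_lit 5) (nat_lit 121) (nat_lit 5) (nat_lit 108) (nat_lit 5) (nat_lit 329) (nat_lit 307) (nat_lit 228)) (XT.nd (nat_lit 94) (nat_lit 0) (nat_lit 0) (XT.lf (nat_lit 0) (nat_lit 1658700265) (nat_lit 588) (nat_lit 7502948740) (nat_lit 84) (nat_lit 2131819327) (nat_lit 101) (nat_lit 5) (nat_lit 108) (nat_lit 5) (nat_lit 102) (nat_lit 5) (nat_lit 330) (nat_lit 307) (nat_lit 227)) (XT.lf (nat_lit 0) (nat_lit 2950259680) (nat_lit 588) (nat_lit 2802057193) (nat_lit 84) (nat_lit 5734124196) (nat_lit 101)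 (nat_lit 5) (nat_lit 108) (nat_lit 5) (nat_lit 102) (nat_lit 5) (nat_lit 331) (nat_lit 307) (nat_lit 226)))) (XT.nd (nat_lit 94) (nat_lit 504) (nat_lit 0) (XT.lf (nat_lit 0) (nat_lit 2066183755) (nat_lit 588) (nat_lit 2214707026) (nat_lit 672) (nat_lit 7404613014) (nat_lit 94) (nat_lit 5) (nat_lit 101) (nat_lit 5) (nat_lit 102) (nat_lit 5) (nat_lit 332) (nat_lit 307) (nat_lit 225)) (XT.nd (nat_lit 94) (nat_lit 504) (nat_lit 0) (XT.lf (nat_lit 0) (nat_lit 5675527013) (nat_lit 672) (nat_lit 4780142529) (nat_lit 84) (nat_lit 1434438027) (nat_lit 94) (nat_lit 5) (nat_lit 102) (nat_lit 5) (nat_lit 95) (nat_lit 5) (nat_lit 333) (nat_lit 307) (nat_lit 224)) (XT.lf (nat_lit 0) (nat_lit 169895295) (nat_lit 504) (nat_lit 6947467243) (nat_lit 588) (nat_lit 4983641847) (nat_lit 88) (nat_lit 5) (nat_lit 94) (nat_lit 5) (nat_lit 95) (nat_lit 5) (nat_lit 334) (nat_lit 307) (nat_lit 223))))) (XT.nd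 (nat_lit 282) (nat_lit 504) (nat_lit 0) (XT.nd (nat_lit 94) (nat_lit 504) (nat_lit 0) (XT.lf (nat_lit 0) (nat_lit 5354996580) (nat_lit 504) (nat_lit 3278839064) (nat_lit 588) (nat_lit 3683746252) (nat_lit 88) (nat_lit 5) (nat_lit 94) (nat_lit 5) (nat_lit 95) (nat_lit 5) (nat_lit 335) (nat_lit 307) (nat_lit 222)) (XT.nd (nat_lit 94) (nat_lit 504) (nat_lit 0) (XT.lf (nat_lit 0) (nat_lit 10182962350) (nat_lit 588) (nat_lit 1864834521) (nat_lit 84) (nat_lit 493590424) (nat_lit 88) (nat_lit 5) (nat_lit 95) (nat_lit 5) (nat_lit 89) (nat_lit 5) (nat_lit 336) (nat_lit 307) (nat_lit 221)) (XT.lf (nat_lit 0) (nat_lit 3406845220) (nat_lit 504) (nat_lit 8421827762) (nat_lit 588) (nat_lit 942019134) (nat_lit 82) (nat_lit 5) (nat_lit 88) (nat_lit 5) (nat_lit 89) (nat_lit 5) (nat_lit 337) (nat_lit 307) (nat_lit 220)))) (XT.nd (nat_lit 94) (nat_lit 420) (nat_lit 0) (XT.lf (nat_lit 0) (nat_lit 508870867)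 (nat_lit 588) (nat_lit 4149820749) (nat_lit 84) (nat_lit 8348285705) (nat_lit 81) (nat_lit 5) (nat_lit 88) (nat_lit 5) (nat_lit 82) (nat_lit 5) (nat_lit 338) (nat_lit 307) (nat_lit 219)) (XT.nd (nat_lit 94) (nat_lit 0) (nat_lit 0) (XT.lf (nat_lit 0) (nat_lit 1221951559) (nat_lit 420) (nat_lit 757255477) (nat_lit 504) (nat_lit 11271327521) (nat_lit 76) (nat_lit 5) (nat_lit 81) (nat_lit 5) (nat_lit 82) (nat_lit 5) (nat_lit 339) (nat_lit 307) (nat_lit 218)) (XT.lf (nat_lit 0) (nat_lit 3553536307) (nat_lit 504) (nat_lit 6704191664) (nat_lit 84) (nat_lit 3242162464) (nat_lit 76) (nat_lit 5) (nat_lit 82) (nat_lit 5) (nat_lit 77) (nat_lit 5) (nat_lit 340) (nat_lit 307) (nat_lit 217)))))) (XT.nd (nat_lit 564) (nat_lit 1176) (nat_lit 0) (XT.nd (nat_lit 282) (nat_lit 420) (nat_lit 0) (XT.nd (nat_lit 94) (nat_lit 420) (nat_lit 0) (XT.lf (nat_lit 0) (nat_lit 5167211621) (nat_lit 504) (nat_lit 1241191125)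 (nat_lit 84) (nat_lit 7348924185) (nat_lit 76) (nat_lit 5) (nat_lit 82) (nat_lit 5) (nat_lit 77) (nat_lit 5) (nat_lit 341) (nat_lit 307) (nat_lit 216)) (XT.nd (nat_lit 94) (nat_lit 0) (nat_lit 0) (XT.lf (nat_lit 0) (nat_lit 4462941092) (nat_lit 420) (nat_lit 2395556861) (nat_lit 504) (nat_lit 7163446463) (nat_lit 71) (nat_lit 5) (nat_lit 76) (nat_lit 5) (nat_lit 77) (nat_lit 5) (nat_lit 342) (nat_lit 307) (nat_lit 215)) (XT.lf (nat_lit 0) (nat_lit 8616201837) (nat_lit 504) (nat_lit 3960061082) (nat_lit 84) (nat_lit 1718122488) (nat_lit 71) (nat_lit 5) (nat_lit 77) (nat_lit 5) (nat_lit 72) (nat_lit 5) (nat_lit 343) (nat_lit 307) (nat_lit 214)))) (XT.nd (nat_lit 94) (nat_lit 0) (nat_lit 0) (XT.lf (nat_lit 0) (nat_lit 1806397223) (nat_lit 420) (nat_lit 8648532294) (nat_lit 504) (nat_lit 4119572327) (nat_lit 66) (nat_lit 5) (nat_lit 71) (nat_lit 5) (nat_lit 72) (nat_lit 5) (nat_lit 344)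 (nat_lit 307) (nat_lit 213)) (XT.nd (nat_lit 94) (nat_lit 0) (nat_lit 0) (XT.lf (nat_lit 0) (nat_lit 7817803516) (nat_lit 420) (nat_lit 4558604970) (nat_lit 504) (nat_lit 2486145919) (nat_lit 66) (nat_lit 5) (nat_lit 71) (nat_lit 5) (nat_lit 72) (nat_lit 5) (nat_lit 345) (nat_lit 307) (nat_lit 212)) (XT.lf (nat_lit 0) (nat_lit 13998334080) (nat_lit 420) (nat_lit 344003620) (nat_lit 504) (nat_lit 817716738) (nat_lit 66) (nat_lit 5) (nat_lit 71) (nat_lit 5) (nat_lit 72) (nat_lit 5) (nat_lit 346) (nat_lit 307) (nat_lit 211))))) (XT.nd (nat_lit 282) (nat_lit 336) (nat_lit 0) (XT.nd (nat_lit 94) (nat_lit 336) (nat_lit 0) (XT.lf (nat_lit 0) (nat_lit 959043507) (nat_lit 504) (nat_lit 10527779577) (nat_lit 84) (nat_lit 3977404163) (nat_lit 60) (nat_lit 5) (nat_lit 66) (nat_lit 5) (nat_lit 61) (nat_lit 5) (nat_lit 347) (nat_lit 307) (nat_lit 210)) (XT.nd (nat_lit 94) (nat_lit 336) (nat_lit 0)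 (XT.lf (nat_lit 0) (nat_lit 2775064152) (nat_lit 504) (nat_lit 4558536755) (nat_lit 84) (nat_lit 8443978021) (nat_lit 60) (nat_lit 5) (nat_lit 66) (nat_lit 5) (nat_lit 61) (nat_lit 5) (nat_lit 348) (nat_lit 307) (nat_lit 209)) (XT.lf (nat_lit 0) (nat_lit 1611376007) (nat_lit 336) (nat_lit 3037827905) (nat_lit 420) (nat_lit 11451427700) (nat_lit 56) (nat_lit 5) (nat_lit 60) (nat_lit 5) (nat_lit 61) (nat_lit 5) (nat_lit 349) (nat_lit 307) (nat_lit 208)))) (XT.nd (nat_lit 94) (nat_lit 336) (nat_lit 0) (XT.lf (nat_lit 0) (nat_lit 6629380857) (nat_lit 420) (nat_lit 8394433404) (nat_lit 84) (nat_lit 1408440848) (nat_lit 56) (nat_lit 5) (nat_lit 61) (nat_lit 5) (nat_lit 57) (nat_lit 5) (nat_lit 350) (nat_lit 307) (nat_lit 207)) (XT.nd (nat_lit 94) (nat_lit 336) (nat_lit 0) (XT.lf (nat_lit 0) (nat_lit 8688502359) (nat_lit 420) (nat_lit 2158344347) (nat_lit 84) (nat_lit 5926808912) (nat_lit 56)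 (nat_lit 5) (nat_lit 61) (nat_lit 5) (nat_lit 57) (nat_lit 5) (nat_lit 351) (nat_lit 307) (nat_lit 206)) (XT.lf (nat_lit 0) (nat_lit 4342450585) (nat_lit 336) (nat_lit 6498979168) (nat_lit 420) (nat_lit 6283320404) (nat_lit 52) (nat_lit 5) (nat_lit 56) (nat_lit 5) (nat_lit 57) (nat_lit 5) (nat_lit 352) (nat_lit 307) (nat_lit 205))))))) (XT.nd (nat_lit 1128) (nat_lit 1092) (nat_lit 0) (XT.nd (nat_lit 564) (nat_lit 504) (nat_lit 0) (XT.nd (nat_lit 282) (nat_lit 420) (nat_lit 0) (XT.nd (nat_lit 94) (nat_lit 336) (nat_lit 0) (XT.lf (nat_lit 0) (nat_lit 11074585373) (nat_lit 336) (nat_lit 1996172583) (nat_lit 420) (nat_lit 4415709792) (nat_lit 52) (nat_lit 5) (nat_lit 56) (nat_lit 5) (nat_lit 57) (nat_lit 5) (nat_lit 353) (nat_lit 307) (nat_lit 204)) (XT.nd (nat_lit 94) (nat_lit 0) (nat_lit 0) (XT.lf (nat_lit 0) (nat_lit 116253100) (nat_lit 336) (nat_lit 15267835064) (nat_lit 420) (nat_lit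 2474886167) (nat_lit 48) (nat_lit 5) (nat_lit 52) (nat_lit 5) (nat_lit 53) (nat_lit 5) (nat_lit 354) (nat_lit 307) (nat_lit 203)) (XT.lf (nat_lit 0) (nat_lit 6946157841) (nat_lit 336) (nat_lit 10897819358) (nat_lit 420) (nat_lit 396767507) (nat_lit 48) (nat_lit 5) (nat_lit 52) (nat_lit 5) (nat_lit 53) (nat_lit 5) (nat_lit 355) (nat_lit 307) (nat_lit 202)))) (XT.nd (nat_lit 94) (nat_lit 336) (nat_lit 0) (XT.lf (nat_lit 0) (nat_lit 1698521764) (nat_lit 420) (nat_lit 4679384699) (nat_lit 84) (nat_lit 12256315186) (nat_lit 47) (nat_lit 5) (nat_lit 52) (nat_lit 5) (nat_lit 48) (nat_lit 5) (nat_lit 356) (nat_lit 307) (nat_lit 201)) (XT.nd (nat_lit 94) (nat_lit 0) (nat_lit 0) (XT.lf (nat_lit 0) (nat_lit 2165419258) (nat_lit 336) (nat_lit 1694870692) (nat_lit 420) (nat_lit 15179210985) (nat_lit 43) (nat_lit 5) (nat_lit 47) (nat_lit 5) (nat_lit 48) (nat_lit 5) (nat_lit 357) (nat_lit 307) (nat_lit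 200)) (XT.lf (nat_lit 0) (nat_lit 6157955343) (nat_lit 420) (nat_lit 10181042778) (nat_lit 84) (nat_lit 3116242527) (nat_lit 43) (nat_lit 5) (nat_lit 48) (nat_lit 5) (nat_lit 44) (nat_lit 5) (nat_lit 358) (nat_lit 307) (nat_lit 199))))) (XT.nd (nat_lit 282) (nat_lit 252) (nat_lit 0) (XT.nd (nat_lit 94) (nat_lit 252) (nat_lit 0) (XT.lf (nat_lit 0) (nat_lit 8532986542) (nat_lit 420) (nat_lit 3312638901) (nat_lit 84) (nat_lit 8038083728) (nat_lit 43) (nat_lit 5) (nat_lit 48) (nat_lit 5) (nat_lit 44) (nat_lit 5) (nat_lit 359) (nat_lit 307) (nat_lit 198)) (XT.nd (nat_lit 94) (nat_lit 0) (nat_lit 0) (XT.lf (nat_lit 0) (nat_lit 3831542394) (nat_lit 252) (nat_lit 7177250977) (nat_lit 336) (nat_lit 9315855431) (nat_lit 40) (nat_lit 5) (nat_lit 43) (nat_lit 5) (nat_lit 44) (nat_lit 5) (nat_lit 360) (nat_lit 307) (nat_lit 197)) (XT.lf (nat_lit 0) (nat_lit 11253224553) (nat_lit 252) (nat_lit 2332028817)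 (nat_lit 336) (nat_lit 7193292507) (nat_lit 40) (nat_lit 5) (nat_lit 43) (nat_lit 5) (nat_lit 44) (nat_lit 5) (nat_lit 361) (nat_lit 307) (nat_lit 196)))) (XT.nd (nat_lit 94) (nat_lit 252) (nat_lit 0) (XT.lf (nat_lit 0) (nat_lit 16257617910) (nat_lit 336) (nat_lit 2382039763) (nat_lit 84) (nat_lit 2606387461) (nat_lit 40) (nat_lit 5) (nat_lit 44) (nat_lit 5) (nat_lit 41) (nat_lit 5) (nat_lit 362) (nat_lit 307) (nat_lit 195)) (XT.nd (nat_lit 94) (nat_lit 0) (nat_lit 0) (XT.lf (nat_lit 0) (nat_lit 5046855057) (nat_lit 252) (nat_lit 14029812669) (nat_lit 336) (nat_lit 2649417617) (nat_lit 37) (nat_lit 5) (nat_lit 40) (nat_lit 5) (nat_lit 41) (nat_lit 5) (nat_lit 363) (nat_lit 307) (nat_lit 194)) (XT.lf (nat_lit 0) (nat_lit 12743021724) (nat_lit 252) (nat_lit 9255044139) (nat_lit 336) (nat_lit 222503996) (nat_lit 37) (nat_lit 5) (nat_lit 40) (nat_lit 5) (nat_lit 41) (nat_lit 5) (nat_lit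 364) (nat_lit 307) (nat_lit 193)))))) (XT.nd (nat_lit 564) (nat_lit 504) (nat_lit 0) (XT.nd (nat_lit 282) (nat_lit 252) (nat_lit 0) (XT.nd (nat_lit 94) (nat_lit 252) (nat_lit 0) (XT.lf (nat_lit 0) (nat_lit 2223982526) (nat_lit 336) (nat_lit 2088568765) (nat_lit 84) (nat_lit 18417457903) (nat_lit 36) (nat_lit 5) (nat_lit 40) (nat_lit 5) (nat_lit 37) (nat_lit 5) (nat_lit 365) (nat_lit 307) (nat_lit 192)) (XT.nd (nat_lit 94) (nat_lit 0) (nat_lit 0) (XT.lf (nat_lit 0) (nat_lit 4796404563) (nat_lit 336) (nat_lit 17634447367) (nat_lit 84) (nat_lit 822646875) (nat_lit 33) (nat_lit 5) (nat_lit 37) (nat_lit 5) (nat_lit 34) (nat_lit 5) (nat_lit 366) (nat_lit 307) (nat_lit 191)) (XT.lf (nat_lit 0) (nat_lit 7505384985) (nat_lit 336) (nat_lit 10240071475) (nat_lit 84) (nat_lit 6046022594) (nat_lit 33) (nat_lit 5) (nat_lit 37) (nat_lit 5) (nat_lit 34) (nat_lit 5) (nat_lit 367) (nat_lit 307) (nat_lit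 190)))) (XT.nd (nat_lit 94) (nat_lit 252) (nat_lit 0) (XT.lf (nat_lit 0) (nat_lit 10289306659) (nat_lit 336) (nat_lit 2629161397) (nat_lit 84) (nat_lit 11427971750) (nat_lit 33) (nat_lit 5) (nat_lit 37) (nat_lit 5) (nat_lit 34) (nat_lit 5) (nat_lit 368) (nat_lit 307) (nat_lit 189)) (XT.nd (nat_lit 94) (nat_lit 0) (nat_lit 0) (XT.lf (nat_lit 0) (nat_lit 5312410260) (nat_lit 252) (nat_lit 7891053997) (nat_lit 336) (nat_lit 11713800390) (nat_lit 30) (nat_lit 5) (nat_lit 33) (nat_lit 5) (nat_lit 34) (nat_lit 5) (nat_lit 369) (nat_lit 307) (nat_lit 188)) (XT.lf (nat_lit 0) (nat_lit 13543722245) (nat_lit 252) (nat_lit 2683058812) (nat_lit 336) (nat_lit 9278442174) (nat_lit 30) (nat_lit 5) (nat_lit 33) (nat_lit 5) (nat_lit 34) (nat_lit 5) (nat_lit 370) (nat_lit 307) (nat_lit 187))))) (XT.nd (nat_lit 282) (nat_lit 336) (nat_lit 0) (XT.nd (nat_lit 94) (nat_lit 168) (nat_lit 0) (XT.lf (nat_lit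 0) (nat_lit 19362072198) (nat_lit 336) (nat_lit 4119917685) (nat_lit 84) (nat_lit 2628873804) (nat_lit 30) (nat_lit 5) (nat_lit 34) (nat_lit 5) (nat_lit 31) (nat_lit 5) (nat_lit 371) (nat_lit 307) (nat_lit 186)) (XT.nd (nat_lit 94) (nat_lit 0) (nat_lit 0) (XT.lf (nat_lit 0) (nat_lit 4006329907) (nat_lit 168) (nat_lit 18647266881) (nat_lit 252) (nat_lit 4079872309) (nat_lit 28) (nat_lit 5) (nat_lit 30) (nat_lit 5) (nat_lit 31) (nat_lit 5) (nat_lit 372) (nat_lit 307) (nat_lit 185)) (XT.lf (nat_lit 0) (nat_lit 12460247709) (nat_lit 168) (nat_lit 13621899179) (nat_lit 252) (nat_lit 1292163463) (nat_lit 28) (nat_lit 5) (nat_lit 30) (nat_lit 5) (nat_lit 31) (nat_lit 5) (nat_lit 373) (nat_lit 307) (nat_lit 184)))) (XT.nd (nat_lit 94) (nat_lit 252) (nat_lit 0) (XT.lf (nat_lit 0) (nat_lit 1542218812) (nat_lit 252) (nat_lit 6885889686) (nat_lit 84) (nat_lit 19606685286) (nat_lit 27) (nat_lit 5)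 (nat_lit 30) (nat_lit 5) (nat_lit 28) (nat_lit 5) (nat_lit 374) (nat_lit 307) (nat_lit 183)) (XT.nd (nat_lit 94) (nat_lit 0) (nat_lit 0) (XT.lf (nat_lit 0) (nat_lit 1394974020) (nat_lit 252) (nat_lit 3048854179) (nat_lit 336) (nat_lit 24271340022) (nat_lit 24) (nat_lit 5) (nat_lit 27) (nat_lit 5) (nat_lit 28) (nat_lit 5) (nat_lit 375) (nat_lit 307) (nat_lit 182)) (XT.lf (nat_lit 0) (nat_lit 7525220165) (nat_lit 336) (nat_lit 19372568191) (nat_lit 84) (nat_lit 2516078542) (nat_lit 24) (nat_lit 5) (nat_lit 28) (nat_lit 5) (nat_lit 25) (nat_lit 5) (nat_lit 376) (nat_lit 307) (nat_lit 181))))))))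
noncomputable def xc134 : XT := (XT.nd (nat_lit 2256) (nat_lit 336) (nat_lit 0) (XT.nd (nat_lit 1128) (nat_lit 504) (nat_lit 0) (XT.nd (nat_lit 564) (nat_lit 420) (nat_lit 0) (XT.nd (nat_lit 282) (nat_lit 0) (nat_lit 0) (XT.nd (nat_lit 94) (nat_lit 168) (nat_lit 0) (XT.lf (nat_lit 0) (nat_lit 10725995779) (nat_lit 336) (nat_lit 11220588892) (nat_lit 84) (nat_lit 8186917808) (nat_lit 24) (nat_lit 5) (nat_lit 28) (nat_lit 5) (nat_lit 25) (nat_lit 5) (nat_lit 377) (nat_lit 307) (nat_lit 180)) (XT.nd (nat_lit 94) (nat_lit 168) (nat_lit 0) (XT.lf (nat_lit 0) (nat_lit 14018893489) (nat_lit 336) (nat_lit 2826412794) (nat_lit 84) (nat_lit 14030377054) (nat_lit 24) (nat_lit 5) (nat_lit 28) (nat_lit 5) (nat_lit 25) (nat_lit 5) (nat_lit 378) (nat_lit 307) (nat_lit 179)) (XT.lf (nat_lit 0) (nat_lit 5937409930) (nat_lit 168) (nat_lit 11528472531) (nat_lit 252) (nat_lit 14173392904) (nat_lit 22) (nat_lit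 5) (nat_lit 24) (nat_lit 5) (nat_lit 25) (nat_lit 5) (nat_lit 379) (nat_lit 307) (nat_lit 178)))) (XT.nd (nat_lit 94) (nat_lit 0) (nat_lit 0) (XT.lf (nat_lit 0) (nat_lit 15022734467) (nat_lit 168) (nat_lit 6019714146) (nat_lit 252) (nat_lit 11383401238) (nat_lit 22) (nat_lit 5) (nat_lit 24) (nat_lit 5) (nat_lit 25) (nat_lit 5) (nat_lit 380) (nat_lit 307) (nat_lit 177)) (XT.nd (nat_lit 94) (nat_lit 0) (nat_lit 0) (XT.lf (nat_lit 0) (nat_lit 24379912446) (nat_lit 168) (nat_lit 343398340) (nat_lit 252) (nat_lit 8513716240) (nat_lit 22) (nat_lit 5) (nat_lit 24) (nat_lit 5) (nat_lit 25) (nat_lit 5) (nat_lit 381) (nat_lit 307) (nat_lit 176)) (XT.lf (nat_lit 0) (nat_lit 28566517807) (nat_lit 252) (nat_lit 110515133) (nat_lit 84) (nat_lit 5394836895) (nat_lit 22) (nat_lit 5) (nat_lit 25) (nat_lit 5) (nat_lit 23) (nat_lit 5) (nat_lit 382) (nat_lit 307) (nat_lit 175))))) (XT.nd (nat_lit 282) (nat_lit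 168) (nat_lit 0) (XT.nd (nat_lit 94) (nat_lit 84) (nat_lit 0) (XT.lf (nat_lit 0) (nat_lit 9077214824) (nat_lit 168) (nat_lit 23538990747) (nat_lit 252) (nat_lit 2313693710) (nat_lit 20) (nat_lit 5) (nat_lit 22) (nat_lit 5) (nat_lit 23) (nat_lit 5) (nat_lit 383) (nat_lit 307) (nat_lit 174)) (XT.nd (nat_lit 94) (nat_lit 0) (nat_lit 0) (XT.lf (nat_lit 0) (nat_lit 952189721) (nat_lit 252) (nat_lit 17281520677) (nat_lit 84) (nat_lit 17580686121) (nat_lit 19) (nat_lit 5) (nat_lit 22) (nat_lit 5) (nat_lit 20) (nat_lit 5) (nat_lit 384) (nat_lit 307) (nat_lit 173)) (XT.lf (nat_lit 0) (nat_lit 4265241909) (nat_lit 252) (nat_lit 8477464072) (nat_lit 84) (nat_lit 23983072870) (nat_lit 19) (nat_lit 5) (nat_lit 22) (nat_lit 5) (nat_lit 20) (nat_lit 5) (nat_lit 385) (nat_lit 307) (nat_lit 172)))) (XT.nd (nat_lit 94) (nat_lit 0) (nat_lit 0) (XT.lf (nat_lit 0) (nat_lit 602788637) (nat_lit 168) (nat_lit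 7078357838) (nat_lit 252) (nat_lit 29984275450) (nat_lit 17) (nat_lit 5) (nat_lit 19) (nat_lit 5) (nat_lit 20) (nat_lit 5) (nat_lit 386) (nat_lit 307) (nat_lit 171)) (XT.nd (nat_lit 94) (nat_lit 0) (nat_lit 0) (XT.lf (nat_lit 0) (nat_lit 10135462313) (nat_lit 168) (nat_lit 1150225340) (nat_lit 252) (nat_lit 27345953324) (nat_lit 17) (nat_lit 5) (nat_lit 19) (nat_lit 5) (nat_lit 20) (nat_lit 5) (nat_lit 387) (nat_lit 307) (nat_lit 170)) (XT.lf (nat_lit 0) (nat_lit 15045589757) (nat_lit 252) (nat_lit 19722060110) (nat_lit 84) (nat_lit 4858822458) (nat_lit 17) (nat_lit 5) (nat_lit 20) (nat_lit 5) (nat_lit 18) (nat_lit 5) (nat_lit 388) (nat_lit 307) (nat_lit 169)))))) (XT.nd (nat_lit 564) (nat_lit 336) (nat_lit 0) (XT.nd (nat_lit 282) (nat_lit 0) (nat_lit 0) (XT.nd (nat_lit 94) (nat_lit 168) (nat_lit 0) (XT.lf (nat_lit 0) (nat_lit 18928380992) (nat_lit 252) (nat_lit 10696122811) (nat_lit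 84) (nat_lit 11027454724) (nat_lit 17) (nat_lit 5) (nat_lit 20) (nat_lit 5) (nat_lit 18) (nat_lit 5) (nat_lit 389) (nat_lit 307) (nat_lit 168)) (XT.nd (nat_lit 94) (nat_lit 168) (nat_lit 0) (XT.lf (nat_lit 0) (nat_lit 22926270149) (nat_lit 252) (nat_lit 1398543270) (nat_lit 84) (nat_lit 17384595744) (nat_lit 17) (nat_lit 5) (nat_lit 20) (nat_lit 5) (nat_lit 18) (nat_lit 5) (nat_lit 390) (nat_lit 307) (nat_lit 167)) (XT.lf (nat_lit 0) (nat_lit 8347528935) (nat_lit 168) (nat_lit 18778263264) (nat_lit 252) (nat_lit 15671450626) (nat_lit 15) (nat_lit 5) (nat_lit 17) (nat_lit 5) (nat_lit 18) (nat_lit 5) (nat_lit 391) (nat_lit 307) (nat_lit 166)))) (XT.nd (nat_lit 94) (nat_lit 0) (nat_lit 0) (XT.lf (nat_lit 0) (nat_lit 18417541502) (nat_lit 168) (nat_lit 13047521579) (nat_lit 252) (nat_lit 12453450158) (nat_lit 15) (nat_lit 5) (nat_lit 17) (nat_lit 5) (nat_lit 18) (nat_lit 5) (nat_lit 392)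 (nat_lit 307) (nat_lit 165)) (XT.nd (nat_lit 94) (nat_lit 0) (nat_lit 0) (XT.lf (nat_lit 0) (nat_lit 28792123819) (nat_lit 168) (nat_lit 7141844637) (nat_lit 252) (nat_lit 9140736020) (nat_lit 15) (nat_lit 5) (nat_lit 17) (nat_lit 5) (nat_lit 18) (nat_lit 5) (nat_lit 393) (nat_lit 307) (nat_lit 164)) (XT.lf (nat_lit 0) (nat_lit 39480946084) (nat_lit 168) (nat_lit 1055727728) (nat_lit 252) (nat_lit 5730220416) (nat_lit 15) (nat_lit 5) (nat_lit 17) (nat_lit 5) (nat_lit 18) (nat_lit 5) (nat_lit 394) (nat_lit 307) (nat_lit 163))))) (XT.nd (nat_lit 282) (nat_lit 168) (nat_lit 0) (XT.nd (nat_lit 94) (nat_lit 84) (nat_lit 0) (XT.lf (nat_lit 0) (nat_lit 3006605715) (nat_lit 84) (nat_lit 42352437884) (nat_lit 168) (nat_lit 2134621339) (nat_lit 14) (nat_lit 5) (nat_lit 15) (nat_lit 5) (nat_lit 16) (nat_lit 4) (nat_lit 395) (nat_lit 307) (nat_lit 162)) (XT.nd (nat_lit 94) (nat_lit 0) (nat_lit 0)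 (XT.lf (nat_lit 0) (nat_lit 1618506377) (nat_lit 168) (nat_lit 35544110278) (nat_lit 84) (nat_lit 11592964101) (nat_lit 13) (nat_lit 5) (nat_lit 15) (nat_lit 5) (nat_lit 14) (nat_lit 5) (nat_lit 396) (nat_lit 307) (nat_lit 161)) (XT.lf (nat_lit 0) (nat_lit 5439171301) (nat_lit 168) (nat_lit 26352849293) (nat_lit 84) (nat_lit 18264065746) (nat_lit 13) (nat_lit 5) (nat_lit 15) (nat_lit 5) (nat_lit 14) (nat_lit 5) (nat_lit 397) (nat_lit 307) (nat_lit 160)))) (XT.nd (nat_lit 94) (nat_lit 168) (nat_lit 0) (XT.lf (nat_lit 0) (nat_lit 9373942554) (nat_lit 168) (nat_lit 16883533344) (nat_lit 84) (nat_lit 25139574445) (nat_lit 13) (nat_lit 5) (nat_lit 15) (nat_lit 5) (nat_lit 14) (nat_lit 5) (nat_lit 398) (nat_lit 307) (nat_lit 159)) (XT.nd (nat_lit 94) (nat_lit 168) (nat_lit 0) (XT.lf (nat_lit 0) (nat_lit 13426487757) (nat_lit 168) (nat_lit 7127336036) (nat_lit 84) (nat_lit 32225898894) (nat_lit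 13) (nat_lit 5) (nat_lit 15) (nat_lit 5) (nat_lit 14) (nat_lit 5) (nat_lit 399) (nat_lit 307) (nat_lit 158)) (XT.lf (nat_lit 0) (nat_lit 2984977064) (nat_lit 168) (nat_lit 14645218582) (nat_lit 252) (nat_lit 36574278567) (nat_lit 11) (nat_lit 5) (nat_lit 13) (nat_lit 5) (nat_lit 14) (nat_lit 5) (nat_lit 400) (nat_lit 307) (nat_lit 157))))))) (XT.nd (nat_lit 1128) (nat_lit 0) (nat_lit 0) (XT.nd (nat_lit 564) (nat_lit 252) (nat_lit 0) (XT.nd (nat_lit 282) (nat_lit 84) (nat_lit 0) (XT.nd (nat_lit 94) (nat_lit 0) (nat_lit 0) (XT.lf (nat_lit 0) (nat_lit 13555466162) (nat_lit 168) (nat_lit 8479128633) (nat_lit 252) (nat_lit 33636624226) (nat_lit 11) (nat_lit 5) (nat_lit 13) (nat_lit 5) (nat_lit 14) (nat_lit 5) (nat_lit 401) (nat_lit 307) (nat_lit 156)) (XT.nd (nat_lit 94) (nat_lit 0) (nat_lit 0) (XT.lf (nat_lit 0) (nat_lit 24447431414) (nat_lit 168) (nat_lit 2124201275) (nat_lit 252) (nat_lit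 30611928478) (nat_lit 11) (nat_lit 5) (nat_lit 13) (nat_lit 5) (nat_lit 14) (nat_lit 5) (nat_lit 402) (nat_lit 307) (nat_lit 155)) (XT.lf (nat_lit 0) (nat_lit 31289439700) (nat_lit 252) (nat_lit 23115786417) (nat_lit 84) (nat_lit 4336323250) (nat_lit 11) (nat_lit 5) (nat_lit 14) (nat_lit 5) (nat_lit 12) (nat_lit 4) (nat_lit 403) (nat_lit 307) (nat_lit 154)))) (XT.nd (nat_lit 94) (nat_lit 84) (nat_lit 0) (XT.lf (nat_lit 0) (nat_lit 36171535972) (nat_lit 252) (nat_lit 13224878337) (nat_lit 84) (nat_lit 10950868718) (nat_lit 11) (nat_lit 5) (nat_lit 14) (nat_lit 5) (nat_lit 12) (nat_lit 4) (nat_lit 404) (nat_lit 307) (nat_lit 153)) (XT.nd (nat_lit 94) (nat_lit 84) (nat_lit 0) (XT.lf (nat_lit 0) (nat_lit 41201399793) (nat_lit 252) (nat_lit 3033113811) (nat_lit 84) (nat_lit 17768398499) (nat_lit 11) (nat_lit 5) (nat_lit 14) (nat_lit 5) (nat_lit 12) (nat_lit 4) (nat_lit 405) (nat_lit 307)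 (nat_lit 152)) (XT.lf (nat_lit 0) (nat_lit 7622585052) (nat_lit 84) (nat_lit 38836751456) (nat_lit 168) (nat_lit 17248299180) (nat_lit 10) (nat_lit 5) (nat_lit 11) (nat_lit 5) (nat_lit 12) (nat_lit 4) (nat_lit 406) (nat_lit 307) (nat_lit 151))))) (XT.nd (nat_lit 282) (nat_lit 252) (nat_lit 0) (XT.nd (nat_lit 94) (nat_lit 0) (nat_lit 0) (XT.lf (nat_lit 0) (nat_lit 18667379116) (nat_lit 84) (nat_lit 33241129218) (nat_lit 168) (nat_lit 13555828328) (nat_lit 10) (nat_lit 5) (nat_lit 11) (nat_lit 5) (nat_lit 12) (nat_lit 4) (nat_lit 407) (nat_lit 307) (nat_lit 150)) (XT.nd (nat_lit 94) (nat_lit 0) (nat_lit 0) (XT.lf (nat_lit 0) (nat_lit 30049196243) (nat_lit 84) (nat_lit 27474090672) (nat_lit 168) (nat_lit 9752317476) (nat_lit 10) (nat_lit 5) (nat_lit 11) (nat_lit 5) (nat_lit 12) (nat_lit 4) (nat_lit 408) (nat_lit 307) (nat_lit 149)) (XT.lf (nat_lit 0) (nat_lit 41778645479) (nat_lit 84) (nat_lit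 21530260334) (nat_lit 168) (nat_lit 5834221350) (nat_lit 10) (nat_lit 5) (nat_lit 11) (nat_lit 5) (nat_lit 12) (nat_lit 4) (nat_lit 409) (nat_lit 307) (nat_lit 148)))) (XT.nd (nat_lit 94) (nat_lit 252) (nat_lit 0) (XT.lf (nat_lit 0) (nat_lit 53866659900) (nat_lit 84) (nat_lit 15404097931) (nat_lit 168) (nat_lit 1797887877) (nat_lit 10) (nat_lit 5) (nat_lit 11) (nat_lit 5) (nat_lit 12) (nat_lit 4) (nat_lit 410) (nat_lit 307) (nat_lit 147)) (XT.nd (nat_lit 94) (nat_lit 168) (nat_lit 0) (XT.lf (nat_lit 0) (nat_lit 2312887519) (nat_lit 168) (nat_lit 6752863917) (nat_lit 84) (nat_lit 63987477480) (nat_lit 9) (nat_lit 5) (nat_lit 11) (nat_lit 5) (nat_lit 10) (nat_lit 5) (nat_lit 411) (nat_lit 307) (nat_lit 146)) (XT.lf (nat_lit 0) (nat_lit 4079163480) (nat_lit 168) (nat_lit 2472081330) (nat_lit 252) (nat_lit 68546362343) (nat_lit 7) (nat_lit 5) (nat_lit 9) (nat_lit 5) (nat_lit 10) (nat_lit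 5) (nat_lit 412) (nat_lit 307) (nat_lit 145)))))) (XT.nd (nat_lit 44838) (nat_lit 0) (nat_lit 11256) (XT.nd (nat_lit 44556) (nat_lit 0) (nat_lit 11172) (XT.nd (nat_lit 44368) (nat_lit 0) (nat_lit 12096) (XT.lf (nat_lit 0) (nat_lit 11032164771) (nat_lit 252) (nat_lit 61861514592) (nat_lit 84) (nat_lit 4308240516) (nat_lit 7) (nat_lit 5) (nat_lit 10) (nat_lit 5) (nat_lit 8) (nat_lit 4) (nat_lit 413) (nat_lit 307) (nat_lit 144)) (XT.nd (nat_lit 94) (nat_lit 0) (nat_lit 0) (XT.lf (nat_lit 0) (nat_lit 3318577835) (nat_lit 924) (nat_lit 426965741) (nat_lit 924) (nat_lit 426965741) (nat_lit 151) (nat_lit 3) (nat_lit 162) (nat_lit 3) (nat_lit 162) (nat_lit 5) (nat_lit 308) (nat_lit 308) (nat_lit 248)) (XT.lf (nat_lit 84) (nat_lit 2480888320) (nat_lit 0) (nat_lit 5204500614) (nat_lit 924) (nat_lit 755650601) (nat_lit 152) (nat_lit 5) (nat_lit 151) (nat_lit 3) (nat_lit 162) (nat_lit 5) (nat_lit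 309) (nat_lit 308) (nat_lit 247)))) (XT.nd (nat_lit 94) (nat_lit 0) (nat_lit 0) (XT.lf (nat_lit 0) (nat_lit 192693133) (nat_lit 924) (nat_lit 2625441412) (nat_lit 1008) (nat_lit 5722883960) (nat_lit 140) (nat_lit 5) (nat_lit 151) (nat_lit 3) (nat_lit 152) (nat_lit 5) (nat_lit 310) (nat_lit 308) (nat_lit 246)) (XT.nd (nat_lit 94) (nat_lit 0) (nat_lit 84) (XT.lf (nat_lit 84) (nat_lit 801137338) (nat_lit 0) (nat_lit 324849945) (nat_lit 1008) (nat_lit 7518913681) (nat_lit 141) (nat_lit 5) (nat_lit 140) (nat_lit 5) (nat_lit 152) (nat_lit 5) (nat_lit 311) (nat_lit 308) (nat_lit 245)) (XT.lf (nat_lit 0) (nat_lit 2102544262) (nat_lit 924) (nat_lit 4405249209) (nat_lit 1008) (nat_lit 2243913896) (nat_lit 141) (nat_lit 5) (nat_lit 152) (nat_lit 5) (nat_lit 153) (nat_lit 5) (nat_lit 312) (nat_lit 308) (nat_lit 244))))) (XT.nd (nat_lit 282) (nat_lit 0) (nat_lit 84) (XT.nd (nat_lit 94) (nat_lit 0)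 (nat_lit 0) (XT.lf (nat_lit 0) (nat_lit 3078136649) (nat_lit 924) (nat_lit 883962620) (nat_lit 1008) (nat_lit 4900837269) (nat_lit 141) (nat_lit 5) (nat_lit 152) (nat_lit 5) (nat_lit 153) (nat_lit 5) (nat_lit 313) (nat_lit 308) (nat_lit 243)) (XT.nd (nat_lit 94) (nat_lit 0) (nat_lit 84) (XT.lf (nat_lit 84) (nat_lit 2782665405) (nat_lit 0) (nat_lit 1295390226) (nat_lit 1008) (nat_lit 4899880686) (nat_lit 142) (nat_lit 5) (nat_lit 141) (nat_lit 5) (nat_lit 153) (nat_lit 5) (nat_lit 314) (nat_lit 308) (nat_lit 242)) (XT.lf (nat_lit 0) (nat_lit 5100137697) (nat_lit 924) (nat_lit 2549994465) (nat_lit 1008) (nat_lit 1446777697) (nat_lit 142) (nat_lit 5) (nat_lit 153) (nat_lit 5) (nat_lit 154) (nat_lit 5) (nat_lit 315) (nat_lit 308) (nat_lit 241)))) (XT.nd (nat_lit 94) (nat_lit 0) (nat_lit 0) (XT.lf (nat_lit 84) (nat_lit 1198861613) (nat_lit 0) (nat_lit 4948584673) (nat_lit 1008) (nat_lit 3072456338)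 (nat_lit 143) (nat_lit 5) (nat_lit 142) (nat_lit 5) (nat_lit 154) (nat_lit 5) (nat_lit 316) (nat_lit 308) (nat_lit 240)) (XT.nd (nat_lit 94) (nat_lit 0) (nat_lit 84) (XT.lf (nat_lit 84) (nat_lit 5097867058) (nat_lit 0) (nat_lit 2125121932) (nat_lit 1008) (nat_lit 2123977292) (nat_lit 143) (nat_lit 5) (nat_lit 142) (nat_lit 5) (nat_lit 154) (nat_lit 5) (nat_lit 317) (nat_lit 308) (nat_lit 239)) (XT.lf (nat_lit 0) (nat_lit 8309851032) (nat_lit 924) (nat_lit 388695654) (nat_lit 1008) (nat_lit 780228021) (nat_lit 143) (nat_lit 5) (nat_lit 154) (nat_lit 5) (nat_lit 155) (nat_lit 5) (nat_lit 318) (nat_lit 308) (nat_lit 238))))))))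
noncomputable def xc135 : XT := (XT.nd (nat_lit 2256) (nat_lit 3360) (nat_lit 0) (XT.nd (nat_lit 1128) (nat_lit 2604) (nat_lit 0) (XT.nd (nat_lit 564) (nat_lit 2016) (nat_lit 0) (XT.nd (nat_lit 282) (nat_lit 0) (nat_lit 84) (XT.nd (nat_lit 94) (nat_lit 1008) (nat_lit 0) (XT.lf (nat_lit 84) (nat_lit 3622581448) (nat_lit 0) (nat_lit 5836573983) (nat_lit 1008) (nat_lit 154741917) (nat_lit 144) (nat_lit 5) (nat_lit 143) (nat_lit 5) (nat_lit 155) (nat_lit 5) (nat_lit 319) (nat_lit 308) (nat_lit 237)) (XT.nd (nat_lit 94) (nat_lit 0) (nat_lit 84) (XT.lf (nat_lit 0) (nat_lit 848377431) (nat_lit 1008) (nat_lit 2016063246) (nat_lit 1092) (nat_lit 6889367607) (nat_lit 131) (nat_lit 5) (nat_lit 143) (nat_lit 5) (nat_lit 144) (nat_lit 5) (nat_lit 320) (nat_lit 308) (nat_lit 236)) (XT.lf (nat_lit 0) (nat_lit 1874743840) (nat_lit 1008) (nat_lit 7797336303) (nat_lit 1092) (nat_lit 226179892) (nat_lit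 132) (nat_lit 5) (nat_lit 144) (nat_lit 5) (nat_lit 145) (nat_lit 5) (nat_lit 321) (nat_lit 308) (nat_lit 235)))) (XT.nd (nat_lit 94) (nat_lit 0) (nat_lit 0) (XT.lf (nat_lit 0) (nat_lit 2956406368) (nat_lit 1008) (nat_lit 3708523019) (nat_lit 1092) (nat_lit 3381638233) (nat_lit 132) (nat_lit 5) (nat_lit 144) (nat_lit 5) (nat_lit 145) (nat_lit 5) (nat_lit 322) (nat_lit 308) (nat_lit 234)) (XT.nd (nat_lit 94) (nat_lit 0) (nat_lit 0) (XT.lf (nat_lit 84) (nat_lit 496928761) (nat_lit 0) (nat_lit 3553338880) (nat_lit 1092) (nat_lit 6149968907) (nat_lit 133) (nat_lit 5) (nat_lit 132) (nat_lit 5) (nat_lit 145) (nat_lit 5) (nat_lit 323) (nat_lit 308) (nat_lit 233)) (XT.lf (nat_lit 84) (nat_lit 4891445328) (nat_lit 0) (nat_lit 299632289) (nat_lit 1092) (nat_lit 5167286797) (nat_lit 133) (nat_lit 5) (nat_lit 132) (nat_lit 5) (nat_lit 145) (nat_lit 5) (nat_lit 324) (nat_lit 308) (nat_lit 232)))))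 (XT.nd (nat_lit 282) (nat_lit 1176) (nat_lit 0) (XT.nd (nat_lit 94) (nat_lit 1008) (nat_lit 0) (XT.lf (nat_lit 0) (nat_lit 6372714863) (nat_lit 1008) (nat_lit 1149755203) (nat_lit 84) (nat_lit 2998851273) (nat_lit 133) (nat_lit 5) (nat_lit 145) (nat_lit 5) (nat_lit 134) (nat_lit 5) (nat_lit 325) (nat_lit 308) (nat_lit 231)) (XT.nd (nat_lit 94) (nat_lit 0) (nat_lit 0) (XT.lf (nat_lit 0) (nat_lit 3345950989) (nat_lit 1008) (nat_lit 4257192421) (nat_lit 1092) (nat_lit 3085903063) (nat_lit 121) (nat_lit 5) (nat_lit 133) (nat_lit 5) (nat_lit 134) (nat_lit 5) (nat_lit 326) (nat_lit 308) (nat_lit 230)) (XT.lf (nat_lit 0) (nat_lit 7985958412) (nat_lit 1008) (nat_lit 874193361) (nat_lit 1092) (nat_lit 2002268491) (nat_lit 121) (nat_lit 5) (nat_lit 133) (nat_lit 5) (nat_lit 134) (nat_lit 5) (nat_lit 327) (nat_lit 308) (nat_lit 229)))) (XT.nd (nat_lit 94) (nat_lit 84) (nat_lit 0) (XT.lf (nat_lit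 0) (nat_lit 1717624144) (nat_lit 1092) (nat_lit 8458653980) (nat_lit 1176) (nat_lit 864353829) (nat_lit 108) (nat_lit 5) (nat_lit 121) (nat_lit 5) (nat_lit 122) (nat_lit 5) (nat_lit 328) (nat_lit 308) (nat_lit 228)) (XT.nd (nat_lit 94) (nat_lit 0) (nat_lit 0) (XT.lf (nat_lit 0) (nat_lit 319250613) (nat_lit 1176) (nat_lit 4740683281) (nat_lit 84) (nat_lit 6163906367) (nat_lit 107) (nat_lit 5) (nat_lit 121) (nat_lit 5) (nat_lit 108) (nat_lit 5) (nat_lit 329) (nat_lit 308) (nat_lit 227)) (XT.lf (nat_lit 0) (nat_lit 1499637143) (nat_lit 1176) (nat_lit 44584831) (nat_lit 84) (nat_lit 9868992890) (nat_lit 107) (nat_lit 5) (nat_lit 121) (nat_lit 5) (nat_lit 108) (nat_lit 5) (nat_lit 330) (nat_lit 308) (nat_lit 226)))))) (XT.nd (nat_lit 564) (nat_lit 1008) (nat_lit 0) (XT.nd (nat_lit 282) (nat_lit 504) (nat_lit 0) (XT.nd (nat_lit 94) (nat_lit 588) (nat_lit 0) (XT.lf (nat_lit 0) (nat_lit 2764853762)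 (nat_lit 588) (nat_lit 6752366336) (nat_lit 84) (nat_lit 2089822469) (nat_lit 101) (nat_lit 5) (nat_lit 108) (nat_lit 5) (nat_lit 102) (nat_lit 5) (nat_lit 331) (nat_lit 308) (nat_lit 225)) (XT.nd (nat_lit 94) (nat_lit 588) (nat_lit 0) (XT.lf (nat_lit 0) (nat_lit 4064737894) (nat_lit 588) (nat_lit 1935309118) (nat_lit 84) (nat_lit 5807048625) (nat_lit 101) (nat_lit 5) (nat_lit 108) (nat_lit 5) (nat_lit 102) (nat_lit 5) (nat_lit 332) (nat_lit 308) (nat_lit 224)) (XT.lf (nat_lit 0) (nat_lit 3074192835) (nat_lit 588) (nat_lit 2341029834) (nat_lit 672) (nat_lit 6597881507) (nat_lit 94) (nat_lit 5) (nat_lit 101) (nat_lit 5) (nat_lit 102) (nat_lit 5) (nat_lit 333) (nat_lit 308) (nat_lit 223)))) (XT.nd (nat_lit 94) (nat_lit 504) (nat_lit 0) (XT.lf (nat_lit 0) (nat_lit 6822421029) (nat_lit 672) (nat_lit 3978589137) (nat_lit 84) (nat_lit 1424099563) (nat_lit 94) (nat_lit 5) (nat_lit 102) (nat_lit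 5) (nat_lit 95) (nat_lit 5) (nat_lit 334) (nat_lit 308) (nat_lit 222)) (XT.nd (nat_lit 94) (nat_lit 0) (nat_lit 0) (XT.lf (nat_lit 0) (nat_lit 1115284619) (nat_lit 504) (nat_lit 7173800466) (nat_lit 588) (nat_lit 4154180167) (nat_lit 88) (nat_lit 5) (nat_lit 94) (nat_lit 5) (nat_lit 95) (nat_lit 5) (nat_lit 335) (nat_lit 308) (nat_lit 221)) (XT.lf (nat_lit 0) (nat_lit 6432856536) (nat_lit 504) (nat_lit 3391115217) (nat_lit 588) (nat_lit 2843573251) (nat_lit 88) (nat_lit 5) (nat_lit 94) (nat_lit 5) (nat_lit 95) (nat_lit 5) (nat_lit 336) (nat_lit 308) (nat_lit 220))))) (XT.nd (nat_lit 282) (nat_lit 420) (nat_lit 0) (XT.nd (nat_lit 94) (nat_lit 588) (nat_lit 0) (XT.lf (nat_lit 0) (nat_lit 11393281837) (nat_lit 588) (nat_lit 1007181283) (nat_lit 84) (nat_lit 498787044) (nat_lit 88) (nat_lit 5) (nat_lit 95) (nat_lit 5) (nat_lit 89) (nat_lit 5) (nat_lit 337) (nat_lit 308) (nat_lit 219)) (XT.nd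 (nat_lit 94) (nat_lit 84) (nat_lit 0) (XT.lf (nat_lit 0) (nat_lit 4418652288) (nat_lit 504) (nat_lit 8653446604) (nat_lit 588) (nat_lit 64215569) (nat_lit 82) (nat_lit 5) (nat_lit 88) (nat_lit 5) (nat_lit 89) (nat_lit 5) (nat_lit 338) (nat_lit 308) (nat_lit 218)) (XT.lf (nat_lit 0) (nat_lit 1386655568) (nat_lit 588) (nat_lit 3378885791) (nat_lit 84) (nat_lit 8615022739) (nat_lit 81) (nat_lit 5) (nat_lit 88) (nat_lit 5) (nat_lit 82) (nat_lit 5) (nat_lit 339) (nat_lit 308) (nat_lit 217)))) (XT.nd (nat_lit 94) (nat_lit 0) (nat_lit 0) (XT.lf (nat_lit 0) (nat_lit 2150304025) (nat_lit 420) (nat_lit 735182908) (nat_lit 504) (nat_lit 10746801731) (nat_lit 76) (nat_lit 5) (nat_lit 81) (nat_lit 5) (nat_lit 82) (nat_lit 5) (nat_lit 340) (nat_lit 308) (nat_lit 216)) (XT.nd (nat_lit 94) (nat_lit 0) (nat_lit 0) (XT.lf (nat_lit 0) (nat_lit 4483653562) (nat_lit 504) (nat_lit 6020622386) (nat_lit 84)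 (nat_lit 3385957385) (nat_lit 76) (nat_lit 5) (nat_lit 82) (nat_lit 5) (nat_lit 77) (nat_lit 5) (nat_lit 341) (nat_lit 308) (nat_lit 215)) (XT.lf (nat_lit 0) (nat_lit 6122698410) (nat_lit 504) (nat_lit 415071328) (nat_lit 84) (nat_lit 7618727144) (nat_lit 76) (nat_lit 5) (nat_lit 82) (nat_lit 5) (nat_lit 77) (nat_lit 5) (nat_lit 342) (nat_lit 308) (nat_lit 214))))))) (XT.nd (nat_lit 1128) (nat_lit 1344) (nat_lit 0) (XT.nd (nat_lit 564) (nat_lit 672) (nat_lit 0) (XT.nd (nat_lit 282) (nat_lit 504) (nat_lit 0) (XT.nd (nat_lit 94) (nat_lit 420) (nat_lit 0) (XT.lf (nat_lit 0) (nat_lit 5457135722) (nat_lit 420) (nat_lit 2393855876) (nat_lit 504) (nat_lit 6578883789) (nat_lit 71) (nat_lit 5) (nat_lit 76) (nat_lit 5) (nat_lit 77) (nat_lit 5) (nat_lit 343) (nat_lit 308) (nat_lit 213)) (XT.nd (nat_lit 94) (nat_lit 420) (nat_lit 0) (XT.lf (nat_lit 0) (nat_lit 9640465852) (nat_lit 504) (nat_lit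 3227498827) (nat_lit 84) (nat_lit 1843579007) (nat_lit 71) (nat_lit 5) (nat_lit 77) (nat_lit 5) (nat_lit 72) (nat_lit 5) (nat_lit 344) (nat_lit 308) (nat_lit 212)) (XT.lf (nat_lit 0) (nat_lit 2709060297) (nat_lit 420) (nat_lit 8812766552) (nat_lit 504) (nat_lit 3479037307) (nat_lit 66) (nat_lit 5) (nat_lit 71) (nat_lit 5) (nat_lit 72) (nat_lit 5) (nat_lit 345) (nat_lit 308) (nat_lit 211)))) (XT.nd (nat_lit 94) (nat_lit 504) (nat_lit 0) (XT.lf (nat_lit 0) (nat_lit 8881362758) (nat_lit 420) (nat_lit 4599174640) (nat_lit 504) (nat_lit 1818074093) (nat_lit 66) (nat_lit 5) (nat_lit 71) (nat_lit 5) (nat_lit 72) (nat_lit 5) (nat_lit 346) (nat_lit 308) (nat_lit 210)) (XT.nd (nat_lit 94) (nat_lit 504) (nat_lit 0) (XT.lf (nat_lit 0) (nat_lit 15228797793) (nat_lit 420) (nat_lit 256949901) (nat_lit 504) (nat_lit 120328469) (nat_lit 66) (nat_lit 5) (nat_lit 71) (nat_lit 5) (nat_lit 72) (nat_lit 5)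 (nat_lit 347) (nat_lit 308) (nat_lit 209)) (XT.lf (nat_lit 0) (nat_lit 1684735678) (nat_lit 504) (nat_lit 10026498601) (nat_lit 84) (nat_lit 4208666842) (nat_lit 60) (nat_lit 5) (nat_lit 66) (nat_lit 5) (nat_lit 61) (nat_lit 5) (nat_lit 348) (nat_lit 308) (nat_lit 208))))) (XT.nd (nat_lit 282) (nat_lit 336) (nat_lit 0) (XT.nd (nat_lit 94) (nat_lit 336) (nat_lit 0) (XT.lf (nat_lit 0) (nat_lit 3536126856) (nat_lit 504) (nat_lit 3897094709) (nat_lit 84) (nat_lit 8810458265) (nat_lit 60) (nat_lit 5) (nat_lit 66) (nat_lit 5) (nat_lit 61) (nat_lit 5) (nat_lit 349) (nat_lit 308) (nat_lit 207)) (XT.nd (nat_lit 94) (nat_lit 0) (nat_lit 0) (XT.lf (nat_lit 0) (nat_lit 2455958158) (nat_lit 336) (nat_lit 2999992710) (nat_lit 420) (nat_lit 11121243595) (nat_lit 56) (nat_lit 5) (nat_lit 60) (nat_lit 5) (nat_lit 61) (nat_lit 5) (nat_lit 350) (nat_lit 308) (nat_lit 206)) (XT.lf (nat_lit 0) (nat_lit 7478859820)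 (nat_lit 420) (nat_lit 7863315845) (nat_lit 84) (nat_lit 1577561482) (nat_lit 56) (nat_lit 5) (nat_lit 61) (nat_lit 5) (nat_lit 57) (nat_lit 5) (nat_lit 351) (nat_lit 308) (nat_lit 205)))) (XT.nd (nat_lit 94) (nat_lit 336) (nat_lit 0) (XT.lf (nat_lit 0) (nat_lit 9582451322) (nat_lit 420) (nat_lit 1457702105) (nat_lit 84) (nat_lit 6232226669) (nat_lit 56) (nat_lit 5) (nat_lit 61) (nat_lit 5) (nat_lit 57) (nat_lit 5) (nat_lit 352) (nat_lit 308) (nat_lit 204)) (XT.nd (nat_lit 94) (nat_lit 0) (nat_lit 0) (XT.lf (nat_lit 0) (nat_lit 5236846706) (nat_lit 336) (nat_lit 6554029302) (nat_lit 420) (nat_lit 5843888115) (nat_lit 52) (nat_lit 5) (nat_lit 56) (nat_lit 5) (nat_lit 57) (nat_lit 5) (nat_lit 353) (nat_lit 308) (nat_lit 203)) (XT.lf (nat_lit 0) (nat_lit 12154832682) (nat_lit 336) (nat_lit 1916038201) (nat_lit 420) (nat_lit 3937451091) (nat_lit 52) (nat_lit 5) (nat_lit 56) (nat_lit 5) (nat_lit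 57) (nat_lit 5) (nat_lit 354) (nat_lit 308) (nat_lit 202)))))) (XT.nd (nat_lit 564) (nat_lit 588) (nat_lit 0) (XT.nd (nat_lit 282) (nat_lit 336) (nat_lit 0) (XT.nd (nat_lit 94) (nat_lit 84) (nat_lit 0) (XT.lf (nat_lit 0) (nat_lit 867958253) (nat_lit 336) (nat_lit 15578855812) (nat_lit 420) (nat_lit 1945897940) (nat_lit 48) (nat_lit 5) (nat_lit 52) (nat_lit 5) (nat_lit 53) (nat_lit 5) (nat_lit 355) (nat_lit 308) (nat_lit 201)) (XT.nd (nat_lit 94) (nat_lit 0) (nat_lit 0) (XT.lf (nat_lit 0) (nat_lit 174835015) (nat_lit 420) (nat_lit 10901589166) (nat_lit 84) (nat_lit 7710436274) (nat_lit 47) (nat_lit 5) (nat_lit 52) (nat_lit 5) (nat_lit 48) (nat_lit 5) (nat_lit 356) (nat_lit 308) (nat_lit 200)) (XT.lf (nat_lit 0) (nat_lit 2309527560) (nat_lit 420) (nat_lit 4107596068) (nat_lit 84) (nat_lit 12775871275) (nat_lit 47) (nat_lit 5) (nat_lit 52) (nat_lit 5) (nat_lit 48) (nat_lit 5) (nat_lit 357)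 (nat_lit 308) (nat_lit 199)))) (XT.nd (nat_lit 94) (nat_lit 0) (nat_lit 0) (XT.lf (nat_lit 0) (nat_lit 2942139354) (nat_lit 336) (nat_lit 1586421988) (nat_lit 420) (nat_lit 15082626197) (nat_lit 43) (nat_lit 5) (nat_lit 47) (nat_lit 5) (nat_lit 48) (nat_lit 5) (nat_lit 358) (nat_lit 308) (nat_lit 198)) (XT.nd (nat_lit 94) (nat_lit 0) (nat_lit 0) (XT.lf (nat_lit 0) (nat_lit 6882508062) (nat_lit 420) (nat_lit 9791967437) (nat_lit 84) (nat_lit 3365849063) (nat_lit 43) (nat_lit 5) (nat_lit 48) (nat_lit 5) (nat_lit 44) (nat_lit 5) (nat_lit 359) (nat_lit 308) (nat_lit 197)) (XT.lf (nat_lit 0) (nat_lit 9315119312) (nat_lit 420) (nat_lit 2731831514) (nat_lit 84) (nat_lit 8435666863) (nat_lit 43) (nat_lit 5) (nat_lit 48) (nat_lit 5) (nat_lit 44) (nat_lit 5) (nat_lit 360) (nat_lit 308) (nat_lit 196))))) (XT.nd (nat_lit 282) (nat_lit 336) (nat_lit 0) (XT.nd (nat_lit 94) (nat_lit 0) (nat_lit 0)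 (XT.lf (nat_lit 0) (nat_lit 4626899586) (nat_lit 252) (nat_lit 7231924869) (nat_lit 336) (nat_lit 9078719710) (nat_lit 40) (nat_lit 5) (nat_lit 43) (nat_lit 5) (nat_lit 44) (nat_lit 5) (nat_lit 361) (nat_lit 308) (nat_lit 195)) (XT.nd (nat_lit 94) (nat_lit 0) (nat_lit 0) (XT.lf (nat_lit 0) (nat_lit 12258310574) (nat_lit 252) (nat_lit 2241546844) (nat_lit 336) (nat_lit 6906170861) (nat_lit 40) (nat_lit 5) (nat_lit 43) (nat_lit 5) (nat_lit 44) (nat_lit 5) (nat_lit 362) (nat_lit 308) (nat_lit 194)) (XT.lf (nat_lit 0) (nat_lit 17241794113) (nat_lit 336) (nat_lit 1804792953) (nat_lit 84) (nat_lit 2841885100) (nat_lit 40) (nat_lit 5) (nat_lit 44) (nat_lit 5) (nat_lit 41) (nat_lit 5) (nat_lit 363) (nat_lit 308) (nat_lit 193)))) (XT.nd (nat_lit 94) (nat_lit 84) (nat_lit 0) (XT.lf (nat_lit 0) (nat_lit 5847805905) (nat_lit 252) (nat_lit 14292383768) (nat_lit 336) (nat_lit 2243492862) (nat_lit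 37) (nat_lit 5) (nat_lit 40) (nat_lit 5) (nat_lit 41) (nat_lit 5) (nat_lit 364) (nat_lit 308) (nat_lit 192)) (XT.nd (nat_lit 94) (nat_lit 0) (nat_lit 0) (XT.lf (nat_lit 0) (nat_lit 239064586) (nat_lit 336) (nat_lit 9133219778) (nat_lit 84) (nat_lit 13521615100) (nat_lit 36) (nat_lit 5) (nat_lit 40) (nat_lit 5) (nat_lit 37) (nat_lit 5) (nat_lit 365) (nat_lit 308) (nat_lit 191)) (XT.lf (nat_lit 0) (nat_lit 2742823438) (nat_lit 336) (nat_lit 1536576611) (nat_lit 84) (nat_lit 19140129239) (nat_lit 36) (nat_lit 5) (nat_lit 40) (nat_lit 5) (nat_lit 37) (nat_lit 5) (nat_lit 366) (nat_lit 308) (nat_lit 190))))))))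
noncomputable def xc136 : XT := (XT.nd (nat_lit 2256) (nat_lit 672) (nat_lit 0) (XT.nd (nat_lit 1128) (nat_lit 588) (nat_lit 0) (XT.nd (nat_lit 564) (nat_lit 504) (nat_lit 0) (XT.nd (nat_lit 282) (nat_lit 252) (nat_lit 0) (XT.nd (nat_lit 94) (nat_lit 0) (nat_lit 0) (XT.lf (nat_lit 0) (nat_lit 5389186516) (nat_lit 336) (nat_lit 17557445018) (nat_lit 84) (nat_lit 1012830448) (nat_lit 33) (nat_lit 5) (nat_lit 37) (nat_lit 5) (nat_lit 34) (nat_lit 5) (nat_lit 367) (nat_lit 308) (nat_lit 189)) (XT.nd (nat_lit 94) (nat_lit 0) (nat_lit 0) (XT.lf (nat_lit 0) (nat_lit 8168792377) (nat_lit 336) (nat_lit 9952595925) (nat_lit 84) (nat_lit 6393179187) (nat_lit 33) (nat_lit 5) (nat_lit 37) (nat_lit 5) (nat_lit 34) (nat_lit 5) (nat_lit 368) (nat_lit 308) (nat_lit 188)) (XT.lf (nat_lit 0) (nat_lit 11026064163) (nat_lit 336) (nat_lit 2123936238) (nat_lit 84) (nat_lit 11937166026) (nat_lit 33) (nat_lit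 5) (nat_lit 37) (nat_lit 5) (nat_lit 34) (nat_lit 5) (nat_lit 369) (nat_lit 308) (nat_lit 187)))) (XT.nd (nat_lit 94) (nat_lit 0) (nat_lit 0) (XT.lf (nat_lit 0) (nat_lit 6057884034) (nat_lit 252) (nat_lit 7965876076) (nat_lit 336) (nat_lit 11652169464) (nat_lit 30) (nat_lit 5) (nat_lit 33) (nat_lit 5) (nat_lit 34) (nat_lit 5) (nat_lit 370) (nat_lit 308) (nat_lit 186)) (XT.nd (nat_lit 94) (nat_lit 0) (nat_lit 0) (XT.lf (nat_lit 0) (nat_lit 14526903587) (nat_lit 252) (nat_lit 2601538587) (nat_lit 336) (nat_lit 9154086743) (nat_lit 30) (nat_lit 5) (nat_lit 33) (nat_lit 5) (nat_lit 34) (nat_lit 5) (nat_lit 371) (nat_lit 308) (nat_lit 185)) (XT.lf (nat_lit 0) (nat_lit 20350526018) (nat_lit 336) (nat_lit 3689877238) (nat_lit 84) (nat_lit 2866893441) (nat_lit 30) (nat_lit 5) (nat_lit 34) (nat_lit 5) (nat_lit 31) (nat_lit 5) (nat_lit 372) (nat_lit 308) (nat_lit 184))))) (XT.nd (nat_lit 282)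 (nat_lit 252) (nat_lit 0) (XT.nd (nat_lit 94) (nat_lit 84) (nat_lit 0) (XT.lf (nat_lit 0) (nat_lit 4682637232) (nat_lit 168) (nat_lit 19055254402) (nat_lit 252) (nat_lit 3811532449) (nat_lit 28) (nat_lit 5) (nat_lit 30) (nat_lit 5) (nat_lit 31) (nat_lit 5) (nat_lit 373) (nat_lit 308) (nat_lit 183)) (XT.nd (nat_lit 94) (nat_lit 84) (nat_lit 0) (XT.lf (nat_lit 0) (nat_lit 13382025667) (nat_lit 168) (nat_lit 13879214181) (nat_lit 252) (nat_lit 949275912) (nat_lit 28) (nat_lit 5) (nat_lit 30) (nat_lit 5) (nat_lit 31) (nat_lit 5) (nat_lit 374) (nat_lit 308) (nat_lit 182)) (XT.lf (nat_lit 0) (nat_lit 1953974383) (nat_lit 252) (nat_lit 6571602865) (nat_lit 84) (nat_lit 20366155496) (nat_lit 27) (nat_lit 5) (nat_lit 30) (nat_lit 5) (nat_lit 28) (nat_lit 5) (nat_lit 375) (nat_lit 308) (nat_lit 181)))) (XT.nd (nat_lit 94) (nat_lit 0) (nat_lit 0) (XT.lf (nat_lit 0) (nat_lit 1960624628) (nat_lit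 252) (nat_lit 2979148256) (nat_lit 336) (nat_lit 24653630266) (nat_lit 24) (nat_lit 5) (nat_lit 27) (nat_lit 5) (nat_lit 28) (nat_lit 5) (nat_lit 376) (nat_lit 308) (nat_lit 180)) (XT.nd (nat_lit 94) (nat_lit 0) (nat_lit 0) (XT.lf (nat_lit 0) (nat_lit 8107498205) (nat_lit 336) (nat_lit 19456422740) (nat_lit 84) (nat_lit 2750150427) (nat_lit 24) (nat_lit 5) (nat_lit 28) (nat_lit 5) (nat_lit 25) (nat_lit 5) (nat_lit 377) (nat_lit 308) (nat_lit 179)) (XT.lf (nat_lit 0) (nat_lit 11397004281) (nat_lit 336) (nat_lit 11067268015) (nat_lit 84) (nat_lit 8592092911) (nat_lit 24) (nat_lit 5) (nat_lit 28) (nat_lit 5) (nat_lit 25) (nat_lit 5) (nat_lit 378) (nat_lit 308) (nat_lit 178)))))) (XT.nd (nat_lit 564) (nat_lit 252) (nat_lit 0) (XT.nd (nat_lit 282) (nat_lit 168) (nat_lit 0) (XT.nd (nat_lit 94) (nat_lit 168) (nat_lit 0) (XT.lf (nat_lit 0) (nat_lit 14781803759) (nat_lit 336) (nat_lit 2427941259)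 (nat_lit 84) (nat_lit 14612147695) (nat_lit 24) (nat_lit 5) (nat_lit 28) (nat_lit 5) (nat_lit 25) (nat_lit 5) (nat_lit 379) (nat_lit 308) (nat_lit 177)) (XT.nd (nat_lit 94) (nat_lit 0) (nat_lit 0) (XT.lf (nat_lit 0) (nat_lit 6602638742) (nat_lit 168) (nat_lit 11727911875) (nat_lit 252) (nat_lit 14278786353) (nat_lit 22) (nat_lit 5) (nat_lit 24) (nat_lit 5) (nat_lit 25) (nat_lit 5) (nat_lit 380) (nat_lit 308) (nat_lit 176)) (XT.lf (nat_lit 0) (nat_lit 15955140597) (nat_lit 168) (nat_lit 6053131002) (nat_lit 252) (nat_lit 11412347073) (nat_lit 22) (nat_lit 5) (nat_lit 24) (nat_lit 5) (nat_lit 25) (nat_lit 5) (nat_lit 381) (nat_lit 308) (nat_lit 175)))) (XT.nd (nat_lit 94) (nat_lit 168) (nat_lit 0) (XT.lf (nat_lit 0) (nat_lit 25588358365) (nat_lit 168) (nat_lit 205455636) (nat_lit 252) (nat_lit 8463442022) (nat_lit 22) (nat_lit 5) (nat_lit 24) (nat_lit 5) (nat_lit 25) (nat_lit 5) (nat_lit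 382) (nat_lit 308) (nat_lit 174)) (XT.nd (nat_lit 94) (nat_lit 0) (nat_lit 0) (XT.lf (nat_lit 0) (nat_lit 340359111) (nat_lit 168) (nat_lit 29411464362) (nat_lit 252) (nat_lit 5366310751) (nat_lit 20) (nat_lit 5) (nat_lit 22) (nat_lit 5) (nat_lit 23) (nat_lit 5) (nat_lit 383) (nat_lit 308) (nat_lit 173)) (XT.lf (nat_lit 0) (nat_lit 9801521265) (nat_lit 168) (nat_lit 24117636500) (nat_lit 252) (nat_lit 2083869716) (nat_lit 20) (nat_lit 5) (nat_lit 22) (nat_lit 5) (nat_lit 23) (nat_lit 5) (nat_lit 384) (nat_lit 308) (nat_lit 172))))) (XT.nd (nat_lit 282) (nat_lit 0) (nat_lit 0) (XT.nd (nat_lit 94) (nat_lit 168) (nat_lit 0) (XT.lf (nat_lit 0) (nat_lit 1268296321) (nat_lit 252) (nat_lit 17381146887) (nat_lit 84) (nat_lit 18265702600) (nat_lit 19) (nat_lit 5) (nat_lit 22) (nat_lit 5) (nat_lit 20) (nat_lit 5) (nat_lit 385) (nat_lit 308) (nat_lit 171)) (XT.nd (nat_lit 94) (nat_lit 168) (nat_lit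 0) (XT.lf (nat_lit 0) (nat_lit 4675436007) (nat_lit 252) (nat_lit 8317277164) (nat_lit 84) (nat_lit 24862353376) (nat_lit 19) (nat_lit 5) (nat_lit 22) (nat_lit 5) (nat_lit 20) (nat_lit 5) (nat_lit 386) (nat_lit 308) (nat_lit 170)) (XT.lf (nat_lit 0) (nat_lit 1040181003) (nat_lit 168) (nat_lit 7152848205) (nat_lit 252) (nat_lit 30630957554) (nat_lit 17) (nat_lit 5) (nat_lit 19) (nat_lit 5) (nat_lit 20) (nat_lit 5) (nat_lit 387) (nat_lit 308) (nat_lit 169)))) (XT.nd (nat_lit 94) (nat_lit 0) (nat_lit 0) (XT.lf (nat_lit 0) (nat_lit 10855777957) (nat_lit 168) (nat_lit 1045301603) (nat_lit 252) (nat_lit 27919351558) (nat_lit 17) (nat_lit 5) (nat_lit 19) (nat_lit 5) (nat_lit 20) (nat_lit 5) (nat_lit 388) (nat_lit 308) (nat_lit 168)) (XT.nd (nat_lit 94) (nat_lit 0) (nat_lit 0) (XT.lf (nat_lit 0) (nat_lit 15770907179) (nat_lit 252) (nat_lit 19932364959) (nat_lit 84) (nat_lit 5143052486) (nat_lit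 17) (nat_lit 5) (nat_lit 20) (nat_lit 5) (nat_lit 18) (nat_lit 5) (nat_lit 389) (nat_lit 308) (nat_lit 167)) (XT.lf (nat_lit 0) (nat_lit 19766280240) (nat_lit 252) (nat_lit 10638683205) (nat_lit 84) (nat_lit 11498895085) (nat_lit 17) (nat_lit 5) (nat_lit 20) (nat_lit 5) (nat_lit 18) (nat_lit 5) (nat_lit 390) (nat_lit 308) (nat_lit 166))))))) (XT.nd (nat_lit 1128) (nat_lit 168) (nat_lit 0) (XT.nd (nat_lit 564) (nat_lit 252) (nat_lit 0) (XT.nd (nat_lit 282) (nat_lit 84) (nat_lit 0) (XT.nd (nat_lit 94) (nat_lit 168) (nat_lit 0) (XT.lf (nat_lit 0) (nat_lit 23880553327) (nat_lit 252) (nat_lit 1064575694) (nat_lit 84) (nat_lit 18049211000) (nat_lit 17) (nat_lit 5) (nat_lit 20) (nat_lit 5) (nat_lit 18) (nat_lit 5) (nat_lit 391) (nat_lit 308) (nat_lit 165)) (XT.nd (nat_lit 94) (nat_lit 0) (nat_lit 0) (XT.lf (nat_lit 0) (nat_lit 8979804699) (nat_lit 168) (nat_lit 19226837450) (nat_lit 252) (nat_lit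 15909381889) (nat_lit 15) (nat_lit 5) (nat_lit 17) (nat_lit 5) (nat_lit 18) (nat_lit 5) (nat_lit 392) (nat_lit 308) (nat_lit 164)) (XT.lf (nat_lit 0) (nat_lit 19350757226) (nat_lit 168) (nat_lit 13322458400) (nat_lit 252) (nat_lit 12599076748) (nat_lit 15) (nat_lit 5) (nat_lit 17) (nat_lit 5) (nat_lit 18) (nat_lit 5) (nat_lit 393) (nat_lit 308) (nat_lit 163)))) (XT.nd (nat_lit 94) (nat_lit 84) (nat_lit 0) (XT.lf (nat_lit 0) (nat_lit 30036058840) (nat_lit 168) (nat_lit 7237600358) (nat_lit 252) (nat_lit 9190897707) (nat_lit 15) (nat_lit 5) (nat_lit 17) (nat_lit 5) (nat_lit 18) (nat_lit 5) (nat_lit 394) (nat_lit 308) (nat_lit 162)) (XT.nd (nat_lit 94) (nat_lit 84) (nat_lit 0) (XT.lf (nat_lit 0) (nat_lit 41045669362) (nat_lit 168) (nat_lit 966591600) (nat_lit 252) (nat_lit 5681667986) (nat_lit 15) (nat_lit 5) (nat_lit 17) (nat_lit 5) (nat_lit 18) (nat_lit 5) (nat_lit 395) (nat_lit 308)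 (nat_lit 161)) (XT.lf (nat_lit 0) (nat_lit 3443143056) (nat_lit 84) (nat_lit 43538976238) (nat_lit 168) (nat_lit 1976685986) (nat_lit 14) (nat_lit 5) (nat_lit 15) (nat_lit 5) (nat_lit 16) (nat_lit 4) (nat_lit 396) (nat_lit 308) (nat_lit 160))))) (XT.nd (nat_lit 282) (nat_lit 168) (nat_lit 0) (XT.nd (nat_lit 94) (nat_lit 0) (nat_lit 0) (XT.lf (nat_lit 0) (nat_lit 1881670691) (nat_lit 168) (nat_lit 36308176872) (nat_lit 84) (nat_lit 12070141463) (nat_lit 13) (nat_lit 5) (nat_lit 15) (nat_lit 5) (nat_lit 14) (nat_lit 5) (nat_lit 397) (nat_lit 308) (nat_lit 159)) (XT.nd (nat_lit 94) (nat_lit 0) (nat_lit 0) (XT.lf (nat_lit 0) (nat_lit 5814372048) (nat_lit 168) (nat_lit 26842143756) (nat_lit 84) (nat_lit 18944505396) (nat_lit 13) (nat_lit 5) (nat_lit 15) (nat_lit 5) (nat_lit 14) (nat_lit 5) (nat_lit 398) (nat_lit 308) (nat_lit 158)) (XT.lf (nat_lit 0) (nat_lit 9864909592) (nat_lit 168) (nat_lit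 17089130574) (nat_lit 84) (nat_lit 26029719499) (nat_lit 13) (nat_lit 5) (nat_lit 15) (nat_lit 5) (nat_lit 14) (nat_lit 5) (nat_lit 399) (nat_lit 308) (nat_lit 157)))) (XT.nd (nat_lit 94) (nat_lit 168) (nat_lit 0) (XT.lf (nat_lit 0) (nat_lit 14037058847) (nat_lit 168) (nat_lit 7040046495) (nat_lit 84) (nat_lit 33332387935) (nat_lit 13) (nat_lit 5) (nat_lit 15) (nat_lit 5) (nat_lit 14) (nat_lit 5) (nat_lit 400) (nat_lit 308) (nat_lit 156)) (XT.nd (nat_lit 94) (nat_lit 0) (nat_lit 0) (XT.lf (nat_lit 0) (nat_lit 3382627689) (nat_lit 168) (nat_lit 14985637089) (nat_lit 252) (nat_lit 37510245950) (nat_lit 11) (nat_lit 5) (nat_lit 13) (nat_lit 5) (nat_lit 14) (nat_lit 5) (nat_lit 401) (nat_lit 308) (nat_lit 155)) (XT.lf (nat_lit 0) (nat_lit 14271627743) (nat_lit 168) (nat_lit 8631813562) (nat_lit 252) (nat_lit 34487472815) (nat_lit 11) (nat_lit 5) (nat_lit 13) (nat_lit 5) (nat_lit 14) (nat_lit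 5) (nat_lit 402) (nat_lit 308) (nat_lit 154)))))) (XT.nd (nat_lit 564) (nat_lit 84) (nat_lit 0) (XT.nd (nat_lit 282) (nat_lit 84) (nat_lit 0) (XT.nd (nat_lit 94) (nat_lit 0) (nat_lit 0) (XT.lf (nat_lit 0) (nat_lit 25492345560) (nat_lit 168) (nat_lit 2083195977) (nat_lit 252) (nat_lit 31374781130) (nat_lit 11) (nat_lit 5) (nat_lit 13) (nat_lit 5) (nat_lit 14) (nat_lit 5) (nat_lit 403) (nat_lit 308) (nat_lit 153)) (XT.nd (nat_lit 94) (nat_lit 0) (nat_lit 0) (XT.lf (nat_lit 0) (nat_lit 32435210832) (nat_lit 252) (nat_lit 23549240346) (nat_lit 84) (nat_lit 4572303720) (nat_lit 11) (nat_lit 5) (nat_lit 14) (nat_lit 5) (nat_lit 12) (nat_lit 4) (nat_lit 404) (nat_lit 308) (nat_lit 152)) (XT.lf (nat_lit 0) (nat_lit 37463366198) (nat_lit 252) (nat_lit 13360227403) (nat_lit 84) (nat_lit 11388846569) (nat_lit 11) (nat_lit 5) (nat_lit 14) (nat_lit 5) (nat_lit 12) (nat_lit 4) (nat_lit 405) (nat_lit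 308) (nat_lit 151)))) (XT.nd (nat_lit 94) (nat_lit 84) (nat_lit 0) (XT.lf (nat_lit 0) (nat_lit 42644028842) (nat_lit 252) (nat_lit 2860775487) (nat_lit 84) (nat_lit 18414758058) (nat_lit 11) (nat_lit 5) (nat_lit 14) (nat_lit 5) (nat_lit 12) (nat_lit 4) (nat_lit 406) (nat_lit 308) (nat_lit 150)) (XT.nd (nat_lit 94) (nat_lit 0) (nat_lit 0) (XT.lf (nat_lit 0) (nat_lit 8122553336) (nat_lit 84) (nat_lit 39940051082) (nat_lit 168) (nat_lit 17614610470) (nat_lit 10) (nat_lit 5) (nat_lit 11) (nat_lit 5) (nat_lit 12) (nat_lit 4) (nat_lit 407) (nat_lit 308) (nat_lit 149)) (XT.lf (nat_lit 0) (nat_lit 19501808069) (nat_lit 84) (nat_lit 34173990577) (nat_lit 168) (nat_lit 13812736034) (nat_lit 10) (nat_lit 5) (nat_lit 11) (nat_lit 5) (nat_lit 12) (nat_lit 4) (nat_lit 408) (nat_lit 308) (nat_lit 148))))) (XT.nd (nat_lit 282) (nat_lit 84) (nat_lit 0) (XT.nd (nat_lit 94) (nat_lit 0) (nat_lit 0) (XT.lf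 (nat_lit 0) (nat_lit 31228771958) (nat_lit 84) (nat_lit 28231108873) (nat_lit 168) (nat_lit 9896227123) (nat_lit 10) (nat_lit 5) (nat_lit 11) (nat_lit 5) (nat_lit 12) (nat_lit 4) (nat_lit 409) (nat_lit 308) (nat_lit 147)) (XT.nd (nat_lit 94) (nat_lit 0) (nat_lit 0) (XT.lf (nat_lit 0) (nat_lit 43314375760) (nat_lit 84) (nat_lit 22105866581) (nat_lit 168) (nat_lit 5861433139) (nat_lit 10) (nat_lit 5) (nat_lit 11) (nat_lit 5) (nat_lit 12) (nat_lit 4) (nat_lit 410) (nat_lit 308) (nat_lit 146)) (XT.lf (nat_lit 0) (nat_lit 55769884525) (nat_lit 84) (nat_lit 15792554333) (nat_lit 168) (nat_lit 1704593232) (nat_lit 10) (nat_lit 5) (nat_lit 11) (nat_lit 5) (nat_lit 12) (nat_lit 4) (nat_lit 411) (nat_lit 308) (nat_lit 145)))) (XT.nd (nat_lit 44556) (nat_lit 0) (nat_lit 11004) (XT.lf (nat_lit 0) (nat_lit 2526222884) (nat_lit 168) (nat_lit 6732695992) (nat_lit 84) (nat_lit 66054316621) (nat_lit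 9) (nat_lit 5) (nat_lit 11) (nat_lit 5) (nat_lit 10) (nat_lit 5) (nat_lit 412) (nat_lit 308) (nat_lit 144)) (XT.nd (nat_lit 94) (nat_lit 0) (nat_lit 0) (XT.lf (nat_lit 0) (nat_lit 31403946) (nat_lit 0) (nat_lit 31403946) (nat_lit 924) (nat_lit 4206769067) (nat_lit 140) (nat_lit 5) (nat_lit 140) (nat_lit 3) (nat_lit 151) (nat_lit 3) (nat_lit 309) (nat_lit 309) (nat_lit 246)) (XT.lf (nat_lit 0) (nat_lit 1040042368) (nat_lit 924) (nat_lit 5158317119) (nat_lit 1008) (nat_lit 2441195538) (nat_lit 140) (nat_lit 5) (nat_lit 151) (nat_lit 3) (nat_lit 152) (nat_lit 5) (nat_lit 310) (nat_lit 309) (nat_lit 245))))))))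
noncomputable def xc137 : XT := (XT.nd (nat_lit 2256) (nat_lit 3948) (nat_lit 0) (XT.nd (nat_lit 1128) (nat_lit 3108) (nat_lit 0) (XT.nd (nat_lit 564) (nat_lit 756) (nat_lit 0) (XT.nd (nat_lit 282) (nat_lit 0) (nat_lit 84) (XT.nd (nat_lit 94) (nat_lit 0) (nat_lit 0) (XT.lf (nat_lit 0) (nat_lit 1947863031) (nat_lit 924) (nat_lit 1757392409) (nat_lit 1008) (nat_lit 5039044515) (nat_lit 140) (nat_lit 5) (nat_lit 151) (nat_lit 3) (nat_lit 152) (nat_lit 5) (nat_lit 311) (nat_lit 309) (nat_lit 244)) (XT.nd (nat_lit 94) (nat_lit 0) (nat_lit 84) (XT.lf (nat_lit 84) (nat_lit 1765798079) (nat_lit 0) (nat_lit 1101019751) (nat_lit 1008) (nat_lit 5986144799) (nat_lit 141) (nat_lit 5) (nat_lit 140) (nat_lit 5) (nat_lit 152) (nat_lit 5) (nat_lit 312) (nat_lit 309) (nat_lit 243)) (XT.lf (nat_lit 0) (nat_lit 3814983212) (nat_lit 924) (nat_lit 3564745445) (nat_lit 1008) (nat_lit 1585381861) (nat_lit 141)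 (nat_lit 5) (nat_lit 152) (nat_lit 5) (nat_lit 153) (nat_lit 5) (nat_lit 313) (nat_lit 309) (nat_lit 242)))) (XT.nd (nat_lit 94) (nat_lit 0) (nat_lit 0) (XT.lf (nat_lit 84) (nat_lit 37069563) (nat_lit 0) (nat_lit 4734587490) (nat_lit 1008) (nat_lit 4309860264) (nat_lit 142) (nat_lit 5) (nat_lit 141) (nat_lit 5) (nat_lit 153) (nat_lit 5) (nat_lit 314) (nat_lit 309) (nat_lit 241)) (XT.nd (nat_lit 94) (nat_lit 0) (nat_lit 84) (XT.lf (nat_lit 84) (nat_lit 3807021697) (nat_lit 0) (nat_lit 1956449706) (nat_lit 1008) (nat_lit 3438022178) (nat_lit 142) (nat_lit 5) (nat_lit 141) (nat_lit 5) (nat_lit 153) (nat_lit 5) (nat_lit 315) (nat_lit 309) (nat_lit 240)) (XT.lf (nat_lit 0) (nat_lit 6764388056) (nat_lit 924) (nat_lit 1660070622) (nat_lit 1008) (nat_lit 901528306) (nat_lit 142) (nat_lit 5) (nat_lit 153) (nat_lit 5) (nat_lit 154) (nat_lit 5) (nat_lit 316) (nat_lit 309) (nat_lit 239))))) (XT.nd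 (nat_lit 282) (nat_lit 0) (nat_lit 0) (XT.nd (nat_lit 94) (nat_lit 924) (nat_lit 0) (XT.lf (nat_lit 84) (nat_lit 2195190006) (nat_lit 0) (nat_lit 5613201585) (nat_lit 1008) (nat_lit 1645697375) (nat_lit 143) (nat_lit 5) (nat_lit 142) (nat_lit 5) (nat_lit 154) (nat_lit 5) (nat_lit 317) (nat_lit 309) (nat_lit 238)) (XT.nd (nat_lit 94) (nat_lit 924) (nat_lit 0) (XT.lf (nat_lit 84) (nat_lit 6186224586) (nat_lit 0) (nat_lit 2686840467) (nat_lit 1008) (nat_lit 713578969) (nat_lit 143) (nat_lit 5) (nat_lit 142) (nat_lit 5) (nat_lit 154) (nat_lit 5) (nat_lit 318) (nat_lit 309) (nat_lit 237)) (XT.lf (nat_lit 0) (nat_lit 222982588) (nat_lit 1008) (nat_lit 9159915676) (nat_lit 1092) (nat_lit 341049736) (nat_lit 131) (nat_lit 5) (nat_lit 143) (nat_lit 5) (nat_lit 144) (nat_lit 5) (nat_lit 319) (nat_lit 309) (nat_lit 236)))) (XT.nd (nat_lit 94) (nat_lit 0) (nat_lit 0) (XT.lf (nat_lit 0) (nat_lit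 1209301319) (nat_lit 1008) (nat_lit 5196011721) (nat_lit 1092) (nat_lit 3458976121) (nat_lit 131) (nat_lit 5) (nat_lit 143) (nat_lit 5) (nat_lit 144) (nat_lit 5) (nat_lit 320) (nat_lit 309) (nat_lit 235)) (XT.nd (nat_lit 94) (nat_lit 0) (nat_lit 0) (XT.lf (nat_lit 0) (nat_lit 2199241518) (nat_lit 1008) (nat_lit 1128558949) (nat_lit 1092) (nat_lit 6682121686) (nat_lit 131) (nat_lit 5) (nat_lit 143) (nat_lit 5) (nat_lit 144) (nat_lit 5) (nat_lit 321) (nat_lit 309) (nat_lit 234)) (XT.lf (nat_lit 84) (nat_lit 3108870747) (nat_lit 0) (nat_lit 115695550) (nat_lit 1092) (nat_lit 6935460375) (nat_lit 132) (nat_lit 5) (nat_lit 131) (nat_lit 5) (nat_lit 144) (nat_lit 5) (nat_lit 322) (nat_lit 309) (nat_lit 233)))))) (XT.nd (nat_lit 564) (nat_lit 2268) (nat_lit 0) (XT.nd (nat_lit 282) (nat_lit 924) (nat_lit 0) (XT.nd (nat_lit 94) (nat_lit 0) (nat_lit 0) (XT.lf (nat_lit 0) (nat_lit 4299808296) (nat_lit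 1008) (nat_lit 2864180233) (nat_lit 1092) (nat_lit 3150333216) (nat_lit 132) (nat_lit 5) (nat_lit 144) (nat_lit 5) (nat_lit 145) (nat_lit 5) (nat_lit 323) (nat_lit 309) (nat_lit 232)) (XT.nd (nat_lit 94) (nat_lit 0) (nat_lit 0) (XT.lf (nat_lit 84) (nat_lit 1461928431) (nat_lit 0) (nat_lit 3937433349) (nat_lit 1092) (nat_lit 5074414257) (nat_lit 133) (nat_lit 5) (nat_lit 132) (nat_lit 5) (nat_lit 145) (nat_lit 5) (nat_lit 324) (nat_lit 309) (nat_lit 231)) (XT.lf (nat_lit 84) (nat_lit 5964122692) (nat_lit 0) (nat_lit 574625025) (nat_lit 1092) (nat_lit 4099341081) (nat_lit 133) (nat_lit 5) (nat_lit 132) (nat_lit 5) (nat_lit 145) (nat_lit 5) (nat_lit 325) (nat_lit 309) (nat_lit 230)))) (XT.nd (nat_lit 94) (nat_lit 1008) (nat_lit 0) (XT.lf (nat_lit 0) (nat_lit 7718776178) (nat_lit 1008) (nat_lit 249351747) (nat_lit 84) (nat_lit 2839293074) (nat_lit 133) (nat_lit 5) (nat_lit 145) (nat_lit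 5) (nat_lit 134) (nat_lit 5) (nat_lit 326) (nat_lit 309) (nat_lit 229)) (XT.nd (nat_lit 94) (nat_lit 0) (nat_lit 0) (XT.lf (nat_lit 0) (nat_lit 4376244714) (nat_lit 1008) (nat_lit 4585761785) (nat_lit 1092) (nat_lit 2019258730) (nat_lit 121) (nat_lit 5) (nat_lit 133) (nat_lit 5) (nat_lit 134) (nat_lit 5) (nat_lit 327) (nat_lit 309) (nat_lit 228)) (XT.lf (nat_lit 0) (nat_lit 9132232380) (nat_lit 1008) (nat_lit 1091978515) (nat_lit 1092) (nat_lit 936979621) (nat_lit 121) (nat_lit 5) (nat_lit 133) (nat_lit 5) (nat_lit 134) (nat_lit 5) (nat_lit 328) (nat_lit 309) (nat_lit 227))))) (XT.nd (nat_lit 282) (nat_lit 588) (nat_lit 0) (XT.nd (nat_lit 94) (nat_lit 504) (nat_lit 0) (XT.lf (nat_lit 0) (nat_lit 205694097) (nat_lit 1176) (nat_lit 8647987912) (nat_lit 84) (nat_lit 2492092890) (nat_lit 107) (nat_lit 5) (nat_lit 121) (nat_lit 5) (nat_lit 108) (nat_lit 5) (nat_lit 329) (nat_lit 309) (nat_lit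 226)) (XT.nd (nat_lit 94) (nat_lit 504) (nat_lit 0) (XT.lf (nat_lit 0) (nat_lit 1375595718) (nat_lit 1176) (nat_lit 3961172267) (nat_lit 84) (nat_lit 6198744889) (nat_lit 107) (nat_lit 5) (nat_lit 121) (nat_lit 5) (nat_lit 108) (nat_lit 5) (nat_lit 330) (nat_lit 309) (nat_lit 225)) (XT.lf (nat_lit 0) (nat_lit 870180360) (nat_lit 504) (nat_lit 1699561667) (nat_lit 588) (nat_lit 9161838917) (nat_lit 101) (nat_lit 5) (nat_lit 107) (nat_lit 5) (nat_lit 108) (nat_lit 5) (nat_lit 331) (nat_lit 309) (nat_lit 224)))) (XT.nd (nat_lit 94) (nat_lit 588) (nat_lit 0) (XT.lf (nat_lit 0) (nat_lit 3842824329) (nat_lit 588) (nat_lit 6036750946) (nat_lit 84) (nat_lit 2052925665) (nat_lit 101) (nat_lit 5) (nat_lit 108) (nat_lit 5) (nat_lit 102) (nat_lit 5) (nat_lit 332) (nat_lit 309) (nat_lit 223)) (XT.nd (nat_lit 94) (nat_lit 588) (nat_lit 0) (XT.lf (nat_lit 0) (nat_lit 5153169696) (nat_lit 588) (nat_lit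 1098175915) (nat_lit 84) (nat_lit 5888443174) (nat_lit 101) (nat_lit 5) (nat_lit 108) (nat_lit 5) (nat_lit 102) (nat_lit 5) (nat_lit 333) (nat_lit 309) (nat_lit 222)) (XT.lf (nat_lit 0) (nat_lit 4057537985) (nat_lit 588) (nat_lit 2467852940) (nat_lit 672) (nat_lit 5827521636) (nat_lit 94) (nat_lit 5) (nat_lit 101) (nat_lit 5) (nat_lit 102) (nat_lit 5) (nat_lit 334) (nat_lit 309) (nat_lit 221))))))) (XT.nd (nat_lit 1128) (nat_lit 1596) (nat_lit 0) (XT.nd (nat_lit 564) (nat_lit 1260) (nat_lit 0) (XT.nd (nat_lit 282) (nat_lit 588) (nat_lit 0) (XT.nd (nat_lit 94) (nat_lit 504) (nat_lit 0) (XT.lf (nat_lit 0) (nat_lit 7947357570) (nat_lit 672) (nat_lit 3208442185) (nat_lit 84) (nat_lit 1416686862) (nat_lit 94) (nat_lit 5) (nat_lit 102) (nat_lit 5) (nat_lit 95) (nat_lit 5) (nat_lit 335) (nat_lit 309) (nat_lit 220)) (XT.nd (nat_lit 94) (nat_lit 0) (nat_lit 0) (XT.lf (nat_lit 0) (nat_lit 2034295941)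 (nat_lit 504) (nat_lit 7406500737) (nat_lit 588) (nat_lit 3357286488) (nat_lit 88) (nat_lit 5) (nat_lit 94) (nat_lit 5) (nat_lit 95) (nat_lit 5) (nat_lit 336) (nat_lit 309) (nat_lit 219)) (XT.lf (nat_lit 0) (nat_lit 7490119414) (nat_lit 504) (nat_lit 3506242171) (nat_lit 588) (nat_lit 2033883805) (nat_lit 88) (nat_lit 5) (nat_lit 94) (nat_lit 5) (nat_lit 95) (nat_lit 5) (nat_lit 337) (nat_lit 309) (nat_lit 218)))) (XT.nd (nat_lit 94) (nat_lit 588) (nat_lit 0) (XT.lf (nat_lit 0) (nat_lit 12588129717) (nat_lit 588) (nat_lit 177165242) (nat_lit 84) (nat_lit 504743277) (nat_lit 88) (nat_lit 5) (nat_lit 95) (nat_lit 5) (nat_lit 89) (nat_lit 5) (nat_lit 338) (nat_lit 309) (nat_lit 217)) (XT.nd (nat_lit 94) (nat_lit 0) (nat_lit 0) (XT.lf (nat_lit 0) (nat_lit 771218542) (nat_lit 588) (nat_lit 8114721985) (nat_lit 84) (nat_lit 4628881419) (nat_lit 81) (nat_lit 5) (nat_lit 88) (nat_lit 5) (nat_lit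 82) (nat_lit 5) (nat_lit 339) (nat_lit 309) (nat_lit 216)) (XT.lf (nat_lit 0) (nat_lit 2240593284) (nat_lit 588) (nat_lit 2637335478) (nat_lit 84) (nat_lit 8889558310) (nat_lit 81) (nat_lit 5) (nat_lit 88) (nat_lit 5) (nat_lit 82) (nat_lit 5) (nat_lit 340) (nat_lit 309) (nat_lit 215))))) (XT.nd (nat_lit 282) (nat_lit 420) (nat_lit 0) (XT.nd (nat_lit 94) (nat_lit 420) (nat_lit 0) (XT.lf (nat_lit 0) (nat_lit 3054691238) (nat_lit 420) (nat_lit 715123945) (nat_lit 504) (nat_lit 10257780423) (nat_lit 76) (nat_lit 5) (nat_lit 81) (nat_lit 5) (nat_lit 82) (nat_lit 5) (nat_lit 341) (nat_lit 309) (nat_lit 214)) (XT.nd (nat_lit 94) (nat_lit 420) (nat_lit 0) (XT.lf (nat_lit 0) (nat_lit 5394036957) (nat_lit 504) (nat_lit 5368661562) (nat_lit 84) (nat_lit 3531645932) (nat_lit 76) (nat_lit 5) (nat_lit 82) (nat_lit 5) (nat_lit 77) (nat_lit 5) (nat_lit 342) (nat_lit 309) (nat_lit 213)) (XT.lf (nat_lit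 0) (nat_lit 393372210) (nat_lit 420) (nat_lit 6671228209) (nat_lit 504) (nat_lit 7504937163) (nat_lit 71) (nat_lit 5) (nat_lit 76) (nat_lit 5) (nat_lit 77) (nat_lit 5) (nat_lit 343) (nat_lit 309) (nat_lit 212)))) (XT.nd (nat_lit 94) (nat_lit 420) (nat_lit 0) (XT.lf (nat_lit 0) (nat_lit 6431457312) (nat_lit 420) (nat_lit 2396601593) (nat_lit 504) (nat_lit 6023977719) (nat_lit 71) (nat_lit 5) (nat_lit 76) (nat_lit 5) (nat_lit 77) (nat_lit 5) (nat_lit 344) (nat_lit 309) (nat_lit 211)) (XT.nd (nat_lit 94) (nat_lit 420) (nat_lit 0) (XT.lf (nat_lit 0) (nat_lit 10651634064) (nat_lit 504) (nat_lit 2522889455) (nat_lit 84) (nat_lit 1968648461) (nat_lit 71) (nat_lit 5) (nat_lit 77) (nat_lit 5) (nat_lit 72) (nat_lit 5) (nat_lit 345) (nat_lit 309) (nat_lit 210)) (XT.lf (nat_lit 0) (nat_lit 3589556523) (nat_lit 420) (nat_lit 8988244484) (nat_lit 504) (nat_lit 2864149976) (nat_lit 66) (nat_lit 5)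 (nat_lit 71) (nat_lit 5) (nat_lit 72) (nat_lit 5) (nat_lit 346) (nat_lit 309) (nat_lit 209)))))) (XT.nd (nat_lit 564) (nat_lit 756) (nat_lit 0) (XT.nd (nat_lit 282) (nat_lit 336) (nat_lit 0) (XT.nd (nat_lit 94) (nat_lit 504) (nat_lit 0) (XT.lf (nat_lit 0) (nat_lit 9929250820) (nat_lit 420) (nat_lit 4646969392) (nat_lit 504) (nat_lit 1173428097) (nat_lit 66) (nat_lit 5) (nat_lit 71) (nat_lit 5) (nat_lit 72) (nat_lit 5) (nat_lit 347) (nat_lit 309) (nat_lit 208)) (XT.nd (nat_lit 94) (nat_lit 0) (nat_lit 0) (XT.lf (nat_lit 0) (nat_lit 385129549) (nat_lit 420) (nat_lit 163361301) (nat_lit 504) (nat_lit 15518562338) (nat_lit 60) (nat_lit 5) (nat_lit 65) (nat_lit 5) (nat_lit 66) (nat_lit 5) (nat_lit 348) (nat_lit 309) (nat_lit 207)) (XT.lf (nat_lit 0) (nat_lit 2391701296) (nat_lit 504) (nat_lit 9558700576) (nat_lit 84) (nat_lit 4440703822) (nat_lit 60) (nat_lit 5) (nat_lit 66) (nat_lit 5) (nat_lit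 61) (nat_lit 5) (nat_lit 349) (nat_lit 309) (nat_lit 206)))) (XT.nd (nat_lit 94) (nat_lit 336) (nat_lit 0) (XT.lf (nat_lit 0) (nat_lit 4280798982) (nat_lit 504) (nat_lit 3262696613) (nat_lit 84) (nat_lit 9182096834) (nat_lit 60) (nat_lit 5) (nat_lit 66) (nat_lit 5) (nat_lit 61) (nat_lit 5) (nat_lit 350) (nat_lit 309) (nat_lit 205)) (XT.nd (nat_lit 94) (nat_lit 0) (nat_lit 0) (XT.lf (nat_lit 0) (nat_lit 3279655090) (nat_lit 336) (nat_lit 2968803676) (nat_lit 420) (nat_lit 10821408070) (nat_lit 56) (nat_lit 5) (nat_lit 60) (nat_lit 5) (nat_lit 61) (nat_lit 5) (nat_lit 351) (nat_lit 309) (nat_lit 204)) (XT.lf (nat_lit 0) (nat_lit 8316529295) (nat_lit 420) (nat_lit 7362606360) (nat_lit 84) (nat_lit 1744493706) (nat_lit 56) (nat_lit 5) (nat_lit 61) (nat_lit 5) (nat_lit 57) (nat_lit 5) (nat_lit 352) (nat_lit 309) (nat_lit 203))))) (XT.nd (nat_lit 282) (nat_lit 420) (nat_lit 0) (XT.nd (nat_lit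 94) (nat_lit 336) (nat_lit 0) (XT.lf (nat_lit 0) (nat_lit 10467116255) (nat_lit 420) (nat_lit 780803309) (nat_lit 84) (nat_lit 6539904666) (nat_lit 56) (nat_lit 5) (nat_lit 61) (nat_lit 5) (nat_lit 57) (nat_lit 5) (nat_lit 353) (nat_lit 309) (nat_lit 202)) (XT.nd (nat_lit 94) (nat_lit 0) (nat_lit 0) (XT.lf (nat_lit 0) (nat_lit 6113966027) (nat_lit 336) (nat_lit 6619458593) (nat_lit 420) (nat_lit 5428399078) (nat_lit 52) (nat_lit 5) (nat_lit 56) (nat_lit 5) (nat_lit 57) (nat_lit 5) (nat_lit 354) (nat_lit 309) (nat_lit 201)) (XT.lf (nat_lit 0) (nat_lit 13224917727) (nat_lit 336) (nat_lit 1841831488) (nat_lit 420) (nat_lit 3480802504) (nat_lit 52) (nat_lit 5) (nat_lit 56) (nat_lit 5) (nat_lit 57) (nat_lit 5) (nat_lit 355) (nat_lit 309) (nat_lit 200)))) (XT.nd (nat_lit 94) (nat_lit 84) (nat_lit 0) (XT.lf (nat_lit 0) (nat_lit 1598654944) (nat_lit 336) (nat_lit 15909130452) (nat_lit 420) (nat_lit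 1436388300) (nat_lit 48) (nat_lit 5) (nat_lit 52) (nat_lit 5) (nat_lit 53) (nat_lit 5) (nat_lit 356) (nat_lit 309) (nat_lit 199)) (XT.nd (nat_lit 94) (nat_lit 0) (nat_lit 0) (XT.lf (nat_lit 0) (nat_lit 721818064) (nat_lit 420) (nat_lit 10544243030) (nat_lit 84) (nat_lit 8084872328) (nat_lit 47) (nat_lit 5) (nat_lit 52) (nat_lit 5) (nat_lit 48) (nat_lit 5) (nat_lit 357) (nat_lit 309) (nat_lit 198)) (XT.lf (nat_lit 0) (nat_lit 2906402413) (nat_lit 420) (nat_lit 3560542215) (nat_lit 84) (nat_lit 13303264244) (nat_lit 47) (nat_lit 5) (nat_lit 52) (nat_lit 5) (nat_lit 48) (nat_lit 5) (nat_lit 358) (nat_lit 309) (nat_lit 197))))))))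
noncomputable def xc138 : XT := (XT.nd (nat_lit 2256) (nat_lit 924) (nat_lit 0) (XT.nd (nat_lit 1128) (nat_lit 924) (nat_lit 0) (XT.nd (nat_lit 564) (nat_lit 588) (nat_lit 0) (XT.nd (nat_lit 282) (nat_lit 252) (nat_lit 0) (XT.nd (nat_lit 94) (nat_lit 0) (nat_lit 0) (XT.lf (nat_lit 0) (nat_lit 3700907419) (nat_lit 336) (nat_lit 1484147070) (nat_lit 420) (nat_lit 15016639973) (nat_lit 43) (nat_lit 5) (nat_lit 47) (nat_lit 5) (nat_lit 48) (nat_lit 5) (nat_lit 359) (nat_lit 309) (nat_lit 196)) (XT.nd (nat_lit 94) (nat_lit 0) (nat_lit 0) (XT.lf (nat_lit 0) (nat_lit 7597912550) (nat_lit 420) (nat_lit 9432570616) (nat_lit 84) (nat_lit 3614130771) (nat_lit 43) (nat_lit 5) (nat_lit 48) (nat_lit 5) (nat_lit 44) (nat_lit 5) (nat_lit 360) (nat_lit 309) (nat_lit 195)) (XT.lf (nat_lit 0) (nat_lit 10090839260) (nat_lit 420) (nat_lit 2173503926) (nat_lit 84) (nat_lit 8836784939) (nat_lit 43) (nat_lit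 5) (nat_lit 48) (nat_lit 5) (nat_lit 44) (nat_lit 5) (nat_lit 361) (nat_lit 309) (nat_lit 194)))) (XT.nd (nat_lit 94) (nat_lit 0) (nat_lit 0) (XT.lf (nat_lit 0) (nat_lit 5406837895) (nat_lit 252) (nat_lit 7298233971) (nat_lit 336) (nat_lit 8865384353) (nat_lit 40) (nat_lit 5) (nat_lit 43) (nat_lit 5) (nat_lit 44) (nat_lit 5) (nat_lit 362) (nat_lit 309) (nat_lit 193)) (XT.nd (nat_lit 94) (nat_lit 0) (nat_lit 0) (XT.lf (nat_lit 0) (nat_lit 13255684276) (nat_lit 252) (nat_lit 2157901363) (nat_lit 336) (nat_lit 6640363352) (nat_lit 40) (nat_lit 5) (nat_lit 43) (nat_lit 5) (nat_lit 44) (nat_lit 5) (nat_lit 363) (nat_lit 309) (nat_lit 192)) (XT.lf (nat_lit 0) (nat_lit 18228037300) (nat_lit 336) (nat_lit 1248216670) (nat_lit 84) (nat_lit 3075520042) (nat_lit 40) (nat_lit 5) (nat_lit 44) (nat_lit 5) (nat_lit 41) (nat_lit 5) (nat_lit 364) (nat_lit 309) (nat_lit 191))))) (XT.nd (nat_lit 282) (nat_lit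 252) (nat_lit 0) (XT.nd (nat_lit 94) (nat_lit 84) (nat_lit 0) (XT.lf (nat_lit 0) (nat_lit 6635411489) (nat_lit 252) (nat_lit 14573303340) (nat_lit 336) (nat_lit 1853892872) (nat_lit 37) (nat_lit 5) (nat_lit 40) (nat_lit 5) (nat_lit 41) (nat_lit 5) (nat_lit 365) (nat_lit 309) (nat_lit 190)) (XT.nd (nat_lit 94) (nat_lit 0) (nat_lit 0) (XT.lf (nat_lit 0) (nat_lit 682845572) (nat_lit 336) (nat_lit 8818155813) (nat_lit 84) (nat_lit 14087953102) (nat_lit 36) (nat_lit 5) (nat_lit 40) (nat_lit 5) (nat_lit 37) (nat_lit 5) (nat_lit 366) (nat_lit 309) (nat_lit 189)) (XT.lf (nat_lit 0) (nat_lit 3251100222) (nat_lit 336) (nat_lit 1004003136) (nat_lit 84) (nat_lit 19876216150) (nat_lit 36) (nat_lit 5) (nat_lit 40) (nat_lit 5) (nat_lit 37) (nat_lit 5) (nat_lit 367) (nat_lit 309) (nat_lit 188)))) (XT.nd (nat_lit 94) (nat_lit 0) (nat_lit 0) (XT.lf (nat_lit 0) (nat_lit 5974040296) (nat_lit 336) (nat_lit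 17514996651) (nat_lit 84) (nat_lit 1199155344) (nat_lit 33) (nat_lit 5) (nat_lit 37) (nat_lit 5) (nat_lit 34) (nat_lit 5) (nat_lit 368) (nat_lit 309) (nat_lit 187)) (XT.nd (nat_lit 94) (nat_lit 0) (nat_lit 0) (XT.lf (nat_lit 0) (nat_lit 8827251903) (nat_lit 336) (nat_lit 9692038947) (nat_lit 84) (nat_lit 6741636561) (nat_lit 33) (nat_lit 5) (nat_lit 37) (nat_lit 5) (nat_lit 34) (nat_lit 5) (nat_lit 369) (nat_lit 309) (nat_lit 186)) (XT.lf (nat_lit 0) (nat_lit 11760914793) (nat_lit 336) (nat_lit 1637802072) (nat_lit 84) (nat_lit 12452968724) (nat_lit 33) (nat_lit 5) (nat_lit 37) (nat_lit 5) (nat_lit 34) (nat_lit 5) (nat_lit 370) (nat_lit 309) (nat_lit 185)))))) (XT.nd (nat_lit 564) (nat_lit 420) (nat_lit 0) (XT.nd (nat_lit 282) (nat_lit 252) (nat_lit 0) (XT.nd (nat_lit 94) (nat_lit 0) (nat_lit 0) (XT.lf (nat_lit 0) (nat_lit 6792066366) (nat_lit 252) (nat_lit 8053075219) (nat_lit 336)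 (nat_lit 11613787166) (nat_lit 30) (nat_lit 5) (nat_lit 33) (nat_lit 5) (nat_lit 34) (nat_lit 5) (nat_lit 371) (nat_lit 309) (nat_lit 184)) (XT.nd (nat_lit 94) (nat_lit 0) (nat_lit 0) (XT.lf (nat_lit 0) (nat_lit 15507196790) (nat_lit 252) (nat_lit 2527246405) (nat_lit 336) (nat_lit 9050278998) (nat_lit 30) (nat_lit 5) (nat_lit 33) (nat_lit 5) (nat_lit 34) (nat_lit 5) (nat_lit 372) (nat_lit 309) (nat_lit 183)) (XT.lf (nat_lit 0) (nat_lit 21346626404) (nat_lit 336) (nat_lit 3279542491) (nat_lit 84) (nat_lit 3103020470) (nat_lit 30) (nat_lit 5) (nat_lit 34) (nat_lit 5) (nat_lit 31) (nat_lit 5) (nat_lit 373) (nat_lit 309) (nat_lit 182)))) (XT.nd (nat_lit 94) (nat_lit 84) (nat_lit 0) (XT.lf (nat_lit 0) (nat_lit 5347207599) (nat_lit 168) (nat_lit 19485963533) (nat_lit 252) (nat_lit 3558259674) (nat_lit 28) (nat_lit 5) (nat_lit 30) (nat_lit 5) (nat_lit 31) (nat_lit 5) (nat_lit 374) (nat_lit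 309) (nat_lit 181)) (XT.nd (nat_lit 94) (nat_lit 84) (nat_lit 0) (XT.lf (nat_lit 0) (nat_lit 14300659552) (nat_lit 168) (nat_lit 14154277041) (nat_lit 252) (nat_lit 618441311) (nat_lit 28) (nat_lit 5) (nat_lit 30) (nat_lit 5) (nat_lit 31) (nat_lit 5) (nat_lit 375) (nat_lit 309) (nat_lit 180)) (XT.lf (nat_lit 0) (nat_lit 2356937185) (nat_lit 252) (nat_lit 6278832652) (nat_lit 84) (nat_lit 21140186026) (nat_lit 27) (nat_lit 5) (nat_lit 30) (nat_lit 5) (nat_lit 28) (nat_lit 5) (nat_lit 376) (nat_lit 309) (nat_lit 179))))) (XT.nd (nat_lit 282) (nat_lit 168) (nat_lit 0) (XT.nd (nat_lit 94) (nat_lit 0) (nat_lit 0) (XT.lf (nat_lit 0) (nat_lit 2512867378) (nat_lit 252) (nat_lit 2917008505) (nat_lit 336) (nat_lit 25069694426) (nat_lit 24) (nat_lit 5) (nat_lit 27) (nat_lit 5) (nat_lit 28) (nat_lit 5) (nat_lit 377) (nat_lit 309) (nat_lit 178)) (XT.nd (nat_lit 94) (nat_lit 0) (nat_lit 0) (XT.lf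 (nat_lit 0) (nat_lit 8687155220) (nat_lit 336) (nat_lit 19573481513) (nat_lit 84) (nat_lit 2982234043) (nat_lit 24) (nat_lit 5) (nat_lit 28) (nat_lit 5) (nat_lit 25) (nat_lit 5) (nat_lit 378) (nat_lit 309) (nat_lit 177)) (XT.lf (nat_lit 0) (nat_lit 12068763956) (nat_lit 336) (nat_lit 10938878705) (nat_lit 84) (nat_lit 9000861906) (nat_lit 24) (nat_lit 5) (nat_lit 28) (nat_lit 5) (nat_lit 25) (nat_lit 5) (nat_lit 379) (nat_lit 309) (nat_lit 176)))) (XT.nd (nat_lit 94) (nat_lit 168) (nat_lit 0) (XT.lf (nat_lit 0) (nat_lit 15548917020) (nat_lit 336) (nat_lit 2045909069) (nat_lit 84) (nat_lit 15203256296) (nat_lit 24) (nat_lit 5) (nat_lit 28) (nat_lit 5) (nat_lit 25) (nat_lit 5) (nat_lit 380) (nat_lit 309) (nat_lit 175)) (XT.nd (nat_lit 94) (nat_lit 0) (nat_lit 0) (XT.lf (nat_lit 0) (nat_lit 7259989177) (nat_lit 168) (nat_lit 11942889091) (nat_lit 252) (nat_lit 14407229308) (nat_lit 22)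 (nat_lit 5) (nat_lit 24) (nat_lit 5) (nat_lit 25) (nat_lit 5) (nat_lit 381) (nat_lit 309) (nat_lit 174)) (XT.lf (nat_lit 0) (nat_lit 16888807797) (nat_lit 168) (nat_lit 6096657741) (nat_lit 252) (nat_lit 11461377726) (nat_lit 22) (nat_lit 5) (nat_lit 24) (nat_lit 5) (nat_lit 25) (nat_lit 5) (nat_lit 382) (nat_lit 309) (nat_lit 173))))))) (XT.nd (nat_lit 1128) (nat_lit 336) (nat_lit 0) (XT.nd (nat_lit 564) (nat_lit 168) (nat_lit 0) (XT.nd (nat_lit 282) (nat_lit 252) (nat_lit 0) (XT.nd (nat_lit 94) (nat_lit 168) (nat_lit 0) (XT.lf (nat_lit 0) (nat_lit 26807453771) (nat_lit 168) (nat_lit 72037833) (nat_lit 252) (nat_lit 8430219872) (nat_lit 22) (nat_lit 5) (nat_lit 24) (nat_lit 5) (nat_lit 25) (nat_lit 5) (nat_lit 383) (nat_lit 309) (nat_lit 172)) (XT.nd (nat_lit 94) (nat_lit 0) (nat_lit 0) (XT.lf (nat_lit 0) (nat_lit 780505570) (nat_lit 168) (nat_lit 30176698943) (nat_lit 252) (nat_lit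 5240184813) (nat_lit 20) (nat_lit 5) (nat_lit 22) (nat_lit 5) (nat_lit 23) (nat_lit 5) (nat_lit 384) (nat_lit 309) (nat_lit 171)) (XT.lf (nat_lit 0) (nat_lit 10522046723) (nat_lit 168) (nat_lit 24723167990) (nat_lit 252) (nat_lit 1864782412) (nat_lit 20) (nat_lit 5) (nat_lit 22) (nat_lit 5) (nat_lit 23) (nat_lit 5) (nat_lit 385) (nat_lit 309) (nat_lit 170)))) (XT.nd (nat_lit 94) (nat_lit 168) (nat_lit 0) (XT.lf (nat_lit 0) (nat_lit 1577227085) (nat_lit 252) (nat_lit 17509692513) (nat_lit 84) (nat_lit 18963661249) (nat_lit 19) (nat_lit 5) (nat_lit 22) (nat_lit 5) (nat_lit 20) (nat_lit 5) (nat_lit 386) (nat_lit 309) (nat_lit 169)) (XT.nd (nat_lit 94) (nat_lit 168) (nat_lit 0) (XT.lf (nat_lit 0) (nat_lit 5081881389) (nat_lit 252) (nat_lit 8177178782) (nat_lit 84) (nat_lit 25760847599) (nat_lit 19) (nat_lit 5) (nat_lit 22) (nat_lit 5) (nat_lit 20) (nat_lit 5) (nat_lit 387) (nat_lit 309)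 (nat_lit 168)) (XT.lf (nat_lit 0) (nat_lit 1466331863) (nat_lit 168) (nat_lit 7238232744) (nat_lit 252) (nat_lit 31314439334) (nat_lit 17) (nat_lit 5) (nat_lit 19) (nat_lit 5) (nat_lit 20) (nat_lit 5) (nat_lit 388) (nat_lit 309) (nat_lit 167))))) (XT.nd (nat_lit 282) (nat_lit 168) (nat_lit 0) (XT.nd (nat_lit 94) (nat_lit 0) (nat_lit 0) (XT.lf (nat_lit 0) (nat_lit 11574368421) (nat_lit 168) (nat_lit 945452067) (nat_lit 252) (nat_lit 28526773954) (nat_lit 17) (nat_lit 5) (nat_lit 19) (nat_lit 5) (nat_lit 20) (nat_lit 5) (nat_lit 389) (nat_lit 309) (nat_lit 166)) (XT.nd (nat_lit 94) (nat_lit 0) (nat_lit 0) (XT.lf (nat_lit 0) (nat_lit 16503374105) (nat_lit 252) (nat_lit 20172945855) (nat_lit 84) (nat_lit 5428179902) (nat_lit 17) (nat_lit 5) (nat_lit 20) (nat_lit 5) (nat_lit 18) (nat_lit 5) (nat_lit 390) (nat_lit 309) (nat_lit 165)) (XT.lf (nat_lit 0) (nat_lit 20615280130) (nat_lit 252) (nat_lit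 10602505258) (nat_lit 84) (nat_lit 11977274303) (nat_lit 17) (nat_lit 5) (nat_lit 20) (nat_lit 5) (nat_lit 18) (nat_lit 5) (nat_lit 391) (nat_lit 309) (nat_lit 164)))) (XT.nd (nat_lit 94) (nat_lit 168) (nat_lit 0) (XT.lf (nat_lit 0) (nat_lit 24849992287) (nat_lit 252) (nat_lit 742604576) (nat_lit 84) (nat_lit 18726984331) (nat_lit 17) (nat_lit 5) (nat_lit 20) (nat_lit 5) (nat_lit 18) (nat_lit 5) (nat_lit 392) (nat_lit 309) (nat_lit 163)) (XT.nd (nat_lit 94) (nat_lit 0) (nat_lit 0) (XT.lf (nat_lit 0) (nat_lit 9609557827) (nat_lit 168) (nat_lit 19697227949) (nat_lit 252) (nat_lit 16169371597) (nat_lit 15) (nat_lit 5) (nat_lit 17) (nat_lit 5) (nat_lit 18) (nat_lit 5) (nat_lit 393) (nat_lit 309) (nat_lit 162)) (XT.lf (nat_lit 0) (nat_lit 20291444649) (nat_lit 168) (nat_lit 13613590922) (nat_lit 252) (nat_lit 12763458864) (nat_lit 15) (nat_lit 5) (nat_lit 17) (nat_lit 5) (nat_lit 18) (nat_lit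 5) (nat_lit 394) (nat_lit 309) (nat_lit 161)))))) (XT.nd (nat_lit 564) (nat_lit 168) (nat_lit 0) (XT.nd (nat_lit 282) (nat_lit 84) (nat_lit 0) (XT.nd (nat_lit 94) (nat_lit 84) (nat_lit 0) (XT.lf (nat_lit 0) (nat_lit 31297743056) (nat_lit 168) (nat_lit 7343766466) (nat_lit 252) (nat_lit 9256427308) (nat_lit 15) (nat_lit 5) (nat_lit 17) (nat_lit 5) (nat_lit 18) (nat_lit 5) (nat_lit 395) (nat_lit 309) (nat_lit 160)) (XT.nd (nat_lit 94) (nat_lit 84) (nat_lit 0) (XT.lf (nat_lit 0) (nat_lit 42638712068) (nat_lit 168) (nat_lit 881910446) (nat_lit 252) (nat_lit 5645008008) (nat_lit 15) (nat_lit 5) (nat_lit 17) (nat_lit 5) (nat_lit 18) (nat_lit 5) (nat_lit 396) (nat_lit 309) (nat_lit 159)) (XT.lf (nat_lit 0) (nat_lit 3872876879) (nat_lit 84) (nat_lit 44769783413) (nat_lit 168) (nat_lit 1827128973) (nat_lit 14) (nat_lit 5) (nat_lit 15) (nat_lit 5) (nat_lit 16) (nat_lit 4) (nat_lit 397) (nat_lit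 309) (nat_lit 158)))) (XT.nd (nat_lit 94) (nat_lit 0) (nat_lit 0) (XT.lf (nat_lit 0) (nat_lit 2140377301) (nat_lit 168) (nat_lit 37115938051) (nat_lit 84) (nat_lit 12555134094) (nat_lit 13) (nat_lit 5) (nat_lit 15) (nat_lit 5) (nat_lit 14) (nat_lit 5) (nat_lit 398) (nat_lit 309) (nat_lit 157)) (XT.nd (nat_lit 94) (nat_lit 0) (nat_lit 0) (XT.lf (nat_lit 0) (nat_lit 6188967551) (nat_lit 168) (nat_lit 27366013255) (nat_lit 84) (nat_lit 19639271238) (nat_lit 13) (nat_lit 5) (nat_lit 15) (nat_lit 5) (nat_lit 14) (nat_lit 5) (nat_lit 399) (nat_lit 309) (nat_lit 156)) (XT.lf (nat_lit 0) (nat_lit 10359228064) (nat_lit 168) (nat_lit 17319924700) (nat_lit 84) (nat_lit 26940895096) (nat_lit 13) (nat_lit 5) (nat_lit 15) (nat_lit 5) (nat_lit 14) (nat_lit 5) (nat_lit 400) (nat_lit 309) (nat_lit 155))))) (XT.nd (nat_lit 282) (nat_lit 0) (nat_lit 0) (XT.nd (nat_lit 94) (nat_lit 168) (nat_lit 0) (XT.lf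 (nat_lit 0) (nat_lit 14655045958) (nat_lit 168) (nat_lit 6968308381) (nat_lit 84) (nat_lit 34466811545) (nat_lit 13) (nat_lit 5) (nat_lit 15) (nat_lit 5) (nat_lit 14) (nat_lit 5) (nat_lit 401) (nat_lit 309) (nat_lit 154)) (XT.nd (nat_lit 94) (nat_lit 0) (nat_lit 0) (XT.lf (nat_lit 0) (nat_lit 3774532919) (nat_lit 168) (nat_lit 15343336301) (nat_lit 252) (nat_lit 38486946444) (nat_lit 11) (nat_lit 5) (nat_lit 13) (nat_lit 5) (nat_lit 14) (nat_lit 5) (nat_lit 402) (nat_lit 309) (nat_lit 153)) (XT.lf (nat_lit 0) (nat_lit 14992461173) (nat_lit 168) (nat_lit 8795757166) (nat_lit 252) (nat_lit 35376063492) (nat_lit 11) (nat_lit 5) (nat_lit 13) (nat_lit 5) (nat_lit 14) (nat_lit 5) (nat_lit 403) (nat_lit 309) (nat_lit 152)))) (XT.nd (nat_lit 94) (nat_lit 0) (nat_lit 0) (XT.lf (nat_lit 0) (nat_lit 26552649951) (nat_lit 168) (nat_lit 2047248751) (nat_lit 252) (nat_lit 32172306250) (nat_lit 11)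 (nat_lit 5) (nat_lit 13) (nat_lit 5) (nat_lit 14) (nat_lit 5) (nat_lit 404) (nat_lit 309) (nat_lit 151)) (XT.nd (nat_lit 94) (nat_lit 0) (nat_lit 0) (XT.lf (nat_lit 0) (nat_lit 33606088023) (nat_lit 252) (nat_lit 24012901945) (nat_lit 84) (nat_lit 4809584340) (nat_lit 11) (nat_lit 5) (nat_lit 14) (nat_lit 5) (nat_lit 12) (nat_lit 4) (nat_lit 405) (nat_lit 309) (nat_lit 150)) (XT.lf (nat_lit 0) (nat_lit 38785143407) (nat_lit 252) (nat_lit 13516038630) (nat_lit 84) (nat_lit 11834567355) (nat_lit 11) (nat_lit 5) (nat_lit 14) (nat_lit 5) (nat_lit 12) (nat_lit 4) (nat_lit 406) (nat_lit 309) (nat_lit 149))))))))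
noncomputable def xc139 : XT := (XT.nd (nat_lit 46812) (nat_lit 0) (nat_lit 4200) (XT.nd (nat_lit 45684) (nat_lit 0) (nat_lit 9324) (XT.nd (nat_lit 45120) (nat_lit 0) (nat_lit 10920) (XT.nd (nat_lit 282) (nat_lit 0) (nat_lit 0) (XT.nd (nat_lit 94) (nat_lit 84) (nat_lit 0) (XT.lf (nat_lit 0) (nat_lit 44121583316) (nat_lit 252) (nat_lit 2698871921) (nat_lit 84) (nat_lit 19075495812) (nat_lit 11) (nat_lit 5) (nat_lit 14) (nat_lit 5) (nat_lit 12) (nat_lit 4) (nat_lit 407) (nat_lit 309) (nat_lit 148)) (XT.nd (nat_lit 94) (nat_lit 0) (nat_lit 0) (XT.lf (nat_lit 0) (nat_lit 8622403121) (nat_lit 84) (nat_lit 41083514055) (nat_lit 168) (nat_lit 18002251200) (nat_lit 10) (nat_lit 5) (nat_lit 11) (nat_lit 5) (nat_lit 12) (nat_lit 4) (nat_lit 408) (nat_lit 309) (nat_lit 147)) (XT.lf (nat_lit 0) (nat_lit 20346956391) (nat_lit 84) (nat_lit 35141552462) (nat_lit 168) (nat_lit 14087281778) (nat_lit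 10) (nat_lit 5) (nat_lit 11) (nat_lit 5) (nat_lit 12) (nat_lit 4) (nat_lit 409) (nat_lit 309) (nat_lit 146)))) (XT.nd (nat_lit 94) (nat_lit 0) (nat_lit 0) (XT.lf (nat_lit 0) (nat_lit 32430222056) (nat_lit 84) (nat_lit 29017202614) (nat_lit 168) (nat_lit 10053980995) (nat_lit 10) (nat_lit 5) (nat_lit 11) (nat_lit 5) (nat_lit 12) (nat_lit 4) (nat_lit 410) (nat_lit 309) (nat_lit 145)) (XT.nd (nat_lit 94) (nat_lit 0) (nat_lit 0) (XT.lf (nat_lit 0) (nat_lit 44883462987) (nat_lit 84) (nat_lit 22704755978) (nat_lit 168) (nat_lit 5898589391) (nat_lit 10) (nat_lit 5) (nat_lit 11) (nat_lit 5) (nat_lit 12) (nat_lit 4) (nat_lit 411) (nat_lit 309) (nat_lit 144)) (XT.lf (nat_lit 0) (nat_lit 57718286909) (nat_lit 84) (nat_lit 16198328690) (nat_lit 168) (nat_lit 1617233706) (nat_lit 10) (nat_lit 5) (nat_lit 11) (nat_lit 5) (nat_lit 12) (nat_lit 4) (nat_lit 412) (nat_lit 309) (nat_lit 143))))) (XT.nd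 (nat_lit 282) (nat_lit 0) (nat_lit 0) (XT.nd (nat_lit 94) (nat_lit 0) (nat_lit 0) (XT.lf (nat_lit 0) (nat_lit 471856414) (nat_lit 0) (nat_lit 471856414) (nat_lit 924) (nat_lit 3427340805) (nat_lit 140) (nat_lit 5) (nat_lit 140) (nat_lit 3) (nat_lit 151) (nat_lit 3) (nat_lit 310) (nat_lit 310) (nat_lit 244)) (XT.nd (nat_lit 94) (nat_lit 0) (nat_lit 0) (XT.lf (nat_lit 0) (nat_lit 2768885438) (nat_lit 924) (nat_lit 4397334855) (nat_lit 1008) (nat_lit 1681519692) (nat_lit 140) (nat_lit 5) (nat_lit 151) (nat_lit 3) (nat_lit 152) (nat_lit 5) (nat_lit 311) (nat_lit 310) (nat_lit 243)) (XT.lf (nat_lit 0) (nat_lit 3653835297) (nat_lit 924) (nat_lit 918670706) (nat_lit 1008) (nat_lit 4385019291) (nat_lit 140) (nat_lit 5) (nat_lit 151) (nat_lit 3) (nat_lit 152) (nat_lit 5) (nat_lit 312) (nat_lit 310) (nat_lit 242)))) (XT.nd (nat_lit 94) (nat_lit 0) (nat_lit 84) (XT.lf (nat_lit 84) (nat_lit 2704695831)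 (nat_lit 0) (nat_lit 1855873438) (nat_lit 1008) (nat_lit 4510454709) (nat_lit 141) (nat_lit 5) (nat_lit 140) (nat_lit 5) (nat_lit 152) (nat_lit 5) (nat_lit 313) (nat_lit 310) (nat_lit 241)) (XT.nd (nat_lit 94) (nat_lit 0) (nat_lit 0) (XT.lf (nat_lit 0) (nat_lit 5482937734) (nat_lit 924) (nat_lit 2756059386) (nat_lit 1008) (nat_lit 949561549) (nat_lit 141) (nat_lit 5) (nat_lit 152) (nat_lit 5) (nat_lit 153) (nat_lit 5) (nat_lit 314) (nat_lit 310) (nat_lit 240)) (XT.lf (nat_lit 84) (nat_lit 948105882) (nat_lit 0) (nat_lit 5483592857) (nat_lit 1008) (nat_lit 2878233334) (nat_lit 142) (nat_lit 5) (nat_lit 141) (nat_lit 5) (nat_lit 153) (nat_lit 5) (nat_lit 315) (nat_lit 310) (nat_lit 239)))))) (XT.nd (nat_lit 564) (nat_lit 756) (nat_lit 0) (XT.nd (nat_lit 282) (nat_lit 924) (nat_lit 0) (XT.nd (nat_lit 94) (nat_lit 0) (nat_lit 84) (XT.lf (nat_lit 84) (nat_lit 4807568141) (nat_lit 0) (nat_lit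 2601224919) (nat_lit 1008) (nat_lit 2026431517) (nat_lit 142) (nat_lit 5) (nat_lit 141) (nat_lit 5) (nat_lit 153) (nat_lit 5) (nat_lit 316) (nat_lit 310) (nat_lit 238)) (XT.nd (nat_lit 94) (nat_lit 0) (nat_lit 0) (XT.lf (nat_lit 0) (nat_lit 8391018564) (nat_lit 924) (nat_lit 799953110) (nat_lit 1008) (nat_lit 374328788) (nat_lit 142) (nat_lit 5) (nat_lit 153) (nat_lit 5) (nat_lit 154) (nat_lit 5) (nat_lit 317) (nat_lit 310) (nat_lit 237)) (XT.lf (nat_lit 84) (nat_lit 3165591672) (nat_lit 0) (nat_lit 6268141731) (nat_lit 1008) (nat_lit 264859852) (nat_lit 143) (nat_lit 5) (nat_lit 142) (nat_lit 5) (nat_lit 154) (nat_lit 5) (nat_lit 318) (nat_lit 310) (nat_lit 236)))) (XT.nd (nat_lit 94) (nat_lit 0) (nat_lit 0) (XT.lf (nat_lit 0) (nat_lit 639942846) (nat_lit 1008) (nat_lit 2589980301) (nat_lit 1092) (nat_lit 6606593999) (nat_lit 130) (nat_lit 5) (nat_lit 142) (nat_lit 5) (nat_lit 143)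 (nat_lit 5) (nat_lit 319) (nat_lit 310) (nat_lit 235)) (XT.nd (nat_lit 94) (nat_lit 0) (nat_lit 84) (XT.lf (nat_lit 84) (nat_lit 1484543153) (nat_lit 0) (nat_lit 70616809) (nat_lit 1092) (nat_lit 8423954523) (nat_lit 131) (nat_lit 5) (nat_lit 130) (nat_lit 5) (nat_lit 143) (nat_lit 5) (nat_lit 320) (nat_lit 310) (nat_lit 234)) (XT.lf (nat_lit 0) (nat_lit 2531527183) (nat_lit 1008) (nat_lit 4435650396) (nat_lit 1092) (nat_lit 3158041125) (nat_lit 131) (nat_lit 5) (nat_lit 143) (nat_lit 5) (nat_lit 144) (nat_lit 5) (nat_lit 321) (nat_lit 310) (nat_lit 233))))) (XT.nd (nat_lit 282) (nat_lit 840) (nat_lit 0) (XT.nd (nat_lit 94) (nat_lit 0) (nat_lit 0) (XT.lf (nat_lit 0) (nat_lit 3513526175) (nat_lit 1008) (nat_lit 269812280) (nat_lit 1092) (nat_lit 6493376812) (nat_lit 131) (nat_lit 5) (nat_lit 143) (nat_lit 5) (nat_lit 144) (nat_lit 5) (nat_lit 322) (nat_lit 310) (nat_lit 232)) (XT.nd (nat_lit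 94) (nat_lit 0) (nat_lit 84) (XT.lf (nat_lit 84) (nat_lit 4089929503) (nat_lit 0) (nat_lit 452014842) (nat_lit 1092) (nat_lit 5890565009) (nat_lit 132) (nat_lit 5) (nat_lit 131) (nat_lit 5) (nat_lit 144) (nat_lit 5) (nat_lit 323) (nat_lit 310) (nat_lit 231)) (XT.lf (nat_lit 0) (nat_lit 5610712191) (nat_lit 1008) (nat_lit 2050484216) (nat_lit 1092) (nat_lit 2931767641) (nat_lit 132) (nat_lit 5) (nat_lit 144) (nat_lit 5) (nat_lit 145) (nat_lit 5) (nat_lit 324) (nat_lit 310) (nat_lit 230)))) (XT.nd (nat_lit 94) (nat_lit 924) (nat_lit 0) (XT.lf (nat_lit 84) (nat_lit 2400596960) (nat_lit 0) (nat_lit 4317208754) (nat_lit 1092) (nat_lit 4040516825) (nat_lit 133) (nat_lit 5) (nat_lit 132) (nat_lit 5) (nat_lit 145) (nat_lit 5) (nat_lit 325) (nat_lit 310) (nat_lit 229)) (XT.nd (nat_lit 94) (nat_lit 924) (nat_lit 0) (XT.lf (nat_lit 84) (nat_lit 7015498127) (nat_lit 0) (nat_lit 842404425) (nat_lit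 1092) (nat_lit 3071033386) (nat_lit 133) (nat_lit 5) (nat_lit 132) (nat_lit 5) (nat_lit 145) (nat_lit 5) (nat_lit 326) (nat_lit 310) (nat_lit 228)) (XT.lf (nat_lit 0) (nat_lit 636341479) (nat_lit 1008) (nat_lit 8408508455) (nat_lit 1092) (nat_lit 2059717023) (nat_lit 121) (nat_lit 5) (nat_lit 133) (nat_lit 5) (nat_lit 134) (nat_lit 5) (nat_lit 327) (nat_lit 310) (nat_lit 227))))))) (XT.nd (nat_lit 1128) (nat_lit 1764) (nat_lit 0) (XT.nd (nat_lit 564) (nat_lit 1680) (nat_lit 0) (XT.nd (nat_lit 282) (nat_lit 504) (nat_lit 0) (XT.nd (nat_lit 94) (nat_lit 1176) (nat_lit 0) (XT.lf (nat_lit 0) (nat_lit 5383595261) (nat_lit 1008) (nat_lit 4912872058) (nat_lit 1092) (nat_lit 988393876) (nat_lit 121) (nat_lit 5) (nat_lit 133) (nat_lit 5) (nat_lit 134) (nat_lit 5) (nat_lit 328) (nat_lit 310) (nat_lit 226)) (XT.nd (nat_lit 94) (nat_lit 1092) (nat_lit 0) (XT.lf (nat_lit 0) (nat_lit 92652659) (nat_lit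 1092) (nat_lit 1211600637) (nat_lit 84) (nat_lit 10167188990) (nat_lit 120) (nat_lit 5) (nat_lit 133) (nat_lit 5) (nat_lit 121) (nat_lit 5) (nat_lit 329) (nat_lit 310) (nat_lit 225)) (XT.lf (nat_lit 0) (nat_lit 1227054451) (nat_lit 1176) (nat_lit 8017460411) (nat_lit 84) (nat_lit 2417803080) (nat_lit 107) (nat_lit 5) (nat_lit 121) (nat_lit 5) (nat_lit 108) (nat_lit 5) (nat_lit 330) (nat_lit 310) (nat_lit 224)))) (XT.nd (nat_lit 94) (nat_lit 504) (nat_lit 0) (XT.lf (nat_lit 0) (nat_lit 2402704594) (nat_lit 1176) (nat_lit 3212372947) (nat_lit 84) (nat_lit 6243917921) (nat_lit 107) (nat_lit 5) (nat_lit 121) (nat_lit 5) (nat_lit 108) (nat_lit 5) (nat_lit 331) (nat_lit 310) (nat_lit 223)) (XT.nd (nat_lit 94) (nat_lit 0) (nat_lit 0) (XT.lf (nat_lit 0) (nat_lit 1759927489) (nat_lit 504) (nat_lit 1852899948) (nat_lit 588) (nat_lit 8449074748) (nat_lit 101) (nat_lit 5) (nat_lit 107) (nat_lit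 5) (nat_lit 108) (nat_lit 5) (nat_lit 332) (nat_lit 310) (nat_lit 222)) (XT.lf (nat_lit 0) (nat_lit 4895438719) (nat_lit 588) (nat_lit 5353737184) (nat_lit 84) (nat_lit 2020907817) (nat_lit 101) (nat_lit 5) (nat_lit 108) (nat_lit 5) (nat_lit 102) (nat_lit 5) (nat_lit 333) (nat_lit 310) (nat_lit 221))))) (XT.nd (nat_lit 282) (nat_lit 1092) (nat_lit 0) (XT.nd (nat_lit 94) (nat_lit 588) (nat_lit 0) (XT.lf (nat_lit 0) (nat_lit 6218336808) (nat_lit 588) (nat_lit 288229998) (nat_lit 84) (nat_lit 5978202620) (nat_lit 101) (nat_lit 5) (nat_lit 108) (nat_lit 5) (nat_lit 102) (nat_lit 5) (nat_lit 334) (nat_lit 310) (nat_lit 220)) (XT.nd (nat_lit 94) (nat_lit 0) (nat_lit 0) (XT.lf (nat_lit 0) (nat_lit 5018766399) (nat_lit 588) (nat_lit 2595394173) (nat_lit 672) (nat_lit 5091025262) (nat_lit 94) (nat_lit 5) (nat_lit 101) (nat_lit 5) (nat_lit 102) (nat_lit 5) (nat_lit 335) (nat_lit 310) (nat_lit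 219)) (XT.lf (nat_lit 0) (nat_lit 9053062441) (nat_lit 672) (nat_lit 2467343219) (nat_lit 84) (nat_lit 1412098341) (nat_lit 94) (nat_lit 5) (nat_lit 102) (nat_lit 5) (nat_lit 95) (nat_lit 5) (nat_lit 336) (nat_lit 310) (nat_lit 218)))) (XT.nd (nat_lit 94) (nat_lit 588) (nat_lit 0) (XT.lf (nat_lit 0) (nat_lit 2929409868) (nat_lit 504) (nat_lit 7645803891) (nat_lit 588) (nat_lit 2590518318) (nat_lit 88) (nat_lit 5) (nat_lit 94) (nat_lit 5) (nat_lit 95) (nat_lit 5) (nat_lit 337) (nat_lit 310) (nat_lit 217)) (XT.nd (nat_lit 94) (nat_lit 588) (nat_lit 0) (XT.lf (nat_lit 0) (nat_lit 8529345853) (nat_lit 504) (nat_lit 3624345603) (nat_lit 588) (nat_lit 1252274600) (nat_lit 88) (nat_lit 5) (nat_lit 94) (nat_lit 5) (nat_lit 95) (nat_lit 5) (nat_lit 338) (nat_lit 310) (nat_lit 216)) (XT.lf (nat_lit 0) (nat_lit 120200398) (nat_lit 588) (nat_lit 13014590917) (nat_lit 84) (nat_lit 519017710) (nat_lit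 81) (nat_lit 5) (nat_lit 88) (nat_lit 5) (nat_lit 82) (nat_lit 5) (nat_lit 339) (nat_lit 310) (nat_lit 215)))))) (XT.nd (nat_lit 564) (nat_lit 924) (nat_lit 0) (XT.nd (nat_lit 282) (nat_lit 420) (nat_lit 0) (XT.nd (nat_lit 94) (nat_lit 420) (nat_lit 0) (XT.lf (nat_lit 0) (nat_lit 1581694109) (nat_lit 588) (nat_lit 7545428926) (nat_lit 84) (nat_lit 4779622006) (nat_lit 81) (nat_lit 5) (nat_lit 88) (nat_lit 5) (nat_lit 82) (nat_lit 5) (nat_lit 340) (nat_lit 310) (nat_lit 214)) (XT.nd (nat_lit 94) (nat_lit 420) (nat_lit 0) (XT.lf (nat_lit 0) (nat_lit 3072969029) (nat_lit 588) (nat_lit 1922924652) (nat_lit 84) (nat_lit 9172162031) (nat_lit 81) (nat_lit 5) (nat_lit 88) (nat_lit 5) (nat_lit 82) (nat_lit 5) (nat_lit 341) (nat_lit 310) (nat_lit 213)) (XT.lf (nat_lit 0) (nat_lit 3937494404) (nat_lit 420) (nat_lit 696981212) (nat_lit 504) (nat_lit 9802298119) (nat_lit 76) (nat_lit 5) (nat_lit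 81) (nat_lit 5) (nat_lit 82) (nat_lit 5) (nat_lit 342) (nat_lit 310) (nat_lit 212)))) (XT.nd (nat_lit 94) (nat_lit 420) (nat_lit 0) (XT.lf (nat_lit 0) (nat_lit 6286951479) (nat_lit 504) (nat_lit 4746161674) (nat_lit 84) (nat_lit 3679438680) (nat_lit 76) (nat_lit 5) (nat_lit 82) (nat_lit 5) (nat_lit 77) (nat_lit 5) (nat_lit 343) (nat_lit 310) (nat_lit 211)) (XT.nd (nat_lit 94) (nat_lit 0) (nat_lit 0) (XT.lf (nat_lit 0) (nat_lit 1186507954) (nat_lit 420) (nat_lit 6808721235) (nat_lit 504) (nat_lit 7001555815) (nat_lit 71) (nat_lit 5) (nat_lit 76) (nat_lit 5) (nat_lit 77) (nat_lit 5) (nat_lit 344) (nat_lit 310) (nat_lit 210)) (XT.lf (nat_lit 0) (nat_lit 7388292435) (nat_lit 420) (nat_lit 2403665351) (nat_lit 504) (nat_lit 5496817633) (nat_lit 71) (nat_lit 5) (nat_lit 76) (nat_lit 5) (nat_lit 77) (nat_lit 5) (nat_lit 345) (nat_lit 310) (nat_lit 209))))) (XT.nd (nat_lit 282) (nat_lit 504)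 (nat_lit 0) (XT.nd (nat_lit 94) (nat_lit 420) (nat_lit 0) (XT.lf (nat_lit 0) (nat_lit 11651956926) (nat_lit 504) (nat_lit 1844098691) (nat_lit 84) (nat_lit 2093572138) (nat_lit 71) (nat_lit 5) (nat_lit 77) (nat_lit 5) (nat_lit 72) (nat_lit 5) (nat_lit 346) (nat_lit 310) (nat_lit 208)) (XT.nd (nat_lit 94) (nat_lit 0) (nat_lit 0) (XT.lf (nat_lit 0) (nat_lit 4450169164) (nat_lit 420) (nat_lit 9174950227) (nat_lit 504) (nat_lit 2273010116) (nat_lit 66) (nat_lit 5) (nat_lit 71) (nat_lit 5) (nat_lit 72) (nat_lit 5) (nat_lit 347) (nat_lit 310) (nat_lit 207)) (XT.lf (nat_lit 0) (nat_lit 10963863016) (nat_lit 420) (nat_lit 4701859744) (nat_lit 504) (nat_lit 550319878) (nat_lit 66) (nat_lit 5) (nat_lit 71) (nat_lit 5) (nat_lit 72) (nat_lit 5) (nat_lit 348) (nat_lit 310) (nat_lit 206)))) (XT.nd (nat_lit 94) (nat_lit 0) (nat_lit 0) (XT.lf (nat_lit 0) (nat_lit 1131663409) (nat_lit 420) (nat_lit 67885482)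 (nat_lit 504) (nat_lit 15343972388) (nat_lit 60) (nat_lit 5) (nat_lit 65) (nat_lit 5) (nat_lit 66) (nat_lit 5) (nat_lit 349) (nat_lit 310) (nat_lit 205)) (XT.nd (nat_lit 94) (nat_lit 0) (nat_lit 0) (XT.lf (nat_lit 0) (nat_lit 3081801548) (nat_lit 504) (nat_lit 9122519777) (nat_lit 84) (nat_lit 4673917883) (nat_lit 60) (nat_lit 5) (nat_lit 66) (nat_lit 5) (nat_lit 61) (nat_lit 5) (nat_lit 350) (nat_lit 310) (nat_lit 204)) (XT.lf (nat_lit 0) (nat_lit 5010940716) (nat_lit 504) (nat_lit 2653364440) (nat_lit 84) (nat_lit 9559421024) (nat_lit 60) (nat_lit 5) (nat_lit 66) (nat_lit 5) (nat_lit 61) (nat_lit 5) (nat_lit 351) (nat_lit 310) (nat_lit 203))))))))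
noncomputable def xc140 : XT := (XT.nd (nat_lit 2256) (nat_lit 1260) (nat_lit 0) (XT.nd (nat_lit 1128) (nat_lit 1008) (nat_lit 0) (XT.nd (nat_lit 564) (nat_lit 672) (nat_lit 0) (XT.nd (nat_lit 282) (nat_lit 672) (nat_lit 0) (XT.nd (nat_lit 94) (nat_lit 0) (nat_lit 0) (XT.lf (nat_lit 0) (nat_lit 4084607237) (nat_lit 336) (nat_lit 2944003697) (nat_lit 420) (nat_lit 10550458054) (nat_lit 56) (nat_lit 5) (nat_lit 60) (nat_lit 5) (nat_lit 61) (nat_lit 5) (nat_lit 352) (nat_lit 310) (nat_lit 202)) (XT.nd (nat_lit 94) (nat_lit 0) (nat_lit 0) (XT.lf (nat_lit 0) (nat_lit 9144282481) (nat_lit 420) (nat_lit 6890471249) (nat_lit 84) (nat_lit 1909609840) (nat_lit 56) (nat_lit 5) (nat_lit 61) (nat_lit 5) (nat_lit 57) (nat_lit 5) (nat_lit 353) (nat_lit 310) (nat_lit 201)) (XT.lf (nat_lit 0) (nat_lit 11344400718) (nat_lit 420) (nat_lit 125691132) (nat_lit 84) (nat_lit 6850339896) (nat_lit 56) (nat_lit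 5) (nat_lit 61) (nat_lit 5) (nat_lit 57) (nat_lit 5) (nat_lit 354) (nat_lit 310) (nat_lit 200)))) (XT.nd (nat_lit 94) (nat_lit 336) (nat_lit 0) (XT.lf (nat_lit 0) (nat_lit 6975938578) (nat_lit 336) (nat_lit 6695075100) (nat_lit 420) (nat_lit 5035370457) (nat_lit 52) (nat_lit 5) (nat_lit 56) (nat_lit 5) (nat_lit 57) (nat_lit 5) (nat_lit 355) (nat_lit 310) (nat_lit 199)) (XT.nd (nat_lit 94) (nat_lit 336) (nat_lit 0) (XT.lf (nat_lit 0) (nat_lit 14287110937) (nat_lit 336) (nat_lit 1773237955) (nat_lit 420) (nat_lit 3044275769) (nat_lit 52) (nat_lit 5) (nat_lit 56) (nat_lit 5) (nat_lit 57) (nat_lit 5) (nat_lit 356) (nat_lit 310) (nat_lit 198)) (XT.lf (nat_lit 0) (nat_lit 2310316546) (nat_lit 336) (nat_lit 16258686504) (nat_lit 420) (nat_lit 944836015) (nat_lit 48) (nat_lit 5) (nat_lit 52) (nat_lit 5) (nat_lit 53) (nat_lit 5) (nat_lit 357) (nat_lit 310) (nat_lit 197))))) (XT.nd (nat_lit 282)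 (nat_lit 252) (nat_lit 0) (XT.nd (nat_lit 94) (nat_lit 336) (nat_lit 0) (XT.lf (nat_lit 0) (nat_lit 1253679874) (nat_lit 420) (nat_lit 10217002701) (nat_lit 84) (nat_lit 8462895184) (nat_lit 47) (nat_lit 5) (nat_lit 52) (nat_lit 5) (nat_lit 48) (nat_lit 5) (nat_lit 358) (nat_lit 310) (nat_lit 196)) (XT.nd (nat_lit 94) (nat_lit 336) (nat_lit 0) (XT.lf (nat_lit 0) (nat_lit 3490667182) (nat_lit 420) (nat_lit 3036474927) (nat_lit 84) (nat_lit 13839226846) (nat_lit 47) (nat_lit 5) (nat_lit 52) (nat_lit 5) (nat_lit 48) (nat_lit 5) (nat_lit 359) (nat_lit 310) (nat_lit 195)) (XT.lf (nat_lit 0) (nat_lit 4443656468) (nat_lit 336) (nat_lit 1387672509) (nat_lit 420) (nat_lit 14980211117) (nat_lit 43) (nat_lit 5) (nat_lit 47) (nat_lit 5) (nat_lit 48) (nat_lit 5) (nat_lit 360) (nat_lit 310) (nat_lit 194)))) (XT.nd (nat_lit 94) (nat_lit 252) (nat_lit 0) (XT.lf (nat_lit 0) (nat_lit 8305757490) (nat_lit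 420) (nat_lit 9101300029) (nat_lit 84) (nat_lit 3861583377) (nat_lit 43) (nat_lit 5) (nat_lit 48) (nat_lit 5) (nat_lit 44) (nat_lit 5) (nat_lit 361) (nat_lit 310) (nat_lit 193)) (XT.nd (nat_lit 94) (nat_lit 252) (nat_lit 0) (XT.lf (nat_lit 0) (nat_lit 10861763570) (nat_lit 420) (nat_lit 1635955024) (nat_lit 84) (nat_lit 9242068193) (nat_lit 43) (nat_lit 5) (nat_lit 48) (nat_lit 5) (nat_lit 44) (nat_lit 5) (nat_lit 362) (nat_lit 310) (nat_lit 192)) (XT.lf (nat_lit 0) (nat_lit 6173253046) (nat_lit 252) (nat_lit 7375950191) (nat_lit 336) (nat_lit 8674742009) (nat_lit 40) (nat_lit 5) (nat_lit 43) (nat_lit 5) (nat_lit 44) (nat_lit 5) (nat_lit 363) (nat_lit 310) (nat_lit 191)))))) (XT.nd (nat_lit 564) (nat_lit 420) (nat_lit 0) (XT.nd (nat_lit 282) (nat_lit 336) (nat_lit 0) (XT.nd (nat_lit 94) (nat_lit 252) (nat_lit 0) (XT.lf (nat_lit 0) (nat_lit 14247408913) (nat_lit 252) (nat_lit 2080733228)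 (nat_lit 336) (nat_lit 6394741039) (nat_lit 40) (nat_lit 5) (nat_lit 43) (nat_lit 5) (nat_lit 44) (nat_lit 5) (nat_lit 364) (nat_lit 310) (nat_lit 190)) (XT.nd (nat_lit 94) (nat_lit 252) (nat_lit 0) (XT.lf (nat_lit 0) (nat_lit 19218096243) (nat_lit 336) (nat_lit 710667418) (nat_lit 84) (nat_lit 3307777291) (nat_lit 40) (nat_lit 5) (nat_lit 44) (nat_lit 5) (nat_lit 41) (nat_lit 5) (nat_lit 365) (nat_lit 310) (nat_lit 189)) (XT.lf (nat_lit 0) (nat_lit 7411519261) (nat_lit 252) (nat_lit 14872535505) (nat_lit 336) (nat_lit 1479411421) (nat_lit 37) (nat_lit 5) (nat_lit 40) (nat_lit 5) (nat_lit 41) (nat_lit 5) (nat_lit 366) (nat_lit 310) (nat_lit 188)))) (XT.nd (nat_lit 94) (nat_lit 252) (nat_lit 0) (XT.lf (nat_lit 0) (nat_lit 1114536827) (nat_lit 336) (nat_lit 8528756907) (nat_lit 84) (nat_lit 14663130574) (nat_lit 36) (nat_lit 5) (nat_lit 40) (nat_lit 5) (nat_lit 37) (nat_lit 5) (nat_lit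 367) (nat_lit 310) (nat_lit 187)) (XT.nd (nat_lit 94) (nat_lit 252) (nat_lit 0) (XT.lf (nat_lit 0) (nat_lit 3750063808) (nat_lit 336) (nat_lit 489286558) (nat_lit 84) (nat_lit 20626666848) (nat_lit 36) (nat_lit 5) (nat_lit 40) (nat_lit 5) (nat_lit 37) (nat_lit 5) (nat_lit 368) (nat_lit 310) (nat_lit 186)) (XT.lf (nat_lit 0) (nat_lit 6552278186) (nat_lit 336) (nat_lit 17505985358) (nat_lit 84) (nat_lit 1382079711) (nat_lit 33) (nat_lit 5) (nat_lit 37) (nat_lit 5) (nat_lit 34) (nat_lit 5) (nat_lit 369) (nat_lit 310) (nat_lit 185))))) (XT.nd (nat_lit 282) (nat_lit 168) (nat_lit 0) (XT.nd (nat_lit 94) (nat_lit 252) (nat_lit 0) (XT.lf (nat_lit 0) (nat_lit 9482121388) (nat_lit 336) (nat_lit 9457112727) (nat_lit 84) (nat_lit 7091995433) (nat_lit 33) (nat_lit 5) (nat_lit 37) (nat_lit 5) (nat_lit 34) (nat_lit 5) (nat_lit 370) (nat_lit 310) (nat_lit 184)) (XT.nd (nat_lit 94) (nat_lit 252) (nat_lit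 0) (XT.lf (nat_lit 0) (nat_lit 12495265204) (nat_lit 336) (nat_lit 1169292241) (nat_lit 84) (nat_lit 12976128251) (nat_lit 33) (nat_lit 5) (nat_lit 37) (nat_lit 5) (nat_lit 34) (nat_lit 5) (nat_lit 371) (nat_lit 310) (nat_lit 183)) (XT.lf (nat_lit 0) (nat_lit 7516644857) (nat_lit 252) (nat_lit 8152439388) (nat_lit 336) (nat_lit 11597883982) (nat_lit 30) (nat_lit 5) (nat_lit 33) (nat_lit 5) (nat_lit 34) (nat_lit 5) (nat_lit 372) (nat_lit 310) (nat_lit 182)))) (XT.nd (nat_lit 94) (nat_lit 168) (nat_lit 0) (XT.lf (nat_lit 0) (nat_lit 16486488691) (nat_lit 252) (nat_lit 2459828519) (nat_lit 336) (nat_lit 8966210503) (nat_lit 30) (nat_lit 5) (nat_lit 33) (nat_lit 5) (nat_lit 34) (nat_lit 5) (nat_lit 373) (nat_lit 310) (nat_lit 181)) (XT.nd (nat_lit 94) (nat_lit 168) (nat_lit 0) (XT.lf (nat_lit 0) (nat_lit 22351972461) (nat_lit 336) (nat_lit 2887567487) (nat_lit 84) (nat_lit 3337745369) (nat_lit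 30) (nat_lit 5) (nat_lit 34) (nat_lit 5) (nat_lit 31) (nat_lit 5) (nat_lit 374) (nat_lit 310) (nat_lit 180)) (XT.lf (nat_lit 0) (nat_lit 6001614186) (nat_lit 168) (nat_lit 19939501943) (nat_lit 252) (nat_lit 3319135895) (nat_lit 28) (nat_lit 5) (nat_lit 30) (nat_lit 5) (nat_lit 31) (nat_lit 5) (nat_lit 375) (nat_lit 310) (nat_lit 179))))))) (XT.nd (nat_lit 1128) (nat_lit 504) (nat_lit 0) (XT.nd (nat_lit 564) (nat_lit 420) (nat_lit 0) (XT.nd (nat_lit 282) (nat_lit 0) (nat_lit 0) (XT.nd (nat_lit 94) (nat_lit 336) (nat_lit 0) (XT.lf (nat_lit 0) (nat_lit 15217930678) (nat_lit 168) (nat_lit 14447059184) (nat_lit 252) (nat_lit 298689783) (nat_lit 28) (nat_lit 5) (nat_lit 30) (nat_lit 5) (nat_lit 31) (nat_lit 5) (nat_lit 376) (nat_lit 310) (nat_lit 178)) (XT.nd (nat_lit 94) (nat_lit 252) (nat_lit 0) (XT.lf (nat_lit 0) (nat_lit 2752111513) (nat_lit 252) (nat_lit 6006394510) (nat_lit 84) (nat_lit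 21929760339) (nat_lit 27) (nat_lit 5) (nat_lit 30) (nat_lit 5) (nat_lit 28) (nat_lit 5) (nat_lit 377) (nat_lit 310) (nat_lit 177)) (XT.lf (nat_lit 0) (nat_lit 3053119435) (nat_lit 252) (nat_lit 2862093327) (nat_lit 336) (nat_lit 25519280961) (nat_lit 24) (nat_lit 5) (nat_lit 27) (nat_lit 5) (nat_lit 28) (nat_lit 5) (nat_lit 378) (nat_lit 310) (nat_lit 176)))) (XT.nd (nat_lit 94) (nat_lit 0) (nat_lit 0) (XT.lf (nat_lit 0) (nat_lit 9265334377) (nat_lit 336) (nat_lit 19722961070) (nat_lit 84) (nat_lit 3212815321) (nat_lit 24) (nat_lit 5) (nat_lit 28) (nat_lit 5) (nat_lit 25) (nat_lit 5) (nat_lit 379) (nat_lit 310) (nat_lit 175)) (XT.nd (nat_lit 94) (nat_lit 0) (nat_lit 0) (XT.lf (nat_lit 0) (nat_lit 12742485692) (nat_lit 336) (nat_lit 10834435575) (nat_lit 84) (nat_lit 9413867309) (nat_lit 24) (nat_lit 5) (nat_lit 28) (nat_lit 5) (nat_lit 25) (nat_lit 5) (nat_lit 380) (nat_lit 310) (nat_lit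 174)) (XT.lf (nat_lit 0) (nat_lit 16321515458) (nat_lit 336) (nat_lit 1679120446) (nat_lit 84) (nat_lit 15804507468) (nat_lit 24) (nat_lit 5) (nat_lit 28) (nat_lit 5) (nat_lit 25) (nat_lit 5) (nat_lit 381) (nat_lit 310) (nat_lit 173))))) (XT.nd (nat_lit 282) (nat_lit 252) (nat_lit 0) (XT.nd (nat_lit 94) (nat_lit 0) (nat_lit 0) (XT.lf (nat_lit 0) (nat_lit 7910905138) (nat_lit 168) (nat_lit 12173331726) (nat_lit 252) (nat_lit 14558264564) (nat_lit 22) (nat_lit 5) (nat_lit 24) (nat_lit 5) (nat_lit 25) (nat_lit 5) (nat_lit 382) (nat_lit 310) (nat_lit 172)) (XT.nd (nat_lit 94) (nat_lit 0) (nat_lit 0) (XT.lf (nat_lit 0) (nat_lit 17825412532) (nat_lit 168) (nat_lit 6150070303) (nat_lit 252) (nat_lit 11529979318) (nat_lit 22) (nat_lit 5) (nat_lit 24) (nat_lit 5) (nat_lit 25) (nat_lit 5) (nat_lit 383) (nat_lit 310) (nat_lit 171)) (XT.lf (nat_lit 0) (nat_lit 27982448623) (nat_lit 252) (nat_lit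 8356807758) (nat_lit 84) (nat_lit 56082921) (nat_lit 22) (nat_lit 5) (nat_lit 25) (nat_lit 5) (nat_lit 23) (nat_lit 5) (nat_lit 384) (nat_lit 310) (nat_lit 170)))) (XT.nd (nat_lit 94) (nat_lit 84) (nat_lit 0) (XT.lf (nat_lit 0) (nat_lit 1208850902) (nat_lit 168) (nat_lit 30974334474) (nat_lit 252) (nat_lit 5127473156) (nat_lit 20) (nat_lit 5) (nat_lit 22) (nat_lit 5) (nat_lit 23) (nat_lit 5) (nat_lit 385) (nat_lit 310) (nat_lit 169)) (XT.nd (nat_lit 94) (nat_lit 84) (nat_lit 0) (XT.lf (nat_lit 0) (nat_lit 11240227901) (nat_lit 168) (nat_lit 25355888684) (nat_lit 252) (nat_lit 1655706683) (nat_lit 20) (nat_lit 5) (nat_lit 22) (nat_lit 5) (nat_lit 23) (nat_lit 5) (nat_lit 386) (nat_lit 310) (nat_lit 168)) (XT.lf (nat_lit 0) (nat_lit 1879765029) (nat_lit 252) (nat_lit 17666524045) (nat_lit 84) (nat_lit 19675454504) (nat_lit 19) (nat_lit 5) (nat_lit 22) (nat_lit 5) (nat_lit 20) (nat_lit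 5) (nat_lit 387) (nat_lit 310) (nat_lit 167)))))) (XT.nd (nat_lit 564) (nat_lit 336) (nat_lit 0) (XT.nd (nat_lit 282) (nat_lit 0) (nat_lit 0) (XT.nd (nat_lit 94) (nat_lit 168) (nat_lit 0) (XT.lf (nat_lit 0) (nat_lit 5485437078) (nat_lit 252) (nat_lit 8056307661) (nat_lit 84) (nat_lit 26679627625) (nat_lit 19) (nat_lit 5) (nat_lit 22) (nat_lit 5) (nat_lit 20) (nat_lit 5) (nat_lit 388) (nat_lit 310) (nat_lit 166)) (XT.nd (nat_lit 94) (nat_lit 0) (nat_lit 0) (XT.lf (nat_lit 0) (nat_lit 1882361718) (nat_lit 168) (nat_lit 7334340669) (nat_lit 252) (nat_lit 32034869299) (nat_lit 17) (nat_lit 5) (nat_lit 19) (nat_lit 5) (nat_lit 20) (nat_lit 5) (nat_lit 389) (nat_lit 310) (nat_lit 165)) (XT.lf (nat_lit 0) (nat_lit 12292605042) (nat_lit 168) (nat_lit 850340819) (nat_lit 252) (nat_lit 29168312818) (nat_lit 17) (nat_lit 5) (nat_lit 19) (nat_lit 5) (nat_lit 20) (nat_lit 5) (nat_lit 390) (nat_lit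 310) (nat_lit 164)))) (XT.nd (nat_lit 94) (nat_lit 0) (nat_lit 0) (XT.lf (nat_lit 0) (nat_lit 17244120509) (nat_lit 252) (nat_lit 20443334212) (nat_lit 84) (nat_lit 5714701268) (nat_lit 17) (nat_lit 5) (nat_lit 20) (nat_lit 5) (nat_lit 18) (nat_lit 5) (nat_lit 391) (nat_lit 310) (nat_lit 163)) (XT.nd (nat_lit 94) (nat_lit 0) (nat_lit 0) (XT.lf (nat_lit 0) (nat_lit 21476605809) (nat_lit 252) (nat_lit 10586883246) (nat_lit 84) (nat_lit 12463262134) (nat_lit 17) (nat_lit 5) (nat_lit 20) (nat_lit 5) (nat_lit 18) (nat_lit 5) (nat_lit 392) (nat_lit 310) (nat_lit 162)) (XT.lf (nat_lit 0) (nat_lit 25835911393) (nat_lit 252) (nat_lit 431678009) (nat_lit 84) (nat_lit 19418764615) (nat_lit 17) (nat_lit 5) (nat_lit 20) (nat_lit 5) (nat_lit 18) (nat_lit 5) (nat_lit 393) (nat_lit 310) (nat_lit 161))))) (XT.nd (nat_lit 282) (nat_lit 168) (nat_lit 0) (XT.nd (nat_lit 94) (nat_lit 0) (nat_lit 0) (XT.lf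 (nat_lit 0) (nat_lit 10238020511) (nat_lit 168) (nat_lit 20189642512) (nat_lit 252) (nat_lit 16451233889) (nat_lit 15) (nat_lit 5) (nat_lit 17) (nat_lit 5) (nat_lit 18) (nat_lit 5) (nat_lit 394) (nat_lit 310) (nat_lit 160)) (XT.nd (nat_lit 94) (nat_lit 0) (nat_lit 0) (XT.lf (nat_lit 0) (nat_lit 21241106390) (nat_lit 168) (nat_lit 13920966748) (nat_lit 252) (nat_lit 12946334403) (nat_lit 15) (nat_lit 5) (nat_lit 17) (nat_lit 5) (nat_lit 18) (nat_lit 5) (nat_lit 395) (nat_lit 310) (nat_lit 159)) (XT.lf (nat_lit 0) (nat_lit 32578959469) (nat_lit 168) (nat_lit 7460224882) (nat_lit 252) (nat_lit 9336983067) (nat_lit 15) (nat_lit 5) (nat_lit 17) (nat_lit 5) (nat_lit 18) (nat_lit 5) (nat_lit 396) (nat_lit 310) (nat_lit 158)))) (XT.nd (nat_lit 94) (nat_lit 168) (nat_lit 0) (XT.lf (nat_lit 0) (nat_lit 44262147815) (nat_lit 168) (nat_lit 801394826) (nat_lit 252) (nat_lit 5619815587) (nat_lit 15)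 (nat_lit 5) (nat_lit 17) (nat_lit 5) (nat_lit 18) (nat_lit 5) (nat_lit 397) (nat_lit 310) (nat_lit 157)) (XT.nd (nat_lit 94) (nat_lit 84) (nat_lit 0) (XT.lf (nat_lit 0) (nat_lit 4296800821) (nat_lit 84) (nat_lit 46045788325) (nat_lit 168) (nat_lit 1685423768) (nat_lit 14) (nat_lit 5) (nat_lit 15) (nat_lit 5) (nat_lit 16) (nat_lit 4) (nat_lit 398) (nat_lit 310) (nat_lit 156)) (XT.lf (nat_lit 0) (nat_lit 2395235272) (nat_lit 168) (nat_lit 37967563209) (nat_lit 84) (nat_lit 13048597543) (nat_lit 13) (nat_lit 5) (nat_lit 15) (nat_lit 5) (nat_lit 14) (nat_lit 5) (nat_lit 399) (nat_lit 310) (nat_lit 155))))))))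
noncomputable def xc141 : XT := (XT.nd (nat_lit 46906) (nat_lit 0) (nat_lit 5124) (XT.nd (nat_lit 1128) (nat_lit 0) (nat_lit 0) (XT.nd (nat_lit 564) (nat_lit 84) (nat_lit 0) (XT.nd (nat_lit 282) (nat_lit 168) (nat_lit 0) (XT.nd (nat_lit 94) (nat_lit 0) (nat_lit 0) (XT.lf (nat_lit 0) (nat_lit 6563663833) (nat_lit 168) (nat_lit 27924380111) (nat_lit 84) (nat_lit 20349208231) (nat_lit 13) (nat_lit 5) (nat_lit 15) (nat_lit 5) (nat_lit 14) (nat_lit 5) (nat_lit 400) (nat_lit 310) (nat_lit 154)) (XT.nd (nat_lit 94) (nat_lit 0) (nat_lit 0) (XT.lf (nat_lit 0) (nat_lit 10857704859) (nat_lit 168) (nat_lit 17575581886) (nat_lit 84) (nat_lit 27874141975) (nat_lit 13) (nat_lit 5) (nat_lit 15) (nat_lit 5) (nat_lit 14) (nat_lit 5) (nat_lit 401) (nat_lit 310) (nat_lit 153)) (XT.lf (nat_lit 0) (nat_lit 15281360846) (nat_lit 168) (nat_lit 6911522371) (nat_lit 84) (nat_lit 35630412802) (nat_lit 13) (nat_lit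 5) (nat_lit 15) (nat_lit 5) (nat_lit 14) (nat_lit 5) (nat_lit 402) (nat_lit 310) (nat_lit 152)))) (XT.nd (nat_lit 94) (nat_lit 0) (nat_lit 0) (XT.lf (nat_lit 0) (nat_lit 4161585118) (nat_lit 168) (nat_lit 15718453426) (nat_lit 252) (nat_lit 39504948689) (nat_lit 11) (nat_lit 5) (nat_lit 13) (nat_lit 5) (nat_lit 14) (nat_lit 5) (nat_lit 403) (nat_lit 310) (nat_lit 151)) (XT.nd (nat_lit 94) (nat_lit 0) (nat_lit 0) (XT.lf (nat_lit 0) (nat_lit 15719149563) (nat_lit 168) (nat_lit 8970921951) (nat_lit 252) (nat_lit 36302893046) (nat_lit 11) (nat_lit 5) (nat_lit 13) (nat_lit 5) (nat_lit 14) (nat_lit 5) (nat_lit 404) (nat_lit 310) (nat_lit 150)) (XT.lf (nat_lit 0) (nat_lit 27629828747) (nat_lit 168) (nat_lit 2016141506) (nat_lit 252) (nat_lit 33004925713) (nat_lit 11) (nat_lit 5) (nat_lit 13) (nat_lit 5) (nat_lit 14) (nat_lit 5) (nat_lit 405) (nat_lit 310) (nat_lit 149))))) (XT.nd (nat_lit 282)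 (nat_lit 84) (nat_lit 0) (XT.nd (nat_lit 94) (nat_lit 0) (nat_lit 0) (XT.lf (nat_lit 0) (nat_lit 34803466331) (nat_lit 252) (nat_lit 24506714299) (nat_lit 84) (nat_lit 5048561709) (nat_lit 11) (nat_lit 5) (nat_lit 14) (nat_lit 5) (nat_lit 12) (nat_lit 4) (nat_lit 406) (nat_lit 310) (nat_lit 148)) (XT.nd (nat_lit 94) (nat_lit 0) (nat_lit 0) (XT.lf (nat_lit 0) (nat_lit 40138394181) (nat_lit 252) (nat_lit 13691982864) (nat_lit 84) (nat_lit 12288616687) (nat_lit 11) (nat_lit 5) (nat_lit 14) (nat_lit 5) (nat_lit 12) (nat_lit 4) (nat_lit 407) (nat_lit 310) (nat_lit 147)) (XT.lf (nat_lit 0) (nat_lit 45635726141) (nat_lit 252) (nat_lit 2546792078) (nat_lit 84) (nat_lit 19751392675) (nat_lit 11) (nat_lit 5) (nat_lit 14) (nat_lit 5) (nat_lit 12) (nat_lit 4) (nat_lit 408) (nat_lit 310) (nat_lit 146)))) (XT.nd (nat_lit 94) (nat_lit 0) (nat_lit 0) (XT.lf (nat_lit 0) (nat_lit 9123055786) (nat_lit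 84) (nat_lit 42268032357) (nat_lit 168) (nat_lit 18411291818) (nat_lit 10) (nat_lit 5) (nat_lit 11) (nat_lit 5) (nat_lit 12) (nat_lit 4) (nat_lit 409) (nat_lit 310) (nat_lit 145)) (XT.nd (nat_lit 94) (nat_lit 0) (nat_lit 0) (XT.lf (nat_lit 0) (nat_lit 21204053618) (nat_lit 84) (nat_lit 36144548121) (nat_lit 168) (nat_lit 14379439338) (nat_lit 10) (nat_lit 5) (nat_lit 11) (nat_lit 5) (nat_lit 12) (nat_lit 4) (nat_lit 410) (nat_lit 310) (nat_lit 144)) (XT.lf (nat_lit 0) (nat_lit 33655094904) (nat_lit 84) (nat_lit 29832941068) (nat_lit 168) (nat_lit 10225452490) (nat_lit 10) (nat_lit 5) (nat_lit 11) (nat_lit 5) (nat_lit 12) (nat_lit 4) (nat_lit 411) (nat_lit 310) (nat_lit 143)))))) (XT.nd (nat_lit 45214) (nat_lit 0) (nat_lit 9996) (XT.nd (nat_lit 44932) (nat_lit 0) (nat_lit 10920) (XT.nd (nat_lit 44744) (nat_lit 0) (nat_lit 10920) (XT.lf (nat_lit 0) (nat_lit 46487785320) (nat_lit 84) (nat_lit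 23327328119) (nat_lit 168) (nat_lit 5945459323) (nat_lit 10) (nat_lit 5) (nat_lit 11) (nat_lit 5) (nat_lit 12) (nat_lit 4) (nat_lit 412) (nat_lit 310) (nat_lit 142)) (XT.nd (nat_lit 94) (nat_lit 0) (nat_lit 0) (XT.lf (nat_lit 0) (nat_lit 899931818) (nat_lit 0) (nat_lit 899931818) (nat_lit 924) (nat_lit 2677641535) (nat_lit 140) (nat_lit 5) (nat_lit 140) (nat_lit 3) (nat_lit 151) (nat_lit 3) (nat_lit 311) (nat_lit 311) (nat_lit 242)) (XT.lf (nat_lit 0) (nat_lit 4450830015) (nat_lit 924) (nat_lit 3667308038) (nat_lit 1008) (nat_lit 947773278) (nat_lit 140) (nat_lit 5) (nat_lit 151) (nat_lit 3) (nat_lit 152) (nat_lit 5) (nat_lit 312) (nat_lit 311) (nat_lit 241)))) (XT.nd (nat_lit 94) (nat_lit 0) (nat_lit 0) (XT.lf (nat_lit 0) (nat_lit 5315221678) (nat_lit 924) (nat_lit 106854447) (nat_lit 1008) (nat_lit 3758710927) (nat_lit 140) (nat_lit 5) (nat_lit 151) (nat_lit 3) (nat_lit 152) (nat_lit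 5) (nat_lit 313) (nat_lit 311) (nat_lit 240)) (XT.nd (nat_lit 94) (nat_lit 0) (nat_lit 84) (XT.lf (nat_lit 84) (nat_lit 3620329220) (nat_lit 0) (nat_lit 2591437987) (nat_lit 1008) (nat_lit 3087417534) (nat_lit 141) (nat_lit 5) (nat_lit 140) (nat_lit 5) (nat_lit 152) (nat_lit 5) (nat_lit 314) (nat_lit 311) (nat_lit 239)) (XT.lf (nat_lit 0) (nat_lit 7110808051) (nat_lit 924) (nat_lit 1976749444) (nat_lit 1008) (nat_lit 334602584) (nat_lit 141) (nat_lit 5) (nat_lit 152) (nat_lit 5) (nat_lit 153) (nat_lit 5) (nat_lit 315) (nat_lit 311) (nat_lit 238))))) (XT.nd (nat_lit 282) (nat_lit 0) (nat_lit 84) (XT.nd (nat_lit 94) (nat_lit 1008) (nat_lit 0) (XT.lf (nat_lit 84) (nat_lit 1833490153) (nat_lit 0) (nat_lit 6220146090) (nat_lit 1008) (nat_lit 1494937375) (nat_lit 142) (nat_lit 5) (nat_lit 141) (nat_lit 5) (nat_lit 153) (nat_lit 5) (nat_lit 316) (nat_lit 311) (nat_lit 237)) (XT.nd (nat_lit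 94) (nat_lit 1008) (nat_lit 0) (XT.lf (nat_lit 84) (nat_lit 5786857834) (nat_lit 0) (nat_lit 3231389423) (nat_lit 1008) (nat_lit 661005315) (nat_lit 142) (nat_lit 5) (nat_lit 141) (nat_lit 5) (nat_lit 153) (nat_lit 5) (nat_lit 317) (nat_lit 311) (nat_lit 236)) (XT.lf (nat_lit 84) (nat_lit 30373076) (nat_lit 0) (nat_lit 137079508) (nat_lit 1092) (nat_lit 9647424760) (nat_lit 130) (nat_lit 5) (nat_lit 129) (nat_lit 5) (nat_lit 142) (nat_lit 5) (nat_lit 318) (nat_lit 311) (nat_lit 235)))) (XT.nd (nat_lit 94) (nat_lit 0) (nat_lit 0) (XT.lf (nat_lit 0) (nat_lit 1052334308) (nat_lit 1008) (nat_lit 5851580140) (nat_lit 1092) (nat_lit 3049309487) (nat_lit 130) (nat_lit 5) (nat_lit 142) (nat_lit 5) (nat_lit 143) (nat_lit 5) (nat_lit 319) (nat_lit 311) (nat_lit 234)) (XT.nd (nat_lit 94) (nat_lit 0) (nat_lit 0) (XT.lf (nat_lit 0) (nat_lit 1939997422) (nat_lit 1008) (nat_lit 1815530991) (nat_lit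 1092) (nat_lit 6341197500) (nat_lit 130) (nat_lit 5) (nat_lit 142) (nat_lit 5) (nat_lit 143) (nat_lit 5) (nat_lit 320) (nat_lit 311) (nat_lit 233)) (XT.lf (nat_lit 84) (nat_lit 2376649228) (nat_lit 0) (nat_lit 476836900) (nat_lit 1092) (nat_lit 7391342184) (nat_lit 131) (nat_lit 5) (nat_lit 130) (nat_lit 5) (nat_lit 143) (nat_lit 5) (nat_lit 321) (nat_lit 311) (nat_lit 232))))))) (XT.nd (nat_lit 1128) (nat_lit 2520) (nat_lit 0) (XT.nd (nat_lit 564) (nat_lit 2520) (nat_lit 0) (XT.nd (nat_lit 282) (nat_lit 0) (nat_lit 84) (XT.nd (nat_lit 94) (nat_lit 0) (nat_lit 0) (XT.lf (nat_lit 0) (nat_lit 3818644846) (nat_lit 1008) (nat_lit 3706296202) (nat_lit 1092) (nat_lit 2871953353) (nat_lit 131) (nat_lit 5) (nat_lit 143) (nat_lit 5) (nat_lit 144) (nat_lit 5) (nat_lit 322) (nat_lit 311) (nat_lit 231)) (XT.nd (nat_lit 94) (nat_lit 0) (nat_lit 0) (XT.lf (nat_lit 84) (nat_lit 574186843) (nat_lit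 0) (nat_lit 4226253697) (nat_lit 1092) (nat_lit 5753739289) (nat_lit 132) (nat_lit 5) (nat_lit 131) (nat_lit 5) (nat_lit 144) (nat_lit 5) (nat_lit 323) (nat_lit 311) (nat_lit 230)) (XT.lf (nat_lit 84) (nat_lit 5048999746) (nat_lit 0) (nat_lit 779051703) (nat_lit 1092) (nat_lit 4887903603) (nat_lit 132) (nat_lit 5) (nat_lit 131) (nat_lit 5) (nat_lit 144) (nat_lit 5) (nat_lit 324) (nat_lit 311) (nat_lit 229)))) (XT.nd (nat_lit 94) (nat_lit 0) (nat_lit 0) (XT.lf (nat_lit 0) (nat_lit 6892502260) (nat_lit 1008) (nat_lit 1265019390) (nat_lit 1092) (nat_lit 2725157136) (nat_lit 132) (nat_lit 5) (nat_lit 144) (nat_lit 5) (nat_lit 145) (nat_lit 5) (nat_lit 325) (nat_lit 311) (nat_lit 228)) (XT.nd (nat_lit 94) (nat_lit 0) (nat_lit 0) (XT.lf (nat_lit 84) (nat_lit 3315449637) (nat_lit 0) (nat_lit 4693492297) (nat_lit 1092) (nat_lit 3045125641) (nat_lit 133) (nat_lit 5) (nat_lit 132) (nat_lit 5)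 (nat_lit 145) (nat_lit 5) (nat_lit 326) (nat_lit 311) (nat_lit 227)) (XT.lf (nat_lit 84) (nat_lit 8048142654) (nat_lit 0) (nat_lit 1103679071) (nat_lit 1092) (nat_lit 2079283719) (nat_lit 133) (nat_lit 5) (nat_lit 132) (nat_lit 5) (nat_lit 145) (nat_lit 5) (nat_lit 327) (nat_lit 311) (nat_lit 226))))) (XT.nd (nat_lit 282) (nat_lit 1596) (nat_lit 0) (XT.nd (nat_lit 94) (nat_lit 84) (nat_lit 0) (XT.lf (nat_lit 0) (nat_lit 1501545233) (nat_lit 1008) (nat_lit 8848562768) (nat_lit 1092) (nat_lit 1062984473) (nat_lit 121) (nat_lit 5) (nat_lit 133) (nat_lit 5) (nat_lit 134) (nat_lit 5) (nat_lit 328) (nat_lit 311) (nat_lit 225)) (XT.nd (nat_lit 94) (nat_lit 0) (nat_lit 0) (XT.lf (nat_lit 0) (nat_lit 9465538) (nat_lit 1092) (nat_lit 5229603407) (nat_lit 84) (nat_lit 6360977825) (nat_lit 120) (nat_lit 5) (nat_lit 133) (nat_lit 5) (nat_lit 121) (nat_lit 5) (nat_lit 329) (nat_lit 311) (nat_lit 224))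 (XT.lf (nat_lit 0) (nat_lit 1073185763) (nat_lit 1092) (nat_lit 430059551) (nat_lit 84) (nat_lit 10289904311) (nat_lit 120) (nat_lit 5) (nat_lit 133) (nat_lit 5) (nat_lit 121) (nat_lit 5) (nat_lit 330) (nat_lit 311) (nat_lit 223)))) (XT.nd (nat_lit 94) (nat_lit 504) (nat_lit 0) (XT.lf (nat_lit 0) (nat_lit 2219957745) (nat_lit 1176) (nat_lit 7420613070) (nat_lit 84) (nat_lit 2350186538) (nat_lit 107) (nat_lit 5) (nat_lit 121) (nat_lit 5) (nat_lit 108) (nat_lit 5) (nat_lit 331) (nat_lit 311) (nat_lit 222)) (XT.nd (nat_lit 94) (nat_lit 504) (nat_lit 0) (XT.lf (nat_lit 0) (nat_lit 3403342274) (nat_lit 1176) (nat_lit 2491986950) (nat_lit 84) (nat_lit 6299197672) (nat_lit 107) (nat_lit 5) (nat_lit 121) (nat_lit 5) (nat_lit 108) (nat_lit 5) (nat_lit 332) (nat_lit 311) (nat_lit 221)) (XT.lf (nat_lit 0) (nat_lit 2626153343) (nat_lit 504) (nat_lit 2005029933) (nat_lit 588) (nat_lit 7773255946)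 (nat_lit 101) (nat_lit 5) (nat_lit 107) (nat_lit 5) (nat_lit 108) (nat_lit 5) (nat_lit 333) (nat_lit 311) (nat_lit 220)))))) (XT.nd (nat_lit 564) (nat_lit 1428) (nat_lit 0) (XT.nd (nat_lit 282) (nat_lit 504) (nat_lit 0) (XT.nd (nat_lit 94) (nat_lit 588) (nat_lit 0) (XT.lf (nat_lit 0) (nat_lit 5925392131) (nat_lit 588) (nat_lit 4701090650) (nat_lit 84) (nat_lit 1993563436) (nat_lit 101) (nat_lit 5) (nat_lit 108) (nat_lit 5) (nat_lit 102) (nat_lit 5) (nat_lit 334) (nat_lit 311) (nat_lit 219)) (XT.nd (nat_lit 94) (nat_lit 0) (nat_lit 0) (XT.lf (nat_lit 0) (nat_lit 507049218) (nat_lit 588) (nat_lit 6760875364) (nat_lit 672) (nat_lit 5574221036) (nat_lit 94) (nat_lit 5) (nat_lit 101) (nat_lit 5) (nat_lit 102) (nat_lit 5) (nat_lit 335) (nat_lit 311) (nat_lit 218)) (XT.lf (nat_lit 0) (nat_lit 5960308072) (nat_lit 588) (nat_lit 2723866127) (nat_lit 672) (nat_lit 4386021838) (nat_lit 94) (nat_lit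 5) (nat_lit 101) (nat_lit 5) (nat_lit 102) (nat_lit 5) (nat_lit 336) (nat_lit 311) (nat_lit 217)))) (XT.nd (nat_lit 94) (nat_lit 504) (nat_lit 0) (XT.lf (nat_lit 0) (nat_lit 10142144173) (nat_lit 672) (nat_lit 1753058033) (nat_lit 84) (nat_lit 1410240659) (nat_lit 94) (nat_lit 5) (nat_lit 102) (nat_lit 5) (nat_lit 95) (nat_lit 5) (nat_lit 337) (nat_lit 311) (nat_lit 216)) (XT.nd (nat_lit 94) (nat_lit 0) (nat_lit 0) (XT.lf (nat_lit 0) (nat_lit 3802988535) (nat_lit 504) (nat_lit 7891950800) (nat_lit 588) (nat_lit 1851561919) (nat_lit 88) (nat_lit 5) (nat_lit 94) (nat_lit 5) (nat_lit 95) (nat_lit 5) (nat_lit 338) (nat_lit 311) (nat_lit 215)) (XT.lf (nat_lit 0) (nat_lit 9552986381) (nat_lit 504) (nat_lit 3745552874) (nat_lit 588) (nat_lit 496466143) (nat_lit 88) (nat_lit 5) (nat_lit 94) (nat_lit 5) (nat_lit 95) (nat_lit 5) (nat_lit 339) (nat_lit 311) (nat_lit 214))))) (XT.nd (nat_lit 282)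 (nat_lit 840) (nat_lit 0) (XT.nd (nat_lit 94) (nat_lit 0) (nat_lit 0) (XT.lf (nat_lit 0) (nat_lit 886843964) (nat_lit 588) (nat_lit 12621875010) (nat_lit 84) (nat_lit 542134672) (nat_lit 81) (nat_lit 5) (nat_lit 88) (nat_lit 5) (nat_lit 82) (nat_lit 5) (nat_lit 340) (nat_lit 311) (nat_lit 213)) (XT.nd (nat_lit 94) (nat_lit 0) (nat_lit 0) (XT.lf (nat_lit 0) (nat_lit 2370704661) (nat_lit 588) (nat_lit 7007108100) (nat_lit 84) (nat_lit 4934606402) (nat_lit 81) (nat_lit 5) (nat_lit 88) (nat_lit 5) (nat_lit 82) (nat_lit 5) (nat_lit 341) (nat_lit 311) (nat_lit 212)) (XT.lf (nat_lit 0) (nat_lit 3885959522) (nat_lit 588) (nat_lit 1233525498) (nat_lit 84) (nat_lit 9463110222) (nat_lit 81) (nat_lit 5) (nat_lit 88) (nat_lit 5) (nat_lit 82) (nat_lit 5) (nat_lit 342) (nat_lit 311) (nat_lit 211)))) (XT.nd (nat_lit 94) (nat_lit 420) (nat_lit 0) (XT.lf (nat_lit 0) (nat_lit 4800983497) (nat_lit 420)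 (nat_lit 680663777) (nat_lit 504) (nat_lit 9378510023) (nat_lit 76) (nat_lit 5) (nat_lit 81) (nat_lit 5) (nat_lit 82) (nat_lit 5) (nat_lit 343) (nat_lit 311) (nat_lit 210)) (XT.nd (nat_lit 94) (nat_lit 420) (nat_lit 0) (XT.lf (nat_lit 0) (nat_lit 7164561934) (nat_lit 504) (nat_lit 4151093869) (nat_lit 84) (nat_lit 3829543735) (nat_lit 76) (nat_lit 5) (nat_lit 82) (nat_lit 5) (nat_lit 77) (nat_lit 5) (nat_lit 344) (nat_lit 311) (nat_lit 209)) (XT.lf (nat_lit 0) (nat_lit 1957974421) (nat_lit 420) (nat_lit 6954582194) (nat_lit 504) (nat_lit 6526166222) (nat_lit 71) (nat_lit 5) (nat_lit 76) (nat_lit 5) (nat_lit 77) (nat_lit 5) (nat_lit 345) (nat_lit 311) (nat_lit 208))))))))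
noncomputable def xc142 : XT := (XT.nd (nat_lit 2256) (nat_lit 1344) (nat_lit 0) (XT.nd (nat_lit 1128) (nat_lit 1596) (nat_lit 0) (XT.nd (nat_lit 564) (nat_lit 672) (nat_lit 0) (XT.nd (nat_lit 282) (nat_lit 504) (nat_lit 0) (XT.nd (nat_lit 94) (nat_lit 420) (nat_lit 0) (XT.lf (nat_lit 0) (nat_lit 8329923798) (nat_lit 420) (nat_lit 2414930287) (nat_lit 504) (nat_lit 4995601304) (nat_lit 71) (nat_lit 5) (nat_lit 76) (nat_lit 5) (nat_lit 77) (nat_lit 5) (nat_lit 346) (nat_lit 311) (nat_lit 207)) (XT.nd (nat_lit 94) (nat_lit 420) (nat_lit 0) (XT.lf (nat_lit 0) (nat_lit 12643597312) (nat_lit 504) (nat_lit 1189103840) (nat_lit 84) (nat_lit 2218583806) (nat_lit 71) (nat_lit 5) (nat_lit 77) (nat_lit 5) (nat_lit 72) (nat_lit 5) (nat_lit 347) (nat_lit 311) (nat_lit 206)) (XT.lf (nat_lit 0) (nat_lit 5293076319) (nat_lit 420) (nat_lit 9372889009) (nat_lit 504) (nat_lit 1703818251) (nat_lit 66) (nat_lit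 5) (nat_lit 71) (nat_lit 5) (nat_lit 72) (nat_lit 5) (nat_lit 348) (nat_lit 311) (nat_lit 205)))) (XT.nd (nat_lit 94) (nat_lit 420) (nat_lit 0) (XT.lf (nat_lit 0) (nat_lit 51973614) (nat_lit 504) (nat_lit 4711217020) (nat_lit 84) (nat_lit 11934982148) (nat_lit 65) (nat_lit 5) (nat_lit 71) (nat_lit 5) (nat_lit 66) (nat_lit 5) (nat_lit 349) (nat_lit 311) (nat_lit 204)) (XT.nd (nat_lit 94) (nat_lit 0) (nat_lit 0) (XT.lf (nat_lit 0) (nat_lit 1833477564) (nat_lit 504) (nat_lit 15178455388) (nat_lit 84) (nat_lit 24099396) (nat_lit 60) (nat_lit 5) (nat_lit 66) (nat_lit 5) (nat_lit 61) (nat_lit 5) (nat_lit 350) (nat_lit 311) (nat_lit 203)) (XT.lf (nat_lit 0) (nat_lit 3756810689) (nat_lit 504) (nat_lit 8716204634) (nat_lit 84) (nat_lit 4908701858) (nat_lit 60) (nat_lit 5) (nat_lit 66) (nat_lit 5) (nat_lit 61) (nat_lit 5) (nat_lit 351) (nat_lit 311) (nat_lit 202))))) (XT.nd (nat_lit 282) (nat_lit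 336) (nat_lit 0) (XT.nd (nat_lit 94) (nat_lit 336) (nat_lit 0) (XT.lf (nat_lit 0) (nat_lit 5728329629) (nat_lit 504) (nat_lit 2067225666) (nat_lit 84) (nat_lit 9942952717) (nat_lit 60) (nat_lit 5) (nat_lit 66) (nat_lit 5) (nat_lit 61) (nat_lit 5) (nat_lit 352) (nat_lit 311) (nat_lit 201)) (XT.nd (nat_lit 94) (nat_lit 0) (nat_lit 0) (XT.lf (nat_lit 0) (nat_lit 4872856253) (nat_lit 336) (nat_lit 2925355131) (nat_lit 420) (nat_lit 10307027508) (nat_lit 56) (nat_lit 5) (nat_lit 60) (nat_lit 5) (nat_lit 61) (nat_lit 5) (nat_lit 353) (nat_lit 311) (nat_lit 200)) (XT.lf (nat_lit 0) (nat_lit 9963937449) (nat_lit 420) (nat_lit 6445184413) (nat_lit 84) (nat_lit 2073267672) (nat_lit 56) (nat_lit 5) (nat_lit 61) (nat_lit 5) (nat_lit 57) (nat_lit 5) (nat_lit 354) (nat_lit 311) (nat_lit 199)))) (XT.nd (nat_lit 94) (nat_lit 0) (nat_lit 0) (XT.lf (nat_lit 0) (nat_lit 519968616) (nat_lit 336) (nat_lit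 11701327017) (nat_lit 420) (nat_lit 6649209006) (nat_lit 52) (nat_lit 5) (nat_lit 56) (nat_lit 5) (nat_lit 57) (nat_lit 5) (nat_lit 355) (nat_lit 311) (nat_lit 198)) (XT.nd (nat_lit 94) (nat_lit 0) (nat_lit 0) (XT.lf (nat_lit 0) (nat_lit 7824802528) (nat_lit 336) (nat_lit 6780711362) (nat_lit 420) (nat_lit 4663405242) (nat_lit 52) (nat_lit 5) (nat_lit 56) (nat_lit 5) (nat_lit 57) (nat_lit 5) (nat_lit 356) (nat_lit 311) (nat_lit 197)) (XT.lf (nat_lit 0) (nat_lit 15343599983) (nat_lit 336) (nat_lit 1709962874) (nat_lit 420) (nat_lit 2626464322) (nat_lit 52) (nat_lit 5) (nat_lit 56) (nat_lit 5) (nat_lit 57) (nat_lit 5) (nat_lit 357) (nat_lit 311) (nat_lit 196)))))) (XT.nd (nat_lit 564) (nat_lit 840) (nat_lit 0) (XT.nd (nat_lit 282) (nat_lit 336) (nat_lit 0) (XT.nd (nat_lit 94) (nat_lit 84) (nat_lit 0) (XT.lf (nat_lit 0) (nat_lit 3004822146) (nat_lit 336) (nat_lit 16627586067) (nat_lit 420)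 (nat_lit 469798565) (nat_lit 48) (nat_lit 5) (nat_lit 52) (nat_lit 5) (nat_lit 53) (nat_lit 5) (nat_lit 358) (nat_lit 311) (nat_lit 195)) (XT.nd (nat_lit 94) (nat_lit 0) (nat_lit 0) (XT.lf (nat_lit 0) (nat_lit 1771851704) (nat_lit 420) (nat_lit 9918362087) (nat_lit 84) (nat_lit 8845091113) (nat_lit 47) (nat_lit 5) (nat_lit 52) (nat_lit 5) (nat_lit 48) (nat_lit 5) (nat_lit 359) (nat_lit 311) (nat_lit 194)) (XT.lf (nat_lit 0) (nat_lit 4063773844) (nat_lit 420) (nat_lit 2533740764) (nat_lit 84) (nat_lit 14384485534) (nat_lit 47) (nat_lit 5) (nat_lit 52) (nat_lit 5) (nat_lit 48) (nat_lit 5) (nat_lit 360) (nat_lit 311) (nat_lit 193)))) (XT.nd (nat_lit 94) (nat_lit 0) (nat_lit 0) (XT.lf (nat_lit 0) (nat_lit 5172231984) (nat_lit 336) (nat_lit 1296646756) (nat_lit 420) (nat_lit 14972384009) (nat_lit 43) (nat_lit 5) (nat_lit 47) (nat_lit 5) (nat_lit 48) (nat_lit 5) (nat_lit 361) (nat_lit 311)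 (nat_lit 192)) (XT.nd (nat_lit 94) (nat_lit 0) (nat_lit 0) (XT.lf (nat_lit 0) (nat_lit 9007569913) (nat_lit 420) (nat_lit 8796701703) (nat_lit 84) (nat_lit 4108686177) (nat_lit 43) (nat_lit 5) (nat_lit 48) (nat_lit 5) (nat_lit 44) (nat_lit 5) (nat_lit 362) (nat_lit 311) (nat_lit 191)) (XT.lf (nat_lit 0) (nat_lit 11629451996) (nat_lit 420) (nat_lit 1117572999) (nat_lit 84) (nat_lit 9652135561) (nat_lit 43) (nat_lit 5) (nat_lit 48) (nat_lit 5) (nat_lit 44) (nat_lit 5) (nat_lit 363) (nat_lit 311) (nat_lit 190))))) (XT.nd (nat_lit 282) (nat_lit 588) (nat_lit 0) (XT.nd (nat_lit 94) (nat_lit 0) (nat_lit 0) (XT.lf (nat_lit 0) (nat_lit 6927958929) (nat_lit 252) (nat_lit 7464873243) (nat_lit 336) (nat_lit 8505760295) (nat_lit 40) (nat_lit 5) (nat_lit 43) (nat_lit 5) (nat_lit 44) (nat_lit 5) (nat_lit 364) (nat_lit 311) (nat_lit 189)) (XT.nd (nat_lit 94) (nat_lit 0) (nat_lit 0) (XT.lf (nat_lit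 0) (nat_lit 15235475329) (nat_lit 252) (nat_lit 2009705983) (nat_lit 336) (nat_lit 6168245987) (nat_lit 40) (nat_lit 5) (nat_lit 43) (nat_lit 5) (nat_lit 44) (nat_lit 5) (nat_lit 365) (nat_lit 311) (nat_lit 188)) (XT.lf (nat_lit 0) (nat_lit 20213674141) (nat_lit 336) (nat_lit 190586057) (nat_lit 84) (nat_lit 3539124738) (nat_lit 40) (nat_lit 5) (nat_lit 44) (nat_lit 5) (nat_lit 41) (nat_lit 5) (nat_lit 366) (nat_lit 311) (nat_lit 187)))) (XT.nd (nat_lit 94) (nat_lit 336) (nat_lit 0) (XT.lf (nat_lit 0) (nat_lit 8177900011) (nat_lit 252) (nat_lit 15190079086) (nat_lit 336) (nat_lit 1118906310) (nat_lit 37) (nat_lit 5) (nat_lit 40) (nat_lit 5) (nat_lit 41) (nat_lit 5) (nat_lit 367) (nat_lit 311) (nat_lit 186)) (XT.nd (nat_lit 94) (nat_lit 252) (nat_lit 0) (XT.lf (nat_lit 0) (nat_lit 1535294529) (nat_lit 336) (nat_lit 8263719976) (nat_lit 84) (nat_lit 15247937862) (nat_lit 36) (nat_lit 5)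 (nat_lit 40) (nat_lit 5) (nat_lit 37) (nat_lit 5) (nat_lit 368) (nat_lit 311) (nat_lit 185)) (XT.lf (nat_lit 0) (nat_lit 9241348) (nat_lit 252) (nat_lit 4231760740) (nat_lit 336) (nat_lit 21383277737) (nat_lit 33) (nat_lit 5) (nat_lit 36) (nat_lit 5) (nat_lit 37) (nat_lit 5) (nat_lit 369) (nat_lit 311) (nat_lit 184))))))) (XT.nd (nat_lit 1128) (nat_lit 588) (nat_lit 0) (XT.nd (nat_lit 564) (nat_lit 504) (nat_lit 0) (XT.nd (nat_lit 282) (nat_lit 252) (nat_lit 0) (XT.nd (nat_lit 94) (nat_lit 0) (nat_lit 0) (XT.lf (nat_lit 0) (nat_lit 7125160862) (nat_lit 336) (nat_lit 17529389209) (nat_lit 84) (nat_lit 1562041679) (nat_lit 33) (nat_lit 5) (nat_lit 37) (nat_lit 5) (nat_lit 34) (nat_lit 5) (nat_lit 370) (nat_lit 311) (nat_lit 183)) (XT.nd (nat_lit 94) (nat_lit 0) (nat_lit 0) (XT.lf (nat_lit 0) (nat_lit 10134711236) (nat_lit 336) (nat_lit 9246615234) (nat_lit 84) (nat_lit 7444841954) (nat_lit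 33) (nat_lit 5) (nat_lit 37) (nat_lit 5) (nat_lit 34) (nat_lit 5) (nat_lit 371) (nat_lit 311) (nat_lit 182)) (XT.lf (nat_lit 0) (nat_lit 13230478837) (nat_lit 336) (nat_lit 717016550) (nat_lit 84) (nat_lit 13507384019) (nat_lit 33) (nat_lit 5) (nat_lit 37) (nat_lit 5) (nat_lit 34) (nat_lit 5) (nat_lit 372) (nat_lit 311) (nat_lit 181)))) (XT.nd (nat_lit 94) (nat_lit 0) (nat_lit 0) (XT.lf (nat_lit 0) (nat_lit 8233238735) (nat_lit 252) (nat_lit 8263785257) (nat_lit 336) (nat_lit 11603754812) (nat_lit 30) (nat_lit 5) (nat_lit 33) (nat_lit 5) (nat_lit 34) (nat_lit 5) (nat_lit 373) (nat_lit 311) (nat_lit 180)) (XT.nd (nat_lit 94) (nat_lit 0) (nat_lit 0) (XT.lf (nat_lit 0) (nat_lit 17466607558) (nat_lit 252) (nat_lit 2398954442) (nat_lit 336) (nat_lit 8901133374) (nat_lit 30) (nat_lit 5) (nat_lit 33) (nat_lit 5) (nat_lit 34) (nat_lit 5) (nat_lit 374) (nat_lit 311) (nat_lit 179)) (XT.lf (nat_lit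 0) (nat_lit 23368132193) (nat_lit 336) (nat_lit 2512680450) (nat_lit 84) (nat_lit 3571541297) (nat_lit 30) (nat_lit 5) (nat_lit 34) (nat_lit 5) (nat_lit 31) (nat_lit 5) (nat_lit 375) (nat_lit 311) (nat_lit 178))))) (XT.nd (nat_lit 282) (nat_lit 252) (nat_lit 0) (XT.nd (nat_lit 94) (nat_lit 84) (nat_lit 0) (XT.lf (nat_lit 0) (nat_lit 6647364206) (nat_lit 168) (nat_lit 20416015984) (nat_lit 252) (nat_lit 3093296606) (nat_lit 28) (nat_lit 5) (nat_lit 30) (nat_lit 5) (nat_lit 31) (nat_lit 5) (nat_lit 376) (nat_lit 311) (nat_lit 177)) (XT.nd (nat_lit 94) (nat_lit 0) (nat_lit 0) (XT.lf (nat_lit 0) (nat_lit 10679449) (nat_lit 252) (nat_lit 14746774508) (nat_lit 84) (nat_lit 16124773378) (nat_lit 27) (nat_lit 5) (nat_lit 30) (nat_lit 5) (nat_lit 28) (nat_lit 5) (nat_lit 377) (nat_lit 311) (nat_lit 176)) (XT.lf (nat_lit 0) (nat_lit 3140457160) (nat_lit 252) (nat_lit 5753176850) (nat_lit 84) (nat_lit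 22735860868) (nat_lit 27) (nat_lit 5) (nat_lit 30) (nat_lit 5) (nat_lit 28) (nat_lit 5) (nat_lit 378) (nat_lit 311) (nat_lit 175)))) (XT.nd (nat_lit 94) (nat_lit 0) (nat_lit 0) (XT.lf (nat_lit 0) (nat_lit 3582733337) (nat_lit 252) (nat_lit 2814084661) (nat_lit 336) (nat_lit 26002207447) (nat_lit 24) (nat_lit 5) (nat_lit 27) (nat_lit 5) (nat_lit 28) (nat_lit 5) (nat_lit 379) (nat_lit 311) (nat_lit 174)) (XT.nd (nat_lit 94) (nat_lit 0) (nat_lit 0) (XT.lf (nat_lit 0) (nat_lit 9843141753) (nat_lit 336) (nat_lit 19904161060) (nat_lit 84) (nat_lit 3442362822) (nat_lit 24) (nat_lit 5) (nat_lit 28) (nat_lit 5) (nat_lit 25) (nat_lit 5) (nat_lit 380) (nat_lit 311) (nat_lit 173)) (XT.lf (nat_lit 0) (nat_lit 13419347570) (nat_lit 336) (nat_lit 10753026837) (nat_lit 84) (nat_lit 9831740092) (nat_lit 24) (nat_lit 5) (nat_lit 28) (nat_lit 5) (nat_lit 25) (nat_lit 5) (nat_lit 381) (nat_lit 311) (nat_lit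 172)))))) (XT.nd (nat_lit 564) (nat_lit 252) (nat_lit 0) (XT.nd (nat_lit 282) (nat_lit 168) (nat_lit 0) (XT.nd (nat_lit 94) (nat_lit 168) (nat_lit 0) (XT.lf (nat_lit 0) (nat_lit 17100852778) (nat_lit 336) (nat_lit 1326443558) (nat_lit 84) (nat_lit 16416700251) (nat_lit 24) (nat_lit 5) (nat_lit 28) (nat_lit 5) (nat_lit 25) (nat_lit 5) (nat_lit 382) (nat_lit 311) (nat_lit 171)) (XT.nd (nat_lit 94) (nat_lit 0) (nat_lit 0) (XT.lf (nat_lit 0) (nat_lit 8556775295) (nat_lit 168) (nat_lit 12419197901) (nat_lit 252) (nat_lit 14731490147) (nat_lit 22) (nat_lit 5) (nat_lit 24) (nat_lit 5) (nat_lit 25) (nat_lit 5) (nat_lit 383) (nat_lit 311) (nat_lit 170)) (XT.lf (nat_lit 0) (nat_lit 18766586255) (nat_lit 168) (nat_lit 6213169516) (nat_lit 252) (nat_lit 11617689357) (nat_lit 22) (nat_lit 5) (nat_lit 24) (nat_lit 5) (nat_lit 25) (nat_lit 5) (nat_lit 384) (nat_lit 311) (nat_lit 169)))) (XT.nd (nat_lit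 94) (nat_lit 168) (nat_lit 0) (XT.lf (nat_lit 0) (nat_lit 29104316082) (nat_lit 252) (nat_lit 8231768949) (nat_lit 84) (nat_lit 179046573) (nat_lit 22) (nat_lit 5) (nat_lit 25) (nat_lit 5) (nat_lit 23) (nat_lit 5) (nat_lit 385) (nat_lit 311) (nat_lit 168)) (XT.nd (nat_lit 94) (nat_lit 0) (nat_lit 0) (XT.lf (nat_lit 0) (nat_lit 1626536464) (nat_lit 168) (nat_lit 31804861333) (nat_lit 252) (nat_lit 5027565481) (nat_lit 20) (nat_lit 5) (nat_lit 22) (nat_lit 5) (nat_lit 23) (nat_lit 5) (nat_lit 386) (nat_lit 311) (nat_lit 167)) (XT.lf (nat_lit 0) (nat_lit 11957454000) (nat_lit 168) (nat_lit 26016142853) (nat_lit 252) (nat_lit 1455957603) (nat_lit 20) (nat_lit 5) (nat_lit 22) (nat_lit 5) (nat_lit 23) (nat_lit 5) (nat_lit 387) (nat_lit 311) (nat_lit 166))))) (XT.nd (nat_lit 282) (nat_lit 0) (nat_lit 0) (XT.nd (nat_lit 94) (nat_lit 168) (nat_lit 0) (XT.lf (nat_lit 0) (nat_lit 2176657887) (nat_lit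 252) (nat_lit 17851078954) (nat_lit 84) (nat_lit 20401973371) (nat_lit 19) (nat_lit 5) (nat_lit 22) (nat_lit 5) (nat_lit 20) (nat_lit 5) (nat_lit 388) (nat_lit 311) (nat_lit 165)) (XT.nd (nat_lit 94) (nat_lit 168) (nat_lit 0) (XT.lf (nat_lit 0) (nat_lit 5886930964) (nat_lit 252) (nat_lit 7953863736) (nat_lit 84) (nat_lit 27619770550) (nat_lit 19) (nat_lit 5) (nat_lit 22) (nat_lit 5) (nat_lit 20) (nat_lit 5) (nat_lit 389) (nat_lit 311) (nat_lit 164)) (XT.lf (nat_lit 0) (nat_lit 2289338792) (nat_lit 168) (nat_lit 7441026023) (nat_lit 252) (nat_lit 32792459336) (nat_lit 17) (nat_lit 5) (nat_lit 19) (nat_lit 5) (nat_lit 20) (nat_lit 5) (nat_lit 390) (nat_lit 311) (nat_lit 163)))) (XT.nd (nat_lit 94) (nat_lit 0) (nat_lit 0) (XT.lf (nat_lit 0) (nat_lit 13011817273) (nat_lit 168) (nat_lit 759650748) (nat_lit 252) (nat_lit 29844120320) (nat_lit 17) (nat_lit 5) (nat_lit 19) (nat_lit 5) (nat_lit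 20) (nat_lit 5) (nat_lit 391) (nat_lit 311) (nat_lit 162)) (XT.nd (nat_lit 94) (nat_lit 0) (nat_lit 0) (XT.lf (nat_lit 0) (nat_lit 17994257590) (nat_lit 252) (nat_lit 20743130264) (nat_lit 84) (nat_lit 6003100778) (nat_lit 17) (nat_lit 5) (nat_lit 20) (nat_lit 5) (nat_lit 18) (nat_lit 5) (nat_lit 392) (nat_lit 311) (nat_lit 161)) (XT.lf (nat_lit 0) (nat_lit 22351468217) (nat_lit 252) (nat_lit 10591170411) (nat_lit 84) (nat_lit 12957522164) (nat_lit 17) (nat_lit 5) (nat_lit 20) (nat_lit 5) (nat_lit 18) (nat_lit 5) (nat_lit 393) (nat_lit 311) (nat_lit 160))))))))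
noncomputable def xc143 : XT := (XT.nd (nat_lit 47000) (nat_lit 0) (nat_lit 6468) (XT.nd (nat_lit 1128) (nat_lit 84) (nat_lit 0) (XT.nd (nat_lit 564) (nat_lit 252) (nat_lit 0) (XT.nd (nat_lit 282) (nat_lit 84) (nat_lit 0) (XT.nd (nat_lit 94) (nat_lit 168) (nat_lit 0) (XT.lf (nat_lit 0) (nat_lit 26839625450) (nat_lit 252) (nat_lit 130892990) (nat_lit 84) (nat_lit 20125400930) (nat_lit 17) (nat_lit 5) (nat_lit 20) (nat_lit 5) (nat_lit 18) (nat_lit 5) (nat_lit 394) (nat_lit 311) (nat_lit 159)) (XT.nd (nat_lit 94) (nat_lit 0) (nat_lit 0) (XT.lf (nat_lit 0) (nat_lit 10866385525) (nat_lit 168) (nat_lit 20704323085) (nat_lit 252) (nat_lit 16754828652) (nat_lit 15) (nat_lit 5) (nat_lit 17) (nat_lit 5) (nat_lit 18) (nat_lit 5) (nat_lit 395) (nat_lit 311) (nat_lit 158)) (XT.lf (nat_lit 0) (nat_lit 22201216360) (nat_lit 168) (nat_lit 14244661873) (nat_lit 252) (nat_lit 13147483100) (nat_lit 15)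 (nat_lit 5) (nat_lit 17) (nat_lit 5) (nat_lit 18) (nat_lit 5) (nat_lit 396) (nat_lit 311) (nat_lit 157)))) (XT.nd (nat_lit 94) (nat_lit 84) (nat_lit 0) (XT.lf (nat_lit 0) (nat_lit 33881473335) (nat_lit 168) (nat_lit 7586879977) (nat_lit 252) (nat_lit 9432261094) (nat_lit 15) (nat_lit 5) (nat_lit 17) (nat_lit 5) (nat_lit 18) (nat_lit 5) (nat_lit 397) (nat_lit 311) (nat_lit 156)) (XT.nd (nat_lit 94) (nat_lit 84) (nat_lit 0) (XT.lf (nat_lit 0) (nat_lit 45918043672) (nat_lit 168) (nat_lit 724771648) (nat_lit 252) (nat_lit 5605699658) (nat_lit 15) (nat_lit 5) (nat_lit 17) (nat_lit 5) (nat_lit 18) (nat_lit 5) (nat_lit 398) (nat_lit 311) (nat_lit 155)) (XT.lf (nat_lit 0) (nat_lit 4715867976) (nat_lit 84) (nat_lit 47367974952) (nat_lit 168) (nat_lit 1551074087) (nat_lit 14) (nat_lit 5) (nat_lit 15) (nat_lit 5) (nat_lit 16) (nat_lit 4) (nat_lit 399) (nat_lit 311) (nat_lit 154))))) (XT.nd (nat_lit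 282) (nat_lit 168) (nat_lit 0) (XT.nd (nat_lit 94) (nat_lit 0) (nat_lit 0) (XT.lf (nat_lit 0) (nat_lit 2646828290) (nat_lit 168) (nat_lit 38863297189) (nat_lit 84) (nat_lit 13551183199) (nat_lit 13) (nat_lit 5) (nat_lit 15) (nat_lit 5) (nat_lit 14) (nat_lit 5) (nat_lit 400) (nat_lit 311) (nat_lit 153)) (XT.nd (nat_lit 94) (nat_lit 0) (nat_lit 0) (XT.lf (nat_lit 0) (nat_lit 6939145874) (nat_lit 168) (nat_lit 28517232324) (nat_lit 84) (nat_lit 21075163785) (nat_lit 13) (nat_lit 5) (nat_lit 15) (nat_lit 5) (nat_lit 14) (nat_lit 5) (nat_lit 401) (nat_lit 311) (nat_lit 152)) (XT.lf (nat_lit 0) (nat_lit 11361130240) (nat_lit 168) (nat_lit 17855823984) (nat_lit 84) (nat_lit 28830510113) (nat_lit 13) (nat_lit 5) (nat_lit 15) (nat_lit 5) (nat_lit 14) (nat_lit 5) (nat_lit 402) (nat_lit 311) (nat_lit 151)))) (XT.nd (nat_lit 94) (nat_lit 168) (nat_lit 0) (XT.lf (nat_lit 0) (nat_lit 15916903139)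 (nat_lit 168) (nat_lit 6869134618) (nat_lit 84) (nat_lit 36824450979) (nat_lit 13) (nat_lit 5) (nat_lit 15) (nat_lit 5) (nat_lit 14) (nat_lit 5) (nat_lit 403) (nat_lit 311) (nat_lit 150)) (XT.nd (nat_lit 94) (nat_lit 0) (nat_lit 0) (XT.lf (nat_lit 0) (nat_lit 4544640905) (nat_lit 168) (nat_lit 16111153526) (nat_lit 252) (nat_lit 40564880067) (nat_lit 11) (nat_lit 5) (nat_lit 13) (nat_lit 5) (nat_lit 14) (nat_lit 5) (nat_lit 404) (nat_lit 311) (nat_lit 149)) (XT.lf (nat_lit 0) (nat_lit 16452851199) (nat_lit 168) (nat_lit 9157292155) (nat_lit 252) (nat_lit 37268513544) (nat_lit 11) (nat_lit 5) (nat_lit 13) (nat_lit 5) (nat_lit 14) (nat_lit 5) (nat_lit 405) (nat_lit 311) (nat_lit 148)))))) (XT.nd (nat_lit 564) (nat_lit 0) (nat_lit 0) (XT.nd (nat_lit 282) (nat_lit 84) (nat_lit 0) (XT.nd (nat_lit 94) (nat_lit 0) (nat_lit 0) (XT.lf (nat_lit 0) (nat_lit 28725352468) (nat_lit 168) (nat_lit 1989671595)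 (nat_lit 252) (nat_lit 33873113147) (nat_lit 11) (nat_lit 5) (nat_lit 13) (nat_lit 5) (nat_lit 14) (nat_lit 5) (nat_lit 406) (nat_lit 311) (nat_lit 147)) (XT.nd (nat_lit 94) (nat_lit 0) (nat_lit 0) (XT.lf (nat_lit 0) (nat_lit 36028747530) (nat_lit 252) (nat_lit 25030677569) (nat_lit 84) (nat_lit 5289623615) (nat_lit 11) (nat_lit 5) (nat_lit 14) (nat_lit 5) (nat_lit 12) (nat_lit 4) (nat_lit 407) (nat_lit 311) (nat_lit 146)) (XT.lf (nat_lit 0) (nat_lit 41524656993) (nat_lit 252) (nat_lit 13887777812) (nat_lit 84) (nat_lit 12751577861) (nat_lit 11) (nat_lit 5) (nat_lit 14) (nat_lit 5) (nat_lit 12) (nat_lit 4) (nat_lit 408) (nat_lit 311) (nat_lit 145)))) (XT.nd (nat_lit 94) (nat_lit 84) (nat_lit 0) (XT.lf (nat_lit 0) (nat_lit 47188137427) (nat_lit 252) (nat_lit 2403961332) (nat_lit 84) (nat_lit 20443233915) (nat_lit 11) (nat_lit 5) (nat_lit 14) (nat_lit 5) (nat_lit 12) (nat_lit 4) (nat_lit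 409) (nat_lit 311) (nat_lit 144)) (XT.nd (nat_lit 94) (nat_lit 0) (nat_lit 0) (XT.lf (nat_lit 0) (nat_lit 9625406479) (nat_lit 84) (nat_lit 43494546532) (nat_lit 168) (nat_lit 18841839948) (nat_lit 10) (nat_lit 5) (nat_lit 11) (nat_lit 5) (nat_lit 12) (nat_lit 4) (nat_lit 410) (nat_lit 311) (nat_lit 143)) (XT.lf (nat_lit 0) (nat_lit 22074314259) (nat_lit 84) (nat_lit 37183753819) (nat_lit 168) (nat_lit 14689215618) (nat_lit 10) (nat_lit 5) (nat_lit 11) (nat_lit 5) (nat_lit 12) (nat_lit 4) (nat_lit 411) (nat_lit 311) (nat_lit 142))))) (XT.nd (nat_lit 45026) (nat_lit 0) (nat_lit 10920) (XT.nd (nat_lit 44838) (nat_lit 0) (nat_lit 10920) (XT.lf (nat_lit 0) (nat_lit 34904935319) (nat_lit 84) (nat_lit 30678930724) (nat_lit 168) (nat_lit 10410544001) (nat_lit 10) (nat_lit 5) (nat_lit 11) (nat_lit 5) (nat_lit 12) (nat_lit 4) (nat_lit 412) (nat_lit 311) (nat_lit 141)) (XT.nd (nat_lit 94) (nat_lit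 0) (nat_lit 0) (XT.lf (nat_lit 0) (nat_lit 1316788334) (nat_lit 0) (nat_lit 1316788334) (nat_lit 924) (nat_lit 1955400784) (nat_lit 140) (nat_lit 5) (nat_lit 140) (nat_lit 3) (nat_lit 151) (nat_lit 3) (nat_lit 312) (nat_lit 312) (nat_lit 240)) (XT.lf (nat_lit 0) (nat_lit 6090374598) (nat_lit 924) (nat_lit 2965965440) (nat_lit 1008) (nat_lit 237829359) (nat_lit 140) (nat_lit 5) (nat_lit 151) (nat_lit 3) (nat_lit 152) (nat_lit 5) (nat_lit 313) (nat_lit 312) (nat_lit 239)))) (XT.nd (nat_lit 94) (nat_lit 0) (nat_lit 0) (XT.lf (nat_lit 84) (nat_lit 694345516) (nat_lit 0) (nat_lit 6248955865) (nat_lit 1008) (nat_lit 2470678496) (nat_lit 141) (nat_lit 5) (nat_lit 140) (nat_lit 5) (nat_lit 152) (nat_lit 5) (nat_lit 314) (nat_lit 312) (nat_lit 238)) (XT.nd (nat_lit 94) (nat_lit 0) (nat_lit 0) (XT.lf (nat_lit 84) (nat_lit 4515079027) (nat_lit 0) (nat_lit 3309644012) (nat_lit 1008) (nat_lit 1712837156)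 (nat_lit 141) (nat_lit 5) (nat_lit 140) (nat_lit 5) (nat_lit 152) (nat_lit 5) (nat_lit 315) (nat_lit 312) (nat_lit 237)) (XT.lf (nat_lit 84) (nat_lit 8438810084) (nat_lit 0) (nat_lit 266623332) (nat_lit 1008) (nat_lit 960522990) (nat_lit 141) (nat_lit 5) (nat_lit 140) (nat_lit 5) (nat_lit 152) (nat_lit 5) (nat_lit 316) (nat_lit 312) (nat_lit 236))))))) (XT.nd (nat_lit 1128) (nat_lit 3528) (nat_lit 0) (XT.nd (nat_lit 564) (nat_lit 0) (nat_lit 168) (XT.nd (nat_lit 282) (nat_lit 0) (nat_lit 84) (XT.nd (nat_lit 94) (nat_lit 1008) (nat_lit 0) (XT.lf (nat_lit 84) (nat_lit 2695619406) (nat_lit 0) (nat_lit 6945974044) (nat_lit 1008) (nat_lit 155979194) (nat_lit 142) (nat_lit 5) (nat_lit 141) (nat_lit 5) (nat_lit 153) (nat_lit 5) (nat_lit 317) (nat_lit 312) (nat_lit 235)) (XT.nd (nat_lit 94) (nat_lit 0) (nat_lit 0) (XT.lf (nat_lit 0) (nat_lit 648810786) (nat_lit 1008) (nat_lit 3192956588) (nat_lit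 1092) (nat_lit 6091745037) (nat_lit 129) (nat_lit 5) (nat_lit 141) (nat_lit 5) (nat_lit 142) (nat_lit 5) (nat_lit 318) (nat_lit 312) (nat_lit 234)) (XT.lf (nat_lit 84) (nat_lit 836422143) (nat_lit 0) (nat_lit 621198181) (nat_lit 1092) (nat_lit 8616647382) (nat_lit 130) (nat_lit 5) (nat_lit 129) (nat_lit 5) (nat_lit 142) (nat_lit 5) (nat_lit 319) (nat_lit 312) (nat_lit 233)))) (XT.nd (nat_lit 94) (nat_lit 0) (nat_lit 0) (XT.lf (nat_lit 0) (nat_lit 2326679609) (nat_lit 1008) (nat_lit 5203940618) (nat_lit 1092) (nat_lit 2687775120) (nat_lit 130) (nat_lit 5) (nat_lit 142) (nat_lit 5) (nat_lit 143) (nat_lit 5) (nat_lit 320) (nat_lit 312) (nat_lit 232)) (XT.nd (nat_lit 94) (nat_lit 0) (nat_lit 0) (XT.lf (nat_lit 0) (nat_lit 3204524284) (nat_lit 1008) (nat_lit 1067701389) (nat_lit 1092) (nat_lit 6095424514) (nat_lit 130) (nat_lit 5) (nat_lit 142) (nat_lit 5) (nat_lit 143) (nat_lit 5) (nat_lit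 321) (nat_lit 312) (nat_lit 231)) (XT.lf (nat_lit 84) (nat_lit 3246295515) (nat_lit 0) (nat_lit 871718367) (nat_lit 1092) (nat_lit 6403350183) (nat_lit 131) (nat_lit 5) (nat_lit 130) (nat_lit 5) (nat_lit 143) (nat_lit 5) (nat_lit 322) (nat_lit 312) (nat_lit 230))))) (XT.nd (nat_lit 282) (nat_lit 0) (nat_lit 84) (XT.nd (nat_lit 94) (nat_lit 0) (nat_lit 0) (XT.lf (nat_lit 0) (nat_lit 5074073320) (nat_lit 1008) (nat_lit 3005677591) (nat_lit 1092) (nat_lit 2599741070) (nat_lit 131) (nat_lit 5) (nat_lit 143) (nat_lit 5) (nat_lit 144) (nat_lit 5) (nat_lit 323) (nat_lit 312) (nat_lit 229)) (XT.nd (nat_lit 94) (nat_lit 0) (nat_lit 0) (XT.lf (nat_lit 84) (nat_lit 1399244083) (nat_lit 0) (nat_lit 4660879977) (nat_lit 1092) (nat_lit 4782474828) (nat_lit 132) (nat_lit 5) (nat_lit 131) (nat_lit 5) (nat_lit 144) (nat_lit 5) (nat_lit 324) (nat_lit 312) (nat_lit 228)) (XT.lf (nat_lit 84) (nat_lit 5988503653)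 (nat_lit 0) (nat_lit 1097685735) (nat_lit 1092) (nat_lit 3924365202) (nat_lit 132) (nat_lit 5) (nat_lit 131) (nat_lit 5) (nat_lit 144) (nat_lit 5) (nat_lit 325) (nat_lit 312) (nat_lit 227)))) (XT.nd (nat_lit 94) (nat_lit 0) (nat_lit 0) (XT.lf (nat_lit 0) (nat_lit 8148407495) (nat_lit 1008) (nat_lit 505494646) (nat_lit 1092) (nat_lit 2529762862) (nat_lit 132) (nat_lit 5) (nat_lit 144) (nat_lit 5) (nat_lit 145) (nat_lit 5) (nat_lit 326) (nat_lit 312) (nat_lit 226)) (XT.nd (nat_lit 94) (nat_lit 0) (nat_lit 0) (XT.lf (nat_lit 84) (nat_lit 4208882393) (nat_lit 0) (nat_lit 5067079897) (nat_lit 1092) (nat_lit 2085255184) (nat_lit 133) (nat_lit 5) (nat_lit 132) (nat_lit 5) (nat_lit 145) (nat_lit 5) (nat_lit 327) (nat_lit 312) (nat_lit 225)) (XT.lf (nat_lit 84) (nat_lit 9064515597) (nat_lit 0) (nat_lit 1359124295) (nat_lit 1092) (nat_lit 1121171822) (nat_lit 133) (nat_lit 5) (nat_lit 132) (nat_lit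 5) (nat_lit 145) (nat_lit 5) (nat_lit 328) (nat_lit 312) (nat_lit 224)))))) (XT.nd (nat_lit 564) (nat_lit 1176) (nat_lit 0) (XT.nd (nat_lit 282) (nat_lit 504) (nat_lit 0) (XT.nd (nat_lit 94) (nat_lit 1176) (nat_lit 0) (XT.lf (nat_lit 0) (nat_lit 2343491244) (nat_lit 1008) (nat_lit 9291633155) (nat_lit 1092) (nat_lit 98173407) (nat_lit 121) (nat_lit 5) (nat_lit 133) (nat_lit 5) (nat_lit 134) (nat_lit 5) (nat_lit 329) (nat_lit 312) (nat_lit 223)) (XT.nd (nat_lit 94) (nat_lit 1092) (nat_lit 0) (XT.lf (nat_lit 0) (nat_lit 958023637) (nat_lit 1092) (nat_lit 4597249042) (nat_lit 84) (nat_lit 6371487693) (nat_lit 120) (nat_lit 5) (nat_lit 133) (nat_lit 5) (nat_lit 121) (nat_lit 5) (nat_lit 330) (nat_lit 312) (nat_lit 222)) (XT.lf (nat_lit 0) (nat_lit 333920320) (nat_lit 1092) (nat_lit 1695599077) (nat_lit 1176) (nat_lit 10097216199) (nat_lit 107) (nat_lit 5) (nat_lit 120) (nat_lit 5) (nat_lit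 121) (nat_lit 5) (nat_lit 331) (nat_lit 312) (nat_lit 221)))) (XT.nd (nat_lit 94) (nat_lit 504) (nat_lit 0) (XT.lf (nat_lit 0) (nat_lit 3187082776) (nat_lit 1176) (nat_lit 6855337276) (nat_lit 84) (nat_lit 2288918455) (nat_lit 107) (nat_lit 5) (nat_lit 121) (nat_lit 5) (nat_lit 108) (nat_lit 5) (nat_lit 332) (nat_lit 312) (nat_lit 220)) (XT.nd (nat_lit 94) (nat_lit 504) (nat_lit 0) (XT.lf (nat_lit 0) (nat_lit 4380142044) (nat_lit 1176) (nat_lit 1797837189) (nat_lit 84) (nat_lit 6364381756) (nat_lit 107) (nat_lit 5) (nat_lit 121) (nat_lit 5) (nat_lit 108) (nat_lit 5) (nat_lit 333) (nat_lit 312) (nat_lit 219)) (XT.lf (nat_lit 0) (nat_lit 3471155708) (nat_lit 504) (nat_lit 2156267291) (nat_lit 588) (nat_lit 7132030714) (nat_lit 101) (nat_lit 5) (nat_lit 107) (nat_lit 5) (nat_lit 108) (nat_lit 5) (nat_lit 334) (nat_lit 312) (nat_lit 218))))) (XT.nd (nat_lit 282) (nat_lit 588) (nat_lit 0)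 (XT.nd (nat_lit 94) (nat_lit 588) (nat_lit 0) (XT.lf (nat_lit 0) (nat_lit 6935257117) (nat_lit 588) (nat_lit 4076699887) (nat_lit 84) (nat_lit 1970701790) (nat_lit 101) (nat_lit 5) (nat_lit 108) (nat_lit 5) (nat_lit 102) (nat_lit 5) (nat_lit 335) (nat_lit 312) (nat_lit 217)) (XT.nd (nat_lit 94) (nat_lit 0) (nat_lit 0) (XT.lf (nat_lit 0) (nat_lit 1285095498) (nat_lit 588) (nat_lit 7017033534) (nat_lit 672) (nat_lit 4910140019) (nat_lit 94) (nat_lit 5) (nat_lit 101) (nat_lit 5) (nat_lit 102) (nat_lit 5) (nat_lit 336) (nat_lit 312) (nat_lit 216)) (XT.lf (nat_lit 0) (nat_lit 6884483785) (nat_lit 588) (nat_lit 2853476718) (nat_lit 672) (nat_lit 3710269922) (nat_lit 94) (nat_lit 5) (nat_lit 101) (nat_lit 5) (nat_lit 102) (nat_lit 5) (nat_lit 337) (nat_lit 312) (nat_lit 215)))) (XT.nd (nat_lit 94) (nat_lit 588) (nat_lit 0) (XT.lf (nat_lit 0) (nat_lit 11217102343) (nat_lit 672) (nat_lit 1063468834)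 (nat_lit 84) (nat_lit 1411028293) (nat_lit 94) (nat_lit 5) (nat_lit 102) (nat_lit 5) (nat_lit 95) (nat_lit 5) (nat_lit 338) (nat_lit 312) (nat_lit 214)) (XT.nd (nat_lit 94) (nat_lit 84) (nat_lit 0) (XT.lf (nat_lit 0) (nat_lit 4657283514) (nat_lit 504) (nat_lit 8145187655) (nat_lit 588) (nat_lit 1138224190) (nat_lit 88) (nat_lit 5) (nat_lit 94) (nat_lit 5) (nat_lit 95) (nat_lit 5) (nat_lit 339) (nat_lit 312) (nat_lit 213)) (XT.lf (nat_lit 0) (nat_lit 230956206) (nat_lit 588) (nat_lit 3636626303) (nat_lit 84) (nat_lit 10330022308) (nat_lit 87) (nat_lit 5) (nat_lit 94) (nat_lit 5) (nat_lit 88) (nat_lit 5) (nat_lit 340) (nat_lit 312) (nat_lit 212))))))))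
noncomputable def xc144 : XT := (XT.nd (nat_lit 2162) (nat_lit 1932) (nat_lit 0) (XT.nd (nat_lit 1034) (nat_lit 1428) (nat_lit 0) (XT.nd (nat_lit 470) (nat_lit 1344) (nat_lit 0) (XT.nd (nat_lit 188) (nat_lit 420) (nat_lit 0) (XT.nd (nat_lit 94) (nat_lit 0) (nat_lit 0) (XT.lf (nat_lit 0) (nat_lit 1632064580) (nat_lit 588) (nat_lit 12264143317) (nat_lit 84) (nat_lit 565552014) (nat_lit 81) (nat_lit 5) (nat_lit 88) (nat_lit 5) (nat_lit 82) (nat_lit 5) (nat_lit 341) (nat_lit 312) (nat_lit 211)) (XT.lf (nat_lit 0) (nat_lit 3140344374) (nat_lit 588) (nat_lit 6497839782) (nat_lit 84) (nat_lit 5093991585) (nat_lit 81) (nat_lit 5) (nat_lit 88) (nat_lit 5) (nat_lit 82) (nat_lit 5) (nat_lit 342) (nat_lit 312) (nat_lit 210))) (XT.nd (nat_lit 94) (nat_lit 420) (nat_lit 0) (XT.lf (nat_lit 0) (nat_lit 4681640435) (nat_lit 588) (nat_lit 567120105) (nat_lit 84) (nat_lit 9762686215) (nat_lit 81) (nat_lit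 5) (nat_lit 88) (nat_lit 5) (nat_lit 82) (nat_lit 5) (nat_lit 343) (nat_lit 312) (nat_lit 209)) (XT.nd (nat_lit 94) (nat_lit 0) (nat_lit 0) (XT.lf (nat_lit 0) (nat_lit 5647324775) (nat_lit 420) (nat_lit 666086797) (nat_lit 504) (nat_lit 8984685005) (nat_lit 76) (nat_lit 5) (nat_lit 81) (nat_lit 5) (nat_lit 82) (nat_lit 5) (nat_lit 344) (nat_lit 312) (nat_lit 208)) (XT.lf (nat_lit 0) (nat_lit 8028939938) (nat_lit 504) (nat_lit 3581540669) (nat_lit 84) (nat_lit 3982167189) (nat_lit 76) (nat_lit 5) (nat_lit 82) (nat_lit 5) (nat_lit 77) (nat_lit 5) (nat_lit 345) (nat_lit 312) (nat_lit 207))))) (XT.nd (nat_lit 282) (nat_lit 924) (nat_lit 0) (XT.nd (nat_lit 94) (nat_lit 0) (nat_lit 0) (XT.lf (nat_lit 0) (nat_lit 2709839715) (nat_lit 420) (nat_lit 7108827307) (nat_lit 504) (nat_lit 6077053830) (nat_lit 71) (nat_lit 5) (nat_lit 76) (nat_lit 5) (nat_lit 77) (nat_lit 5) (nat_lit 346) (nat_lit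 312) (nat_lit 206)) (XT.nd (nat_lit 94) (nat_lit 0) (nat_lit 0) (XT.lf (nat_lit 0) (nat_lit 9258537553) (nat_lit 420) (nat_lit 2430290764) (nat_lit 504) (nat_lit 4518628335) (nat_lit 71) (nat_lit 5) (nat_lit 76) (nat_lit 5) (nat_lit 77) (nat_lit 5) (nat_lit 347) (nat_lit 312) (nat_lit 205)) (XT.lf (nat_lit 0) (nat_lit 13628637118) (nat_lit 504) (nat_lit 555986717) (nat_lit 84) (nat_lit 2343910361) (nat_lit 71) (nat_lit 5) (nat_lit 77) (nat_lit 5) (nat_lit 72) (nat_lit 5) (nat_lit 348) (nat_lit 312) (nat_lit 204)))) (XT.nd (nat_lit 94) (nat_lit 504) (nat_lit 0) (XT.lf (nat_lit 0) (nat_lit 6120358087) (nat_lit 420) (nat_lit 9582086529) (nat_lit 504) (nat_lit 1154869309) (nat_lit 66) (nat_lit 5) (nat_lit 71) (nat_lit 5) (nat_lit 72) (nat_lit 5) (nat_lit 349) (nat_lit 312) (nat_lit 203)) (XT.nd (nat_lit 94) (nat_lit 420) (nat_lit 0) (XT.lf (nat_lit 0) (nat_lit 625498509) (nat_lit 504) (nat_lit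 4200465775) (nat_lit 84) (nat_lit 12370338758) (nat_lit 65) (nat_lit 5) (nat_lit 71) (nat_lit 5) (nat_lit 66) (nat_lit 5) (nat_lit 350) (nat_lit 312) (nat_lit 202)) (XT.lf (nat_lit 0) (nat_lit 2452365119) (nat_lit 504) (nat_lit 14980594434) (nat_lit 84) (nat_lit 112036119) (nat_lit 60) (nat_lit 5) (nat_lit 66) (nat_lit 5) (nat_lit 61) (nat_lit 5) (nat_lit 351) (nat_lit 312) (nat_lit 201)))))) (XT.nd (nat_lit 564) (nat_lit 756) (nat_lit 0) (XT.nd (nat_lit 282) (nat_lit 336) (nat_lit 0) (XT.nd (nat_lit 94) (nat_lit 336) (nat_lit 0) (XT.lf (nat_lit 0) (nat_lit 4418421918) (nat_lit 504) (nat_lit 8338111079) (nat_lit 84) (nat_lit 5145439647) (nat_lit 60) (nat_lit 5) (nat_lit 66) (nat_lit 5) (nat_lit 61) (nat_lit 5) (nat_lit 352) (nat_lit 312) (nat_lit 200)) (XT.nd (nat_lit 94) (nat_lit 336) (nat_lit 0) (XT.lf (nat_lit 0) (nat_lit 6434666430) (nat_lit 504) (nat_lit 1502506656) (nat_lit 84)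 (nat_lit 10333209501) (nat_lit 60) (nat_lit 5) (nat_lit 66) (nat_lit 5) (nat_lit 61) (nat_lit 5) (nat_lit 353) (nat_lit 312) (nat_lit 199)) (XT.lf (nat_lit 0) (nat_lit 5646351736) (nat_lit 336) (nat_lit 2912638776) (nat_lit 420) (nat_lit 10089841995) (nat_lit 56) (nat_lit 5) (nat_lit 60) (nat_lit 5) (nat_lit 61) (nat_lit 5) (nat_lit 354) (nat_lit 312) (nat_lit 198)))) (XT.nd (nat_lit 94) (nat_lit 336) (nat_lit 0) (XT.lf (nat_lit 0) (nat_lit 10777242730) (nat_lit 420) (nat_lit 6025120954) (nat_lit 84) (nat_lit 2235811557) (nat_lit 56) (nat_lit 5) (nat_lit 61) (nat_lit 5) (nat_lit 57) (nat_lit 5) (nat_lit 355) (nat_lit 312) (nat_lit 197)) (XT.nd (nat_lit 94) (nat_lit 0) (nat_lit 0) (XT.lf (nat_lit 0) (nat_lit 1149676251) (nat_lit 336) (nat_lit 11945822697) (nat_lit 420) (nat_lit 6343150490) (nat_lit 52) (nat_lit 5) (nat_lit 56) (nat_lit 5) (nat_lit 57) (nat_lit 5) (nat_lit 356) (nat_lit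 312) (nat_lit 196)) (XT.lf (nat_lit 0) (nat_lit 8662510696) (nat_lit 336) (nat_lit 6876223349) (nat_lit 420) (nat_lit 4311187103) (nat_lit 52) (nat_lit 5) (nat_lit 56) (nat_lit 5) (nat_lit 57) (nat_lit 5) (nat_lit 357) (nat_lit 312) (nat_lit 195))))) (XT.nd (nat_lit 282) (nat_lit 336) (nat_lit 0) (XT.nd (nat_lit 94) (nat_lit 420) (nat_lit 0) (XT.lf (nat_lit 0) (nat_lit 16396496287) (nat_lit 336) (nat_lit 1651730147) (nat_lit 420) (nat_lit 2226038255) (nat_lit 52) (nat_lit 5) (nat_lit 56) (nat_lit 5) (nat_lit 57) (nat_lit 5) (nat_lit 358) (nat_lit 312) (nat_lit 194)) (XT.nd (nat_lit 94) (nat_lit 84) (nat_lit 0) (XT.lf (nat_lit 0) (nat_lit 3683962829) (nat_lit 336) (nat_lit 17015924888) (nat_lit 420) (nat_lit 9907126) (nat_lit 48) (nat_lit 5) (nat_lit 52) (nat_lit 5) (nat_lit 53) (nat_lit 5) (nat_lit 359) (nat_lit 312) (nat_lit 193)) (XT.lf (nat_lit 0) (nat_lit 2277696642) (nat_lit 420)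 (nat_lit 9646912896) (nat_lit 84) (nat_lit 9232036422) (nat_lit 47) (nat_lit 5) (nat_lit 52) (nat_lit 5) (nat_lit 48) (nat_lit 5) (nat_lit 360) (nat_lit 312) (nat_lit 192)))) (XT.nd (nat_lit 94) (nat_lit 336) (nat_lit 0) (XT.lf (nat_lit 0) (nat_lit 4627110227) (nat_lit 420) (nat_lit 2050775171) (nat_lit 84) (nat_lit 14939761991) (nat_lit 47) (nat_lit 5) (nat_lit 52) (nat_lit 5) (nat_lit 48) (nat_lit 5) (nat_lit 361) (nat_lit 312) (nat_lit 191)) (XT.nd (nat_lit 94) (nat_lit 0) (nat_lit 0) (XT.lf (nat_lit 0) (nat_lit 5888397932) (nat_lit 336) (nat_lit 1210738837) (nat_lit 420) (nat_lit 14992284285) (nat_lit 43) (nat_lit 5) (nat_lit 47) (nat_lit 5) (nat_lit 48) (nat_lit 5) (nat_lit 362) (nat_lit 312) (nat_lit 190)) (XT.lf (nat_lit 0) (nat_lit 9704819861) (nat_lit 420) (nat_lit 8517414364) (nat_lit 84) (nat_lit 4355903417) (nat_lit 43) (nat_lit 5) (nat_lit 48) (nat_lit 5) (nat_lit 44) (nat_lit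 5) (nat_lit 363) (nat_lit 312) (nat_lit 189))))))) (XT.nd (nat_lit 1128) (nat_lit 840) (nat_lit 0) (XT.nd (nat_lit 564) (nat_lit 504) (nat_lit 0) (XT.nd (nat_lit 282) (nat_lit 336) (nat_lit 0) (XT.nd (nat_lit 94) (nat_lit 252) (nat_lit 0) (XT.lf (nat_lit 0) (nat_lit 12395411449) (nat_lit 420) (nat_lit 616829699) (nat_lit 84) (nat_lit 10067596156) (nat_lit 43) (nat_lit 5) (nat_lit 48) (nat_lit 5) (nat_lit 44) (nat_lit 5) (nat_lit 364) (nat_lit 312) (nat_lit 188)) (XT.nd (nat_lit 94) (nat_lit 0) (nat_lit 0) (XT.lf (nat_lit 0) (nat_lit 7672693395) (nat_lit 252) (nat_lit 7564829440) (nat_lit 336) (nat_lit 8357477637) (nat_lit 40) (nat_lit 5) (nat_lit 43) (nat_lit 5) (nat_lit 44) (nat_lit 5) (nat_lit 365) (nat_lit 312) (nat_lit 187)) (XT.lf (nat_lit 0) (nat_lit 16221807789) (nat_lit 252) (nat_lit 1944504567) (nat_lit 336) (nat_lit 5959887193) (nat_lit 40) (nat_lit 5) (nat_lit 43) (nat_lit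 5) (nat_lit 44) (nat_lit 5) (nat_lit 366) (nat_lit 312) (nat_lit 186)))) (XT.nd (nat_lit 94) (nat_lit 84) (nat_lit 0) (XT.lf (nat_lit 0) (nat_lit 319953960) (nat_lit 252) (nat_lit 20899653136) (nat_lit 336) (nat_lit 3453234557) (nat_lit 37) (nat_lit 5) (nat_lit 40) (nat_lit 5) (nat_lit 41) (nat_lit 5) (nat_lit 367) (nat_lit 312) (nat_lit 185)) (XT.nd (nat_lit 94) (nat_lit 84) (nat_lit 0) (XT.lf (nat_lit 0) (nat_lit 8936253428) (nat_lit 252) (nat_lit 15525966567) (nat_lit 336) (nat_lit 771295345) (nat_lit 37) (nat_lit 5) (nat_lit 40) (nat_lit 5) (nat_lit 41) (nat_lit 5) (nat_lit 368) (nat_lit 312) (nat_lit 184)) (XT.lf (nat_lit 0) (nat_lit 1946220014) (nat_lit 336) (nat_lit 8021825851) (nat_lit 84) (nat_lit 15843159231) (nat_lit 36) (nat_lit 5) (nat_lit 40) (nat_lit 5) (nat_lit 37) (nat_lit 5) (nat_lit 369) (nat_lit 312) (nat_lit 183))))) (XT.nd (nat_lit 282) (nat_lit 252) (nat_lit 0)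 (XT.nd (nat_lit 94) (nat_lit 0) (nat_lit 0) (XT.lf (nat_lit 0) (nat_lit 502554768) (nat_lit 252) (nat_lit 4227216018) (nat_lit 336) (nat_lit 21676874214) (nat_lit 33) (nat_lit 5) (nat_lit 36) (nat_lit 5) (nat_lit 37) (nat_lit 5) (nat_lit 370) (nat_lit 312) (nat_lit 182)) (XT.nd (nat_lit 94) (nat_lit 0) (nat_lit 0) (XT.lf (nat_lit 0) (nat_lit 7693901261) (nat_lit 336) (nat_lit 17584276523) (nat_lit 84) (nat_lit 1739460763) (nat_lit 33) (nat_lit 5) (nat_lit 37) (nat_lit 5) (nat_lit 34) (nat_lit 5) (nat_lit 371) (nat_lit 312) (nat_lit 181)) (XT.lf (nat_lit 0) (nat_lit 10786288267) (nat_lit 336) (nat_lit 9059425437) (nat_lit 84) (nat_lit 7800749215) (nat_lit 33) (nat_lit 5) (nat_lit 37) (nat_lit 5) (nat_lit 34) (nat_lit 5) (nat_lit 372) (nat_lit 312) (nat_lit 180)))) (XT.nd (nat_lit 94) (nat_lit 252) (nat_lit 0) (XT.lf (nat_lit 0) (nat_lit 13967879726) (nat_lit 336) (nat_lit 279656410) (nat_lit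 84) (nat_lit 14047468075) (nat_lit 33) (nat_lit 5) (nat_lit 37) (nat_lit 5) (nat_lit 34) (nat_lit 5) (nat_lit 373) (nat_lit 312) (nat_lit 179)) (XT.nd (nat_lit 94) (nat_lit 0) (nat_lit 0) (XT.lf (nat_lit 0) (nat_lit 8943403876) (nat_lit 252) (nat_lit 8386957013) (nat_lit 336) (nat_lit 11630755736) (nat_lit 30) (nat_lit 5) (nat_lit 33) (nat_lit 5) (nat_lit 34) (nat_lit 5) (nat_lit 374) (nat_lit 312) (nat_lit 178)) (XT.lf (nat_lit 0) (nat_lit 18449328203) (nat_lit 252) (nat_lit 2344315641) (nat_lit 336) (nat_lit 8854357088) (nat_lit 30) (nat_lit 5) (nat_lit 33) (nat_lit 5) (nat_lit 34) (nat_lit 5) (nat_lit 375) (nat_lit 312) (nat_lit 177)))))) (XT.nd (nat_lit 564) (nat_lit 336) (nat_lit 0) (XT.nd (nat_lit 282) (nat_lit 252) (nat_lit 0) (XT.nd (nat_lit 94) (nat_lit 252) (nat_lit 0) (XT.lf (nat_lit 0) (nat_lit 24396646309) (nat_lit 336) (nat_lit 2153679217) (nat_lit 84) (nat_lit 3804865477)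 (nat_lit 30) (nat_lit 5) (nat_lit 34) (nat_lit 5) (nat_lit 31) (nat_lit 5) (nat_lit 376) (nat_lit 312) (nat_lit 176)) (XT.nd (nat_lit 94) (nat_lit 84) (nat_lit 0) (XT.lf (nat_lit 0) (nat_lit 7285903660) (nat_lit 168) (nat_lit 20915689793) (nat_lit 252) (nat_lit 2879927688) (nat_lit 28) (nat_lit 5) (nat_lit 30) (nat_lit 5) (nat_lit 31) (nat_lit 5) (nat_lit 377) (nat_lit 312) (nat_lit 175)) (XT.lf (nat_lit 0) (nat_lit 304929223) (nat_lit 252) (nat_lit 14777720939) (nat_lit 84) (nat_lit 16747122399) (nat_lit 27) (nat_lit 5) (nat_lit 30) (nat_lit 5) (nat_lit 28) (nat_lit 5) (nat_lit 378) (nat_lit 312) (nat_lit 174)))) (XT.nd (nat_lit 94) (nat_lit 252) (nat_lit 0) (XT.lf (nat_lit 0) (nat_lit 3522892526) (nat_lit 252) (nat_lit 5518136797) (nat_lit 84) (nat_lit 23559470855) (nat_lit 27) (nat_lit 5) (nat_lit 30) (nat_lit 5) (nat_lit 28) (nat_lit 5) (nat_lit 379) (nat_lit 312) (nat_lit 173))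 (XT.nd (nat_lit 94) (nat_lit 0) (nat_lit 0) (XT.lf (nat_lit 0) (nat_lit 4103001418) (nat_lit 252) (nat_lit 2772686688) (nat_lit 336) (nat_lit 26518358163) (nat_lit 24) (nat_lit 5) (nat_lit 27) (nat_lit 5) (nat_lit 28) (nat_lit 5) (nat_lit 380) (nat_lit 312) (nat_lit 172)) (XT.lf (nat_lit 0) (nat_lit 10421649488) (nat_lit 336) (nat_lit 20116460430) (nat_lit 84) (nat_lit 3671329122) (nat_lit 24) (nat_lit 5) (nat_lit 28) (nat_lit 5) (nat_lit 25) (nat_lit 5) (nat_lit 381) (nat_lit 312) (nat_lit 171))))) (XT.nd (nat_lit 282) (nat_lit 168) (nat_lit 0) (XT.nd (nat_lit 94) (nat_lit 168) (nat_lit 0) (XT.lf (nat_lit 0) (nat_lit 14100498014) (nat_lit 336) (nat_lit 10693810415) (nat_lit 84) (nat_lit 10255101195) (nat_lit 24) (nat_lit 5) (nat_lit 28) (nat_lit 5) (nat_lit 25) (nat_lit 5) (nat_lit 382) (nat_lit 312) (nat_lit 170)) (XT.nd (nat_lit 94) (nat_lit 168) (nat_lit 0) (XT.lf (nat_lit 0) (nat_lit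 17888157361) (nat_lit 336) (nat_lit 986806514) (nat_lit 84) (nat_lit 17040629754) (nat_lit 24) (nat_lit 5) (nat_lit 28) (nat_lit 5) (nat_lit 25) (nat_lit 5) (nat_lit 383) (nat_lit 312) (nat_lit 169)) (XT.lf (nat_lit 0) (nat_lit 9198937302) (nat_lit 168) (nat_lit 12680475319) (nat_lit 252) (nat_lit 14926556915) (nat_lit 22) (nat_lit 5) (nat_lit 24) (nat_lit 5) (nat_lit 25) (nat_lit 5) (nat_lit 384) (nat_lit 312) (nat_lit 168)))) (XT.nd (nat_lit 94) (nat_lit 168) (nat_lit 0) (XT.lf (nat_lit 0) (nat_lit 19713919753) (nat_lit 168) (nat_lit 6285779985) (nat_lit 252) (nat_lit 11724094345) (nat_lit 22) (nat_lit 5) (nat_lit 24) (nat_lit 5) (nat_lit 25) (nat_lit 5) (nat_lit 385) (nat_lit 312) (nat_lit 167)) (XT.nd (nat_lit 94) (nat_lit 168) (nat_lit 0) (XT.lf (nat_lit 0) (nat_lit 30245892200) (nat_lit 252) (nat_lit 8125604829) (nat_lit 84) (nat_lit 298641728) (nat_lit 22) (nat_lit 5) (nat_lit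 25) (nat_lit 5) (nat_lit 23) (nat_lit 5) (nat_lit 386) (nat_lit 312) (nat_lit 166)) (XT.lf (nat_lit 0) (nat_lit 2034649718) (nat_lit 168) (nat_lit 32668815545) (nat_lit 252) (nat_lit 4939893349) (nat_lit 20) (nat_lit 5) (nat_lit 22) (nat_lit 5) (nat_lit 23) (nat_lit 5) (nat_lit 387) (nat_lit 312) (nat_lit 165))))))))
noncomputable def xc145 : XT := (XT.nd (nat_lit 2256) (nat_lit 0) (nat_lit 0) (XT.nd (nat_lit 1128) (nat_lit 420) (nat_lit 0) (XT.nd (nat_lit 564) (nat_lit 168) (nat_lit 0) (XT.nd (nat_lit 282) (nat_lit 168) (nat_lit 0) (XT.nd (nat_lit 94) (nat_lit 84) (nat_lit 0) (XT.lf (nat_lit 0) (nat_lit 12675070693) (nat_lit 168) (nat_lit 26704314970) (nat_lit 252) (nat_lit 1264887962) (nat_lit 20) (nat_lit 5) (nat_lit 22) (nat_lit 5) (nat_lit 23) (nat_lit 5) (nat_lit 388) (nat_lit 312) (nat_lit 164)) (XT.nd (nat_lit 94) (nat_lit 0) (nat_lit 0) (XT.lf (nat_lit 0) (nat_lit 2468620544)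 (nat_lit 252) (nat_lit 18062862536) (nat_lit 84) (nat_lit 21144109103) (nat_lit 19) (nat_lit 5) (nat_lit 22) (nat_lit 5) (nat_lit 20) (nat_lit 5) (nat_lit 389) (nat_lit 312) (nat_lit 163)) (XT.lf (nat_lit 0) (nat_lit 6287162257) (nat_lit 252) (nat_lit 7869104835) (nat_lit 84) (nat_lit 28582360312) (nat_lit 19) (nat_lit 5) (nat_lit 22) (nat_lit 5) (nat_lit 20) (nat_lit 5) (nat_lit 390) (nat_lit 312) (nat_lit 162)))) (XT.nd (nat_lit 94) (nat_lit 0) (nat_lit 0) (XT.lf (nat_lit 0) (nat_lit 2688282567) (nat_lit 168) (nat_lit 7558166660) (nat_lit 252) (nat_lit 33587483194) (nat_lit 17) (nat_lit 5) (nat_lit 19) (nat_lit 5) (nat_lit 20) (nat_lit 5) (nat_lit 391) (nat_lit 312) (nat_lit 161)) (XT.nd (nat_lit 94) (nat_lit 0) (nat_lit 0) (XT.lf (nat_lit 0) (nat_lit 13733296385) (nat_lit 168) (nat_lit 673082394) (nat_lit 252) (nat_lit 30554406982) (nat_lit 17) (nat_lit 5) (nat_lit 19) (nat_lit 5)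 (nat_lit 20) (nat_lit 5) (nat_lit 392) (nat_lit 312) (nat_lit 160)) (XT.lf (nat_lit 0) (nat_lit 18754880379) (nat_lit 252) (nat_lit 21072000265) (nat_lit 84) (nat_lit 6293851513) (nat_lit 17) (nat_lit 5) (nat_lit 20) (nat_lit 5) (nat_lit 18) (nat_lit 5) (nat_lit 393) (nat_lit 312) (nat_lit 159))))) (XT.nd (nat_lit 282) (nat_lit 0) (nat_lit 0) (XT.nd (nat_lit 94) (nat_lit 168) (nat_lit 0) (XT.lf (nat_lit 0) (nat_lit 23241066743) (nat_lit 252) (nat_lit 10614775998) (nat_lit 84) (nat_lit 13460713219) (nat_lit 17) (nat_lit 5) (nat_lit 20) (nat_lit 5) (nat_lit 18) (nat_lit 5) (nat_lit 394) (nat_lit 312) (nat_lit 158)) (XT.nd (nat_lit 94) (nat_lit 0) (nat_lit 0) (XT.lf (nat_lit 0) (nat_lit 163910136) (nat_lit 168) (nat_lit 27700158276) (nat_lit 252) (nat_lit 20685459970) (nat_lit 15) (nat_lit 5) (nat_lit 17) (nat_lit 5) (nat_lit 18) (nat_lit 5) (nat_lit 395) (nat_lit 312) (nat_lit 157)) (XT.lf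 (nat_lit 0) (nat_lit 11495809599) (nat_lit 168) (nat_lit 21241545225) (nat_lit 252) (nat_lit 17080059892) (nat_lit 15) (nat_lit 5) (nat_lit 17) (nat_lit 5) (nat_lit 18) (nat_lit 5) (nat_lit 396) (nat_lit 312) (nat_lit 156)))) (XT.nd (nat_lit 94) (nat_lit 0) (nat_lit 0) (XT.lf (nat_lit 0) (nat_lit 23173223342) (nat_lit 168) (nat_lit 14584779974) (nat_lit 252) (nat_lit 13366724865) (nat_lit 15) (nat_lit 5) (nat_lit 17) (nat_lit 5) (nat_lit 18) (nat_lit 5) (nat_lit 397) (nat_lit 312) (nat_lit 155)) (XT.nd (nat_lit 94) (nat_lit 0) (nat_lit 0) (XT.lf (nat_lit 0) (nat_lit 35207035938) (nat_lit 168) (nat_lit 7723657721) (nat_lit 252) (nat_lit 9541993670) (nat_lit 15) (nat_lit 5) (nat_lit 17) (nat_lit 5) (nat_lit 18) (nat_lit 5) (nat_lit 398) (nat_lit 312) (nat_lit 154)) (XT.lf (nat_lit 0) (nat_lit 47608464161) (nat_lit 168) (nat_lit 651783182) (nat_lit 252) (nat_lit 5602301257) (nat_lit 15)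 (nat_lit 5) (nat_lit 17) (nat_lit 5) (nat_lit 18) (nat_lit 5) (nat_lit 399) (nat_lit 312) (nat_lit 153)))))) (XT.nd (nat_lit 564) (nat_lit 84) (nat_lit 0) (XT.nd (nat_lit 282) (nat_lit 168) (nat_lit 0) (XT.nd (nat_lit 94) (nat_lit 84) (nat_lit 0) (XT.lf (nat_lit 0) (nat_lit 5130993860) (nat_lit 84) (nat_lit 48737382484) (nat_lit 168) (nat_lit 1423612074) (nat_lit 14) (nat_lit 5) (nat_lit 15) (nat_lit 5) (nat_lit 16) (nat_lit 4) (nat_lit 400) (nat_lit 312) (nat_lit 152)) (XT.nd (nat_lit 94) (nat_lit 0) (nat_lit 0) (XT.lf (nat_lit 0) (nat_lit 2895716498) (nat_lit 168) (nat_lit 39803458461) (nat_lit 84) (nat_lit 14063539615) (nat_lit 13) (nat_lit 5) (nat_lit 15) (nat_lit 5) (nat_lit 14) (nat_lit 5) (nat_lit 401) (nat_lit 312) (nat_lit 151)) (XT.lf (nat_lit 0) (nat_lit 7316079503) (nat_lit 168) (nat_lit 29144621580) (nat_lit 84) (nat_lit 21817989242) (nat_lit 13) (nat_lit 5) (nat_lit 15)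 (nat_lit 5) (nat_lit 14) (nat_lit 5) (nat_lit 402) (nat_lit 312) (nat_lit 150)))) (XT.nd (nat_lit 94) (nat_lit 168) (nat_lit 0) (XT.lf (nat_lit 0) (nat_lit 11870279794) (nat_lit 168) (nat_lit 18160426354) (nat_lit 84) (nat_lit 29811060369) (nat_lit 13) (nat_lit 5) (nat_lit 15) (nat_lit 5) (nat_lit 14) (nat_lit 5) (nat_lit 403) (nat_lit 312) (nat_lit 149)) (XT.nd (nat_lit 94) (nat_lit 168) (nat_lit 0) (XT.lf (nat_lit 0) (nat_lit 16562562362) (nat_lit 168) (nat_lit 6840634364) (nat_lit 84) (nat_lit 38050203375) (nat_lit 13) (nat_lit 5) (nat_lit 15) (nat_lit 5) (nat_lit 14) (nat_lit 5) (nat_lit 404) (nat_lit 312) (nat_lit 148)) (XT.lf (nat_lit 0) (nat_lit 4924523802) (nat_lit 168) (nat_lit 16521628988) (nat_lit 252) (nat_lit 41667426086) (nat_lit 11) (nat_lit 5) (nat_lit 13) (nat_lit 5) (nat_lit 14) (nat_lit 5) (nat_lit 405) (nat_lit 312) (nat_lit 147))))) (XT.nd (nat_lit 282) (nat_lit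 84) (nat_lit 0) (XT.nd (nat_lit 94) (nat_lit 0) (nat_lit 0) (XT.lf (nat_lit 0) (nat_lit 17194702418) (nat_lit 168) (nat_lit 9354873064) (nat_lit 252) (nat_lit 38273531680) (nat_lit 11) (nat_lit 5) (nat_lit 13) (nat_lit 5) (nat_lit 14) (nat_lit 5) (nat_lit 406) (nat_lit 312) (nat_lit 146)) (XT.nd (nat_lit 94) (nat_lit 0) (nat_lit 0) (XT.lf (nat_lit 0) (nat_lit 29840681102) (nat_lit 168) (nat_lit 1967650981) (nat_lit 252) (nat_lit 34777393249) (nat_lit 11) (nat_lit 5) (nat_lit 13) (nat_lit 5) (nat_lit 14) (nat_lit 5) (nat_lit 407) (nat_lit 312) (nat_lit 145)) (XT.lf (nat_lit 0) (nat_lit 37283342479) (nat_lit 252) (nat_lit 25584847273) (nat_lit 84) (nat_lit 5533150014) (nat_lit 11) (nat_lit 5) (nat_lit 14) (nat_lit 5) (nat_lit 12) (nat_lit 4) (nat_lit 408) (nat_lit 312) (nat_lit 144)))) (XT.nd (nat_lit 94) (nat_lit 84) (nat_lit 0) (XT.lf (nat_lit 0) (nat_lit 42945484672) (nat_lit 252) (nat_lit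 14103186120) (nat_lit 84) (nat_lit 13224032999) (nat_lit 11) (nat_lit 5) (nat_lit 14) (nat_lit 5) (nat_lit 12) (nat_lit 4) (nat_lit 409) (nat_lit 312) (nat_lit 143)) (XT.nd (nat_lit 94) (nat_lit 84) (nat_lit 0) (XT.lf (nat_lit 0) (nat_lit 48780517032) (nat_lit 252) (nat_lit 2269839319) (nat_lit 84) (nat_lit 21151810465) (nat_lit 11) (nat_lit 5) (nat_lit 14) (nat_lit 5) (nat_lit 12) (nat_lit 4) (nat_lit 410) (nat_lit 312) (nat_lit 142)) (XT.lf (nat_lit 0) (nat_lit 10130326553) (nat_lit 84) (nat_lit 44764045958) (nat_lit 168) (nat_lit 19294039470) (nat_lit 10) (nat_lit 5) (nat_lit 11) (nat_lit 5) (nat_lit 12) (nat_lit 4) (nat_lit 411) (nat_lit 312) (nat_lit 141))))))) (XT.nd (nat_lit 45966) (nat_lit 0) (nat_lit 7644) (XT.nd (nat_lit 45402) (nat_lit 0) (nat_lit 9996) (XT.nd (nat_lit 45120) (nat_lit 0) (nat_lit 9912) (XT.nd (nat_lit 44932) (nat_lit 0) (nat_lit 10920) (XT.lf (nat_lit 0) (nat_lit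 22958940478) (nat_lit 84) (nat_lit 38259988969) (nat_lit 168) (nat_lit 15016649666) (nat_lit 10) (nat_lit 5) (nat_lit 11) (nat_lit 5) (nat_lit 12) (nat_lit 4) (nat_lit 412) (nat_lit 312) (nat_lit 140)) (XT.nd (nat_lit 94) (nat_lit 0) (nat_lit 0) (XT.lf (nat_lit 0) (nat_lit 1723528718) (nat_lit 0) (nat_lit 1723528718) (nat_lit 924) (nat_lit 1258466767) (nat_lit 140) (nat_lit 5) (nat_lit 140) (nat_lit 3) (nat_lit 151) (nat_lit 3) (nat_lit 313) (nat_lit 313) (nat_lit 238)) (XT.lf (nat_lit 0) (nat_lit 7236772692) (nat_lit 0) (nat_lit 459591077) (nat_lit 924) (nat_lit 1836124916) (nat_lit 140) (nat_lit 5) (nat_lit 140) (nat_lit 3) (nat_lit 151) (nat_lit 3) (nat_lit 314) (nat_lit 313) (nat_lit 237)))) (XT.nd (nat_lit 94) (nat_lit 1008) (nat_lit 0) (XT.lf (nat_lit 84) (nat_lit 1474861111) (nat_lit 0) (nat_lit 7061365493) (nat_lit 1008) (nat_lit 1121187743) (nat_lit 141) (nat_lit 5) (nat_lit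 140) (nat_lit 5) (nat_lit 152) (nat_lit 5) (nat_lit 315) (nat_lit 313) (nat_lit 236)) (XT.nd (nat_lit 94) (nat_lit 1008) (nat_lit 0) (XT.lf (nat_lit 84) (nat_lit 5391216103) (nat_lit 0) (nat_lit 4012332207) (nat_lit 1008) (nat_lit 382732600) (nat_lit 141) (nat_lit 5) (nat_lit 140) (nat_lit 5) (nat_lit 152) (nat_lit 5) (nat_lit 316) (nat_lit 313) (nat_lit 235)) (XT.lf (nat_lit 0) (nat_lit 344235137) (nat_lit 1008) (nat_lit 509106219) (nat_lit 1092) (nat_lit 9066619505) (nat_lit 128) (nat_lit 5) (nat_lit 140) (nat_lit 5) (nat_lit 141) (nat_lit 5) (nat_lit 317) (nat_lit 313) (nat_lit 234))))) (XT.nd (nat_lit 282) (nat_lit 0) (nat_lit 84) (XT.nd (nat_lit 94) (nat_lit 0) (nat_lit 0) (XT.lf (nat_lit 0) (nat_lit 1119415449) (nat_lit 1008) (nat_lit 6531632109) (nat_lit 1092) (nat_lit 2405676046) (nat_lit 129) (nat_lit 5) (nat_lit 141) (nat_lit 5) (nat_lit 142) (nat_lit 5) (nat_lit 318) (nat_lit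 313) (nat_lit 233)) (XT.nd (nat_lit 94) (nat_lit 0) (nat_lit 0) (XT.lf (nat_lit 0) (nat_lit 1907517465) (nat_lit 1008) (nat_lit 2526772016) (nat_lit 1092) (nat_lit 5763880297) (nat_lit 129) (nat_lit 5) (nat_lit 141) (nat_lit 5) (nat_lit 142) (nat_lit 5) (nat_lit 319) (nat_lit 313) (nat_lit 232)) (XT.lf (nat_lit 84) (nat_lit 1619770835) (nat_lit 0) (nat_lit 1091901058) (nat_lit 1092) (nat_lit 7632685052) (nat_lit 130) (nat_lit 5) (nat_lit 129) (nat_lit 5) (nat_lit 142) (nat_lit 5) (nat_lit 320) (nat_lit 313) (nat_lit 231)))) (XT.nd (nat_lit 94) (nat_lit 0) (nat_lit 0) (XT.lf (nat_lit 0) (nat_lit 3566980238) (nat_lit 1008) (nat_lit 4585329642) (nat_lit 1092) (nat_lit 2342046578) (nat_lit 130) (nat_lit 5) (nat_lit 142) (nat_lit 5) (nat_lit 143) (nat_lit 5) (nat_lit 321) (nat_lit 313) (nat_lit 230)) (XT.nd (nat_lit 94) (nat_lit 0) (nat_lit 0) (XT.lf (nat_lit 0) (nat_lit 4436913577) (nat_lit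 1008) (nat_lit 344317944) (nat_lit 1092) (nat_lit 5868233721) (nat_lit 130) (nat_lit 5) (nat_lit 142) (nat_lit 5) (nat_lit 143) (nat_lit 5) (nat_lit 322) (nat_lit 313) (nat_lit 229)) (XT.lf (nat_lit 84) (nat_lit 4095754161) (nat_lit 0) (nat_lit 1256327214) (nat_lit 1092) (nat_lit 5456822745) (nat_lit 131) (nat_lit 5) (nat_lit 130) (nat_lit 5) (nat_lit 143) (nat_lit 5) (nat_lit 323) (nat_lit 313) (nat_lit 228)))))) (XT.nd (nat_lit 564) (nat_lit 2520) (nat_lit 0) (XT.nd (nat_lit 282) (nat_lit 0) (nat_lit 84) (XT.nd (nat_lit 94) (nat_lit 0) (nat_lit 0) (XT.lf (nat_lit 0) (nat_lit 6301070631) (nat_lit 1008) (nat_lit 2331644082) (nat_lit 1092) (nat_lit 2340487238) (nat_lit 131) (nat_lit 5) (nat_lit 143) (nat_lit 5) (nat_lit 144) (nat_lit 5) (nat_lit 324) (nat_lit 313) (nat_lit 227)) (XT.nd (nat_lit 94) (nat_lit 0) (nat_lit 0) (XT.lf (nat_lit 84) (nat_lit 2202062857) (nat_lit 0) (nat_lit 5090996189)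 (nat_lit 1092) (nat_lit 3849195744) (nat_lit 132) (nat_lit 5) (nat_lit 131) (nat_lit 5) (nat_lit 144) (nat_lit 5) (nat_lit 325) (nat_lit 313) (nat_lit 226)) (XT.lf (nat_lit 84) (nat_lit 6910754645) (nat_lit 0) (nat_lit 1408754664) (nat_lit 1092) (nat_lit 2997004225) (nat_lit 132) (nat_lit 5) (nat_lit 131) (nat_lit 5) (nat_lit 144) (nat_lit 5) (nat_lit 326) (nat_lit 313) (nat_lit 225)))) (XT.nd (nat_lit 94) (nat_lit 0) (nat_lit 0) (XT.lf (nat_lit 84) (nat_lit 234999319) (nat_lit 0) (nat_lit 9148844174) (nat_lit 1092) (nat_lit 2112220692) (nat_lit 133) (nat_lit 5) (nat_lit 132) (nat_lit 5) (nat_lit 145) (nat_lit 5) (nat_lit 327) (nat_lit 313) (nat_lit 224)) (XT.nd (nat_lit 94) (nat_lit 0) (nat_lit 0) (XT.lf (nat_lit 84) (nat_lit 5083179785) (nat_lit 0) (nat_lit 5438738591) (nat_lit 1092) (nat_lit 1158074921) (nat_lit 133) (nat_lit 5) (nat_lit 132) (nat_lit 5) (nat_lit 145) (nat_lit 5)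 (nat_lit 328) (nat_lit 313) (nat_lit 223)) (XT.lf (nat_lit 84) (nat_lit 10066972455) (nat_lit 0) (nat_lit 1609384419) (nat_lit 1092) (nat_lit 193927010) (nat_lit 133) (nat_lit 5) (nat_lit 132) (nat_lit 5) (nat_lit 145) (nat_lit 5) (nat_lit 329) (nat_lit 313) (nat_lit 222))))) (XT.nd (nat_lit 282) (nat_lit 504) (nat_lit 0) (XT.nd (nat_lit 94) (nat_lit 1092) (nat_lit 0) (XT.lf (nat_lit 0) (nat_lit 820574854) (nat_lit 1092) (nat_lit 8909302516) (nat_lit 84) (nat_lit 2335284817) (nat_lit 120) (nat_lit 5) (nat_lit 133) (nat_lit 5) (nat_lit 121) (nat_lit 5) (nat_lit 330) (nat_lit 313) (nat_lit 221)) (XT.nd (nat_lit 94) (nat_lit 1092) (nat_lit 0) (XT.lf (nat_lit 0) (nat_lit 1879819697) (nat_lit 1092) (nat_lit 3992349633) (nat_lit 84) (nat_lit 6393380770) (nat_lit 120) (nat_lit 5) (nat_lit 133) (nat_lit 5) (nat_lit 121) (nat_lit 5) (nat_lit 331) (nat_lit 313) (nat_lit 220)) (XT.lf (nat_lit 0)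 (nat_lit 1084119083) (nat_lit 1092) (nat_lit 1880928630) (nat_lit 1176) (nat_lit 9507379617) (nat_lit 107) (nat_lit 5) (nat_lit 120) (nat_lit 5) (nat_lit 121) (nat_lit 5) (nat_lit 332) (nat_lit 313) (nat_lit 219)))) (XT.nd (nat_lit 94) (nat_lit 504) (nat_lit 0) (XT.lf (nat_lit 0) (nat_lit 4130980460) (nat_lit 1176) (nat_lit 6319645790) (nat_lit 84) (nat_lit 2233695448) (nat_lit 107) (nat_lit 5) (nat_lit 121) (nat_lit 5) (nat_lit 108) (nat_lit 5) (nat_lit 333) (nat_lit 313) (nat_lit 218)) (XT.nd (nat_lit 94) (nat_lit 504) (nat_lit 0) (XT.lf (nat_lit 0) (nat_lit 5335614244) (nat_lit 1176) (nat_lit 1127860208) (nat_lit 84) (nat_lit 6439292063) (nat_lit 107) (nat_lit 5) (nat_lit 121) (nat_lit 5) (nat_lit 108) (nat_lit 5) (nat_lit 334) (nat_lit 313) (nat_lit 217)) (XT.lf (nat_lit 0) (nat_lit 4297124307) (nat_lit 504) (nat_lit 2306916562) (nat_lit 588) (nat_lit 6523181489) (nat_lit 101) (nat_lit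 5) (nat_lit 107) (nat_lit 5) (nat_lit 108) (nat_lit 5) (nat_lit 335) (nat_lit 313) (nat_lit 216))))))))
noncomputable def xc146 : XT := (XT.nd (nat_lit 2256) (nat_lit 2352) (nat_lit 0) (XT.nd (nat_lit 1128) (nat_lit 1596) (nat_lit 0) (XT.nd (nat_lit 564) (nat_lit 1344) (nat_lit 0) (XT.nd (nat_lit 282) (nat_lit 588) (nat_lit 0) (XT.nd (nat_lit 94) (nat_lit 588) (nat_lit 0) (XT.lf (nat_lit 0) (nat_lit 7927491990) (nat_lit 588) (nat_lit 3478568807) (nat_lit 84) (nat_lit 1952146114) (nat_lit 101) (nat_lit 5) (nat_lit 108) (nat_lit 5) (nat_lit 102) (nat_lit 5) (nat_lit 336) (nat_lit 313) (nat_lit 215)) (XT.nd (nat_lit 94) (nat_lit 0) (nat_lit 0) (XT.lf (nat_lit 0) (nat_lit 2042107234) (nat_lit 588) (nat_lit 7278374125) (nat_lit 672) (nat_lit 4275042436) (nat_lit 94) (nat_lit 5) (nat_lit 101) (nat_lit 5) (nat_lit 102) (nat_lit 5) (nat_lit 337) (nat_lit 313) (nat_lit 214)) (XT.lf (nat_lit 0)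 (nat_lit 7793512651) (nat_lit 588) (nat_lit 2984429696) (nat_lit 672) (nat_lit 3061649179) (nat_lit 94) (nat_lit 5) (nat_lit 101) (nat_lit 5) (nat_lit 102) (nat_lit 5) (nat_lit 338) (nat_lit 313) (nat_lit 213)))) (XT.nd (nat_lit 94) (nat_lit 588) (nat_lit 0) (XT.lf (nat_lit 0) (nat_lit 12280335438) (nat_lit 672) (nat_lit 396566854) (nat_lit 84) (nat_lit 1414383151) (nat_lit 94) (nat_lit 5) (nat_lit 102) (nat_lit 5) (nat_lit 95) (nat_lit 5) (nat_lit 339) (nat_lit 313) (nat_lit 212)) (XT.nd (nat_lit 94) (nat_lit 84) (nat_lit 0) (XT.lf (nat_lit 0) (nat_lit 5494443266) (nat_lit 504) (nat_lit 8405766266) (nat_lit 588) (nat_lit 448425014) (nat_lit 88) (nat_lit 5) (nat_lit 94) (nat_lit 5) (nat_lit 95) (nat_lit 5) (nat_lit 340) (nat_lit 313) (nat_lit 211)) (XT.lf (nat_lit 0) (nat_lit 927228649) (nat_lit 588) (nat_lit 3060890906) (nat_lit 84) (nat_lit 10625900683) (nat_lit 87) (nat_lit 5) (nat_lit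 94) (nat_lit 5) (nat_lit 88) (nat_lit 5) (nat_lit 341) (nat_lit 313) (nat_lit 210))))) (XT.nd (nat_lit 282) (nat_lit 420) (nat_lit 0) (XT.nd (nat_lit 94) (nat_lit 420) (nat_lit 0) (XT.lf (nat_lit 0) (nat_lit 2357874750) (nat_lit 588) (nat_lit 11939687076) (nat_lit 84) (nat_lit 589303704) (nat_lit 81) (nat_lit 5) (nat_lit 88) (nat_lit 5) (nat_lit 82) (nat_lit 5) (nat_lit 342) (nat_lit 313) (nat_lit 209)) (XT.nd (nat_lit 94) (nat_lit 420) (nat_lit 0) (XT.lf (nat_lit 0) (nat_lit 3892608889) (nat_lit 588) (nat_lit 6015815314) (nat_lit 84) (nat_lit 5257937891) (nat_lit 81) (nat_lit 5) (nat_lit 88) (nat_lit 5) (nat_lit 82) (nat_lit 5) (nat_lit 343) (nat_lit 313) (nat_lit 208)) (XT.lf (nat_lit 0) (nat_lit 79814631) (nat_lit 420) (nat_lit 5382970386) (nat_lit 504) (nat_lit 9992157808) (nat_lit 76) (nat_lit 5) (nat_lit 81) (nat_lit 5) (nat_lit 82) (nat_lit 5) (nat_lit 344) (nat_lit 313) (nat_lit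 207)))) (XT.nd (nat_lit 94) (nat_lit 420) (nat_lit 0) (XT.lf (nat_lit 0) (nat_lit 6478587874) (nat_lit 420) (nat_lit 653171173) (nat_lit 504) (nat_lit 8619199002) (nat_lit 76) (nat_lit 5) (nat_lit 81) (nat_lit 5) (nat_lit 82) (nat_lit 5) (nat_lit 345) (nat_lit 313) (nat_lit 206)) (XT.nd (nat_lit 94) (nat_lit 420) (nat_lit 0) (XT.lf (nat_lit 0) (nat_lit 8882070518) (nat_lit 504) (nat_lit 3035689098) (nat_lit 84) (nat_lit 4137513566) (nat_lit 76) (nat_lit 5) (nat_lit 82) (nat_lit 5) (nat_lit 77) (nat_lit 5) (nat_lit 346) (nat_lit 313) (nat_lit 205)) (XT.lf (nat_lit 0) (nat_lit 3444073763) (nat_lit 420) (nat_lit 7271487702) (nat_lit 504) (nat_lit 5652603886) (nat_lit 71) (nat_lit 5) (nat_lit 76) (nat_lit 5) (nat_lit 77) (nat_lit 5) (nat_lit 347) (nat_lit 313) (nat_lit 204)))))) (XT.nd (nat_lit 564) (nat_lit 672) (nat_lit 0) (XT.nd (nat_lit 282) (nat_lit 504) (nat_lit 0) (XT.nd (nat_lit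 94) (nat_lit 420) (nat_lit 0) (XT.lf (nat_lit 0) (nat_lit 10176230217) (nat_lit 420) (nat_lit 2449651843) (nat_lit 504) (nat_lit 4064293967) (nat_lit 71) (nat_lit 5) (nat_lit 76) (nat_lit 5) (nat_lit 77) (nat_lit 5) (nat_lit 348) (nat_lit 313) (nat_lit 203)) (XT.nd (nat_lit 94) (nat_lit 0) (nat_lit 0) (XT.lf (nat_lit 0) (nat_lit 58246550) (nat_lit 420) (nat_lit 14551414785) (nat_lit 504) (nat_lit 2412103722) (nat_lit 66) (nat_lit 5) (nat_lit 71) (nat_lit 5) (nat_lit 72) (nat_lit 5) (nat_lit 349) (nat_lit 313) (nat_lit 202)) (XT.lf (nat_lit 0) (nat_lit 6934003332) (nat_lit 420) (nat_lit 9802588385) (nat_lit 504) (nat_lit 624546658) (nat_lit 66) (nat_lit 5) (nat_lit 71) (nat_lit 5) (nat_lit 72) (nat_lit 5) (nat_lit 350) (nat_lit 313) (nat_lit 201)))) (XT.nd (nat_lit 94) (nat_lit 420) (nat_lit 0) (XT.lf (nat_lit 0) (nat_lit 1182927247) (nat_lit 504) (nat_lit 3712784569) (nat_lit 84) (nat_lit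 12815319319) (nat_lit 65) (nat_lit 5) (nat_lit 71) (nat_lit 5) (nat_lit 66) (nat_lit 5) (nat_lit 351) (nat_lit 313) (nat_lit 200)) (XT.nd (nat_lit 94) (nat_lit 0) (nat_lit 0) (XT.lf (nat_lit 0) (nat_lit 3057147019) (nat_lit 504) (nat_lit 14816189856) (nat_lit 84) (nat_lit 197534488) (nat_lit 60) (nat_lit 5) (nat_lit 66) (nat_lit 5) (nat_lit 61) (nat_lit 5) (nat_lit 352) (nat_lit 313) (nat_lit 199)) (XT.lf (nat_lit 0) (nat_lit 5068252922) (nat_lit 504) (nat_lit 7986696300) (nat_lit 84) (nat_lit 5384507199) (nat_lit 60) (nat_lit 5) (nat_lit 66) (nat_lit 5) (nat_lit 61) (nat_lit 5) (nat_lit 353) (nat_lit 313) (nat_lit 198))))) (XT.nd (nat_lit 282) (nat_lit 336) (nat_lit 0) (XT.nd (nat_lit 94) (nat_lit 336) (nat_lit 0) (XT.lf (nat_lit 0) (nat_lit 7131580395) (nat_lit 504) (nat_lit 957526436) (nat_lit 84) (nat_lit 10730705749) (nat_lit 60) (nat_lit 5) (nat_lit 66) (nat_lit 5) (nat_lit 61)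 (nat_lit 5) (nat_lit 354) (nat_lit 313) (nat_lit 197)) (XT.nd (nat_lit 94) (nat_lit 0) (nat_lit 0) (XT.lf (nat_lit 0) (nat_lit 6406957574) (nat_lit 336) (nat_lit 2905652913) (nat_lit 420) (nat_lit 9897713591) (nat_lit 56) (nat_lit 5) (nat_lit 60) (nat_lit 5) (nat_lit 61) (nat_lit 5) (nat_lit 355) (nat_lit 313) (nat_lit 196)) (XT.lf (nat_lit 0) (nat_lit 11585882624) (nat_lit 420) (nat_lit 5628751144) (nat_lit 84) (nat_lit 2397573448) (nat_lit 56) (nat_lit 5) (nat_lit 61) (nat_lit 5) (nat_lit 57) (nat_lit 5) (nat_lit 356) (nat_lit 313) (nat_lit 195)))) (XT.nd (nat_lit 94) (nat_lit 0) (nat_lit 0) (XT.lf (nat_lit 0) (nat_lit 1762560918) (nat_lit 336) (nat_lit 12204901625) (nat_lit 420) (nat_lit 6057941694) (nat_lit 52) (nat_lit 5) (nat_lit 56) (nat_lit 5) (nat_lit 57) (nat_lit 5) (nat_lit 357) (nat_lit 313) (nat_lit 194)) (XT.nd (nat_lit 94) (nat_lit 0) (nat_lit 0) (XT.lf (nat_lit 0) (nat_lit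 9490936699) (nat_lit 336) (nat_lit 6981489496) (nat_lit 420) (nat_lit 3977475551) (nat_lit 52) (nat_lit 5) (nat_lit 56) (nat_lit 5) (nat_lit 57) (nat_lit 5) (nat_lit 358) (nat_lit 313) (nat_lit 193)) (XT.lf (nat_lit 0) (nat_lit 17447841183) (nat_lit 336) (nat_lit 1598281234) (nat_lit 420) (nat_lit 1841739571) (nat_lit 52) (nat_lit 5) (nat_lit 56) (nat_lit 5) (nat_lit 57) (nat_lit 5) (nat_lit 359) (nat_lit 313) (nat_lit 192))))))) (XT.nd (nat_lit 1128) (nat_lit 756) (nat_lit 0) (XT.nd (nat_lit 564) (nat_lit 840) (nat_lit 0) (XT.nd (nat_lit 282) (nat_lit 336) (nat_lit 0) (XT.nd (nat_lit 94) (nat_lit 0) (nat_lit 0) (XT.lf (nat_lit 0) (nat_lit 427350940) (nat_lit 420) (nat_lit 16992019924) (nat_lit 84) (nat_lit 3917636002) (nat_lit 47) (nat_lit 5) (nat_lit 52) (nat_lit 5) (nat_lit 48) (nat_lit 5) (nat_lit 360) (nat_lit 313) (nat_lit 191)) (XT.nd (nat_lit 94) (nat_lit 0) (nat_lit 0) (XT.lf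 (nat_lit 0) (nat_lit 2772514156) (nat_lit 420) (nat_lit 9401339110) (nat_lit 84) (nat_lit 9624298808) (nat_lit 47) (nat_lit 5) (nat_lit 52) (nat_lit 5) (nat_lit 48) (nat_lit 5) (nat_lit 361) (nat_lit 313) (nat_lit 190)) (XT.lf (nat_lit 0) (nat_lit 5182004492) (nat_lit 420) (nat_lit 1586096935) (nat_lit 84) (nat_lit 15505774591) (nat_lit 47) (nat_lit 5) (nat_lit 52) (nat_lit 5) (nat_lit 48) (nat_lit 5) (nat_lit 362) (nat_lit 313) (nat_lit 189)))) (XT.nd (nat_lit 94) (nat_lit 0) (nat_lit 0) (XT.lf (nat_lit 0) (nat_lit 6593842454) (nat_lit 336) (nat_lit 1129637126) (nat_lit 420) (nat_lit 15039114780) (nat_lit 43) (nat_lit 5) (nat_lit 47) (nat_lit 5) (nat_lit 48) (nat_lit 5) (nat_lit 363) (nat_lit 313) (nat_lit 188)) (XT.nd (nat_lit 94) (nat_lit 0) (nat_lit 0) (XT.lf (nat_lit 0) (nat_lit 10398924797) (nat_lit 420) (nat_lit 8262164138) (nat_lit 84) (nat_lit 4603685590) (nat_lit 43) (nat_lit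 5) (nat_lit 48) (nat_lit 5) (nat_lit 44) (nat_lit 5) (nat_lit 364) (nat_lit 313) (nat_lit 187)) (XT.lf (nat_lit 0) (nat_lit 13161100359) (nat_lit 420) (nat_lit 132275308) (nat_lit 84) (nat_lit 10489050674) (nat_lit 43) (nat_lit 5) (nat_lit 48) (nat_lit 5) (nat_lit 44) (nat_lit 5) (nat_lit 365) (nat_lit 313) (nat_lit 186))))) (XT.nd (nat_lit 282) (nat_lit 336) (nat_lit 0) (XT.nd (nat_lit 94) (nat_lit 252) (nat_lit 0) (XT.lf (nat_lit 0) (nat_lit 8409123733) (nat_lit 252) (nat_lit 7675670577) (nat_lit 336) (nat_lit 8228999386) (nat_lit 40) (nat_lit 5) (nat_lit 43) (nat_lit 5) (nat_lit 44) (nat_lit 5) (nat_lit 366) (nat_lit 313) (nat_lit 185)) (XT.nd (nat_lit 94) (nat_lit 252) (nat_lit 0) (XT.lf (nat_lit 0) (nat_lit 17208269517) (nat_lit 252) (nat_lit 1884834086) (nat_lit 336) (nat_lit 5768736753) (nat_lit 40) (nat_lit 5) (nat_lit 43) (nat_lit 5) (nat_lit 44) (nat_lit 5) (nat_lit 367) (nat_lit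 313) (nat_lit 184)) (XT.lf (nat_lit 0) (nat_lit 819531617) (nat_lit 252) (nat_lit 21416596727) (nat_lit 336) (nat_lit 3189482636) (nat_lit 37) (nat_lit 5) (nat_lit 40) (nat_lit 5) (nat_lit 41) (nat_lit 5) (nat_lit 368) (nat_lit 313) (nat_lit 183)))) (XT.nd (nat_lit 94) (nat_lit 336) (nat_lit 0) (XT.lf (nat_lit 0) (nat_lit 9688213350) (nat_lit 252) (nat_lit 15880263134) (nat_lit 336) (nat_lit 435552550) (nat_lit 37) (nat_lit 5) (nat_lit 40) (nat_lit 5) (nat_lit 41) (nat_lit 5) (nat_lit 369) (nat_lit 313) (nat_lit 182)) (XT.nd (nat_lit 94) (nat_lit 252) (nat_lit 0) (XT.lf (nat_lit 0) (nat_lit 2348363451) (nat_lit 336) (nat_lit 7801934513) (nat_lit 84) (nat_lit 16449574488) (nat_lit 36) (nat_lit 5) (nat_lit 40) (nat_lit 5) (nat_lit 37) (nat_lit 5) (nat_lit 370) (nat_lit 313) (nat_lit 181)) (XT.lf (nat_lit 0) (nat_lit 981958075) (nat_lit 252) (nat_lit 4230569888) (nat_lit 336) (nat_lit 22001445571)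 (nat_lit 33) (nat_lit 5) (nat_lit 36) (nat_lit 5) (nat_lit 37) (nat_lit 5) (nat_lit 371) (nat_lit 313) (nat_lit 180)))))) (XT.nd (nat_lit 564) (nat_lit 504) (nat_lit 0) (XT.nd (nat_lit 282) (nat_lit 0) (nat_lit 0) (XT.nd (nat_lit 94) (nat_lit 252) (nat_lit 0) (XT.lf (nat_lit 0) (nat_lit 8259668245) (nat_lit 336) (nat_lit 17669801443) (nat_lit 84) (nat_lit 1914739198) (nat_lit 33) (nat_lit 5) (nat_lit 37) (nat_lit 5) (nat_lit 34) (nat_lit 5) (nat_lit 372) (nat_lit 313) (nat_lit 179)) (XT.nd (nat_lit 94) (nat_lit 252) (nat_lit 0) (XT.lf (nat_lit 0) (nat_lit 11438079347) (nat_lit 336) (nat_lit 8894498806) (nat_lit 84) (nat_lit 8160278698) (nat_lit 33) (nat_lit 5) (nat_lit 37) (nat_lit 5) (nat_lit 34) (nat_lit 5) (nat_lit 373) (nat_lit 313) (nat_lit 178)) (XT.lf (nat_lit 0) (nat_lit 147001481) (nat_lit 252) (nat_lit 14563212897) (nat_lit 336) (nat_lit 14451563454) (nat_lit 30) (nat_lit 5)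 (nat_lit 33) (nat_lit 5) (nat_lit 34) (nat_lit 5) (nat_lit 374) (nat_lit 313) (nat_lit 177)))) (XT.nd (nat_lit 94) (nat_lit 0) (nat_lit 0) (XT.lf (nat_lit 0) (nat_lit 9648637573) (nat_lit 252) (nat_lit 8521825242) (nat_lit 336) (nat_lit 11678300997) (nat_lit 30) (nat_lit 5) (nat_lit 33) (nat_lit 5) (nat_lit 34) (nat_lit 5) (nat_lit 375) (nat_lit 313) (nat_lit 176)) (XT.nd (nat_lit 94) (nat_lit 0) (nat_lit 0) (XT.lf (nat_lit 0) (nat_lit 19436376851) (nat_lit 252) (nat_lit 2295624306) (nat_lit 336) (nat_lit 8825245487) (nat_lit 30) (nat_lit 5) (nat_lit 33) (nat_lit 5) (nat_lit 34) (nat_lit 5) (nat_lit 376) (nat_lit 313) (nat_lit 175)) (XT.lf (nat_lit 0) (nat_lit 25439031879) (nat_lit 336) (nat_lit 1809426946) (nat_lit 84) (nat_lit 4038160519) (nat_lit 30) (nat_lit 5) (nat_lit 34) (nat_lit 5) (nat_lit 31) (nat_lit 5) (nat_lit 377) (nat_lit 313) (nat_lit 174))))) (XT.nd (nat_lit 282) (nat_lit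 252) (nat_lit 0) (XT.nd (nat_lit 94) (nat_lit 84) (nat_lit 0) (XT.lf (nat_lit 0) (nat_lit 7918621830) (nat_lit 168) (nat_lit 21438744499) (nat_lit 252) (nat_lit 2678262399) (nat_lit 28) (nat_lit 5) (nat_lit 30) (nat_lit 5) (nat_lit 31) (nat_lit 5) (nat_lit 378) (nat_lit 313) (nat_lit 173)) (XT.nd (nat_lit 94) (nat_lit 0) (nat_lit 0) (XT.lf (nat_lit 0) (nat_lit 590891431) (nat_lit 252) (nat_lit 14834871476) (nat_lit 84) (nat_lit 17381509478) (nat_lit 27) (nat_lit 5) (nat_lit 30) (nat_lit 5) (nat_lit 28) (nat_lit 5) (nat_lit 379) (nat_lit 313) (nat_lit 172)) (XT.lf (nat_lit 0) (nat_lit 3900297541) (nat_lit 252) (nat_lit 5300296214) (nat_lit 84) (nat_lit 24401576124) (nat_lit 27) (nat_lit 5) (nat_lit 30) (nat_lit 5) (nat_lit 28) (nat_lit 5) (nat_lit 380) (nat_lit 313) (nat_lit 171)))) (XT.nd (nat_lit 94) (nat_lit 0) (nat_lit 0) (XT.lf (nat_lit 0) (nat_lit 4615159994) (nat_lit 252) (nat_lit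 2737624626) (nat_lit 336) (nat_lit 27067681874) (nat_lit 24) (nat_lit 5) (nat_lit 27) (nat_lit 5) (nat_lit 28) (nat_lit 5) (nat_lit 381) (nat_lit 313) (nat_lit 170)) (XT.nd (nat_lit 94) (nat_lit 0) (nat_lit 0) (XT.lf (nat_lit 0) (nat_lit 11001898770) (nat_lit 336) (nat_lit 20359313910) (nat_lit 84) (nat_lit 3900152119) (nat_lit 24) (nat_lit 5) (nat_lit 28) (nat_lit 5) (nat_lit 25) (nat_lit 5) (nat_lit 382) (nat_lit 313) (nat_lit 169)) (XT.lf (nat_lit 0) (nat_lit 14787058795) (nat_lit 336) (nat_lit 10656010300) (nat_lit 84) (nat_lit 10684562964) (nat_lit 24) (nat_lit 5) (nat_lit 28) (nat_lit 5) (nat_lit 25) (nat_lit 5) (nat_lit 383) (nat_lit 313) (nat_lit 168))))))))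
noncomputable def xc147 : XT := (XT.nd (nat_lit 2256) (nat_lit 84) (nat_lit 0) (XT.nd (nat_lit 1128) (nat_lit 504) (nat_lit 0) (XT.nd (nat_lit 564) (nat_lit 252) (nat_lit 0) (XT.nd (nat_lit 282) (nat_lit 168) (nat_lit 0) (XT.nd (nat_lit 94) (nat_lit 168) (nat_lit 0) (XT.lf (nat_lit 0) (nat_lit 18684635285) (nat_lit 336) (nat_lit 659193599) (nat_lit 84) (nat_lit 17677088725) (nat_lit 24) (nat_lit 5) (nat_lit 28) (nat_lit 5) (nat_lit 25) (nat_lit 5) (nat_lit 384) (nat_lit 313) (nat_lit 167)) (XT.nd (nat_lit 94) (nat_lit 0) (nat_lit 0) (XT.lf (nat_lit 0) (nat_lit 9838681783) (nat_lit 168) (nat_lit 12957180349) (nat_lit 252) (nat_lit 15143166326) (nat_lit 22) (nat_lit 5) (nat_lit 24) (nat_lit 5) (nat_lit 25) (nat_lit 5) (nat_lit 385) (nat_lit 313) (nat_lit 166)) (XT.lf (nat_lit 0) (nat_lit 20668967292) (nat_lit 168) (nat_lit 6367749053) (nat_lit 252) (nat_lit 11848827543) (nat_lit 22) (nat_lit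 5) (nat_lit 24) (nat_lit 5) (nat_lit 25) (nat_lit 5) (nat_lit 386) (nat_lit 313) (nat_lit 165)))) (XT.nd (nat_lit 94) (nat_lit 168) (nat_lit 0) (XT.lf (nat_lit 0) (nat_lit 31408680522) (nat_lit 252) (nat_lit 8037552939) (nat_lit 84) (nat_lit 415189270) (nat_lit 22) (nat_lit 5) (nat_lit 25) (nat_lit 5) (nat_lit 23) (nat_lit 5) (nat_lit 387) (nat_lit 313) (nat_lit 164)) (XT.nd (nat_lit 94) (nat_lit 0) (nat_lit 0) (XT.lf (nat_lit 0) (nat_lit 2434227855) (nat_lit 168) (nat_lit 33566778399) (nat_lit 252) (nat_lit 4863927883) (nat_lit 20) (nat_lit 5) (nat_lit 22) (nat_lit 5) (nat_lit 23) (nat_lit 5) (nat_lit 388) (nat_lit 313) (nat_lit 163)) (XT.lf (nat_lit 0) (nat_lit 13394383914) (nat_lit 168) (nat_lit 27420829212) (nat_lit 252) (nat_lit 1081885948) (nat_lit 20) (nat_lit 5) (nat_lit 22) (nat_lit 5) (nat_lit 23) (nat_lit 5) (nat_lit 389) (nat_lit 313) (nat_lit 162))))) (XT.nd (nat_lit 282)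 (nat_lit 0) (nat_lit 0) (XT.nd (nat_lit 94) (nat_lit 168) (nat_lit 0) (XT.lf (nat_lit 0) (nat_lit 2756337337) (nat_lit 252) (nat_lit 18301444953) (nat_lit 84) (nat_lit 21902754831) (nat_lit 19) (nat_lit 5) (nat_lit 22) (nat_lit 5) (nat_lit 20) (nat_lit 5) (nat_lit 390) (nat_lit 313) (nat_lit 161)) (XT.nd (nat_lit 94) (nat_lit 168) (nat_lit 0) (XT.lf (nat_lit 0) (nat_lit 6686903818) (nat_lit 252) (nat_lit 7801343572) (nat_lit 84) (nat_lit 29568489472) (nat_lit 19) (nat_lit 5) (nat_lit 22) (nat_lit 5) (nat_lit 20) (nat_lit 5) (nat_lit 391) (nat_lit 313) (nat_lit 160)) (XT.lf (nat_lit 0) (nat_lit 3080167121) (nat_lit 168) (nat_lit 7685663301) (nat_lit 252) (nat_lit 34420275127) (nat_lit 17) (nat_lit 5) (nat_lit 19) (nat_lit 5) (nat_lit 20) (nat_lit 5) (nat_lit 392) (nat_lit 313) (nat_lit 159)))) (XT.nd (nat_lit 94) (nat_lit 0) (nat_lit 0) (XT.lf (nat_lit 0) (nat_lit 14458298985) (nat_lit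 168) (nat_lit 590352871) (nat_lit 252) (nat_lit 31299440304) (nat_lit 17) (nat_lit 5) (nat_lit 19) (nat_lit 5) (nat_lit 20) (nat_lit 5) (nat_lit 393) (nat_lit 313) (nat_lit 158)) (XT.nd (nat_lit 94) (nat_lit 0) (nat_lit 0) (XT.lf (nat_lit 0) (nat_lit 19527070236) (nat_lit 252) (nat_lit 21429673888) (nat_lit 84) (nat_lit 6587416649) (nat_lit 17) (nat_lit 5) (nat_lit 20) (nat_lit 5) (nat_lit 18) (nat_lit 5) (nat_lit 394) (nat_lit 313) (nat_lit 157)) (XT.lf (nat_lit 0) (nat_lit 24146591766) (nat_lit 252) (nat_lit 10657162487) (nat_lit 84) (nat_lit 13973490711) (nat_lit 17) (nat_lit 5) (nat_lit 20) (nat_lit 5) (nat_lit 18) (nat_lit 5) (nat_lit 395) (nat_lit 313) (nat_lit 156)))))) (XT.nd (nat_lit 564) (nat_lit 252) (nat_lit 0) (XT.nd (nat_lit 282) (nat_lit 84) (nat_lit 0) (XT.nd (nat_lit 94) (nat_lit 0) (nat_lit 0) (XT.lf (nat_lit 0) (nat_lit 452760625) (nat_lit 168) (nat_lit 28457396766)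 (nat_lit 252) (nat_lit 21138379018) (nat_lit 15) (nat_lit 5) (nat_lit 17) (nat_lit 5) (nat_lit 18) (nat_lit 5) (nat_lit 396) (nat_lit 313) (nat_lit 155)) (XT.nd (nat_lit 94) (nat_lit 0) (nat_lit 0) (XT.lf (nat_lit 0) (nat_lit 12127416627) (nat_lit 168) (nat_lit 21801617591) (nat_lit 252) (nat_lit 17426874231) (nat_lit 15) (nat_lit 5) (nat_lit 17) (nat_lit 5) (nat_lit 18) (nat_lit 5) (nat_lit 397) (nat_lit 313) (nat_lit 154)) (XT.lf (nat_lit 0) (nat_lit 24158554401) (nat_lit 168) (nat_lit 14941451765) (nat_lit 252) (nat_lit 13603918245) (nat_lit 15) (nat_lit 5) (nat_lit 17) (nat_lit 5) (nat_lit 18) (nat_lit 5) (nat_lit 398) (nat_lit 313) (nat_lit 153)))) (XT.nd (nat_lit 94) (nat_lit 84) (nat_lit 0) (XT.lf (nat_lit 0) (nat_lit 36557388228) (nat_lit 168) (nat_lit 7870504895) (nat_lit 252) (nat_lit 9665947665) (nat_lit 15) (nat_lit 5) (nat_lit 17) (nat_lit 5) (nat_lit 18) (nat_lit 5) (nat_lit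 399) (nat_lit 313) (nat_lit 152)) (XT.nd (nat_lit 94) (nat_lit 84) (nat_lit 0) (XT.lf (nat_lit 0) (nat_lit 49335475120) (nat_lit 168) (nat_lit 582186118) (nat_lit 252) (nat_lit 5609291890) (nat_lit 15) (nat_lit 5) (nat_lit 17) (nat_lit 5) (nat_lit 18) (nat_lit 5) (nat_lit 400) (nat_lit 313) (nat_lit 151)) (XT.lf (nat_lit 0) (nat_lit 5543059226) (nat_lit 84) (nat_lit 50155105572) (nat_lit 168) (nat_lit 1302596588) (nat_lit 14) (nat_lit 5) (nat_lit 15) (nat_lit 5) (nat_lit 16) (nat_lit 4) (nat_lit 401) (nat_lit 313) (nat_lit 150))))) (XT.nd (nat_lit 282) (nat_lit 168) (nat_lit 0) (XT.nd (nat_lit 94) (nat_lit 0) (nat_lit 0) (XT.lf (nat_lit 0) (nat_lit 3142438226) (nat_lit 168) (nat_lit 40788437500) (nat_lit 84) (nat_lit 14586313785) (nat_lit 13) (nat_lit 5) (nat_lit 15) (nat_lit 5) (nat_lit 14) (nat_lit 5) (nat_lit 402) (nat_lit 313) (nat_lit 149)) (XT.nd (nat_lit 94) (nat_lit 0) (nat_lit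 0) (XT.lf (nat_lit 0) (nat_lit 7695113193) (nat_lit 168) (nat_lit 29806661421) (nat_lit 84) (nat_lit 22578541324) (nat_lit 13) (nat_lit 5) (nat_lit 15) (nat_lit 5) (nat_lit 14) (nat_lit 5) (nat_lit 403) (nat_lit 313) (nat_lit 148)) (XT.lf (nat_lit 0) (nat_lit 12385916300) (nat_lit 168) (nat_lit 18489215839) (nat_lit 84) (nat_lit 30816866107) (nat_lit 13) (nat_lit 5) (nat_lit 15) (nat_lit 5) (nat_lit 14) (nat_lit 5) (nat_lit 404) (nat_lit 313) (nat_lit 147)))) (XT.nd (nat_lit 94) (nat_lit 168) (nat_lit 0) (XT.lf (nat_lit 0) (nat_lit 17219219867) (nat_lit 168) (nat_lit 6825551709) (nat_lit 84) (nat_lit 39308967115) (nat_lit 13) (nat_lit 5) (nat_lit 15) (nat_lit 5) (nat_lit 14) (nat_lit 5) (nat_lit 405) (nat_lit 313) (nat_lit 146)) (XT.nd (nat_lit 94) (nat_lit 0) (nat_lit 0) (XT.lf (nat_lit 0) (nat_lit 5302026748) (nat_lit 168) (nat_lit 16950099052) (nat_lit 252) (nat_lit 42813329890) (nat_lit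 11) (nat_lit 5) (nat_lit 13) (nat_lit 5) (nat_lit 14) (nat_lit 5) (nat_lit 406) (nat_lit 313) (nat_lit 145)) (XT.lf (nat_lit 0) (nat_lit 17945820354) (nat_lit 168) (nat_lit 9563690390) (nat_lit 252) (nat_lit 39318608248) (nat_lit 11) (nat_lit 5) (nat_lit 13) (nat_lit 5) (nat_lit 14) (nat_lit 5) (nat_lit 407) (nat_lit 313) (nat_lit 144))))))) (XT.nd (nat_lit 46060) (nat_lit 0) (nat_lit 9156) (XT.nd (nat_lit 45496) (nat_lit 0) (nat_lit 9912) (XT.nd (nat_lit 282) (nat_lit 84) (nat_lit 0) (XT.nd (nat_lit 94) (nat_lit 0) (nat_lit 0) (XT.lf (nat_lit 0) (nat_lit 30977267105) (nat_lit 168) (nat_lit 1949905447) (nat_lit 252) (nat_lit 35718341213) (nat_lit 11) (nat_lit 5) (nat_lit 13) (nat_lit 5) (nat_lit 14) (nat_lit 5) (nat_lit 408) (nat_lit 313) (nat_lit 143)) (XT.nd (nat_lit 94) (nat_lit 0) (nat_lit 0) (XT.lf (nat_lit 0) (nat_lit 38568673440) (nat_lit 252) (nat_lit 26169332725) (nat_lit 84)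 (nat_lit 5779513963) (nat_lit 11) (nat_lit 5) (nat_lit 14) (nat_lit 5) (nat_lit 12) (nat_lit 4) (nat_lit 409) (nat_lit 313) (nat_lit 142)) (XT.lf (nat_lit 0) (nat_lit 44402446826) (nat_lit 252) (nat_lit 14338013586) (nat_lit 84) (nat_lit 13706564151) (nat_lit 11) (nat_lit 5) (nat_lit 14) (nat_lit 5) (nat_lit 12) (nat_lit 4) (nat_lit 410) (nat_lit 313) (nat_lit 141)))) (XT.nd (nat_lit 94) (nat_lit 84) (nat_lit 0) (XT.lf (nat_lit 0) (nat_lit 50414587093) (nat_lit 252) (nat_lit 2143917913) (nat_lit 84) (nat_lit 21877920206) (nat_lit 11) (nat_lit 5) (nat_lit 14) (nat_lit 5) (nat_lit 12) (nat_lit 4) (nat_lit 411) (nat_lit 313) (nat_lit 140)) (XT.nd (nat_lit 45026) (nat_lit 0) (nat_lit 10920) (XT.lf (nat_lit 0) (nat_lit 10638665877) (nat_lit 84) (nat_lit 46077569192) (nat_lit 168) (nat_lit 19768069693) (nat_lit 10) (nat_lit 5) (nat_lit 11) (nat_lit 5) (nat_lit 12) (nat_lit 4) (nat_lit 412)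 (nat_lit 313) (nat_lit 139)) (XT.lf (nat_lit 0) (nat_lit 2121203988) (nat_lit 0) (nat_lit 2121203988) (nat_lit 924) (nat_lit 584798863) (nat_lit 140) (nat_lit 5) (nat_lit 140) (nat_lit 3) (nat_lit 151) (nat_lit 3) (nat_lit 314) (nat_lit 314) (nat_lit 236))))) (XT.nd (nat_lit 282) (nat_lit 0) (nat_lit 0) (XT.nd (nat_lit 94) (nat_lit 1008) (nat_lit 0) (XT.lf (nat_lit 0) (nat_lit 8128902907) (nat_lit 0) (nat_lit 1141628663) (nat_lit 924) (nat_lit 510541640) (nat_lit 140) (nat_lit 5) (nat_lit 140) (nat_lit 3) (nat_lit 151) (nat_lit 3) (nat_lit 315) (nat_lit 314) (nat_lit 235)) (XT.nd (nat_lit 94) (nat_lit 0) (nat_lit 0) (XT.lf (nat_lit 0) (nat_lit 181927161) (nat_lit 1008) (nat_lit 7678487525) (nat_lit 1092) (nat_lit 2050790252) (nat_lit 128) (nat_lit 5) (nat_lit 140) (nat_lit 5) (nat_lit 141) (nat_lit 5) (nat_lit 316) (nat_lit 314) (nat_lit 234)) (XT.lf (nat_lit 0) (nat_lit 888408249) (nat_lit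 1008) (nat_lit 3803578014) (nat_lit 1092) (nat_lit 5353227431) (nat_lit 128) (nat_lit 5) (nat_lit 140) (nat_lit 5) (nat_lit 141) (nat_lit 5) (nat_lit 317) (nat_lit 314) (nat_lit 233)))) (XT.nd (nat_lit 94) (nat_lit 0) (nat_lit 84) (XT.lf (nat_lit 84) (nat_lit 180810030) (nat_lit 0) (nat_lit 1412607127) (nat_lit 1092) (nat_lit 8590783539) (nat_lit 129) (nat_lit 5) (nat_lit 128) (nat_lit 5) (nat_lit 141) (nat_lit 5) (nat_lit 318) (nat_lit 314) (nat_lit 232)) (XT.nd (nat_lit 94) (nat_lit 0) (nat_lit 0) (XT.lf (nat_lit 0) (nat_lit 2355468971) (nat_lit 1008) (nat_lit 5991953415) (nat_lit 1092) (nat_lit 1979079515) (nat_lit 129) (nat_lit 5) (nat_lit 141) (nat_lit 5) (nat_lit 142) (nat_lit 5) (nat_lit 319) (nat_lit 314) (nat_lit 231)) (XT.lf (nat_lit 0) (nat_lit 3131880034) (nat_lit 1008) (nat_lit 1885257827) (nat_lit 1092) (nat_lit 5456457299) (nat_lit 129) (nat_lit 5) (nat_lit 141) (nat_lit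 5) (nat_lit 142) (nat_lit 5) (nat_lit 320) (nat_lit 314) (nat_lit 230)))))) (XT.nd (nat_lit 564) (nat_lit 840) (nat_lit 0) (XT.nd (nat_lit 282) (nat_lit 0) (nat_lit 84) (XT.nd (nat_lit 94) (nat_lit 0) (nat_lit 84) (XT.lf (nat_lit 84) (nat_lit 2382540077) (nat_lit 0) (nat_lit 1550455820) (nat_lit 1092) (nat_lit 6692323405) (nat_lit 130) (nat_lit 5) (nat_lit 129) (nat_lit 5) (nat_lit 142) (nat_lit 5) (nat_lit 321) (nat_lit 314) (nat_lit 229)) (XT.nd (nat_lit 94) (nat_lit 0) (nat_lit 0) (XT.lf (nat_lit 0) (nat_lit 4776537267) (nat_lit 1008) (nat_lit 3993738500) (nat_lit 1092) (nat_lit 2011013792) (nat_lit 130) (nat_lit 5) (nat_lit 142) (nat_lit 5) (nat_lit 143) (nat_lit 5) (nat_lit 322) (nat_lit 314) (nat_lit 228)) (XT.lf (nat_lit 84) (nat_lit 364016778) (nat_lit 0) (nat_lit 5279988818) (nat_lit 1092) (nat_lit 5298243541) (nat_lit 131) (nat_lit 5) (nat_lit 130) (nat_lit 5) (nat_lit 143)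 (nat_lit 5) (nat_lit 323) (nat_lit 314) (nat_lit 227)))) (XT.nd (nat_lit 94) (nat_lit 0) (nat_lit 84) (XT.lf (nat_lit 84) (nat_lit 4927191928) (nat_lit 0) (nat_lit 1631678529) (nat_lit 1092) (nat_lit 4548775120) (nat_lit 131) (nat_lit 5) (nat_lit 130) (nat_lit 5) (nat_lit 143) (nat_lit 5) (nat_lit 324) (nat_lit 314) (nat_lit 226)) (XT.nd (nat_lit 94) (nat_lit 0) (nat_lit 0) (XT.lf (nat_lit 0) (nat_lit 7502744634) (nat_lit 1008) (nat_lit 1682158667) (nat_lit 1092) (nat_lit 2093326186) (nat_lit 131) (nat_lit 5) (nat_lit 143) (nat_lit 5) (nat_lit 144) (nat_lit 5) (nat_lit 325) (nat_lit 314) (nat_lit 225)) (XT.lf (nat_lit 84) (nat_lit 2984785951) (nat_lit 0) (nat_lit 5517527713) (nat_lit 1092) (nat_lit 2951046226) (nat_lit 132) (nat_lit 5) (nat_lit 131) (nat_lit 5) (nat_lit 144) (nat_lit 5) (nat_lit 326) (nat_lit 314) (nat_lit 224))))) (XT.nd (nat_lit 282) (nat_lit 1008) (nat_lit 0) (XT.nd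 (nat_lit 94) (nat_lit 0) (nat_lit 84) (XT.lf (nat_lit 84) (nat_lit 7817964901) (nat_lit 0) (nat_lit 1713057137) (nat_lit 1092) (nat_lit 2103030089) (nat_lit 132) (nat_lit 5) (nat_lit 131) (nat_lit 5) (nat_lit 144) (nat_lit 5) (nat_lit 327) (nat_lit 314) (nat_lit 223)) (XT.nd (nat_lit 94) (nat_lit 0) (nat_lit 0) (XT.lf (nat_lit 84) (nat_lit 963741173) (nat_lit 0) (nat_lit 9640585615) (nat_lit 1092) (nat_lit 1215698395) (nat_lit 133) (nat_lit 5) (nat_lit 132) (nat_lit 5) (nat_lit 145) (nat_lit 5) (nat_lit 328) (nat_lit 314) (nat_lit 222)) (XT.lf (nat_lit 84) (nat_lit 5940522543) (nat_lit 0) (nat_lit 5809208810) (nat_lit 1092) (nat_lit 260899454) (nat_lit 133) (nat_lit 5) (nat_lit 132) (nat_lit 5) (nat_lit 145) (nat_lit 5) (nat_lit 329) (nat_lit 314) (nat_lit 221)))) (XT.nd (nat_lit 94) (nat_lit 0) (nat_lit 84) (XT.lf (nat_lit 0) (nat_lit 690875597) (nat_lit 1092) (nat_lit 1156987952) (nat_lit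 1176) (nat_lit 10359685429) (nat_lit 119) (nat_lit 5) (nat_lit 132) (nat_lit 5) (nat_lit 133) (nat_lit 5) (nat_lit 330) (nat_lit 314) (nat_lit 220)) (XT.nd (nat_lit 94) (nat_lit 0) (nat_lit 0) (XT.lf (nat_lit 0) (nat_lit 1711286513) (nat_lit 1092) (nat_lit 8460549933) (nat_lit 84) (nat_lit 2237336220) (nat_lit 120) (nat_lit 5) (nat_lit 133) (nat_lit 5) (nat_lit 121) (nat_lit 5) (nat_lit 331) (nat_lit 314) (nat_lit 219)) (XT.lf (nat_lit 0) (nat_lit 2777350983) (nat_lit 1092) (nat_lit 3412968960) (nat_lit 84) (nat_lit 6426354985) (nat_lit 120) (nat_lit 5) (nat_lit 133) (nat_lit 5) (nat_lit 121) (nat_lit 5) (nat_lit 332) (nat_lit 314) (nat_lit 218))))))))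
noncomputable def xc148 : XT := (XT.nd (nat_lit 2256) (nat_lit 2436) (nat_lit 0) (XT.nd (nat_lit 1128) (nat_lit 2100) (nat_lit 0) (XT.nd (nat_lit 564) (nat_lit 1092) (nat_lit 0) (XT.nd (nat_lit 282) (nat_lit 1092) (nat_lit 0) (XT.nd (nat_lit 94) (nat_lit 0) (nat_lit 0) (XT.lf (nat_lit 0) (nat_lit 1813751589) (nat_lit 1092) (nat_lit 2064139443) (nat_lit 1176) (nat_lit 8952735470) (nat_lit 107) (nat_lit 5) (nat_lit 120) (nat_lit 5) (nat_lit 121) (nat_lit 5) (nat_lit 333) (nat_lit 314) (nat_lit 217)) (XT.nd (nat_lit 94) (nat_lit 0) (nat_lit 0) (XT.lf (nat_lit 0) (nat_lit 5054082364) (nat_lit 1176) (nat_lit 5811665446) (nat_lit 84) (nat_lit 2184234354) (nat_lit 107) (nat_lit 5) (nat_lit 121) (nat_lit 5) (nat_lit 108) (nat_lit 5) (nat_lit 334) (nat_lit 314) (nat_lit 216)) (XT.lf (nat_lit 0) (nat_lit 6272154570) (nat_lit 1176) (nat_lit 480098983) (nat_lit 84) (nat_lit 6523773694) (nat_lit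 107) (nat_lit 5) (nat_lit 121) (nat_lit 5) (nat_lit 108) (nat_lit 5) (nat_lit 335) (nat_lit 314) (nat_lit 215)))) (XT.nd (nat_lit 94) (nat_lit 588) (nat_lit 0) (XT.lf (nat_lit 0) (nat_lit 5106148076) (nat_lit 504) (nat_lit 2457272048) (nat_lit 588) (nat_lit 5944616834) (nat_lit 101) (nat_lit 5) (nat_lit 107) (nat_lit 5) (nat_lit 108) (nat_lit 5) (nat_lit 336) (nat_lit 314) (nat_lit 214)) (XT.nd (nat_lit 94) (nat_lit 588) (nat_lit 0) (XT.lf (nat_lit 0) (nat_lit 8904448776) (nat_lit 588) (nat_lit 2904809559) (nat_lit 84) (nat_lit 1937732867) (nat_lit 101) (nat_lit 5) (nat_lit 108) (nat_lit 5) (nat_lit 102) (nat_lit 5) (nat_lit 337) (nat_lit 314) (nat_lit 213)) (XT.lf (nat_lit 0) (nat_lit 2780106903) (nat_lit 588) (nat_lit 7545221182) (nat_lit 672) (nat_lit 3666890662) (nat_lit 94) (nat_lit 5) (nat_lit 101) (nat_lit 5) (nat_lit 102) (nat_lit 5) (nat_lit 338) (nat_lit 314) (nat_lit 212)))))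 (XT.nd (nat_lit 282) (nat_lit 504) (nat_lit 0) (XT.nd (nat_lit 94) (nat_lit 588) (nat_lit 0) (XT.lf (nat_lit 0) (nat_lit 8689519250) (nat_lit 588) (nat_lit 3116925153) (nat_lit 672) (nat_lit 2438152845) (nat_lit 94) (nat_lit 5) (nat_lit 101) (nat_lit 5) (nat_lit 102) (nat_lit 5) (nat_lit 339) (nat_lit 314) (nat_lit 211)) (XT.nd (nat_lit 94) (nat_lit 84) (nat_lit 0) (XT.lf (nat_lit 0) (nat_lit 254685970) (nat_lit 504) (nat_lit 13081988840) (nat_lit 588) (nat_lit 1168074748) (nat_lit 88) (nat_lit 5) (nat_lit 94) (nat_lit 5) (nat_lit 95) (nat_lit 5) (nat_lit 340) (nat_lit 314) (nat_lit 210)) (XT.lf (nat_lit 0) (nat_lit 215381281) (nat_lit 588) (nat_lit 8456314933) (nat_lit 84) (nat_lit 6098890769) (nat_lit 87) (nat_lit 5) (nat_lit 94) (nat_lit 5) (nat_lit 88) (nat_lit 5) (nat_lit 341) (nat_lit 314) (nat_lit 209)))) (XT.nd (nat_lit 94) (nat_lit 504) (nat_lit 0) (XT.lf (nat_lit 0) (nat_lit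 1604268207) (nat_lit 588) (nat_lit 2508087016) (nat_lit 84) (nat_lit 10932393716) (nat_lit 87) (nat_lit 5) (nat_lit 94) (nat_lit 5) (nat_lit 88) (nat_lit 5) (nat_lit 342) (nat_lit 314) (nat_lit 208)) (XT.nd (nat_lit 94) (nat_lit 0) (nat_lit 0) (XT.lf (nat_lit 0) (nat_lit 3066190825) (nat_lit 588) (nat_lit 11646910002) (nat_lit 84) (nat_lit 613423299) (nat_lit 81) (nat_lit 5) (nat_lit 88) (nat_lit 5) (nat_lit 82) (nat_lit 5) (nat_lit 343) (nat_lit 314) (nat_lit 207)) (XT.lf (nat_lit 0) (nat_lit 4629401935) (nat_lit 588) (nat_lit 5559330445) (nat_lit 84) (nat_lit 5426609214) (nat_lit 81) (nat_lit 5) (nat_lit 88) (nat_lit 5) (nat_lit 82) (nat_lit 5) (nat_lit 344) (nat_lit 314) (nat_lit 206)))))) (XT.nd (nat_lit 564) (nat_lit 840) (nat_lit 0) (XT.nd (nat_lit 282) (nat_lit 840) (nat_lit 0) (XT.nd (nat_lit 94) (nat_lit 0) (nat_lit 0) (XT.lf (nat_lit 0) (nat_lit 718754483) (nat_lit 420) (nat_lit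 5517287361) (nat_lit 504) (nat_lit 9677267525) (nat_lit 76) (nat_lit 5) (nat_lit 81) (nat_lit 5) (nat_lit 82) (nat_lit 5) (nat_lit 345) (nat_lit 314) (nat_lit 205)) (XT.nd (nat_lit 94) (nat_lit 0) (nat_lit 0) (XT.lf (nat_lit 0) (nat_lit 7296752515) (nat_lit 420) (nat_lit 641843236) (nat_lit 504) (nat_lit 8280528822) (nat_lit 76) (nat_lit 5) (nat_lit 81) (nat_lit 5) (nat_lit 82) (nat_lit 5) (nat_lit 346) (nat_lit 314) (nat_lit 204)) (XT.lf (nat_lit 0) (nat_lit 9725858365) (nat_lit 504) (nat_lit 2511824217) (nat_lit 84) (nat_lit 4295786236) (nat_lit 76) (nat_lit 5) (nat_lit 82) (nat_lit 5) (nat_lit 77) (nat_lit 5) (nat_lit 347) (nat_lit 314) (nat_lit 203)))) (XT.nd (nat_lit 94) (nat_lit 420) (nat_lit 0) (XT.lf (nat_lit 0) (nat_lit 4162554890) (nat_lit 420) (nat_lit 7442609025) (nat_lit 504) (nat_lit 5251295473) (nat_lit 71) (nat_lit 5) (nat_lit 76) (nat_lit 5) (nat_lit 77) (nat_lit 5)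 (nat_lit 348) (nat_lit 314) (nat_lit 202)) (XT.nd (nat_lit 94) (nat_lit 420) (nat_lit 0) (XT.lf (nat_lit 0) (nat_lit 11085015215) (nat_lit 420) (nat_lit 2472928784) (nat_lit 504) (nat_lit 3631083266) (nat_lit 71) (nat_lit 5) (nat_lit 76) (nat_lit 5) (nat_lit 77) (nat_lit 5) (nat_lit 349) (nat_lit 314) (nat_lit 201)) (XT.lf (nat_lit 0) (nat_lit 665206552) (nat_lit 420) (nat_lit 14928267299) (nat_lit 504) (nat_lit 1937777483) (nat_lit 66) (nat_lit 5) (nat_lit 71) (nat_lit 5) (nat_lit 72) (nat_lit 5) (nat_lit 350) (nat_lit 314) (nat_lit 200))))) (XT.nd (nat_lit 282) (nat_lit 336) (nat_lit 0) (XT.nd (nat_lit 94) (nat_lit 504) (nat_lit 0) (XT.lf (nat_lit 0) (nat_lit 7735916077) (nat_lit 420) (nat_lit 10034459561) (nat_lit 504) (nat_lit 111316474) (nat_lit 66) (nat_lit 5) (nat_lit 71) (nat_lit 5) (nat_lit 72) (nat_lit 5) (nat_lit 351) (nat_lit 314) (nat_lit 199)) (XT.nd (nat_lit 94) (nat_lit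 420) (nat_lit 0) (XT.lf (nat_lit 0) (nat_lit 1725767346) (nat_lit 504) (nat_lit 3246584263) (nat_lit 84) (nat_lit 13270451523) (nat_lit 65) (nat_lit 5) (nat_lit 71) (nat_lit 5) (nat_lit 66) (nat_lit 5) (nat_lit 352) (nat_lit 314) (nat_lit 198)) (XT.lf (nat_lit 0) (nat_lit 3649357883) (nat_lit 504) (nat_lit 14683933814) (nat_lit 84) (nat_lit 280824811) (nat_lit 60) (nat_lit 5) (nat_lit 66) (nat_lit 5) (nat_lit 61) (nat_lit 5) (nat_lit 353) (nat_lit 314) (nat_lit 197)))) (XT.nd (nat_lit 94) (nat_lit 336) (nat_lit 0) (XT.lf (nat_lit 0) (nat_lit 5707851115) (nat_lit 504) (nat_lit 7660512860) (nat_lit 84) (nat_lit 5626273434) (nat_lit 60) (nat_lit 5) (nat_lit 66) (nat_lit 5) (nat_lit 61) (nat_lit 5) (nat_lit 354) (nat_lit 314) (nat_lit 196)) (XT.nd (nat_lit 94) (nat_lit 336) (nat_lit 0) (XT.lf (nat_lit 0) (nat_lit 7820634511) (nat_lit 504) (nat_lit 430690817) (nat_lit 84) (nat_lit 11135953661)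 (nat_lit 60) (nat_lit 5) (nat_lit 66) (nat_lit 5) (nat_lit 61) (nat_lit 5) (nat_lit 355) (nat_lit 314) (nat_lit 195)) (XT.lf (nat_lit 0) (nat_lit 7156457943) (nat_lit 336) (nat_lit 2904212411) (nat_lit 420) (nat_lit 9729536097) (nat_lit 56) (nat_lit 5) (nat_lit 60) (nat_lit 5) (nat_lit 61) (nat_lit 5) (nat_lit 356) (nat_lit 314) (nat_lit 194))))))) (XT.nd (nat_lit 1128) (nat_lit 1092) (nat_lit 0) (XT.nd (nat_lit 564) (nat_lit 588) (nat_lit 0) (XT.nd (nat_lit 282) (nat_lit 420) (nat_lit 0) (XT.nd (nat_lit 94) (nat_lit 336) (nat_lit 0) (XT.lf (nat_lit 0) (nat_lit 12391482219) (nat_lit 420) (nat_lit 5254634758) (nat_lit 84) (nat_lit 2558873884) (nat_lit 56) (nat_lit 5) (nat_lit 61) (nat_lit 5) (nat_lit 57) (nat_lit 5) (nat_lit 357) (nat_lit 314) (nat_lit 193)) (XT.nd (nat_lit 94) (nat_lit 0) (nat_lit 0) (XT.lf (nat_lit 0) (nat_lit 2360253819) (nat_lit 336) (nat_lit 12478601028) (nat_lit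 420) (nat_lit 5792432016) (nat_lit 52) (nat_lit 5) (nat_lit 56) (nat_lit 5) (nat_lit 57) (nat_lit 5) (nat_lit 358) (nat_lit 314) (nat_lit 192)) (XT.lf (nat_lit 0) (nat_lit 10311880772) (nat_lit 336) (nat_lit 7096409805) (nat_lit 420) (nat_lit 3661101377) (nat_lit 52) (nat_lit 5) (nat_lit 56) (nat_lit 5) (nat_lit 57) (nat_lit 5) (nat_lit 359) (nat_lit 314) (nat_lit 191)))) (XT.nd (nat_lit 94) (nat_lit 420) (nat_lit 0) (XT.lf (nat_lit 0) (nat_lit 18499611783) (nat_lit 336) (nat_lit 1549374155) (nat_lit 420) (nat_lit 1472377710) (nat_lit 52) (nat_lit 5) (nat_lit 56) (nat_lit 5) (nat_lit 57) (nat_lit 5) (nat_lit 360) (nat_lit 314) (nat_lit 190)) (XT.nd (nat_lit 94) (nat_lit 0) (nat_lit 0) (XT.lf (nat_lit 0) (nat_lit 852052667) (nat_lit 420) (nat_lit 16990520276) (nat_lit 84) (nat_lit 4141962697) (nat_lit 47) (nat_lit 5) (nat_lit 52) (nat_lit 5) (nat_lit 48) (nat_lit 5) (nat_lit 361) (nat_lit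 314) (nat_lit 189)) (XT.lf (nat_lit 0) (nat_lit 3257544391) (nat_lit 420) (nat_lit 9180411790) (nat_lit 84) (nat_lit 10022438665) (nat_lit 47) (nat_lit 5) (nat_lit 52) (nat_lit 5) (nat_lit 48) (nat_lit 5) (nat_lit 362) (nat_lit 314) (nat_lit 188))))) (XT.nd (nat_lit 282) (nat_lit 252) (nat_lit 0) (XT.nd (nat_lit 94) (nat_lit 336) (nat_lit 0) (XT.lf (nat_lit 0) (nat_lit 5729729364) (nat_lit 420) (nat_lit 1138302961) (nat_lit 84) (nat_lit 16083239824) (nat_lit 47) (nat_lit 5) (nat_lit 52) (nat_lit 5) (nat_lit 48) (nat_lit 5) (nat_lit 363) (nat_lit 314) (nat_lit 187)) (XT.nd (nat_lit 94) (nat_lit 0) (nat_lit 0) (XT.lf (nat_lit 0) (nat_lit 7290183246) (nat_lit 336) (nat_lit 1053048194) (nat_lit 420) (nat_lit 15112151748) (nat_lit 43) (nat_lit 5) (nat_lit 47) (nat_lit 5) (nat_lit 48) (nat_lit 5) (nat_lit 364) (nat_lit 314) (nat_lit 186)) (XT.lf (nat_lit 0) (nat_lit 11091253789) (nat_lit 420)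 (nat_lit 8029759596) (nat_lit 84) (nat_lit 4852470685) (nat_lit 43) (nat_lit 5) (nat_lit 48) (nat_lit 5) (nat_lit 44) (nat_lit 5) (nat_lit 365) (nat_lit 314) (nat_lit 185)))) (XT.nd (nat_lit 94) (nat_lit 0) (nat_lit 0) (XT.lf (nat_lit 0) (nat_lit 344405676) (nat_lit 252) (nat_lit 13586943675) (nat_lit 336) (nat_lit 10576103630) (nat_lit 40) (nat_lit 5) (nat_lit 43) (nat_lit 5) (nat_lit 44) (nat_lit 5) (nat_lit 366) (nat_lit 314) (nat_lit 184)) (XT.nd (nat_lit 94) (nat_lit 0) (nat_lit 0) (XT.lf (nat_lit 0) (nat_lit 9138851852) (nat_lit 252) (nat_lit 7797272890) (nat_lit 336) (nat_lit 8119494156) (nat_lit 40) (nat_lit 5) (nat_lit 43) (nat_lit 5) (nat_lit 44) (nat_lit 5) (nat_lit 367) (nat_lit 314) (nat_lit 183)) (XT.lf (nat_lit 0) (nat_lit 18196667951) (nat_lit 252) (nat_lit 1830418671) (nat_lit 336) (nat_lit 5593926262) (nat_lit 40) (nat_lit 5) (nat_lit 43) (nat_lit 5) (nat_lit 44) (nat_lit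 5) (nat_lit 368) (nat_lit 314) (nat_lit 182)))))) (XT.nd (nat_lit 564) (nat_lit 504) (nat_lit 0) (XT.nd (nat_lit 282) (nat_lit 252) (nat_lit 0) (XT.nd (nat_lit 94) (nat_lit 84) (nat_lit 0) (XT.lf (nat_lit 0) (nat_lit 1305592836) (nat_lit 252) (nat_lit 21957321705) (nat_lit 336) (nat_lit 2939517654) (nat_lit 37) (nat_lit 5) (nat_lit 40) (nat_lit 5) (nat_lit 41) (nat_lit 5) (nat_lit 369) (nat_lit 314) (nat_lit 181)) (XT.nd (nat_lit 94) (nat_lit 84) (nat_lit 0) (XT.lf (nat_lit 0) (nat_lit 10435352754) (nat_lit 252) (nat_lit 16253065821) (nat_lit 336) (nat_lit 110704588) (nat_lit 37) (nat_lit 5) (nat_lit 40) (nat_lit 5) (nat_lit 41) (nat_lit 5) (nat_lit 370) (nat_lit 314) (nat_lit 180)) (XT.lf (nat_lit 0) (nat_lit 2742727306) (nat_lit 336) (nat_lit 7602980626) (nat_lit 84) (nat_lit 17067960544) (nat_lit 36) (nat_lit 5) (nat_lit 40) (nat_lit 5) (nat_lit 37) (nat_lit 5) (nat_lit 371) (nat_lit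 314) (nat_lit 179)))) (XT.nd (nat_lit 94) (nat_lit 0) (nat_lit 0) (XT.lf (nat_lit 0) (nat_lit 1448749789) (nat_lit 252) (nat_lit 4241591016) (nat_lit 336) (nat_lit 22356656434) (nat_lit 33) (nat_lit 5) (nat_lit 36) (nat_lit 5) (nat_lit 37) (nat_lit 5) (nat_lit 372) (nat_lit 314) (nat_lit 178)) (XT.nd (nat_lit 94) (nat_lit 0) (nat_lit 0) (XT.lf (nat_lit 0) (nat_lit 8823590069) (nat_lit 336) (nat_lit 17785199799) (nat_lit 84) (nat_lit 2088263190) (nat_lit 33) (nat_lit 5) (nat_lit 37) (nat_lit 5) (nat_lit 34) (nat_lit 5) (nat_lit 373) (nat_lit 314) (nat_lit 177)) (XT.lf (nat_lit 0) (nat_lit 12091274849) (nat_lit 336) (nat_lit 8750863100) (nat_lit 84) (nat_lit 8523981651) (nat_lit 33) (nat_lit 5) (nat_lit 37) (nat_lit 5) (nat_lit 34) (nat_lit 5) (nat_lit 374) (nat_lit 314) (nat_lit 176))))) (XT.nd (nat_lit 282) (nat_lit 252) (nat_lit 0) (XT.nd (nat_lit 94) (nat_lit 0) (nat_lit 0) (XT.lf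 (nat_lit 0) (nat_lit 566678001) (nat_lit 252) (nat_lit 14893307377) (nat_lit 336) (nat_lit 14595965250) (nat_lit 30) (nat_lit 5) (nat_lit 33) (nat_lit 5) (nat_lit 34) (nat_lit 5) (nat_lit 375) (nat_lit 314) (nat_lit 175)) (XT.nd (nat_lit 94) (nat_lit 0) (nat_lit 0) (XT.lf (nat_lit 0) (nat_lit 10350383042) (nat_lit 252) (nat_lit 8668285898) (nat_lit 336) (nat_lit 11745860170) (nat_lit 30) (nat_lit 5) (nat_lit 33) (nat_lit 5) (nat_lit 34) (nat_lit 5) (nat_lit 376) (nat_lit 314) (nat_lit 174)) (XT.lf (nat_lit 0) (nat_lit 20429435769) (nat_lit 252) (nat_lit 2252612203) (nat_lit 336) (nat_lit 8813213978) (nat_lit 30) (nat_lit 5) (nat_lit 33) (nat_lit 5) (nat_lit 34) (nat_lit 5) (nat_lit 377) (nat_lit 314) (nat_lit 173)))) (XT.nd (nat_lit 94) (nat_lit 252) (nat_lit 0) (XT.lf (nat_lit 0) (nat_lit 26496785829) (nat_lit 336) (nat_lit 1478848054) (nat_lit 84) (nat_lit 4271855673) (nat_lit 30)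 (nat_lit 5) (nat_lit 34) (nat_lit 5) (nat_lit 31) (nat_lit 5) (nat_lit 378) (nat_lit 314) (nat_lit 172)) (XT.nd (nat_lit 94) (nat_lit 84) (nat_lit 0) (XT.lf (nat_lit 0) (nat_lit 8546855535) (nat_lit 168) (nat_lit 21985437510) (nat_lit 252) (nat_lit 2487578540) (nat_lit 28) (nat_lit 5) (nat_lit 30) (nat_lit 5) (nat_lit 31) (nat_lit 5) (nat_lit 379) (nat_lit 314) (nat_lit 171)) (XT.lf (nat_lit 0) (nat_lit 869340342) (nat_lit 252) (nat_lit 14917543157) (nat_lit 84) (nat_lit 18028737507) (nat_lit 27) (nat_lit 5) (nat_lit 30) (nat_lit 5) (nat_lit 28) (nat_lit 5) (nat_lit 380) (nat_lit 314) (nat_lit 170))))))))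
noncomputable def xc149 : XT := (XT.nd (nat_lit 2256) (nat_lit 168) (nat_lit 0) (XT.nd (nat_lit 1128) (nat_lit 504) (nat_lit 0) (XT.nd (nat_lit 564) (nat_lit 252) (nat_lit 0) (XT.nd (nat_lit 282) (nat_lit 168) (nat_lit 0) (XT.nd (nat_lit 94) (nat_lit 252) (nat_lit 0) (XT.lf (nat_lit 0) (nat_lit 4273516442) (nat_lit 252) (nat_lit 5098737953) (nat_lit 84) (nat_lit 25263166822) (nat_lit 27) (nat_lit 5) (nat_lit 30) (nat_lit 5) (nat_lit 28) (nat_lit 5) (nat_lit 381) (nat_lit 314) (nat_lit 169)) (XT.nd (nat_lit 94) (nat_lit 0) (nat_lit 0) (XT.lf (nat_lit 0) (nat_lit 5120393318) (nat_lit 252) (nat_lit 2708643586) (nat_lit 336) (nat_lit 27650189797) (nat_lit 24) (nat_lit 5) (nat_lit 27) (nat_lit 5) (nat_lit 28) (nat_lit 5) (nat_lit 382) (nat_lit 314) (nat_lit 168)) (XT.lf (nat_lit 0) (nat_lit 11584902677) (nat_lit 336) (nat_lit 20632248724) (nat_lit 84) (nat_lit 4129256284) (nat_lit 24) (nat_lit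 5) (nat_lit 28) (nat_lit 5) (nat_lit 25) (nat_lit 5) (nat_lit 383) (nat_lit 314) (nat_lit 167)))) (XT.nd (nat_lit 94) (nat_lit 168) (nat_lit 0) (XT.lf (nat_lit 0) (nat_lit 15480127884) (nat_lit 336) (nat_lit 10638913140) (nat_lit 84) (nat_lit 11120730535) (nat_lit 24) (nat_lit 5) (nat_lit 28) (nat_lit 5) (nat_lit 25) (nat_lit 5) (nat_lit 384) (nat_lit 314) (nat_lit 166)) (XT.nd (nat_lit 94) (nat_lit 168) (nat_lit 0) (XT.lf (nat_lit 0) (nat_lit 19491473205) (nat_lit 336) (nat_lit 342641715) (nat_lit 84) (nat_lit 18326869086) (nat_lit 24) (nat_lit 5) (nat_lit 28) (nat_lit 5) (nat_lit 25) (nat_lit 5) (nat_lit 385) (nat_lit 314) (nat_lit 165)) (XT.lf (nat_lit 0) (nat_lit 10477256114) (nat_lit 168) (nat_lit 13249357196) (nat_lit 252) (nat_lit 15381068375) (nat_lit 22) (nat_lit 5) (nat_lit 24) (nat_lit 5) (nat_lit 25) (nat_lit 5) (nat_lit 386) (nat_lit 314) (nat_lit 164))))) (XT.nd (nat_lit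 282) (nat_lit 84) (nat_lit 0) (XT.nd (nat_lit 94) (nat_lit 168) (nat_lit 0) (XT.lf (nat_lit 0) (nat_lit 21633250570) (nat_lit 168) (nat_lit 6458945836) (nat_lit 252) (nat_lit 11991566892) (nat_lit 22) (nat_lit 5) (nat_lit 24) (nat_lit 5) (nat_lit 25) (nat_lit 5) (nat_lit 387) (nat_lit 314) (nat_lit 163)) (XT.nd (nat_lit 94) (nat_lit 168) (nat_lit 0) (XT.lf (nat_lit 0) (nat_lit 32594178334) (nat_lit 252) (nat_lit 7966907002) (nat_lit 84) (nat_lit 528994836) (nat_lit 22) (nat_lit 5) (nat_lit 25) (nat_lit 5) (nat_lit 23) (nat_lit 5) (nat_lit 388) (nat_lit 314) (nat_lit 162)) (XT.lf (nat_lit 0) (nat_lit 2826261206) (nat_lit 168) (nat_lit 34499376150) (nat_lit 252) (nat_lit 4799177600) (nat_lit 20) (nat_lit 5) (nat_lit 22) (nat_lit 5) (nat_lit 23) (nat_lit 5) (nat_lit 389) (nat_lit 314) (nat_lit 161)))) (XT.nd (nat_lit 94) (nat_lit 84) (nat_lit 0) (XT.lf (nat_lit 0) (nat_lit 14116663440)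 (nat_lit 168) (nat_lit 28166149040) (nat_lit 252) (nat_lit 906372960) (nat_lit 20) (nat_lit 5) (nat_lit 22) (nat_lit 5) (nat_lit 23) (nat_lit 5) (nat_lit 390) (nat_lit 314) (nat_lit 160)) (XT.nd (nat_lit 94) (nat_lit 0) (nat_lit 0) (XT.lf (nat_lit 0) (nat_lit 3040464232) (nat_lit 252) (nat_lit 18566458502) (nat_lit 84) (nat_lit 22678807146) (nat_lit 19) (nat_lit 5) (nat_lit 22) (nat_lit 5) (nat_lit 20) (nat_lit 5) (nat_lit 391) (nat_lit 314) (nat_lit 159)) (XT.lf (nat_lit 0) (nat_lit 7086904371) (nat_lit 252) (nat_lit 7749944443) (nat_lit 84) (nat_lit 30579260963) (nat_lit 19) (nat_lit 5) (nat_lit 22) (nat_lit 5) (nat_lit 20) (nat_lit 5) (nat_lit 392) (nat_lit 314) (nat_lit 158)))))) (XT.nd (nat_lit 564) (nat_lit 168) (nat_lit 0) (XT.nd (nat_lit 282) (nat_lit 168) (nat_lit 0) (XT.nd (nat_lit 94) (nat_lit 0) (nat_lit 0) (XT.lf (nat_lit 0) (nat_lit 3465924282) (nat_lit 168) (nat_lit 7823438672)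 (nat_lit 252) (nat_lit 35291228685) (nat_lit 17) (nat_lit 5) (nat_lit 19) (nat_lit 5) (nat_lit 20) (nat_lit 5) (nat_lit 393) (nat_lit 314) (nat_lit 157)) (XT.nd (nat_lit 94) (nat_lit 0) (nat_lit 0) (XT.lf (nat_lit 0) (nat_lit 15188050366) (nat_lit 168) (nat_lit 511194846) (nat_lit 252) (nat_lit 32079543544) (nat_lit 17) (nat_lit 5) (nat_lit 19) (nat_lit 5) (nat_lit 20) (nat_lit 5) (nat_lit 394) (nat_lit 314) (nat_lit 156)) (XT.lf (nat_lit 0) (nat_lit 20311897245) (nat_lit 252) (nat_lit 21815941821) (nat_lit 84) (nat_lit 6884250603) (nat_lit 17) (nat_lit 5) (nat_lit 20) (nat_lit 5) (nat_lit 18) (nat_lit 5) (nat_lit 395) (nat_lit 314) (nat_lit 155)))) (XT.nd (nat_lit 94) (nat_lit 168) (nat_lit 0) (XT.lf (nat_lit 0) (nat_lit 25069227121) (nat_lit 252) (nat_lit 10717843005) (nat_lit 84) (nat_lit 14496507951) (nat_lit 17) (nat_lit 5) (nat_lit 20) (nat_lit 5) (nat_lit 18) (nat_lit 5) (nat_lit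 396) (nat_lit 314) (nat_lit 154)) (XT.nd (nat_lit 94) (nat_lit 0) (nat_lit 0) (XT.lf (nat_lit 0) (nat_lit 733757340) (nat_lit 168) (nat_lit 29244119678) (nat_lit 252) (nat_lit 21616493677) (nat_lit 15) (nat_lit 5) (nat_lit 17) (nat_lit 5) (nat_lit 18) (nat_lit 5) (nat_lit 397) (nat_lit 314) (nat_lit 153)) (XT.lf (nat_lit 0) (nat_lit 12762300718) (nat_lit 168) (nat_lit 22384881521) (nat_lit 252) (nat_lit 17795259523) (nat_lit 15) (nat_lit 5) (nat_lit 17) (nat_lit 5) (nat_lit 18) (nat_lit 5) (nat_lit 398) (nat_lit 314) (nat_lit 152))))) (XT.nd (nat_lit 282) (nat_lit 168) (nat_lit 0) (XT.nd (nat_lit 94) (nat_lit 0) (nat_lit 0) (XT.lf (nat_lit 0) (nat_lit 25158618158) (nat_lit 168) (nat_lit 15314834428) (nat_lit 252) (nat_lit 13858959004) (nat_lit 15) (nat_lit 5) (nat_lit 17) (nat_lit 5) (nat_lit 18) (nat_lit 5) (nat_lit 399) (nat_lit 314) (nat_lit 151)) (XT.nd (nat_lit 94) (nat_lit 0) (nat_lit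 0) (XT.lf (nat_lit 0) (nat_lit 37934264324) (nat_lit 168) (nat_lit 8027388372) (nat_lit 252) (nat_lit 9803923074) (nat_lit 15) (nat_lit 5) (nat_lit 17) (nat_lit 5) (nat_lit 18) (nat_lit 5) (nat_lit 400) (nat_lit 314) (nat_lit 150)) (XT.lf (nat_lit 0) (nat_lit 51101147459) (nat_lit 168) (nat_lit 515750692) (nat_lit 252) (nat_lit 5626372016) (nat_lit 15) (nat_lit 5) (nat_lit 17) (nat_lit 5) (nat_lit 18) (nat_lit 5) (nat_lit 401) (nat_lit 314) (nat_lit 149)))) (XT.nd (nat_lit 94) (nat_lit 84) (nat_lit 0) (XT.lf (nat_lit 0) (nat_lit 5952912726) (nat_lit 84) (nat_lit 51622294665) (nat_lit 168) (nat_lit 1187611589) (nat_lit 14) (nat_lit 5) (nat_lit 15) (nat_lit 5) (nat_lit 16) (nat_lit 4) (nat_lit 402) (nat_lit 314) (nat_lit 148)) (XT.nd (nat_lit 94) (nat_lit 0) (nat_lit 0) (XT.lf (nat_lit 0) (nat_lit 3387511643) (nat_lit 168) (nat_lit 41818695331) (nat_lit 84) (nat_lit 15120152379) (nat_lit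 13) (nat_lit 5) (nat_lit 15) (nat_lit 5) (nat_lit 14) (nat_lit 5) (nat_lit 403) (nat_lit 314) (nat_lit 147)) (XT.lf (nat_lit 0) (nat_lit 8076879774) (nat_lit 168) (nat_lit 30503525605) (nat_lit 84) (nat_lit 23357683541) (nat_lit 13) (nat_lit 5) (nat_lit 15) (nat_lit 5) (nat_lit 14) (nat_lit 5) (nat_lit 404) (nat_lit 314) (nat_lit 146))))))) (XT.nd (nat_lit 46154) (nat_lit 0) (nat_lit 9072) (XT.nd (nat_lit 564) (nat_lit 0) (nat_lit 0) (XT.nd (nat_lit 282) (nat_lit 0) (nat_lit 0) (XT.nd (nat_lit 94) (nat_lit 168) (nat_lit 0) (XT.lf (nat_lit 0) (nat_lit 12908791511) (nat_lit 168) (nat_lit 18842068902) (nat_lit 84) (nat_lit 31849014791) (nat_lit 13) (nat_lit 5) (nat_lit 15) (nat_lit 5) (nat_lit 14) (nat_lit 5) (nat_lit 405) (nat_lit 314) (nat_lit 145)) (XT.nd (nat_lit 94) (nat_lit 168) (nat_lit 0) (XT.lf (nat_lit 0) (nat_lit 17887750703) (nat_lit 168) (nat_lit 6823455521) (nat_lit 84) (nat_lit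 40602060940) (nat_lit 13) (nat_lit 5) (nat_lit 15) (nat_lit 5) (nat_lit 14) (nat_lit 5) (nat_lit 406) (nat_lit 314) (nat_lit 144)) (XT.lf (nat_lit 0) (nat_lit 5677914466) (nat_lit 168) (nat_lit 17396809408) (nat_lit 252) (nat_lit 44003391889) (nat_lit 11) (nat_lit 5) (nat_lit 13) (nat_lit 5) (nat_lit 14) (nat_lit 5) (nat_lit 407) (nat_lit 314) (nat_lit 143)))) (XT.nd (nat_lit 94) (nat_lit 0) (nat_lit 0) (XT.lf (nat_lit 0) (nat_lit 18707305566) (nat_lit 168) (nat_lit 9783789706) (nat_lit 252) (nat_lit 40404457725) (nat_lit 11) (nat_lit 5) (nat_lit 13) (nat_lit 5) (nat_lit 14) (nat_lit 5) (nat_lit 408) (nat_lit 314) (nat_lit 142)) (XT.nd (nat_lit 94) (nat_lit 0) (nat_lit 0) (XT.lf (nat_lit 0) (nat_lit 32136558293) (nat_lit 168) (nat_lit 1936273867) (nat_lit 252) (nat_lit 36696582266) (nat_lit 11) (nat_lit 5) (nat_lit 13) (nat_lit 5) (nat_lit 14) (nat_lit 5) (nat_lit 409) (nat_lit 314)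 (nat_lit 141)) (XT.lf (nat_lit 0) (nat_lit 39886176351) (nat_lit 252) (nat_lit 26784295614) (nat_lit 84) (nat_lit 6029082513) (nat_lit 11) (nat_lit 5) (nat_lit 14) (nat_lit 5) (nat_lit 12) (nat_lit 4) (nat_lit 410) (nat_lit 314) (nat_lit 140))))) (XT.nd (nat_lit 45308) (nat_lit 0) (nat_lit 9744) (XT.nd (nat_lit 94) (nat_lit 0) (nat_lit 0) (XT.lf (nat_lit 0) (nat_lit 45897132216) (nat_lit 252) (nat_lit 14592107502) (nat_lit 84) (nat_lit 14199754368) (nat_lit 11) (nat_lit 5) (nat_lit 14) (nat_lit 5) (nat_lit 12) (nat_lit 4) (nat_lit 411) (nat_lit 314) (nat_lit 139)) (XT.nd (nat_lit 45120) (nat_lit 0) (nat_lit 9744) (XT.lf (nat_lit 0) (nat_lit 52092094519) (nat_lit 252) (nat_lit 2025719325) (nat_lit 84) (nat_lit 22622369222) (nat_lit 11) (nat_lit 5) (nat_lit 14) (nat_lit 5) (nat_lit 12) (nat_lit 4) (nat_lit 412) (nat_lit 314) (nat_lit 138)) (XT.lf (nat_lit 0) (nat_lit 66178695) (nat_lit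 1092) (nat_lit 2443947453) (nat_lit 1092) (nat_lit 2443947453) (nat_lit 127) (nat_lit 3) (nat_lit 140) (nat_lit 3) (nat_lit 140) (nat_lit 5) (nat_lit 315) (nat_lit 315) (nat_lit 234)))) (XT.nd (nat_lit 94) (nat_lit 0) (nat_lit 84) (XT.lf (nat_lit 0) (nat_lit 758647343) (nat_lit 1092) (nat_lit 1038688987) (nat_lit 1092) (nat_lit 8242568734) (nat_lit 127) (nat_lit 3) (nat_lit 140) (nat_lit 3) (nat_lit 140) (nat_lit 5) (nat_lit 316) (nat_lit 315) (nat_lit 233)) (XT.nd (nat_lit 94) (nat_lit 0) (nat_lit 0) (XT.lf (nat_lit 0) (nat_lit 1424283977) (nat_lit 1008) (nat_lit 7214465015) (nat_lit 1092) (nat_lit 1536479952) (nat_lit 128) (nat_lit 5) (nat_lit 140) (nat_lit 5) (nat_lit 141) (nat_lit 5) (nat_lit 317) (nat_lit 315) (nat_lit 232)) (XT.lf (nat_lit 0) (nat_lit 2115480499) (nat_lit 1008) (nat_lit 3240542643) (nat_lit 1092) (nat_lit 4958668462) (nat_lit 128) (nat_lit 5) (nat_lit 140) (nat_lit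 5) (nat_lit 141) (nat_lit 5) (nat_lit 318) (nat_lit 315) (nat_lit 231)))))) (XT.nd (nat_lit 564) (nat_lit 756) (nat_lit 0) (XT.nd (nat_lit 282) (nat_lit 0) (nat_lit 84) (XT.nd (nat_lit 94) (nat_lit 0) (nat_lit 84) (XT.lf (nat_lit 84) (nat_lit 860467460) (nat_lit 0) (nat_lit 1952496516) (nat_lit 1092) (nat_lit 7646076499) (nat_lit 129) (nat_lit 5) (nat_lit 128) (nat_lit 5) (nat_lit 141) (nat_lit 5) (nat_lit 319) (nat_lit 315) (nat_lit 230)) (XT.nd (nat_lit 94) (nat_lit 0) (nat_lit 0) (XT.lf (nat_lit 0) (nat_lit 3558682037) (nat_lit 1008) (nat_lit 5479504047) (nat_lit 1092) (nat_lit 1568943796) (nat_lit 129) (nat_lit 5) (nat_lit 141) (nat_lit 5) (nat_lit 142) (nat_lit 5) (nat_lit 320) (nat_lit 315) (nat_lit 229)) (XT.lf (nat_lit 0) (nat_lit 4325179302) (nat_lit 1008) (nat_lit 1266494299) (nat_lit 1092) (nat_lit 5168296919) (nat_lit 129) (nat_lit 5) (nat_lit 141) (nat_lit 5) (nat_lit 142)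 (nat_lit 5) (nat_lit 321) (nat_lit 315) (nat_lit 228)))) (XT.nd (nat_lit 94) (nat_lit 0) (nat_lit 84) (XT.lf (nat_lit 84) (nat_lit 3126749233) (nat_lit 0) (nat_lit 1998069727) (nat_lit 1092) (nat_lit 5792524786) (nat_lit 130) (nat_lit 5) (nat_lit 129) (nat_lit 5) (nat_lit 142) (nat_lit 5) (nat_lit 322) (nat_lit 315) (nat_lit 227)) (XT.nd (nat_lit 94) (nat_lit 0) (nat_lit 0) (XT.lf (nat_lit 0) (nat_lit 5958496058) (nat_lit 1008) (nat_lit 3427268494) (nat_lit 1092) (nat_lit 1693627054) (nat_lit 130) (nat_lit 5) (nat_lit 142) (nat_lit 5) (nat_lit 143) (nat_lit 5) (nat_lit 323) (nat_lit 315) (nat_lit 226)) (XT.lf (nat_lit 84) (nat_lit 1058588774) (nat_lit 0) (nat_lit 5769958648) (nat_lit 1092) (nat_lit 4417669372) (nat_lit 131) (nat_lit 5) (nat_lit 130) (nat_lit 5) (nat_lit 143) (nat_lit 5) (nat_lit 324) (nat_lit 315) (nat_lit 225))))) (XT.nd (nat_lit 282) (nat_lit 924) (nat_lit 0) (XT.nd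 (nat_lit 94) (nat_lit 0) (nat_lit 84) (XT.lf (nat_lit 84) (nat_lit 5742677338) (nat_lit 0) (nat_lit 1998739881) (nat_lit 1092) (nat_lit 3676382960) (nat_lit 131) (nat_lit 5) (nat_lit 130) (nat_lit 5) (nat_lit 143) (nat_lit 5) (nat_lit 325) (nat_lit 315) (nat_lit 224)) (XT.nd (nat_lit 94) (nat_lit 0) (nat_lit 0) (XT.lf (nat_lit 0) (nat_lit 8682063242) (nat_lit 1008) (nat_lit 1055290664) (nat_lit 1092) (nat_lit 1857440476) (nat_lit 131) (nat_lit 5) (nat_lit 143) (nat_lit 5) (nat_lit 144) (nat_lit 5) (nat_lit 326) (nat_lit 315) (nat_lit 223)) (XT.lf (nat_lit 84) (nat_lit 3749454821) (nat_lit 0) (nat_lit 5941365522) (nat_lit 1092) (nat_lit 2085320835) (nat_lit 132) (nat_lit 5) (nat_lit 131) (nat_lit 5) (nat_lit 144) (nat_lit 5) (nat_lit 327) (nat_lit 315) (nat_lit 222)))) (XT.nd (nat_lit 94) (nat_lit 1008) (nat_lit 0) (XT.lf (nat_lit 84) (nat_lit 8712252469) (nat_lit 0) (nat_lit 2011355362)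 (nat_lit 1092) (nat_lit 1239797422) (nat_lit 132) (nat_lit 5) (nat_lit 131) (nat_lit 5) (nat_lit 144) (nat_lit 5) (nat_lit 328) (nat_lit 315) (nat_lit 221)) (XT.nd (nat_lit 94) (nat_lit 1092) (nat_lit 0) (XT.lf (nat_lit 84) (nat_lit 1672340897) (nat_lit 0) (nat_lit 10135243305) (nat_lit 1092) (nat_lit 348364881) (nat_lit 133) (nat_lit 5) (nat_lit 132) (nat_lit 5) (nat_lit 145) (nat_lit 5) (nat_lit 329) (nat_lit 315) (nat_lit 220)) (XT.lf (nat_lit 0) (nat_lit 596554392) (nat_lit 1092) (nat_lit 5576425343) (nat_lit 1176) (nat_lit 6180213499) (nat_lit 119) (nat_lit 5) (nat_lit 132) (nat_lit 5) (nat_lit 133) (nat_lit 5) (nat_lit 330) (nat_lit 315) (nat_lit 219))))))))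
noncomputable def xc150 : XT := (XT.nd (nat_lit 2256) (nat_lit 2520) (nat_lit 0) (XT.nd (nat_lit 1128) (nat_lit 2268) (nat_lit 0) (XT.nd (nat_lit 564) (nat_lit 1176) (nat_lit 0) (XT.nd (nat_lit 282) (nat_lit 1512) (nat_lit 0) (XT.nd (nat_lit 94) (nat_lit 0) (nat_lit 84) (XT.lf (nat_lit 0) (nat_lit 1546552910) (nat_lit 1092) (nat_lit 534088438) (nat_lit 1176) (nat_lit 10476389321) (nat_lit 119) (nat_lit 5) (nat_lit 132) (nat_lit 5) (nat_lit 133) (nat_lit 5) (nat_lit 331) (nat_lit 315) (nat_lit 218)) (XT.nd (nat_lit 94) (nat_lit 0) (nat_lit 0) (XT.lf (nat_lit 0) (nat_lit 2578358582) (nat_lit 1092) (nat_lit 8040825516) (nat_lit 84) (nat_lit 2146440889) (nat_lit 120) (nat_lit 5) (nat_lit 133) (nat_lit 5) (nat_lit 121) (nat_lit 5) (nat_lit 332) (nat_lit 315) (nat_lit 217)) (XT.lf (nat_lit 0) (nat_lit 3652995118) (nat_lit 1092) (nat_lit 2857275881) (nat_lit 84) (nat_lit 6470137700) (nat_lit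 120) (nat_lit 5) (nat_lit 133) (nat_lit 5) (nat_lit 121) (nat_lit 5) (nat_lit 333) (nat_lit 315) (nat_lit 216)))) (XT.nd (nat_lit 94) (nat_lit 504) (nat_lit 0) (XT.lf (nat_lit 0) (nat_lit 2524775962) (nat_lit 1092) (nat_lit 2245631630) (nat_lit 1176) (nat_lit 8431207166) (nat_lit 107) (nat_lit 5) (nat_lit 120) (nat_lit 5) (nat_lit 121) (nat_lit 5) (nat_lit 334) (nat_lit 315) (nat_lit 215)) (XT.nd (nat_lit 94) (nat_lit 504) (nat_lit 0) (XT.lf (nat_lit 0) (nat_lit 5958708757) (nat_lit 1176) (nat_lit 5329630283) (nat_lit 84) (nat_lit 2140271106) (nat_lit 107) (nat_lit 5) (nat_lit 121) (nat_lit 5) (nat_lit 108) (nat_lit 5) (nat_lit 335) (nat_lit 315) (nat_lit 214)) (XT.lf (nat_lit 0) (nat_lit 150332745) (nat_lit 504) (nat_lit 7043210498) (nat_lit 588) (nat_lit 6468852556) (nat_lit 101) (nat_lit 5) (nat_lit 107) (nat_lit 5) (nat_lit 108) (nat_lit 5) (nat_lit 336) (nat_lit 315) (nat_lit 213)))))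 (XT.nd (nat_lit 282) (nat_lit 588) (nat_lit 0) (XT.nd (nat_lit 94) (nat_lit 588) (nat_lit 0) (XT.lf (nat_lit 0) (nat_lit 5900222026) (nat_lit 504) (nat_lit 2607618661) (nat_lit 588) (nat_lit 5394363805) (nat_lit 101) (nat_lit 5) (nat_lit 107) (nat_lit 5) (nat_lit 108) (nat_lit 5) (nat_lit 337) (nat_lit 315) (nat_lit 212)) (XT.nd (nat_lit 94) (nat_lit 588) (nat_lit 0) (XT.lf (nat_lit 0) (nat_lit 9868380725) (nat_lit 588) (nat_lit 2353635806) (nat_lit 84) (nat_lit 1927311028) (nat_lit 101) (nat_lit 5) (nat_lit 108) (nat_lit 5) (nat_lit 102) (nat_lit 5) (nat_lit 338) (nat_lit 315) (nat_lit 211)) (XT.lf (nat_lit 0) (nat_lit 3501021261) (nat_lit 588) (nat_lit 7817899117) (nat_lit 672) (nat_lit 3083757814) (nat_lit 94) (nat_lit 5) (nat_lit 101) (nat_lit 5) (nat_lit 102) (nat_lit 5) (nat_lit 339) (nat_lit 315) (nat_lit 210)))) (XT.nd (nat_lit 94) (nat_lit 588) (nat_lit 0) (XT.lf (nat_lit 0)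 (nat_lit 9574540364) (nat_lit 588) (nat_lit 3251159996) (nat_lit 672) (nat_lit 1837880628) (nat_lit 94) (nat_lit 5) (nat_lit 101) (nat_lit 5) (nat_lit 102) (nat_lit 5) (nat_lit 340) (nat_lit 315) (nat_lit 209)) (XT.nd (nat_lit 94) (nat_lit 84) (nat_lit 0) (XT.lf (nat_lit 0) (nat_lit 894733692) (nat_lit 504) (nat_lit 13494901331) (nat_lit 588) (nat_lit 542659311) (nat_lit 88) (nat_lit 5) (nat_lit 94) (nat_lit 5) (nat_lit 95) (nat_lit 5) (nat_lit 341) (nat_lit 315) (nat_lit 208)) (XT.lf (nat_lit 0) (nat_lit 850860690) (nat_lit 588) (nat_lit 8090243908) (nat_lit 84) (nat_lit 6265735347) (nat_lit 87) (nat_lit 5) (nat_lit 94) (nat_lit 5) (nat_lit 88) (nat_lit 5) (nat_lit 342) (nat_lit 315) (nat_lit 207)))))) (XT.nd (nat_lit 564) (nat_lit 1344) (nat_lit 0) (XT.nd (nat_lit 282) (nat_lit 420) (nat_lit 0) (XT.nd (nat_lit 94) (nat_lit 504) (nat_lit 0) (XT.lf (nat_lit 0) (nat_lit 2263896340) (nat_lit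 588) (nat_lit 1976510083) (nat_lit 84) (nat_lit 11249745025) (nat_lit 87) (nat_lit 5) (nat_lit 94) (nat_lit 5) (nat_lit 88) (nat_lit 5) (nat_lit 343) (nat_lit 315) (nat_lit 206)) (XT.nd (nat_lit 94) (nat_lit 0) (nat_lit 0) (XT.lf (nat_lit 0) (nat_lit 3758839414) (nat_lit 588) (nat_lit 11384321978) (nat_lit 84) (nat_lit 637944027) (nat_lit 81) (nat_lit 5) (nat_lit 88) (nat_lit 5) (nat_lit 82) (nat_lit 5) (nat_lit 344) (nat_lit 315) (nat_lit 205)) (XT.lf (nat_lit 0) (nat_lit 5352541595) (nat_lit 588) (nat_lit 5126779063) (nat_lit 84) (nat_lit 5600173193) (nat_lit 81) (nat_lit 5) (nat_lit 88) (nat_lit 5) (nat_lit 82) (nat_lit 5) (nat_lit 345) (nat_lit 315) (nat_lit 204)))) (XT.nd (nat_lit 94) (nat_lit 0) (nat_lit 0) (XT.lf (nat_lit 0) (nat_lit 1339802522) (nat_lit 420) (nat_lit 5657696458) (nat_lit 504) (nat_lit 9389614565) (nat_lit 76) (nat_lit 5) (nat_lit 81) (nat_lit 5) (nat_lit 82)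 (nat_lit 5) (nat_lit 346) (nat_lit 315) (nat_lit 203)) (XT.nd (nat_lit 94) (nat_lit 0) (nat_lit 0) (XT.lf (nat_lit 0) (nat_lit 8103714841) (nat_lit 420) (nat_lit 632034448) (nat_lit 504) (nat_lit 7967246309) (nat_lit 76) (nat_lit 5) (nat_lit 81) (nat_lit 5) (nat_lit 82) (nat_lit 5) (nat_lit 347) (nat_lit 315) (nat_lit 202)) (XT.lf (nat_lit 0) (nat_lit 10562133744) (nat_lit 504) (nat_lit 2008323019) (nat_lit 84) (nat_lit 4457187830) (nat_lit 76) (nat_lit 5) (nat_lit 82) (nat_lit 5) (nat_lit 77) (nat_lit 5) (nat_lit 348) (nat_lit 315) (nat_lit 201))))) (XT.nd (nat_lit 282) (nat_lit 504) (nat_lit 0) (XT.nd (nat_lit 94) (nat_lit 420) (nat_lit 0) (XT.lf (nat_lit 0) (nat_lit 4867076013) (nat_lit 420) (nat_lit 7622251082) (nat_lit 504) (nat_lit 4871695900) (nat_lit 71) (nat_lit 5) (nat_lit 76) (nat_lit 5) (nat_lit 77) (nat_lit 5) (nat_lit 349) (nat_lit 315) (nat_lit 200)) (XT.nd (nat_lit 94)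 (nat_lit 420) (nat_lit 0) (XT.lf (nat_lit 0) (nat_lit 11986829079) (nat_lit 420) (nat_lit 2500046587) (nat_lit 504) (nat_lit 3217565632) (nat_lit 71) (nat_lit 5) (nat_lit 76) (nat_lit 5) (nat_lit 77) (nat_lit 5) (nat_lit 350) (nat_lit 315) (nat_lit 199)) (XT.lf (nat_lit 0) (nat_lit 1255137985) (nat_lit 420) (nat_lit 15321199682) (nat_lit 504) (nat_lit 1481271350) (nat_lit 66) (nat_lit 5) (nat_lit 71) (nat_lit 5) (nat_lit 72) (nat_lit 5) (nat_lit 351) (nat_lit 315) (nat_lit 198)))) (XT.nd (nat_lit 94) (nat_lit 420) (nat_lit 0) (XT.lf (nat_lit 0) (nat_lit 378494927) (nat_lit 504) (nat_lit 9895338325) (nat_lit 84) (nat_lit 8145475912) (nat_lit 65) (nat_lit 5) (nat_lit 71) (nat_lit 5) (nat_lit 66) (nat_lit 5) (nat_lit 352) (nat_lit 315) (nat_lit 197)) (XT.nd (nat_lit 94) (nat_lit 420) (nat_lit 0) (XT.lf (nat_lit 0) (nat_lit 2255454212) (nat_lit 504) (nat_lit 2800362941) (nat_lit 84) (nat_lit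 13736265837) (nat_lit 65) (nat_lit 5) (nat_lit 71) (nat_lit 5) (nat_lit 66) (nat_lit 5) (nat_lit 353) (nat_lit 315) (nat_lit 196)) (XT.lf (nat_lit 0) (nat_lit 4230463101) (nat_lit 504) (nat_lit 14582616825) (nat_lit 84) (nat_lit 362126414) (nat_lit 60) (nat_lit 5) (nat_lit 66) (nat_lit 5) (nat_lit 61) (nat_lit 5) (nat_lit 354) (nat_lit 315) (nat_lit 195))))))) (XT.nd (nat_lit 1128) (nat_lit 1092) (nat_lit 0) (XT.nd (nat_lit 564) (nat_lit 756) (nat_lit 0) (XT.nd (nat_lit 282) (nat_lit 336) (nat_lit 0) (XT.nd (nat_lit 94) (nat_lit 336) (nat_lit 0) (XT.lf (nat_lit 0) (nat_lit 6338698596) (nat_lit 504) (nat_lit 7358203174) (nat_lit 84) (nat_lit 5871101135) (nat_lit 60) (nat_lit 5) (nat_lit 66) (nat_lit 5) (nat_lit 61) (nat_lit 5) (nat_lit 355) (nat_lit 315) (nat_lit 194)) (XT.nd (nat_lit 94) (nat_lit 0) (nat_lit 0) (XT.lf (nat_lit 0) (nat_lit 81148088) (nat_lit 336) (nat_lit 8422987248)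 (nat_lit 420) (nat_lit 11469121183) (nat_lit 56) (nat_lit 5) (nat_lit 60) (nat_lit 5) (nat_lit 61) (nat_lit 5) (nat_lit 356) (nat_lit 315) (nat_lit 193)) (XT.lf (nat_lit 0) (nat_lit 7896562980) (nat_lit 336) (nat_lit 2908147888) (nat_lit 420) (nat_lit 9584280557) (nat_lit 56) (nat_lit 5) (nat_lit 60) (nat_lit 5) (nat_lit 61) (nat_lit 5) (nat_lit 357) (nat_lit 315) (nat_lit 192)))) (XT.nd (nat_lit 94) (nat_lit 336) (nat_lit 0) (XT.lf (nat_lit 0) (nat_lit 13195612161) (nat_lit 420) (nat_lit 4901415736) (nat_lit 84) (nat_lit 2720022915) (nat_lit 56) (nat_lit 5) (nat_lit 61) (nat_lit 5) (nat_lit 57) (nat_lit 5) (nat_lit 358) (nat_lit 315) (nat_lit 191)) (XT.nd (nat_lit 94) (nat_lit 0) (nat_lit 0) (XT.lf (nat_lit 0) (nat_lit 2944309210) (nat_lit 336) (nat_lit 12766983862) (nat_lit 420) (nat_lit 5545541622) (nat_lit 52) (nat_lit 5) (nat_lit 56) (nat_lit 5) (nat_lit 57) (nat_lit 5) (nat_lit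 359) (nat_lit 315) (nat_lit 190)) (XT.lf (nat_lit 0) (nat_lit 11127075286) (nat_lit 336) (nat_lit 7220905010) (nat_lit 420) (nat_lit 3360962360) (nat_lit 52) (nat_lit 5) (nat_lit 56) (nat_lit 5) (nat_lit 57) (nat_lit 5) (nat_lit 360) (nat_lit 315) (nat_lit 189))))) (XT.nd (nat_lit 282) (nat_lit 336) (nat_lit 0) (XT.nd (nat_lit 94) (nat_lit 420) (nat_lit 0) (XT.lf (nat_lit 0) (nat_lit 19553726528) (nat_lit 336) (nat_lit 1504782543) (nat_lit 420) (nat_lit 1116825339) (nat_lit 52) (nat_lit 5) (nat_lit 56) (nat_lit 5) (nat_lit 57) (nat_lit 5) (nat_lit 361) (nat_lit 315) (nat_lit 188)) (XT.nd (nat_lit 94) (nat_lit 0) (nat_lit 0) (XT.lf (nat_lit 0) (nat_lit 1265549033) (nat_lit 420) (nat_lit 17020263425) (nat_lit 84) (nat_lit 4367149761) (nat_lit 47) (nat_lit 5) (nat_lit 52) (nat_lit 5) (nat_lit 48) (nat_lit 5) (nat_lit 362) (nat_lit 315) (nat_lit 187)) (XT.lf (nat_lit 0) (nat_lit 3733972237)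 (nat_lit 420) (nat_lit 8982984207) (nat_lit 84) (nat_lit 10427010327) (nat_lit 47) (nat_lit 5) (nat_lit 52) (nat_lit 5) (nat_lit 48) (nat_lit 5) (nat_lit 363) (nat_lit 315) (nat_lit 186)))) (XT.nd (nat_lit 94) (nat_lit 336) (nat_lit 0) (XT.lf (nat_lit 0) (nat_lit 6271506133) (nat_lit 420) (nat_lit 706063341) (nat_lit 84) (nat_lit 16672873666) (nat_lit 47) (nat_lit 5) (nat_lit 52) (nat_lit 5) (nat_lit 48) (nat_lit 5) (nat_lit 364) (nat_lit 315) (nat_lit 185)) (XT.nd (nat_lit 94) (nat_lit 0) (nat_lit 0) (XT.lf (nat_lit 0) (nat_lit 7978972647) (nat_lit 336) (nat_lit 980695718) (nat_lit 420) (nat_lit 15210741326) (nat_lit 43) (nat_lit 5) (nat_lit 47) (nat_lit 5) (nat_lit 48) (nat_lit 5) (nat_lit 365) (nat_lit 315) (nat_lit 184)) (XT.lf (nat_lit 0) (nat_lit 11783131477) (nat_lit 420) (nat_lit 7819087078) (nat_lit 84) (nat_lit 5102685360) (nat_lit 43) (nat_lit 5) (nat_lit 48) (nat_lit 5) (nat_lit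 44) (nat_lit 5) (nat_lit 366) (nat_lit 315) (nat_lit 183)))))) (XT.nd (nat_lit 564) (nat_lit 504) (nat_lit 0) (XT.nd (nat_lit 282) (nat_lit 336) (nat_lit 0) (XT.nd (nat_lit 94) (nat_lit 0) (nat_lit 0) (XT.lf (nat_lit 0) (nat_lit 810024330) (nat_lit 252) (nat_lit 13895293657) (nat_lit 336) (nat_lit 10550321512) (nat_lit 40) (nat_lit 5) (nat_lit 43) (nat_lit 5) (nat_lit 44) (nat_lit 5) (nat_lit 367) (nat_lit 315) (nat_lit 182)) (XT.nd (nat_lit 94) (nat_lit 0) (nat_lit 0) (XT.lf (nat_lit 0) (nat_lit 9863419187) (nat_lit 252) (nat_lit 7929536098) (nat_lit 336) (nat_lit 8028190394) (nat_lit 40) (nat_lit 5) (nat_lit 43) (nat_lit 5) (nat_lit 44) (nat_lit 5) (nat_lit 368) (nat_lit 315) (nat_lit 181)) (XT.lf (nat_lit 0) (nat_lit 19188759737) (nat_lit 252) (nat_lit 1781000397) (nat_lit 336) (nat_lit 5434643427) (nat_lit 40) (nat_lit 5) (nat_lit 43) (nat_lit 5) (nat_lit 44) (nat_lit 5) (nat_lit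 369) (nat_lit 315) (nat_lit 180)))) (XT.nd (nat_lit 94) (nat_lit 84) (nat_lit 0) (XT.lf (nat_lit 0) (nat_lit 1779436524) (nat_lit 252) (nat_lit 22522105884) (nat_lit 336) (nat_lit 2702466085) (nat_lit 37) (nat_lit 5) (nat_lit 40) (nat_lit 5) (nat_lit 41) (nat_lit 5) (nat_lit 370) (nat_lit 315) (nat_lit 179)) (XT.nd (nat_lit 94) (nat_lit 0) (nat_lit 0) (XT.lf (nat_lit 0) (nat_lit 200058982) (nat_lit 336) (nat_lit 16442355532) (nat_lit 84) (nat_lit 10977041279) (nat_lit 36) (nat_lit 5) (nat_lit 40) (nat_lit 5) (nat_lit 37) (nat_lit 5) (nat_lit 371) (nat_lit 315) (nat_lit 178)) (XT.lf (nat_lit 0) (nat_lit 3130269620) (nat_lit 336) (nat_lit 7423969327) (nat_lit 84) (nat_lit 17699092933) (nat_lit 36) (nat_lit 5) (nat_lit 40) (nat_lit 5) (nat_lit 37) (nat_lit 5) (nat_lit 372) (nat_lit 315) (nat_lit 177))))) (XT.nd (nat_lit 282) (nat_lit 252) (nat_lit 0) (XT.nd (nat_lit 94) (nat_lit 0) (nat_lit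 0) (XT.lf (nat_lit 0) (nat_lit 1904166228) (nat_lit 252) (nat_lit 4260069099) (nat_lit 336) (nat_lit 22742237767) (nat_lit 33) (nat_lit 5) (nat_lit 36) (nat_lit 5) (nat_lit 37) (nat_lit 5) (nat_lit 373) (nat_lit 315) (nat_lit 176)) (XT.nd (nat_lit 94) (nat_lit 0) (nat_lit 0) (XT.lf (nat_lit 0) (nat_lit 9386757678) (nat_lit 336) (nat_lit 17929785251) (nat_lit 84) (nat_lit 2260404115) (nat_lit 33) (nat_lit 5) (nat_lit 37) (nat_lit 5) (nat_lit 34) (nat_lit 5) (nat_lit 374) (nat_lit 315) (nat_lit 175)) (XT.lf (nat_lit 0) (nat_lit 12747031932) (nat_lit 336) (nat_lit 8627614404) (nat_lit 84) (nat_lit 8892400413) (nat_lit 33) (nat_lit 5) (nat_lit 37) (nat_lit 5) (nat_lit 34) (nat_lit 5) (nat_lit 375) (nat_lit 315) (nat_lit 174)))) (XT.nd (nat_lit 94) (nat_lit 0) (nat_lit 0) (XT.lf (nat_lit 0) (nat_lit 974776255) (nat_lit 252) (nat_lit 15240823450) (nat_lit 336) (nat_lit 14762826053) (nat_lit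 30) (nat_lit 5) (nat_lit 33) (nat_lit 5) (nat_lit 34) (nat_lit 5) (nat_lit 376) (nat_lit 315) (nat_lit 173)) (XT.nd (nat_lit 94) (nat_lit 0) (nat_lit 0) (XT.lf (nat_lit 0) (nat_lit 11050033700) (nat_lit 252) (nat_lit 8826259351) (nat_lit 336) (nat_lit 11832955531) (nat_lit 30) (nat_lit 5) (nat_lit 33) (nat_lit 5) (nat_lit 34) (nat_lit 5) (nat_lit 377) (nat_lit 315) (nat_lit 172)) (XT.lf (nat_lit 0) (nat_lit 21430147680) (nat_lit 252) (nat_lit 2215029592) (nat_lit 336) (nat_lit 8817726904) (nat_lit 30) (nat_lit 5) (nat_lit 33) (nat_lit 5) (nat_lit 34) (nat_lit 5) (nat_lit 378) (nat_lit 315) (nat_lit 171))))))))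
noncomputable def xc151 : XT := (XT.nd (nat_lit 2256) (nat_lit 336) (nat_lit 0) (XT.nd (nat_lit 1128) (nat_lit 420) (nat_lit 0) (XT.nd (nat_lit 564) (nat_lit 336) (nat_lit 0) (XT.nd (nat_lit 282) (nat_lit 252) (nat_lit 0) (XT.nd (nat_lit 94) (nat_lit 252) (nat_lit 0) (XT.lf (nat_lit 0) (nat_lit 27571388294) (nat_lit 336) (nat_lit 1160924410) (nat_lit 84) (nat_lit 4506368014) (nat_lit 30) (nat_lit 5) (nat_lit 34) (nat_lit 5) (nat_lit 31) (nat_lit 5) (nat_lit 379) (nat_lit 315) (nat_lit 170)) (XT.nd (nat_lit 94) (nat_lit 84) (nat_lit 0) (XT.lf (nat_lit 0) (nat_lit 9171893167) (nat_lit 168) (nat_lit 22556061902) (nat_lit 252) (nat_lit 2307195794) (nat_lit 28) (nat_lit 5) (nat_lit 30) (nat_lit 5) (nat_lit 31) (nat_lit 5) (nat_lit 380) (nat_lit 315) (nat_lit 169)) (XT.lf (nat_lit 0) (nat_lit 1141013149) (nat_lit 252) (nat_lit 15025120415) (nat_lit 84) (nat_lit 18689608813) (nat_lit 27) (nat_lit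 5) (nat_lit 30) (nat_lit 5) (nat_lit 28) (nat_lit 5) (nat_lit 381) (nat_lit 315) (nat_lit 168)))) (XT.nd (nat_lit 94) (nat_lit 252) (nat_lit 0) (XT.lf (nat_lit 0) (nat_lit 4643360394) (nat_lit 252) (nat_lit 4912602341) (nat_lit 84) (nat_lit 26145239100) (nat_lit 27) (nat_lit 5) (nat_lit 30) (nat_lit 5) (nat_lit 28) (nat_lit 5) (nat_lit 382) (nat_lit 315) (nat_lit 167)) (XT.nd (nat_lit 94) (nat_lit 0) (nat_lit 0) (XT.lf (nat_lit 0) (nat_lit 5619837320) (nat_lit 252) (nat_lit 2685507510) (nat_lit 336) (nat_lit 28265953743) (nat_lit 24) (nat_lit 5) (nat_lit 27) (nat_lit 5) (nat_lit 28) (nat_lit 5) (nat_lit 383) (nat_lit 315) (nat_lit 166)) (XT.lf (nat_lit 0) (nat_lit 12171648886) (nat_lit 336) (nat_lit 20934861549) (nat_lit 84) (nat_lit 4359053839) (nat_lit 24) (nat_lit 5) (nat_lit 28) (nat_lit 5) (nat_lit 25) (nat_lit 5) (nat_lit 384) (nat_lit 315) (nat_lit 165))))) (XT.nd (nat_lit 282)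 (nat_lit 168) (nat_lit 0) (XT.nd (nat_lit 94) (nat_lit 168) (nat_lit 0) (XT.lf (nat_lit 0) (nat_lit 16180782194) (nat_lit 336) (nat_lit 10641865048) (nat_lit 84) (nat_lit 11564203162) (nat_lit 24) (nat_lit 5) (nat_lit 28) (nat_lit 5) (nat_lit 25) (nat_lit 5) (nat_lit 385) (nat_lit 315) (nat_lit 164)) (XT.nd (nat_lit 94) (nat_lit 168) (nat_lit 0) (XT.lf (nat_lit 0) (nat_lit 20309841120) (nat_lit 336) (nat_lit 36237033) (nat_lit 84) (nat_lit 18990763405) (nat_lit 24) (nat_lit 5) (nat_lit 28) (nat_lit 5) (nat_lit 25) (nat_lit 5) (nat_lit 386) (nat_lit 315) (nat_lit 163)) (XT.lf (nat_lit 0) (nat_lit 11115868020) (nat_lit 168) (nat_lit 13557077146) (nat_lit 252) (nat_lit 15640059666) (nat_lit 22) (nat_lit 5) (nat_lit 24) (nat_lit 5) (nat_lit 25) (nat_lit 5) (nat_lit 387) (nat_lit 315) (nat_lit 162)))) (XT.nd (nat_lit 94) (nat_lit 168) (nat_lit 0) (XT.lf (nat_lit 0) (nat_lit 22608262489) (nat_lit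 168) (nat_lit 6559260332) (nat_lit 252) (nat_lit 12152033082) (nat_lit 22) (nat_lit 5) (nat_lit 24) (nat_lit 5) (nat_lit 25) (nat_lit 5) (nat_lit 388) (nat_lit 315) (nat_lit 161)) (XT.nd (nat_lit 94) (nat_lit 168) (nat_lit 0) (XT.lf (nat_lit 0) (nat_lit 33803879601) (nat_lit 252) (nat_lit 7913013940) (nat_lit 84) (nat_lit 640349840) (nat_lit 22) (nat_lit 5) (nat_lit 25) (nat_lit 5) (nat_lit 23) (nat_lit 5) (nat_lit 389) (nat_lit 315) (nat_lit 160)) (XT.lf (nat_lit 0) (nat_lit 3211696473) (nat_lit 168) (nat_lit 35467279820) (nat_lit 252) (nat_lit 4745186391) (nat_lit 20) (nat_lit 5) (nat_lit 22) (nat_lit 5) (nat_lit 23) (nat_lit 5) (nat_lit 390) (nat_lit 315) (nat_lit 159)))))) (XT.nd (nat_lit 564) (nat_lit 168) (nat_lit 0) (XT.nd (nat_lit 282) (nat_lit 168) (nat_lit 0) (XT.nd (nat_lit 94) (nat_lit 84) (nat_lit 0) (XT.lf (nat_lit 0) (nat_lit 14843146321) (nat_lit 168) (nat_lit 28940776876)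 (nat_lit 252) (nat_lit 737801546) (nat_lit 20) (nat_lit 5) (nat_lit 22) (nat_lit 5) (nat_lit 23) (nat_lit 5) (nat_lit 391) (nat_lit 315) (nat_lit 158)) (XT.nd (nat_lit 94) (nat_lit 0) (nat_lit 0) (XT.lf (nat_lit 0) (nat_lit 3321630878) (nat_lit 252) (nat_lit 18857595069) (nat_lit 84) (nat_lit 23473167644) (nat_lit 19) (nat_lit 5) (nat_lit 22) (nat_lit 5) (nat_lit 20) (nat_lit 5) (nat_lit 392) (nat_lit 315) (nat_lit 157)) (XT.lf (nat_lit 0) (nat_lit 7487890603) (nat_lit 252) (nat_lit 7714321094) (nat_lit 84) (nat_lit 31615789804) (nat_lit 19) (nat_lit 5) (nat_lit 22) (nat_lit 5) (nat_lit 20) (nat_lit 5) (nat_lit 393) (nat_lit 315) (nat_lit 156)))) (XT.nd (nat_lit 94) (nat_lit 0) (nat_lit 0) (XT.lf (nat_lit 0) (nat_lit 3846446609) (nat_lit 168) (nat_lit 7971436694) (nat_lit 252) (nat_lit 36200795660) (nat_lit 17) (nat_lit 5) (nat_lit 19) (nat_lit 5) (nat_lit 20) (nat_lit 5) (nat_lit 394)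 (nat_lit 315) (nat_lit 155)) (XT.nd (nat_lit 94) (nat_lit 0) (nat_lit 0) (XT.lf (nat_lit 0) (nat_lit 15923747700) (nat_lit 168) (nat_lit 435355584) (nat_lit 252) (nat_lit 32895094638) (nat_lit 17) (nat_lit 5) (nat_lit 19) (nat_lit 5) (nat_lit 20) (nat_lit 5) (nat_lit 395) (nat_lit 315) (nat_lit 154)) (XT.lf (nat_lit 0) (nat_lit 21110422520) (nat_lit 252) (nat_lit 22230653555) (nat_lit 84) (nat_lit 7184800129) (nat_lit 17) (nat_lit 5) (nat_lit 20) (nat_lit 5) (nat_lit 18) (nat_lit 5) (nat_lit 396) (nat_lit 315) (nat_lit 153))))) (XT.nd (nat_lit 282) (nat_lit 0) (nat_lit 0) (XT.nd (nat_lit 94) (nat_lit 168) (nat_lit 0) (XT.lf (nat_lit 0) (nat_lit 26010152463) (nat_lit 252) (nat_lit 10796378909) (nat_lit 84) (nat_lit 15030417405) (nat_lit 17) (nat_lit 5) (nat_lit 20) (nat_lit 5) (nat_lit 18) (nat_lit 5) (nat_lit 397) (nat_lit 315) (nat_lit 152)) (XT.nd (nat_lit 94) (nat_lit 0) (nat_lit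 0) (XT.lf (nat_lit 0) (nat_lit 1007652387) (nat_lit 168) (nat_lit 30060885045) (nat_lit 252) (nat_lit 22119924274) (nat_lit 15) (nat_lit 5) (nat_lit 17) (nat_lit 5) (nat_lit 18) (nat_lit 5) (nat_lit 398) (nat_lit 315) (nat_lit 151)) (XT.lf (nat_lit 0) (nat_lit 13401529102) (nat_lit 168) (nat_lit 22991710674) (nat_lit 252) (nat_lit 18185243600) (nat_lit 15) (nat_lit 5) (nat_lit 17) (nat_lit 5) (nat_lit 18) (nat_lit 5) (nat_lit 399) (nat_lit 315) (nat_lit 150)))) (XT.nd (nat_lit 94) (nat_lit 0) (nat_lit 0) (XT.lf (nat_lit 0) (nat_lit 26174807931) (nat_lit 168) (nat_lit 15705111099) (nat_lit 252) (nat_lit 14131778810) (nat_lit 15) (nat_lit 5) (nat_lit 17) (nat_lit 5) (nat_lit 18) (nat_lit 5) (nat_lit 400) (nat_lit 315) (nat_lit 149)) (XT.nd (nat_lit 94) (nat_lit 0) (nat_lit 0) (XT.lf (nat_lit 0) (nat_lit 39339394909) (nat_lit 168) (nat_lit 8194294448) (nat_lit 252) (nat_lit 9955751651)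 (nat_lit 15) (nat_lit 5) (nat_lit 17) (nat_lit 5) (nat_lit 18) (nat_lit 5) (nat_lit 401) (nat_lit 315) (nat_lit 148)) (XT.lf (nat_lit 0) (nat_lit 52907560810) (nat_lit 168) (nat_lit 452259852) (nat_lit 252) (nat_lit 5653269627) (nat_lit 15) (nat_lit 5) (nat_lit 17) (nat_lit 5) (nat_lit 18) (nat_lit 5) (nat_lit 402) (nat_lit 315) (nat_lit 147))))))) (XT.nd (nat_lit 46342) (nat_lit 0) (nat_lit 9072) (XT.nd (nat_lit 564) (nat_lit 0) (nat_lit 0) (XT.nd (nat_lit 282) (nat_lit 168) (nat_lit 0) (XT.nd (nat_lit 94) (nat_lit 84) (nat_lit 0) (XT.lf (nat_lit 0) (nat_lit 6361373432) (nat_lit 84) (nat_lit 53140156455) (nat_lit 168) (nat_lit 1078264619) (nat_lit 14) (nat_lit 5) (nat_lit 15) (nat_lit 5) (nat_lit 16) (nat_lit 4) (nat_lit 403) (nat_lit 315) (nat_lit 146)) (XT.nd (nat_lit 94) (nat_lit 0) (nat_lit 0) (XT.lf (nat_lit 0) (nat_lit 3631436310) (nat_lit 168) (nat_lit 42894762258) (nat_lit 84)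 (nat_lit 15665702938) (nat_lit 13) (nat_lit 5) (nat_lit 15) (nat_lit 5) (nat_lit 14) (nat_lit 5) (nat_lit 404) (nat_lit 315) (nat_lit 145)) (XT.lf (nat_lit 0) (nat_lit 8461998068) (nat_lit 168) (nat_lit 31235446608) (nat_lit 84) (nat_lit 24156287575) (nat_lit 13) (nat_lit 5) (nat_lit 15) (nat_lit 5) (nat_lit 14) (nat_lit 5) (nat_lit 405) (nat_lit 315) (nat_lit 144)))) (XT.nd (nat_lit 94) (nat_lit 168) (nat_lit 0) (XT.lf (nat_lit 0) (nat_lit 13439647870) (nat_lit 168) (nat_lit 19218909904) (nat_lit 84) (nat_lit 32908609559) (nat_lit 13) (nat_lit 5) (nat_lit 15) (nat_lit 5) (nat_lit 14) (nat_lit 5) (nat_lit 406) (nat_lit 315) (nat_lit 143)) (XT.nd (nat_lit 94) (nat_lit 168) (nat_lit 0) (XT.lf (nat_lit 0) (nat_lit 18569025409) (nat_lit 168) (nat_lit 6833951474) (nat_lit 84) (nat_lit 41930826972) (nat_lit 13) (nat_lit 5) (nat_lit 15) (nat_lit 5) (nat_lit 14) (nat_lit 5) (nat_lit 407) (nat_lit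 315) (nat_lit 142)) (XT.lf (nat_lit 0) (nat_lit 6052925723) (nat_lit 168) (nat_lit 17862031851) (nat_lit 252) (nat_lit 45238469513) (nat_lit 11) (nat_lit 5) (nat_lit 13) (nat_lit 5) (nat_lit 14) (nat_lit 5) (nat_lit 408) (nat_lit 315) (nat_lit 141))))) (XT.nd (nat_lit 45496) (nat_lit 0) (nat_lit 9744) (XT.nd (nat_lit 94) (nat_lit 0) (nat_lit 0) (XT.lf (nat_lit 0) (nat_lit 19480244558) (nat_lit 168) (nat_lit 10015235927) (nat_lit 252) (nat_lit 41531847976) (nat_lit 11) (nat_lit 5) (nat_lit 13) (nat_lit 5) (nat_lit 14) (nat_lit 5) (nat_lit 409) (nat_lit 315) (nat_lit 140)) (XT.nd (nat_lit 94) (nat_lit 0) (nat_lit 0) (XT.lf (nat_lit 0) (nat_lit 33320000640) (nat_lit 168) (nat_lit 1926607514) (nat_lit 252) (nat_lit 37712791313) (nat_lit 11) (nat_lit 5) (nat_lit 13) (nat_lit 5) (nat_lit 14) (nat_lit 5) (nat_lit 410) (nat_lit 315) (nat_lit 139)) (XT.lf (nat_lit 0) (nat_lit 41237303044) (nat_lit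 252) (nat_lit 27429948735) (nat_lit 84) (nat_lit 6282217560) (nat_lit 11) (nat_lit 5) (nat_lit 14) (nat_lit 5) (nat_lit 12) (nat_lit 4) (nat_lit 411) (nat_lit 315) (nat_lit 138)))) (XT.nd (nat_lit 94) (nat_lit 0) (nat_lit 0) (XT.lf (nat_lit 0) (nat_lit 686276124) (nat_lit 1092) (nat_lit 2199885889) (nat_lit 1092) (nat_lit 2199885889) (nat_lit 127) (nat_lit 3) (nat_lit 140) (nat_lit 3) (nat_lit 140) (nat_lit 5) (nat_lit 316) (nat_lit 316) (nat_lit 232)) (XT.nd (nat_lit 94) (nat_lit 0) (nat_lit 84) (XT.lf (nat_lit 0) (nat_lit 1981090511) (nat_lit 1092) (nat_lit 450473340) (nat_lit 1092) (nat_lit 7877673358) (nat_lit 127) (nat_lit 3) (nat_lit 140) (nat_lit 3) (nat_lit 140) (nat_lit 5) (nat_lit 317) (nat_lit 316) (nat_lit 231)) (XT.lf (nat_lit 0) (nat_lit 2631900985) (nat_lit 1008) (nat_lit 6777641763) (nat_lit 1092) (nat_lit 1040455138) (nat_lit 128) (nat_lit 5) (nat_lit 140) (nat_lit 5)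 (nat_lit 141) (nat_lit 5) (nat_lit 318) (nat_lit 316) (nat_lit 230)))))) (XT.nd (nat_lit 564) (nat_lit 756) (nat_lit 0) (XT.nd (nat_lit 282) (nat_lit 0) (nat_lit 84) (XT.nd (nat_lit 94) (nat_lit 0) (nat_lit 0) (XT.lf (nat_lit 0) (nat_lit 3309541679) (nat_lit 1008) (nat_lit 2700386791) (nat_lit 1092) (nat_lit 4585078075) (nat_lit 128) (nat_lit 5) (nat_lit 140) (nat_lit 5) (nat_lit 141) (nat_lit 5) (nat_lit 319) (nat_lit 316) (nat_lit 229)) (XT.nd (nat_lit 94) (nat_lit 0) (nat_lit 84) (XT.lf (nat_lit 84) (nat_lit 1521268998) (nat_lit 0) (nat_lit 2479737708) (nat_lit 1092) (nat_lit 6743814408) (nat_lit 129) (nat_lit 5) (nat_lit 128) (nat_lit 5) (nat_lit 141) (nat_lit 5) (nat_lit 320) (nat_lit 316) (nat_lit 228)) (XT.lf (nat_lit 0) (nat_lit 4732251411) (nat_lit 1008) (nat_lit 4992524326) (nat_lit 1092) (nat_lit 1174020862) (nat_lit 129) (nat_lit 5) (nat_lit 141) (nat_lit 5) (nat_lit 142)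 (nat_lit 5) (nat_lit 321) (nat_lit 316) (nat_lit 227)))) (XT.nd (nat_lit 94) (nat_lit 0) (nat_lit 0) (XT.lf (nat_lit 0) (nat_lit 5490540395) (nat_lit 1008) (nat_lit 668661202) (nat_lit 1092) (nat_lit 4898290853) (nat_lit 129) (nat_lit 5) (nat_lit 141) (nat_lit 5) (nat_lit 142) (nat_lit 5) (nat_lit 322) (nat_lit 316) (nat_lit 226)) (XT.nd (nat_lit 94) (nat_lit 0) (nat_lit 84) (XT.lf (nat_lit 84) (nat_lit 3854322870) (nat_lit 0) (nat_lit 2435893647) (nat_lit 1092) (nat_lit 4930417352) (nat_lit 130) (nat_lit 5) (nat_lit 129) (nat_lit 5) (nat_lit 142) (nat_lit 5) (nat_lit 323) (nat_lit 316) (nat_lit 225)) (XT.lf (nat_lit 0) (nat_lit 7115856726) (nat_lit 1008) (nat_lit 2884124141) (nat_lit 1092) (nat_lit 1388893276) (nat_lit 130) (nat_lit 5) (nat_lit 142) (nat_lit 5) (nat_lit 143) (nat_lit 5) (nat_lit 324) (nat_lit 316) (nat_lit 224))))) (XT.nd (nat_lit 282) (nat_lit 924) (nat_lit 0) (XT.nd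 (nat_lit 94) (nat_lit 0) (nat_lit 0) (XT.lf (nat_lit 84) (nat_lit 1734220215) (nat_lit 0) (nat_lit 6255790816) (nat_lit 1092) (nat_lit 3571683865) (nat_lit 131) (nat_lit 5) (nat_lit 130) (nat_lit 5) (nat_lit 143) (nat_lit 5) (nat_lit 325) (nat_lit 316) (nat_lit 223)) (XT.nd (nat_lit 94) (nat_lit 0) (nat_lit 84) (XT.lf (nat_lit 84) (nat_lit 6544187425) (nat_lit 0) (nat_lit 2358434523) (nat_lit 1092) (nat_lit 2836972308) (nat_lit 131) (nat_lit 5) (nat_lit 130) (nat_lit 5) (nat_lit 143) (nat_lit 5) (nat_lit 326) (nat_lit 316) (nat_lit 222)) (XT.lf (nat_lit 0) (nat_lit 9841864079) (nat_lit 1008) (nat_lit 449208968) (nat_lit 1092) (nat_lit 1632057955) (nat_lit 131) (nat_lit 5) (nat_lit 143) (nat_lit 5) (nat_lit 144) (nat_lit 5) (nat_lit 327) (nat_lit 316) (nat_lit 221)))) (XT.nd (nat_lit 94) (nat_lit 1008) (nat_lit 0) (XT.lf (nat_lit 84) (nat_lit 4498016394) (nat_lit 0) (nat_lit 6363368855)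 (nat_lit 1092) (nat_lit 1249455015) (nat_lit 132) (nat_lit 5) (nat_lit 131) (nat_lit 5) (nat_lit 144) (nat_lit 5) (nat_lit 328) (nat_lit 316) (nat_lit 220)) (XT.nd (nat_lit 94) (nat_lit 1008) (nat_lit 0) (XT.lf (nat_lit 84) (nat_lit 9595647983) (nat_lit 0) (nat_lit 2304377603) (nat_lit 1092) (nat_lit 404796839) (nat_lit 132) (nat_lit 5) (nat_lit 131) (nat_lit 5) (nat_lit 144) (nat_lit 5) (nat_lit 329) (nat_lit 316) (nat_lit 219)) (XT.lf (nat_lit 0) (nat_lit 482332334) (nat_lit 1092) (nat_lit 10146270948) (nat_lit 1176) (nat_lit 1875338349) (nat_lit 119) (nat_lit 5) (nat_lit 132) (nat_lit 5) (nat_lit 133) (nat_lit 5) (nat_lit 330) (nat_lit 316) (nat_lit 218))))))))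
noncomputable def xc152 : XT := (XT.nd (nat_lit 2256) (nat_lit 2940) (nat_lit 0) (XT.nd (nat_lit 1128) (nat_lit 1848) (nat_lit 0) (XT.nd (nat_lit 564) (nat_lit 1680) (nat_lit 0) (XT.nd (nat_lit 282) (nat_lit 1008) (nat_lit 0) (XT.nd (nat_lit 94) (nat_lit 0) (nat_lit 0) (XT.lf (nat_lit 0) (nat_lit 1424223301) (nat_lit 1092) (nat_lit 5110336099) (nat_lit 1176) (nat_lit 6173501032) (nat_lit 119) (nat_lit 5) (nat_lit 132) (nat_lit 5) (nat_lit 133) (nat_lit 5) (nat_lit 331) (nat_lit 316) (nat_lit 217)) (XT.nd (nat_lit 94) (nat_lit 0) (nat_lit 84) (XT.lf (nat_lit 84) (nat_lit 70521973) (nat_lit 0) (nat_lit 2309519175) (nat_lit 1176) (nat_lit 10538998354) (nat_lit 120) (nat_lit 5) (nat_lit 119) (nat_lit 5) (nat_lit 133) (nat_lit 5) (nat_lit 332) (nat_lit 316) (nat_lit 216)) (XT.lf (nat_lit 0) (nat_lit 3424093958) (nat_lit 1092) (nat_lit 7648485755) (nat_lit 84) (nat_lit 2062219849) (nat_lit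 120) (nat_lit 5) (nat_lit 133) (nat_lit 5) (nat_lit 121) (nat_lit 5) (nat_lit 333) (nat_lit 316) (nat_lit 215)))) (XT.nd (nat_lit 94) (nat_lit 1092) (nat_lit 0) (XT.lf (nat_lit 0) (nat_lit 4509018043) (nat_lit 1092) (nat_lit 2323537804) (nat_lit 84) (nat_lit 6524484318) (nat_lit 120) (nat_lit 5) (nat_lit 133) (nat_lit 5) (nat_lit 121) (nat_lit 5) (nat_lit 334) (nat_lit 316) (nat_lit 214)) (XT.nd (nat_lit 94) (nat_lit 0) (nat_lit 0) (XT.lf (nat_lit 0) (nat_lit 3219057279) (nat_lit 1092) (nat_lit 2425790120) (nat_lit 1176) (nat_lit 7940841361) (nat_lit 107) (nat_lit 5) (nat_lit 120) (nat_lit 5) (nat_lit 121) (nat_lit 5) (nat_lit 335) (nat_lit 316) (nat_lit 213)) (XT.lf (nat_lit 0) (nat_lit 6847076219) (nat_lit 1176) (nat_lit 4871875081) (nat_lit 84) (nat_lit 2101559669) (nat_lit 107) (nat_lit 5) (nat_lit 121) (nat_lit 5) (nat_lit 108) (nat_lit 5) (nat_lit 336) (nat_lit 316) (nat_lit 212)))))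 (XT.nd (nat_lit 282) (nat_lit 1176) (nat_lit 0) (XT.nd (nat_lit 94) (nat_lit 0) (nat_lit 0) (XT.lf (nat_lit 0) (nat_lit 771659752) (nat_lit 504) (nat_lit 7333491033) (nat_lit 588) (nat_lit 5956936791) (nat_lit 101) (nat_lit 5) (nat_lit 107) (nat_lit 5) (nat_lit 108) (nat_lit 5) (nat_lit 337) (nat_lit 316) (nat_lit 211)) (XT.nd (nat_lit 94) (nat_lit 0) (nat_lit 0) (XT.lf (nat_lit 0) (nat_lit 6681253731) (nat_lit 504) (nat_lit 2758232734) (nat_lit 588) (nat_lit 4870560766) (nat_lit 101) (nat_lit 5) (nat_lit 107) (nat_lit 5) (nat_lit 108) (nat_lit 5) (nat_lit 338) (nat_lit 316) (nat_lit 210)) (XT.lf (nat_lit 0) (nat_lit 10821449423) (nat_lit 588) (nat_lit 1823356395) (nat_lit 84) (nat_lit 1920741447) (nat_lit 101) (nat_lit 5) (nat_lit 108) (nat_lit 5) (nat_lit 102) (nat_lit 5) (nat_lit 339) (nat_lit 316) (nat_lit 209)))) (XT.nd (nat_lit 94) (nat_lit 588) (nat_lit 0) (XT.lf (nat_lit 0) (nat_lit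 4206687757) (nat_lit 588) (nat_lit 8096733294) (nat_lit 672) (nat_lit 2523820887) (nat_lit 94) (nat_lit 5) (nat_lit 101) (nat_lit 5) (nat_lit 102) (nat_lit 5) (nat_lit 340) (nat_lit 316) (nat_lit 208)) (XT.nd (nat_lit 94) (nat_lit 588) (nat_lit 0) (XT.lf (nat_lit 0) (nat_lit 10450531364) (nat_lit 588) (nat_lit 3387328405) (nat_lit 672) (nat_lit 1259032019) (nat_lit 94) (nat_lit 5) (nat_lit 101) (nat_lit 5) (nat_lit 102) (nat_lit 5) (nat_lit 341) (nat_lit 316) (nat_lit 207)) (XT.lf (nat_lit 0) (nat_lit 61686379) (nat_lit 588) (nat_lit 13857847263) (nat_lit 84) (nat_lit 1454849162) (nat_lit 87) (nat_lit 5) (nat_lit 94) (nat_lit 5) (nat_lit 88) (nat_lit 5) (nat_lit 342) (nat_lit 316) (nat_lit 206)))))) (XT.nd (nat_lit 564) (nat_lit 924) (nat_lit 0) (XT.nd (nat_lit 282) (nat_lit 420) (nat_lit 0) (XT.nd (nat_lit 94) (nat_lit 504) (nat_lit 0) (XT.lf (nat_lit 0) (nat_lit 1468794907) (nat_lit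 588) (nat_lit 7750035038) (nat_lit 84) (nat_lit 6439068297) (nat_lit 87) (nat_lit 5) (nat_lit 94) (nat_lit 5) (nat_lit 88) (nat_lit 5) (nat_lit 343) (nat_lit 316) (nat_lit 205)) (XT.nd (nat_lit 94) (nat_lit 504) (nat_lit 0) (XT.lf (nat_lit 0) (nat_lit 2907847772) (nat_lit 588) (nat_lit 1464545784) (nat_lit 84) (nat_lit 11578210839) (nat_lit 87) (nat_lit 5) (nat_lit 94) (nat_lit 5) (nat_lit 88) (nat_lit 5) (nat_lit 344) (nat_lit 316) (nat_lit 204)) (XT.lf (nat_lit 0) (nat_lit 4437563436) (nat_lit 588) (nat_lit 11150533122) (nat_lit 84) (nat_lit 662898850) (nat_lit 81) (nat_lit 5) (nat_lit 88) (nat_lit 5) (nat_lit 82) (nat_lit 5) (nat_lit 345) (nat_lit 316) (nat_lit 203)))) (XT.nd (nat_lit 94) (nat_lit 420) (nat_lit 0) (XT.lf (nat_lit 0) (nat_lit 6063766213) (nat_lit 588) (nat_lit 4716647297) (nat_lit 84) (nat_lit 5778801411) (nat_lit 81) (nat_lit 5) (nat_lit 88) (nat_lit 5) (nat_lit 82)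 (nat_lit 5) (nat_lit 346) (nat_lit 316) (nat_lit 202)) (XT.nd (nat_lit 94) (nat_lit 0) (nat_lit 0) (XT.lf (nat_lit 0) (nat_lit 1944637077) (nat_lit 420) (nat_lit 5804272315) (nat_lit 504) (nat_lit 9127851775) (nat_lit 76) (nat_lit 5) (nat_lit 81) (nat_lit 5) (nat_lit 82) (nat_lit 5) (nat_lit 347) (nat_lit 316) (nat_lit 201)) (XT.lf (nat_lit 0) (nat_lit 8901293412) (nat_lit 420) (nat_lit 623681121) (nat_lit 504) (nat_lit 7678012864) (nat_lit 76) (nat_lit 5) (nat_lit 81) (nat_lit 5) (nat_lit 82) (nat_lit 5) (nat_lit 348) (nat_lit 316) (nat_lit 200))))) (XT.nd (nat_lit 282) (nat_lit 504) (nat_lit 0) (XT.nd (nat_lit 94) (nat_lit 420) (nat_lit 0) (XT.lf (nat_lit 0) (nat_lit 11392658093) (nat_lit 504) (nat_lit 1523648692) (nat_lit 84) (nat_lit 4621920631) (nat_lit 76) (nat_lit 5) (nat_lit 82) (nat_lit 5) (nat_lit 77) (nat_lit 5) (nat_lit 349) (nat_lit 316) (nat_lit 199)) (XT.nd (nat_lit 94)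 (nat_lit 0) (nat_lit 0) (XT.lf (nat_lit 0) (nat_lit 5559350512) (nat_lit 420) (nat_lit 7810487529) (nat_lit 504) (nat_lit 4512455413) (nat_lit 71) (nat_lit 5) (nat_lit 76) (nat_lit 5) (nat_lit 77) (nat_lit 5) (nat_lit 350) (nat_lit 316) (nat_lit 198)) (XT.lf (nat_lit 0) (nat_lit 12883537311) (nat_lit 420) (nat_lit 2530939557) (nat_lit 504) (nat_lit 2822389642) (nat_lit 71) (nat_lit 5) (nat_lit 76) (nat_lit 5) (nat_lit 77) (nat_lit 5) (nat_lit 351) (nat_lit 316) (nat_lit 197)))) (XT.nd (nat_lit 94) (nat_lit 84) (nat_lit 0) (XT.lf (nat_lit 0) (nat_lit 1829636085) (nat_lit 420) (nat_lit 15730449943) (nat_lit 504) (nat_lit 1041211280) (nat_lit 66) (nat_lit 5) (nat_lit 71) (nat_lit 5) (nat_lit 72) (nat_lit 5) (nat_lit 352) (nat_lit 316) (nat_lit 196)) (XT.nd (nat_lit 94) (nat_lit 0) (nat_lit 0) (XT.lf (nat_lit 0) (nat_lit 852098374) (nat_lit 504) (nat_lit 9671671472) (nat_lit 84) (nat_lit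 8450779378) (nat_lit 65) (nat_lit 5) (nat_lit 71) (nat_lit 5) (nat_lit 66) (nat_lit 5) (nat_lit 353) (nat_lit 316) (nat_lit 195)) (XT.lf (nat_lit 0) (nat_lit 2773355935) (nat_lit 504) (nat_lit 2372700535) (nat_lit 84) (nat_lit 14213296395) (nat_lit 65) (nat_lit 5) (nat_lit 71) (nat_lit 5) (nat_lit 66) (nat_lit 5) (nat_lit 354) (nat_lit 316) (nat_lit 194))))))) (XT.nd (nat_lit 1128) (nat_lit 1092) (nat_lit 0) (XT.nd (nat_lit 564) (nat_lit 756) (nat_lit 0) (XT.nd (nat_lit 282) (nat_lit 336) (nat_lit 0) (XT.nd (nat_lit 94) (nat_lit 336) (nat_lit 0) (XT.lf (nat_lit 0) (nat_lit 4801863613) (nat_lit 504) (nat_lit 14511122578) (nat_lit 84) (nat_lit 441648380) (nat_lit 60) (nat_lit 5) (nat_lit 66) (nat_lit 5) (nat_lit 61) (nat_lit 5) (nat_lit 355) (nat_lit 316) (nat_lit 193)) (XT.nd (nat_lit 94) (nat_lit 336) (nat_lit 0) (XT.lf (nat_lit 0) (nat_lit 6962216833) (nat_lit 504) (nat_lit 7078494312)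 (nat_lit 84) (nat_lit 6119347799) (nat_lit 60) (nat_lit 5) (nat_lit 66) (nat_lit 5) (nat_lit 61) (nat_lit 5) (nat_lit 356) (nat_lit 316) (nat_lit 192)) (XT.lf (nat_lit 0) (nat_lit 586335687) (nat_lit 336) (nat_lit 8600593443) (nat_lit 420) (nat_lit 11391229255) (nat_lit 56) (nat_lit 5) (nat_lit 60) (nat_lit 5) (nat_lit 61) (nat_lit 5) (nat_lit 357) (nat_lit 316) (nat_lit 191)))) (XT.nd (nat_lit 94) (nat_lit 336) (nat_lit 0) (XT.lf (nat_lit 0) (nat_lit 8628914151) (nat_lit 336) (nat_lit 2917304925) (nat_lit 420) (nat_lit 9460991038) (nat_lit 56) (nat_lit 5) (nat_lit 60) (nat_lit 5) (nat_lit 61) (nat_lit 5) (nat_lit 358) (nat_lit 316) (nat_lit 190)) (XT.nd (nat_lit 94) (nat_lit 336) (nat_lit 0) (XT.lf (nat_lit 0) (nat_lit 13999793167) (nat_lit 420) (nat_lit 4567817162) (nat_lit 84) (nat_lit 2881320995) (nat_lit 56) (nat_lit 5) (nat_lit 61) (nat_lit 5) (nat_lit 57) (nat_lit 5) (nat_lit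 359) (nat_lit 316) (nat_lit 189)) (XT.lf (nat_lit 0) (nat_lit 3516209575) (nat_lit 336) (nat_lit 13070138151) (nat_lit 420) (nat_lit 5316257331) (nat_lit 52) (nat_lit 5) (nat_lit 56) (nat_lit 5) (nat_lit 57) (nat_lit 5) (nat_lit 360) (nat_lit 316) (nat_lit 188))))) (XT.nd (nat_lit 282) (nat_lit 336) (nat_lit 0) (XT.nd (nat_lit 94) (nat_lit 420) (nat_lit 0) (XT.lf (nat_lit 0) (nat_lit 11938189964) (nat_lit 336) (nat_lit 7354915810) (nat_lit 420) (nat_lit 3076019235) (nat_lit 52) (nat_lit 5) (nat_lit 56) (nat_lit 5) (nat_lit 57) (nat_lit 5) (nat_lit 361) (nat_lit 316) (nat_lit 187)) (XT.nd (nat_lit 94) (nat_lit 420) (nat_lit 0) (XT.lf (nat_lit 0) (nat_lit 20612050483) (nat_lit 336) (nat_lit 1464294763) (nat_lit 420) (nat_lit 774014374) (nat_lit 52) (nat_lit 5) (nat_lit 56) (nat_lit 5) (nat_lit 57) (nat_lit 5) (nat_lit 362) (nat_lit 316) (nat_lit 186)) (XT.lf (nat_lit 0) (nat_lit 1668936212)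 (nat_lit 420) (nat_lit 17080364579) (nat_lit 84) (nat_lit 4593584811) (nat_lit 47) (nat_lit 5) (nat_lit 52) (nat_lit 5) (nat_lit 48) (nat_lit 5) (nat_lit 363) (nat_lit 316) (nat_lit 185)))) (XT.nd (nat_lit 94) (nat_lit 336) (nat_lit 0) (XT.lf (nat_lit 0) (nat_lit 4202931157) (nat_lit 420) (nat_lit 8807987259) (nat_lit 84) (nat_lit 10838563270) (nat_lit 47) (nat_lit 5) (nat_lit 52) (nat_lit 5) (nat_lit 48) (nat_lit 5) (nat_lit 364) (nat_lit 316) (nat_lit 184)) (XT.nd (nat_lit 94) (nat_lit 336) (nat_lit 0) (XT.lf (nat_lit 0) (nat_lit 6808508449) (nat_lit 420) (nat_lit 288116718) (nat_lit 84) (nat_lit 17275392908) (nat_lit 47) (nat_lit 5) (nat_lit 52) (nat_lit 5) (nat_lit 48) (nat_lit 5) (nat_lit 365) (nat_lit 316) (nat_lit 183)) (XT.lf (nat_lit 0) (nat_lit 8661702455) (nat_lit 336) (nat_lit 912319466) (nat_lit 420) (nat_lit 15334296229) (nat_lit 43) (nat_lit 5) (nat_lit 47) (nat_lit 5)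 (nat_lit 48) (nat_lit 5) (nat_lit 366) (nat_lit 316) (nat_lit 182)))))) (XT.nd (nat_lit 564) (nat_lit 504) (nat_lit 0) (XT.nd (nat_lit 282) (nat_lit 336) (nat_lit 0) (XT.nd (nat_lit 94) (nat_lit 252) (nat_lit 0) (XT.lf (nat_lit 0) (nat_lit 12475841846) (nat_lit 420) (nat_lit 7629106314) (nat_lit 84) (nat_lit 5354746071) (nat_lit 43) (nat_lit 5) (nat_lit 48) (nat_lit 5) (nat_lit 44) (nat_lit 5) (nat_lit 367) (nat_lit 316) (nat_lit 181)) (XT.nd (nat_lit 94) (nat_lit 0) (nat_lit 0) (XT.lf (nat_lit 0) (nat_lit 1263130164) (nat_lit 252) (nat_lit 14219886508) (nat_lit 336) (nat_lit 10544686930) (nat_lit 40) (nat_lit 5) (nat_lit 43) (nat_lit 5) (nat_lit 44) (nat_lit 5) (nat_lit 368) (nat_lit 316) (nat_lit 180)) (XT.lf (nat_lit 0) (nat_lit 10584311350) (nat_lit 252) (nat_lit 8072382509) (nat_lit 336) (nat_lit 7954373172) (nat_lit 40) (nat_lit 5) (nat_lit 43) (nat_lit 5) (nat_lit 44) (nat_lit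 5) (nat_lit 369) (nat_lit 316) (nat_lit 179)))) (XT.nd (nat_lit 94) (nat_lit 336) (nat_lit 0) (XT.lf (nat_lit 0) (nat_lit 20186255488) (nat_lit 252) (nat_lit 1736338269) (nat_lit 336) (nat_lit 5290128892) (nat_lit 40) (nat_lit 5) (nat_lit 43) (nat_lit 5) (nat_lit 44) (nat_lit 5) (nat_lit 370) (nat_lit 316) (nat_lit 178)) (XT.nd (nat_lit 94) (nat_lit 84) (nat_lit 0) (XT.lf (nat_lit 0) (nat_lit 2242300101) (nat_lit 252) (nat_lit 23111262901) (nat_lit 336) (nat_lit 2477504381) (nat_lit 37) (nat_lit 5) (nat_lit 40) (nat_lit 5) (nat_lit 41) (nat_lit 5) (nat_lit 371) (nat_lit 316) (nat_lit 177)) (XT.lf (nat_lit 0) (nat_lit 499682505) (nat_lit 336) (nat_lit 16549834123) (nat_lit 84) (nat_lit 11416287476) (nat_lit 36) (nat_lit 5) (nat_lit 40) (nat_lit 5) (nat_lit 37) (nat_lit 5) (nat_lit 372) (nat_lit 316) (nat_lit 176))))) (XT.nd (nat_lit 282) (nat_lit 252) (nat_lit 0) (XT.nd (nat_lit 94) (nat_lit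 252) (nat_lit 0) (XT.lf (nat_lit 0) (nat_lit 3511907100) (nat_lit 336) (nat_lit 7263972289) (nat_lit 84) (nat_lit 18343747275) (nat_lit 36) (nat_lit 5) (nat_lit 40) (nat_lit 5) (nat_lit 37) (nat_lit 5) (nat_lit 373) (nat_lit 316) (nat_lit 175)) (XT.nd (nat_lit 94) (nat_lit 0) (nat_lit 0) (XT.lf (nat_lit 0) (nat_lit 2349385651) (nat_lit 252) (nat_lit 4285813852) (nat_lit 336) (nat_lit 23157984394) (nat_lit 33) (nat_lit 5) (nat_lit 36) (nat_lit 5) (nat_lit 37) (nat_lit 5) (nat_lit 374) (nat_lit 316) (nat_lit 174)) (XT.lf (nat_lit 0) (nat_lit 9950227828) (nat_lit 336) (nat_lit 18102945692) (nat_lit 84) (nat_lit 2431519641) (nat_lit 33) (nat_lit 5) (nat_lit 37) (nat_lit 5) (nat_lit 34) (nat_lit 5) (nat_lit 375) (nat_lit 316) (nat_lit 173)))) (XT.nd (nat_lit 94) (nat_lit 252) (nat_lit 0) (XT.lf (nat_lit 0) (nat_lit 13406477664) (nat_lit 336) (nat_lit 8523913417) (nat_lit 84) (nat_lit 9266069673)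 (nat_lit 33) (nat_lit 5) (nat_lit 37) (nat_lit 5) (nat_lit 34) (nat_lit 5) (nat_lit 376) (nat_lit 316) (nat_lit 172)) (XT.nd (nat_lit 94) (nat_lit 0) (nat_lit 0) (XT.lf (nat_lit 0) (nat_lit 1372393721) (nat_lit 252) (nat_lit 15605875388) (nat_lit 336) (nat_lit 14951776954) (nat_lit 30) (nat_lit 5) (nat_lit 33) (nat_lit 5) (nat_lit 34) (nat_lit 5) (nat_lit 377) (nat_lit 316) (nat_lit 171)) (XT.lf (nat_lit 0) (nat_lit 11748937220) (nat_lit 252) (nat_lit 8995689502) (nat_lit 336) (nat_lit 11939159590) (nat_lit 30) (nat_lit 5) (nat_lit 33) (nat_lit 5) (nat_lit 34) (nat_lit 5) (nat_lit 378) (nat_lit 316) (nat_lit 170))))))))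
noncomputable def xc153 : XT := (XT.nd (nat_lit 2256) (nat_lit 336) (nat_lit 0) (XT.nd (nat_lit 1128) (nat_lit 588) (nat_lit 0) (XT.nd (nat_lit 564) (nat_lit 168) (nat_lit 0) (XT.nd (nat_lit 282) (nat_lit 336) (nat_lit 0) (XT.nd (nat_lit 94) (nat_lit 168) (nat_lit 0) (XT.lf (nat_lit 0) (nat_lit 22440119965) (nat_lit 252) (nat_lit 2182644211) (nat_lit 336) (nat_lit 8838295098) (nat_lit 30) (nat_lit 5) (nat_lit 33) (nat_lit 5) (nat_lit 34) (nat_lit 5) (nat_lit 379) (nat_lit 316) (nat_lit 169)) (XT.nd (nat_lit 94) (nat_lit 168) (nat_lit 0) (XT.lf (nat_lit 0) (nat_lit 28664305841) (nat_lit 336) (nat_lit 854691731) (nat_lit 84) (nat_lit 4742103579) (nat_lit 30) (nat_lit 5) (nat_lit 34) (nat_lit 5) (nat_lit 31) (nat_lit 5) (nat_lit 380) (nat_lit 316) (nat_lit 168)) (XT.lf (nat_lit 0) (nat_lit 9794978508) (nat_lit 168) (nat_lit 23150945878) (nat_lit 252) (nat_lit 2136473210) (nat_lit 28) (nat_lit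 5) (nat_lit 30) (nat_lit 5) (nat_lit 31) (nat_lit 5) (nat_lit 381) (nat_lit 316) (nat_lit 167)))) (XT.nd (nat_lit 94) (nat_lit 252) (nat_lit 0) (XT.lf (nat_lit 0) (nat_lit 1406612435) (nat_lit 252) (nat_lit 15157051923) (nat_lit 84) (nat_lit 19364926654) (nat_lit 27) (nat_lit 5) (nat_lit 30) (nat_lit 5) (nat_lit 28) (nat_lit 5) (nat_lit 382) (nat_lit 316) (nat_lit 166)) (XT.nd (nat_lit 94) (nat_lit 252) (nat_lit 0) (XT.lf (nat_lit 0) (nat_lit 5010609977) (nat_lit 252) (nat_lit 4741083872) (nat_lit 84) (nat_lit 27048796766) (nat_lit 27) (nat_lit 5) (nat_lit 30) (nat_lit 5) (nat_lit 28) (nat_lit 5) (nat_lit 383) (nat_lit 316) (nat_lit 165)) (XT.lf (nat_lit 0) (nat_lit 6114583141) (nat_lit 252) (nat_lit 2667998171) (nat_lit 336) (nat_lit 28915104429) (nat_lit 24) (nat_lit 5) (nat_lit 27) (nat_lit 5) (nat_lit 28) (nat_lit 5) (nat_lit 384) (nat_lit 316) (nat_lit 164))))) (XT.nd (nat_lit 282)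 (nat_lit 0) (nat_lit 0) (XT.nd (nat_lit 94) (nat_lit 168) (nat_lit 0) (XT.lf (nat_lit 0) (nat_lit 12763102247) (nat_lit 336) (nat_lit 21266815682) (nat_lit 84) (nat_lit 4589945886) (nat_lit 24) (nat_lit 5) (nat_lit 28) (nat_lit 5) (nat_lit 25) (nat_lit 5) (nat_lit 385) (nat_lit 316) (nat_lit 163)) (XT.nd (nat_lit 94) (nat_lit 168) (nat_lit 0) (XT.lf (nat_lit 0) (nat_lit 16890080182) (nat_lit 336) (nat_lit 10664268611) (nat_lit 84) (nat_lit 12015575495) (nat_lit 24) (nat_lit 5) (nat_lit 28) (nat_lit 5) (nat_lit 25) (nat_lit 5) (nat_lit 386) (nat_lit 316) (nat_lit 162)) (XT.lf (nat_lit 0) (nat_lit 266252562) (nat_lit 168) (nat_lit 20877283716) (nat_lit 252) (nat_lit 19405955034) (nat_lit 22) (nat_lit 5) (nat_lit 24) (nat_lit 5) (nat_lit 25) (nat_lit 5) (nat_lit 387) (nat_lit 316) (nat_lit 161)))) (XT.nd (nat_lit 94) (nat_lit 0) (nat_lit 0) (XT.lf (nat_lit 0) (nat_lit 11755688978) (nat_lit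 168) (nat_lit 13880437880) (nat_lit 252) (nat_lit 15919981648) (nat_lit 22) (nat_lit 5) (nat_lit 24) (nat_lit 5) (nat_lit 25) (nat_lit 5) (nat_lit 388) (nat_lit 316) (nat_lit 160)) (XT.nd (nat_lit 94) (nat_lit 0) (nat_lit 0) (XT.lf (nat_lit 0) (nat_lit 23595470759) (nat_lit 168) (nat_lit 6668602584) (nat_lit 252) (nat_lit 12329987748) (nat_lit 22) (nat_lit 5) (nat_lit 24) (nat_lit 5) (nat_lit 25) (nat_lit 5) (nat_lit 389) (nat_lit 316) (nat_lit 159)) (XT.lf (nat_lit 0) (nat_lit 35039277809) (nat_lit 252) (nat_lit 7875271071) (nat_lit 84) (nat_lit 749532432) (nat_lit 22) (nat_lit 5) (nat_lit 25) (nat_lit 5) (nat_lit 23) (nat_lit 5) (nat_lit 390) (nat_lit 316) (nat_lit 158)))))) (XT.nd (nat_lit 564) (nat_lit 168) (nat_lit 0) (XT.nd (nat_lit 282) (nat_lit 168) (nat_lit 0) (XT.nd (nat_lit 94) (nat_lit 84) (nat_lit 0) (XT.lf (nat_lit 0) (nat_lit 3591439775) (nat_lit 168) (nat_lit 36471205083)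 (nat_lit 252) (nat_lit 4701531615) (nat_lit 20) (nat_lit 5) (nat_lit 22) (nat_lit 5) (nat_lit 23) (nat_lit 5) (nat_lit 391) (nat_lit 316) (nat_lit 157)) (XT.nd (nat_lit 94) (nat_lit 84) (nat_lit 0) (XT.lf (nat_lit 0) (nat_lit 15575040124) (nat_lit 168) (nat_lit 29745253849) (nat_lit 252) (nat_lit 575653457) (nat_lit 20) (nat_lit 5) (nat_lit 22) (nat_lit 5) (nat_lit 23) (nat_lit 5) (nat_lit 392) (nat_lit 316) (nat_lit 156)) (XT.lf (nat_lit 0) (nat_lit 3600442558) (nat_lit 252) (nat_lit 19174603769) (nat_lit 84) (nat_lit 24286744426) (nat_lit 19) (nat_lit 5) (nat_lit 22) (nat_lit 5) (nat_lit 20) (nat_lit 5) (nat_lit 393) (nat_lit 316) (nat_lit 155)))) (XT.nd (nat_lit 94) (nat_lit 168) (nat_lit 0) (XT.lf (nat_lit 0) (nat_lit 7890569162) (nat_lit 252) (nat_lit 7693933770) (nat_lit 84) (nat_lit 32679204783) (nat_lit 19) (nat_lit 5) (nat_lit 22) (nat_lit 5) (nat_lit 20) (nat_lit 5) (nat_lit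 394) (nat_lit 316) (nat_lit 154)) (XT.nd (nat_lit 94) (nat_lit 0) (nat_lit 0) (XT.lf (nat_lit 0) (nat_lit 4222590210) (nat_lit 168) (nat_lit 8129621743) (nat_lit 252) (nat_lit 37149485159) (nat_lit 17) (nat_lit 5) (nat_lit 19) (nat_lit 5) (nat_lit 20) (nat_lit 5) (nat_lit 395) (nat_lit 316) (nat_lit 153)) (XT.lf (nat_lit 0) (nat_lit 16666563080) (nat_lit 168) (nat_lit 362596042) (nat_lit 252) (nat_lit 33746525242) (nat_lit 17) (nat_lit 5) (nat_lit 19) (nat_lit 5) (nat_lit 20) (nat_lit 5) (nat_lit 396) (nat_lit 316) (nat_lit 152))))) (XT.nd (nat_lit 282) (nat_lit 0) (nat_lit 0) (XT.nd (nat_lit 94) (nat_lit 168) (nat_lit 0) (XT.lf (nat_lit 0) (nat_lit 21923700420) (nat_lit 252) (nat_lit 22673715329) (nat_lit 84) (nat_lit 7489505371) (nat_lit 17) (nat_lit 5) (nat_lit 20) (nat_lit 5) (nat_lit 18) (nat_lit 5) (nat_lit 397) (nat_lit 316) (nat_lit 151)) (XT.nd (nat_lit 94) (nat_lit 168) (nat_lit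 0) (XT.lf (nat_lit 0) (nat_lit 26970545563) (nat_lit 252) (nat_lit 10892377532) (nat_lit 84) (nat_lit 15575871924) (nat_lit 17) (nat_lit 5) (nat_lit 20) (nat_lit 5) (nat_lit 18) (nat_lit 5) (nat_lit 398) (nat_lit 316) (nat_lit 150)) (XT.lf (nat_lit 0) (nat_lit 1275162222) (nat_lit 168) (nat_lit 30908289286) (nat_lit 252) (nat_lit 22648834004) (nat_lit 15) (nat_lit 5) (nat_lit 17) (nat_lit 5) (nat_lit 18) (nat_lit 5) (nat_lit 399) (nat_lit 316) (nat_lit 149)))) (XT.nd (nat_lit 94) (nat_lit 0) (nat_lit 0) (XT.lf (nat_lit 0) (nat_lit 14046144894) (nat_lit 168) (nat_lit 23622510741) (nat_lit 252) (nat_lit 18596893113) (nat_lit 15) (nat_lit 5) (nat_lit 17) (nat_lit 5) (nat_lit 18) (nat_lit 5) (nat_lit 400) (nat_lit 316) (nat_lit 148)) (XT.nd (nat_lit 94) (nat_lit 0) (nat_lit 0) (XT.lf (nat_lit 0) (nat_lit 27208504755) (nat_lit 168) (nat_lit 16112490432) (nat_lit 252) (nat_lit 14422344032)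 (nat_lit 15) (nat_lit 5) (nat_lit 17) (nat_lit 5) (nat_lit 18) (nat_lit 5) (nat_lit 401) (nat_lit 316) (nat_lit 147)) (XT.lf (nat_lit 0) (nat_lit 40774510505) (nat_lit 168) (nat_lit 8371228234) (nat_lit 252) (nat_lit 10121295644) (nat_lit 15) (nat_lit 5) (nat_lit 17) (nat_lit 5) (nat_lit 18) (nat_lit 5) (nat_lit 402) (nat_lit 316) (nat_lit 146))))))) (XT.nd (nat_lit 46530) (nat_lit 0) (nat_lit 8988) (XT.nd (nat_lit 564) (nat_lit 168) (nat_lit 0) (XT.nd (nat_lit 282) (nat_lit 0) (nat_lit 0) (XT.nd (nat_lit 94) (nat_lit 168) (nat_lit 0) (XT.lf (nat_lit 0) (nat_lit 54756807080) (nat_lit 168) (nat_lit 391508479) (nat_lit 252) (nat_lit 5689738922) (nat_lit 15) (nat_lit 5) (nat_lit 17) (nat_lit 5) (nat_lit 18) (nat_lit 5) (nat_lit 403) (nat_lit 316) (nat_lit 145)) (XT.nd (nat_lit 94) (nat_lit 84) (nat_lit 0) (XT.lf (nat_lit 0) (nat_lit 6769233230) (nat_lit 84) (nat_lit 54709954392) (nat_lit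 168) (nat_lit 974185374) (nat_lit 14) (nat_lit 5) (nat_lit 15) (nat_lit 5) (nat_lit 16) (nat_lit 4) (nat_lit 404) (nat_lit 316) (nat_lit 144)) (XT.lf (nat_lit 0) (nat_lit 3874694658) (nat_lit 168) (nat_lit 44017236753) (nat_lit 84) (nat_lit 16223615038) (nat_lit 13) (nat_lit 5) (nat_lit 15) (nat_lit 5) (nat_lit 14) (nat_lit 5) (nat_lit 405) (nat_lit 316) (nat_lit 143)))) (XT.nd (nat_lit 94) (nat_lit 0) (nat_lit 0) (XT.lf (nat_lit 0) (nat_lit 8851074442) (nat_lit 168) (nat_lit 32002714285) (nat_lit 84) (nat_lit 24975234633) (nat_lit 13) (nat_lit 5) (nat_lit 15) (nat_lit 5) (nat_lit 14) (nat_lit 5) (nat_lit 406) (nat_lit 316) (nat_lit 142)) (XT.nd (nat_lit 94) (nat_lit 0) (nat_lit 0) (XT.lf (nat_lit 0) (nat_lit 13979220150) (nat_lit 168) (nat_lit 19619709527) (nat_lit 84) (nat_lit 33996770775) (nat_lit 13) (nat_lit 5) (nat_lit 15) (nat_lit 5) (nat_lit 14) (nat_lit 5) (nat_lit 407) (nat_lit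 316) (nat_lit 141)) (XT.lf (nat_lit 0) (nat_lit 19263911749) (nat_lit 168) (nat_lit 6856680222) (nat_lit 84) (nat_lit 43296632481) (nat_lit 13) (nat_lit 5) (nat_lit 15) (nat_lit 5) (nat_lit 14) (nat_lit 5) (nat_lit 408) (nat_lit 316) (nat_lit 140))))) (XT.nd (nat_lit 45684) (nat_lit 0) (nat_lit 9744) (XT.nd (nat_lit 94) (nat_lit 0) (nat_lit 0) (XT.lf (nat_lit 0) (nat_lit 6427775460) (nat_lit 168) (nat_lit 18346063995) (nat_lit 252) (nat_lit 46519477065) (nat_lit 11) (nat_lit 5) (nat_lit 13) (nat_lit 5) (nat_lit 14) (nat_lit 5) (nat_lit 409) (nat_lit 316) (nat_lit 139)) (XT.nd (nat_lit 45496) (nat_lit 0) (nat_lit 9744) (XT.lf (nat_lit 0) (nat_lit 20265712197) (nat_lit 168) (nat_lit 10258112855) (nat_lit 252) (nat_lit 42701600051) (nat_lit 11) (nat_lit 5) (nat_lit 13) (nat_lit 5) (nat_lit 14) (nat_lit 5) (nat_lit 410) (nat_lit 316) (nat_lit 138)) (XT.lf (nat_lit 0) (nat_lit 1288988657)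 (nat_lit 1092) (nat_lit 1967202135) (nat_lit 1092) (nat_lit 1967202135) (nat_lit 127) (nat_lit 3) (nat_lit 140) (nat_lit 3) (nat_lit 140) (nat_lit 5) (nat_lit 317) (nat_lit 317) (nat_lit 230)))) (XT.nd (nat_lit 94) (nat_lit 0) (nat_lit 84) (XT.lf (nat_lit 84) (nat_lit 121680336) (nat_lit 0) (nat_lit 3049941777) (nat_lit 1092) (nat_lit 7417741216) (nat_lit 128) (nat_lit 5) (nat_lit 127) (nat_lit 3) (nat_lit 140) (nat_lit 5) (nat_lit 318) (nat_lit 317) (nat_lit 229)) (XT.nd (nat_lit 94) (nat_lit 0) (nat_lit 0) (XT.lf (nat_lit 0) (nat_lit 3808040143) (nat_lit 1008) (nat_lit 6366397858) (nat_lit 1092) (nat_lit 561255212) (nat_lit 128) (nat_lit 5) (nat_lit 140) (nat_lit 5) (nat_lit 141) (nat_lit 5) (nat_lit 319) (nat_lit 317) (nat_lit 228)) (XT.lf (nat_lit 0) (nat_lit 4473776877) (nat_lit 1008) (nat_lit 2181430692) (nat_lit 1092) (nat_lit 4231139806) (nat_lit 128) (nat_lit 5) (nat_lit 140)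 (nat_lit 5) (nat_lit 141) (nat_lit 5) (nat_lit 320) (nat_lit 317) (nat_lit 227)))))) (XT.nd (nat_lit 564) (nat_lit 840) (nat_lit 0) (XT.nd (nat_lit 282) (nat_lit 0) (nat_lit 84) (XT.nd (nat_lit 94) (nat_lit 0) (nat_lit 84) (XT.lf (nat_lit 84) (nat_lit 2164994953) (nat_lit 0) (nat_lit 2995679119) (nat_lit 1092) (nat_lit 5881064317) (nat_lit 129) (nat_lit 5) (nat_lit 128) (nat_lit 5) (nat_lit 141) (nat_lit 5) (nat_lit 321) (nat_lit 317) (nat_lit 226)) (XT.nd (nat_lit 94) (nat_lit 0) (nat_lit 0) (XT.lf (nat_lit 0) (nat_lit 5879223304) (nat_lit 1008) (nat_lit 4529354249) (nat_lit 1092) (nat_lit 793128148) (nat_lit 129) (nat_lit 5) (nat_lit 141) (nat_lit 5) (nat_lit 142) (nat_lit 5) (nat_lit 322) (nat_lit 317) (nat_lit 225)) (XT.lf (nat_lit 0) (nat_lit 6630943169) (nat_lit 1008) (nat_lit 90031473) (nat_lit 1092) (nat_lit 4645397461) (nat_lit 129) (nat_lit 5) (nat_lit 141) (nat_lit 5) (nat_lit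 142) (nat_lit 5) (nat_lit 323) (nat_lit 317) (nat_lit 224)))) (XT.nd (nat_lit 94) (nat_lit 0) (nat_lit 84) (XT.lf (nat_lit 84) (nat_lit 4567097141) (nat_lit 0) (nat_lit 2865025871) (nat_lit 1092) (nat_lit 4103284824) (nat_lit 130) (nat_lit 5) (nat_lit 129) (nat_lit 5) (nat_lit 142) (nat_lit 5) (nat_lit 324) (nat_lit 317) (nat_lit 223)) (XT.nd (nat_lit 94) (nat_lit 0) (nat_lit 0) (XT.lf (nat_lit 0) (nat_lit 8251484010) (nat_lit 1008) (nat_lit 2362606775) (nat_lit 1092) (nat_lit 1095872465) (nat_lit 130) (nat_lit 5) (nat_lit 142) (nat_lit 5) (nat_lit 143) (nat_lit 5) (nat_lit 325) (nat_lit 317) (nat_lit 222)) (XT.lf (nat_lit 84) (nat_lit 2392721187) (nat_lit 0) (nat_lit 6738501811) (nat_lit 1092) (nat_lit 2757693627) (nat_lit 131) (nat_lit 5) (nat_lit 130) (nat_lit 5) (nat_lit 143) (nat_lit 5) (nat_lit 326) (nat_lit 317) (nat_lit 221))))) (XT.nd (nat_lit 282) (nat_lit 1008) (nat_lit 0)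 (XT.nd (nat_lit 94) (nat_lit 0) (nat_lit 84) (XT.lf (nat_lit 84) (nat_lit 7333614116) (nat_lit 0) (nat_lit 2711644422) (nat_lit 1092) (nat_lit 2028010169) (nat_lit 131) (nat_lit 5) (nat_lit 130) (nat_lit 5) (nat_lit 143) (nat_lit 5) (nat_lit 327) (nat_lit 317) (nat_lit 220)) (XT.nd (nat_lit 94) (nat_lit 0) (nat_lit 0) (XT.lf (nat_lit 84) (nat_lit 140658246) (nat_lit 0) (nat_lit 10845600711) (nat_lit 1092) (nat_lit 1277186069) (nat_lit 132) (nat_lit 5) (nat_lit 131) (nat_lit 5) (nat_lit 144) (nat_lit 5) (nat_lit 328) (nat_lit 317) (nat_lit 219)) (XT.lf (nat_lit 84) (nat_lit 5232329478) (nat_lit 0) (nat_lit 6784367747) (nat_lit 1092) (nat_lit 441016149) (nat_lit 132) (nat_lit 5) (nat_lit 131) (nat_lit 5) (nat_lit 144) (nat_lit 5) (nat_lit 329) (nat_lit 317) (nat_lit 218)))) (XT.nd (nat_lit 94) (nat_lit 0) (nat_lit 84) (XT.lf (nat_lit 0) (nat_lit 396206924) (nat_lit 1092) (nat_lit 2192478029)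 (nat_lit 1176) (nat_lit 10069758507) (nat_lit 118) (nat_lit 5) (nat_lit 131) (nat_lit 5) (nat_lit 132) (nat_lit 5) (nat_lit 330) (nat_lit 317) (nat_lit 217)) (XT.nd (nat_lit 94) (nat_lit 0) (nat_lit 0) (XT.lf (nat_lit 0) (nat_lit 1282130149) (nat_lit 1092) (nat_lit 9841059053) (nat_lit 1176) (nat_lit 1741137189) (nat_lit 119) (nat_lit 5) (nat_lit 132) (nat_lit 5) (nat_lit 133) (nat_lit 5) (nat_lit 331) (nat_lit 317) (nat_lit 216)) (XT.lf (nat_lit 0) (nat_lit 2229621082) (nat_lit 1092) (nat_lit 4667644692) (nat_lit 1176) (nat_lit 6178326074) (nat_lit 119) (nat_lit 5) (nat_lit 132) (nat_lit 5) (nat_lit 133) (nat_lit 5) (nat_lit 332) (nat_lit 317) (nat_lit 215))))))))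
noncomputable def xc154 : XT := (XT.nd (nat_lit 2256) (nat_lit 2520) (nat_lit 0) (XT.nd (nat_lit 1128) (nat_lit 2268) (nat_lit 0) (XT.nd (nat_lit 564) (nat_lit 1176) (nat_lit 0) (XT.nd (nat_lit 282) (nat_lit 1512) (nat_lit 0) (XT.nd (nat_lit 94) (nat_lit 0) (nat_lit 84) (XT.lf (nat_lit 84) (nat_lit 667734264) (nat_lit 0) (nat_lit 2530348661) (nat_lit 1176) (nat_lit 10095639707) (nat_lit 120) (nat_lit 5) (nat_lit 119) (nat_lit 5) (nat_lit 133) (nat_lit 5) (nat_lit 333) (nat_lit 317) (nat_lit 214)) (XT.nd (nat_lit 94) (nat_lit 0) (nat_lit 0) (XT.lf (nat_lit 0) (nat_lit 4250687114) (nat_lit 1092) (nat_lit 7281986846) (nat_lit 84) (nat_lit 1984317771) (nat_lit 120) (nat_lit 5) (nat_lit 133) (nat_lit 5) (nat_lit 121) (nat_lit 5) (nat_lit 334) (nat_lit 317) (nat_lit 213)) (XT.lf (nat_lit 0) (nat_lit 5347581544) (nat_lit 1092) (nat_lit 1810114549) (nat_lit 84) (nat_lit 6589176995) (nat_lit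 120) (nat_lit 5) (nat_lit 133) (nat_lit 5) (nat_lit 121) (nat_lit 5) (nat_lit 335) (nat_lit 317) (nat_lit 212)))) (XT.nd (nat_lit 94) (nat_lit 504) (nat_lit 0) (XT.lf (nat_lit 0) (nat_lit 3898373796) (nat_lit 1092) (nat_lit 2604985818) (nat_lit 1176) (nat_lit 7479800662) (nat_lit 107) (nat_lit 5) (nat_lit 120) (nat_lit 5) (nat_lit 121) (nat_lit 5) (nat_lit 336) (nat_lit 317) (nat_lit 211)) (XT.nd (nat_lit 94) (nat_lit 504) (nat_lit 0) (XT.lf (nat_lit 0) (nat_lit 7721304826) (nat_lit 1176) (nat_lit 4436829268) (nat_lit 84) (nat_lit 2067871053) (nat_lit 107) (nat_lit 5) (nat_lit 121) (nat_lit 5) (nat_lit 108) (nat_lit 5) (nat_lit 337) (nat_lit 317) (nat_lit 210)) (XT.lf (nat_lit 0) (nat_lit 1375721672) (nat_lit 504) (nat_lit 7628509075) (nat_lit 588) (nat_lit 5471351282) (nat_lit 101) (nat_lit 5) (nat_lit 107) (nat_lit 5) (nat_lit 108) (nat_lit 5) (nat_lit 338) (nat_lit 317) (nat_lit 209)))))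 (XT.nd (nat_lit 282) (nat_lit 588) (nat_lit 0) (XT.nd (nat_lit 94) (nat_lit 588) (nat_lit 0) (XT.lf (nat_lit 0) (nat_lit 7451069462) (nat_lit 504) (nat_lit 2909382779) (nat_lit 588) (nat_lit 4371450623) (nat_lit 101) (nat_lit 5) (nat_lit 107) (nat_lit 5) (nat_lit 108) (nat_lit 5) (nat_lit 339) (nat_lit 317) (nat_lit 208)) (XT.nd (nat_lit 94) (nat_lit 588) (nat_lit 0) (XT.lf (nat_lit 0) (nat_lit 11765731514) (nat_lit 588) (nat_lit 1312369385) (nat_lit 84) (nat_lit 1917896233) (nat_lit 101) (nat_lit 5) (nat_lit 108) (nat_lit 5) (nat_lit 102) (nat_lit 5) (nat_lit 340) (nat_lit 317) (nat_lit 207)) (XT.lf (nat_lit 0) (nat_lit 4898860596) (nat_lit 588) (nat_lit 8382050599) (nat_lit 672) (nat_lit 1985354283) (nat_lit 94) (nat_lit 5) (nat_lit 101) (nat_lit 5) (nat_lit 102) (nat_lit 5) (nat_lit 341) (nat_lit 317) (nat_lit 206)))) (XT.nd (nat_lit 94) (nat_lit 588) (nat_lit 0) (XT.lf (nat_lit 0)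 (nat_lit 11319372248) (nat_lit 588) (nat_lit 3525622271) (nat_lit 672) (nat_lit 699899983) (nat_lit 94) (nat_lit 5) (nat_lit 101) (nat_lit 5) (nat_lit 102) (nat_lit 5) (nat_lit 342) (nat_lit 317) (nat_lit 205)) (XT.nd (nat_lit 94) (nat_lit 0) (nat_lit 0) (XT.lf (nat_lit 0) (nat_lit 637369302) (nat_lit 588) (nat_lit 13714204416) (nat_lit 84) (nat_lit 1479673205) (nat_lit 87) (nat_lit 5) (nat_lit 94) (nat_lit 5) (nat_lit 88) (nat_lit 5) (nat_lit 343) (nat_lit 317) (nat_lit 204)) (XT.lf (nat_lit 0) (nat_lit 2070846119) (nat_lit 588) (nat_lit 7434286016) (nat_lit 84) (nat_lit 6619012798) (nat_lit 87) (nat_lit 5) (nat_lit 94) (nat_lit 5) (nat_lit 88) (nat_lit 5) (nat_lit 344) (nat_lit 317) (nat_lit 203)))))) (XT.nd (nat_lit 564) (nat_lit 1344) (nat_lit 0) (XT.nd (nat_lit 282) (nat_lit 420) (nat_lit 0) (XT.nd (nat_lit 94) (nat_lit 504) (nat_lit 0) (XT.lf (nat_lit 0) (nat_lit 3537776281) (nat_lit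 588) (nat_lit 970664347) (nat_lit 84) (nat_lit 11918060093) (nat_lit 87) (nat_lit 5) (nat_lit 94) (nat_lit 5) (nat_lit 88) (nat_lit 5) (nat_lit 345) (nat_lit 317) (nat_lit 202)) (XT.nd (nat_lit 94) (nat_lit 0) (nat_lit 0) (XT.lf (nat_lit 0) (nat_lit 5104027833) (nat_lit 588) (nat_lit 10944248225) (nat_lit 84) (nat_lit 688320537) (nat_lit 81) (nat_lit 5) (nat_lit 88) (nat_lit 5) (nat_lit 82) (nat_lit 5) (nat_lit 346) (nat_lit 317) (nat_lit 201)) (XT.lf (nat_lit 0) (nat_lit 6764739989) (nat_lit 588) (nat_lit 4327507957) (nat_lit 84) (nat_lit 5962669593) (nat_lit 81) (nat_lit 5) (nat_lit 88) (nat_lit 5) (nat_lit 82) (nat_lit 5) (nat_lit 347) (nat_lit 317) (nat_lit 200)))) (XT.nd (nat_lit 94) (nat_lit 0) (nat_lit 0) (XT.lf (nat_lit 0) (nat_lit 2534856240) (nat_lit 420) (nat_lit 5957098651) (nat_lit 504) (nat_lit 8890720049) (nat_lit 76) (nat_lit 5) (nat_lit 81) (nat_lit 5) (nat_lit 82) (nat_lit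 5) (nat_lit 348) (nat_lit 317) (nat_lit 199)) (XT.nd (nat_lit 94) (nat_lit 0) (nat_lit 0) (XT.lf (nat_lit 0) (nat_lit 9691234878) (nat_lit 420) (nat_lit 616724154) (nat_lit 504) (nat_lit 7411574297) (nat_lit 76) (nat_lit 5) (nat_lit 81) (nat_lit 5) (nat_lit 82) (nat_lit 5) (nat_lit 349) (nat_lit 317) (nat_lit 198)) (XT.lf (nat_lit 0) (nat_lit 12219129329) (nat_lit 504) (nat_lit 1056345199) (nat_lit 84) (nat_lit 4790186956) (nat_lit 76) (nat_lit 5) (nat_lit 82) (nat_lit 5) (nat_lit 77) (nat_lit 5) (nat_lit 350) (nat_lit 317) (nat_lit 197))))) (XT.nd (nat_lit 282) (nat_lit 504) (nat_lit 0) (XT.nd (nat_lit 94) (nat_lit 420) (nat_lit 0) (XT.lf (nat_lit 0) (nat_lit 6241017760) (nat_lit 420) (nat_lit 8007405587) (nat_lit 504) (nat_lit 4172302225) (nat_lit 71) (nat_lit 5) (nat_lit 76) (nat_lit 5) (nat_lit 77) (nat_lit 5) (nat_lit 351) (nat_lit 317) (nat_lit 196)) (XT.nd (nat_lit 94) (nat_lit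 420) (nat_lit 0) (XT.lf (nat_lit 0) (nat_lit 13776939946) (nat_lit 420) (nat_lit 2565550909) (nat_lit 504) (nat_lit 2444278187) (nat_lit 71) (nat_lit 5) (nat_lit 76) (nat_lit 5) (nat_lit 77) (nat_lit 5) (nat_lit 352) (nat_lit 317) (nat_lit 195)) (XT.lf (nat_lit 0) (nat_lit 2390219783) (nat_lit 420) (nat_lit 16156278897) (nat_lit 504) (nat_lit 616294746) (nat_lit 66) (nat_lit 5) (nat_lit 71) (nat_lit 5) (nat_lit 72) (nat_lit 5) (nat_lit 353) (nat_lit 317) (nat_lit 194)))) (XT.nd (nat_lit 94) (nat_lit 420) (nat_lit 0) (XT.lf (nat_lit 0) (nat_lit 1313026171) (nat_lit 504) (nat_lit 9472488770) (nat_lit 84) (nat_lit 8762420190) (nat_lit 65) (nat_lit 5) (nat_lit 71) (nat_lit 5) (nat_lit 66) (nat_lit 5) (nat_lit 354) (nat_lit 317) (nat_lit 193)) (XT.nd (nat_lit 94) (nat_lit 420) (nat_lit 0) (XT.lf (nat_lit 0) (nat_lit 3280777833) (nat_lit 504) (nat_lit 1962253749) (nat_lit 84) (nat_lit 14702081862)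 (nat_lit 65) (nat_lit 5) (nat_lit 71) (nat_lit 5) (nat_lit 66) (nat_lit 5) (nat_lit 355) (nat_lit 317) (nat_lit 192)) (XT.lf (nat_lit 0) (nat_lit 5364900415) (nat_lit 504) (nat_lit 14468423090) (nat_lit 84) (nat_lit 519590236) (nat_lit 60) (nat_lit 5) (nat_lit 66) (nat_lit 5) (nat_lit 61) (nat_lit 5) (nat_lit 356) (nat_lit 317) (nat_lit 191))))))) (XT.nd (nat_lit 1128) (nat_lit 1092) (nat_lit 0) (XT.nd (nat_lit 564) (nat_lit 756) (nat_lit 0) (XT.nd (nat_lit 282) (nat_lit 336) (nat_lit 0) (XT.nd (nat_lit 94) (nat_lit 336) (nat_lit 0) (XT.lf (nat_lit 0) (nat_lit 7579771093) (nat_lit 504) (nat_lit 6820193118) (nat_lit 84) (nat_lit 6371366451) (nat_lit 60) (nat_lit 5) (nat_lit 66) (nat_lit 5) (nat_lit 61) (nat_lit 5) (nat_lit 357) (nat_lit 317) (nat_lit 190)) (XT.nd (nat_lit 94) (nat_lit 0) (nat_lit 0) (XT.lf (nat_lit 0) (nat_lit 1077409978) (nat_lit 336) (nat_lit 8788651657) (nat_lit 420)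 (nat_lit 11336595756) (nat_lit 56) (nat_lit 5) (nat_lit 60) (nat_lit 5) (nat_lit 61) (nat_lit 5) (nat_lit 358) (nat_lit 317) (nat_lit 189)) (XT.lf (nat_lit 0) (nat_lit 9355089330) (nat_lit 336) (nat_lit 2931543335) (nat_lit 420) (nat_lit 9358780688) (nat_lit 56) (nat_lit 5) (nat_lit 60) (nat_lit 5) (nat_lit 61) (nat_lit 5) (nat_lit 359) (nat_lit 317) (nat_lit 188)))) (XT.nd (nat_lit 94) (nat_lit 336) (nat_lit 0) (XT.lf (nat_lit 0) (nat_lit 14805500327) (nat_lit 420) (nat_lit 4252636545) (nat_lit 84) (nat_lit 3043059814) (nat_lit 56) (nat_lit 5) (nat_lit 61) (nat_lit 5) (nat_lit 57) (nat_lit 5) (nat_lit 360) (nat_lit 317) (nat_lit 187)) (XT.nd (nat_lit 94) (nat_lit 0) (nat_lit 0) (XT.lf (nat_lit 0) (nat_lit 4077370504) (nat_lit 336) (nat_lit 13388176395) (nat_lit 420) (nat_lit 5103628759) (nat_lit 52) (nat_lit 5) (nat_lit 56) (nat_lit 5) (nat_lit 57) (nat_lit 5) (nat_lit 361) (nat_lit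 317) (nat_lit 186)) (XT.lf (nat_lit 0) (nat_lit 12746836833) (nat_lit 336) (nat_lit 7498402158) (nat_lit 420) (nat_lit 2805291883) (nat_lit 52) (nat_lit 5) (nat_lit 56) (nat_lit 5) (nat_lit 57) (nat_lit 5) (nat_lit 362) (nat_lit 317) (nat_lit 185))))) (XT.nd (nat_lit 282) (nat_lit 336) (nat_lit 0) (XT.nd (nat_lit 94) (nat_lit 420) (nat_lit 0) (XT.lf (nat_lit 0) (nat_lit 21676400362) (nat_lit 336) (nat_lit 1427713079) (nat_lit 420) (nat_lit 442932246) (nat_lit 52) (nat_lit 5) (nat_lit 56) (nat_lit 5) (nat_lit 57) (nat_lit 5) (nat_lit 363) (nat_lit 317) (nat_lit 184)) (XT.nd (nat_lit 94) (nat_lit 0) (nat_lit 0) (XT.lf (nat_lit 0) (nat_lit 2063258860) (nat_lit 420) (nat_lit 17170021295) (nat_lit 84) (nat_lit 4821646099) (nat_lit 47) (nat_lit 5) (nat_lit 52) (nat_lit 5) (nat_lit 48) (nat_lit 5) (nat_lit 364) (nat_lit 317) (nat_lit 183)) (XT.lf (nat_lit 0) (nat_lit 4665506820) (nat_lit 420)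 (nat_lit 8654425178) (nat_lit 84) (nat_lit 11257643269) (nat_lit 47) (nat_lit 5) (nat_lit 52) (nat_lit 5) (nat_lit 48) (nat_lit 5) (nat_lit 365) (nat_lit 317) (nat_lit 182)))) (XT.nd (nat_lit 94) (nat_lit 0) (nat_lit 0) (XT.lf (nat_lit 0) (nat_lit 119134386) (nat_lit 336) (nat_lit 7223913346) (nat_lit 420) (nat_lit 17773563890) (nat_lit 43) (nat_lit 5) (nat_lit 47) (nat_lit 5) (nat_lit 48) (nat_lit 5) (nat_lit 366) (nat_lit 317) (nat_lit 181)) (XT.nd (nat_lit 94) (nat_lit 0) (nat_lit 0) (XT.lf (nat_lit 0) (nat_lit 9339808487) (nat_lit 336) (nat_lit 847674330) (nat_lit 420) (nat_lit 15482292671) (nat_lit 43) (nat_lit 5) (nat_lit 47) (nat_lit 5) (nat_lit 48) (nat_lit 5) (nat_lit 367) (nat_lit 317) (nat_lit 180)) (XT.lf (nat_lit 0) (nat_lit 13170631802) (nat_lit 420) (nat_lit 7458846308) (nat_lit 84) (nat_lit 5609060141) (nat_lit 43) (nat_lit 5) (nat_lit 48) (nat_lit 5) (nat_lit 44) (nat_lit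 5) (nat_lit 368) (nat_lit 317) (nat_lit 179)))))) (XT.nd (nat_lit 564) (nat_lit 504) (nat_lit 0) (XT.nd (nat_lit 282) (nat_lit 336) (nat_lit 0) (XT.nd (nat_lit 94) (nat_lit 0) (nat_lit 0) (XT.lf (nat_lit 0) (nat_lit 1704931398) (nat_lit 252) (nat_lit 14560829850) (nat_lit 336) (nat_lit 10558583743) (nat_lit 40) (nat_lit 5) (nat_lit 43) (nat_lit 5) (nat_lit 44) (nat_lit 5) (nat_lit 369) (nat_lit 317) (nat_lit 178)) (XT.nd (nat_lit 94) (nat_lit 0) (nat_lit 0) (XT.lf (nat_lit 0) (nat_lit 11302962538) (nat_lit 252) (nat_lit 8225756202) (nat_lit 336) (nat_lit 7897381164) (nat_lit 40) (nat_lit 5) (nat_lit 43) (nat_lit 5) (nat_lit 44) (nat_lit 5) (nat_lit 370) (nat_lit 317) (nat_lit 177)) (XT.lf (nat_lit 0) (nat_lit 21190824302) (nat_lit 252) (nat_lit 1696207273) (nat_lit 336) (nat_lit 5159673250) (nat_lit 40) (nat_lit 5) (nat_lit 43) (nat_lit 5) (nat_lit 44) (nat_lit 5) (nat_lit 371) (nat_lit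 317) (nat_lit 176)))) (XT.nd (nat_lit 94) (nat_lit 84) (nat_lit 0) (XT.lf (nat_lit 0) (nat_lit 2695363618) (nat_lit 252) (nat_lit 23725141716) (nat_lit 336) (nat_lit 2263855953) (nat_lit 37) (nat_lit 5) (nat_lit 40) (nat_lit 5) (nat_lit 41) (nat_lit 5) (nat_lit 372) (nat_lit 317) (nat_lit 175)) (XT.nd (nat_lit 94) (nat_lit 0) (nat_lit 0) (XT.lf (nat_lit 0) (nat_lit 791214488) (nat_lit 336) (nat_lit 16684469584) (nat_lit 84) (nat_lit 11863288858) (nat_lit 36) (nat_lit 5) (nat_lit 40) (nat_lit 5) (nat_lit 37) (nat_lit 5) (nat_lit 373) (nat_lit 317) (nat_lit 174)) (XT.lf (nat_lit 0) (nat_lit 3888518049) (nat_lit 336) (nat_lit 7122124007) (nat_lit 84) (nat_lit 19002700696) (nat_lit 36) (nat_lit 5) (nat_lit 40) (nat_lit 5) (nat_lit 37) (nat_lit 5) (nat_lit 374) (nat_lit 317) (nat_lit 173))))) (XT.nd (nat_lit 282) (nat_lit 252) (nat_lit 0) (XT.nd (nat_lit 94) (nat_lit 0) (nat_lit 0) (XT.lf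 (nat_lit 0) (nat_lit 2785532165) (nat_lit 252) (nat_lit 4318654053) (nat_lit 336) (nat_lit 23603752693) (nat_lit 33) (nat_lit 5) (nat_lit 36) (nat_lit 5) (nat_lit 37) (nat_lit 5) (nat_lit 375) (nat_lit 317) (nat_lit 172)) (XT.nd (nat_lit 94) (nat_lit 0) (nat_lit 0) (XT.lf (nat_lit 0) (nat_lit 10515026056) (nat_lit 336) (nat_lit 18304139886) (nat_lit 84) (nat_lit 2601954798) (nat_lit 33) (nat_lit 5) (nat_lit 37) (nat_lit 5) (nat_lit 34) (nat_lit 5) (nat_lit 376) (nat_lit 317) (nat_lit 171)) (XT.lf (nat_lit 0) (nat_lit 14070711998) (nat_lit 336) (nat_lit 8438981965) (nat_lit 84) (nat_lit 9645517686) (nat_lit 33) (nat_lit 5) (nat_lit 37) (nat_lit 5) (nat_lit 34) (nat_lit 5) (nat_lit 377) (nat_lit 317) (nat_lit 170)))) (XT.nd (nat_lit 94) (nat_lit 0) (nat_lit 0) (XT.lf (nat_lit 0) (nat_lit 1760575633) (nat_lit 252) (nat_lit 15988606227) (nat_lit 336) (nat_lit 15162500699) (nat_lit 30) (nat_lit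 5) (nat_lit 33) (nat_lit 5) (nat_lit 34) (nat_lit 5) (nat_lit 378) (nat_lit 317) (nat_lit 169)) (XT.nd (nat_lit 94) (nat_lit 0) (nat_lit 0) (XT.lf (nat_lit 0) (nat_lit 12448399383) (nat_lit 252) (nat_lit 9176542978) (nat_lit 336) (nat_lit 12064092799) (nat_lit 30) (nat_lit 5) (nat_lit 33) (nat_lit 5) (nat_lit 34) (nat_lit 5) (nat_lit 379) (nat_lit 317) (nat_lit 168)) (XT.lf (nat_lit 0) (nat_lit 23460928677) (nat_lit 252) (nat_lit 2155240325) (nat_lit 336) (nat_lit 8874473577) (nat_lit 30) (nat_lit 5) (nat_lit 33) (nat_lit 5) (nat_lit 34) (nat_lit 5) (nat_lit 380) (nat_lit 317) (nat_lit 167))))))))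
noncomputable def xc155 : XT := (XT.nd (nat_lit 2256) (nat_lit 336) (nat_lit 0) (XT.nd (nat_lit 1128) (nat_lit 420) (nat_lit 0) (XT.nd (nat_lit 564) (nat_lit 336) (nat_lit 0) (XT.nd (nat_lit 282) (nat_lit 252) (nat_lit 0) (XT.nd (nat_lit 94) (nat_lit 252) (nat_lit 0) (XT.lf (nat_lit 0) (nat_lit 29776994571) (nat_lit 336) (nat_lit 559236194) (nat_lit 84) (nat_lit 4979458443) (nat_lit 30) (nat_lit 5) (nat_lit 34) (nat_lit 5) (nat_lit 31) (nat_lit 5) (nat_lit 381) (nat_lit 317) (nat_lit 166)) (XT.nd (nat_lit 94) (nat_lit 84) (nat_lit 0) (XT.lf (nat_lit 0) (nat_lit 10417314357) (nat_lit 168) (nat_lit 23770452320) (nat_lit 252) (nat_lit 1974806852) (nat_lit 28) (nat_lit 5) (nat_lit 30) (nat_lit 5) (nat_lit 31) (nat_lit 5) (nat_lit 382) (nat_lit 317) (nat_lit 165)) (XT.lf (nat_lit 0) (nat_lit 1666808508) (nat_lit 252) (nat_lit 15312847651) (nat_lit 84) (nat_lit 20055496659) (nat_lit 27) (nat_lit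 5) (nat_lit 30) (nat_lit 5) (nat_lit 28) (nat_lit 5) (nat_lit 383) (nat_lit 317) (nat_lit 164)))) (XT.nd (nat_lit 94) (nat_lit 252) (nat_lit 0) (XT.lf (nat_lit 0) (nat_lit 5376017535) (nat_lit 252) (nat_lit 4583428100) (nat_lit 84) (nat_lit 27974852899) (nat_lit 27) (nat_lit 5) (nat_lit 30) (nat_lit 5) (nat_lit 28) (nat_lit 5) (nat_lit 384) (nat_lit 317) (nat_lit 163)) (XT.nd (nat_lit 94) (nat_lit 0) (nat_lit 0) (XT.lf (nat_lit 0) (nat_lit 6605680492) (nat_lit 252) (nat_lit 2655914235) (nat_lit 336) (nat_lit 29597829946) (nat_lit 24) (nat_lit 5) (nat_lit 27) (nat_lit 5) (nat_lit 28) (nat_lit 5) (nat_lit 385) (nat_lit 317) (nat_lit 162)) (XT.lf (nat_lit 0) (nat_lit 13360207243) (nat_lit 336) (nat_lit 21627838419) (nat_lit 84) (nat_lit 4822323476) (nat_lit 24) (nat_lit 5) (nat_lit 28) (nat_lit 5) (nat_lit 25) (nat_lit 5) (nat_lit 386) (nat_lit 317) (nat_lit 161))))) (XT.nd (nat_lit 282)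 (nat_lit 168) (nat_lit 0) (XT.nd (nat_lit 94) (nat_lit 168) (nat_lit 0) (XT.lf (nat_lit 0) (nat_lit 17609064352) (nat_lit 336) (nat_lit 10705580095) (nat_lit 84) (nat_lit 12475438809) (nat_lit 24) (nat_lit 5) (nat_lit 28) (nat_lit 5) (nat_lit 25) (nat_lit 5) (nat_lit 387) (nat_lit 317) (nat_lit 160)) (XT.nd (nat_lit 94) (nat_lit 0) (nat_lit 0) (XT.lf (nat_lit 0) (nat_lit 560858526) (nat_lit 168) (nat_lit 21430484694) (nat_lit 252) (nat_lit 19808781281) (nat_lit 22) (nat_lit 5) (nat_lit 24) (nat_lit 5) (nat_lit 25) (nat_lit 5) (nat_lit 388) (nat_lit 317) (nat_lit 159)) (XT.lf (nat_lit 0) (nat_lit 12397857464) (nat_lit 168) (nat_lit 14219562863) (nat_lit 252) (nat_lit 16220718966) (nat_lit 22) (nat_lit 5) (nat_lit 24) (nat_lit 5) (nat_lit 25) (nat_lit 5) (nat_lit 389) (nat_lit 317) (nat_lit 158)))) (XT.nd (nat_lit 94) (nat_lit 168) (nat_lit 0) (XT.lf (nat_lit 0) (nat_lit 24596321360) (nat_lit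 168) (nat_lit 6786901921) (nat_lit 252) (nat_lit 12525231808) (nat_lit 22) (nat_lit 5) (nat_lit 24) (nat_lit 5) (nat_lit 25) (nat_lit 5) (nat_lit 390) (nat_lit 317) (nat_lit 157)) (XT.nd (nat_lit 94) (nat_lit 168) (nat_lit 0) (XT.lf (nat_lit 0) (nat_lit 36301868721) (nat_lit 252) (nat_lit 7853123490) (nat_lit 84) (nat_lit 856808413) (nat_lit 22) (nat_lit 5) (nat_lit 25) (nat_lit 5) (nat_lit 23) (nat_lit 5) (nat_lit 391) (nat_lit 317) (nat_lit 156)) (XT.lf (nat_lit 0) (nat_lit 3966359537) (nat_lit 168) (nat_lit 37511912237) (nat_lit 252) (nat_lit 4667822319) (nat_lit 20) (nat_lit 5) (nat_lit 22) (nat_lit 5) (nat_lit 23) (nat_lit 5) (nat_lit 392) (nat_lit 317) (nat_lit 155)))))) (XT.nd (nat_lit 564) (nat_lit 168) (nat_lit 0) (XT.nd (nat_lit 282) (nat_lit 168) (nat_lit 0) (XT.nd (nat_lit 94) (nat_lit 84) (nat_lit 0) (XT.lf (nat_lit 0) (nat_lit 16313526046) (nat_lit 168) (nat_lit 30580159624)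 (nat_lit 252) (nat_lit 419437826) (nat_lit 20) (nat_lit 5) (nat_lit 22) (nat_lit 5) (nat_lit 23) (nat_lit 5) (nat_lit 393) (nat_lit 317) (nat_lit 154)) (XT.nd (nat_lit 94) (nat_lit 0) (nat_lit 0) (XT.lf (nat_lit 0) (nat_lit 3877482028) (nat_lit 252) (nat_lit 19517288767) (nat_lit 84) (nat_lit 25120453576) (nat_lit 19) (nat_lit 5) (nat_lit 22) (nat_lit 5) (nat_lit 20) (nat_lit 5) (nat_lit 394) (nat_lit 317) (nat_lit 153)) (XT.lf (nat_lit 0) (nat_lit 8295628553) (nat_lit 252) (nat_lit 7688286922) (nat_lit 84) (nat_lit 33770650115) (nat_lit 19) (nat_lit 5) (nat_lit 22) (nat_lit 5) (nat_lit 20) (nat_lit 5) (nat_lit 395) (nat_lit 317) (nat_lit 152)))) (XT.nd (nat_lit 94) (nat_lit 0) (nat_lit 0) (XT.lf (nat_lit 0) (nat_lit 4595177414) (nat_lit 168) (nat_lit 8297977975) (nat_lit 252) (nat_lit 38137862818) (nat_lit 17) (nat_lit 5) (nat_lit 19) (nat_lit 5) (nat_lit 20) (nat_lit 5) (nat_lit 396)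 (nat_lit 317) (nat_lit 151)) (XT.nd (nat_lit 94) (nat_lit 0) (nat_lit 0) (XT.lf (nat_lit 0) (nat_lit 17417646427) (nat_lit 168) (nat_lit 292690018) (nat_lit 252) (nat_lit 34634319919) (nat_lit 17) (nat_lit 5) (nat_lit 19) (nat_lit 5) (nat_lit 20) (nat_lit 5) (nat_lit 397) (nat_lit 317) (nat_lit 150)) (XT.lf (nat_lit 0) (nat_lit 22752780694) (nat_lit 252) (nat_lit 23145088261) (nat_lit 84) (nat_lit 7798800872) (nat_lit 17) (nat_lit 5) (nat_lit 20) (nat_lit 5) (nat_lit 18) (nat_lit 5) (nat_lit 398) (nat_lit 317) (nat_lit 149))))) (XT.nd (nat_lit 282) (nat_lit 0) (nat_lit 0) (XT.nd (nat_lit 94) (nat_lit 168) (nat_lit 0) (XT.lf (nat_lit 0) (nat_lit 27951584523) (nat_lit 252) (nat_lit 11005490078) (nat_lit 84) (nat_lit 16133525927) (nat_lit 17) (nat_lit 5) (nat_lit 20) (nat_lit 5) (nat_lit 18) (nat_lit 5) (nat_lit 399) (nat_lit 317) (nat_lit 148)) (XT.nd (nat_lit 94) (nat_lit 0) (nat_lit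 0) (XT.lf (nat_lit 0) (nat_lit 1536970029) (nat_lit 168) (nat_lit 31786967142) (nat_lit 252) (nat_lit 23203427937) (nat_lit 15) (nat_lit 5) (nat_lit 17) (nat_lit 5) (nat_lit 18) (nat_lit 5) (nat_lit 400) (nat_lit 317) (nat_lit 147)) (XT.lf (nat_lit 0) (nat_lit 14697169739) (nat_lit 168) (nat_lit 24277719232) (nat_lit 252) (nat_lit 19030312492) (nat_lit 15) (nat_lit 5) (nat_lit 17) (nat_lit 5) (nat_lit 18) (nat_lit 5) (nat_lit 401) (nat_lit 317) (nat_lit 146)))) (XT.nd (nat_lit 94) (nat_lit 0) (nat_lit 0) (XT.lf (nat_lit 0) (nat_lit 28261080288) (nat_lit 168) (nat_lit 16537206207) (nat_lit 252) (nat_lit 14730654634) (nat_lit 15) (nat_lit 5) (nat_lit 17) (nat_lit 5) (nat_lit 18) (nat_lit 5) (nat_lit 402) (nat_lit 317) (nat_lit 145)) (XT.nd (nat_lit 94) (nat_lit 0) (nat_lit 0) (XT.lf (nat_lit 0) (nat_lit 42241344662) (nat_lit 168) (nat_lit 8558213101) (nat_lit 252) (nat_lit 10300446630)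 (nat_lit 15) (nat_lit 5) (nat_lit 17) (nat_lit 5) (nat_lit 18) (nat_lit 5) (nat_lit 403) (nat_lit 317) (nat_lit 144)) (XT.lf (nat_lit 0) (nat_lit 56650993930) (nat_lit 168) (nat_lit 333302654) (nat_lit 252) (nat_lit 5735559064) (nat_lit 15) (nat_lit 5) (nat_lit 17) (nat_lit 5) (nat_lit 18) (nat_lit 5) (nat_lit 404) (nat_lit 317) (nat_lit 143))))))) (XT.nd (nat_lit 46624) (nat_lit 0) (nat_lit 8988) (XT.nd (nat_lit 46060) (nat_lit 0) (nat_lit 9744) (XT.nd (nat_lit 282) (nat_lit 168) (nat_lit 0) (XT.nd (nat_lit 94) (nat_lit 84) (nat_lit 0) (XT.lf (nat_lit 0) (nat_lit 7177259094) (nat_lit 84) (nat_lit 56333009301) (nat_lit 168) (nat_lit 875024355) (nat_lit 14) (nat_lit 5) (nat_lit 15) (nat_lit 5) (nat_lit 16) (nat_lit 4) (nat_lit 405) (nat_lit 317) (nat_lit 142)) (XT.nd (nat_lit 94) (nat_lit 0) (nat_lit 0) (XT.lf (nat_lit 0) (nat_lit 4117753388) (nat_lit 168) (nat_lit 45186784509) (nat_lit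 84) (nat_lit 16794541423) (nat_lit 13) (nat_lit 5) (nat_lit 15) (nat_lit 5) (nat_lit 14) (nat_lit 5) (nat_lit 406) (nat_lit 317) (nat_lit 141)) (XT.lf (nat_lit 0) (nat_lit 9244704302) (nat_lit 168) (nat_lit 32805674680) (nat_lit 84) (nat_lit 25815416779) (nat_lit 13) (nat_lit 5) (nat_lit 15) (nat_lit 5) (nat_lit 14) (nat_lit 5) (nat_lit 407) (nat_lit 317) (nat_lit 140)))) (XT.nd (nat_lit 94) (nat_lit 168) (nat_lit 0) (XT.lf (nat_lit 0) (nat_lit 14528237034) (nat_lit 168) (nat_lit 20044483328) (nat_lit 84) (nat_lit 35114637568) (nat_lit 13) (nat_lit 5) (nat_lit 15) (nat_lit 5) (nat_lit 14) (nat_lit 5) (nat_lit 408) (nat_lit 317) (nat_lit 139)) (XT.nd (nat_lit 94) (nat_lit 168) (nat_lit 0) (XT.lf (nat_lit 0) (nat_lit 19973276388) (nat_lit 168) (nat_lit 6891315685) (nat_lit 84) (nat_lit 44700871637) (nat_lit 13) (nat_lit 5) (nat_lit 15) (nat_lit 5) (nat_lit 14) (nat_lit 5) (nat_lit 409)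 (nat_lit 317) (nat_lit 138)) (XT.lf (nat_lit 0) (nat_lit 6803156827) (nat_lit 168) (nat_lit 18849229044) (nat_lit 252) (nat_lit 47847385692) (nat_lit 11) (nat_lit 5) (nat_lit 13) (nat_lit 5) (nat_lit 14) (nat_lit 5) (nat_lit 410) (nat_lit 317) (nat_lit 137))))) (XT.nd (nat_lit 282) (nat_lit 0) (nat_lit 84) (XT.nd (nat_lit 94) (nat_lit 0) (nat_lit 0) (XT.lf (nat_lit 0) (nat_lit 1875945712) (nat_lit 1092) (nat_lit 1745126835) (nat_lit 1092) (nat_lit 1745126835) (nat_lit 127) (nat_lit 3) (nat_lit 140) (nat_lit 3) (nat_lit 140) (nat_lit 5) (nat_lit 318) (nat_lit 318) (nat_lit 228)) (XT.nd (nat_lit 94) (nat_lit 0) (nat_lit 84) (XT.lf (nat_lit 84) (nat_lit 685838131) (nat_lit 0) (nat_lit 3650765995) (nat_lit 1092) (nat_lit 6543769404) (nat_lit 128) (nat_lit 5) (nat_lit 127) (nat_lit 3) (nat_lit 140) (nat_lit 5) (nat_lit 319) (nat_lit 318) (nat_lit 227)) (XT.lf (nat_lit 0) (nat_lit 4955807531)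 (nat_lit 1008) (nat_lit 5979209064) (nat_lit 1092) (nat_lit 97494386) (nat_lit 128) (nat_lit 5) (nat_lit 140) (nat_lit 5) (nat_lit 141) (nat_lit 5) (nat_lit 320) (nat_lit 318) (nat_lit 226)))) (XT.nd (nat_lit 94) (nat_lit 0) (nat_lit 0) (XT.lf (nat_lit 0) (nat_lit 5611220647) (nat_lit 1008) (nat_lit 1682084018) (nat_lit 1092) (nat_lit 3895612864) (nat_lit 128) (nat_lit 5) (nat_lit 140) (nat_lit 5) (nat_lit 141) (nat_lit 5) (nat_lit 321) (nat_lit 318) (nat_lit 225)) (XT.nd (nat_lit 94) (nat_lit 0) (nat_lit 84) (XT.lf (nat_lit 84) (nat_lit 2793340750) (nat_lit 0) (nat_lit 3501607874) (nat_lit 1092) (nat_lit 5055054015) (nat_lit 129) (nat_lit 5) (nat_lit 128) (nat_lit 5) (nat_lit 141) (nat_lit 5) (nat_lit 322) (nat_lit 318) (nat_lit 224)) (XT.lf (nat_lit 0) (nat_lit 7002503496) (nat_lit 1008) (nat_lit 4088427445) (nat_lit 1092) (nat_lit 425144403) (nat_lit 129) (nat_lit 5) (nat_lit 141)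 (nat_lit 5) (nat_lit 142) (nat_lit 5) (nat_lit 323) (nat_lit 318) (nat_lit 223)))))) (XT.nd (nat_lit 564) (nat_lit 924) (nat_lit 0) (XT.nd (nat_lit 282) (nat_lit 0) (nat_lit 84) (XT.nd (nat_lit 94) (nat_lit 0) (nat_lit 0) (XT.lf (nat_lit 84) (nat_lit 480720203) (nat_lit 0) (nat_lit 7273280658) (nat_lit 1092) (nat_lit 3932686441) (nat_lit 130) (nat_lit 5) (nat_lit 129) (nat_lit 5) (nat_lit 142) (nat_lit 5) (nat_lit 324) (nat_lit 318) (nat_lit 222)) (XT.nd (nat_lit 94) (nat_lit 0) (nat_lit 84) (XT.lf (nat_lit 84) (nat_lit 5266825817) (nat_lit 0) (nat_lit 3286515703) (nat_lit 1092) (nat_lit 3308556812) (nat_lit 130) (nat_lit 5) (nat_lit 129) (nat_lit 5) (nat_lit 142) (nat_lit 5) (nat_lit 325) (nat_lit 318) (nat_lit 221)) (XT.lf (nat_lit 0) (nat_lit 9368116608) (nat_lit 1008) (nat_lit 1861108518) (nat_lit 1092) (nat_lit 813674395) (nat_lit 130) (nat_lit 5) (nat_lit 142) (nat_lit 5) (nat_lit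 143) (nat_lit 5) (nat_lit 326) (nat_lit 318) (nat_lit 220)))) (XT.nd (nat_lit 94) (nat_lit 0) (nat_lit 0) (XT.lf (nat_lit 84) (nat_lit 3035815894) (nat_lit 0) (nat_lit 7219071826) (nat_lit 1092) (nat_lit 1973241992) (nat_lit 131) (nat_lit 5) (nat_lit 130) (nat_lit 5) (nat_lit 143) (nat_lit 5) (nat_lit 327) (nat_lit 318) (nat_lit 219)) (XT.nd (nat_lit 94) (nat_lit 0) (nat_lit 84) (XT.lf (nat_lit 84) (nat_lit 8112770267) (nat_lit 0) (nat_lit 3059213118) (nat_lit 1092) (nat_lit 1247095616) (nat_lit 131) (nat_lit 5) (nat_lit 130) (nat_lit 5) (nat_lit 143) (nat_lit 5) (nat_lit 328) (nat_lit 318) (nat_lit 218)) (XT.lf (nat_lit 84) (nat_lit 722006601) (nat_lit 0) (nat_lit 11398821566) (nat_lit 1092) (nat_lit 495079544) (nat_lit 132) (nat_lit 5) (nat_lit 131) (nat_lit 5) (nat_lit 144) (nat_lit 5) (nat_lit 329) (nat_lit 318) (nat_lit 217))))) (XT.nd (nat_lit 282) (nat_lit 0) (nat_lit 84) (XT.nd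 (nat_lit 94) (nat_lit 0) (nat_lit 0) (XT.lf (nat_lit 0) (nat_lit 335408194) (nat_lit 1092) (nat_lit 6866256261) (nat_lit 1176) (nat_lit 5615261659) (nat_lit 118) (nat_lit 5) (nat_lit 131) (nat_lit 5) (nat_lit 132) (nat_lit 5) (nat_lit 330) (nat_lit 318) (nat_lit 216)) (XT.nd (nat_lit 94) (nat_lit 0) (nat_lit 84) (XT.lf (nat_lit 0) (nat_lit 1165943172) (nat_lit 1092) (nat_lit 1699238274) (nat_lit 1176) (nat_lit 10159372888) (nat_lit 118) (nat_lit 5) (nat_lit 131) (nat_lit 5) (nat_lit 132) (nat_lit 5) (nat_lit 331) (nat_lit 318) (nat_lit 215)) (XT.lf (nat_lit 0) (nat_lit 2060233951) (nat_lit 1092) (nat_lit 9563094225) (nat_lit 1176) (nat_lit 1614168222) (nat_lit 119) (nat_lit 5) (nat_lit 132) (nat_lit 5) (nat_lit 133) (nat_lit 5) (nat_lit 332) (nat_lit 318) (nat_lit 214)))) (XT.nd (nat_lit 94) (nat_lit 0) (nat_lit 0) (XT.lf (nat_lit 0) (nat_lit 3014896240) (nat_lit 1092) (nat_lit 4246834733)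 (nat_lit 1176) (nat_lit 6194350575) (nat_lit 119) (nat_lit 5) (nat_lit 132) (nat_lit 5) (nat_lit 133) (nat_lit 5) (nat_lit 333) (nat_lit 318) (nat_lit 213)) (XT.nd (nat_lit 94) (nat_lit 0) (nat_lit 84) (XT.lf (nat_lit 84) (nat_lit 1248215721) (nat_lit 0) (nat_lit 2749184452) (nat_lit 1176) (nat_lit 9684149363) (nat_lit 120) (nat_lit 5) (nat_lit 119) (nat_lit 5) (nat_lit 133) (nat_lit 5) (nat_lit 334) (nat_lit 318) (nat_lit 212)) (XT.lf (nat_lit 0) (nat_lit 5060231394) (nat_lit 1092) (nat_lit 6939878848) (nat_lit 84) (nat_lit 1912401615) (nat_lit 120) (nat_lit 5) (nat_lit 133) (nat_lit 5) (nat_lit 121) (nat_lit 5) (nat_lit 335) (nat_lit 318) (nat_lit 211))))))))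
noncomputable def xc156 : XT := (XT.nd (nat_lit 2256) (nat_lit 2352) (nat_lit 0) (XT.nd (nat_lit 1128) (nat_lit 2100) (nat_lit 0) (XT.nd (nat_lit 564) (nat_lit 1680) (nat_lit 0) (XT.nd (nat_lit 282) (nat_lit 504) (nat_lit 0) (XT.nd (nat_lit 94) (nat_lit 1092) (nat_lit 0) (XT.lf (nat_lit 0) (nat_lit 6170750345) (nat_lit 1092) (nat_lit 1315452552) (nat_lit 84) (nat_lit 6664023435) (nat_lit 120) (nat_lit 5) (nat_lit 133) (nat_lit 5) (nat_lit 121) (nat_lit 5) (nat_lit 336) (nat_lit 318) (nat_lit 210)) (XT.nd (nat_lit 94) (nat_lit 0) (nat_lit 0) (XT.lf (nat_lit 0) (nat_lit 4564422824) (nat_lit 1092) (nat_lit 2783576710) (nat_lit 1176) (nat_lit 7046356769) (nat_lit 107) (nat_lit 5) (nat_lit 120) (nat_lit 5) (nat_lit 121) (nat_lit 5) (nat_lit 337) (nat_lit 318) (nat_lit 209)) (XT.lf (nat_lit 0) (nat_lit 8583424948) (nat_lit 1176) (nat_lit 4023011198) (nat_lit 84) (nat_lit 2038992371) (nat_lit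 107) (nat_lit 5) (nat_lit 121) (nat_lit 5) (nat_lit 108) (nat_lit 5) (nat_lit 338) (nat_lit 318) (nat_lit 208)))) (XT.nd (nat_lit 94) (nat_lit 0) (nat_lit 0) (XT.lf (nat_lit 0) (nat_lit 1964146799) (nat_lit 504) (nat_lit 7928663884) (nat_lit 588) (nat_lit 5010412710) (nat_lit 101) (nat_lit 5) (nat_lit 107) (nat_lit 5) (nat_lit 108) (nat_lit 5) (nat_lit 339) (nat_lit 318) (nat_lit 207)) (XT.nd (nat_lit 94) (nat_lit 0) (nat_lit 0) (XT.lf (nat_lit 0) (nat_lit 8211419981) (nat_lit 504) (nat_lit 3061330220) (nat_lit 588) (nat_lit 3895374456) (nat_lit 101) (nat_lit 5) (nat_lit 107) (nat_lit 5) (nat_lit 108) (nat_lit 5) (nat_lit 340) (nat_lit 318) (nat_lit 206)) (XT.lf (nat_lit 0) (nat_lit 12703225067) (nat_lit 588) (nat_lit 819156429) (nat_lit 84) (nat_lit 1918658177) (nat_lit 101) (nat_lit 5) (nat_lit 108) (nat_lit 5) (nat_lit 102) (nat_lit 5) (nat_lit 341) (nat_lit 318) (nat_lit 205)))))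 (XT.nd (nat_lit 282) (nat_lit 504) (nat_lit 0) (XT.nd (nat_lit 94) (nat_lit 588) (nat_lit 0) (XT.lf (nat_lit 0) (nat_lit 5579216459) (nat_lit 588) (nat_lit 8674179993) (nat_lit 672) (nat_lit 1466723709) (nat_lit 94) (nat_lit 5) (nat_lit 101) (nat_lit 5) (nat_lit 102) (nat_lit 5) (nat_lit 342) (nat_lit 318) (nat_lit 204)) (XT.nd (nat_lit 94) (nat_lit 588) (nat_lit 0) (XT.lf (nat_lit 0) (nat_lit 12182873356) (nat_lit 588) (nat_lit 3666231620) (nat_lit 672) (nat_lit 158865014) (nat_lit 94) (nat_lit 5) (nat_lit 101) (nat_lit 5) (nat_lit 102) (nat_lit 5) (nat_lit 343) (nat_lit 318) (nat_lit 203)) (XT.lf (nat_lit 0) (nat_lit 1196912978) (nat_lit 588) (nat_lit 13600062398) (nat_lit 84) (nat_lit 1506467792) (nat_lit 87) (nat_lit 5) (nat_lit 94) (nat_lit 5) (nat_lit 88) (nat_lit 5) (nat_lit 344) (nat_lit 318) (nat_lit 202)))) (XT.nd (nat_lit 94) (nat_lit 504) (nat_lit 0) (XT.lf (nat_lit 0) (nat_lit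 2658597370) (nat_lit 588) (nat_lit 7141681612) (nat_lit 84) (nat_lit 6805700466) (nat_lit 87) (nat_lit 5) (nat_lit 94) (nat_lit 5) (nat_lit 88) (nat_lit 5) (nat_lit 345) (nat_lit 318) (nat_lit 201)) (XT.nd (nat_lit 94) (nat_lit 504) (nat_lit 0) (XT.lf (nat_lit 0) (nat_lit 4155260170) (nat_lit 588) (nat_lit 493415204) (nat_lit 84) (nat_lit 12269574535) (nat_lit 87) (nat_lit 5) (nat_lit 94) (nat_lit 5) (nat_lit 88) (nat_lit 5) (nat_lit 346) (nat_lit 318) (nat_lit 200)) (XT.lf (nat_lit 0) (nat_lit 5759824979) (nat_lit 588) (nat_lit 10764261524) (nat_lit 84) (nat_lit 714241731) (nat_lit 81) (nat_lit 5) (nat_lit 88) (nat_lit 5) (nat_lit 82) (nat_lit 5) (nat_lit 347) (nat_lit 318) (nat_lit 199)))))) (XT.nd (nat_lit 564) (nat_lit 1260) (nat_lit 0) (XT.nd (nat_lit 282) (nat_lit 420) (nat_lit 0) (XT.nd (nat_lit 94) (nat_lit 420) (nat_lit 0) (XT.lf (nat_lit 0) (nat_lit 7457058260) (nat_lit 588)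 (nat_lit 3958015315) (nat_lit 84) (nat_lit 6151957798) (nat_lit 81) (nat_lit 5) (nat_lit 88) (nat_lit 5) (nat_lit 82) (nat_lit 5) (nat_lit 348) (nat_lit 318) (nat_lit 198)) (XT.nd (nat_lit 94) (nat_lit 0) (nat_lit 0) (XT.lf (nat_lit 0) (nat_lit 3111983215) (nat_lit 420) (nat_lit 6116268144) (nat_lit 504) (nat_lit 8677043364) (nat_lit 76) (nat_lit 5) (nat_lit 81) (nat_lit 5) (nat_lit 82) (nat_lit 5) (nat_lit 349) (nat_lit 318) (nat_lit 197)) (XT.lf (nat_lit 0) (nat_lit 10475219349) (nat_lit 420) (nat_lit 611108786) (nat_lit 504) (nat_lit 7166755984) (nat_lit 76) (nat_lit 5) (nat_lit 81) (nat_lit 5) (nat_lit 82) (nat_lit 5) (nat_lit 350) (nat_lit 318) (nat_lit 196)))) (XT.nd (nat_lit 94) (nat_lit 420) (nat_lit 0) (XT.lf (nat_lit 0) (nat_lit 13043186874) (nat_lit 504) (nat_lit 605032181) (nat_lit 84) (nat_lit 4962189527) (nat_lit 76) (nat_lit 5) (nat_lit 82) (nat_lit 5) (nat_lit 77) (nat_lit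 5) (nat_lit 351) (nat_lit 318) (nat_lit 195)) (XT.nd (nat_lit 94) (nat_lit 0) (nat_lit 0) (XT.lf (nat_lit 0) (nat_lit 6913648359) (nat_lit 420) (nat_lit 8213105796) (nat_lit 504) (nat_lit 3850037838) (nat_lit 71) (nat_lit 5) (nat_lit 76) (nat_lit 5) (nat_lit 77) (nat_lit 5) (nat_lit 352) (nat_lit 318) (nat_lit 194)) (XT.lf (nat_lit 0) (nat_lit 14668776829) (nat_lit 420) (nat_lit 2603832392) (nat_lit 504) (nat_lit 2082023890) (nat_lit 71) (nat_lit 5) (nat_lit 76) (nat_lit 5) (nat_lit 77) (nat_lit 5) (nat_lit 353) (nat_lit 318) (nat_lit 193))))) (XT.nd (nat_lit 282) (nat_lit 756) (nat_lit 0) (XT.nd (nat_lit 94) (nat_lit 84) (nat_lit 0) (XT.lf (nat_lit 0) (nat_lit 2938336790) (nat_lit 420) (nat_lit 16598969955) (nat_lit 504) (nat_lit 205286187) (nat_lit 66) (nat_lit 5) (nat_lit 71) (nat_lit 5) (nat_lit 72) (nat_lit 5) (nat_lit 354) (nat_lit 318) (nat_lit 192)) (XT.nd (nat_lit 94) (nat_lit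 0) (nat_lit 0) (XT.lf (nat_lit 0) (nat_lit 1762505796) (nat_lit 504) (nat_lit 9296688297) (nat_lit 84) (nat_lit 9080780026) (nat_lit 65) (nat_lit 5) (nat_lit 71) (nat_lit 5) (nat_lit 66) (nat_lit 5) (nat_lit 355) (nat_lit 318) (nat_lit 191)) (XT.lf (nat_lit 0) (nat_lit 3778966730) (nat_lit 504) (nat_lit 1567751292) (nat_lit 84) (nat_lit 15203166293) (nat_lit 65) (nat_lit 5) (nat_lit 71) (nat_lit 5) (nat_lit 66) (nat_lit 5) (nat_lit 356) (nat_lit 318) (nat_lit 190)))) (XT.nd (nat_lit 94) (nat_lit 336) (nat_lit 0) (XT.lf (nat_lit 0) (nat_lit 5920858825) (nat_lit 504) (nat_lit 14453574160) (nat_lit 84) (nat_lit 596142606) (nat_lit 60) (nat_lit 5) (nat_lit 66) (nat_lit 5) (nat_lit 61) (nat_lit 5) (nat_lit 357) (nat_lit 318) (nat_lit 189)) (XT.nd (nat_lit 94) (nat_lit 336) (nat_lit 0) (XT.lf (nat_lit 0) (nat_lit 8192674644) (nat_lit 504) (nat_lit 6582181621) (nat_lit 84) (nat_lit 6627506428)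 (nat_lit 60) (nat_lit 5) (nat_lit 66) (nat_lit 5) (nat_lit 61) (nat_lit 5) (nat_lit 358) (nat_lit 318) (nat_lit 188)) (XT.lf (nat_lit 0) (nat_lit 1555697020) (nat_lit 336) (nat_lit 8987192931) (nat_lit 420) (nat_lit 11304421037) (nat_lit 56) (nat_lit 5) (nat_lit 60) (nat_lit 5) (nat_lit 61) (nat_lit 5) (nat_lit 359) (nat_lit 318) (nat_lit 187))))))) (XT.nd (nat_lit 1128) (nat_lit 1008) (nat_lit 0) (XT.nd (nat_lit 564) (nat_lit 588) (nat_lit 0) (XT.nd (nat_lit 282) (nat_lit 420) (nat_lit 0) (XT.nd (nat_lit 94) (nat_lit 336) (nat_lit 0) (XT.lf (nat_lit 0) (nat_lit 10076607607) (nat_lit 336) (nat_lit 2950736476) (nat_lit 420) (nat_lit 9276828022) (nat_lit 56) (nat_lit 5) (nat_lit 60) (nat_lit 5) (nat_lit 61) (nat_lit 5) (nat_lit 360) (nat_lit 318) (nat_lit 186)) (XT.nd (nat_lit 94) (nat_lit 336) (nat_lit 0) (XT.lf (nat_lit 0) (nat_lit 15614167177) (nat_lit 420) (nat_lit 3954741364) (nat_lit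 84) (nat_lit 3205523102) (nat_lit 56) (nat_lit 5) (nat_lit 61) (nat_lit 5) (nat_lit 57) (nat_lit 5) (nat_lit 361) (nat_lit 318) (nat_lit 185)) (XT.lf (nat_lit 0) (nat_lit 4629145305) (nat_lit 336) (nat_lit 13721235041) (nat_lit 420) (nat_lit 4906764676) (nat_lit 52) (nat_lit 5) (nat_lit 56) (nat_lit 5) (nat_lit 57) (nat_lit 5) (nat_lit 362) (nat_lit 318) (nat_lit 184)))) (XT.nd (nat_lit 94) (nat_lit 420) (nat_lit 0) (XT.lf (nat_lit 0) (nat_lit 13554574919) (nat_lit 336) (nat_lit 7651342614) (nat_lit 420) (nat_lit 2547855763) (nat_lit 52) (nat_lit 5) (nat_lit 56) (nat_lit 5) (nat_lit 57) (nat_lit 5) (nat_lit 363) (nat_lit 318) (nat_lit 183)) (XT.nd (nat_lit 94) (nat_lit 420) (nat_lit 0) (XT.lf (nat_lit 0) (nat_lit 22748549321) (nat_lit 336) (nat_lit 1394852871) (nat_lit 420) (nat_lit 122618365) (nat_lit 52) (nat_lit 5) (nat_lit 56) (nat_lit 5) (nat_lit 57) (nat_lit 5) (nat_lit 364) (nat_lit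 318) (nat_lit 182)) (XT.lf (nat_lit 0) (nat_lit 2449513578) (nat_lit 420) (nat_lit 17288509525) (nat_lit 84) (nat_lit 5051703488) (nat_lit 47) (nat_lit 5) (nat_lit 52) (nat_lit 5) (nat_lit 48) (nat_lit 5) (nat_lit 365) (nat_lit 318) (nat_lit 181))))) (XT.nd (nat_lit 282) (nat_lit 252) (nat_lit 0) (XT.nd (nat_lit 94) (nat_lit 336) (nat_lit 0) (XT.lf (nat_lit 0) (nat_lit 5122740531) (nat_lit 420) (nat_lit 8521371495) (nat_lit 84) (nat_lit 11684793509) (nat_lit 47) (nat_lit 5) (nat_lit 52) (nat_lit 5) (nat_lit 48) (nat_lit 5) (nat_lit 366) (nat_lit 318) (nat_lit 180)) (XT.nd (nat_lit 94) (nat_lit 0) (nat_lit 0) (XT.lf (nat_lit 0) (nat_lit 520105200) (nat_lit 336) (nat_lit 7357721740) (nat_lit 420) (nat_lit 18007020859) (nat_lit 43) (nat_lit 5) (nat_lit 47) (nat_lit 5) (nat_lit 48) (nat_lit 5) (nat_lit 367) (nat_lit 318) (nat_lit 179)) (XT.lf (nat_lit 0) (nat_lit 10014674895) (nat_lit 336)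 (nat_lit 786529423) (nat_lit 420) (nat_lit 15654267495) (nat_lit 43) (nat_lit 5) (nat_lit 47) (nat_lit 5) (nat_lit 48) (nat_lit 5) (nat_lit 368) (nat_lit 318) (nat_lit 178)))) (XT.nd (nat_lit 94) (nat_lit 252) (nat_lit 0) (XT.lf (nat_lit 0) (nat_lit 13868714577) (nat_lit 420) (nat_lit 7307401469) (nat_lit 84) (nat_lit 5866026783) (nat_lit 43) (nat_lit 5) (nat_lit 48) (nat_lit 5) (nat_lit 44) (nat_lit 5) (nat_lit 369) (nat_lit 318) (nat_lit 177)) (XT.nd (nat_lit 94) (nat_lit 0) (nat_lit 0) (XT.lf (nat_lit 0) (nat_lit 2136579165) (nat_lit 252) (nat_lit 14918258092) (nat_lit 336) (nat_lit 10591450202) (nat_lit 40) (nat_lit 5) (nat_lit 43) (nat_lit 5) (nat_lit 44) (nat_lit 5) (nat_lit 370) (nat_lit 318) (nat_lit 176)) (XT.lf (nat_lit 0) (nat_lit 12020759705) (nat_lit 252) (nat_lit 8389622265) (nat_lit 336) (nat_lit 7856603824) (nat_lit 40) (nat_lit 5) (nat_lit 43) (nat_lit 5) (nat_lit 44)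 (nat_lit 5) (nat_lit 371) (nat_lit 318) (nat_lit 175)))))) (XT.nd (nat_lit 564) (nat_lit 420) (nat_lit 0) (XT.nd (nat_lit 282) (nat_lit 252) (nat_lit 0) (XT.nd (nat_lit 94) (nat_lit 336) (nat_lit 0) (XT.lf (nat_lit 0) (nat_lit 22204098078) (nat_lit 252) (nat_lit 1660397478) (nat_lit 336) (nat_lit 5042614239) (nat_lit 40) (nat_lit 5) (nat_lit 43) (nat_lit 5) (nat_lit 44) (nat_lit 5) (nat_lit 372) (nat_lit 318) (nat_lit 174)) (XT.nd (nat_lit 94) (nat_lit 84) (nat_lit 0) (XT.lf (nat_lit 0) (nat_lit 3139753650) (nat_lit 252) (nat_lit 24364126191) (nat_lit 336) (nat_lit 2060788338) (nat_lit 37) (nat_lit 5) (nat_lit 40) (nat_lit 5) (nat_lit 41) (nat_lit 5) (nat_lit 373) (nat_lit 318) (nat_lit 173)) (XT.lf (nat_lit 0) (nat_lit 1075433532) (nat_lit 336) (nat_lit 16845692581) (nat_lit 84) (nat_lit 12318633019) (nat_lit 36) (nat_lit 5) (nat_lit 40) (nat_lit 5) (nat_lit 37) (nat_lit 5) (nat_lit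 374) (nat_lit 318) (nat_lit 172)))) (XT.nd (nat_lit 94) (nat_lit 252) (nat_lit 0) (XT.lf (nat_lit 0) (nat_lit 4260945130) (nat_lit 336) (nat_lit 6997618328) (nat_lit 84) (nat_lit 19676733212) (nat_lit 36) (nat_lit 5) (nat_lit 40) (nat_lit 5) (nat_lit 37) (nat_lit 5) (nat_lit 375) (nat_lit 318) (nat_lit 171)) (XT.nd (nat_lit 94) (nat_lit 0) (nat_lit 0) (XT.lf (nat_lit 0) (nat_lit 3213679418) (nat_lit 252) (nat_lit 4358436658) (nat_lit 336) (nat_lit 24079458489) (nat_lit 33) (nat_lit 5) (nat_lit 36) (nat_lit 5) (nat_lit 37) (nat_lit 5) (nat_lit 376) (nat_lit 318) (nat_lit 170)) (XT.lf (nat_lit 0) (nat_lit 11082149503) (nat_lit 336) (nat_lit 18532894345) (nat_lit 84) (nat_lit 2772042994) (nat_lit 33) (nat_lit 5) (nat_lit 37) (nat_lit 5) (nat_lit 34) (nat_lit 5) (nat_lit 377) (nat_lit 318) (nat_lit 169))))) (XT.nd (nat_lit 282) (nat_lit 168) (nat_lit 0) (XT.nd (nat_lit 94) (nat_lit 252)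 (nat_lit 0) (XT.lf (nat_lit 0) (nat_lit 14740810606) (nat_lit 336) (nat_lit 8372099740) (nat_lit 84) (nat_lit 10031267432) (nat_lit 33) (nat_lit 5) (nat_lit 37) (nat_lit 5) (nat_lit 34) (nat_lit 5) (nat_lit 378) (nat_lit 318) (nat_lit 168)) (XT.nd (nat_lit 94) (nat_lit 0) (nat_lit 0) (XT.lf (nat_lit 0) (nat_lit 2140318471) (nat_lit 252) (nat_lit 16389187163) (nat_lit 336) (nat_lit 15394729552) (nat_lit 30) (nat_lit 5) (nat_lit 33) (nat_lit 5) (nat_lit 34) (nat_lit 5) (nat_lit 379) (nat_lit 318) (nat_lit 167)) (XT.lf (nat_lit 0) (nat_lit 13149687730) (nat_lit 252) (nat_lit 9368808384) (nat_lit 336) (nat_lit 12207421413) (nat_lit 30) (nat_lit 5) (nat_lit 33) (nat_lit 5) (nat_lit 34) (nat_lit 5) (nat_lit 380) (nat_lit 318) (nat_lit 166)))) (XT.nd (nat_lit 94) (nat_lit 168) (nat_lit 0) (XT.lf (nat_lit 0) (nat_lit 24494122381) (nat_lit 252) (nat_lit 2132617832) (nat_lit 336) (nat_lit 8925859403)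 (nat_lit 30) (nat_lit 5) (nat_lit 33) (nat_lit 5) (nat_lit 34) (nat_lit 5) (nat_lit 381) (nat_lit 318) (nat_lit 165)) (XT.nd (nat_lit 94) (nat_lit 168) (nat_lit 0) (XT.lf (nat_lit 0) (nat_lit 30910903106) (nat_lit 336) (nat_lit 273691243) (nat_lit 84) (nat_lit 5218819743) (nat_lit 30) (nat_lit 5) (nat_lit 34) (nat_lit 5) (nat_lit 31) (nat_lit 5) (nat_lit 382) (nat_lit 318) (nat_lit 164)) (XT.lf (nat_lit 0) (nat_lit 11040065974) (nat_lit 168) (nat_lit 24414978409) (nat_lit 252) (nat_lit 1821627567) (nat_lit 28) (nat_lit 5) (nat_lit 30) (nat_lit 5) (nat_lit 31) (nat_lit 5) (nat_lit 383) (nat_lit 318) (nat_lit 163))))))))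
noncomputable def xc157 : XT := (XT.nd (nat_lit 2256) (nat_lit 168) (nat_lit 0) (XT.nd (nat_lit 1128) (nat_lit 504) (nat_lit 0) (XT.nd (nat_lit 564) (nat_lit 252) (nat_lit 0) (XT.nd (nat_lit 282) (nat_lit 168) (nat_lit 0) (XT.nd (nat_lit 94) (nat_lit 252) (nat_lit 0) (XT.lf (nat_lit 0) (nat_lit 1922241598) (nat_lit 252) (nat_lit 15492076121) (nat_lit 84) (nat_lit 20762128241) (nat_lit 27) (nat_lit 5) (nat_lit 30) (nat_lit 5) (nat_lit 28) (nat_lit 5) (nat_lit 384) (nat_lit 318) (nat_lit 162)) (XT.nd (nat_lit 94) (nat_lit 252) (nat_lit 0) (XT.lf (nat_lit 0) (nat_lit 5740309410) (nat_lit 252) (nat_lit 4438928719) (nat_lit 84) (nat_lit 28924431424) (nat_lit 27) (nat_lit 5) (nat_lit 30) (nat_lit 5) (nat_lit 28) (nat_lit 5) (nat_lit 385) (nat_lit 318) (nat_lit 161)) (XT.lf (nat_lit 0) (nat_lit 7094140817) (nat_lit 252) (nat_lit 2649070381) (nat_lit 336) (nat_lit 30314374378) (nat_lit 24) (nat_lit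 5) (nat_lit 27) (nat_lit 5) (nat_lit 28) (nat_lit 5) (nat_lit 386) (nat_lit 318) (nat_lit 160)))) (XT.nd (nat_lit 94) (nat_lit 168) (nat_lit 0) (XT.lf (nat_lit 0) (nat_lit 13963890335) (nat_lit 336) (nat_lit 22017718634) (nat_lit 84) (nat_lit 5056568630) (nat_lit 24) (nat_lit 5) (nat_lit 28) (nat_lit 5) (nat_lit 25) (nat_lit 5) (nat_lit 387) (nat_lit 318) (nat_lit 159)) (XT.nd (nat_lit 94) (nat_lit 168) (nat_lit 0) (XT.lf (nat_lit 0) (nat_lit 18338763646) (nat_lit 336) (nat_lit 10765306836) (nat_lit 84) (nat_lit 12944382190) (nat_lit 24) (nat_lit 5) (nat_lit 28) (nat_lit 5) (nat_lit 25) (nat_lit 5) (nat_lit 388) (nat_lit 318) (nat_lit 158)) (XT.lf (nat_lit 0) (nat_lit 847636146) (nat_lit 168) (nat_lit 22006402376) (nat_lit 252) (nat_lit 20235867940) (nat_lit 22) (nat_lit 5) (nat_lit 24) (nat_lit 5) (nat_lit 25) (nat_lit 5) (nat_lit 389) (nat_lit 318) (nat_lit 157))))) (XT.nd (nat_lit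 282) (nat_lit 252) (nat_lit 0) (XT.nd (nat_lit 94) (nat_lit 0) (nat_lit 0) (XT.lf (nat_lit 0) (nat_lit 13043482032) (nat_lit 168) (nat_lit 14574600792) (nat_lit 252) (nat_lit 16542197955) (nat_lit 22) (nat_lit 5) (nat_lit 24) (nat_lit 5) (nat_lit 25) (nat_lit 5) (nat_lit 390) (nat_lit 318) (nat_lit 156)) (XT.nd (nat_lit 94) (nat_lit 0) (nat_lit 0) (XT.lf (nat_lit 0) (nat_lit 25612241838) (nat_lit 168) (nat_lit 6914106239) (nat_lit 252) (nat_lit 12737603908) (nat_lit 22) (nat_lit 5) (nat_lit 24) (nat_lit 5) (nat_lit 25) (nat_lit 5) (nat_lit 391) (nat_lit 318) (nat_lit 155)) (XT.lf (nat_lit 0) (nat_lit 37593153060) (nat_lit 252) (nat_lit 7846061612) (nat_lit 84) (nat_lit 962432088) (nat_lit 22) (nat_lit 5) (nat_lit 25) (nat_lit 5) (nat_lit 23) (nat_lit 5) (nat_lit 392) (nat_lit 318) (nat_lit 154)))) (XT.nd (nat_lit 94) (nat_lit 84) (nat_lit 0) (XT.lf (nat_lit 0) (nat_lit 4337289212) (nat_lit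 168) (nat_lit 38590206254) (nat_lit 252) (nat_lit 4643697567) (nat_lit 20) (nat_lit 5) (nat_lit 22) (nat_lit 5) (nat_lit 23) (nat_lit 5) (nat_lit 393) (nat_lit 318) (nat_lit 153)) (XT.nd (nat_lit 94) (nat_lit 84) (nat_lit 0) (XT.lf (nat_lit 0) (nat_lit 17059761871) (nat_lit 168) (nat_lit 31446112311) (nat_lit 252) (nat_lit 268689434) (nat_lit 20) (nat_lit 5) (nat_lit 22) (nat_lit 5) (nat_lit 23) (nat_lit 5) (nat_lit 394) (nat_lit 318) (nat_lit 152)) (XT.lf (nat_lit 0) (nat_lit 4153311272) (nat_lit 252) (nat_lit 19885507264) (nat_lit 84) (nat_lit 25975220599) (nat_lit 19) (nat_lit 5) (nat_lit 22) (nat_lit 5) (nat_lit 20) (nat_lit 5) (nat_lit 395) (nat_lit 318) (nat_lit 151)))))) (XT.nd (nat_lit 564) (nat_lit 168) (nat_lit 0) (XT.nd (nat_lit 282) (nat_lit 168) (nat_lit 0) (XT.nd (nat_lit 94) (nat_lit 168) (nat_lit 0) (XT.lf (nat_lit 0) (nat_lit 8703740954) (nat_lit 252) (nat_lit 7696926964)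 (nat_lit 84) (nat_lit 34891287079) (nat_lit 19) (nat_lit 5) (nat_lit 22) (nat_lit 5) (nat_lit 20) (nat_lit 5) (nat_lit 396) (nat_lit 318) (nat_lit 150)) (XT.nd (nat_lit 94) (nat_lit 0) (nat_lit 0) (XT.lf (nat_lit 0) (nat_lit 4964999292) (nat_lit 168) (nat_lit 8476508696) (nat_lit 252) (nat_lit 39166550138) (nat_lit 17) (nat_lit 5) (nat_lit 19) (nat_lit 5) (nat_lit 20) (nat_lit 5) (nat_lit 397) (nat_lit 318) (nat_lit 149)) (XT.lf (nat_lit 0) (nat_lit 18178128265) (nat_lit 168) (nat_lit 225423354) (nat_lit 252) (nat_lit 35559015430) (nat_lit 17) (nat_lit 5) (nat_lit 19) (nat_lit 5) (nat_lit 20) (nat_lit 5) (nat_lit 398) (nat_lit 318) (nat_lit 148)))) (XT.nd (nat_lit 94) (nat_lit 168) (nat_lit 0) (XT.lf (nat_lit 0) (nat_lit 23598710540) (nat_lit 252) (nat_lit 23644786620) (nat_lit 84) (nat_lit 8113116533) (nat_lit 17) (nat_lit 5) (nat_lit 20) (nat_lit 5) (nat_lit 18) (nat_lit 5) (nat_lit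 399) (nat_lit 318) (nat_lit 147)) (XT.nd (nat_lit 94) (nat_lit 168) (nat_lit 0) (XT.lf (nat_lit 0) (nat_lit 28954449932) (nat_lit 252) (nat_lit 11135409662) (nat_lit 84) (nat_lit 16704036554) (nat_lit 17) (nat_lit 5) (nat_lit 20) (nat_lit 5) (nat_lit 18) (nat_lit 5) (nat_lit 400) (nat_lit 318) (nat_lit 146)) (XT.lf (nat_lit 0) (nat_lit 1793727986) (nat_lit 168) (nat_lit 32697591696) (nat_lit 252) (nat_lit 23783952140) (nat_lit 15) (nat_lit 5) (nat_lit 17) (nat_lit 5) (nat_lit 18) (nat_lit 5) (nat_lit 401) (nat_lit 318) (nat_lit 145))))) (XT.nd (nat_lit 282) (nat_lit 168) (nat_lit 0) (XT.nd (nat_lit 94) (nat_lit 0) (nat_lit 0) (XT.lf (nat_lit 0) (nat_lit 15355606333) (nat_lit 168) (nat_lit 24957805320) (nat_lit 252) (nat_lit 19485643000) (nat_lit 15) (nat_lit 5) (nat_lit 17) (nat_lit 5) (nat_lit 18) (nat_lit 5) (nat_lit 402) (nat_lit 318) (nat_lit 144)) (XT.nd (nat_lit 94) (nat_lit 0)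 (nat_lit 0) (XT.lf (nat_lit 0) (nat_lit 29333899608) (nat_lit 168) (nat_lit 16979517012) (nat_lit 252) (nat_lit 15056743163) (nat_lit 15) (nat_lit 5) (nat_lit 17) (nat_lit 5) (nat_lit 18) (nat_lit 5) (nat_lit 403) (nat_lit 318) (nat_lit 143)) (XT.lf (nat_lit 0) (nat_lit 43741637045) (nat_lit 168) (nat_lit 8755290172) (nat_lit 252) (nat_lit 10493124429) (nat_lit 15) (nat_lit 5) (nat_lit 17) (nat_lit 5) (nat_lit 18) (nat_lit 5) (nat_lit 404) (nat_lit 318) (nat_lit 142)))) (XT.nd (nat_lit 94) (nat_lit 168) (nat_lit 0) (XT.lf (nat_lit 0) (nat_lit 58592248165) (nat_lit 168) (nat_lit 277458961) (nat_lit 252) (nat_lit 5790533027) (nat_lit 15) (nat_lit 5) (nat_lit 17) (nat_lit 5) (nat_lit 18) (nat_lit 5) (nat_lit 405) (nat_lit 318) (nat_lit 141)) (XT.nd (nat_lit 94) (nat_lit 84) (nat_lit 0) (XT.lf (nat_lit 0) (nat_lit 7586195240) (nat_lit 84) (nat_lit 58010700083) (nat_lit 168) (nat_lit 780451604)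 (nat_lit 14) (nat_lit 5) (nat_lit 15) (nat_lit 5) (nat_lit 16) (nat_lit 4) (nat_lit 406) (nat_lit 318) (nat_lit 140)) (XT.lf (nat_lit 0) (nat_lit 4361064802) (nat_lit 168) (nat_lit 46404137634) (nat_lit 84) (nat_lit 17379139107) (nat_lit 13) (nat_lit 5) (nat_lit 15) (nat_lit 5) (nat_lit 14) (nat_lit 5) (nat_lit 407) (nat_lit 318) (nat_lit 139))))))) (XT.nd (nat_lit 46624) (nat_lit 0) (nat_lit 8064) (XT.nd (nat_lit 46060) (nat_lit 0) (nat_lit 9744) (XT.nd (nat_lit 282) (nat_lit 168) (nat_lit 0) (XT.nd (nat_lit 94) (nat_lit 0) (nat_lit 0) (XT.lf (nat_lit 0) (nat_lit 9643473510) (nat_lit 168) (nat_lit 33644728971) (nat_lit 84) (nat_lit 26677738249) (nat_lit 13) (nat_lit 5) (nat_lit 15) (nat_lit 5) (nat_lit 14) (nat_lit 5) (nat_lit 408) (nat_lit 318) (nat_lit 138)) (XT.nd (nat_lit 94) (nat_lit 0) (nat_lit 0) (XT.lf (nat_lit 0) (nat_lit 15087422638) (nat_lit 168) (nat_lit 20493290415) (nat_lit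 84) (nat_lit 36263369363) (nat_lit 13) (nat_lit 5) (nat_lit 15) (nat_lit 5) (nat_lit 14) (nat_lit 5) (nat_lit 409) (nat_lit 318) (nat_lit 137)) (XT.lf (nat_lit 0) (nat_lit 20697986518) (nat_lit 168) (nat_lit 6937563449) (nat_lit 84) (nat_lit 46144967261) (nat_lit 13) (nat_lit 5) (nat_lit 15) (nat_lit 5) (nat_lit 14) (nat_lit 5) (nat_lit 410) (nat_lit 318) (nat_lit 136)))) (XT.nd (nat_lit 45590) (nat_lit 0) (nat_lit 9744) (XT.lf (nat_lit 0) (nat_lit 7179743107) (nat_lit 168) (nat_lit 19371875614) (nat_lit 252) (nat_lit 49223223461) (nat_lit 11) (nat_lit 5) (nat_lit 13) (nat_lit 5) (nat_lit 14) (nat_lit 5) (nat_lit 411) (nat_lit 318) (nat_lit 135)) (XT.nd (nat_lit 94) (nat_lit 0) (nat_lit 0) (XT.lf (nat_lit 0) (nat_lit 2448698783) (nat_lit 1092) (nat_lit 1532933244) (nat_lit 1092) (nat_lit 1532933244) (nat_lit 127) (nat_lit 3) (nat_lit 140) (nat_lit 3) (nat_lit 140) (nat_lit 5) (nat_lit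 319) (nat_lit 319) (nat_lit 226)) (XT.lf (nat_lit 84) (nat_lit 1234292213) (nat_lit 0) (nat_lit 4240228167) (nat_lit 1092) (nat_lit 5708091643) (nat_lit 128) (nat_lit 5) (nat_lit 127) (nat_lit 3) (nat_lit 140) (nat_lit 5) (nat_lit 320) (nat_lit 319) (nat_lit 225))))) (XT.nd (nat_lit 282) (nat_lit 0) (nat_lit 168) (XT.nd (nat_lit 94) (nat_lit 0) (nat_lit 84) (XT.lf (nat_lit 84) (nat_lit 5722344978) (nat_lit 0) (nat_lit 359383893) (nat_lit 1092) (nat_lit 5258822383) (nat_lit 128) (nat_lit 5) (nat_lit 127) (nat_lit 3) (nat_lit 140) (nat_lit 5) (nat_lit 321) (nat_lit 319) (nat_lit 224)) (XT.nd (nat_lit 94) (nat_lit 0) (nat_lit 0) (XT.lf (nat_lit 0) (nat_lit 6724767104) (nat_lit 1008) (nat_lit 1200840261) (nat_lit 1092) (nat_lit 3577327569) (nat_lit 128) (nat_lit 5) (nat_lit 140) (nat_lit 5) (nat_lit 141) (nat_lit 5) (nat_lit 322) (nat_lit 319) (nat_lit 223)) (XT.lf (nat_lit 84) (nat_lit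 3407922597) (nat_lit 0) (nat_lit 3998754008) (nat_lit 1092) (nat_lit 4263162110) (nat_lit 129) (nat_lit 5) (nat_lit 128) (nat_lit 5) (nat_lit 141) (nat_lit 5) (nat_lit 323) (nat_lit 319) (nat_lit 222)))) (XT.nd (nat_lit 94) (nat_lit 0) (nat_lit 0) (XT.lf (nat_lit 0) (nat_lit 8104866896) (nat_lit 1008) (nat_lit 3668265483) (nat_lit 1092) (nat_lit 69005799) (nat_lit 129) (nat_lit 5) (nat_lit 141) (nat_lit 5) (nat_lit 142) (nat_lit 5) (nat_lit 324) (nat_lit 319) (nat_lit 221)) (XT.nd (nat_lit 94) (nat_lit 0) (nat_lit 0) (XT.lf (nat_lit 84) (nat_lit 1036988839) (nat_lit 0) (nat_lit 7821423581) (nat_lit 1092) (nat_lit 3160390369) (nat_lit 130) (nat_lit 5) (nat_lit 129) (nat_lit 5) (nat_lit 142) (nat_lit 5) (nat_lit 325) (nat_lit 319) (nat_lit 220)) (XT.lf (nat_lit 84) (nat_lit 5955185981) (nat_lit 0) (nat_lit 3701366868) (nat_lit 1092) (nat_lit 2543799715) (nat_lit 130) (nat_lit 5) (nat_lit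 129) (nat_lit 5) (nat_lit 142) (nat_lit 5) (nat_lit 326) (nat_lit 319) (nat_lit 219)))))) (XT.nd (nat_lit 564) (nat_lit 924) (nat_lit 0) (XT.nd (nat_lit 282) (nat_lit 1008) (nat_lit 0) (XT.nd (nat_lit 94) (nat_lit 0) (nat_lit 0) (XT.lf (nat_lit 0) (nat_lit 10468375990) (nat_lit 1008) (nat_lit 1378106594) (nat_lit 1092) (nat_lit 541455482) (nat_lit 130) (nat_lit 5) (nat_lit 142) (nat_lit 5) (nat_lit 143) (nat_lit 5) (nat_lit 327) (nat_lit 319) (nat_lit 218)) (XT.nd (nat_lit 94) (nat_lit 0) (nat_lit 0) (XT.lf (nat_lit 84) (nat_lit 3665148411) (nat_lit 0) (nat_lit 7698447649) (nat_lit 1092) (nat_lit 1216000401) (nat_lit 131) (nat_lit 5) (nat_lit 130) (nat_lit 5) (nat_lit 143) (nat_lit 5) (nat_lit 328) (nat_lit 319) (nat_lit 217)) (XT.lf (nat_lit 84) (nat_lit 8883395364) (nat_lit 0) (nat_lit 3401948430) (nat_lit 1092) (nat_lit 491951416) (nat_lit 131) (nat_lit 5) (nat_lit 130) (nat_lit 5)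 (nat_lit 143) (nat_lit 5) (nat_lit 329) (nat_lit 319) (nat_lit 216)))) (XT.nd (nat_lit 94) (nat_lit 0) (nat_lit 0) (XT.lf (nat_lit 0) (nat_lit 257310789) (nat_lit 1092) (nat_lit 11696341970) (nat_lit 1176) (nat_lit 1027204183) (nat_lit 118) (nat_lit 5) (nat_lit 131) (nat_lit 5) (nat_lit 132) (nat_lit 5) (nat_lit 330) (nat_lit 319) (nat_lit 215)) (XT.nd (nat_lit 94) (nat_lit 0) (nat_lit 0) (XT.lf (nat_lit 0) (nat_lit 1080484639) (nat_lit 1092) (nat_lit 6534777931) (nat_lit 1176) (nat_lit 5573478191) (nat_lit 118) (nat_lit 5) (nat_lit 131) (nat_lit 5) (nat_lit 132) (nat_lit 5) (nat_lit 331) (nat_lit 319) (nat_lit 214)) (XT.lf (nat_lit 0) (nat_lit 1914675956) (nat_lit 1092) (nat_lit 1223949312) (nat_lit 1176) (nat_lit 10264947221) (nat_lit 118) (nat_lit 5) (nat_lit 131) (nat_lit 5) (nat_lit 132) (nat_lit 5) (nat_lit 332) (nat_lit 319) (nat_lit 213))))) (XT.nd (nat_lit 282) (nat_lit 1008)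 (nat_lit 0) (XT.nd (nat_lit 94) (nat_lit 0) (nat_lit 0) (XT.lf (nat_lit 0) (nat_lit 2818724777) (nat_lit 1092) (nat_lit 9311046805) (nat_lit 1176) (nat_lit 1493980854) (nat_lit 119) (nat_lit 5) (nat_lit 132) (nat_lit 5) (nat_lit 133) (nat_lit 5) (nat_lit 333) (nat_lit 319) (nat_lit 212)) (XT.nd (nat_lit 94) (nat_lit 0) (nat_lit 0) (XT.lf (nat_lit 0) (nat_lit 3782095728) (nat_lit 1092) (nat_lit 3846475610) (nat_lit 1176) (nat_lit 6221267214) (nat_lit 119) (nat_lit 5) (nat_lit 132) (nat_lit 5) (nat_lit 133) (nat_lit 5) (nat_lit 334) (nat_lit 319) (nat_lit 211)) (XT.lf (nat_lit 84) (nat_lit 1813535274) (nat_lit 0) (nat_lit 2966488318) (nat_lit 1176) (nat_lit 9302813540) (nat_lit 120) (nat_lit 5) (nat_lit 119) (nat_lit 5) (nat_lit 133) (nat_lit 5) (nat_lit 335) (nat_lit 319) (nat_lit 210)))) (XT.nd (nat_lit 94) (nat_lit 1092) (nat_lit 0) (XT.lf (nat_lit 0) (nat_lit 5854725892) (nat_lit 1092)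 (nat_lit 6620800206) (nat_lit 84) (nat_lit 1846159347) (nat_lit 120) (nat_lit 5) (nat_lit 133) (nat_lit 5) (nat_lit 121) (nat_lit 5) (nat_lit 336) (nat_lit 319) (nat_lit 209)) (XT.nd (nat_lit 94) (nat_lit 1092) (nat_lit 0) (XT.lf (nat_lit 0) (nat_lit 6980498819) (nat_lit 1092) (nat_lit 838079412) (nat_lit 84) (nat_lit 6748855767) (nat_lit 120) (nat_lit 5) (nat_lit 133) (nat_lit 5) (nat_lit 121) (nat_lit 5) (nat_lit 337) (nat_lit 319) (nat_lit 208)) (XT.lf (nat_lit 0) (nat_lit 5218826275) (nat_lit 1092) (nat_lit 2961908905) (nat_lit 1176) (nat_lit 6638884024) (nat_lit 107) (nat_lit 5) (nat_lit 120) (nat_lit 5) (nat_lit 121) (nat_lit 5) (nat_lit 338) (nat_lit 319) (nat_lit 207))))))))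
noncomputable def xc158 : XT := (XT.nd (nat_lit 2256) (nat_lit 2436) (nat_lit 0) (XT.nd (nat_lit 1128) (nat_lit 1680) (nat_lit 0) (XT.nd (nat_lit 564) (nat_lit 1428) (nat_lit 0) (XT.nd (nat_lit 282) (nat_lit 672) (nat_lit 0) (XT.nd (nat_lit 94) (nat_lit 504) (nat_lit 0) (XT.lf (nat_lit 0) (nat_lit 9435383673) (nat_lit 1176) (nat_lit 3629022751) (nat_lit 84) (nat_lit 2014725975) (nat_lit 107) (nat_lit 5) (nat_lit 121) (nat_lit 5) (nat_lit 108) (nat_lit 5) (nat_lit 339) (nat_lit 319) (nat_lit 206)) (XT.nd (nat_lit 94) (nat_lit 0) (nat_lit 0) (XT.lf (nat_lit 0) (nat_lit 2538485753) (nat_lit 504) (nat_lit 8234352149) (nat_lit 588) (nat_lit 4572533625) (nat_lit 101) (nat_lit 5) (nat_lit 107) (nat_lit 5) (nat_lit 108) (nat_lit 5) (nat_lit 340) (nat_lit 319) (nat_lit 205)) (XT.lf (nat_lit 0) (nat_lit 8963986032) (nat_lit 504) (nat_lit 3214330084) (nat_lit 588) (nat_lit 3440765518) (nat_lit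 101) (nat_lit 5) (nat_lit 107) (nat_lit 5) (nat_lit 108) (nat_lit 5) (nat_lit 341) (nat_lit 319) (nat_lit 204)))) (XT.nd (nat_lit 94) (nat_lit 672) (nat_lit 0) (XT.lf (nat_lit 0) (nat_lit 13635855609) (nat_lit 588) (nat_lit 342277470) (nat_lit 84) (nat_lit 1922920219) (nat_lit 101) (nat_lit 5) (nat_lit 108) (nat_lit 5) (nat_lit 102) (nat_lit 5) (nat_lit 342) (nat_lit 319) (nat_lit 203)) (XT.nd (nat_lit 94) (nat_lit 84) (nat_lit 0) (XT.lf (nat_lit 0) (nat_lit 6249359917) (nat_lit 588) (nat_lit 8973453053) (nat_lit 672) (nat_lit 966380439) (nat_lit 94) (nat_lit 5) (nat_lit 101) (nat_lit 5) (nat_lit 102) (nat_lit 5) (nat_lit 343) (nat_lit 319) (nat_lit 202)) (XT.lf (nat_lit 0) (nat_lit 358244229) (nat_lit 672) (nat_lit 3447361449) (nat_lit 84) (nat_lit 12680797223) (nat_lit 93) (nat_lit 5) (nat_lit 101) (nat_lit 5) (nat_lit 94) (nat_lit 5) (nat_lit 344) (nat_lit 319) (nat_lit 201))))) (XT.nd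 (nat_lit 282) (nat_lit 924) (nat_lit 0) (XT.nd (nat_lit 94) (nat_lit 0) (nat_lit 0) (XT.lf (nat_lit 0) (nat_lit 1741830104) (nat_lit 588) (nat_lit 13514324594) (nat_lit 84) (nat_lit 1535222873) (nat_lit 87) (nat_lit 5) (nat_lit 94) (nat_lit 5) (nat_lit 88) (nat_lit 5) (nat_lit 345) (nat_lit 319) (nat_lit 200)) (XT.nd (nat_lit 94) (nat_lit 0) (nat_lit 0) (XT.lf (nat_lit 0) (nat_lit 3233557850) (nat_lit 588) (nat_lit 6870988642) (nat_lit 84) (nat_lit 6999271341) (nat_lit 87) (nat_lit 5) (nat_lit 94) (nat_lit 5) (nat_lit 88) (nat_lit 5) (nat_lit 346) (nat_lit 319) (nat_lit 199)) (XT.lf (nat_lit 0) (nat_lit 4761807436) (nat_lit 588) (nat_lit 31421938) (nat_lit 84) (nat_lit 12633048863) (nat_lit 87) (nat_lit 5) (nat_lit 94) (nat_lit 5) (nat_lit 88) (nat_lit 5) (nat_lit 347) (nat_lit 319) (nat_lit 198)))) (XT.nd (nat_lit 94) (nat_lit 420) (nat_lit 0) (XT.lf (nat_lit 0) (nat_lit 6406479777)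 (nat_lit 588) (nat_lit 10609451800) (nat_lit 84) (nat_lit 740695007) (nat_lit 81) (nat_lit 5) (nat_lit 88) (nat_lit 5) (nat_lit 82) (nat_lit 5) (nat_lit 348) (nat_lit 319) (nat_lit 197)) (XT.nd (nat_lit 94) (nat_lit 420) (nat_lit 0) (XT.lf (nat_lit 0) (nat_lit 8142252502) (nat_lit 588) (nat_lit 3606900180) (nat_lit 84) (nat_lit 6346850626) (nat_lit 81) (nat_lit 5) (nat_lit 88) (nat_lit 5) (nat_lit 82) (nat_lit 5) (nat_lit 349) (nat_lit 319) (nat_lit 196)) (XT.lf (nat_lit 0) (nat_lit 3677471367) (nat_lit 420) (nat_lit 6281882334) (nat_lit 504) (nat_lit 8485724128) (nat_lit 76) (nat_lit 5) (nat_lit 81) (nat_lit 5) (nat_lit 82) (nat_lit 5) (nat_lit 350) (nat_lit 319) (nat_lit 195)))))) (XT.nd (nat_lit 564) (nat_lit 756) (nat_lit 0) (XT.nd (nat_lit 282) (nat_lit 504) (nat_lit 0) (XT.nd (nat_lit 94) (nat_lit 420) (nat_lit 0) (XT.lf (nat_lit 0) (nat_lit 11254865478) (nat_lit 420) (nat_lit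 606784368) (nat_lit 504) (nat_lit 6942458319) (nat_lit 76) (nat_lit 5) (nat_lit 81) (nat_lit 5) (nat_lit 82) (nat_lit 5) (nat_lit 351) (nat_lit 319) (nat_lit 194)) (XT.nd (nat_lit 94) (nat_lit 420) (nat_lit 0) (XT.lf (nat_lit 0) (nat_lit 13866416421) (nat_lit 504) (nat_lit 168400146) (nat_lit 84) (nat_lit 5138131831) (nat_lit 76) (nat_lit 5) (nat_lit 82) (nat_lit 5) (nat_lit 77) (nat_lit 5) (nat_lit 352) (nat_lit 319) (nat_lit 193)) (XT.lf (nat_lit 0) (nat_lit 7578749096) (nat_lit 420) (nat_lit 8427701799) (nat_lit 504) (nat_lit 3544532638) (nat_lit 71) (nat_lit 5) (nat_lit 76) (nat_lit 5) (nat_lit 77) (nat_lit 5) (nat_lit 353) (nat_lit 319) (nat_lit 192)))) (XT.nd (nat_lit 94) (nat_lit 504) (nat_lit 0) (XT.lf (nat_lit 0) (nat_lit 15560732614) (nat_lit 420) (nat_lit 2645743944) (nat_lit 504) (nat_lit 1734484794) (nat_lit 71) (nat_lit 5) (nat_lit 76) (nat_lit 5) (nat_lit 77) (nat_lit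 5) (nat_lit 354) (nat_lit 319) (nat_lit 191)) (XT.nd (nat_lit 94) (nat_lit 0) (nat_lit 0) (XT.lf (nat_lit 0) (nat_lit 189099003) (nat_lit 504) (nat_lit 16867756165) (nat_lit 84) (nat_lit 3284295588) (nat_lit 65) (nat_lit 5) (nat_lit 71) (nat_lit 5) (nat_lit 66) (nat_lit 5) (nat_lit 355) (nat_lit 319) (nat_lit 190)) (XT.lf (nat_lit 0) (nat_lit 2201706798) (nat_lit 504) (nat_lit 9143244195) (nat_lit 84) (nat_lit 9406241426) (nat_lit 65) (nat_lit 5) (nat_lit 71) (nat_lit 5) (nat_lit 66) (nat_lit 5) (nat_lit 356) (nat_lit 319) (nat_lit 189))))) (XT.nd (nat_lit 282) (nat_lit 336) (nat_lit 0) (XT.nd (nat_lit 94) (nat_lit 420) (nat_lit 0) (XT.lf (nat_lit 0) (nat_lit 4269115011) (nat_lit 504) (nat_lit 1187989372) (nat_lit 84) (nat_lit 15717099967) (nat_lit 65) (nat_lit 5) (nat_lit 71) (nat_lit 5) (nat_lit 66) (nat_lit 5) (nat_lit 357) (nat_lit 319) (nat_lit 188)) (XT.nd (nat_lit 94) (nat_lit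 0) (nat_lit 0) (XT.lf (nat_lit 0) (nat_lit 6470972517) (nat_lit 504) (nat_lit 14465711114) (nat_lit 84) (nat_lit 671487835) (nat_lit 60) (nat_lit 5) (nat_lit 66) (nat_lit 5) (nat_lit 61) (nat_lit 5) (nat_lit 358) (nat_lit 319) (nat_lit 187)) (XT.lf (nat_lit 0) (nat_lit 8802192726) (nat_lit 504) (nat_lit 6363412718) (nat_lit 84) (nat_lit 6888114130) (nat_lit 60) (nat_lit 5) (nat_lit 66) (nat_lit 5) (nat_lit 61) (nat_lit 5) (nat_lit 359) (nat_lit 319) (nat_lit 186)))) (XT.nd (nat_lit 94) (nat_lit 0) (nat_lit 0) (XT.lf (nat_lit 0) (nat_lit 2022459523) (nat_lit 336) (nat_lit 9196266618) (nat_lit 420) (nat_lit 11293970730) (nat_lit 56) (nat_lit 5) (nat_lit 60) (nat_lit 5) (nat_lit 61) (nat_lit 5) (nat_lit 360) (nat_lit 319) (nat_lit 185)) (XT.nd (nat_lit 94) (nat_lit 0) (nat_lit 0) (XT.lf (nat_lit 0) (nat_lit 10794933844) (nat_lit 336) (nat_lit 2974770613) (nat_lit 420) (nat_lit 9214373455)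 (nat_lit 56) (nat_lit 5) (nat_lit 60) (nat_lit 5) (nat_lit 61) (nat_lit 5) (nat_lit 361) (nat_lit 319) (nat_lit 184)) (XT.lf (nat_lit 0) (nat_lit 16427189586) (nat_lit 420) (nat_lit 3673064893) (nat_lit 84) (nat_lit 3368987388) (nat_lit 56) (nat_lit 5) (nat_lit 61) (nat_lit 5) (nat_lit 57) (nat_lit 5) (nat_lit 362) (nat_lit 319) (nat_lit 183))))))) (XT.nd (nat_lit 1128) (nat_lit 840) (nat_lit 0) (XT.nd (nat_lit 564) (nat_lit 504) (nat_lit 0) (XT.nd (nat_lit 282) (nat_lit 672) (nat_lit 0) (XT.nd (nat_lit 94) (nat_lit 84) (nat_lit 0) (XT.lf (nat_lit 0) (nat_lit 5172829356) (nat_lit 336) (nat_lit 14069474015) (nat_lit 420) (nat_lit 4724829601) (nat_lit 52) (nat_lit 5) (nat_lit 56) (nat_lit 5) (nat_lit 57) (nat_lit 5) (nat_lit 363) (nat_lit 319) (nat_lit 182)) (XT.nd (nat_lit 94) (nat_lit 84) (nat_lit 0) (XT.lf (nat_lit 0) (nat_lit 14362914702) (nat_lit 336) (nat_lit 7813733737) (nat_lit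 420) (nat_lit 2302838535) (nat_lit 52) (nat_lit 5) (nat_lit 56) (nat_lit 5) (nat_lit 57) (nat_lit 5) (nat_lit 364) (nat_lit 319) (nat_lit 181)) (XT.lf (nat_lit 0) (nat_lit 184054659) (nat_lit 420) (nat_lit 1179566094) (nat_lit 84) (nat_lit 23644255705) (nat_lit 51) (nat_lit 5) (nat_lit 56) (nat_lit 5) (nat_lit 52) (nat_lit 5) (nat_lit 365) (nat_lit 319) (nat_lit 180)))) (XT.nd (nat_lit 94) (nat_lit 336) (nat_lit 0) (XT.lf (nat_lit 0) (nat_lit 2828652184) (nat_lit 420) (nat_lit 17435179931) (nat_lit 84) (nat_lit 5284119389) (nat_lit 47) (nat_lit 5) (nat_lit 52) (nat_lit 5) (nat_lit 48) (nat_lit 5) (nat_lit 366) (nat_lit 319) (nat_lit 179)) (XT.nd (nat_lit 94) (nat_lit 336) (nat_lit 0) (XT.lf (nat_lit 0) (nat_lit 5575632476) (nat_lit 420) (nat_lit 8407965254) (nat_lit 84) (nat_lit 12120555660) (nat_lit 47) (nat_lit 5) (nat_lit 52) (nat_lit 5) (nat_lit 48) (nat_lit 5) (nat_lit 367) (nat_lit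 319) (nat_lit 178)) (XT.lf (nat_lit 0) (nat_lit 909974674) (nat_lit 336) (nat_lit 7501016922) (nat_lit 420) (nat_lit 18266522454) (nat_lit 43) (nat_lit 5) (nat_lit 47) (nat_lit 5) (nat_lit 48) (nat_lit 5) (nat_lit 368) (nat_lit 319) (nat_lit 177))))) (XT.nd (nat_lit 282) (nat_lit 252) (nat_lit 0) (XT.nd (nat_lit 94) (nat_lit 252) (nat_lit 0) (XT.lf (nat_lit 0) (nat_lit 10687638268) (nat_lit 336) (nat_lit 728667225) (nat_lit 420) (nat_lit 15849815499) (nat_lit 43) (nat_lit 5) (nat_lit 47) (nat_lit 5) (nat_lit 48) (nat_lit 5) (nat_lit 369) (nat_lit 319) (nat_lit 176)) (XT.nd (nat_lit 94) (nat_lit 252) (nat_lit 0) (XT.lf (nat_lit 0) (nat_lit 14571272972) (nat_lit 420) (nat_lit 7173927985) (nat_lit 84) (nat_lit 6126038078) (nat_lit 43) (nat_lit 5) (nat_lit 48) (nat_lit 5) (nat_lit 44) (nat_lit 5) (nat_lit 370) (nat_lit 319) (nat_lit 175)) (XT.lf (nat_lit 0) (nat_lit 2559171343) (nat_lit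 252) (nat_lit 15292331873) (nat_lit 336) (nat_lit 10642776277) (nat_lit 40) (nat_lit 5) (nat_lit 43) (nat_lit 5) (nat_lit 44) (nat_lit 5) (nat_lit 371) (nat_lit 319) (nat_lit 174)))) (XT.nd (nat_lit 94) (nat_lit 252) (nat_lit 0) (XT.lf (nat_lit 0) (nat_lit 12739046537) (nat_lit 252) (nat_lit 8563966103) (nat_lit 336) (nat_lit 7831478735) (nat_lit 40) (nat_lit 5) (nat_lit 43) (nat_lit 5) (nat_lit 44) (nat_lit 5) (nat_lit 372) (nat_lit 319) (nat_lit 173)) (XT.nd (nat_lit 94) (nat_lit 252) (nat_lit 0) (XT.lf (nat_lit 0) (nat_lit 23227675634) (nat_lit 252) (nat_lit 1628713202) (nat_lit 336) (nat_lit 4938334110) (nat_lit 40) (nat_lit 5) (nat_lit 43) (nat_lit 5) (nat_lit 44) (nat_lit 5) (nat_lit 373) (nat_lit 319) (nat_lit 172)) (XT.lf (nat_lit 0) (nat_lit 3576546971) (nat_lit 252) (nat_lit 25028634743) (nat_lit 336) (nat_lit 1867610523) (nat_lit 37) (nat_lit 5) (nat_lit 40) (nat_lit 5) (nat_lit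 41) (nat_lit 5) (nat_lit 374) (nat_lit 319) (nat_lit 171)))))) (XT.nd (nat_lit 564) (nat_lit 252) (nat_lit 0) (XT.nd (nat_lit 282) (nat_lit 252) (nat_lit 0) (XT.nd (nat_lit 94) (nat_lit 252) (nat_lit 0) (XT.lf (nat_lit 0) (nat_lit 1353081401) (nat_lit 336) (nat_lit 17032999717) (nat_lit 84) (nat_lit 12782905206) (nat_lit 36) (nat_lit 5) (nat_lit 40) (nat_lit 5) (nat_lit 37) (nat_lit 5) (nat_lit 375) (nat_lit 319) (nat_lit 170)) (XT.nd (nat_lit 94) (nat_lit 252) (nat_lit 0) (XT.lf (nat_lit 0) (nat_lit 4629997989) (nat_lit 336) (nat_lit 6889705182) (nat_lit 84) (nat_lit 20366629073) (nat_lit 36) (nat_lit 5) (nat_lit 40) (nat_lit 5) (nat_lit 37) (nat_lit 5) (nat_lit 376) (nat_lit 319) (nat_lit 169)) (XT.lf (nat_lit 0) (nat_lit 3634854089) (nat_lit 252) (nat_lit 4405025971) (nat_lit 336) (nat_lit 24585075108) (nat_lit 33) (nat_lit 5) (nat_lit 36) (nat_lit 5) (nat_lit 37) (nat_lit 5) (nat_lit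 377) (nat_lit 319) (nat_lit 168)))) (XT.nd (nat_lit 94) (nat_lit 252) (nat_lit 0) (XT.lf (nat_lit 0) (nat_lit 11652569597) (nat_lit 336) (nat_lit 18788800426) (nat_lit 84) (nat_lit 2942106974) (nat_lit 33) (nat_lit 5) (nat_lit 37) (nat_lit 5) (nat_lit 34) (nat_lit 5) (nat_lit 378) (nat_lit 319) (nat_lit 167)) (XT.nd (nat_lit 94) (nat_lit 252) (nat_lit 0) (XT.lf (nat_lit 0) (nat_lit 15417827587) (nat_lit 336) (nat_lit 8322601230) (nat_lit 84) (nat_lit 10423837738) (nat_lit 33) (nat_lit 5) (nat_lit 37) (nat_lit 5) (nat_lit 34) (nat_lit 5) (nat_lit 379) (nat_lit 319) (nat_lit 166)) (XT.lf (nat_lit 0) (nat_lit 2512573258) (nat_lit 252) (nat_lit 16807817021) (nat_lit 336) (nat_lit 15648243313) (nat_lit 30) (nat_lit 5) (nat_lit 33) (nat_lit 5) (nat_lit 34) (nat_lit 5) (nat_lit 380) (nat_lit 319) (nat_lit 165))))) (XT.nd (nat_lit 282) (nat_lit 84) (nat_lit 0) (XT.nd (nat_lit 94) (nat_lit 168)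 (nat_lit 0) (XT.lf (nat_lit 0) (nat_lit 13854035047) (nat_lit 252) (nat_lit 9572495621) (nat_lit 336) (nat_lit 12368855498) (nat_lit 30) (nat_lit 5) (nat_lit 33) (nat_lit 5) (nat_lit 34) (nat_lit 5) (nat_lit 381) (nat_lit 319) (nat_lit 164)) (XT.nd (nat_lit 94) (nat_lit 168) (nat_lit 0) (XT.lf (nat_lit 0) (nat_lit 25541225817) (nat_lit 252) (nat_lit 2114591426) (nat_lit 336) (nat_lit 8992089678) (nat_lit 30) (nat_lit 5) (nat_lit 33) (nat_lit 5) (nat_lit 34) (nat_lit 5) (nat_lit 382) (nat_lit 319) (nat_lit 163)) (XT.lf (nat_lit 0) (nat_lit 2822286) (nat_lit 168) (nat_lit 32064681187) (nat_lit 252) (nat_lit 5457772371) (nat_lit 28) (nat_lit 5) (nat_lit 30) (nat_lit 5) (nat_lit 31) (nat_lit 5) (nat_lit 383) (nat_lit 319) (nat_lit 162)))) (XT.nd (nat_lit 94) (nat_lit 84) (nat_lit 0) (XT.lf (nat_lit 0) (nat_lit 11664364343) (nat_lit 168) (nat_lit 25084955326) (nat_lit 252) (nat_lit 1676398903)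 (nat_lit 28) (nat_lit 5) (nat_lit 30) (nat_lit 5) (nat_lit 31) (nat_lit 5) (nat_lit 384) (nat_lit 319) (nat_lit 161)) (XT.nd (nat_lit 94) (nat_lit 0) (nat_lit 0) (XT.lf (nat_lit 0) (nat_lit 2173523940) (nat_lit 252) (nat_lit 15694361855) (nat_lit 84) (nat_lit 21485635968) (nat_lit 27) (nat_lit 5) (nat_lit 30) (nat_lit 5) (nat_lit 28) (nat_lit 5) (nat_lit 385) (nat_lit 319) (nat_lit 160)) (XT.lf (nat_lit 0) (nat_lit 6104188053) (nat_lit 252) (nat_lit 4306924816) (nat_lit 84) (nat_lit 29898568673) (nat_lit 27) (nat_lit 5) (nat_lit 30) (nat_lit 5) (nat_lit 28) (nat_lit 5) (nat_lit 386) (nat_lit 319) (nat_lit 159))))))))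
noncomputable def xc159 : XT := (XT.nd (nat_lit 2256) (nat_lit 0) (nat_lit 0) (XT.nd (nat_lit 1128) (nat_lit 336) (nat_lit 0) (XT.nd (nat_lit 564) (nat_lit 420) (nat_lit 0) (XT.nd (nat_lit 282) (nat_lit 168) (nat_lit 0) (XT.nd (nat_lit 94) (nat_lit 0) (nat_lit 0) (XT.lf (nat_lit 0) (nat_lit 7580940310) (nat_lit 252) (nat_lit 2647296486) (nat_lit 336) (nat_lit 31065036568) (nat_lit 24) (nat_lit 5) (nat_lit 27) (nat_lit 5) (nat_lit 28) (nat_lit 5) (nat_lit 387) (nat_lit 319) (nat_lit 158)) (XT.nd (nat_lit 94) (nat_lit 0) (nat_lit 0) (XT.lf (nat_lit 0) (nat_lit 14575062206) (nat_lit 336) (nat_lit 22436304533) (nat_lit 84) (nat_lit 5293055311) (nat_lit 24) (nat_lit 5) (nat_lit 28) (nat_lit 5) (nat_lit 25) (nat_lit 5) (nat_lit 388) (nat_lit 319) (nat_lit 157)) (XT.lf (nat_lit 0) (nat_lit 19080195747) (nat_lit 336) (nat_lit 10843004793) (nat_lit 84) (nat_lit 13422993686) (nat_lit 24) (nat_lit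 5) (nat_lit 28) (nat_lit 5) (nat_lit 25) (nat_lit 5) (nat_lit 389) (nat_lit 319) (nat_lit 156)))) (XT.nd (nat_lit 94) (nat_lit 0) (nat_lit 0) (XT.lf (nat_lit 0) (nat_lit 1127347383) (nat_lit 168) (nat_lit 22605411208) (nat_lit 252) (nat_lit 20687269760) (nat_lit 22) (nat_lit 5) (nat_lit 24) (nat_lit 5) (nat_lit 25) (nat_lit 5) (nat_lit 390) (nat_lit 319) (nat_lit 155)) (XT.nd (nat_lit 94) (nat_lit 0) (nat_lit 0) (XT.lf (nat_lit 0) (nat_lit 13693644248) (nat_lit 168) (nat_lit 14945725114) (nat_lit 252) (nat_lit 16884385252) (nat_lit 22) (nat_lit 5) (nat_lit 24) (nat_lit 5) (nat_lit 25) (nat_lit 5) (nat_lit 391) (nat_lit 319) (nat_lit 154)) (XT.lf (nat_lit 0) (nat_lit 26644644490) (nat_lit 168) (nat_lit 7050181357) (nat_lit 252) (nat_lit 12966978998) (nat_lit 22) (nat_lit 5) (nat_lit 24) (nat_lit 5) (nat_lit 25) (nat_lit 5) (nat_lit 392) (nat_lit 319) (nat_lit 153))))) (XT.nd (nat_lit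 282) (nat_lit 252) (nat_lit 0) (XT.nd (nat_lit 94) (nat_lit 168) (nat_lit 0) (XT.lf (nat_lit 0) (nat_lit 38914639107) (nat_lit 252) (nat_lit 7853618877) (nat_lit 84) (nat_lit 1066647082) (nat_lit 22) (nat_lit 5) (nat_lit 25) (nat_lit 5) (nat_lit 23) (nat_lit 5) (nat_lit 393) (nat_lit 319) (nat_lit 152)) (XT.nd (nat_lit 94) (nat_lit 0) (nat_lit 0) (XT.lf (nat_lit 0) (nat_lit 4705029870) (nat_lit 168) (nat_lit 39706936924) (nat_lit 252) (nat_lit 4628824874) (nat_lit 20) (nat_lit 5) (nat_lit 22) (nat_lit 5) (nat_lit 23) (nat_lit 5) (nat_lit 394) (nat_lit 319) (nat_lit 151)) (XT.lf (nat_lit 0) (nat_lit 17814884802) (nat_lit 168) (nat_lit 32343768442) (nat_lit 252) (nat_lit 122967093) (nat_lit 20) (nat_lit 5) (nat_lit 22) (nat_lit 5) (nat_lit 23) (nat_lit 5) (nat_lit 395) (nat_lit 319) (nat_lit 150)))) (XT.nd (nat_lit 94) (nat_lit 168) (nat_lit 0) (XT.lf (nat_lit 0) (nat_lit 4428473151) (nat_lit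 252) (nat_lit 20279167638) (nat_lit 84) (nat_lit 26851981836) (nat_lit 19) (nat_lit 5) (nat_lit 22) (nat_lit 5) (nat_lit 20) (nat_lit 5) (nat_lit 396) (nat_lit 319) (nat_lit 149)) (XT.nd (nat_lit 94) (nat_lit 168) (nat_lit 0) (XT.lf (nat_lit 0) (nat_lit 9115563935) (nat_lit 252) (nat_lit 7719440186) (nat_lit 84) (nat_lit 36042295639) (nat_lit 19) (nat_lit 5) (nat_lit 22) (nat_lit 5) (nat_lit 20) (nat_lit 5) (nat_lit 397) (nat_lit 319) (nat_lit 148)) (XT.lf (nat_lit 0) (nat_lit 5332818051) (nat_lit 168) (nat_lit 8665235796) (nat_lit 252) (nat_lit 40236223953) (nat_lit 17) (nat_lit 5) (nat_lit 19) (nat_lit 5) (nat_lit 20) (nat_lit 5) (nat_lit 398) (nat_lit 319) (nat_lit 147)))))) (XT.nd (nat_lit 564) (nat_lit 168) (nat_lit 0) (XT.nd (nat_lit 282) (nat_lit 168) (nat_lit 0) (XT.nd (nat_lit 94) (nat_lit 0) (nat_lit 0) (XT.lf (nat_lit 0) (nat_lit 18949122386) (nat_lit 168) (nat_lit 160593176)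 (nat_lit 252) (nat_lit 36521200156) (nat_lit 17) (nat_lit 5) (nat_lit 19) (nat_lit 5) (nat_lit 20) (nat_lit 5) (nat_lit 399) (nat_lit 319) (nat_lit 146)) (XT.nd (nat_lit 94) (nat_lit 0) (nat_lit 0) (XT.lf (nat_lit 0) (nat_lit 24462536609) (nat_lit 252) (nat_lit 24172876258) (nat_lit 84) (nat_lit 8432878552) (nat_lit 17) (nat_lit 5) (nat_lit 20) (nat_lit 5) (nat_lit 18) (nat_lit 5) (nat_lit 400) (nat_lit 319) (nat_lit 145)) (XT.lf (nat_lit 0) (nat_lit 29980326961) (nat_lit 252) (nat_lit 11281869488) (nat_lit 84) (nat_lit 17288064797) (nat_lit 17) (nat_lit 5) (nat_lit 20) (nat_lit 5) (nat_lit 18) (nat_lit 5) (nat_lit 401) (nat_lit 319) (nat_lit 144)))) (XT.nd (nat_lit 94) (nat_lit 0) (nat_lit 0) (XT.lf (nat_lit 0) (nat_lit 2046059384) (nat_lit 168) (nat_lit 33640874451) (nat_lit 252) (nat_lit 24390692892) (nat_lit 15) (nat_lit 5) (nat_lit 17) (nat_lit 5) (nat_lit 18) (nat_lit 5) (nat_lit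 402) (nat_lit 319) (nat_lit 143)) (XT.nd (nat_lit 94) (nat_lit 0) (nat_lit 0) (XT.lf (nat_lit 0) (nat_lit 16022440828) (nat_lit 168) (nat_lit 25663269750) (nat_lit 252) (nat_lit 19963061886) (nat_lit 15) (nat_lit 5) (nat_lit 17) (nat_lit 5) (nat_lit 18) (nat_lit 5) (nat_lit 403) (nat_lit 319) (nat_lit 142)) (XT.lf (nat_lit 0) (nat_lit 30428323918) (nat_lit 168) (nat_lit 17439705963) (nat_lit 252) (nat_lit 15400673833) (nat_lit 15) (nat_lit 5) (nat_lit 17) (nat_lit 5) (nat_lit 18) (nat_lit 5) (nat_lit 404) (nat_lit 319) (nat_lit 141))))) (XT.nd (nat_lit 282) (nat_lit 84) (nat_lit 0) (XT.nd (nat_lit 94) (nat_lit 84) (nat_lit 0) (XT.lf (nat_lit 0) (nat_lit 45277136448) (nat_lit 168) (nat_lit 8962517867) (nat_lit 252) (nat_lit 10699276109) (nat_lit 15) (nat_lit 5) (nat_lit 17) (nat_lit 5) (nat_lit 18) (nat_lit 5) (nat_lit 405) (nat_lit 319) (nat_lit 140)) (XT.nd (nat_lit 94) (nat_lit 84)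 (nat_lit 0) (XT.lf (nat_lit 0) (nat_lit 60582719065) (nat_lit 168) (nat_lit 223803835) (nat_lit 252) (nat_lit 5854486518) (nat_lit 15) (nat_lit 5) (nat_lit 17) (nat_lit 5) (nat_lit 18) (nat_lit 5) (nat_lit 406) (nat_lit 319) (nat_lit 139)) (XT.lf (nat_lit 0) (nat_lit 7996765181) (nat_lit 84) (nat_lit 59744464500) (nat_lit 168) (nat_lit 690155508) (nat_lit 14) (nat_lit 5) (nat_lit 15) (nat_lit 5) (nat_lit 16) (nat_lit 4) (nat_lit 407) (nat_lit 319) (nat_lit 138)))) (XT.nd (nat_lit 94) (nat_lit 0) (nat_lit 0) (XT.lf (nat_lit 0) (nat_lit 4605068068) (nat_lit 168) (nat_lit 47670094005) (nat_lit 84) (nat_lit 17978070449) (nat_lit 13) (nat_lit 5) (nat_lit 15) (nat_lit 5) (nat_lit 14) (nat_lit 5) (nat_lit 408) (nat_lit 319) (nat_lit 137)) (XT.nd (nat_lit 94) (nat_lit 0) (nat_lit 0) (XT.lf (nat_lit 0) (nat_lit 10047959750) (nat_lit 168) (nat_lit 34520332547) (nat_lit 84) (nat_lit 27563116738)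 (nat_lit 13) (nat_lit 5) (nat_lit 15) (nat_lit 5) (nat_lit 14) (nat_lit 5) (nat_lit 409) (nat_lit 319) (nat_lit 136)) (XT.lf (nat_lit 0) (nat_lit 15657497979) (nat_lit 168) (nat_lit 20966232251) (nat_lit 84) (nat_lit 37444147395) (nat_lit 13) (nat_lit 5) (nat_lit 15) (nat_lit 5) (nat_lit 14) (nat_lit 5) (nat_lit 410) (nat_lit 319) (nat_lit 135))))))) (XT.nd (nat_lit 46718) (nat_lit 0) (nat_lit 7392) (XT.nd (nat_lit 46154) (nat_lit 0) (nat_lit 8736) (XT.nd (nat_lit 45872) (nat_lit 0) (nat_lit 9576) (XT.nd (nat_lit 45684) (nat_lit 0) (nat_lit 9576) (XT.lf (nat_lit 0) (nat_lit 21438911432) (nat_lit 168) (nat_lit 6995159277) (nat_lit 84) (nat_lit 47630372577) (nat_lit 13) (nat_lit 5) (nat_lit 15) (nat_lit 5) (nat_lit 14) (nat_lit 5) (nat_lit 411) (nat_lit 319) (nat_lit 134)) (XT.nd (nat_lit 94) (nat_lit 0) (nat_lit 0) (XT.lf (nat_lit 0) (nat_lit 3008726635) (nat_lit 1092) (nat_lit 1329934615)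 (nat_lit 1092) (nat_lit 1329934615) (nat_lit 127) (nat_lit 3) (nat_lit 140) (nat_lit 3) (nat_lit 140) (nat_lit 5) (nat_lit 320) (nat_lit 320) (nat_lit 224)) (XT.lf (nat_lit 84) (nat_lit 1768521822) (nat_lit 0) (nat_lit 4819752288) (nat_lit 1092) (nat_lit 4908022054) (nat_lit 128) (nat_lit 5) (nat_lit 127) (nat_lit 3) (nat_lit 140) (nat_lit 5) (nat_lit 321) (nat_lit 320) (nat_lit 223)))) (XT.nd (nat_lit 94) (nat_lit 0) (nat_lit 84) (XT.lf (nat_lit 84) (nat_lit 6380791552) (nat_lit 0) (nat_lit 805129108) (nat_lit 1092) (nat_lit 4474202396) (nat_lit 128) (nat_lit 5) (nat_lit 127) (nat_lit 3) (nat_lit 140) (nat_lit 5) (nat_lit 322) (nat_lit 320) (nat_lit 222)) (XT.nd (nat_lit 94) (nat_lit 0) (nat_lit 0) (XT.lf (nat_lit 0) (nat_lit 7817179467) (nat_lit 1008) (nat_lit 736271454) (nat_lit 1092) (nat_lit 3275181071) (nat_lit 128) (nat_lit 5) (nat_lit 140) (nat_lit 5) (nat_lit 141) (nat_lit 5)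 (nat_lit 323) (nat_lit 320) (nat_lit 221)) (XT.lf (nat_lit 84) (nat_lit 4010282830) (nat_lit 0) (nat_lit 4488294450) (nat_lit 1092) (nat_lit 3502908674) (nat_lit 129) (nat_lit 5) (nat_lit 128) (nat_lit 5) (nat_lit 141) (nat_lit 5) (nat_lit 324) (nat_lit 320) (nat_lit 220))))) (XT.nd (nat_lit 282) (nat_lit 924) (nat_lit 0) (XT.nd (nat_lit 94) (nat_lit 0) (nat_lit 84) (XT.lf (nat_lit 84) (nat_lit 8909784826) (nat_lit 0) (nat_lit 281979007) (nat_lit 1092) (nat_lit 2988290773) (nat_lit 129) (nat_lit 5) (nat_lit 128) (nat_lit 5) (nat_lit 141) (nat_lit 5) (nat_lit 325) (nat_lit 320) (nat_lit 219)) (XT.nd (nat_lit 94) (nat_lit 0) (nat_lit 0) (XT.lf (nat_lit 84) (nat_lit 1578435748) (nat_lit 0) (nat_lit 8367446566) (nat_lit 1092) (nat_lit 2417118670) (nat_lit 130) (nat_lit 5) (nat_lit 129) (nat_lit 5) (nat_lit 142) (nat_lit 5) (nat_lit 326) (nat_lit 320) (nat_lit 218)) (XT.lf (nat_lit 84) (nat_lit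 6633783415) (nat_lit 0) (nat_lit 4110540719) (nat_lit 1092) (nat_lit 1806708135) (nat_lit 130) (nat_lit 5) (nat_lit 129) (nat_lit 5) (nat_lit 142) (nat_lit 5) (nat_lit 327) (nat_lit 320) (nat_lit 217)))) (XT.nd (nat_lit 94) (nat_lit 1092) (nat_lit 0) (XT.lf (nat_lit 0) (nat_lit 11554774744) (nat_lit 1008) (nat_lit 912157976) (nat_lit 1092) (nat_lit 278415830) (nat_lit 130) (nat_lit 5) (nat_lit 142) (nat_lit 5) (nat_lit 143) (nat_lit 5) (nat_lit 328) (nat_lit 320) (nat_lit 216)) (XT.nd (nat_lit 94) (nat_lit 1092) (nat_lit 0) (XT.lf (nat_lit 84) (nat_lit 4282288107) (nat_lit 0) (nat_lit 8177545409) (nat_lit 1092) (nat_lit 483760270) (nat_lit 131) (nat_lit 5) (nat_lit 130) (nat_lit 5) (nat_lit 143) (nat_lit 5) (nat_lit 329) (nat_lit 320) (nat_lit 215)) (XT.lf (nat_lit 0) (nat_lit 234756792) (nat_lit 1092) (nat_lit 3503417841) (nat_lit 1176) (nat_lit 9409953754) (nat_lit 117) (nat_lit 5)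 (nat_lit 130) (nat_lit 5) (nat_lit 131) (nat_lit 5) (nat_lit 330) (nat_lit 320) (nat_lit 214)))))) (XT.nd (nat_lit 564) (nat_lit 1428) (nat_lit 0) (XT.nd (nat_lit 282) (nat_lit 0) (nat_lit 84) (XT.nd (nat_lit 94) (nat_lit 0) (nat_lit 0) (XT.lf (nat_lit 0) (nat_lit 977875969) (nat_lit 1092) (nat_lit 11530963223) (nat_lit 1176) (nat_lit 849681287) (nat_lit 118) (nat_lit 5) (nat_lit 131) (nat_lit 5) (nat_lit 132) (nat_lit 5) (nat_lit 331) (nat_lit 320) (nat_lit 213)) (XT.nd (nat_lit 94) (nat_lit 0) (nat_lit 0) (XT.lf (nat_lit 0) (nat_lit 1805142171) (nat_lit 1092) (nat_lit 6225265505) (nat_lit 1176) (nat_lit 5543184991) (nat_lit 118) (nat_lit 5) (nat_lit 131) (nat_lit 5) (nat_lit 132) (nat_lit 5) (nat_lit 332) (nat_lit 320) (nat_lit 212)) (XT.lf (nat_lit 0) (nat_lit 2644411617) (nat_lit 1092) (nat_lit 765198683) (nat_lit 1176) (nat_lit 10386195479) (nat_lit 118) (nat_lit 5) (nat_lit 131)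 (nat_lit 5) (nat_lit 132) (nat_lit 5) (nat_lit 333) (nat_lit 320) (nat_lit 211)))) (XT.nd (nat_lit 94) (nat_lit 0) (nat_lit 0) (XT.lf (nat_lit 0) (nat_lit 3559585075) (nat_lit 1092) (nat_lit 9083674707) (nat_lit 1176) (nat_lit 1380150489) (nat_lit 119) (nat_lit 5) (nat_lit 132) (nat_lit 5) (nat_lit 133) (nat_lit 5) (nat_lit 334) (nat_lit 320) (nat_lit 210)) (XT.nd (nat_lit 94) (nat_lit 0) (nat_lit 0) (XT.lf (nat_lit 0) (nat_lit 4533171763) (nat_lit 1092) (nat_lit 3465217276) (nat_lit 1176) (nat_lit 6258797912) (nat_lit 119) (nat_lit 5) (nat_lit 132) (nat_lit 5) (nat_lit 133) (nat_lit 5) (nat_lit 335) (nat_lit 320) (nat_lit 209)) (XT.lf (nat_lit 84) (nat_lit 2365186841) (nat_lit 0) (nat_lit 3182705329) (nat_lit 1176) (nat_lit 8950025350) (nat_lit 120) (nat_lit 5) (nat_lit 119) (nat_lit 5) (nat_lit 133) (nat_lit 5) (nat_lit 336) (nat_lit 320) (nat_lit 208))))) (XT.nd (nat_lit 282) (nat_lit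 504) (nat_lit 0) (XT.nd (nat_lit 94) (nat_lit 1092) (nat_lit 0) (XT.lf (nat_lit 0) (nat_lit 6636081962) (nat_lit 1092) (nat_lit 6323472589) (nat_lit 84) (nat_lit 1785298730) (nat_lit 120) (nat_lit 5) (nat_lit 133) (nat_lit 5) (nat_lit 121) (nat_lit 5) (nat_lit 337) (nat_lit 320) (nat_lit 207)) (XT.nd (nat_lit 94) (nat_lit 1092) (nat_lit 0) (XT.lf (nat_lit 0) (nat_lit 7778717334) (nat_lit 1092) (nat_lit 376598745) (nat_lit 84) (nat_lit 6843529504) (nat_lit 120) (nat_lit 5) (nat_lit 133) (nat_lit 5) (nat_lit 121) (nat_lit 5) (nat_lit 338) (nat_lit 320) (nat_lit 206)) (XT.lf (nat_lit 0) (nat_lit 5863135913) (nat_lit 1092) (nat_lit 3140317634) (nat_lit 1176) (nat_lit 6255853332) (nat_lit 107) (nat_lit 5) (nat_lit 120) (nat_lit 5) (nat_lit 121) (nat_lit 5) (nat_lit 339) (nat_lit 320) (nat_lit 205)))) (XT.nd (nat_lit 94) (nat_lit 504) (nat_lit 0) (XT.lf (nat_lit 0) (nat_lit 10279050883) (nat_lit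 1176) (nat_lit 3253544258) (nat_lit 84) (nat_lit 1994888623) (nat_lit 107) (nat_lit 5) (nat_lit 121) (nat_lit 5) (nat_lit 108) (nat_lit 5) (nat_lit 340) (nat_lit 320) (nat_lit 204)) (XT.nd (nat_lit 94) (nat_lit 0) (nat_lit 0) (XT.lf (nat_lit 0) (nat_lit 3100216669) (nat_lit 504) (nat_lit 8545968789) (nat_lit 588) (nat_lit 4156216652) (nat_lit 101) (nat_lit 5) (nat_lit 107) (nat_lit 5) (nat_lit 108) (nat_lit 5) (nat_lit 341) (nat_lit 320) (nat_lit 203)) (XT.lf (nat_lit 0) (nat_lit 9710383524) (nat_lit 504) (nat_lit 3368631662) (nat_lit 588) (nat_lit 3006143588) (nat_lit 101) (nat_lit 5) (nat_lit 107) (nat_lit 5) (nat_lit 108) (nat_lit 5) (nat_lit 342) (nat_lit 320) (nat_lit 202))))))))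
noncomputable def xc160 : XT := (XT.nd (nat_lit 2162) (nat_lit 2352) (nat_lit 0) (XT.nd (nat_lit 1034) (nat_lit 1596) (nat_lit 0) (XT.nd (nat_lit 470) (nat_lit 1344) (nat_lit 0) (XT.nd (nat_lit 188) (nat_lit 588) (nat_lit 0) (XT.nd (nat_lit 94) (nat_lit 0) (nat_lit 0) (XT.lf (nat_lit 0) (nat_lit 122094183) (nat_lit 588) (nat_lit 14444598846) (nat_lit 672) (nat_lit 1809701949) (nat_lit 94) (nat_lit 5) (nat_lit 101) (nat_lit 5) (nat_lit 102) (nat_lit 5) (nat_lit 343) (nat_lit 320) (nat_lit 201)) (XT.lf (nat_lit 0) (nat_lit 6910828540) (nat_lit 588) (nat_lit 9280204505) (nat_lit 672) (nat_lit 482855889) (nat_lit 94) (nat_lit 5) (nat_lit 101) (nat_lit 5) (nat_lit 102) (nat_lit 5) (nat_lit 344) (nat_lit 320) (nat_lit 200))) (XT.nd (nat_lit 94) (nat_lit 504) (nat_lit 0) (XT.lf (nat_lit 0) (nat_lit 857358354) (nat_lit 672) (nat_lit 3088842528) (nat_lit 84) (nat_lit 13034474129) (nat_lit 93)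 (nat_lit 5) (nat_lit 101) (nat_lit 5) (nat_lit 94) (nat_lit 5) (nat_lit 345) (nat_lit 320) (nat_lit 199)) (XT.nd (nat_lit 94) (nat_lit 0) (nat_lit 0) (XT.lf (nat_lit 0) (nat_lit 2273561039) (nat_lit 588) (nat_lit 13455979519) (nat_lit 84) (nat_lit 1565932299) (nat_lit 87) (nat_lit 5) (nat_lit 94) (nat_lit 5) (nat_lit 88) (nat_lit 5) (nat_lit 346) (nat_lit 320) (nat_lit 198)) (XT.lf (nat_lit 0) (nat_lit 3797167883) (nat_lit 588) (nat_lit 6621051232) (nat_lit 84) (nat_lit 7199873890) (nat_lit 87) (nat_lit 5) (nat_lit 94) (nat_lit 5) (nat_lit 88) (nat_lit 5) (nat_lit 347) (nat_lit 320) (nat_lit 197))))) (XT.nd (nat_lit 282) (nat_lit 840) (nat_lit 0) (XT.nd (nat_lit 94) (nat_lit 0) (nat_lit 0) (XT.lf (nat_lit 0) (nat_lit 425189077) (nat_lit 504) (nat_lit 4937889504) (nat_lit 588) (nat_lit 12587819724) (nat_lit 81) (nat_lit 5) (nat_lit 87) (nat_lit 5) (nat_lit 88) (nat_lit 5) (nat_lit 348)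 (nat_lit 320) (nat_lit 196)) (XT.nd (nat_lit 94) (nat_lit 0) (nat_lit 0) (XT.lf (nat_lit 0) (nat_lit 7045454497) (nat_lit 588) (nat_lit 10478777774) (nat_lit 84) (nat_lit 767712940) (nat_lit 81) (nat_lit 5) (nat_lit 88) (nat_lit 5) (nat_lit 82) (nat_lit 5) (nat_lit 349) (nat_lit 320) (nat_lit 195)) (XT.lf (nat_lit 0) (nat_lit 8821795061) (nat_lit 588) (nat_lit 3272965267) (nat_lit 84) (nat_lit 6547537417) (nat_lit 81) (nat_lit 5) (nat_lit 88) (nat_lit 5) (nat_lit 82) (nat_lit 5) (nat_lit 350) (nat_lit 320) (nat_lit 194)))) (XT.nd (nat_lit 94) (nat_lit 420) (nat_lit 0) (XT.lf (nat_lit 0) (nat_lit 4232708991) (nat_lit 420) (nat_lit 6454051540) (nat_lit 504) (nat_lit 8315738801) (nat_lit 76) (nat_lit 5) (nat_lit 81) (nat_lit 5) (nat_lit 82) (nat_lit 5) (nat_lit 351) (nat_lit 320) (nat_lit 193)) (XT.nd (nat_lit 94) (nat_lit 420) (nat_lit 0) (XT.lf (nat_lit 0) (nat_lit 12031735281) (nat_lit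 420) (nat_lit 603704144) (nat_lit 504) (nat_lit 6737652437) (nat_lit 76) (nat_lit 5) (nat_lit 81) (nat_lit 5) (nat_lit 82) (nat_lit 5) (nat_lit 352) (nat_lit 320) (nat_lit 192)) (XT.lf (nat_lit 0) (nat_lit 260033156) (nat_lit 420) (nat_lit 14432900872) (nat_lit 504) (nat_lit 5060764875) (nat_lit 71) (nat_lit 5) (nat_lit 76) (nat_lit 5) (nat_lit 77) (nat_lit 5) (nat_lit 353) (nat_lit 320) (nat_lit 191)))))) (XT.nd (nat_lit 564) (nat_lit 672) (nat_lit 0) (XT.nd (nat_lit 282) (nat_lit 420) (nat_lit 0) (XT.nd (nat_lit 94) (nat_lit 504) (nat_lit 0) (XT.lf (nat_lit 0) (nat_lit 8237767624) (nat_lit 420) (nat_lit 8651320156) (nat_lit 504) (nat_lit 3254721746) (nat_lit 71) (nat_lit 5) (nat_lit 76) (nat_lit 5) (nat_lit 77) (nat_lit 5) (nat_lit 354) (nat_lit 320) (nat_lit 190)) (XT.nd (nat_lit 94) (nat_lit 504) (nat_lit 0) (XT.lf (nat_lit 0) (nat_lit 16454441519) (nat_lit 420) (nat_lit 2691253375)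 (nat_lit 504) (nat_lit 1400580299) (nat_lit 71) (nat_lit 5) (nat_lit 76) (nat_lit 5) (nat_lit 77) (nat_lit 5) (nat_lit 355) (nat_lit 320) (nat_lit 189)) (XT.lf (nat_lit 0) (nat_lit 567961384) (nat_lit 504) (nat_lit 16962294395) (nat_lit 84) (nat_lit 3428744270) (nat_lit 65) (nat_lit 5) (nat_lit 71) (nat_lit 5) (nat_lit 66) (nat_lit 5) (nat_lit 356) (nat_lit 320) (nat_lit 188)))) (XT.nd (nat_lit 94) (nat_lit 420) (nat_lit 0) (XT.lf (nat_lit 0) (nat_lit 2631744686) (nat_lit 504) (nat_lit 9011202505) (nat_lit 84) (nat_lit 9739188468) (nat_lit 65) (nat_lit 5) (nat_lit 71) (nat_lit 5) (nat_lit 66) (nat_lit 5) (nat_lit 357) (nat_lit 320) (nat_lit 187)) (XT.nd (nat_lit 94) (nat_lit 420) (nat_lit 0) (XT.lf (nat_lit 0) (nat_lit 4752364442) (nat_lit 504) (nat_lit 821827459) (nat_lit 84) (nat_lit 16244440209) (nat_lit 65) (nat_lit 5) (nat_lit 71) (nat_lit 5) (nat_lit 66) (nat_lit 5) (nat_lit 358)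 (nat_lit 320) (nat_lit 186)) (XT.lf (nat_lit 0) (nat_lit 7016427338) (nat_lit 504) (nat_lit 14504044829) (nat_lit 84) (nat_lit 745800566) (nat_lit 60) (nat_lit 5) (nat_lit 66) (nat_lit 5) (nat_lit 61) (nat_lit 5) (nat_lit 359) (nat_lit 320) (nat_lit 185))))) (XT.nd (nat_lit 282) (nat_lit 336) (nat_lit 0) (XT.nd (nat_lit 94) (nat_lit 336) (nat_lit 0) (XT.lf (nat_lit 0) (nat_lit 9409546319) (nat_lit 504) (nat_lit 6162906127) (nat_lit 84) (nat_lit 7153533746) (nat_lit 60) (nat_lit 5) (nat_lit 66) (nat_lit 5) (nat_lit 61) (nat_lit 5) (nat_lit 360) (nat_lit 320) (nat_lit 184)) (XT.nd (nat_lit 94) (nat_lit 0) (nat_lit 0) (XT.lf (nat_lit 0) (nat_lit 2478901065) (nat_lit 336) (nat_lit 9415939928) (nat_lit 420) (nat_lit 11304572440) (nat_lit 56) (nat_lit 5) (nat_lit 60) (nat_lit 5) (nat_lit 61) (nat_lit 5) (nat_lit 361) (nat_lit 320) (nat_lit 183)) (XT.lf (nat_lit 0) (nat_lit 11511482998) (nat_lit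 336) (nat_lit 3003544316) (nat_lit 420) (nat_lit 9170716043) (nat_lit 56) (nat_lit 5) (nat_lit 60) (nat_lit 5) (nat_lit 61) (nat_lit 5) (nat_lit 362) (nat_lit 320) (nat_lit 182)))) (XT.nd (nat_lit 94) (nat_lit 336) (nat_lit 0) (XT.lf (nat_lit 0) (nat_lit 17245929450) (nat_lit 420) (nat_lit 3406602261) (nat_lit 84) (nat_lit 3533722725) (nat_lit 56) (nat_lit 5) (nat_lit 61) (nat_lit 5) (nat_lit 57) (nat_lit 5) (nat_lit 363) (nat_lit 320) (nat_lit 181)) (XT.nd (nat_lit 94) (nat_lit 0) (nat_lit 0) (XT.lf (nat_lit 0) (nat_lit 5709664235) (nat_lit 336) (nat_lit 14433076305) (nat_lit 420) (nat_lit 4557040582) (nat_lit 52) (nat_lit 5) (nat_lit 56) (nat_lit 5) (nat_lit 57) (nat_lit 5) (nat_lit 364) (nat_lit 320) (nat_lit 180)) (XT.lf (nat_lit 0) (nat_lit 15173322350) (nat_lit 336) (nat_lit 7985589547) (nat_lit 420) (nat_lit 2069416892) (nat_lit 52) (nat_lit 5) (nat_lit 56) (nat_lit 5) (nat_lit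 57) (nat_lit 5) (nat_lit 365) (nat_lit 320) (nat_lit 179))))))) (XT.nd (nat_lit 1128) (nat_lit 1008) (nat_lit 0) (XT.nd (nat_lit 564) (nat_lit 588) (nat_lit 0) (XT.nd (nat_lit 282) (nat_lit 336) (nat_lit 0) (XT.nd (nat_lit 94) (nat_lit 336) (nat_lit 0) (XT.lf (nat_lit 0) (nat_lit 479448426) (nat_lit 420) (nat_lit 855166761) (nat_lit 84) (nat_lit 24438693591) (nat_lit 51) (nat_lit 5) (nat_lit 56) (nat_lit 5) (nat_lit 52) (nat_lit 5) (nat_lit 366) (nat_lit 320) (nat_lit 178)) (XT.nd (nat_lit 94) (nat_lit 0) (nat_lit 0) (XT.lf (nat_lit 0) (nat_lit 3201584814) (nat_lit 420) (nat_lit 17609454449) (nat_lit 84) (nat_lit 5519249643) (nat_lit 47) (nat_lit 5) (nat_lit 52) (nat_lit 5) (nat_lit 48) (nat_lit 5) (nat_lit 367) (nat_lit 320) (nat_lit 177)) (XT.lf (nat_lit 0) (nat_lit 6025144795) (nat_lit 420) (nat_lit 8313407463) (nat_lit 84) (nat_lit 12565470919) (nat_lit 47) (nat_lit 5) (nat_lit 52)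 (nat_lit 5) (nat_lit 48) (nat_lit 5) (nat_lit 368) (nat_lit 320) (nat_lit 176)))) (XT.nd (nat_lit 94) (nat_lit 0) (nat_lit 0) (XT.lf (nat_lit 0) (nat_lit 1289792473) (nat_lit 336) (nat_lit 7653776760) (nat_lit 420) (nat_lit 18551762062) (nat_lit 43) (nat_lit 5) (nat_lit 47) (nat_lit 5) (nat_lit 48) (nat_lit 5) (nat_lit 369) (nat_lit 320) (nat_lit 175)) (XT.nd (nat_lit 94) (nat_lit 0) (nat_lit 0) (XT.lf (nat_lit 0) (nat_lit 11359991508) (nat_lit 336) (nat_lit 673882789) (nat_lit 420) (nat_lit 16068586949) (nat_lit 43) (nat_lit 5) (nat_lit 47) (nat_lit 5) (nat_lit 48) (nat_lit 5) (nat_lit 370) (nat_lit 320) (nat_lit 174)) (XT.lf (nat_lit 0) (nat_lit 15279462439) (nat_lit 420) (nat_lit 7057640413) (nat_lit 84) (nat_lit 6389479909) (nat_lit 43) (nat_lit 5) (nat_lit 48) (nat_lit 5) (nat_lit 44) (nat_lit 5) (nat_lit 371) (nat_lit 320) (nat_lit 173))))) (XT.nd (nat_lit 282) (nat_lit 336) (nat_lit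 0) (XT.nd (nat_lit 94) (nat_lit 0) (nat_lit 0) (XT.lf (nat_lit 0) (nat_lit 2973756170) (nat_lit 252) (nat_lit 15683237563) (nat_lit 336) (nat_lit 10712101170) (nat_lit 40) (nat_lit 5) (nat_lit 43) (nat_lit 5) (nat_lit 44) (nat_lit 5) (nat_lit 372) (nat_lit 320) (nat_lit 172)) (XT.nd (nat_lit 94) (nat_lit 0) (nat_lit 0) (XT.lf (nat_lit 0) (nat_lit 13459127218) (nat_lit 252) (nat_lit 8748792798) (nat_lit 336) (nat_lit 7821489133) (nat_lit 40) (nat_lit 5) (nat_lit 43) (nat_lit 5) (nat_lit 44) (nat_lit 5) (nat_lit 373) (nat_lit 320) (nat_lit 171)) (XT.lf (nat_lit 0) (nat_lit 24263126633) (nat_lit 252) (nat_lit 1600972221) (nat_lit 336) (nat_lit 4846257150) (nat_lit 40) (nat_lit 5) (nat_lit 43) (nat_lit 5) (nat_lit 44) (nat_lit 5) (nat_lit 374) (nat_lit 320) (nat_lit 170)))) (XT.nd (nat_lit 94) (nat_lit 84) (nat_lit 0) (XT.lf (nat_lit 0) (nat_lit 4006774032) (nat_lit 252) (nat_lit 25719120078)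 (nat_lit 336) (nat_lit 1683670434) (nat_lit 37) (nat_lit 5) (nat_lit 40) (nat_lit 5) (nat_lit 41) (nat_lit 5) (nat_lit 375) (nat_lit 320) (nat_lit 169)) (XT.nd (nat_lit 94) (nat_lit 0) (nat_lit 0) (XT.lf (nat_lit 0) (nat_lit 1624865488) (nat_lit 336) (nat_lit 17245950628) (nat_lit 84) (nat_lit 13256689459) (nat_lit 36) (nat_lit 5) (nat_lit 40) (nat_lit 5) (nat_lit 37) (nat_lit 5) (nat_lit 376) (nat_lit 320) (nat_lit 168)) (XT.lf (nat_lit 0) (nat_lit 4996455728) (nat_lit 336) (nat_lit 6797687516) (nat_lit 84) (nat_lit 21073178078) (nat_lit 36) (nat_lit 5) (nat_lit 40) (nat_lit 5) (nat_lit 37) (nat_lit 5) (nat_lit 377) (nat_lit 320) (nat_lit 167)))))) (XT.nd (nat_lit 564) (nat_lit 504) (nat_lit 0) (XT.nd (nat_lit 282) (nat_lit 252) (nat_lit 0) (XT.nd (nat_lit 94) (nat_lit 0) (nat_lit 0) (XT.lf (nat_lit 0) (nat_lit 4050039181) (nat_lit 252) (nat_lit 4458302876) (nat_lit 336) (nat_lit 25120631597)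 (nat_lit 33) (nat_lit 5) (nat_lit 36) (nat_lit 5) (nat_lit 37) (nat_lit 5) (nat_lit 378) (nat_lit 320) (nat_lit 166)) (XT.nd (nat_lit 94) (nat_lit 0) (nat_lit 0) (XT.lf (nat_lit 0) (nat_lit 12227234611) (nat_lit 336) (nat_lit 19071511627) (nat_lit 84) (nat_lit 3112459735) (nat_lit 33) (nat_lit 5) (nat_lit 37) (nat_lit 5) (nat_lit 34) (nat_lit 5) (nat_lit 379) (nat_lit 320) (nat_lit 165)) (XT.lf (nat_lit 0) (nat_lit 16102798047) (nat_lit 336) (nat_lit 8289872855) (nat_lit 84) (nat_lit 10823744356) (nat_lit 33) (nat_lit 5) (nat_lit 37) (nat_lit 5) (nat_lit 34) (nat_lit 5) (nat_lit 380) (nat_lit 320) (nat_lit 164)))) (XT.nd (nat_lit 94) (nat_lit 0) (nat_lit 0) (XT.lf (nat_lit 0) (nat_lit 2878248671) (nat_lit 252) (nat_lit 17244721790) (nat_lit 336) (nat_lit 15922867489) (nat_lit 30) (nat_lit 5) (nat_lit 33) (nat_lit 5) (nat_lit 34) (nat_lit 5) (nat_lit 381) (nat_lit 320) (nat_lit 163))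 (XT.nd (nat_lit 94) (nat_lit 0) (nat_lit 0) (XT.lf (nat_lit 0) (nat_lit 14562642667) (nat_lit 252) (nat_lit 9787635266) (nat_lit 336) (nat_lit 12548147083) (nat_lit 30) (nat_lit 5) (nat_lit 33) (nat_lit 5) (nat_lit 34) (nat_lit 5) (nat_lit 382) (nat_lit 320) (nat_lit 162)) (XT.lf (nat_lit 0) (nat_lit 26603743423) (nat_lit 252) (nat_lit 2100989813) (nat_lit 336) (nat_lit 9072839671) (nat_lit 30) (nat_lit 5) (nat_lit 33) (nat_lit 5) (nat_lit 34) (nat_lit 5) (nat_lit 383) (nat_lit 320) (nat_lit 161))))) (XT.nd (nat_lit 282) (nat_lit 252) (nat_lit 0) (XT.nd (nat_lit 94) (nat_lit 84) (nat_lit 0) (XT.lf (nat_lit 0) (nat_lit 276485261) (nat_lit 168) (nat_lit 32974411411) (nat_lit 252) (nat_lit 5431328864) (nat_lit 28) (nat_lit 5) (nat_lit 30) (nat_lit 5) (nat_lit 31) (nat_lit 5) (nat_lit 384) (nat_lit 320) (nat_lit 160)) (XT.nd (nat_lit 94) (nat_lit 84) (nat_lit 0) (XT.lf (nat_lit 0) (nat_lit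 12291309282) (nat_lit 168) (nat_lit 25780848018) (nat_lit 252) (nat_lit 1538615135) (nat_lit 28) (nat_lit 5) (nat_lit 30) (nat_lit 5) (nat_lit 31) (nat_lit 5) (nat_lit 385) (nat_lit 320) (nat_lit 159)) (XT.lf (nat_lit 0) (nat_lit 2421241738) (nat_lit 252) (nat_lit 15919383006) (nat_lit 84) (nat_lit 22226840901) (nat_lit 27) (nat_lit 5) (nat_lit 30) (nat_lit 5) (nat_lit 28) (nat_lit 5) (nat_lit 386) (nat_lit 320) (nat_lit 158)))) (XT.nd (nat_lit 94) (nat_lit 252) (nat_lit 0) (XT.lf (nat_lit 0) (nat_lit 6468334039) (nat_lit 252) (nat_lit 4186798295) (nat_lit 84) (nat_lit 30898314911) (nat_lit 27) (nat_lit 5) (nat_lit 30) (nat_lit 5) (nat_lit 28) (nat_lit 5) (nat_lit 387) (nat_lit 320) (nat_lit 157)) (XT.nd (nat_lit 94) (nat_lit 0) (nat_lit 0) (XT.lf (nat_lit 0) (nat_lit 8067022760) (nat_lit 252) (nat_lit 2650436849) (nat_lit 336) (nat_lit 31850169021) (nat_lit 24) (nat_lit 5) (nat_lit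 27) (nat_lit 5) (nat_lit 28) (nat_lit 5) (nat_lit 388) (nat_lit 320) (nat_lit 156)) (XT.lf (nat_lit 0) (nat_lit 15194619908) (nat_lit 336) (nat_lit 22883501599) (nat_lit 84) (nat_lit 5532150354) (nat_lit 24) (nat_lit 5) (nat_lit 28) (nat_lit 5) (nat_lit 25) (nat_lit 5) (nat_lit 389) (nat_lit 320) (nat_lit 155))))))))
noncomputable def xc161 : XT := (XT.nd (nat_lit 47940) (nat_lit 0) (nat_lit 6720) (XT.nd (nat_lit 1128) (nat_lit 336) (nat_lit 0) (XT.nd (nat_lit 564) (nat_lit 252) (nat_lit 0) (XT.nd (nat_lit 282) (nat_lit 168) (nat_lit 0) (XT.nd (nat_lit 94) (nat_lit 168) (nat_lit 0) (XT.lf (nat_lit 0) (nat_lit 19834369277) (nat_lit 336) (nat_lit 10938276278) (nat_lit 84) (nat_lit 13911861416) (nat_lit 24) (nat_lit 5) (nat_lit 28) (nat_lit 5) (nat_lit 25) (nat_lit 5) (nat_lit 390) (nat_lit 320) (nat_lit 154)) (XT.nd (nat_lit 94) (nat_lit 0) (nat_lit 0) (XT.lf (nat_lit 0) (nat_lit 1400718307)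 (nat_lit 168) (nat_lit 23227916780) (nat_lit 252) (nat_lit 21163084492) (nat_lit 22) (nat_lit 5) (nat_lit 24) (nat_lit 5) (nat_lit 25) (nat_lit 5) (nat_lit 391) (nat_lit 320) (nat_lit 153)) (XT.lf (nat_lit 0) (nat_lit 14349401493) (nat_lit 168) (nat_lit 15333133595) (nat_lit 252) (nat_lit 17247286519) (nat_lit 22) (nat_lit 5) (nat_lit 24) (nat_lit 5) (nat_lit 25) (nat_lit 5) (nat_lit 392) (nat_lit 320) (nat_lit 152)))) (XT.nd (nat_lit 94) (nat_lit 168) (nat_lit 0) (XT.lf (nat_lit 0) (nat_lit 27694929413) (nat_lit 168) (nat_lit 7195110406) (nat_lit 252) (nat_lit 13213267010) (nat_lit 22) (nat_lit 5) (nat_lit 24) (nat_lit 5) (nat_lit 25) (nat_lit 5) (nat_lit 393) (nat_lit 320) (nat_lit 151)) (XT.nd (nat_lit 94) (nat_lit 168) (nat_lit 0) (XT.lf (nat_lit 0) (nat_lit 40267845253) (nat_lit 252) (nat_lit 7875369592) (nat_lit 84) (nat_lit 1169687111) (nat_lit 22) (nat_lit 5) (nat_lit 25) (nat_lit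 5) (nat_lit 23) (nat_lit 5) (nat_lit 394) (nat_lit 320) (nat_lit 150)) (XT.lf (nat_lit 0) (nat_lit 5070352636) (nat_lit 168) (nat_lit 40862999059) (nat_lit 252) (nat_lit 4622898742) (nat_lit 20) (nat_lit 5) (nat_lit 22) (nat_lit 5) (nat_lit 23) (nat_lit 5) (nat_lit 395) (nat_lit 320) (nat_lit 149))))) (XT.nd (nat_lit 282) (nat_lit 168) (nat_lit 0) (XT.nd (nat_lit 94) (nat_lit 0) (nat_lit 0) (XT.lf (nat_lit 0) (nat_lit 17782254) (nat_lit 252) (nat_lit 33255855158) (nat_lit 84) (nat_lit 18562046300) (nat_lit 19) (nat_lit 5) (nat_lit 22) (nat_lit 5) (nat_lit 20) (nat_lit 5) (nat_lit 396) (nat_lit 320) (nat_lit 148)) (XT.nd (nat_lit 94) (nat_lit 0) (nat_lit 0) (XT.lf (nat_lit 0) (nat_lit 4703492979) (nat_lit 252) (nat_lit 20698227738) (nat_lit 84) (nat_lit 27751685864) (nat_lit 19) (nat_lit 5) (nat_lit 22) (nat_lit 5) (nat_lit 20) (nat_lit 5) (nat_lit 397) (nat_lit 320) (nat_lit 147)) (XT.lf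 (nat_lit 0) (nat_lit 9531742111) (nat_lit 252) (nat_lit 7755450787) (nat_lit 84) (nat_lit 37224876048) (nat_lit 19) (nat_lit 5) (nat_lit 22) (nat_lit 5) (nat_lit 20) (nat_lit 5) (nat_lit 398) (nat_lit 320) (nat_lit 146)))) (XT.nd (nat_lit 94) (nat_lit 0) (nat_lit 0) (XT.lf (nat_lit 0) (nat_lit 5699369306) (nat_lit 168) (nat_lit 8864199228) (nat_lit 252) (nat_lit 41347616001) (nat_lit 17) (nat_lit 5) (nat_lit 19) (nat_lit 5) (nat_lit 20) (nat_lit 5) (nat_lit 399) (nat_lit 320) (nat_lit 145)) (XT.nd (nat_lit 94) (nat_lit 0) (nat_lit 0) (XT.lf (nat_lit 0) (nat_lit 19731728395) (nat_lit 168) (nat_lit 98007183) (nat_lit 252) (nat_lit 37521513623) (nat_lit 17) (nat_lit 5) (nat_lit 19) (nat_lit 5) (nat_lit 20) (nat_lit 5) (nat_lit 400) (nat_lit 320) (nat_lit 144)) (XT.lf (nat_lit 0) (nat_lit 25345306942) (nat_lit 252) (nat_lit 24729473178) (nat_lit 84) (nat_lit 8758510309) (nat_lit 17) (nat_lit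 5) (nat_lit 20) (nat_lit 5) (nat_lit 18) (nat_lit 5) (nat_lit 401) (nat_lit 320) (nat_lit 143)))))) (XT.nd (nat_lit 564) (nat_lit 168) (nat_lit 0) (XT.nd (nat_lit 282) (nat_lit 0) (nat_lit 0) (XT.nd (nat_lit 94) (nat_lit 168) (nat_lit 0) (XT.lf (nat_lit 0) (nat_lit 31030407395) (nat_lit 252) (nat_lit 11444641154) (nat_lit 84) (nat_lit 17886276592) (nat_lit 17) (nat_lit 5) (nat_lit 20) (nat_lit 5) (nat_lit 18) (nat_lit 5) (nat_lit 402) (nat_lit 320) (nat_lit 142)) (XT.nd (nat_lit 94) (nat_lit 0) (nat_lit 0) (XT.lf (nat_lit 0) (nat_lit 2294560648) (nat_lit 168) (nat_lit 34617565483) (nat_lit 252) (nat_lit 25023976004) (nat_lit 15) (nat_lit 5) (nat_lit 17) (nat_lit 5) (nat_lit 18) (nat_lit 5) (nat_lit 403) (nat_lit 320) (nat_lit 141)) (XT.lf (nat_lit 0) (nat_lit 16698645148) (nat_lit 168) (nat_lit 26394644812) (nat_lit 252) (nat_lit 20462781628) (nat_lit 15) (nat_lit 5) (nat_lit 17) (nat_lit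 5) (nat_lit 18) (nat_lit 5) (nat_lit 404) (nat_lit 320) (nat_lit 140)))) (XT.nd (nat_lit 94) (nat_lit 0) (nat_lit 0) (XT.lf (nat_lit 0) (nat_lit 31545713167) (nat_lit 168) (nat_lit 17918080494) (nat_lit 252) (nat_lit 15762541689) (nat_lit 15) (nat_lit 5) (nat_lit 17) (nat_lit 5) (nat_lit 18) (nat_lit 5) (nat_lit 405) (nat_lit 320) (nat_lit 139)) (XT.nd (nat_lit 94) (nat_lit 0) (nat_lit 0) (XT.lf (nat_lit 0) (nat_lit 46849603727) (nat_lit 168) (nat_lit 9179971485) (nat_lit 252) (nat_lit 10918875072) (nat_lit 15) (nat_lit 5) (nat_lit 17) (nat_lit 5) (nat_lit 18) (nat_lit 5) (nat_lit 406) (nat_lit 320) (nat_lit 138)) (XT.lf (nat_lit 0) (nat_lit 62624581658) (nat_lit 168) (nat_lit 172172950) (nat_lit 252) (nat_lit 5927266971) (nat_lit 15) (nat_lit 5) (nat_lit 17) (nat_lit 5) (nat_lit 18) (nat_lit 5) (nat_lit 407) (nat_lit 320) (nat_lit 137))))) (XT.nd (nat_lit 282) (nat_lit 0) (nat_lit 0)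 (XT.nd (nat_lit 94) (nat_lit 84) (nat_lit 0) (XT.lf (nat_lit 0) (nat_lit 8409673673) (nat_lit 84) (nat_lit 61535800046) (nat_lit 168) (nat_lit 603841678) (nat_lit 14) (nat_lit 5) (nat_lit 15) (nat_lit 5) (nat_lit 16) (nat_lit 4) (nat_lit 408) (nat_lit 320) (nat_lit 136)) (XT.nd (nat_lit 94) (nat_lit 0) (nat_lit 0) (XT.lf (nat_lit 0) (nat_lit 4850190417) (nat_lit 168) (nat_lit 48985516753) (nat_lit 84) (nat_lit 18592004215) (nat_lit 13) (nat_lit 5) (nat_lit 15) (nat_lit 5) (nat_lit 14) (nat_lit 5) (nat_lit 409) (nat_lit 320) (nat_lit 135)) (XT.lf (nat_lit 0) (nat_lit 10458733834) (nat_lit 168) (nat_lit 35432994217) (nat_lit 84) (nat_lit 28472484688) (nat_lit 13) (nat_lit 5) (nat_lit 15) (nat_lit 5) (nat_lit 14) (nat_lit 5) (nat_lit 410) (nat_lit 320) (nat_lit 134)))) (XT.nd (nat_lit 45778) (nat_lit 0) (nat_lit 9576) (XT.lf (nat_lit 0) (nat_lit 16239182387) (nat_lit 168) (nat_lit 21463451563)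 (nat_lit 84) (nat_lit 38658176228) (nat_lit 13) (nat_lit 5) (nat_lit 15) (nat_lit 5) (nat_lit 14) (nat_lit 5) (nat_lit 411) (nat_lit 320) (nat_lit 133)) (XT.nd (nat_lit 94) (nat_lit 0) (nat_lit 0) (XT.lf (nat_lit 0) (nat_lit 3557440200) (nat_lit 1092) (nat_lit 1135481730) (nat_lit 1092) (nat_lit 1135481730) (nat_lit 127) (nat_lit 3) (nat_lit 140) (nat_lit 3) (nat_lit 140) (nat_lit 5) (nat_lit 321) (nat_lit 321) (nat_lit 222)) (XT.lf (nat_lit 84) (nat_lit 2289935600) (nat_lit 0) (nat_lit 5390701286) (nat_lit 1092) (nat_lit 4141020902) (nat_lit 128) (nat_lit 5) (nat_lit 127) (nat_lit 3) (nat_lit 140) (nat_lit 5) (nat_lit 322) (nat_lit 321) (nat_lit 221))))))) (XT.nd (nat_lit 1128) (nat_lit 2016) (nat_lit 0) (XT.nd (nat_lit 564) (nat_lit 840) (nat_lit 0) (XT.nd (nat_lit 282) (nat_lit 0) (nat_lit 84) (XT.nd (nat_lit 94) (nat_lit 0) (nat_lit 84) (XT.lf (nat_lit 84) (nat_lit 7031156325) (nat_lit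 0) (nat_lit 1238950066) (nat_lit 1092) (nat_lit 3721389735) (nat_lit 128) (nat_lit 5) (nat_lit 127) (nat_lit 3) (nat_lit 140) (nat_lit 5) (nat_lit 323) (nat_lit 321) (nat_lit 220)) (XT.nd (nat_lit 94) (nat_lit 0) (nat_lit 0) (XT.lf (nat_lit 0) (nat_lit 8891099063) (nat_lit 1008) (nat_lit 287023182) (nat_lit 1092) (nat_lit 2988133315) (nat_lit 128) (nat_lit 5) (nat_lit 140) (nat_lit 5) (nat_lit 141) (nat_lit 5) (nat_lit 324) (nat_lit 321) (nat_lit 219)) (XT.lf (nat_lit 84) (nat_lit 4601894973) (nat_lit 0) (nat_lit 4971356771) (nat_lit 1092) (nat_lit 2771946440) (nat_lit 129) (nat_lit 5) (nat_lit 128) (nat_lit 5) (nat_lit 141) (nat_lit 5) (nat_lit 325) (nat_lit 321) (nat_lit 218)))) (XT.nd (nat_lit 94) (nat_lit 0) (nat_lit 84) (XT.lf (nat_lit 84) (nat_lit 9639231003) (nat_lit 0) (nat_lit 624304443) (nat_lit 1092) (nat_lit 2266618957) (nat_lit 129) (nat_lit 5) (nat_lit 128) (nat_lit 5)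 (nat_lit 141) (nat_lit 5) (nat_lit 326) (nat_lit 321) (nat_lit 217)) (XT.nd (nat_lit 94) (nat_lit 0) (nat_lit 0) (XT.lf (nat_lit 84) (nat_lit 2106500786) (nat_lit 0) (nat_lit 8912415953) (nat_lit 1092) (nat_lit 1700633858) (nat_lit 130) (nat_lit 5) (nat_lit 129) (nat_lit 5) (nat_lit 142) (nat_lit 5) (nat_lit 327) (nat_lit 321) (nat_lit 216)) (XT.lf (nat_lit 84) (nat_lit 7304157694) (nat_lit 0) (nat_lit 4514959278) (nat_lit 1092) (nat_lit 1095096796) (nat_lit 130) (nat_lit 5) (nat_lit 129) (nat_lit 5) (nat_lit 142) (nat_lit 5) (nat_lit 328) (nat_lit 321) (nat_lit 215))))) (XT.nd (nat_lit 282) (nat_lit 0) (nat_lit 84) (XT.nd (nat_lit 94) (nat_lit 1092) (nat_lit 0) (XT.lf (nat_lit 0) (nat_lit 12629724455) (nat_lit 1008) (nat_lit 461894342) (nat_lit 1092) (nat_lit 23796449) (nat_lit 130) (nat_lit 5) (nat_lit 142) (nat_lit 5) (nat_lit 143) (nat_lit 5) (nat_lit 329) (nat_lit 321) (nat_lit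 214)) (XT.nd (nat_lit 94) (nat_lit 0) (nat_lit 0) (XT.lf (nat_lit 0) (nat_lit 221029842) (nat_lit 1092) (nat_lit 8433916238) (nat_lit 1176) (nat_lit 4665397836) (nat_lit 117) (nat_lit 5) (nat_lit 130) (nat_lit 5) (nat_lit 131) (nat_lit 5) (nat_lit 330) (nat_lit 321) (nat_lit 213)) (XT.lf (nat_lit 0) (nat_lit 930431772) (nat_lit 1092) (nat_lit 3135843205) (nat_lit 1176) (nat_lit 9465532047) (nat_lit 117) (nat_lit 5) (nat_lit 130) (nat_lit 5) (nat_lit 131) (nat_lit 5) (nat_lit 331) (nat_lit 321) (nat_lit 212)))) (XT.nd (nat_lit 94) (nat_lit 0) (nat_lit 0) (XT.lf (nat_lit 0) (nat_lit 1678570831) (nat_lit 1092) (nat_lit 11391730026) (nat_lit 1176) (nat_lit 679056301) (nat_lit 118) (nat_lit 5) (nat_lit 131) (nat_lit 5) (nat_lit 132) (nat_lit 5) (nat_lit 332) (nat_lit 321) (nat_lit 211)) (XT.nd (nat_lit 94) (nat_lit 0) (nat_lit 0) (XT.lf (nat_lit 0) (nat_lit 2511325347) (nat_lit 1092) (nat_lit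 5936490193) (nat_lit 1176) (nat_lit 5523980946) (nat_lit 118) (nat_lit 5) (nat_lit 131) (nat_lit 5) (nat_lit 132) (nat_lit 5) (nat_lit 333) (nat_lit 321) (nat_lit 210)) (XT.lf (nat_lit 0) (nat_lit 3357061286) (nat_lit 1092) (nat_lit 321646766) (nat_lit 1176) (nat_lit 10522869014) (nat_lit 118) (nat_lit 5) (nat_lit 131) (nat_lit 5) (nat_lit 132) (nat_lit 5) (nat_lit 334) (nat_lit 321) (nat_lit 209)))))) (XT.nd (nat_lit 564) (nat_lit 1176) (nat_lit 0) (XT.nd (nat_lit 282) (nat_lit 1008) (nat_lit 0) (XT.nd (nat_lit 94) (nat_lit 0) (nat_lit 0) (XT.lf (nat_lit 0) (nat_lit 4284705313) (nat_lit 1092) (nat_lit 8879818500) (nat_lit 1176) (nat_lit 1272276972) (nat_lit 119) (nat_lit 5) (nat_lit 132) (nat_lit 5) (nat_lit 133) (nat_lit 5) (nat_lit 335) (nat_lit 321) (nat_lit 208)) (XT.nd (nat_lit 94) (nat_lit 0) (nat_lit 0) (XT.lf (nat_lit 0) (nat_lit 5269988255) (nat_lit 1092) (nat_lit 3101785352)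 (nat_lit 1176) (nat_lit 6306692440) (nat_lit 119) (nat_lit 5) (nat_lit 132) (nat_lit 5) (nat_lit 133) (nat_lit 5) (nat_lit 336) (nat_lit 321) (nat_lit 207)) (XT.lf (nat_lit 84) (nat_lit 2904594323) (nat_lit 0) (nat_lit 3398265180) (nat_lit 1176) (nat_lit 8624278645) (nat_lit 120) (nat_lit 5) (nat_lit 119) (nat_lit 5) (nat_lit 133) (nat_lit 5) (nat_lit 337) (nat_lit 321) (nat_lit 206)))) (XT.nd (nat_lit 94) (nat_lit 1092) (nat_lit 0) (XT.lf (nat_lit 0) (nat_lit 7406129361) (nat_lit 1092) (nat_lit 6046696040) (nat_lit 84) (nat_lit 1729546199) (nat_lit 120) (nat_lit 5) (nat_lit 133) (nat_lit 5) (nat_lit 121) (nat_lit 5) (nat_lit 338) (nat_lit 321) (nat_lit 205)) (XT.nd (nat_lit 94) (nat_lit 0) (nat_lit 0) (XT.lf (nat_lit 0) (nat_lit 71760478) (nat_lit 1092) (nat_lit 8496169643) (nat_lit 1176) (nat_lit 6876873968) (nat_lit 107) (nat_lit 5) (nat_lit 120) (nat_lit 5) (nat_lit 121) (nat_lit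 5) (nat_lit 339) (nat_lit 321) (nat_lit 204)) (XT.lf (nat_lit 0) (nat_lit 6498838306) (nat_lit 1092) (nat_lit 3319128186) (nat_lit 1176) (nat_lit 5895826459) (nat_lit 107) (nat_lit 5) (nat_lit 120) (nat_lit 5) (nat_lit 121) (nat_lit 5) (nat_lit 340) (nat_lit 321) (nat_lit 203))))) (XT.nd (nat_lit 282) (nat_lit 672) (nat_lit 0) (XT.nd (nat_lit 94) (nat_lit 504) (nat_lit 0) (XT.lf (nat_lit 0) (nat_lit 11116225016) (nat_lit 1176) (nat_lit 2895329716) (nat_lit 84) (nat_lit 1979310720) (nat_lit 107) (nat_lit 5) (nat_lit 121) (nat_lit 5) (nat_lit 108) (nat_lit 5) (nat_lit 341) (nat_lit 321) (nat_lit 202)) (XT.nd (nat_lit 94) (nat_lit 0) (nat_lit 0) (XT.lf (nat_lit 0) (nat_lit 3650750084) (nat_lit 504) (nat_lit 8863907736) (nat_lit 588) (nat_lit 3760049028) (nat_lit 101) (nat_lit 5) (nat_lit 107) (nat_lit 5) (nat_lit 108) (nat_lit 5) (nat_lit 342) (nat_lit 321) (nat_lit 201)) (XT.lf (nat_lit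 0) (nat_lit 10452168457) (nat_lit 504) (nat_lit 3524479141) (nat_lit 588) (nat_lit 2590109656) (nat_lit 101) (nat_lit 5) (nat_lit 107) (nat_lit 5) (nat_lit 108) (nat_lit 5) (nat_lit 343) (nat_lit 321) (nat_lit 200)))) (XT.nd (nat_lit 94) (nat_lit 84) (nat_lit 0) (XT.lf (nat_lit 0) (nat_lit 579553657) (nat_lit 588) (nat_lit 14920096645) (nat_lit 672) (nat_lit 1367759700) (nat_lit 94) (nat_lit 5) (nat_lit 101) (nat_lit 5) (nat_lit 102) (nat_lit 5) (nat_lit 344) (nat_lit 321) (nat_lit 199)) (XT.nd (nat_lit 94) (nat_lit 84) (nat_lit 0) (XT.lf (nat_lit 0) (nat_lit 7565097740) (nat_lit 588) (nat_lit 9594772741) (nat_lit 672) (nat_lit 14756517) (nat_lit 94) (nat_lit 5) (nat_lit 101) (nat_lit 5) (nat_lit 102) (nat_lit 5) (nat_lit 345) (nat_lit 321) (nat_lit 198)) (XT.lf (nat_lit 0) (nat_lit 1343039434) (nat_lit 672) (nat_lit 2746775196) (nat_lit 84) (nat_lit 13401450397) (nat_lit 93) (nat_lit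 5) (nat_lit 101) (nat_lit 5) (nat_lit 94) (nat_lit 5) (nat_lit 346) (nat_lit 321) (nat_lit 197))))))))
noncomputable def xc162 : XT := (XT.nd (nat_lit 2256) (nat_lit 1764) (nat_lit 0) (XT.nd (nat_lit 1128) (nat_lit 1848) (nat_lit 0) (XT.nd (nat_lit 564) (nat_lit 924) (nat_lit 0) (XT.nd (nat_lit 282) (nat_lit 420) (nat_lit 0) (XT.nd (nat_lit 94) (nat_lit 504) (nat_lit 0) (XT.lf (nat_lit 0) (nat_lit 2793478618) (nat_lit 588) (nat_lit 13424096400) (nat_lit 84) (nat_lit 1598593696) (nat_lit 87) (nat_lit 5) (nat_lit 94) (nat_lit 5) (nat_lit 88) (nat_lit 5) (nat_lit 347) (nat_lit 321) (nat_lit 196)) (XT.nd (nat_lit 94) (nat_lit 504) (nat_lit 0) (XT.lf (nat_lit 0) (nat_lit 4350803644) (nat_lit 588) (nat_lit 6390786377) (nat_lit 84) (nat_lit 7407665030) (nat_lit 87) (nat_lit 5) (nat_lit 94) (nat_lit 5) (nat_lit 88) (nat_lit 5) (nat_lit 348) (nat_lit 321) (nat_lit 195)) (XT.lf (nat_lit 0) (nat_lit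 869478159) (nat_lit 504) (nat_lit 5086948758) (nat_lit 588) (nat_lit 12536268806) (nat_lit 81) (nat_lit 5) (nat_lit 87) (nat_lit 5) (nat_lit 88) (nat_lit 5) (nat_lit 349) (nat_lit 321) (nat_lit 194)))) (XT.nd (nat_lit 94) (nat_lit 420) (nat_lit 0) (XT.lf (nat_lit 0) (nat_lit 7678153336) (nat_lit 588) (nat_lit 10371273795) (nat_lit 84) (nat_lit 795328163) (nat_lit 81) (nat_lit 5) (nat_lit 88) (nat_lit 5) (nat_lit 82) (nat_lit 5) (nat_lit 350) (nat_lit 321) (nat_lit 193)) (XT.nd (nat_lit 94) (nat_lit 420) (nat_lit 0) (XT.lf (nat_lit 0) (nat_lit 9497103637) (nat_lit 588) (nat_lit 2955080838) (nat_lit 84) (nat_lit 6754212456) (nat_lit 81) (nat_lit 5) (nat_lit 88) (nat_lit 5) (nat_lit 82) (nat_lit 5) (nat_lit 351) (nat_lit 321) (nat_lit 192)) (XT.lf (nat_lit 0) (nat_lit 4779023818) (nat_lit 420) (nat_lit 6632894800) (nat_lit 504) (nat_lit 8166133794) (nat_lit 76) (nat_lit 5) (nat_lit 81)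 (nat_lit 5) (nat_lit 82) (nat_lit 5) (nat_lit 352) (nat_lit 321) (nat_lit 191))))) (XT.nd (nat_lit 282) (nat_lit 504) (nat_lit 0) (XT.nd (nat_lit 94) (nat_lit 420) (nat_lit 0) (XT.lf (nat_lit 0) (nat_lit 12807338714) (nat_lit 420) (nat_lit 601825047) (nat_lit 504) (nat_lit 6551376200) (nat_lit 76) (nat_lit 5) (nat_lit 81) (nat_lit 5) (nat_lit 82) (nat_lit 5) (nat_lit 353) (nat_lit 321) (nat_lit 190)) (XT.nd (nat_lit 94) (nat_lit 0) (nat_lit 0) (XT.lf (nat_lit 0) (nat_lit 679420378) (nat_lit 420) (nat_lit 14843812167) (nat_lit 504) (nat_lit 4829975062) (nat_lit 71) (nat_lit 5) (nat_lit 76) (nat_lit 5) (nat_lit 77) (nat_lit 5) (nat_lit 354) (nat_lit 321) (nat_lit 189)) (XT.lf (nat_lit 0) (nat_lit 8892096902) (nat_lit 420) (nat_lit 8884100186) (nat_lit 504) (nat_lit 2979601124) (nat_lit 71) (nat_lit 5) (nat_lit 76) (nat_lit 5) (nat_lit 77) (nat_lit 5) (nat_lit 355) (nat_lit 321) (nat_lit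 188)))) (XT.nd (nat_lit 94) (nat_lit 504) (nat_lit 0) (XT.lf (nat_lit 0) (nat_lit 17351491846) (nat_lit 420) (nat_lit 2740336066) (nat_lit 504) (nat_lit 1079287331) (nat_lit 71) (nat_lit 5) (nat_lit 76) (nat_lit 5) (nat_lit 77) (nat_lit 5) (nat_lit 356) (nat_lit 321) (nat_lit 187)) (XT.nd (nat_lit 94) (nat_lit 0) (nat_lit 0) (XT.lf (nat_lit 0) (nat_lit 936475052) (nat_lit 504) (nat_lit 17085135938) (nat_lit 84) (nat_lit 3575145486) (nat_lit 65) (nat_lit 5) (nat_lit 71) (nat_lit 5) (nat_lit 66) (nat_lit 5) (nat_lit 357) (nat_lit 321) (nat_lit 186)) (XT.lf (nat_lit 0) (nat_lit 3053684606) (nat_lit 504) (nat_lit 8899677247) (nat_lit 84) (nat_lit 10080007427) (nat_lit 65) (nat_lit 5) (nat_lit 71) (nat_lit 5) (nat_lit 66) (nat_lit 5) (nat_lit 358) (nat_lit 321) (nat_lit 185)))))) (XT.nd (nat_lit 564) (nat_lit 1092) (nat_lit 0) (XT.nd (nat_lit 282) (nat_lit 336) (nat_lit 0) (XT.nd (nat_lit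 94) (nat_lit 420) (nat_lit 0) (XT.lf (nat_lit 0) (nat_lit 5229809791) (nat_lit 504) (nat_lit 468184290) (nat_lit 84) (nat_lit 16785752207) (nat_lit 65) (nat_lit 5) (nat_lit 71) (nat_lit 5) (nat_lit 66) (nat_lit 5) (nat_lit 359) (nat_lit 321) (nat_lit 184)) (XT.nd (nat_lit 94) (nat_lit 0) (nat_lit 0) (XT.lf (nat_lit 0) (nat_lit 7558364925) (nat_lit 504) (nat_lit 14567858012) (nat_lit 84) (nat_lit 819248295) (nat_lit 60) (nat_lit 5) (nat_lit 66) (nat_lit 5) (nat_lit 61) (nat_lit 5) (nat_lit 360) (nat_lit 321) (nat_lit 183)) (XT.lf (nat_lit 0) (nat_lit 10015915718) (nat_lit 504) (nat_lit 5979744572) (nat_lit 84) (nat_lit 7424107950) (nat_lit 60) (nat_lit 5) (nat_lit 66) (nat_lit 5) (nat_lit 61) (nat_lit 5) (nat_lit 361) (nat_lit 321) (nat_lit 182)))) (XT.nd (nat_lit 94) (nat_lit 0) (nat_lit 0) (XT.lf (nat_lit 0) (nat_lit 2926170087) (nat_lit 336) (nat_lit 9646297514) (nat_lit 420) (nat_lit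 11335612644) (nat_lit 56) (nat_lit 5) (nat_lit 60) (nat_lit 5) (nat_lit 61) (nat_lit 5) (nat_lit 362) (nat_lit 321) (nat_lit 181)) (XT.nd (nat_lit 94) (nat_lit 0) (nat_lit 0) (XT.lf (nat_lit 0) (nat_lit 12227624217) (nat_lit 336) (nat_lit 3036967913) (nat_lit 420) (nat_lit 9145210430) (nat_lit 56) (nat_lit 5) (nat_lit 60) (nat_lit 5) (nat_lit 61) (nat_lit 5) (nat_lit 363) (nat_lit 321) (nat_lit 180)) (XT.lf (nat_lit 0) (nat_lit 18071718214) (nat_lit 420) (nat_lit 3154406745) (nat_lit 84) (nat_lit 3699993378) (nat_lit 56) (nat_lit 5) (nat_lit 61) (nat_lit 5) (nat_lit 57) (nat_lit 5) (nat_lit 364) (nat_lit 321) (nat_lit 179))))) (XT.nd (nat_lit 282) (nat_lit 672) (nat_lit 0) (XT.nd (nat_lit 94) (nat_lit 84) (nat_lit 0) (XT.lf (nat_lit 0) (nat_lit 6240841607) (nat_lit 336) (nat_lit 14812247611) (nat_lit 420) (nat_lit 4402664187) (nat_lit 52) (nat_lit 5) (nat_lit 56) (nat_lit 5) (nat_lit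 57) (nat_lit 5) (nat_lit 365) (nat_lit 321) (nat_lit 178)) (XT.nd (nat_lit 94) (nat_lit 84) (nat_lit 0) (XT.lf (nat_lit 0) (nat_lit 15987223743) (nat_lit 336) (nat_lit 8166941019) (nat_lit 420) (nat_lit 1846813575) (nat_lit 52) (nat_lit 5) (nat_lit 56) (nat_lit 5) (nat_lit 57) (nat_lit 5) (nat_lit 366) (nat_lit 321) (nat_lit 177)) (XT.lf (nat_lit 0) (nat_lit 766840679) (nat_lit 420) (nat_lit 542091676) (nat_lit 84) (nat_lit 25254118318) (nat_lit 51) (nat_lit 5) (nat_lit 56) (nat_lit 5) (nat_lit 52) (nat_lit 5) (nat_lit 367) (nat_lit 321) (nat_lit 176)))) (XT.nd (nat_lit 94) (nat_lit 336) (nat_lit 0) (XT.lf (nat_lit 0) (nat_lit 3569182840) (nat_lit 420) (nat_lit 17810823082) (nat_lit 84) (nat_lit 5757444378) (nat_lit 47) (nat_lit 5) (nat_lit 52) (nat_lit 5) (nat_lit 48) (nat_lit 5) (nat_lit 368) (nat_lit 321) (nat_lit 175)) (XT.nd (nat_lit 94) (nat_lit 336) (nat_lit 0) (XT.lf (nat_lit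 0) (nat_lit 6472204495) (nat_lit 420) (nat_lit 8236957765) (nat_lit 84) (nat_lit 13020081018) (nat_lit 47) (nat_lit 5) (nat_lit 52) (nat_lit 5) (nat_lit 48) (nat_lit 5) (nat_lit 369) (nat_lit 321) (nat_lit 174)) (XT.lf (nat_lit 0) (nat_lit 1660558246) (nat_lit 336) (nat_lit 7815997166) (nat_lit 420) (nat_lit 18862489547) (nat_lit 43) (nat_lit 5) (nat_lit 47) (nat_lit 5) (nat_lit 48) (nat_lit 5) (nat_lit 370) (nat_lit 321) (nat_lit 173))))))) (XT.nd (nat_lit 1128) (nat_lit 672) (nat_lit 0) (XT.nd (nat_lit 564) (nat_lit 588) (nat_lit 0) (XT.nd (nat_lit 282) (nat_lit 252) (nat_lit 0) (XT.nd (nat_lit 94) (nat_lit 252) (nat_lit 0) (XT.lf (nat_lit 0) (nat_lit 12032987527) (nat_lit 336) (nat_lit 621982978) (nat_lit 420) (nat_lit 16310285270) (nat_lit 43) (nat_lit 5) (nat_lit 47) (nat_lit 5) (nat_lit 48) (nat_lit 5) (nat_lit 371) (nat_lit 321) (nat_lit 172)) (XT.nd (nat_lit 94) (nat_lit 252)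 (nat_lit 0) (XT.lf (nat_lit 0) (nat_lit 15994414030) (nat_lit 420) (nat_lit 6957808483) (nat_lit 84) (nat_lit 6656732853) (nat_lit 43) (nat_lit 5) (nat_lit 48) (nat_lit 5) (nat_lit 44) (nat_lit 5) (nat_lit 372) (nat_lit 321) (nat_lit 171)) (XT.lf (nat_lit 0) (nat_lit 3381335665) (nat_lit 252) (nat_lit 16091186837) (nat_lit 336) (nat_lit 10799010989) (nat_lit 40) (nat_lit 5) (nat_lit 43) (nat_lit 5) (nat_lit 44) (nat_lit 5) (nat_lit 373) (nat_lit 321) (nat_lit 170)))) (XT.nd (nat_lit 94) (nat_lit 252) (nat_lit 0) (XT.lf (nat_lit 0) (nat_lit 14182270010) (nat_lit 252) (nat_lit 8944126529) (nat_lit 336) (nat_lit 7826161584) (nat_lit 40) (nat_lit 5) (nat_lit 43) (nat_lit 5) (nat_lit 44) (nat_lit 5) (nat_lit 374) (nat_lit 321) (nat_lit 169)) (XT.nd (nat_lit 94) (nat_lit 252) (nat_lit 0) (XT.lf (nat_lit 0) (nat_lit 25311995341) (nat_lit 252) (nat_lit 1577005031) (nat_lit 336) (nat_lit 4765847365)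 (nat_lit 40) (nat_lit 5) (nat_lit 43) (nat_lit 5) (nat_lit 44) (nat_lit 5) (nat_lit 375) (nat_lit 321) (nat_lit 168)) (XT.lf (nat_lit 0) (nat_lit 4431422241) (nat_lit 252) (nat_lit 26436068986) (nat_lit 336) (nat_lit 1508352563) (nat_lit 37) (nat_lit 5) (nat_lit 40) (nat_lit 5) (nat_lit 41) (nat_lit 5) (nat_lit 376) (nat_lit 321) (nat_lit 167))))) (XT.nd (nat_lit 282) (nat_lit 252) (nat_lit 0) (XT.nd (nat_lit 94) (nat_lit 252) (nat_lit 0) (XT.lf (nat_lit 0) (nat_lit 1891461150) (nat_lit 336) (nat_lit 17484165276) (nat_lit 84) (nat_lit 13740569726) (nat_lit 36) (nat_lit 5) (nat_lit 40) (nat_lit 5) (nat_lit 37) (nat_lit 5) (nat_lit 377) (nat_lit 321) (nat_lit 166)) (XT.nd (nat_lit 94) (nat_lit 252) (nat_lit 0) (XT.lf (nat_lit 0) (nat_lit 5361069262) (nat_lit 336) (nat_lit 6720918427) (nat_lit 84) (nat_lit 21797176854) (nat_lit 36) (nat_lit 5) (nat_lit 40) (nat_lit 5) (nat_lit 37) (nat_lit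 5) (nat_lit 378) (nat_lit 321) (nat_lit 165)) (XT.lf (nat_lit 0) (nat_lit 4460177145) (nat_lit 252) (nat_lit 4518164117) (nat_lit 336) (nat_lit 25686211109) (nat_lit 33) (nat_lit 5) (nat_lit 36) (nat_lit 5) (nat_lit 37) (nat_lit 5) (nat_lit 379) (nat_lit 321) (nat_lit 164)))) (XT.nd (nat_lit 94) (nat_lit 252) (nat_lit 0) (XT.lf (nat_lit 0) (nat_lit 12807072099) (nat_lit 336) (nat_lit 19380741085) (nat_lit 84) (nat_lit 3283405394) (nat_lit 33) (nat_lit 5) (nat_lit 37) (nat_lit 5) (nat_lit 34) (nat_lit 5) (nat_lit 380) (nat_lit 321) (nat_lit 163)) (XT.nd (nat_lit 94) (nat_lit 252) (nat_lit 0) (XT.lf (nat_lit 0) (nat_lit 16796740572) (nat_lit 336) (nat_lit 8273350279) (nat_lit 84) (nat_lit 11231501000) (nat_lit 33) (nat_lit 5) (nat_lit 37) (nat_lit 5) (nat_lit 34) (nat_lit 5) (nat_lit 381) (nat_lit 321) (nat_lit 162)) (XT.lf (nat_lit 0) (nat_lit 3238213986) (nat_lit 252) (nat_lit 17700154219)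 (nat_lit 336) (nat_lit 16218471594) (nat_lit 30) (nat_lit 5) (nat_lit 33) (nat_lit 5) (nat_lit 34) (nat_lit 5) (nat_lit 382) (nat_lit 321) (nat_lit 161)))))) (XT.nd (nat_lit 564) (nat_lit 420) (nat_lit 0) (XT.nd (nat_lit 282) (nat_lit 84) (nat_lit 0) (XT.nd (nat_lit 94) (nat_lit 168) (nat_lit 0) (XT.lf (nat_lit 0) (nat_lit 15276683626) (nat_lit 252) (nat_lit 10014278005) (nat_lit 336) (nat_lit 12745088442) (nat_lit 30) (nat_lit 5) (nat_lit 33) (nat_lit 5) (nat_lit 34) (nat_lit 5) (nat_lit 383) (nat_lit 321) (nat_lit 160)) (XT.nd (nat_lit 94) (nat_lit 168) (nat_lit 0) (XT.lf (nat_lit 0) (nat_lit 27683162705) (nat_lit 252) (nat_lit 2091654974) (nat_lit 336) (nat_lit 9167821076) (nat_lit 30) (nat_lit 5) (nat_lit 33) (nat_lit 5) (nat_lit 34) (nat_lit 5) (nat_lit 384) (nat_lit 321) (nat_lit 159)) (XT.lf (nat_lit 0) (nat_lit 542427443) (nat_lit 168) (nat_lit 33917335019) (nat_lit 252) (nat_lit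 5415653371) (nat_lit 28) (nat_lit 5) (nat_lit 30) (nat_lit 5) (nat_lit 31) (nat_lit 5) (nat_lit 385) (nat_lit 321) (nat_lit 158)))) (XT.nd (nat_lit 94) (nat_lit 84) (nat_lit 0) (XT.lf (nat_lit 0) (nat_lit 12921972401) (nat_lit 168) (nat_lit 26503155037) (nat_lit 252) (nat_lit 1407799413) (nat_lit 28) (nat_lit 5) (nat_lit 30) (nat_lit 5) (nat_lit 31) (nat_lit 5) (nat_lit 386) (nat_lit 321) (nat_lit 157)) (XT.nd (nat_lit 94) (nat_lit 0) (nat_lit 0) (XT.lf (nat_lit 0) (nat_lit 2665957028) (nat_lit 252) (nat_lit 16166869145) (nat_lit 84) (nat_lit 22986571911) (nat_lit 27) (nat_lit 5) (nat_lit 30) (nat_lit 5) (nat_lit 28) (nat_lit 5) (nat_lit 387) (nat_lit 321) (nat_lit 156)) (XT.lf (nat_lit 0) (nat_lit 6833407967) (nat_lit 252) (nat_lit 4077971453) (nat_lit 84) (nat_lit 31924735847) (nat_lit 27) (nat_lit 5) (nat_lit 30) (nat_lit 5) (nat_lit 28) (nat_lit 5) (nat_lit 388) (nat_lit 321) (nat_lit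 155))))) (XT.nd (nat_lit 282) (nat_lit 168) (nat_lit 0) (XT.nd (nat_lit 94) (nat_lit 0) (nat_lit 0) (XT.lf (nat_lit 0) (nat_lit 8553302266) (nat_lit 252) (nat_lit 2658349476) (nat_lit 336) (nat_lit 32670176934) (nat_lit 24) (nat_lit 5) (nat_lit 27) (nat_lit 5) (nat_lit 28) (nat_lit 5) (nat_lit 389) (nat_lit 321) (nat_lit 154)) (XT.nd (nat_lit 94) (nat_lit 0) (nat_lit 0) (XT.lf (nat_lit 0) (nat_lit 15823448917) (nat_lit 336) (nat_lit 23359270688) (nat_lit 84) (nat_lit 5774214353) (nat_lit 24) (nat_lit 5) (nat_lit 28) (nat_lit 5) (nat_lit 25) (nat_lit 5) (nat_lit 390) (nat_lit 321) (nat_lit 153)) (XT.lf (nat_lit 0) (nat_lit 20602285930) (nat_lit 336) (nat_lit 11050767827) (nat_lit 84) (nat_lit 14411574647) (nat_lit 24) (nat_lit 5) (nat_lit 28) (nat_lit 5) (nat_lit 25) (nat_lit 5) (nat_lit 391) (nat_lit 321) (nat_lit 152)))) (XT.nd (nat_lit 94) (nat_lit 0) (nat_lit 0) (XT.lf (nat_lit 0)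 (nat_lit 1668441519) (nat_lit 168) (nat_lit 23874355627) (nat_lit 252) (nat_lit 21663451775) (nat_lit 22) (nat_lit 5) (nat_lit 24) (nat_lit 5) (nat_lit 25) (nat_lit 5) (nat_lit 392) (nat_lit 321) (nat_lit 151)) (XT.nd (nat_lit 94) (nat_lit 0) (nat_lit 0) (XT.lf (nat_lit 0) (nat_lit 15011789626) (nat_lit 168) (nat_lit 15737047959) (nat_lit 252) (nat_lit 17630945284) (nat_lit 22) (nat_lit 5) (nat_lit 24) (nat_lit 5) (nat_lit 25) (nat_lit 5) (nat_lit 393) (nat_lit 321) (nat_lit 150)) (XT.lf (nat_lit 0) (nat_lit 28764487440) (nat_lit 168) (nat_lit 7348893283) (nat_lit 252) (nat_lit 13476411637) (nat_lit 22) (nat_lit 5) (nat_lit 24) (nat_lit 5) (nat_lit 25) (nat_lit 5) (nat_lit 394) (nat_lit 321) (nat_lit 149))))))))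
noncomputable def xc163 : XT := (XT.nd (nat_lit 48034) (nat_lit 0) (nat_lit 5712) (XT.nd (nat_lit 1128) (nat_lit 168) (nat_lit 0) (XT.nd (nat_lit 564) (nat_lit 168) (nat_lit 0) (XT.nd (nat_lit 282) (nat_lit 168) (nat_lit 0) (XT.nd (nat_lit 94) (nat_lit 252) (nat_lit 0) (XT.lf (nat_lit 0) (nat_lit 41654302474) (nat_lit 252) (nat_lit 7910926929) (nat_lit 84) (nat_lit 1271776702) (nat_lit 22) (nat_lit 5) (nat_lit 25) (nat_lit 5) (nat_lit 23) (nat_lit 5) (nat_lit 395) (nat_lit 321) (nat_lit 148)) (XT.nd (nat_lit 94) (nat_lit 84) (nat_lit 0) (XT.lf (nat_lit 0) (nat_lit 5434001012) (nat_lit 168) (nat_lit 42059332786) (nat_lit 252) (nat_lit 4625639284) (nat_lit 20) (nat_lit 5) (nat_lit 22) (nat_lit 5) (nat_lit 23) (nat_lit 5) (nat_lit 396) (nat_lit 321) (nat_lit 147)) (XT.lf (nat_lit 0) (nat_lit 151929198) (nat_lit 252) (nat_lit 34083494624) (nat_lit 84) (nat_lit 19202738979) (nat_lit 19) (nat_lit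 5) (nat_lit 22) (nat_lit 5) (nat_lit 20) (nat_lit 5) (nat_lit 397) (nat_lit 321) (nat_lit 146)))) (XT.nd (nat_lit 94) (nat_lit 168) (nat_lit 0) (XT.lf (nat_lit 0) (nat_lit 4978880013) (nat_lit 252) (nat_lit 21142693318) (nat_lit 84) (nat_lit 28675294861) (nat_lit 19) (nat_lit 5) (nat_lit 22) (nat_lit 5) (nat_lit 20) (nat_lit 5) (nat_lit 398) (nat_lit 321) (nat_lit 145)) (XT.nd (nat_lit 94) (nat_lit 168) (nat_lit 0) (XT.lf (nat_lit 0) (nat_lit 9952908708) (nat_lit 252) (nat_lit 7804619054) (nat_lit 84) (nat_lit 38440250440) (nat_lit 19) (nat_lit 5) (nat_lit 22) (nat_lit 5) (nat_lit 20) (nat_lit 5) (nat_lit 399) (nat_lit 321) (nat_lit 144)) (XT.lf (nat_lit 0) (nat_lit 6065364221) (nat_lit 168) (nat_lit 9073456541) (nat_lit 252) (nat_lit 42501512622) (nat_lit 17) (nat_lit 5) (nat_lit 19) (nat_lit 5) (nat_lit 20) (nat_lit 5) (nat_lit 400) (nat_lit 321) (nat_lit 143))))) (XT.nd (nat_lit 282)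 (nat_lit 168) (nat_lit 0) (XT.nd (nat_lit 94) (nat_lit 0) (nat_lit 0) (XT.lf (nat_lit 0) (nat_lit 20527034155) (nat_lit 168) (nat_lit 37482978) (nat_lit 252) (nat_lit 38560646137) (nat_lit 17) (nat_lit 5) (nat_lit 19) (nat_lit 5) (nat_lit 20) (nat_lit 5) (nat_lit 401) (nat_lit 321) (nat_lit 142)) (XT.nd (nat_lit 94) (nat_lit 0) (nat_lit 0) (XT.lf (nat_lit 0) (nat_lit 26248072852) (nat_lit 252) (nat_lit 25314742241) (nat_lit 84) (nat_lit 9090433232) (nat_lit 17) (nat_lit 5) (nat_lit 20) (nat_lit 5) (nat_lit 18) (nat_lit 5) (nat_lit 402) (nat_lit 321) (nat_lit 141)) (XT.lf (nat_lit 0) (nat_lit 32105891630) (nat_lit 252) (nat_lit 11623533075) (nat_lit 84) (nat_lit 18499343895) (nat_lit 17) (nat_lit 5) (nat_lit 20) (nat_lit 5) (nat_lit 18) (nat_lit 5) (nat_lit 403) (nat_lit 321) (nat_lit 140)))) (XT.nd (nat_lit 94) (nat_lit 0) (nat_lit 0) (XT.lf (nat_lit 0) (nat_lit 2539803235) (nat_lit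 168) (nat_lit 35628453659) (nat_lit 252) (nat_lit 25684166227) (nat_lit 15) (nat_lit 5) (nat_lit 17) (nat_lit 5) (nat_lit 18) (nat_lit 5) (nat_lit 404) (nat_lit 321) (nat_lit 139)) (XT.nd (nat_lit 94) (nat_lit 0) (nat_lit 0) (XT.lf (nat_lit 0) (nat_lit 17385179197) (nat_lit 168) (nat_lit 27152494365) (nat_lit 252) (nat_lit 20985049262) (nat_lit 15) (nat_lit 5) (nat_lit 17) (nat_lit 5) (nat_lit 18) (nat_lit 5) (nat_lit 405) (nat_lit 321) (nat_lit 138)) (XT.lf (nat_lit 0) (nat_lit 32687428577) (nat_lit 168) (nat_lit 18414972186) (nat_lit 252) (nat_lit 16142471853) (nat_lit 15) (nat_lit 5) (nat_lit 17) (nat_lit 5) (nat_lit 18) (nat_lit 5) (nat_lit 406) (nat_lit 321) (nat_lit 137)))))) (XT.nd (nat_lit 46342) (nat_lit 0) (nat_lit 9576) (XT.nd (nat_lit 282) (nat_lit 84) (nat_lit 0) (XT.nd (nat_lit 94) (nat_lit 84) (nat_lit 0) (XT.lf (nat_lit 0) (nat_lit 48460814675) (nat_lit 168) (nat_lit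 9407742838) (nat_lit 252) (nat_lit 11151920210) (nat_lit 15) (nat_lit 5) (nat_lit 17) (nat_lit 5) (nat_lit 18) (nat_lit 5) (nat_lit 407) (nat_lit 321) (nat_lit 136)) (XT.nd (nat_lit 94) (nat_lit 84) (nat_lit 0) (XT.lf (nat_lit 0) (nat_lit 64720039938) (nat_lit 168) (nat_lit 122410639) (nat_lit 252) (nat_lit 6008742617) (nat_lit 15) (nat_lit 5) (nat_lit 17) (nat_lit 5) (nat_lit 18) (nat_lit 5) (nat_lit 408) (nat_lit 321) (nat_lit 135)) (XT.lf (nat_lit 0) (nat_lit 8825608576) (nat_lit 84) (nat_lit 63386264896) (nat_lit 168) (nat_lit 521231888) (nat_lit 14) (nat_lit 5) (nat_lit 15) (nat_lit 5) (nat_lit 16) (nat_lit 4) (nat_lit 409) (nat_lit 321) (nat_lit 134)))) (XT.nd (nat_lit 94) (nat_lit 0) (nat_lit 0) (XT.lf (nat_lit 0) (nat_lit 5096848291) (nat_lit 168) (nat_lit 50351333884) (nat_lit 84) (nat_lit 19221616609) (nat_lit 13) (nat_lit 5) (nat_lit 15) (nat_lit 5) (nat_lit 14) (nat_lit 5)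 (nat_lit 410) (nat_lit 321) (nat_lit 133)) (XT.nd (nat_lit 45872) (nat_lit 0) (nat_lit 9576) (XT.lf (nat_lit 0) (nat_lit 10876360956) (nat_lit 168) (nat_lit 36383275536) (nat_lit 84) (nat_lit 29406790552) (nat_lit 13) (nat_lit 5) (nat_lit 15) (nat_lit 5) (nat_lit 14) (nat_lit 5) (nat_lit 411) (nat_lit 321) (nat_lit 132)) (XT.lf (nat_lit 0) (nat_lit 4096187215) (nat_lit 1092) (nat_lit 948960586) (nat_lit 1092) (nat_lit 948960586) (nat_lit 127) (nat_lit 3) (nat_lit 140) (nat_lit 3) (nat_lit 140) (nat_lit 5) (nat_lit 322) (nat_lit 322) (nat_lit 220))))) (XT.nd (nat_lit 282) (nat_lit 0) (nat_lit 84) (XT.nd (nat_lit 94) (nat_lit 0) (nat_lit 0) (XT.lf (nat_lit 84) (nat_lit 2799876305) (nat_lit 0) (nat_lit 5954381364) (nat_lit 1092) (nat_lit 3404685532) (nat_lit 128) (nat_lit 5) (nat_lit 127) (nat_lit 3) (nat_lit 140) (nat_lit 5) (nat_lit 323) (nat_lit 322) (nat_lit 219)) (XT.nd (nat_lit 94)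 (nat_lit 0) (nat_lit 84) (XT.lf (nat_lit 84) (nat_lit 7674876488) (nat_lit 0) (nat_lit 1662001881) (nat_lit 1092) (nat_lit 2998045719) (nat_lit 128) (nat_lit 5) (nat_lit 127) (nat_lit 3) (nat_lit 140) (nat_lit 5) (nat_lit 324) (nat_lit 322) (nat_lit 218)) (XT.lf (nat_lit 84) (nat_lit 151237205) (nat_lit 0) (nat_lit 9799316928) (nat_lit 1092) (nat_lit 2565466327) (nat_lit 129) (nat_lit 5) (nat_lit 128) (nat_lit 5) (nat_lit 141) (nat_lit 5) (nat_lit 325) (nat_lit 322) (nat_lit 217)))) (XT.nd (nat_lit 94) (nat_lit 0) (nat_lit 0) (XT.lf (nat_lit 84) (nat_lit 5184168506) (nat_lit 0) (nat_lit 5449022746) (nat_lit 1092) (nat_lit 2068052503) (nat_lit 129) (nat_lit 5) (nat_lit 128) (nat_lit 5) (nat_lit 141) (nat_lit 5) (nat_lit 326) (nat_lit 322) (nat_lit 216)) (XT.nd (nat_lit 94) (nat_lit 0) (nat_lit 84) (XT.lf (nat_lit 84) (nat_lit 10364443661) (nat_lit 0) (nat_lit 957483210) (nat_lit 1092)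 (nat_lit 1570808222) (nat_lit 129) (nat_lit 5) (nat_lit 128) (nat_lit 5) (nat_lit 141) (nat_lit 5) (nat_lit 327) (nat_lit 322) (nat_lit 215)) (XT.lf (nat_lit 84) (nat_lit 2622555940) (nat_lit 0) (nat_lit 9457364084) (nat_lit 1092) (nat_lit 1008814912) (nat_lit 130) (nat_lit 5) (nat_lit 129) (nat_lit 5) (nat_lit 142) (nat_lit 5) (nat_lit 328) (nat_lit 322) (nat_lit 214))))))) (XT.nd (nat_lit 1128) (nat_lit 2184) (nat_lit 0) (XT.nd (nat_lit 564) (nat_lit 756) (nat_lit 0) (XT.nd (nat_lit 282) (nat_lit 0) (nat_lit 84) (XT.nd (nat_lit 94) (nat_lit 1092) (nat_lit 0) (XT.lf (nat_lit 84) (nat_lit 7967787000) (nat_lit 0) (nat_lit 4915508115) (nat_lit 1092) (nat_lit 406892909) (nat_lit 130) (nat_lit 5) (nat_lit 129) (nat_lit 5) (nat_lit 142) (nat_lit 5) (nat_lit 329) (nat_lit 322) (nat_lit 213)) (XT.nd (nat_lit 94) (nat_lit 0) (nat_lit 84) (XT.lf (nat_lit 0) (nat_lit 195416835) (nat_lit 1092)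 (nat_lit 30254655) (nat_lit 1176) (nat_lit 13272634273) (nat_lit 116) (nat_lit 5) (nat_lit 129) (nat_lit 5) (nat_lit 130) (nat_lit 5) (nat_lit 330) (nat_lit 322) (nat_lit 212)) (XT.lf (nat_lit 0) (nat_lit 895580621) (nat_lit 1092) (nat_lit 8233504800) (nat_lit 1176) (nat_lit 4580994837) (nat_lit 117) (nat_lit 5) (nat_lit 130) (nat_lit 5) (nat_lit 131) (nat_lit 5) (nat_lit 331) (nat_lit 322) (nat_lit 211)))) (XT.nd (nat_lit 94) (nat_lit 0) (nat_lit 84) (XT.lf (nat_lit 0) (nat_lit 1606897712) (nat_lit 1092) (nat_lit 2785078746) (nat_lit 1176) (nat_lit 9536819668) (nat_lit 117) (nat_lit 5) (nat_lit 130) (nat_lit 5) (nat_lit 131) (nat_lit 5) (nat_lit 332) (nat_lit 322) (nat_lit 210)) (XT.nd (nat_lit 94) (nat_lit 0) (nat_lit 0) (XT.lf (nat_lit 0) (nat_lit 2361279435) (nat_lit 1092) (nat_lit 11277600580) (nat_lit 1176) (nat_lit 514808521) (nat_lit 118) (nat_lit 5) (nat_lit 131) (nat_lit 5)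 (nat_lit 132) (nat_lit 5) (nat_lit 333) (nat_lit 322) (nat_lit 209)) (XT.lf (nat_lit 0) (nat_lit 3200886335) (nat_lit 1092) (nat_lit 5667298231) (nat_lit 1176) (nat_lit 5515497367) (nat_lit 118) (nat_lit 5) (nat_lit 131) (nat_lit 5) (nat_lit 132) (nat_lit 5) (nat_lit 334) (nat_lit 322) (nat_lit 208))))) (XT.nd (nat_lit 282) (nat_lit 924) (nat_lit 0) (XT.nd (nat_lit 94) (nat_lit 0) (nat_lit 84) (XT.lf (nat_lit 84) (nat_lit 110198122) (nat_lit 0) (nat_lit 3945342315) (nat_lit 1176) (nat_lit 10565650033) (nat_lit 119) (nat_lit 5) (nat_lit 118) (nat_lit 5) (nat_lit 132) (nat_lit 5) (nat_lit 335) (nat_lit 322) (nat_lit 207)) (XT.nd (nat_lit 94) (nat_lit 0) (nat_lit 0) (XT.lf (nat_lit 0) (nat_lit 4995890215) (nat_lit 1092) (nat_lit 8698396792) (nat_lit 1176) (nat_lit 1169983118) (nat_lit 119) (nat_lit 5) (nat_lit 132) (nat_lit 5) (nat_lit 133) (nat_lit 5) (nat_lit 336) (nat_lit 322) (nat_lit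 206)) (XT.lf (nat_lit 0) (nat_lit 5994326889) (nat_lit 1092) (nat_lit 2754976506) (nat_lit 1176) (nat_lit 6364727122) (nat_lit 119) (nat_lit 5) (nat_lit 132) (nat_lit 5) (nat_lit 133) (nat_lit 5) (nat_lit 337) (nat_lit 322) (nat_lit 205)))) (XT.nd (nat_lit 94) (nat_lit 1008) (nat_lit 0) (XT.lf (nat_lit 84) (nat_lit 3433116324) (nat_lit 0) (nat_lit 3613583436) (nat_lit 1176) (nat_lit 8324162211) (nat_lit 120) (nat_lit 5) (nat_lit 119) (nat_lit 5) (nat_lit 133) (nat_lit 5) (nat_lit 338) (nat_lit 322) (nat_lit 204)) (XT.nd (nat_lit 94) (nat_lit 1092) (nat_lit 0) (XT.lf (nat_lit 0) (nat_lit 8166622064) (nat_lit 1092) (nat_lit 5789344421) (nat_lit 84) (nat_lit 1678645794) (nat_lit 120) (nat_lit 5) (nat_lit 133) (nat_lit 5) (nat_lit 121) (nat_lit 5) (nat_lit 339) (nat_lit 322) (nat_lit 203)) (XT.lf (nat_lit 0) (nat_lit 514281057) (nat_lit 1092) (nat_lit 8838562255) (nat_lit 1176) (nat_lit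 6552755096) (nat_lit 107) (nat_lit 5) (nat_lit 120) (nat_lit 5) (nat_lit 121) (nat_lit 5) (nat_lit 340) (nat_lit 322) (nat_lit 202)))))) (XT.nd (nat_lit 564) (nat_lit 1008) (nat_lit 0) (XT.nd (nat_lit 282) (nat_lit 672) (nat_lit 0) (XT.nd (nat_lit 94) (nat_lit 504) (nat_lit 0) (XT.lf (nat_lit 0) (nat_lit 7127359524) (nat_lit 1092) (nat_lit 3498656808) (nat_lit 1176) (nat_lit 5557450654) (nat_lit 107) (nat_lit 5) (nat_lit 120) (nat_lit 5) (nat_lit 121) (nat_lit 5) (nat_lit 341) (nat_lit 322) (nat_lit 201)) (XT.nd (nat_lit 94) (nat_lit 504) (nat_lit 0) (XT.lf (nat_lit 0) (nat_lit 11948638509) (nat_lit 1176) (nat_lit 2553202287) (nat_lit 84) (nat_lit 1967835588) (nat_lit 107) (nat_lit 5) (nat_lit 121) (nat_lit 5) (nat_lit 108) (nat_lit 5) (nat_lit 342) (nat_lit 322) (nat_lit 200)) (XT.lf (nat_lit 0) (nat_lit 4191433563) (nat_lit 504) (nat_lit 9188562685) (nat_lit 588) (nat_lit 3382697470)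 (nat_lit 101) (nat_lit 5) (nat_lit 107) (nat_lit 5) (nat_lit 108) (nat_lit 5) (nat_lit 343) (nat_lit 322) (nat_lit 199)))) (XT.nd (nat_lit 94) (nat_lit 672) (nat_lit 0) (XT.lf (nat_lit 0) (nat_lit 11190841573) (nat_lit 504) (nat_lit 3682112203) (nat_lit 588) (nat_lit 2191340904) (nat_lit 101) (nat_lit 5) (nat_lit 107) (nat_lit 5) (nat_lit 108) (nat_lit 5) (nat_lit 344) (nat_lit 322) (nat_lit 198)) (XT.nd (nat_lit 94) (nat_lit 84) (nat_lit 0) (XT.lf (nat_lit 0) (nat_lit 1024322454) (nat_lit 588) (nat_lit 15408693256) (nat_lit 672) (nat_lit 941617181) (nat_lit 94) (nat_lit 5) (nat_lit 101) (nat_lit 5) (nat_lit 102) (nat_lit 5) (nat_lit 345) (nat_lit 322) (nat_lit 197)) (XT.lf (nat_lit 0) (nat_lit 430391269) (nat_lit 672) (nat_lit 9482616660) (nat_lit 84) (nat_lit 7778701676) (nat_lit 93) (nat_lit 5) (nat_lit 101) (nat_lit 5) (nat_lit 94) (nat_lit 5) (nat_lit 346) (nat_lit 322) (nat_lit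 196))))) (XT.nd (nat_lit 282) (nat_lit 504) (nat_lit 0) (XT.nd (nat_lit 94) (nat_lit 504) (nat_lit 0) (XT.lf (nat_lit 0) (nat_lit 1816583173) (nat_lit 672) (nat_lit 2420036690) (nat_lit 84) (nat_lit 13781999976) (nat_lit 93) (nat_lit 5) (nat_lit 101) (nat_lit 5) (nat_lit 94) (nat_lit 5) (nat_lit 347) (nat_lit 322) (nat_lit 195)) (XT.nd (nat_lit 94) (nat_lit 0) (nat_lit 0) (XT.lf (nat_lit 0) (nat_lit 3302892707) (nat_lit 588) (nat_lit 13417821038) (nat_lit 84) (nat_lit 1633208344) (nat_lit 87) (nat_lit 5) (nat_lit 94) (nat_lit 5) (nat_lit 88) (nat_lit 5) (nat_lit 348) (nat_lit 322) (nat_lit 194)) (XT.lf (nat_lit 0) (nat_lit 4895781614) (nat_lit 588) (nat_lit 6179179755) (nat_lit 84) (nat_lit 7622810157) (nat_lit 87) (nat_lit 5) (nat_lit 94) (nat_lit 5) (nat_lit 88) (nat_lit 5) (nat_lit 349) (nat_lit 322) (nat_lit 193)))) (XT.nd (nat_lit 94) (nat_lit 0) (nat_lit 0) (XT.lf (nat_lit 0) (nat_lit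 1302004925) (nat_lit 504) (nat_lit 5240866682) (nat_lit 588) (nat_lit 12509286799) (nat_lit 81) (nat_lit 5) (nat_lit 87) (nat_lit 5) (nat_lit 88) (nat_lit 5) (nat_lit 350) (nat_lit 322) (nat_lit 192)) (XT.nd (nat_lit 94) (nat_lit 0) (nat_lit 0) (XT.lf (nat_lit 0) (nat_lit 8305926748) (nat_lit 588) (nat_lit 10286045792) (nat_lit 84) (nat_lit 823573422) (nat_lit 81) (nat_lit 5) (nat_lit 88) (nat_lit 5) (nat_lit 82) (nat_lit 5) (nat_lit 351) (nat_lit 322) (nat_lit 191)) (XT.lf (nat_lit 0) (nat_lit 10169545526) (nat_lit 588) (nat_lit 2652180593) (nat_lit 84) (nat_lit 6967075182) (nat_lit 81) (nat_lit 5) (nat_lit 88) (nat_lit 5) (nat_lit 82) (nat_lit 5) (nat_lit 352) (nat_lit 322) (nat_lit 190))))))))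
noncomputable def xc164 : XT := (XT.nd (nat_lit 2256) (nat_lit 1764) (nat_lit 0) (XT.nd (nat_lit 1128) (nat_lit 1344) (nat_lit 0) (XT.nd (nat_lit 564) (nat_lit 756) (nat_lit 0) (XT.nd (nat_lit 282) (nat_lit 504) (nat_lit 0) (XT.nd (nat_lit 94) (nat_lit 420) (nat_lit 0) (XT.lf (nat_lit 0) (nat_lit 5317687270) (nat_lit 420) (nat_lit 6818539829) (nat_lit 504) (nat_lit 8036021611) (nat_lit 76) (nat_lit 5) (nat_lit 81) (nat_lit 5) (nat_lit 82) (nat_lit 5) (nat_lit 353) (nat_lit 322) (nat_lit 189)) (XT.nd (nat_lit 94) (nat_lit 420) (nat_lit 0) (XT.lf (nat_lit 0) (nat_lit 13583138002) (nat_lit 420) (nat_lit 601107511) (nat_lit 504) (nat_lit 6382730424) (nat_lit 76) (nat_lit 5) (nat_lit 81) (nat_lit 5) (nat_lit 82) (nat_lit 5) (nat_lit 354) (nat_lit 322) (nat_lit 188)) (XT.lf (nat_lit 0) (nat_lit 1087445050) (nat_lit 420) (nat_lit 15269624181) (nat_lit 504) (nat_lit 4614993332) (nat_lit 71)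 (nat_lit 5) (nat_lit 76) (nat_lit 5) (nat_lit 77) (nat_lit 5) (nat_lit 355) (nat_lit 322) (nat_lit 187)))) (XT.nd (nat_lit 94) (nat_lit 504) (nat_lit 0) (XT.lf (nat_lit 0) (nat_lit 9543079393) (nat_lit 420) (nat_lit 9126193846) (nat_lit 504) (nat_lit 2718223892) (nat_lit 71) (nat_lit 5) (nat_lit 76) (nat_lit 5) (nat_lit 77) (nat_lit 5) (nat_lit 356) (nat_lit 322) (nat_lit 186)) (XT.nd (nat_lit 94) (nat_lit 504) (nat_lit 0) (XT.lf (nat_lit 0) (nat_lit 18253430273) (nat_lit 420) (nat_lit 2792974703) (nat_lit 504) (nat_lit 769636735) (nat_lit 71) (nat_lit 5) (nat_lit 76) (nat_lit 5) (nat_lit 77) (nat_lit 5) (nat_lit 357) (nat_lit 322) (nat_lit 185)) (XT.lf (nat_lit 0) (nat_lit 1295627830) (nat_lit 504) (nat_lit 17235655332) (nat_lit 84) (nat_lit 3723709347) (nat_lit 65) (nat_lit 5) (nat_lit 71) (nat_lit 5) (nat_lit 66) (nat_lit 5) (nat_lit 358) (nat_lit 322) (nat_lit 184))))) (XT.nd (nat_lit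 282) (nat_lit 336) (nat_lit 0) (XT.nd (nat_lit 94) (nat_lit 420) (nat_lit 0) (XT.lf (nat_lit 0) (nat_lit 3468544804) (nat_lit 504) (nat_lit 8807846757) (nat_lit 84) (nat_lit 10429087415) (nat_lit 65) (nat_lit 5) (nat_lit 71) (nat_lit 5) (nat_lit 66) (nat_lit 5) (nat_lit 359) (nat_lit 322) (nat_lit 183)) (XT.nd (nat_lit 94) (nat_lit 420) (nat_lit 0) (XT.lf (nat_lit 0) (nat_lit 5702502251) (nat_lit 504) (nat_lit 126034099) (nat_lit 84) (nat_lit 17341609806) (nat_lit 65) (nat_lit 5) (nat_lit 71) (nat_lit 5) (nat_lit 66) (nat_lit 5) (nat_lit 360) (nat_lit 322) (nat_lit 182)) (XT.lf (nat_lit 0) (nat_lit 8097886132) (nat_lit 504) (nat_lit 14656501721) (nat_lit 84) (nat_lit 891991896) (nat_lit 60) (nat_lit 5) (nat_lit 66) (nat_lit 5) (nat_lit 61) (nat_lit 5) (nat_lit 361) (nat_lit 322) (nat_lit 181)))) (XT.nd (nat_lit 94) (nat_lit 336) (nat_lit 0) (XT.lf (nat_lit 0) (nat_lit 10622443920) (nat_lit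 504) (nat_lit 5813070204) (nat_lit 84) (nat_lit 7700178579) (nat_lit 60) (nat_lit 5) (nat_lit 66) (nat_lit 5) (nat_lit 61) (nat_lit 5) (nat_lit 362) (nat_lit 322) (nat_lit 180)) (XT.nd (nat_lit 94) (nat_lit 0) (nat_lit 0) (XT.lf (nat_lit 0) (nat_lit 3365363655) (nat_lit 336) (nat_lit 9887441100) (nat_lit 420) (nat_lit 11386533794) (nat_lit 56) (nat_lit 5) (nat_lit 60) (nat_lit 5) (nat_lit 61) (nat_lit 5) (nat_lit 363) (nat_lit 322) (nat_lit 179)) (XT.lf (nat_lit 0) (nat_lit 12944684734) (nat_lit 336) (nat_lit 3074962961) (nat_lit 420) (nat_lit 9137263998) (nat_lit 56) (nat_lit 5) (nat_lit 60) (nat_lit 5) (nat_lit 61) (nat_lit 5) (nat_lit 364) (nat_lit 322) (nat_lit 178)))))) (XT.nd (nat_lit 564) (nat_lit 588) (nat_lit 0) (XT.nd (nat_lit 282) (nat_lit 420) (nat_lit 0) (XT.nd (nat_lit 94) (nat_lit 336) (nat_lit 0) (XT.lf (nat_lit 0) (nat_lit 18905860231) (nat_lit 420) (nat_lit 2915586285)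 (nat_lit 84) (nat_lit 3868058489) (nat_lit 56) (nat_lit 5) (nat_lit 61) (nat_lit 5) (nat_lit 57) (nat_lit 5) (nat_lit 365) (nat_lit 322) (nat_lit 177)) (XT.nd (nat_lit 94) (nat_lit 0) (nat_lit 0) (XT.lf (nat_lit 0) (nat_lit 6767506921) (nat_lit 336) (nat_lit 15207216032) (nat_lit 420) (nat_lit 4261013663) (nat_lit 52) (nat_lit 5) (nat_lit 56) (nat_lit 5) (nat_lit 57) (nat_lit 5) (nat_lit 366) (nat_lit 322) (nat_lit 176)) (XT.lf (nat_lit 0) (nat_lit 16806008305) (nat_lit 336) (nat_lit 8357835633) (nat_lit 420) (nat_lit 1634294559) (nat_lit 52) (nat_lit 5) (nat_lit 56) (nat_lit 5) (nat_lit 57) (nat_lit 5) (nat_lit 367) (nat_lit 322) (nat_lit 175)))) (XT.nd (nat_lit 94) (nat_lit 336) (nat_lit 0) (XT.lf (nat_lit 0) (nat_lit 1046999711) (nat_lit 420) (nat_lit 239425480) (nat_lit 84) (nat_lit 26091396124) (nat_lit 51) (nat_lit 5) (nat_lit 56) (nat_lit 5) (nat_lit 52) (nat_lit 5) (nat_lit 368)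 (nat_lit 322) (nat_lit 174)) (XT.nd (nat_lit 94) (nat_lit 0) (nat_lit 0) (XT.lf (nat_lit 0) (nat_lit 3932281640) (nat_lit 420) (nat_lit 18038840916) (nat_lit 84) (nat_lit 5999048820) (nat_lit 47) (nat_lit 5) (nat_lit 52) (nat_lit 5) (nat_lit 48) (nat_lit 5) (nat_lit 369) (nat_lit 322) (nat_lit 173)) (XT.lf (nat_lit 0) (nat_lit 6917706202) (nat_lit 420) (nat_lit 8177931310) (nat_lit 84) (nat_lit 13484929201) (nat_lit 47) (nat_lit 5) (nat_lit 52) (nat_lit 5) (nat_lit 48) (nat_lit 5) (nat_lit 370) (nat_lit 322) (nat_lit 172))))) (XT.nd (nat_lit 282) (nat_lit 252) (nat_lit 0) (XT.nd (nat_lit 94) (nat_lit 0) (nat_lit 0) (XT.lf (nat_lit 0) (nat_lit 2023224961) (nat_lit 336) (nat_lit 7987691548) (nat_lit 420) (nat_lit 19198509095) (nat_lit 43) (nat_lit 5) (nat_lit 47) (nat_lit 5) (nat_lit 48) (nat_lit 5) (nat_lit 371) (nat_lit 322) (nat_lit 171)) (XT.nd (nat_lit 94) (nat_lit 0) (nat_lit 0)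 (XT.lf (nat_lit 0) (nat_lit 12707842739) (nat_lit 336) (nat_lit 572785759) (nat_lit 420) (nat_lit 16574664901) (nat_lit 43) (nat_lit 5) (nat_lit 47) (nat_lit 5) (nat_lit 48) (nat_lit 5) (nat_lit 372) (nat_lit 322) (nat_lit 170)) (XT.lf (nat_lit 0) (nat_lit 16717237204) (nat_lit 420) (nat_lit 6873754099) (nat_lit 84) (nat_lit 6928173044) (nat_lit 43) (nat_lit 5) (nat_lit 48) (nat_lit 5) (nat_lit 44) (nat_lit 5) (nat_lit 373) (nat_lit 322) (nat_lit 169)))) (XT.nd (nat_lit 94) (nat_lit 0) (nat_lit 0) (XT.lf (nat_lit 0) (nat_lit 3782868854) (nat_lit 252) (nat_lit 16516416300) (nat_lit 336) (nat_lit 10903136573) (nat_lit 40) (nat_lit 5) (nat_lit 43) (nat_lit 5) (nat_lit 44) (nat_lit 5) (nat_lit 374) (nat_lit 322) (nat_lit 168)) (XT.nd (nat_lit 94) (nat_lit 0) (nat_lit 0) (XT.lf (nat_lit 0) (nat_lit 14909710665) (nat_lit 252) (nat_lit 9150010040) (nat_lit 336) (nat_lit 7845063809) (nat_lit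 40) (nat_lit 5) (nat_lit 43) (nat_lit 5) (nat_lit 44) (nat_lit 5) (nat_lit 375) (nat_lit 322) (nat_lit 167)) (XT.lf (nat_lit 0) (nat_lit 26375804233) (nat_lit 252) (nat_lit 1556654154) (nat_lit 336) (nat_lit 4696606302) (nat_lit 40) (nat_lit 5) (nat_lit 43) (nat_lit 5) (nat_lit 44) (nat_lit 5) (nat_lit 376) (nat_lit 322) (nat_lit 166))))))) (XT.nd (nat_lit 1128) (nat_lit 672) (nat_lit 0) (XT.nd (nat_lit 564) (nat_lit 504) (nat_lit 0) (XT.nd (nat_lit 282) (nat_lit 252) (nat_lit 0) (XT.nd (nat_lit 94) (nat_lit 84) (nat_lit 0) (XT.lf (nat_lit 0) (nat_lit 4851439074) (nat_lit 252) (nat_lit 27180002211) (nat_lit 336) (nat_lit 1341075742) (nat_lit 37) (nat_lit 5) (nat_lit 40) (nat_lit 5) (nat_lit 41) (nat_lit 5) (nat_lit 377) (nat_lit 322) (nat_lit 165)) (XT.nd (nat_lit 94) (nat_lit 0) (nat_lit 0) (XT.lf (nat_lit 0) (nat_lit 2153513911) (nat_lit 336) (nat_lit 17747321440) (nat_lit 84) (nat_lit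 14235130933) (nat_lit 36) (nat_lit 5) (nat_lit 40) (nat_lit 5) (nat_lit 37) (nat_lit 5) (nat_lit 378) (nat_lit 322) (nat_lit 164)) (XT.lf (nat_lit 0) (nat_lit 5724563539) (nat_lit 336) (nat_lit 6658798460) (nat_lit 84) (nat_lit 22539430118) (nat_lit 36) (nat_lit 5) (nat_lit 40) (nat_lit 5) (nat_lit 37) (nat_lit 5) (nat_lit 379) (nat_lit 322) (nat_lit 163)))) (XT.nd (nat_lit 94) (nat_lit 0) (nat_lit 0) (XT.lf (nat_lit 0) (nat_lit 4866172825) (nat_lit 252) (nat_lit 4584521632) (nat_lit 336) (nat_lit 26281949422) (nat_lit 33) (nat_lit 5) (nat_lit 36) (nat_lit 5) (nat_lit 37) (nat_lit 5) (nat_lit 380) (nat_lit 322) (nat_lit 162)) (XT.nd (nat_lit 94) (nat_lit 0) (nat_lit 0) (XT.lf (nat_lit 0) (nat_lit 13392991222) (nat_lit 336) (nat_lit 19716259252) (nat_lit 84) (nat_lit 3455240009) (nat_lit 33) (nat_lit 5) (nat_lit 37) (nat_lit 5) (nat_lit 34) (nat_lit 5) (nat_lit 381) (nat_lit 322) (nat_lit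 161)) (XT.lf (nat_lit 0) (nat_lit 17500659596) (nat_lit 336) (nat_lit 8272515887) (nat_lit 84) (nat_lit 11647620352) (nat_lit 33) (nat_lit 5) (nat_lit 37) (nat_lit 5) (nat_lit 34) (nat_lit 5) (nat_lit 382) (nat_lit 322) (nat_lit 160))))) (XT.nd (nat_lit 282) (nat_lit 252) (nat_lit 0) (XT.nd (nat_lit 94) (nat_lit 0) (nat_lit 0) (XT.lf (nat_lit 0) (nat_lit 3593301855) (nat_lit 252) (nat_lit 18174393477) (nat_lit 336) (nat_lit 16534967589) (nat_lit 30) (nat_lit 5) (nat_lit 33) (nat_lit 5) (nat_lit 34) (nat_lit 5) (nat_lit 383) (nat_lit 322) (nat_lit 159)) (XT.nd (nat_lit 94) (nat_lit 0) (nat_lit 0) (XT.lf (nat_lit 0) (nat_lit 15997305664) (nat_lit 252) (nat_lit 10252494121) (nat_lit 336) (nat_lit 12959510506) (nat_lit 30) (nat_lit 5) (nat_lit 33) (nat_lit 5) (nat_lit 34) (nat_lit 5) (nat_lit 384) (nat_lit 322) (nat_lit 158)) (XT.lf (nat_lit 0) (nat_lit 28780957476) (nat_lit 252) (nat_lit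 2086441476) (nat_lit 336) (nat_lit 9276780388) (nat_lit 30) (nat_lit 5) (nat_lit 33) (nat_lit 5) (nat_lit 34) (nat_lit 5) (nat_lit 385) (nat_lit 322) (nat_lit 157)))) (XT.nd (nat_lit 94) (nat_lit 84) (nat_lit 0) (XT.lf (nat_lit 0) (nat_lit 801369300) (nat_lit 168) (nat_lit 34894185335) (nat_lit 252) (nat_lit 5410393339) (nat_lit 28) (nat_lit 5) (nat_lit 30) (nat_lit 5) (nat_lit 31) (nat_lit 5) (nat_lit 386) (nat_lit 322) (nat_lit 156)) (XT.nd (nat_lit 94) (nat_lit 84) (nat_lit 0) (XT.lf (nat_lit 0) (nat_lit 13557399914) (nat_lit 168) (nat_lit 27252408450) (nat_lit 252) (nat_lit 1283502023) (nat_lit 28) (nat_lit 5) (nat_lit 30) (nat_lit 5) (nat_lit 31) (nat_lit 5) (nat_lit 387) (nat_lit 322) (nat_lit 155)) (XT.lf (nat_lit 0) (nat_lit 2908209428) (nat_lit 252) (nat_lit 16436599229) (nat_lit 84) (nat_lit 23765666963) (nat_lit 27) (nat_lit 5) (nat_lit 30) (nat_lit 5) (nat_lit 28) (nat_lit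 5) (nat_lit 388) (nat_lit 322) (nat_lit 154)))))) (XT.nd (nat_lit 564) (nat_lit 252) (nat_lit 0) (XT.nd (nat_lit 282) (nat_lit 168) (nat_lit 0) (XT.nd (nat_lit 94) (nat_lit 252) (nat_lit 0) (XT.lf (nat_lit 0) (nat_lit 7200052278) (nat_lit 252) (nat_lit 3979904708) (nat_lit 84) (nat_lit 32978914125) (nat_lit 27) (nat_lit 5) (nat_lit 30) (nat_lit 5) (nat_lit 28) (nat_lit 5) (nat_lit 389) (nat_lit 322) (nat_lit 153)) (XT.nd (nat_lit 94) (nat_lit 0) (nat_lit 0) (XT.lf (nat_lit 0) (nat_lit 9040665799) (nat_lit 252) (nat_lit 2670905402) (nat_lit 336) (nat_lit 33525517362) (nat_lit 24) (nat_lit 5) (nat_lit 27) (nat_lit 5) (nat_lit 28) (nat_lit 5) (nat_lit 390) (nat_lit 322) (nat_lit 152)) (XT.lf (nat_lit 0) (nat_lit 16462425111) (nat_lit 336) (nat_lit 23863626299) (nat_lit 84) (nat_lit 6019602511) (nat_lit 24) (nat_lit 5) (nat_lit 28) (nat_lit 5) (nat_lit 25) (nat_lit 5) (nat_lit 391) (nat_lit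 322) (nat_lit 151)))) (XT.nd (nat_lit 94) (nat_lit 168) (nat_lit 0) (XT.lf (nat_lit 0) (nat_lit 21384942514) (nat_lit 336) (nat_lit 11180168226) (nat_lit 84) (nat_lit 14922724842) (nat_lit 24) (nat_lit 5) (nat_lit 28) (nat_lit 5) (nat_lit 25) (nat_lit 5) (nat_lit 392) (nat_lit 322) (nat_lit 150)) (XT.nd (nat_lit 94) (nat_lit 0) (nat_lit 0) (XT.lf (nat_lit 0) (nat_lit 1931178421) (nat_lit 168) (nat_lit 24545195106) (nat_lit 252) (nat_lit 22188552129) (nat_lit 22) (nat_lit 5) (nat_lit 24) (nat_lit 5) (nat_lit 25) (nat_lit 5) (nat_lit 393) (nat_lit 322) (nat_lit 149)) (XT.lf (nat_lit 0) (nat_lit 15681825536) (nat_lit 168) (nat_lit 16157713570) (nat_lit 252) (nat_lit 18035441882) (nat_lit 22) (nat_lit 5) (nat_lit 24) (nat_lit 5) (nat_lit 25) (nat_lit 5) (nat_lit 394) (nat_lit 322) (nat_lit 148))))) (XT.nd (nat_lit 282) (nat_lit 84) (nat_lit 0) (XT.nd (nat_lit 94) (nat_lit 168) (nat_lit 0)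 (XT.lf (nat_lit 0) (nat_lit 29854702973) (nat_lit 168) (nat_lit 7511546146) (nat_lit 252) (nat_lit 13756389218) (nat_lit 22) (nat_lit 5) (nat_lit 24) (nat_lit 5) (nat_lit 25) (nat_lit 5) (nat_lit 395) (nat_lit 322) (nat_lit 147)) (XT.nd (nat_lit 94) (nat_lit 168) (nat_lit 0) (XT.lf (nat_lit 0) (nat_lit 43075556769) (nat_lit 252) (nat_lit 7959941042) (nat_lit 84) (nat_lit 1373131889) (nat_lit 22) (nat_lit 5) (nat_lit 25) (nat_lit 5) (nat_lit 23) (nat_lit 5) (nat_lit 396) (nat_lit 322) (nat_lit 146)) (XT.lf (nat_lit 0) (nat_lit 5796693067) (nat_lit 168) (nat_lit 43296923911) (nat_lit 252) (nat_lit 4636790945) (nat_lit 20) (nat_lit 5) (nat_lit 22) (nat_lit 5) (nat_lit 23) (nat_lit 5) (nat_lit 397) (nat_lit 322) (nat_lit 145)))) (XT.nd (nat_lit 94) (nat_lit 0) (nat_lit 0) (XT.lf (nat_lit 0) (nat_lit 282321595) (nat_lit 252) (nat_lit 34948832250) (nat_lit 84) (nat_lit 19859427122) (nat_lit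 19) (nat_lit 5) (nat_lit 22) (nat_lit 5) (nat_lit 20) (nat_lit 5) (nat_lit 398) (nat_lit 322) (nat_lit 144)) (XT.nd (nat_lit 94) (nat_lit 0) (nat_lit 0) (XT.lf (nat_lit 0) (nat_lit 5255128875) (nat_lit 252) (nat_lit 21612616608) (nat_lit 84) (nat_lit 29623785970) (nat_lit 19) (nat_lit 5) (nat_lit 22) (nat_lit 5) (nat_lit 20) (nat_lit 5) (nat_lit 399) (nat_lit 322) (nat_lit 143)) (XT.lf (nat_lit 0) (nat_lit 10379687075) (nat_lit 252) (nat_lit 7866639643) (nat_lit 84) (nat_lit 39689664420) (nat_lit 19) (nat_lit 5) (nat_lit 22) (nat_lit 5) (nat_lit 20) (nat_lit 5) (nat_lit 400) (nat_lit 322) (nat_lit 142))))))))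
noncomputable def xc165 : XT := (XT.nd (nat_lit 48128) (nat_lit 0) (nat_lit 4368) (XT.nd (nat_lit 47000) (nat_lit 0) (nat_lit 8652) (XT.nd (nat_lit 564) (nat_lit 168) (nat_lit 0) (XT.nd (nat_lit 282) (nat_lit 168) (nat_lit 0) (XT.nd (nat_lit 94) (nat_lit 0) (nat_lit 0) (XT.lf (nat_lit 0) (nat_lit 6431491558) (nat_lit 168) (nat_lit 9293082455) (nat_lit 252) (nat_lit 43698754559) (nat_lit 17) (nat_lit 5) (nat_lit 19) (nat_lit 5) (nat_lit 20) (nat_lit 5) (nat_lit 401) (nat_lit 322) (nat_lit 141)) (XT.nd (nat_lit 94) (nat_lit 0) (nat_lit 0) (XT.lf (nat_lit 0) (nat_lit 21315175408) (nat_lit 252) (nat_lit 39618395800) (nat_lit 84) (nat_lit 20726387) (nat_lit 17) (nat_lit 5) (nat_lit 20) (nat_lit 5) (nat_lit 18) (nat_lit 5) (nat_lit 402) (nat_lit 322) (nat_lit 140)) (XT.lf (nat_lit 0) (nat_lit 27171890759) (nat_lit 252) (nat_lit 25928895996) (nat_lit 84) (nat_lit 9429067632) (nat_lit 17) (nat_lit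 5) (nat_lit 20) (nat_lit 5) (nat_lit 18) (nat_lit 5) (nat_lit 403) (nat_lit 322) (nat_lit 139)))) (XT.nd (nat_lit 94) (nat_lit 168) (nat_lit 0) (XT.lf (nat_lit 0) (nat_lit 33207990613) (nat_lit 252) (nat_lit 11818389027) (nat_lit 84) (nat_lit 19127945738) (nat_lit 17) (nat_lit 5) (nat_lit 20) (nat_lit 5) (nat_lit 18) (nat_lit 5) (nat_lit 404) (nat_lit 322) (nat_lit 138)) (XT.nd (nat_lit 94) (nat_lit 0) (nat_lit 0) (XT.lf (nat_lit 0) (nat_lit 2782335437) (nat_lit 168) (nat_lit 36674366919) (nat_lit 252) (nat_lit 26371666751) (nat_lit 15) (nat_lit 5) (nat_lit 17) (nat_lit 5) (nat_lit 18) (nat_lit 5) (nat_lit 405) (nat_lit 322) (nat_lit 137)) (XT.lf (nat_lit 0) (nat_lit 18082992984) (nat_lit 168) (nat_lit 27937413927) (nat_lit 252) (nat_lit 21530145800) (nat_lit 15) (nat_lit 5) (nat_lit 17) (nat_lit 5) (nat_lit 18) (nat_lit 5) (nat_lit 406) (nat_lit 322) (nat_lit 136))))) (XT.nd (nat_lit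 282) (nat_lit 168) (nat_lit 0) (XT.nd (nat_lit 94) (nat_lit 0) (nat_lit 0) (XT.lf (nat_lit 0) (nat_lit 33854835111) (nat_lit 168) (nat_lit 18930736651) (nat_lit 252) (nat_lit 16540618849) (nat_lit 15) (nat_lit 5) (nat_lit 17) (nat_lit 5) (nat_lit 18) (nat_lit 5) (nat_lit 407) (nat_lit 322) (nat_lit 135)) (XT.nd (nat_lit 94) (nat_lit 0) (nat_lit 0) (XT.lf (nat_lit 0) (nat_lit 50112562828) (nat_lit 168) (nat_lit 9645939924) (nat_lit 252) (nat_lit 11398435138) (nat_lit 15) (nat_lit 5) (nat_lit 17) (nat_lit 5) (nat_lit 18) (nat_lit 5) (nat_lit 408) (nat_lit 322) (nat_lit 134)) (XT.lf (nat_lit 0) (nat_lit 66871330039) (nat_lit 168) (nat_lit 74369344) (nat_lit 252) (nat_lit 6098801612) (nat_lit 15) (nat_lit 5) (nat_lit 17) (nat_lit 5) (nat_lit 18) (nat_lit 5) (nat_lit 409) (nat_lit 322) (nat_lit 133)))) (XT.nd (nat_lit 94) (nat_lit 84) (nat_lit 0) (XT.lf (nat_lit 0) (nat_lit 9245242624) (nat_lit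 84) (nat_lit 65297478950) (nat_lit 168) (nat_lit 442063076) (nat_lit 14) (nat_lit 5) (nat_lit 15) (nat_lit 5) (nat_lit 16) (nat_lit 4) (nat_lit 410) (nat_lit 322) (nat_lit 132)) (XT.nd (nat_lit 45966) (nat_lit 0) (nat_lit 9576) (XT.lf (nat_lit 0) (nat_lit 5345448428) (nat_lit 168) (nat_lit 51768538036) (nat_lit 84) (nat_lit 19867592290) (nat_lit 13) (nat_lit 5) (nat_lit 15) (nat_lit 5) (nat_lit 14) (nat_lit 5) (nat_lit 411) (nat_lit 322) (nat_lit 131)) (XT.lf (nat_lit 0) (nat_lit 4626256591) (nat_lit 1092) (nat_lit 769790206) (nat_lit 1092) (nat_lit 769790206) (nat_lit 127) (nat_lit 3) (nat_lit 140) (nat_lit 3) (nat_lit 140) (nat_lit 5) (nat_lit 323) (nat_lit 323) (nat_lit 218)))))) (XT.nd (nat_lit 564) (nat_lit 924) (nat_lit 0) (XT.nd (nat_lit 282) (nat_lit 0) (nat_lit 84) (XT.nd (nat_lit 94) (nat_lit 0) (nat_lit 0) (XT.lf (nat_lit 84) (nat_lit 3299625251) (nat_lit 0) (nat_lit 6512046102)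 (nat_lit 1092) (nat_lit 2696741842) (nat_lit 128) (nat_lit 5) (nat_lit 127) (nat_lit 3) (nat_lit 140) (nat_lit 5) (nat_lit 324) (nat_lit 323) (nat_lit 217)) (XT.nd (nat_lit 94) (nat_lit 0) (nat_lit 84) (XT.lf (nat_lit 84) (nat_lit 8313333819) (nat_lit 0) (nat_lit 2075385158) (nat_lit 1092) (nat_lit 2301956095) (nat_lit 128) (nat_lit 5) (nat_lit 127) (nat_lit 3) (nat_lit 140) (nat_lit 5) (nat_lit 325) (nat_lit 323) (nat_lit 216)) (XT.lf (nat_lit 84) (nat_lit 582322055) (nat_lit 0) (nat_lit 10416921082) (nat_lit 1092) (nat_lit 1878919860) (nat_lit 129) (nat_lit 5) (nat_lit 128) (nat_lit 5) (nat_lit 141) (nat_lit 5) (nat_lit 326) (nat_lit 323) (nat_lit 215)))) (XT.nd (nat_lit 94) (nat_lit 0) (nat_lit 0) (XT.lf (nat_lit 84) (nat_lit 5758453381) (nat_lit 0) (nat_lit 5922331713) (nat_lit 1092) (nat_lit 1389120498) (nat_lit 129) (nat_lit 5) (nat_lit 128) (nat_lit 5) (nat_lit 141) (nat_lit 5)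 (nat_lit 327) (nat_lit 323) (nat_lit 214)) (XT.nd (nat_lit 94) (nat_lit 0) (nat_lit 84) (XT.lf (nat_lit 84) (nat_lit 11086881717) (nat_lit 0) (nat_lit 1282402108) (nat_lit 1092) (nat_lit 898803343) (nat_lit 129) (nat_lit 5) (nat_lit 128) (nat_lit 5) (nat_lit 141) (nat_lit 5) (nat_lit 328) (nat_lit 323) (nat_lit 213)) (XT.lf (nat_lit 84) (nat_lit 3127909895) (nat_lit 0) (nat_lit 10003292224) (nat_lit 1092) (nat_lit 339649875) (nat_lit 130) (nat_lit 5) (nat_lit 129) (nat_lit 5) (nat_lit 142) (nat_lit 5) (nat_lit 329) (nat_lit 323) (nat_lit 212))))) (XT.nd (nat_lit 282) (nat_lit 0) (nat_lit 84) (XT.nd (nat_lit 94) (nat_lit 0) (nat_lit 0) (XT.lf (nat_lit 0) (nat_lit 254635182) (nat_lit 1092) (nat_lit 5055746012) (nat_lit 1176) (nat_lit 8368799633) (nat_lit 116) (nat_lit 5) (nat_lit 129) (nat_lit 5) (nat_lit 130) (nat_lit 5) (nat_lit 330) (nat_lit 323) (nat_lit 211)) (XT.nd (nat_lit 94) (nat_lit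 0) (nat_lit 84) (XT.lf (nat_lit 84) (nat_lit 391326024) (nat_lit 0) (nat_lit 459704499) (nat_lit 1176) (nat_lit 13043165875) (nat_lit 117) (nat_lit 5) (nat_lit 116) (nat_lit 5) (nat_lit 130) (nat_lit 5) (nat_lit 331) (nat_lit 323) (nat_lit 210)) (XT.lf (nat_lit 0) (nat_lit 1551493528) (nat_lit 1092) (nat_lit 8054237535) (nat_lit 1176) (nat_lit 4507541203) (nat_lit 117) (nat_lit 5) (nat_lit 130) (nat_lit 5) (nat_lit 131) (nat_lit 5) (nat_lit 332) (nat_lit 323) (nat_lit 209)))) (XT.nd (nat_lit 94) (nat_lit 0) (nat_lit 84) (XT.lf (nat_lit 0) (nat_lit 2265974303) (nat_lit 1092) (nat_lit 2449974952) (nat_lit 1176) (nat_lit 9623475167) (nat_lit 117) (nat_lit 5) (nat_lit 130) (nat_lit 5) (nat_lit 131) (nat_lit 5) (nat_lit 333) (nat_lit 323) (nat_lit 208)) (XT.nd (nat_lit 94) (nat_lit 0) (nat_lit 0) (XT.lf (nat_lit 0) (nat_lit 3027796171) (nat_lit 1092) (nat_lit 11187610506) (nat_lit 1176) (nat_lit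 356444609) (nat_lit 118) (nat_lit 5) (nat_lit 131) (nat_lit 5) (nat_lit 132) (nat_lit 5) (nat_lit 334) (nat_lit 323) (nat_lit 207)) (XT.lf (nat_lit 0) (nat_lit 3875591089) (nat_lit 1092) (nat_lit 5416606501) (nat_lit 1176) (nat_lit 5517396334) (nat_lit 118) (nat_lit 5) (nat_lit 131) (nat_lit 5) (nat_lit 132) (nat_lit 5) (nat_lit 335) (nat_lit 323) (nat_lit 206))))))) (XT.nd (nat_lit 1128) (nat_lit 2352) (nat_lit 0) (XT.nd (nat_lit 564) (nat_lit 1176) (nat_lit 0) (XT.nd (nat_lit 282) (nat_lit 924) (nat_lit 0) (XT.nd (nat_lit 94) (nat_lit 0) (nat_lit 84) (XT.lf (nat_lit 84) (nat_lit 535675545) (nat_lit 0) (nat_lit 4207947432) (nat_lit 1176) (nat_lit 10311313275) (nat_lit 119) (nat_lit 5) (nat_lit 118) (nat_lit 5) (nat_lit 132) (nat_lit 5) (nat_lit 336) (nat_lit 323) (nat_lit 205)) (XT.nd (nat_lit 94) (nat_lit 0) (nat_lit 0) (XT.lf (nat_lit 0) (nat_lit 5694864653) (nat_lit 1092) (nat_lit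 8538401902) (nat_lit 1176) (nat_lit 1072913329) (nat_lit 119) (nat_lit 5) (nat_lit 132) (nat_lit 5) (nat_lit 133) (nat_lit 5) (nat_lit 337) (nat_lit 323) (nat_lit 204)) (XT.lf (nat_lit 0) (nat_lit 6707892867) (nat_lit 1092) (nat_lit 2423654114) (nat_lit 1176) (nat_lit 6432703628) (nat_lit 119) (nat_lit 5) (nat_lit 132) (nat_lit 5) (nat_lit 133) (nat_lit 5) (nat_lit 338) (nat_lit 323) (nat_lit 203)))) (XT.nd (nat_lit 94) (nat_lit 1008) (nat_lit 0) (XT.lf (nat_lit 84) (nat_lit 3952050611) (nat_lit 0) (nat_lit 3829062727) (nat_lit 1176) (nat_lit 8048354333) (nat_lit 120) (nat_lit 5) (nat_lit 119) (nat_lit 5) (nat_lit 133) (nat_lit 5) (nat_lit 339) (nat_lit 323) (nat_lit 202)) (XT.nd (nat_lit 94) (nat_lit 1092) (nat_lit 0) (XT.lf (nat_lit 0) (nat_lit 8919243766) (nat_lit 1092) (nat_lit 5550361120) (nat_lit 84) (nat_lit 1632358157) (nat_lit 120) (nat_lit 5) (nat_lit 133) (nat_lit 5) (nat_lit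 121) (nat_lit 5) (nat_lit 340) (nat_lit 323) (nat_lit 201)) (XT.lf (nat_lit 0) (nat_lit 944440288) (nat_lit 1092) (nat_lit 9186889061) (nat_lit 1176) (nat_lit 6250413854) (nat_lit 107) (nat_lit 5) (nat_lit 120) (nat_lit 5) (nat_lit 121) (nat_lit 5) (nat_lit 341) (nat_lit 323) (nat_lit 200))))) (XT.nd (nat_lit 282) (nat_lit 672) (nat_lit 0) (XT.nd (nat_lit 94) (nat_lit 504) (nat_lit 0) (XT.lf (nat_lit 0) (nat_lit 7750069568) (nat_lit 1092) (nat_lit 3679211557) (nat_lit 1176) (nat_lit 5239453593) (nat_lit 107) (nat_lit 5) (nat_lit 120) (nat_lit 5) (nat_lit 121) (nat_lit 5) (nat_lit 342) (nat_lit 323) (nat_lit 199)) (XT.nd (nat_lit 94) (nat_lit 504) (nat_lit 0) (XT.lf (nat_lit 0) (nat_lit 12777962968) (nat_lit 1176) (nat_lit 2226050056) (nat_lit 84) (nat_lit 1960318796) (nat_lit 107) (nat_lit 5) (nat_lit 121) (nat_lit 5) (nat_lit 108) (nat_lit 5) (nat_lit 343) (nat_lit 323) (nat_lit 198))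 (XT.lf (nat_lit 0) (nat_lit 4723556067) (nat_lit 504) (nat_lit 9520327827) (nat_lit 588) (nat_lit 3022903330) (nat_lit 101) (nat_lit 5) (nat_lit 107) (nat_lit 5) (nat_lit 108) (nat_lit 5) (nat_lit 344) (nat_lit 323) (nat_lit 197)))) (XT.nd (nat_lit 94) (nat_lit 672) (nat_lit 0) (XT.lf (nat_lit 0) (nat_lit 11927852777) (nat_lit 504) (nat_lit 3841766603) (nat_lit 588) (nat_lit 1808585992) (nat_lit 101) (nat_lit 5) (nat_lit 107) (nat_lit 5) (nat_lit 108) (nat_lit 5) (nat_lit 345) (nat_lit 323) (nat_lit 196)) (XT.nd (nat_lit 94) (nat_lit 84) (nat_lit 0) (XT.lf (nat_lit 0) (nat_lit 1457598833) (nat_lit 588) (nat_lit 15910891976) (nat_lit 672) (nat_lit 530016852) (nat_lit 94) (nat_lit 5) (nat_lit 101) (nat_lit 5) (nat_lit 102) (nat_lit 5) (nat_lit 346) (nat_lit 323) (nat_lit 195)) (XT.lf (nat_lit 0) (nat_lit 862656304) (nat_lit 672) (nat_lit 9377073862) (nat_lit 84) (nat_lit 7985995276) (nat_lit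 93) (nat_lit 5) (nat_lit 101) (nat_lit 5) (nat_lit 94) (nat_lit 5) (nat_lit 347) (nat_lit 323) (nat_lit 194)))))) (XT.nd (nat_lit 564) (nat_lit 1344) (nat_lit 0) (XT.nd (nat_lit 282) (nat_lit 504) (nat_lit 0) (XT.nd (nat_lit 94) (nat_lit 504) (nat_lit 0) (XT.lf (nat_lit 0) (nat_lit 2279224027) (nat_lit 672) (nat_lit 2107566155) (nat_lit 84) (nat_lit 14176413506) (nat_lit 93) (nat_lit 5) (nat_lit 101) (nat_lit 5) (nat_lit 94) (nat_lit 5) (nat_lit 348) (nat_lit 323) (nat_lit 193)) (XT.nd (nat_lit 94) (nat_lit 0) (nat_lit 0) (XT.lf (nat_lit 0) (nat_lit 3803054503) (nat_lit 588) (nat_lit 13436371939) (nat_lit 84) (nat_lit 1669781073) (nat_lit 87) (nat_lit 5) (nat_lit 94) (nat_lit 5) (nat_lit 88) (nat_lit 5) (nat_lit 349) (nat_lit 323) (nat_lit 192)) (XT.lf (nat_lit 0) (nat_lit 5433362796) (nat_lit 588) (nat_lit 5985281804) (nat_lit 84) (nat_lit 7845483197) (nat_lit 87) (nat_lit 5) (nat_lit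 94) (nat_lit 5) (nat_lit 88) (nat_lit 5) (nat_lit 350) (nat_lit 323) (nat_lit 191)))) (XT.nd (nat_lit 94) (nat_lit 0) (nat_lit 0) (XT.lf (nat_lit 0) (nat_lit 1723917240) (nat_lit 504) (nat_lit 5399779810) (nat_lit 588) (nat_lit 12506085426) (nat_lit 81) (nat_lit 5) (nat_lit 87) (nat_lit 5) (nat_lit 88) (nat_lit 5) (nat_lit 351) (nat_lit 323) (nat_lit 190)) (XT.nd (nat_lit 94) (nat_lit 0) (nat_lit 0) (XT.lf (nat_lit 0) (nat_lit 8930075537) (nat_lit 588) (nat_lit 10222267479) (nat_lit 84) (nat_lit 852481638) (nat_lit 81) (nat_lit 5) (nat_lit 88) (nat_lit 5) (nat_lit 82) (nat_lit 5) (nat_lit 352) (nat_lit 323) (nat_lit 189)) (XT.lf (nat_lit 0) (nat_lit 10840441651) (nat_lit 588) (nat_lit 2363257811) (nat_lit 84) (nat_lit 7186330399) (nat_lit 81) (nat_lit 5) (nat_lit 88) (nat_lit 5) (nat_lit 82) (nat_lit 5) (nat_lit 353) (nat_lit 323) (nat_lit 188))))) (XT.nd (nat_lit 282) (nat_lit 504)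 (nat_lit 0) (XT.nd (nat_lit 94) (nat_lit 420) (nat_lit 0) (XT.lf (nat_lit 0) (nat_lit 5849918493) (nat_lit 420) (nat_lit 7011122991) (nat_lit 504) (nat_lit 7924577235) (nat_lit 76) (nat_lit 5) (nat_lit 81) (nat_lit 5) (nat_lit 82) (nat_lit 5) (nat_lit 354) (nat_lit 323) (nat_lit 187)) (XT.nd (nat_lit 94) (nat_lit 420) (nat_lit 0) (XT.lf (nat_lit 0) (nat_lit 14360551767) (nat_lit 420) (nat_lit 601515294) (nat_lit 504) (nat_lit 6230875333) (nat_lit 76) (nat_lit 5) (nat_lit 81) (nat_lit 5) (nat_lit 82) (nat_lit 5) (nat_lit 355) (nat_lit 323) (nat_lit 186)) (XT.lf (nat_lit 0) (nat_lit 1485198026) (nat_lit 420) (nat_lit 15710670750) (nat_lit 504) (nat_lit 4414949622) (nat_lit 71) (nat_lit 5) (nat_lit 76) (nat_lit 5) (nat_lit 77) (nat_lit 5) (nat_lit 356) (nat_lit 323) (nat_lit 185)))) (XT.nd (nat_lit 94) (nat_lit 504) (nat_lit 0) (XT.lf (nat_lit 0) (nat_lit 10192011052) (nat_lit 420) (nat_lit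 9377765621) (nat_lit 504) (nat_lit 2469696880) (nat_lit 71) (nat_lit 5) (nat_lit 76) (nat_lit 5) (nat_lit 77) (nat_lit 5) (nat_lit 357) (nat_lit 323) (nat_lit 184)) (XT.nd (nat_lit 94) (nat_lit 504) (nat_lit 0) (XT.lf (nat_lit 0) (nat_lit 19161765950) (nat_lit 420) (nat_lit 2849159020) (nat_lit 504) (nat_lit 470709875) (nat_lit 71) (nat_lit 5) (nat_lit 76) (nat_lit 5) (nat_lit 77) (nat_lit 5) (nat_lit 358) (nat_lit 323) (nat_lit 183)) (XT.lf (nat_lit 0) (nat_lit 1646360649) (nat_lit 504) (nat_lit 17413296743) (nat_lit 84) (nat_lit 3874643617) (nat_lit 65) (nat_lit 5) (nat_lit 71) (nat_lit 5) (nat_lit 66) (nat_lit 5) (nat_lit 359) (nat_lit 323) (nat_lit 182))))))))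
noncomputable def xc166 : XT := (XT.nd (nat_lit 2256) (nat_lit 1512) (nat_lit 0) (XT.nd (nat_lit 1128) (nat_lit 1176) (nat_lit 0) (XT.nd (nat_lit 564) (nat_lit 756) (nat_lit 0) (XT.nd (nat_lit 282) (nat_lit 336) (nat_lit 0) (XT.nd (nat_lit 94) (nat_lit 420) (nat_lit 0) (XT.lf (nat_lit 0) (nat_lit 3877299913) (nat_lit 504) (nat_lit 8734950235) (nat_lit 84) (nat_lit 10786821017) (nat_lit 65) (nat_lit 5) (nat_lit 71) (nat_lit 5) (nat_lit 66) (nat_lit 5) (nat_lit 360) (nat_lit 323) (nat_lit 181)) (XT.nd (nat_lit 94) (nat_lit 0) (nat_lit 0) (XT.lf (nat_lit 0) (nat_lit 209824428) (nat_lit 420) (nat_lit 5963709737) (nat_lit 504) (nat_lit 17704853364) (nat_lit 60) (nat_lit 5) (nat_lit 65) (nat_lit 5) (nat_lit 66) (nat_lit 5) (nat_lit 361) (nat_lit 323) (nat_lit 180)) (XT.lf (nat_lit 0) (nat_lit 8636054273) (nat_lit 504) (nat_lit 14769392121) (nat_lit 84) (nat_lit 964186111) (nat_lit 60) (nat_lit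 5) (nat_lit 66) (nat_lit 5) (nat_lit 61) (nat_lit 5) (nat_lit 362) (nat_lit 323) (nat_lit 179)))) (XT.nd (nat_lit 94) (nat_lit 336) (nat_lit 0) (XT.lf (nat_lit 0) (nat_lit 11230239847) (nat_lit 504) (nat_lit 5662081245) (nat_lit 84) (nat_lit 7982087282) (nat_lit 60) (nat_lit 5) (nat_lit 66) (nat_lit 5) (nat_lit 61) (nat_lit 5) (nat_lit 363) (nat_lit 323) (nat_lit 178)) (XT.nd (nat_lit 94) (nat_lit 0) (nat_lit 0) (XT.lf (nat_lit 0) (nat_lit 3797531020) (nat_lit 336) (nat_lit 10139489158) (nat_lit 420) (nat_lit 11456831612) (nat_lit 56) (nat_lit 5) (nat_lit 60) (nat_lit 5) (nat_lit 61) (nat_lit 5) (nat_lit 364) (nat_lit 323) (nat_lit 177)) (XT.lf (nat_lit 0) (nat_lit 13663953561) (nat_lit 336) (nat_lit 3117461773) (nat_lit 420) (nat_lit 9146334188) (nat_lit 56) (nat_lit 5) (nat_lit 60) (nat_lit 5) (nat_lit 61) (nat_lit 5) (nat_lit 365) (nat_lit 323) (nat_lit 176))))) (XT.nd (nat_lit 282)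 (nat_lit 420) (nat_lit 0) (XT.nd (nat_lit 94) (nat_lit 336) (nat_lit 0) (XT.lf (nat_lit 0) (nat_lit 19749635974) (nat_lit 420) (nat_lit 2689300204) (nat_lit 84) (nat_lit 4038172698) (nat_lit 56) (nat_lit 5) (nat_lit 61) (nat_lit 5) (nat_lit 57) (nat_lit 5) (nat_lit 366) (nat_lit 323) (nat_lit 175)) (XT.nd (nat_lit 94) (nat_lit 0) (nat_lit 0) (XT.lf (nat_lit 0) (nat_lit 7290762900) (nat_lit 336) (nat_lit 15618231816) (nat_lit 420) (nat_lit 4131446273) (nat_lit 52) (nat_lit 5) (nat_lit 56) (nat_lit 5) (nat_lit 57) (nat_lit 5) (nat_lit 367) (nat_lit 323) (nat_lit 174)) (XT.lf (nat_lit 0) (nat_lit 17631032645) (nat_lit 336) (nat_lit 8558336964) (nat_lit 420) (nat_lit 1431166407) (nat_lit 52) (nat_lit 5) (nat_lit 56) (nat_lit 5) (nat_lit 57) (nat_lit 5) (nat_lit 368) (nat_lit 323) (nat_lit 173)))) (XT.nd (nat_lit 94) (nat_lit 0) (nat_lit 0) (XT.lf (nat_lit 0) (nat_lit 54804744) (nat_lit 336)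 (nat_lit 1266396360) (nat_lit 420) (nat_lit 26897146254) (nat_lit 47) (nat_lit 5) (nat_lit 51) (nat_lit 5) (nat_lit 52) (nat_lit 5) (nat_lit 369) (nat_lit 323) (nat_lit 172)) (XT.nd (nat_lit 94) (nat_lit 0) (nat_lit 0) (XT.lf (nat_lit 0) (nat_lit 4291683213) (nat_lit 420) (nat_lit 18293125348) (nat_lit 84) (nat_lit 6244404078) (nat_lit 47) (nat_lit 5) (nat_lit 52) (nat_lit 5) (nat_lit 48) (nat_lit 5) (nat_lit 370) (nat_lit 323) (nat_lit 171)) (XT.lf (nat_lit 0) (nat_lit 7362514786) (nat_lit 420) (nat_lit 8135695836) (nat_lit 84) (nat_lit 13960561176) (nat_lit 47) (nat_lit 5) (nat_lit 52) (nat_lit 5) (nat_lit 48) (nat_lit 5) (nat_lit 371) (nat_lit 323) (nat_lit 170)))))) (XT.nd (nat_lit 564) (nat_lit 588) (nat_lit 0) (XT.nd (nat_lit 282) (nat_lit 252) (nat_lit 0) (XT.nd (nat_lit 94) (nat_lit 0) (nat_lit 0) (XT.lf (nat_lit 0) (nat_lit 2378702063) (nat_lit 336) (nat_lit 8168890305) (nat_lit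 420) (nat_lit 19559677220) (nat_lit 43) (nat_lit 5) (nat_lit 47) (nat_lit 5) (nat_lit 48) (nat_lit 5) (nat_lit 372) (nat_lit 323) (nat_lit 169)) (XT.nd (nat_lit 94) (nat_lit 0) (nat_lit 0) (XT.lf (nat_lit 0) (nat_lit 13385740402) (nat_lit 336) (nat_lit 526119537) (nat_lit 420) (nat_lit 16861529312) (nat_lit 43) (nat_lit 5) (nat_lit 47) (nat_lit 5) (nat_lit 48) (nat_lit 5) (nat_lit 373) (nat_lit 323) (nat_lit 168)) (XT.lf (nat_lit 0) (nat_lit 17449022514) (nat_lit 420) (nat_lit 6804848525) (nat_lit 84) (nat_lit 7204172993) (nat_lit 43) (nat_lit 5) (nat_lit 48) (nat_lit 5) (nat_lit 44) (nat_lit 5) (nat_lit 374) (nat_lit 323) (nat_lit 167)))) (XT.nd (nat_lit 94) (nat_lit 0) (nat_lit 0) (XT.lf (nat_lit 0) (nat_lit 4179274824) (nat_lit 252) (nat_lit 16959187173) (nat_lit 336) (nat_lit 11024151476) (nat_lit 40) (nat_lit 5) (nat_lit 43) (nat_lit 5) (nat_lit 44) (nat_lit 5) (nat_lit 375) (nat_lit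 323) (nat_lit 166)) (XT.nd (nat_lit 94) (nat_lit 0) (nat_lit 0) (XT.lf (nat_lit 0) (nat_lit 15642655668) (nat_lit 252) (nat_lit 9366504160) (nat_lit 336) (nat_lit 7877802658) (nat_lit 40) (nat_lit 5) (nat_lit 43) (nat_lit 5) (nat_lit 44) (nat_lit 5) (nat_lit 376) (nat_lit 323) (nat_lit 165)) (XT.lf (nat_lit 0) (nat_lit 27456057436) (nat_lit 252) (nat_lit 1539773487) (nat_lit 336) (nat_lit 4638071001) (nat_lit 40) (nat_lit 5) (nat_lit 43) (nat_lit 5) (nat_lit 44) (nat_lit 5) (nat_lit 377) (nat_lit 323) (nat_lit 164))))) (XT.nd (nat_lit 282) (nat_lit 252) (nat_lit 0) (XT.nd (nat_lit 94) (nat_lit 84) (nat_lit 0) (XT.lf (nat_lit 0) (nat_lit 5267735016) (nat_lit 252) (nat_lit 27951474390) (nat_lit 336) (nat_lit 1181291045) (nat_lit 37) (nat_lit 5) (nat_lit 40) (nat_lit 5) (nat_lit 41) (nat_lit 5) (nat_lit 378) (nat_lit 323) (nat_lit 163)) (XT.nd (nat_lit 94) (nat_lit 0) (nat_lit 0) (XT.lf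 (nat_lit 0) (nat_lit 2411641542) (nat_lit 336) (nat_lit 18035152382) (nat_lit 84) (nat_lit 14740960032) (nat_lit 36) (nat_lit 5) (nat_lit 40) (nat_lit 5) (nat_lit 37) (nat_lit 5) (nat_lit 379) (nat_lit 323) (nat_lit 162)) (XT.lf (nat_lit 0) (nat_lit 6087639655) (nat_lit 336) (nat_lit 6610773082) (nat_lit 84) (nat_lit 23300751908) (nat_lit 36) (nat_lit 5) (nat_lit 40) (nat_lit 5) (nat_lit 37) (nat_lit 5) (nat_lit 380) (nat_lit 323) (nat_lit 161)))) (XT.nd (nat_lit 94) (nat_lit 0) (nat_lit 0) (XT.lf (nat_lit 0) (nat_lit 5268896254) (nat_lit 252) (nat_lit 4657301938) (nat_lit 336) (nat_lit 26908033608) (nat_lit 33) (nat_lit 5) (nat_lit 36) (nat_lit 5) (nat_lit 37) (nat_lit 5) (nat_lit 381) (nat_lit 323) (nat_lit 160)) (XT.nd (nat_lit 94) (nat_lit 0) (nat_lit 0) (XT.lf (nat_lit 0) (nat_lit 13985884975) (nat_lit 336) (nat_lit 20077891756) (nat_lit 84) (nat_lit 3628252373) (nat_lit 33) (nat_lit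 5) (nat_lit 37) (nat_lit 5) (nat_lit 34) (nat_lit 5) (nat_lit 382) (nat_lit 323) (nat_lit 159)) (XT.lf (nat_lit 0) (nat_lit 18215547672) (nat_lit 336) (nat_lit 8286896437) (nat_lit 84) (nat_lit 12072615034) (nat_lit 33) (nat_lit 5) (nat_lit 37) (nat_lit 5) (nat_lit 34) (nat_lit 5) (nat_lit 383) (nat_lit 323) (nat_lit 158))))))) (XT.nd (nat_lit 1128) (nat_lit 588) (nat_lit 0) (XT.nd (nat_lit 564) (nat_lit 420) (nat_lit 0) (XT.nd (nat_lit 282) (nat_lit 252) (nat_lit 0) (XT.nd (nat_lit 94) (nat_lit 0) (nat_lit 0) (XT.lf (nat_lit 0) (nat_lit 3944310940) (nat_lit 252) (nat_lit 18667744872) (nat_lit 336) (nat_lit 16872308443) (nat_lit 30) (nat_lit 5) (nat_lit 33) (nat_lit 5) (nat_lit 34) (nat_lit 5) (nat_lit 384) (nat_lit 323) (nat_lit 157)) (XT.nd (nat_lit 94) (nat_lit 0) (nat_lit 0) (XT.lf (nat_lit 0) (nat_lit 16725634095) (nat_lit 252) (nat_lit 10502373037) (nat_lit 336) (nat_lit 13191281382)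 (nat_lit 30) (nat_lit 5) (nat_lit 33) (nat_lit 5) (nat_lit 34) (nat_lit 5) (nat_lit 385) (nat_lit 323) (nat_lit 156)) (XT.lf (nat_lit 0) (nat_lit 29898590975) (nat_lit 252) (nat_lit 2085215825) (nat_lit 336) (nat_lit 9399497390) (nat_lit 30) (nat_lit 5) (nat_lit 33) (nat_lit 5) (nat_lit 34) (nat_lit 5) (nat_lit 386) (nat_lit 323) (nat_lit 155)))) (XT.nd (nat_lit 94) (nat_lit 84) (nat_lit 0) (XT.lf (nat_lit 0) (nat_lit 1053996781) (nat_lit 168) (nat_lit 35905735930) (nat_lit 252) (nat_lit 5415225938) (nat_lit 28) (nat_lit 5) (nat_lit 30) (nat_lit 5) (nat_lit 31) (nat_lit 5) (nat_lit 387) (nat_lit 323) (nat_lit 154)) (XT.nd (nat_lit 94) (nat_lit 84) (nat_lit 0) (XT.lf (nat_lit 0) (nat_lit 14198615327) (nat_lit 168) (nat_lit 28029173801) (nat_lit 252) (nat_lit 1165298738) (nat_lit 28) (nat_lit 5) (nat_lit 30) (nat_lit 5) (nat_lit 31) (nat_lit 5) (nat_lit 388) (nat_lit 323) (nat_lit 153))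 (XT.lf (nat_lit 0) (nat_lit 3148517814) (nat_lit 252) (nat_lit 16728399702) (nat_lit 84) (nat_lit 24564974382) (nat_lit 27) (nat_lit 5) (nat_lit 30) (nat_lit 5) (nat_lit 28) (nat_lit 5) (nat_lit 389) (nat_lit 323) (nat_lit 152))))) (XT.nd (nat_lit 282) (nat_lit 168) (nat_lit 0) (XT.nd (nat_lit 94) (nat_lit 252) (nat_lit 0) (XT.lf (nat_lit 0) (nat_lit 7568892980) (nat_lit 252) (nat_lit 3892094457) (nat_lit 84) (nat_lit 34061950805) (nat_lit 27) (nat_lit 5) (nat_lit 30) (nat_lit 5) (nat_lit 28) (nat_lit 5) (nat_lit 390) (nat_lit 323) (nat_lit 151)) (XT.nd (nat_lit 94) (nat_lit 0) (nat_lit 0) (XT.lf (nat_lit 0) (nat_lit 9529975653) (nat_lit 252) (nat_lit 2687988070) (nat_lit 336) (nat_lit 34416698491) (nat_lit 24) (nat_lit 5) (nat_lit 27) (nat_lit 5) (nat_lit 28) (nat_lit 5) (nat_lit 391) (nat_lit 323) (nat_lit 150)) (XT.lf (nat_lit 0) (nat_lit 17112416662) (nat_lit 336) (nat_lit 24396634986)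 (nat_lit 84) (nat_lit 6268665457) (nat_lit 24) (nat_lit 5) (nat_lit 28) (nat_lit 5) (nat_lit 25) (nat_lit 5) (nat_lit 392) (nat_lit 323) (nat_lit 149)))) (XT.nd (nat_lit 94) (nat_lit 168) (nat_lit 0) (XT.lf (nat_lit 0) (nat_lit 22183332931) (nat_lit 336) (nat_lit 11326206662) (nat_lit 84) (nat_lit 15445906681) (nat_lit 24) (nat_lit 5) (nat_lit 28) (nat_lit 5) (nat_lit 25) (nat_lit 5) (nat_lit 393) (nat_lit 323) (nat_lit 148)) (XT.nd (nat_lit 94) (nat_lit 0) (nat_lit 0) (XT.lf (nat_lit 0) (nat_lit 2189561375) (nat_lit 168) (nat_lit 25240933326) (nat_lit 252) (nat_lit 22738606065) (nat_lit 22) (nat_lit 5) (nat_lit 24) (nat_lit 5) (nat_lit 25) (nat_lit 5) (nat_lit 394) (nat_lit 323) (nat_lit 147)) (XT.lf (nat_lit 0) (nat_lit 16360509579) (nat_lit 168) (nat_lit 16595399171) (nat_lit 252) (nat_lit 18460892491) (nat_lit 22) (nat_lit 5) (nat_lit 24) (nat_lit 5) (nat_lit 25) (nat_lit 5) (nat_lit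 395) (nat_lit 323) (nat_lit 146)))))) (XT.nd (nat_lit 564) (nat_lit 336) (nat_lit 0) (XT.nd (nat_lit 282) (nat_lit 84) (nat_lit 0) (XT.nd (nat_lit 94) (nat_lit 168) (nat_lit 0) (XT.lf (nat_lit 0) (nat_lit 30966956721) (nat_lit 168) (nat_lit 7683100954) (nat_lit 252) (nat_lit 14053207712) (nat_lit 22) (nat_lit 5) (nat_lit 24) (nat_lit 5) (nat_lit 25) (nat_lit 5) (nat_lit 396) (nat_lit 323) (nat_lit 145)) (XT.nd (nat_lit 94) (nat_lit 168) (nat_lit 0) (XT.lf (nat_lit 0) (nat_lit 44533171548) (nat_lit 252) (nat_lit 8022097313) (nat_lit 84) (nat_lit 1473960861) (nat_lit 22) (nat_lit 5) (nat_lit 25) (nat_lit 5) (nat_lit 23) (nat_lit 5) (nat_lit 397) (nat_lit 323) (nat_lit 144)) (XT.lf (nat_lit 0) (nat_lit 6159123525) (nat_lit 168) (nat_lit 44576804355) (nat_lit 252) (nat_lit 4656121296) (nat_lit 20) (nat_lit 5) (nat_lit 22) (nat_lit 5) (nat_lit 23) (nat_lit 5) (nat_lit 398) (nat_lit 323) (nat_lit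 143)))) (XT.nd (nat_lit 94) (nat_lit 0) (nat_lit 0) (XT.lf (nat_lit 0) (nat_lit 409311761) (nat_lit 252) (nat_lit 35852323448) (nat_lit 84) (nat_lit 20532835579) (nat_lit 19) (nat_lit 5) (nat_lit 22) (nat_lit 5) (nat_lit 20) (nat_lit 5) (nat_lit 399) (nat_lit 323) (nat_lit 142)) (XT.nd (nat_lit 94) (nat_lit 0) (nat_lit 0) (XT.lf (nat_lit 0) (nat_lit 5532720893) (nat_lit 252) (nat_lit 22108095016) (nat_lit 84) (nat_lit 30598152642) (nat_lit 19) (nat_lit 5) (nat_lit 22) (nat_lit 5) (nat_lit 20) (nat_lit 5) (nat_lit 400) (nat_lit 323) (nat_lit 141)) (XT.lf (nat_lit 0) (nat_lit 10812692120) (nat_lit 252) (nat_lit 7941239995) (nat_lit 84) (nat_lit 40974388641) (nat_lit 19) (nat_lit 5) (nat_lit 22) (nat_lit 5) (nat_lit 20) (nat_lit 5) (nat_lit 401) (nat_lit 323) (nat_lit 140))))) (XT.nd (nat_lit 282) (nat_lit 168) (nat_lit 0) (XT.nd (nat_lit 94) (nat_lit 0) (nat_lit 0) (XT.lf (nat_lit 0) (nat_lit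 6798419613) (nat_lit 168) (nat_lit 9523168481) (nat_lit 252) (nat_lit 44940236864) (nat_lit 17) (nat_lit 5) (nat_lit 19) (nat_lit 5) (nat_lit 20) (nat_lit 5) (nat_lit 402) (nat_lit 323) (nat_lit 139)) (XT.nd (nat_lit 94) (nat_lit 0) (nat_lit 0) (XT.lf (nat_lit 0) (nat_lit 22082762187) (nat_lit 252) (nat_lit 40681092497) (nat_lit 84) (nat_lit 76491087) (nat_lit 17) (nat_lit 5) (nat_lit 20) (nat_lit 5) (nat_lit 18) (nat_lit 5) (nat_lit 403) (nat_lit 323) (nat_lit 138)) (XT.lf (nat_lit 0) (nat_lit 28117823972) (nat_lit 252) (nat_lit 26572193641) (nat_lit 84) (nat_lit 9774833502) (nat_lit 17) (nat_lit 5) (nat_lit 20) (nat_lit 5) (nat_lit 18) (nat_lit 5) (nat_lit 404) (nat_lit 323) (nat_lit 137)))) (XT.nd (nat_lit 94) (nat_lit 168) (nat_lit 0) (XT.lf (nat_lit 0) (nat_lit 34337927749) (nat_lit 252) (nat_lit 12029086796) (nat_lit 84) (nat_lit 19772769256) (nat_lit 17) (nat_lit 5) (nat_lit 20)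 (nat_lit 5) (nat_lit 18) (nat_lit 5) (nat_lit 405) (nat_lit 323) (nat_lit 136)) (XT.nd (nat_lit 94) (nat_lit 0) (nat_lit 0) (XT.lf (nat_lit 0) (nat_lit 3022684084) (nat_lit 168) (nat_lit 37756172621) (nat_lit 252) (nat_lit 27086918789) (nat_lit 15) (nat_lit 5) (nat_lit 17) (nat_lit 5) (nat_lit 18) (nat_lit 5) (nat_lit 406) (nat_lit 323) (nat_lit 135)) (XT.lf (nat_lit 0) (nat_lit 18793028665) (nat_lit 168) (nat_lit 28750030817) (nat_lit 252) (nat_lit 22098385721) (nat_lit 15) (nat_lit 5) (nat_lit 17) (nat_lit 5) (nat_lit 18) (nat_lit 5) (nat_lit 407) (nat_lit 323) (nat_lit 134))))))))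
noncomputable def xc167 : XT := (XT.nd (nat_lit 48222) (nat_lit 0) (nat_lit 3528) (XT.nd (nat_lit 47094) (nat_lit 0) (nat_lit 7812) (XT.nd (nat_lit 46530) (nat_lit 0) (nat_lit 8568) (XT.nd (nat_lit 282) (nat_lit 84) (nat_lit 0) (XT.nd (nat_lit 94) (nat_lit 0) (nat_lit 0) (XT.lf (nat_lit 0) (nat_lit 35049303863) (nat_lit 168) (nat_lit 19465753463) (nat_lit 252) (nat_lit 16957166008) (nat_lit 15) (nat_lit 5) (nat_lit 17) (nat_lit 5) (nat_lit 18) (nat_lit 5) (nat_lit 408) (nat_lit 323) (nat_lit 133)) (XT.nd (nat_lit 94) (nat_lit 0) (nat_lit 0) (XT.lf (nat_lit 0) (nat_lit 51806662231) (nat_lit 168) (nat_lit 9894686637) (nat_lit 252) (nat_lit 11658467495) (nat_lit 15) (nat_lit 5) (nat_lit 17) (nat_lit 5) (nat_lit 18) (nat_lit 5) (nat_lit 409) (nat_lit 323) (nat_lit 132)) (XT.lf (nat_lit 0) (nat_lit 69080723380) (nat_lit 168) (nat_lit 27909105) (nat_lit 252) (nat_lit 6197351240) (nat_lit 15)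 (nat_lit 5) (nat_lit 17) (nat_lit 5) (nat_lit 18) (nat_lit 5) (nat_lit 410) (nat_lit 323) (nat_lit 131)))) (XT.nd (nat_lit 46060) (nat_lit 0) (nat_lit 9492) (XT.lf (nat_lit 0) (nat_lit 9669235119) (nat_lit 84) (nat_lit 67271124946) (nat_lit 168) (nat_lit 366086414) (nat_lit 14) (nat_lit 5) (nat_lit 15) (nat_lit 5) (nat_lit 16) (nat_lit 4) (nat_lit 411) (nat_lit 323) (nat_lit 130)) (XT.nd (nat_lit 94) (nat_lit 0) (nat_lit 0) (XT.lf (nat_lit 0) (nat_lit 5148882550) (nat_lit 1092) (nat_lit 597420578) (nat_lit 1092) (nat_lit 597420578) (nat_lit 127) (nat_lit 3) (nat_lit 140) (nat_lit 3) (nat_lit 140) (nat_lit 5) (nat_lit 324) (nat_lit 324) (nat_lit 216)) (XT.lf (nat_lit 84) (nat_lit 3790406514) (nat_lit 0) (nat_lit 7064900345) (nat_lit 1092) (nat_lit 2015036242) (nat_lit 128) (nat_lit 5) (nat_lit 127) (nat_lit 3) (nat_lit 140) (nat_lit 5) (nat_lit 325) (nat_lit 324) (nat_lit 215))))) (XT.nd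 (nat_lit 282) (nat_lit 924) (nat_lit 0) (XT.nd (nat_lit 94) (nat_lit 0) (nat_lit 84) (XT.lf (nat_lit 84) (nat_lit 8947858885) (nat_lit 0) (nat_lit 2480149656) (nat_lit 1092) (nat_lit 1631023235) (nat_lit 128) (nat_lit 5) (nat_lit 127) (nat_lit 3) (nat_lit 140) (nat_lit 5) (nat_lit 326) (nat_lit 324) (nat_lit 214)) (XT.nd (nat_lit 94) (nat_lit 0) (nat_lit 0) (XT.lf (nat_lit 84) (nat_lit 1001514342) (nat_lit 0) (nat_lit 11035082554) (nat_lit 1092) (nat_lit 1216466441) (nat_lit 129) (nat_lit 5) (nat_lit 128) (nat_lit 5) (nat_lit 141) (nat_lit 5) (nat_lit 327) (nat_lit 324) (nat_lit 213)) (XT.lf (nat_lit 84) (nat_lit 6326044294) (nat_lit 0) (nat_lit 6392283762) (nat_lit 1092) (nat_lit 733153230) (nat_lit 129) (nat_lit 5) (nat_lit 128) (nat_lit 5) (nat_lit 141) (nat_lit 5) (nat_lit 328) (nat_lit 324) (nat_lit 212)))) (XT.nd (nat_lit 94) (nat_lit 1008) (nat_lit 0) (XT.lf (nat_lit 84) (nat_lit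 11807955125) (nat_lit 0) (nat_lit 1599906103) (nat_lit 1092) (nat_lit 248654603) (nat_lit 129) (nat_lit 5) (nat_lit 128) (nat_lit 5) (nat_lit 141) (nat_lit 5) (nat_lit 329) (nat_lit 324) (nat_lit 211)) (XT.nd (nat_lit 94) (nat_lit 0) (nat_lit 0) (XT.lf (nat_lit 0) (nat_lit 302550068) (nat_lit 1092) (nat_lit 10245465259) (nat_lit 1176) (nat_lit 3318104265) (nat_lit 116) (nat_lit 5) (nat_lit 129) (nat_lit 5) (nat_lit 130) (nat_lit 5) (nat_lit 330) (nat_lit 324) (nat_lit 210)) (XT.lf (nat_lit 0) (nat_lit 888788585) (nat_lit 1092) (nat_lit 4810307091) (nat_lit 1176) (nat_lit 8382377873) (nat_lit 116) (nat_lit 5) (nat_lit 129) (nat_lit 5) (nat_lit 130) (nat_lit 5) (nat_lit 331) (nat_lit 324) (nat_lit 209)))))) (XT.nd (nat_lit 564) (nat_lit 756) (nat_lit 0) (XT.nd (nat_lit 282) (nat_lit 0) (nat_lit 168) (XT.nd (nat_lit 94) (nat_lit 0) (nat_lit 84) (XT.lf (nat_lit 84) (nat_lit 801552598) (nat_lit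 0) (nat_lit 687238428) (nat_lit 1176) (nat_lit 12814895486) (nat_lit 117) (nat_lit 5) (nat_lit 116) (nat_lit 5) (nat_lit 130) (nat_lit 5) (nat_lit 332) (nat_lit 324) (nat_lit 208)) (XT.nd (nat_lit 94) (nat_lit 0) (nat_lit 0) (XT.lf (nat_lit 0) (nat_lit 2190533341) (nat_lit 1092) (nat_lit 7895149513) (nat_lit 1176) (nat_lit 4444572836) (nat_lit 117) (nat_lit 5) (nat_lit 130) (nat_lit 5) (nat_lit 131) (nat_lit 5) (nat_lit 333) (nat_lit 324) (nat_lit 207)) (XT.lf (nat_lit 0) (nat_lit 2909394593) (nat_lit 1092) (nat_lit 2129445625) (nat_lit 1176) (nat_lit 9725195580) (nat_lit 117) (nat_lit 5) (nat_lit 130) (nat_lit 5) (nat_lit 131) (nat_lit 5) (nat_lit 334) (nat_lit 324) (nat_lit 206)))) (XT.nd (nat_lit 94) (nat_lit 0) (nat_lit 0) (XT.lf (nat_lit 0) (nat_lit 3679831739) (nat_lit 1092) (nat_lit 11120868745) (nat_lit 1176) (nat_lit 203496864) (nat_lit 118) (nat_lit 5) (nat_lit 131) (nat_lit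 5) (nat_lit 132) (nat_lit 5) (nat_lit 335) (nat_lit 324) (nat_lit 205)) (XT.nd (nat_lit 94) (nat_lit 0) (nat_lit 0) (XT.lf (nat_lit 0) (nat_lit 4537125185) (nat_lit 1092) (nat_lit 5183398425) (nat_lit 1176) (nat_lit 5529369152) (nat_lit 118) (nat_lit 5) (nat_lit 131) (nat_lit 5) (nat_lit 132) (nat_lit 5) (nat_lit 336) (nat_lit 324) (nat_lit 204)) (XT.lf (nat_lit 84) (nat_lit 949343355) (nat_lit 0) (nat_lit 4470383129) (nat_lit 1176) (nat_lit 10083557347) (nat_lit 119) (nat_lit 5) (nat_lit 118) (nat_lit 5) (nat_lit 132) (nat_lit 5) (nat_lit 337) (nat_lit 324) (nat_lit 203))))) (XT.nd (nat_lit 282) (nat_lit 1008) (nat_lit 0) (XT.nd (nat_lit 94) (nat_lit 0) (nat_lit 0) (XT.lf (nat_lit 0) (nat_lit 6383279215) (nat_lit 1092) (nat_lit 8398895790) (nat_lit 1176) (nat_lit 980732289) (nat_lit 119) (nat_lit 5) (nat_lit 132) (nat_lit 5) (nat_lit 133) (nat_lit 5) (nat_lit 338) (nat_lit 324) (nat_lit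 202)) (XT.nd (nat_lit 94) (nat_lit 0) (nat_lit 0) (XT.lf (nat_lit 0) (nat_lit 7412320337) (nat_lit 1092) (nat_lit 2106744161) (nat_lit 1176) (nat_lit 6510447845) (nat_lit 119) (nat_lit 5) (nat_lit 132) (nat_lit 5) (nat_lit 133) (nat_lit 5) (nat_lit 339) (nat_lit 324) (nat_lit 201)) (XT.lf (nat_lit 84) (nat_lit 4462638324) (nat_lit 0) (nat_lit 4045093869) (nat_lit 1176) (nat_lit 7795617669) (nat_lit 120) (nat_lit 5) (nat_lit 119) (nat_lit 5) (nat_lit 133) (nat_lit 5) (nat_lit 340) (nat_lit 324) (nat_lit 200)))) (XT.nd (nat_lit 94) (nat_lit 1092) (nat_lit 0) (XT.lf (nat_lit 0) (nat_lit 9665613082) (nat_lit 1092) (nat_lit 5328755022) (nat_lit 84) (nat_lit 1590459600) (nat_lit 120) (nat_lit 5) (nat_lit 133) (nat_lit 5) (nat_lit 121) (nat_lit 5) (nat_lit 341) (nat_lit 324) (nat_lit 199)) (XT.nd (nat_lit 94) (nat_lit 0) (nat_lit 0) (XT.lf (nat_lit 0) (nat_lit 1363399701) (nat_lit 1092) (nat_lit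 9541611223) (nat_lit 1176) (nat_lit 5968640281) (nat_lit 107) (nat_lit 5) (nat_lit 120) (nat_lit 5) (nat_lit 121) (nat_lit 5) (nat_lit 342) (nat_lit 324) (nat_lit 198)) (XT.lf (nat_lit 0) (nat_lit 8368286579) (nat_lit 1092) (nat_lit 3861093110) (nat_lit 1176) (nat_lit 4940638631) (nat_lit 107) (nat_lit 5) (nat_lit 120) (nat_lit 5) (nat_lit 121) (nat_lit 5) (nat_lit 343) (nat_lit 324) (nat_lit 197))))))) (XT.nd (nat_lit 1128) (nat_lit 1680) (nat_lit 0) (XT.nd (nat_lit 564) (nat_lit 1428) (nat_lit 0) (XT.nd (nat_lit 282) (nat_lit 672) (nat_lit 0) (XT.nd (nat_lit 94) (nat_lit 504) (nat_lit 0) (XT.lf (nat_lit 0) (nat_lit 13605814065) (nat_lit 1176) (nat_lit 1912822040) (nat_lit 84) (nat_lit 1956627522) (nat_lit 107) (nat_lit 5) (nat_lit 121) (nat_lit 5) (nat_lit 108) (nat_lit 5) (nat_lit 344) (nat_lit 324) (nat_lit 196)) (XT.nd (nat_lit 94) (nat_lit 0) (nat_lit 0) (XT.lf (nat_lit 0) (nat_lit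 5248352082) (nat_lit 504) (nat_lit 9859598554) (nat_lit 588) (nat_lit 2679478047) (nat_lit 101) (nat_lit 5) (nat_lit 107) (nat_lit 5) (nat_lit 108) (nat_lit 5) (nat_lit 345) (nat_lit 324) (nat_lit 195)) (XT.lf (nat_lit 0) (nat_lit 12664605327) (nat_lit 504) (nat_lit 4003674719) (nat_lit 588) (nat_lit 1440660609) (nat_lit 101) (nat_lit 5) (nat_lit 107) (nat_lit 5) (nat_lit 108) (nat_lit 5) (nat_lit 346) (nat_lit 324) (nat_lit 194)))) (XT.nd (nat_lit 94) (nat_lit 84) (nat_lit 0) (XT.lf (nat_lit 0) (nat_lit 1880523922) (nat_lit 588) (nat_lit 16427205948) (nat_lit 672) (nat_lit 131765686) (nat_lit 94) (nat_lit 5) (nat_lit 101) (nat_lit 5) (nat_lit 102) (nat_lit 5) (nat_lit 347) (nat_lit 324) (nat_lit 193)) (XT.nd (nat_lit 94) (nat_lit 0) (nat_lit 0) (XT.lf (nat_lit 0) (nat_lit 1283508034) (nat_lit 672) (nat_lit 9291922538) (nat_lit 84) (nat_lit 8201719743) (nat_lit 93) (nat_lit 5) (nat_lit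 101) (nat_lit 5) (nat_lit 94) (nat_lit 5) (nat_lit 348) (nat_lit 324) (nat_lit 192)) (XT.lf (nat_lit 0) (nat_lit 2732139317) (nat_lit 672) (nat_lit 1808360828) (nat_lit 84) (nat_lit 14584998342) (nat_lit 93) (nat_lit 5) (nat_lit 101) (nat_lit 5) (nat_lit 94) (nat_lit 5) (nat_lit 349) (nat_lit 324) (nat_lit 191))))) (XT.nd (nat_lit 282) (nat_lit 420) (nat_lit 0) (XT.nd (nat_lit 94) (nat_lit 504) (nat_lit 0) (XT.lf (nat_lit 0) (nat_lit 4295160591) (nat_lit 588) (nat_lit 13479036692) (nat_lit 84) (nat_lit 1708320159) (nat_lit 87) (nat_lit 5) (nat_lit 94) (nat_lit 5) (nat_lit 88) (nat_lit 5) (nat_lit 350) (nat_lit 324) (nat_lit 190)) (XT.nd (nat_lit 94) (nat_lit 504) (nat_lit 0) (XT.lf (nat_lit 0) (nat_lit 5964756692) (nat_lit 588) (nat_lit 5808204030) (nat_lit 84) (nat_lit 8075866672) (nat_lit 87) (nat_lit 5) (nat_lit 94) (nat_lit 5) (nat_lit 88) (nat_lit 5) (nat_lit 351) (nat_lit 324)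 (nat_lit 189)) (XT.lf (nat_lit 0) (nat_lit 2136308968) (nat_lit 504) (nat_lit 5563829738) (nat_lit 588) (nat_lit 12525943773) (nat_lit 81) (nat_lit 5) (nat_lit 87) (nat_lit 5) (nat_lit 88) (nat_lit 5) (nat_lit 352) (nat_lit 324) (nat_lit 188)))) (XT.nd (nat_lit 94) (nat_lit 420) (nat_lit 0) (XT.lf (nat_lit 0) (nat_lit 9551854739) (nat_lit 588) (nat_lit 10179176800) (nat_lit 84) (nat_lit 882085956) (nat_lit 81) (nat_lit 5) (nat_lit 88) (nat_lit 5) (nat_lit 82) (nat_lit 5) (nat_lit 353) (nat_lit 324) (nat_lit 187)) (XT.nd (nat_lit 94) (nat_lit 420) (nat_lit 0) (XT.lf (nat_lit 0) (nat_lit 11511070376) (nat_lit 588) (nat_lit 2087361702) (nat_lit 84) (nat_lit 7412188492) (nat_lit 81) (nat_lit 5) (nat_lit 88) (nat_lit 5) (nat_lit 82) (nat_lit 5) (nat_lit 354) (nat_lit 324) (nat_lit 186)) (XT.lf (nat_lit 0) (nat_lit 6376888165) (nat_lit 420) (nat_lit 7210789287) (nat_lit 504) (nat_lit 7831034732)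 (nat_lit 76) (nat_lit 5) (nat_lit 81) (nat_lit 5) (nat_lit 82) (nat_lit 5) (nat_lit 355) (nat_lit 324) (nat_lit 185)))))) (XT.nd (nat_lit 564) (nat_lit 756) (nat_lit 0) (XT.nd (nat_lit 282) (nat_lit 504) (nat_lit 0) (XT.nd (nat_lit 94) (nat_lit 420) (nat_lit 0) (XT.lf (nat_lit 0) (nat_lit 15140958938) (nat_lit 420) (nat_lit 603015307) (nat_lit 504) (nat_lit 6095027232) (nat_lit 76) (nat_lit 5) (nat_lit 81) (nat_lit 5) (nat_lit 82) (nat_lit 5) (nat_lit 356) (nat_lit 324) (nat_lit 184)) (XT.nd (nat_lit 94) (nat_lit 0) (nat_lit 0) (XT.lf (nat_lit 0) (nat_lit 1873718503) (nat_lit 420) (nat_lit 16167303644) (nat_lit 504) (nat_lit 4229027462) (nat_lit 71) (nat_lit 5) (nat_lit 76) (nat_lit 5) (nat_lit 77) (nat_lit 5) (nat_lit 357) (nat_lit 324) (nat_lit 183)) (XT.lf (nat_lit 0) (nat_lit 10840145100) (nat_lit 420) (nat_lit 9638992457) (nat_lit 504) (nat_lit 2233177369) (nat_lit 71) (nat_lit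 5) (nat_lit 76) (nat_lit 5) (nat_lit 77) (nat_lit 5) (nat_lit 358) (nat_lit 324) (nat_lit 182)))) (XT.nd (nat_lit 94) (nat_lit 504) (nat_lit 0) (XT.lf (nat_lit 0) (nat_lit 20077974395) (nat_lit 420) (nat_lit 2908885570) (nat_lit 504) (nat_lit 181635426) (nat_lit 71) (nat_lit 5) (nat_lit 76) (nat_lit 5) (nat_lit 77) (nat_lit 5) (nat_lit 359) (nat_lit 324) (nat_lit 181)) (XT.nd (nat_lit 94) (nat_lit 0) (nat_lit 0) (XT.lf (nat_lit 0) (nat_lit 1989570690) (nat_lit 504) (nat_lit 17617570852) (nat_lit 84) (nat_lit 4028154167) (nat_lit 65) (nat_lit 5) (nat_lit 71) (nat_lit 5) (nat_lit 66) (nat_lit 5) (nat_lit 360) (nat_lit 324) (nat_lit 180)) (XT.lf (nat_lit 0) (nat_lit 4280884048) (nat_lit 504) (nat_lit 8680284526) (nat_lit 84) (nat_lit 11153604901) (nat_lit 65) (nat_lit 5) (nat_lit 71) (nat_lit 5) (nat_lit 66) (nat_lit 5) (nat_lit 361) (nat_lit 324) (nat_lit 179))))) (XT.nd (nat_lit 282)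 (nat_lit 336) (nat_lit 0) (XT.nd (nat_lit 94) (nat_lit 0) (nat_lit 0) (XT.lf (nat_lit 0) (nat_lit 538483271) (nat_lit 420) (nat_lit 6104493226) (nat_lit 504) (nat_lit 17966163803) (nat_lit 60) (nat_lit 5) (nat_lit 65) (nat_lit 5) (nat_lit 66) (nat_lit 5) (nat_lit 362) (nat_lit 324) (nat_lit 178)) (XT.nd (nat_lit 94) (nat_lit 0) (nat_lit 0) (XT.lf (nat_lit 0) (nat_lit 9173898208) (nat_lit 504) (nat_lit 14906007452) (nat_lit 84) (nat_lit 1035980020) (nat_lit 60) (nat_lit 5) (nat_lit 66) (nat_lit 5) (nat_lit 61) (nat_lit 5) (nat_lit 363) (nat_lit 324) (nat_lit 177)) (XT.lf (nat_lit 0) (nat_lit 11840381407) (nat_lit 504) (nat_lit 5526028824) (nat_lit 84) (nat_lit 8270176158) (nat_lit 60) (nat_lit 5) (nat_lit 66) (nat_lit 5) (nat_lit 61) (nat_lit 5) (nat_lit 364) (nat_lit 324) (nat_lit 176)))) (XT.nd (nat_lit 94) (nat_lit 0) (nat_lit 0) (XT.lf (nat_lit 0) (nat_lit 4223676985) (nat_lit 336)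 (nat_lit 10402576620) (nat_lit 420) (nat_lit 11546052564) (nat_lit 56) (nat_lit 5) (nat_lit 60) (nat_lit 5) (nat_lit 61) (nat_lit 5) (nat_lit 365) (nat_lit 324) (nat_lit 175)) (XT.nd (nat_lit 94) (nat_lit 0) (nat_lit 0) (XT.lf (nat_lit 0) (nat_lit 14386685009) (nat_lit 336) (nat_lit 3164406966) (nat_lit 420) (nat_lit 9171926000) (nat_lit 56) (nat_lit 5) (nat_lit 60) (nat_lit 5) (nat_lit 61) (nat_lit 5) (nat_lit 366) (nat_lit 324) (nat_lit 174)) (XT.lf (nat_lit 0) (nat_lit 20604305103) (nat_lit 420) (nat_lit 2474756117) (nat_lit 84) (nat_lit 4210586756) (nat_lit 56) (nat_lit 5) (nat_lit 61) (nat_lit 5) (nat_lit 57) (nat_lit 5) (nat_lit 367) (nat_lit 324) (nat_lit 173))))))))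
noncomputable def xc168 : XT := (XT.nd (nat_lit 2256) (nat_lit 1008) (nat_lit 0) (XT.nd (nat_lit 1128) (nat_lit 840) (nat_lit 0) (XT.nd (nat_lit 564) (nat_lit 504) (nat_lit 0) (XT.nd (nat_lit 282) (nat_lit 336) (nat_lit 0) (XT.nd (nat_lit 94) (nat_lit 420) (nat_lit 0) (XT.lf (nat_lit 0) (nat_lit 7811672848) (nat_lit 336) (nat_lit 16045567154) (nat_lit 420) (nat_lit 4013360793) (nat_lit 52) (nat_lit 5) (nat_lit 56) (nat_lit 5) (nat_lit 57) (nat_lit 5) (nat_lit 368) (nat_lit 324) (nat_lit 172)) (XT.nd (nat_lit 94) (nat_lit 420) (nat_lit 0) (XT.lf (nat_lit 0) (nat_lit 18463624045) (nat_lit 336) (nat_lit 8768524315) (nat_lit 420) (nat_lit 1236773774) (nat_lit 52) (nat_lit 5) (nat_lit 56) (nat_lit 5) (nat_lit 57) (nat_lit 5) (nat_lit 369) (nat_lit 324) (nat_lit 171)) (XT.lf (nat_lit 0) (nat_lit 345063770) (nat_lit 336) (nat_lit 1246871120) (nat_lit 420) (nat_lit 27493406830) (nat_lit 47)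 (nat_lit 5) (nat_lit 51) (nat_lit 5) (nat_lit 52) (nat_lit 5) (nat_lit 370) (nat_lit 324) (nat_lit 170)))) (XT.nd (nat_lit 94) (nat_lit 336) (nat_lit 0) (XT.lf (nat_lit 0) (nat_lit 4648158653) (nat_lit 420) (nat_lit 18573353509) (nat_lit 84) (nat_lit 6493847888) (nat_lit 47) (nat_lit 5) (nat_lit 52) (nat_lit 5) (nat_lit 48) (nat_lit 5) (nat_lit 371) (nat_lit 324) (nat_lit 169)) (XT.nd (nat_lit 94) (nat_lit 336) (nat_lit 0) (XT.lf (nat_lit 0) (nat_lit 7807467837) (nat_lit 420) (nat_lit 8109668920) (nat_lit 84) (nat_lit 14447526045) (nat_lit 47) (nat_lit 5) (nat_lit 52) (nat_lit 5) (nat_lit 48) (nat_lit 5) (nat_lit 372) (nat_lit 324) (nat_lit 168)) (XT.lf (nat_lit 0) (nat_lit 2727858450) (nat_lit 336) (nat_lit 8359640375) (nat_lit 420) (nat_lit 19945900928) (nat_lit 43) (nat_lit 5) (nat_lit 47) (nat_lit 5) (nat_lit 48) (nat_lit 5) (nat_lit 373) (nat_lit 324) (nat_lit 167))))) (XT.nd (nat_lit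 282) (nat_lit 252) (nat_lit 0) (XT.nd (nat_lit 94) (nat_lit 252) (nat_lit 0) (XT.lf (nat_lit 0) (nat_lit 14067833778) (nat_lit 336) (nat_lit 481822522) (nat_lit 420) (nat_lit 17170729168) (nat_lit 43) (nat_lit 5) (nat_lit 47) (nat_lit 5) (nat_lit 48) (nat_lit 5) (nat_lit 374) (nat_lit 324) (nat_lit 166)) (XT.nd (nat_lit 94) (nat_lit 252) (nat_lit 0) (XT.lf (nat_lit 0) (nat_lit 18190844180) (nat_lit 420) (nat_lit 6750509744) (nat_lit 84) (nat_lit 7485102386) (nat_lit 43) (nat_lit 5) (nat_lit 48) (nat_lit 5) (nat_lit 44) (nat_lit 5) (nat_lit 375) (nat_lit 324) (nat_lit 165)) (XT.lf (nat_lit 0) (nat_lit 4571435615) (nat_lit 252) (nat_lit 17419785029) (nat_lit 336) (nat_lit 11161770075) (nat_lit 40) (nat_lit 5) (nat_lit 43) (nat_lit 5) (nat_lit 44) (nat_lit 5) (nat_lit 376) (nat_lit 324) (nat_lit 164)))) (XT.nd (nat_lit 94) (nat_lit 252) (nat_lit 0) (XT.lf (nat_lit 0) (nat_lit 16382285338)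 (nat_lit 252) (nat_lit 9593687374) (nat_lit 336) (nat_lit 7924022206) (nat_lit 40) (nat_lit 5) (nat_lit 43) (nat_lit 5) (nat_lit 44) (nat_lit 5) (nat_lit 377) (nat_lit 324) (nat_lit 163)) (XT.nd (nat_lit 94) (nat_lit 252) (nat_lit 0) (XT.lf (nat_lit 0) (nat_lit 28554244047) (nat_lit 252) (nat_lit 1526227692) (nat_lit 336) (nat_lit 4589812081) (nat_lit 40) (nat_lit 5) (nat_lit 43) (nat_lit 5) (nat_lit 44) (nat_lit 5) (nat_lit 378) (nat_lit 324) (nat_lit 162)) (XT.lf (nat_lit 0) (nat_lit 5681186341) (nat_lit 252) (nat_lit 28751074048) (nat_lit 336) (nat_lit 1028479803) (nat_lit 37) (nat_lit 5) (nat_lit 40) (nat_lit 5) (nat_lit 41) (nat_lit 5) (nat_lit 379) (nat_lit 324) (nat_lit 161)))))) (XT.nd (nat_lit 564) (nat_lit 252) (nat_lit 0) (XT.nd (nat_lit 282) (nat_lit 252) (nat_lit 0) (XT.nd (nat_lit 94) (nat_lit 252) (nat_lit 0) (XT.lf (nat_lit 0) (nat_lit 2666436035) (nat_lit 336) (nat_lit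 18347444696) (nat_lit 84) (nat_lit 15258647016) (nat_lit 36) (nat_lit 5) (nat_lit 40) (nat_lit 5) (nat_lit 37) (nat_lit 5) (nat_lit 380) (nat_lit 324) (nat_lit 160)) (XT.nd (nat_lit 94) (nat_lit 252) (nat_lit 0) (XT.lf (nat_lit 0) (nat_lit 6450976857) (nat_lit 336) (nat_lit 6576330316) (nat_lit 84) (nat_lit 24081966801) (nat_lit 36) (nat_lit 5) (nat_lit 40) (nat_lit 5) (nat_lit 37) (nat_lit 5) (nat_lit 381) (nat_lit 324) (nat_lit 159)) (XT.lf (nat_lit 0) (nat_lit 5669185295) (nat_lit 252) (nat_lit 4736445553) (nat_lit 336) (nat_lit 27564700836) (nat_lit 33) (nat_lit 5) (nat_lit 36) (nat_lit 5) (nat_lit 37) (nat_lit 5) (nat_lit 382) (nat_lit 324) (nat_lit 158)))) (XT.nd (nat_lit 94) (nat_lit 252) (nat_lit 0) (XT.lf (nat_lit 0) (nat_lit 14586632306) (nat_lit 336) (nat_lit 20465517417) (nat_lit 84) (nat_lit 3802724754) (nat_lit 33) (nat_lit 5) (nat_lit 37) (nat_lit 5) (nat_lit 34) (nat_lit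 5) (nat_lit 383) (nat_lit 324) (nat_lit 157)) (XT.nd (nat_lit 94) (nat_lit 252) (nat_lit 0) (XT.lf (nat_lit 0) (nat_lit 18942387648) (nat_lit 336) (nat_lit 8316060853) (nat_lit 84) (nat_lit 12506998552) (nat_lit 33) (nat_lit 5) (nat_lit 37) (nat_lit 5) (nat_lit 34) (nat_lit 5) (nat_lit 384) (nat_lit 324) (nat_lit 156)) (XT.lf (nat_lit 0) (nat_lit 4292008397) (nat_lit 252) (nat_lit 19180539626) (nat_lit 336) (nat_lit 17230486815) (nat_lit 30) (nat_lit 5) (nat_lit 33) (nat_lit 5) (nat_lit 34) (nat_lit 5) (nat_lit 385) (nat_lit 324) (nat_lit 155))))) (XT.nd (nat_lit 282) (nat_lit 84) (nat_lit 0) (XT.nd (nat_lit 94) (nat_lit 168) (nat_lit 0) (XT.lf (nat_lit 0) (nat_lit 17462774551) (nat_lit 252) (nat_lit 10764022899) (nat_lit 336) (nat_lit 13440305004) (nat_lit 30) (nat_lit 5) (nat_lit 33) (nat_lit 5) (nat_lit 34) (nat_lit 5) (nat_lit 386) (nat_lit 324) (nat_lit 154)) (XT.nd (nat_lit 94)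 (nat_lit 168) (nat_lit 0) (XT.lf (nat_lit 0) (nat_lit 31037518875) (nat_lit 252) (nat_lit 2087855864) (nat_lit 336) (nat_lit 9535783748) (nat_lit 30) (nat_lit 5) (nat_lit 33) (nat_lit 5) (nat_lit 34) (nat_lit 5) (nat_lit 387) (nat_lit 324) (nat_lit 153)) (XT.lf (nat_lit 0) (nat_lit 1300963616) (nat_lit 168) (nat_lit 36952800833) (nat_lit 252) (nat_lit 5429856576) (nat_lit 28) (nat_lit 5) (nat_lit 30) (nat_lit 5) (nat_lit 31) (nat_lit 5) (nat_lit 388) (nat_lit 324) (nat_lit 152)))) (XT.nd (nat_lit 94) (nat_lit 84) (nat_lit 0) (XT.lf (nat_lit 0) (nat_lit 14846622000) (nat_lit 168) (nat_lit 28834050147) (nat_lit 252) (nat_lit 1052789279) (nat_lit 28) (nat_lit 5) (nat_lit 30) (nat_lit 5) (nat_lit 31) (nat_lit 5) (nat_lit 389) (nat_lit 324) (nat_lit 151)) (XT.nd (nat_lit 94) (nat_lit 0) (nat_lit 0) (XT.lf (nat_lit 0) (nat_lit 3387381887) (nat_lit 252) (nat_lit 17042142753) (nat_lit 84) (nat_lit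 25385354099) (nat_lit 27) (nat_lit 5) (nat_lit 30) (nat_lit 5) (nat_lit 28) (nat_lit 5) (nat_lit 390) (nat_lit 324) (nat_lit 150)) (XT.lf (nat_lit 0) (nat_lit 7940541292) (nat_lit 252) (nat_lit 3814071074) (nat_lit 84) (nat_lit 35174966830) (nat_lit 27) (nat_lit 5) (nat_lit 30) (nat_lit 5) (nat_lit 28) (nat_lit 5) (nat_lit 391) (nat_lit 324) (nat_lit 149))))))) (XT.nd (nat_lit 1128) (nat_lit 168) (nat_lit 0) (XT.nd (nat_lit 564) (nat_lit 420) (nat_lit 0) (XT.nd (nat_lit 282) (nat_lit 168) (nat_lit 0) (XT.nd (nat_lit 94) (nat_lit 0) (nat_lit 0) (XT.lf (nat_lit 0) (nat_lit 10022071771) (nat_lit 252) (nat_lit 2709492736) (nat_lit 336) (nat_lit 35344279038) (nat_lit 24) (nat_lit 5) (nat_lit 27) (nat_lit 5) (nat_lit 28) (nat_lit 5) (nat_lit 392) (nat_lit 324) (nat_lit 148)) (XT.nd (nat_lit 94) (nat_lit 0) (nat_lit 0) (XT.lf (nat_lit 0) (nat_lit 17774285866) (nat_lit 336) (nat_lit 24958413912)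 (nat_lit 84) (nat_lit 6521750021) (nat_lit 24) (nat_lit 5) (nat_lit 28) (nat_lit 5) (nat_lit 25) (nat_lit 5) (nat_lit 393) (nat_lit 324) (nat_lit 147)) (XT.lf (nat_lit 0) (nat_lit 22998450090) (nat_lit 336) (nat_lit 11488651019) (nat_lit 84) (nat_lit 15981719056) (nat_lit 24) (nat_lit 5) (nat_lit 28) (nat_lit 5) (nat_lit 25) (nat_lit 5) (nat_lit 394) (nat_lit 324) (nat_lit 146)))) (XT.nd (nat_lit 94) (nat_lit 0) (nat_lit 0) (XT.lf (nat_lit 0) (nat_lit 2444195732) (nat_lit 168) (nat_lit 25962099136) (nat_lit 252) (nat_lit 23313873281) (nat_lit 22) (nat_lit 5) (nat_lit 24) (nat_lit 5) (nat_lit 25) (nat_lit 5) (nat_lit 395) (nat_lit 324) (nat_lit 145)) (XT.nd (nat_lit 94) (nat_lit 0) (nat_lit 0) (XT.lf (nat_lit 0) (nat_lit 17048827912) (nat_lit 168) (nat_lit 17050396679) (nat_lit 252) (nat_lit 18907448274) (nat_lit 22) (nat_lit 5) (nat_lit 24) (nat_lit 5) (nat_lit 25) (nat_lit 5) (nat_lit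 396) (nat_lit 324) (nat_lit 144)) (XT.lf (nat_lit 0) (nat_lit 32102628340) (nat_lit 168) (nat_lit 7863605050) (nat_lit 252) (nat_lit 14366905760) (nat_lit 22) (nat_lit 5) (nat_lit 24) (nat_lit 5) (nat_lit 25) (nat_lit 5) (nat_lit 397) (nat_lit 324) (nat_lit 143))))) (XT.nd (nat_lit 282) (nat_lit 168) (nat_lit 0) (XT.nd (nat_lit 94) (nat_lit 252) (nat_lit 0) (XT.lf (nat_lit 0) (nat_lit 46028729974) (nat_lit 252) (nat_lit 8097114715) (nat_lit 84) (nat_lit 1574464579) (nat_lit 22) (nat_lit 5) (nat_lit 25) (nat_lit 5) (nat_lit 23) (nat_lit 5) (nat_lit 398) (nat_lit 324) (nat_lit 142)) (XT.nd (nat_lit 94) (nat_lit 84) (nat_lit 0) (XT.lf (nat_lit 0) (nat_lit 6521965740) (nat_lit 168) (nat_lit 45900052661) (nat_lit 252) (nat_lit 4683419915) (nat_lit 20) (nat_lit 5) (nat_lit 22) (nat_lit 5) (nat_lit 23) (nat_lit 5) (nat_lit 399) (nat_lit 324) (nat_lit 141)) (XT.lf (nat_lit 0) (nat_lit 533235172)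 (nat_lit 252) (nat_lit 36794479997) (nat_lit 84) (nat_lit 21223698106) (nat_lit 19) (nat_lit 5) (nat_lit 22) (nat_lit 5) (nat_lit 20) (nat_lit 5) (nat_lit 400) (nat_lit 324) (nat_lit 140)))) (XT.nd (nat_lit 94) (nat_lit 168) (nat_lit 0) (XT.lf (nat_lit 0) (nat_lit 5812125392) (nat_lit 252) (nat_lit 22629269941) (nat_lit 84) (nat_lit 31599405970) (nat_lit 19) (nat_lit 5) (nat_lit 22) (nat_lit 5) (nat_lit 20) (nat_lit 5) (nat_lit 401) (nat_lit 324) (nat_lit 139)) (XT.nd (nat_lit 94) (nat_lit 168) (nat_lit 0) (XT.lf (nat_lit 0) (nat_lit 11252531698) (nat_lit 252) (nat_lit 8028178841) (nat_lit 84) (nat_lit 42295720388) (nat_lit 19) (nat_lit 5) (nat_lit 22) (nat_lit 5) (nat_lit 20) (nat_lit 5) (nat_lit 402) (nat_lit 324) (nat_lit 138)) (XT.lf (nat_lit 0) (nat_lit 7166798057) (nat_lit 168) (nat_lit 9763822585) (nat_lit 252) (nat_lit 46226908912) (nat_lit 17) (nat_lit 5) (nat_lit 19) (nat_lit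 5) (nat_lit 20) (nat_lit 5) (nat_lit 403) (nat_lit 324) (nat_lit 137)))))) (XT.nd (nat_lit 564) (nat_lit 0) (nat_lit 0) (XT.nd (nat_lit 282) (nat_lit 168) (nat_lit 0) (XT.nd (nat_lit 94) (nat_lit 0) (nat_lit 0) (XT.lf (nat_lit 0) (nat_lit 22867817242) (nat_lit 252) (nat_lit 41786534074) (nat_lit 84) (nat_lit 130719511) (nat_lit 17) (nat_lit 5) (nat_lit 20) (nat_lit 5) (nat_lit 18) (nat_lit 5) (nat_lit 404) (nat_lit 324) (nat_lit 136)) (XT.nd (nat_lit 94) (nat_lit 0) (nat_lit 0) (XT.lf (nat_lit 0) (nat_lit 29086944437) (nat_lit 252) (nat_lit 27244940092) (nat_lit 84) (nat_lit 10128151304) (nat_lit 17) (nat_lit 5) (nat_lit 20) (nat_lit 5) (nat_lit 18) (nat_lit 5) (nat_lit 405) (nat_lit 324) (nat_lit 135)) (XT.lf (nat_lit 0) (nat_lit 35496940775) (nat_lit 252) (nat_lit 12255536933) (nat_lit 84) (nat_lit 20434510713) (nat_lit 17) (nat_lit 5) (nat_lit 20) (nat_lit 5) (nat_lit 18) (nat_lit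 5) (nat_lit 406) (nat_lit 324) (nat_lit 134)))) (XT.nd (nat_lit 94) (nat_lit 0) (nat_lit 0) (XT.lf (nat_lit 0) (nat_lit 3261356154) (nat_lit 168) (nat_lit 38874777947) (nat_lit 252) (nat_lit 27830401246) (nat_lit 15) (nat_lit 5) (nat_lit 17) (nat_lit 5) (nat_lit 18) (nat_lit 5) (nat_lit 407) (nat_lit 324) (nat_lit 133)) (XT.nd (nat_lit 94) (nat_lit 0) (nat_lit 0) (XT.lf (nat_lit 0) (nat_lit 19516222509) (nat_lit 168) (nat_lit 29591004348) (nat_lit 252) (nat_lit 22690116546) (nat_lit 15) (nat_lit 5) (nat_lit 17) (nat_lit 5) (nat_lit 18) (nat_lit 5) (nat_lit 408) (nat_lit 324) (nat_lit 132)) (XT.lf (nat_lit 0) (nat_lit 36272214393) (nat_lit 168) (nat_lit 20020426132) (nat_lit 252) (nat_lit 17392324932) (nat_lit 15) (nat_lit 5) (nat_lit 17) (nat_lit 5) (nat_lit 18) (nat_lit 5) (nat_lit 409) (nat_lit 324) (nat_lit 131))))) (XT.nd (nat_lit 46342) (nat_lit 0) (nat_lit 9408) (XT.nd (nat_lit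 94) (nat_lit 0) (nat_lit 0) (XT.lf (nat_lit 0) (nat_lit 53544950147) (nat_lit 168) (nat_lit 10154122516) (nat_lit 252) (nat_lit 11932088307) (nat_lit 15) (nat_lit 5) (nat_lit 17) (nat_lit 5) (nat_lit 18) (nat_lit 5) (nat_lit 410) (nat_lit 324) (nat_lit 130)) (XT.nd (nat_lit 46154) (nat_lit 0) (nat_lit 9408) (XT.lf (nat_lit 0) (nat_lit 71333596507) (nat_lit 252) (nat_lit 6287383897) (nat_lit 84) (nat_lit 16758339) (nat_lit 15) (nat_lit 5) (nat_lit 18) (nat_lit 5) (nat_lit 16) (nat_lit 4) (nat_lit 411) (nat_lit 324) (nat_lit 129)) (XT.lf (nat_lit 0) (nat_lit 5665248538) (nat_lit 1092) (nat_lit 431330715) (nat_lit 1092) (nat_lit 431330715) (nat_lit 127) (nat_lit 3) (nat_lit 140) (nat_lit 3) (nat_lit 140) (nat_lit 5) (nat_lit 325) (nat_lit 325) (nat_lit 214)))) (XT.nd (nat_lit 94) (nat_lit 0) (nat_lit 0) (XT.lf (nat_lit 84) (nat_lit 4273390898) (nat_lit 0) (nat_lit 7614103874) (nat_lit 1092)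 (nat_lit 1357528069) (nat_lit 128) (nat_lit 5) (nat_lit 127) (nat_lit 3) (nat_lit 140) (nat_lit 5) (nat_lit 326) (nat_lit 325) (nat_lit 213)) (XT.nd (nat_lit 94) (nat_lit 0) (nat_lit 84) (XT.lf (nat_lit 84) (nat_lit 9579735024) (nat_lit 0) (nat_lit 2877297747) (nat_lit 1092) (nat_lit 983258771) (nat_lit 128) (nat_lit 5) (nat_lit 127) (nat_lit 3) (nat_lit 140) (nat_lit 5) (nat_lit 327) (nat_lit 325) (nat_lit 212)) (XT.lf (nat_lit 84) (nat_lit 1409941362) (nat_lit 0) (nat_lit 11654919643) (nat_lit 1092) (nat_lit 576165257) (nat_lit 129) (nat_lit 5) (nat_lit 128) (nat_lit 5) (nat_lit 141) (nat_lit 5) (nat_lit 328) (nat_lit 325) (nat_lit 211))))))))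
noncomputable def xc169 : XT := (XT.nd (nat_lit 2256) (nat_lit 3696) (nat_lit 0) (XT.nd (nat_lit 1128) (nat_lit 2352) (nat_lit 0) (XT.nd (nat_lit 564) (nat_lit 0) (nat_lit 168) (XT.nd (nat_lit 282) (nat_lit 0) (nat_lit 84) (XT.nd (nat_lit 94) (nat_lit 1092) (nat_lit 0) (XT.lf (nat_lit 84) (nat_lit 6888184718) (nat_lit 0) (nat_lit 6859842745) (nat_lit 1092) (nat_lit 98255719) (nat_lit 129) (nat_lit 5) (nat_lit 128) (nat_lit 5) (nat_lit 141) (nat_lit 5) (nat_lit 329) (nat_lit 325) (nat_lit 210)) (XT.nd (nat_lit 94) (nat_lit 0) (nat_lit 84) (XT.lf (nat_lit 0) (nat_lit 373802804) (nat_lit 1092) (nat_lit 1533096603) (nat_lit 1176) (nat_lit 12151324403) (nat_lit 115) (nat_lit 5) (nat_lit 128) (nat_lit 5) (nat_lit 129) (nat_lit 5) (nat_lit 330) (nat_lit 325) (nat_lit 209)) (XT.lf (nat_lit 0) (nat_lit 919358521) (nat_lit 1092) (nat_lit 10172999952) (nat_lit 1176) (nat_lit 3182503278) (nat_lit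 116) (nat_lit 5) (nat_lit 129) (nat_lit 5) (nat_lit 130) (nat_lit 5) (nat_lit 331) (nat_lit 325) (nat_lit 208)))) (XT.nd (nat_lit 94) (nat_lit 0) (nat_lit 0) (XT.lf (nat_lit 0) (nat_lit 1505506308) (nat_lit 1092) (nat_lit 4581080606) (nat_lit 1176) (nat_lit 8410939424) (nat_lit 116) (nat_lit 5) (nat_lit 129) (nat_lit 5) (nat_lit 130) (nat_lit 5) (nat_lit 332) (nat_lit 325) (nat_lit 207)) (XT.nd (nat_lit 94) (nat_lit 0) (nat_lit 84) (XT.lf (nat_lit 84) (nat_lit 1200916320) (nat_lit 0) (nat_lit 909192786) (nat_lit 1176) (nat_lit 12617019202) (nat_lit 117) (nat_lit 5) (nat_lit 116) (nat_lit 5) (nat_lit 130) (nat_lit 5) (nat_lit 333) (nat_lit 325) (nat_lit 206)) (XT.lf (nat_lit 0) (nat_lit 2814380792) (nat_lit 1092) (nat_lit 7755341874) (nat_lit 1176) (nat_lit 4391658845) (nat_lit 117) (nat_lit 5) (nat_lit 130) (nat_lit 5) (nat_lit 131) (nat_lit 5) (nat_lit 334) (nat_lit 325) (nat_lit 205)))))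 (XT.nd (nat_lit 282) (nat_lit 0) (nat_lit 84) (XT.nd (nat_lit 94) (nat_lit 0) (nat_lit 84) (XT.lf (nat_lit 0) (nat_lit 3538810769) (nat_lit 1092) (nat_lit 1822463993) (nat_lit 1176) (nat_lit 9841714714) (nat_lit 117) (nat_lit 5) (nat_lit 130) (nat_lit 5) (nat_lit 131) (nat_lit 5) (nat_lit 335) (nat_lit 325) (nat_lit 204)) (XT.nd (nat_lit 94) (nat_lit 0) (nat_lit 0) (XT.lf (nat_lit 0) (nat_lit 4319018814) (nat_lit 1092) (nat_lit 11076553719) (nat_lit 1176) (nat_lit 55521593) (nat_lit 118) (nat_lit 5) (nat_lit 131) (nat_lit 5) (nat_lit 132) (nat_lit 5) (nat_lit 336) (nat_lit 325) (nat_lit 203)) (XT.lf (nat_lit 0) (nat_lit 5187099336) (nat_lit 1092) (nat_lit 4966720093) (nat_lit 1176) (nat_lit 5551134908) (nat_lit 118) (nat_lit 5) (nat_lit 131) (nat_lit 5) (nat_lit 132) (nat_lit 5) (nat_lit 337) (nat_lit 325) (nat_lit 202)))) (XT.nd (nat_lit 94) (nat_lit 0) (nat_lit 84) (XT.lf (nat_lit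 84) (nat_lit 1352316214) (nat_lit 0) (nat_lit 4733136378) (nat_lit 1176) (nat_lit 9881164818) (nat_lit 119) (nat_lit 5) (nat_lit 118) (nat_lit 5) (nat_lit 132) (nat_lit 5) (nat_lit 338) (nat_lit 325) (nat_lit 201)) (XT.nd (nat_lit 94) (nat_lit 0) (nat_lit 0) (XT.lf (nat_lit 0) (nat_lit 7062715470) (nat_lit 1092) (nat_lit 8279006244) (nat_lit 1176) (nat_lit 893123743) (nat_lit 119) (nat_lit 5) (nat_lit 132) (nat_lit 5) (nat_lit 133) (nat_lit 5) (nat_lit 339) (nat_lit 325) (nat_lit 200)) (XT.lf (nat_lit 0) (nat_lit 8109177533) (nat_lit 1092) (nat_lit 1803231392) (nat_lit 1176) (nat_lit 6597808831) (nat_lit 119) (nat_lit 5) (nat_lit 132) (nat_lit 5) (nat_lit 133) (nat_lit 5) (nat_lit 340) (nat_lit 325) (nat_lit 199)))))) (XT.nd (nat_lit 564) (nat_lit 1176) (nat_lit 0) (XT.nd (nat_lit 282) (nat_lit 504) (nat_lit 0) (XT.nd (nat_lit 94) (nat_lit 1008) (nat_lit 0) (XT.lf (nat_lit 84) (nat_lit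 4966067961) (nat_lit 0) (nat_lit 4262056942) (nat_lit 1176) (nat_lit 7564794446) (nat_lit 120) (nat_lit 5) (nat_lit 119) (nat_lit 5) (nat_lit 133) (nat_lit 5) (nat_lit 341) (nat_lit 325) (nat_lit 198)) (XT.nd (nat_lit 94) (nat_lit 1092) (nat_lit 0) (XT.lf (nat_lit 0) (nat_lit 10407288478) (nat_lit 1092) (nat_lit 5123596723) (nat_lit 84) (nat_lit 1552741220) (nat_lit 120) (nat_lit 5) (nat_lit 133) (nat_lit 5) (nat_lit 121) (nat_lit 5) (nat_lit 342) (nat_lit 325) (nat_lit 197)) (XT.lf (nat_lit 0) (nat_lit 1772265338) (nat_lit 1092) (nat_lit 9903187781) (nat_lit 1176) (nat_lit 5706298563) (nat_lit 107) (nat_lit 5) (nat_lit 120) (nat_lit 5) (nat_lit 121) (nat_lit 5) (nat_lit 343) (nat_lit 325) (nat_lit 196)))) (XT.nd (nat_lit 94) (nat_lit 504) (nat_lit 0) (XT.lf (nat_lit 0) (nat_lit 8983280811) (nat_lit 1092) (nat_lit 4044595542) (nat_lit 1176) (nat_lit 4659880323) (nat_lit 107) (nat_lit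 5) (nat_lit 120) (nat_lit 5) (nat_lit 121) (nat_lit 5) (nat_lit 344) (nat_lit 325) (nat_lit 195)) (XT.nd (nat_lit 94) (nat_lit 504) (nat_lit 0) (XT.lf (nat_lit 0) (nat_lit 14433756187) (nat_lit 1176) (nat_lit 1612524422) (nat_lit 84) (nat_lit 1956639963) (nat_lit 107) (nat_lit 5) (nat_lit 121) (nat_lit 5) (nat_lit 108) (nat_lit 5) (nat_lit 345) (nat_lit 325) (nat_lit 194)) (XT.lf (nat_lit 0) (nat_lit 5767005520) (nat_lit 504) (nat_lit 10206772152) (nat_lit 588) (nat_lit 2351298852) (nat_lit 101) (nat_lit 5) (nat_lit 107) (nat_lit 5) (nat_lit 108) (nat_lit 5) (nat_lit 346) (nat_lit 325) (nat_lit 193))))) (XT.nd (nat_lit 282) (nat_lit 504) (nat_lit 0) (XT.nd (nat_lit 94) (nat_lit 672) (nat_lit 0) (XT.lf (nat_lit 0) (nat_lit 13402459813) (nat_lit 504) (nat_lit 4168066077) (nat_lit 588) (nat_lit 1086443285) (nat_lit 101) (nat_lit 5) (nat_lit 107) (nat_lit 5) (nat_lit 108) (nat_lit 5) (nat_lit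 347) (nat_lit 325) (nat_lit 192)) (XT.nd (nat_lit 94) (nat_lit 0) (nat_lit 0) (XT.lf (nat_lit 0) (nat_lit 249146005) (nat_lit 672) (nat_lit 16706412225) (nat_lit 84) (nat_lit 2042438951) (nat_lit 93) (nat_lit 5) (nat_lit 101) (nat_lit 5) (nat_lit 94) (nat_lit 5) (nat_lit 348) (nat_lit 325) (nat_lit 191)) (XT.lf (nat_lit 0) (nat_lit 1694062395) (nat_lit 672) (nat_lit 9226393205) (nat_lit 84) (nat_lit 8426017688) (nat_lit 93) (nat_lit 5) (nat_lit 101) (nat_lit 5) (nat_lit 94) (nat_lit 5) (nat_lit 349) (nat_lit 325) (nat_lit 190)))) (XT.nd (nat_lit 94) (nat_lit 504) (nat_lit 0) (XT.lf (nat_lit 0) (nat_lit 3176453106) (nat_lit 672) (nat_lit 1521472457) (nat_lit 84) (nat_lit 15008078619) (nat_lit 93) (nat_lit 5) (nat_lit 101) (nat_lit 5) (nat_lit 94) (nat_lit 5) (nat_lit 350) (nat_lit 325) (nat_lit 189)) (XT.nd (nat_lit 94) (nat_lit 0) (nat_lit 0) (XT.lf (nat_lit 0) (nat_lit 4780356785) (nat_lit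 588) (nat_lit 13545168584) (nat_lit 84) (nat_lit 1748837246) (nat_lit 87) (nat_lit 5) (nat_lit 94) (nat_lit 5) (nat_lit 88) (nat_lit 5) (nat_lit 351) (nat_lit 325) (nat_lit 188)) (XT.lf (nat_lit 0) (nat_lit 6491125077) (nat_lit 588) (nat_lit 5647115537) (nat_lit 84) (nat_lit 8314151769) (nat_lit 87) (nat_lit 5) (nat_lit 94) (nat_lit 5) (nat_lit 88) (nat_lit 5) (nat_lit 352) (nat_lit 325) (nat_lit 187))))))) (XT.nd (nat_lit 1128) (nat_lit 1428) (nat_lit 0) (XT.nd (nat_lit 564) (nat_lit 924) (nat_lit 0) (XT.nd (nat_lit 282) (nat_lit 840) (nat_lit 0) (XT.nd (nat_lit 94) (nat_lit 0) (nat_lit 0) (XT.lf (nat_lit 0) (nat_lit 2540223598) (nat_lit 504) (nat_lit 5733163241) (nat_lit 588) (nat_lit 12568204948) (nat_lit 81) (nat_lit 5) (nat_lit 87) (nat_lit 5) (nat_lit 88) (nat_lit 5) (nat_lit 353) (nat_lit 325) (nat_lit 186)) (XT.nd (nat_lit 94) (nat_lit 0) (nat_lit 0) (XT.lf (nat_lit 0) (nat_lit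 10172477303) (nat_lit 588) (nat_lit 10156072600) (nat_lit 84) (nat_lit 912419806) (nat_lit 81) (nat_lit 5) (nat_lit 88) (nat_lit 5) (nat_lit 82) (nat_lit 5) (nat_lit 354) (nat_lit 325) (nat_lit 185)) (XT.lf (nat_lit 0) (nat_lit 12182671140) (nat_lit 588) (nat_lit 1823593987) (nat_lit 84) (nat_lit 7644865642) (nat_lit 81) (nat_lit 5) (nat_lit 88) (nat_lit 5) (nat_lit 82) (nat_lit 5) (nat_lit 355) (nat_lit 325) (nat_lit 184)))) (XT.nd (nat_lit 94) (nat_lit 420) (nat_lit 0) (XT.lf (nat_lit 0) (nat_lit 6899722102) (nat_lit 420) (nat_lit 7417692367) (nat_lit 504) (nat_lit 7754684067) (nat_lit 76) (nat_lit 5) (nat_lit 81) (nat_lit 5) (nat_lit 82) (nat_lit 5) (nat_lit 356) (nat_lit 325) (nat_lit 183)) (XT.nd (nat_lit 94) (nat_lit 420) (nat_lit 0) (XT.lf (nat_lit 0) (nat_lit 15925702481) (nat_lit 420) (nat_lit 605577465) (nat_lit 504) (nat_lit 5974455384) (nat_lit 76) (nat_lit 5) (nat_lit 81)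 (nat_lit 5) (nat_lit 82) (nat_lit 5) (nat_lit 357) (nat_lit 325) (nat_lit 182)) (XT.lf (nat_lit 0) (nat_lit 2253997478) (nat_lit 420) (nat_lit 16639892677) (nat_lit 504) (nat_lit 4056460858) (nat_lit 71) (nat_lit 5) (nat_lit 76) (nat_lit 5) (nat_lit 77) (nat_lit 5) (nat_lit 358) (nat_lit 325) (nat_lit 181))))) (XT.nd (nat_lit 282) (nat_lit 420) (nat_lit 0) (XT.nd (nat_lit 94) (nat_lit 504) (nat_lit 0) (XT.lf (nat_lit 0) (nat_lit 11488695613) (nat_lit 420) (nat_lit 9910063707) (nat_lit 504) (nat_lit 2007870023) (nat_lit 71) (nat_lit 5) (nat_lit 76) (nat_lit 5) (nat_lit 77) (nat_lit 5) (nat_lit 359) (nat_lit 325) (nat_lit 180)) (XT.nd (nat_lit 94) (nat_lit 420) (nat_lit 0) (XT.lf (nat_lit 0) (nat_lit 96430830) (nat_lit 504) (nat_lit 2874720144) (nat_lit 84) (nat_lit 20906063847) (nat_lit 70) (nat_lit 5) (nat_lit 76) (nat_lit 5) (nat_lit 71) (nat_lit 5) (nat_lit 360) (nat_lit 325) (nat_lit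 179)) (XT.lf (nat_lit 0) (nat_lit 2326114343) (nat_lit 504) (nat_lit 17848051953) (nat_lit 84) (nat_lit 4184445407) (nat_lit 65) (nat_lit 5) (nat_lit 71) (nat_lit 5) (nat_lit 66) (nat_lit 5) (nat_lit 361) (nat_lit 325) (nat_lit 178)))) (XT.nd (nat_lit 94) (nat_lit 420) (nat_lit 0) (XT.lf (nat_lit 0) (nat_lit 4680193745) (nat_lit 504) (nat_lit 8643201091) (nat_lit 84) (nat_lit 11529840426) (nat_lit 65) (nat_lit 5) (nat_lit 71) (nat_lit 5) (nat_lit 66) (nat_lit 5) (nat_lit 362) (nat_lit 325) (nat_lit 177)) (XT.nd (nat_lit 94) (nat_lit 0) (nat_lit 0) (XT.lf (nat_lit 0) (nat_lit 858248789) (nat_lit 420) (nat_lit 6252252618) (nat_lit 504) (nat_lit 18252606353) (nat_lit 60) (nat_lit 5) (nat_lit 65) (nat_lit 5) (nat_lit 66) (nat_lit 5) (nat_lit 363) (nat_lit 325) (nat_lit 176)) (XT.lf (nat_lit 0) (nat_lit 9712415264) (nat_lit 504) (nat_lit 15065885206) (nat_lit 84) (nat_lit 1107517485) (nat_lit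 60) (nat_lit 5) (nat_lit 66) (nat_lit 5) (nat_lit 61) (nat_lit 5) (nat_lit 364) (nat_lit 325) (nat_lit 175)))))) (XT.nd (nat_lit 564) (nat_lit 756) (nat_lit 0) (XT.nd (nat_lit 282) (nat_lit 336) (nat_lit 0) (XT.nd (nat_lit 94) (nat_lit 336) (nat_lit 0) (XT.lf (nat_lit 0) (nat_lit 12453918401) (nat_lit 504) (nat_lit 5404214014) (nat_lit 84) (nat_lit 8564788365) (nat_lit 60) (nat_lit 5) (nat_lit 66) (nat_lit 5) (nat_lit 61) (nat_lit 5) (nat_lit 365) (nat_lit 325) (nat_lit 174)) (XT.nd (nat_lit 94) (nat_lit 0) (nat_lit 0) (XT.lf (nat_lit 0) (nat_lit 4644765081) (nat_lit 336) (nat_lit 10676854631) (nat_lit 420) (nat_lit 11653791496) (nat_lit 56) (nat_lit 5) (nat_lit 60) (nat_lit 5) (nat_lit 61) (nat_lit 5) (nat_lit 366) (nat_lit 325) (nat_lit 173)) (XT.lf (nat_lit 0) (nat_lit 15114102031) (nat_lit 336) (nat_lit 3215751046) (nat_lit 420) (nat_lit 9213589656) (nat_lit 56) (nat_lit 5) (nat_lit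 60) (nat_lit 5) (nat_lit 61) (nat_lit 5) (nat_lit 367) (nat_lit 325) (nat_lit 172)))) (XT.nd (nat_lit 94) (nat_lit 336) (nat_lit 0) (XT.lf (nat_lit 0) (nat_lit 21471109407) (nat_lit 420) (nat_lit 2271207024) (nat_lit 84) (nat_lit 4385548095) (nat_lit 56) (nat_lit 5) (nat_lit 61) (nat_lit 5) (nat_lit 57) (nat_lit 5) (nat_lit 368) (nat_lit 325) (nat_lit 171)) (XT.nd (nat_lit 94) (nat_lit 0) (nat_lit 0) (XT.lf (nat_lit 0) (nat_lit 8331263791) (nat_lit 336) (nat_lit 16489516017) (nat_lit 420) (nat_lit 3906195161) (nat_lit 52) (nat_lit 5) (nat_lit 56) (nat_lit 5) (nat_lit 57) (nat_lit 5) (nat_lit 369) (nat_lit 325) (nat_lit 170)) (XT.lf (nat_lit 0) (nat_lit 19305083767) (nat_lit 336) (nat_lit 8988492391) (nat_lit 420) (nat_lit 1050497061) (nat_lit 52) (nat_lit 5) (nat_lit 56) (nat_lit 5) (nat_lit 57) (nat_lit 5) (nat_lit 370) (nat_lit 325) (nat_lit 169))))) (XT.nd (nat_lit 282) (nat_lit 336)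 (nat_lit 0) (XT.nd (nat_lit 94) (nat_lit 0) (nat_lit 0) (XT.lf (nat_lit 0) (nat_lit 627228918) (nat_lit 336) (nat_lit 1230222447) (nat_lit 420) (nat_lit 28122222034) (nat_lit 47) (nat_lit 5) (nat_lit 51) (nat_lit 5) (nat_lit 52) (nat_lit 5) (nat_lit 371) (nat_lit 325) (nat_lit 168)) (XT.nd (nat_lit 94) (nat_lit 0) (nat_lit 0) (XT.lf (nat_lit 0) (nat_lit 5002450497) (nat_lit 420) (nat_lit 18879259877) (nat_lit 84) (nat_lit 6747715342) (nat_lit 47) (nat_lit 5) (nat_lit 52) (nat_lit 5) (nat_lit 48) (nat_lit 5) (nat_lit 372) (nat_lit 325) (nat_lit 167)) (XT.lf (nat_lit 0) (nat_lit 8253378026) (nat_lit 420) (nat_lit 8099315416) (nat_lit 84) (nat_lit 14946377208) (nat_lit 47) (nat_lit 5) (nat_lit 52) (nat_lit 5) (nat_lit 48) (nat_lit 5) (nat_lit 373) (nat_lit 325) (nat_lit 166)))) (XT.nd (nat_lit 94) (nat_lit 0) (nat_lit 0) (XT.lf (nat_lit 0) (nat_lit 3071525286) (nat_lit 336) (nat_lit 8560004822)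 (nat_lit 420) (nat_lit 20357136027) (nat_lit 43) (nat_lit 5) (nat_lit 47) (nat_lit 5) (nat_lit 48) (nat_lit 5) (nat_lit 374) (nat_lit 325) (nat_lit 165)) (XT.nd (nat_lit 94) (nat_lit 0) (nat_lit 0) (XT.lf (nat_lit 0) (nat_lit 14755249161) (nat_lit 336) (nat_lit 439742139) (nat_lit 420) (nat_lit 17502160639) (nat_lit 43) (nat_lit 5) (nat_lit 47) (nat_lit 5) (nat_lit 48) (nat_lit 5) (nat_lit 375) (nat_lit 325) (nat_lit 164)) (XT.lf (nat_lit 0) (nat_lit 18943762550) (nat_lit 420) (nat_lit 6710199988) (nat_lit 84) (nat_lit 7771328841) (nat_lit 43) (nat_lit 5) (nat_lit 48) (nat_lit 5) (nat_lit 44) (nat_lit 5) (nat_lit 376) (nat_lit 325) (nat_lit 163))))))))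
noncomputable def xc170 : XT := (XT.nd (nat_lit 2256) (nat_lit 420) (nat_lit 0) (XT.nd (nat_lit 1128) (nat_lit 840) (nat_lit 0) (XT.nd (nat_lit 564) (nat_lit 504) (nat_lit 0) (XT.nd (nat_lit 282) (nat_lit 336) (nat_lit 0) (XT.nd (nat_lit 94) (nat_lit 0) (nat_lit 0) (XT.lf (nat_lit 0) (nat_lit 4960198949) (nat_lit 252) (nat_lit 17898519593) (nat_lit 336) (nat_lit 11315745826) (nat_lit 40) (nat_lit 5) (nat_lit 43) (nat_lit 5) (nat_lit 44) (nat_lit 5) (nat_lit 377) (nat_lit 325) (nat_lit 162)) (XT.nd (nat_lit 94) (nat_lit 0) (nat_lit 0) (XT.lf (nat_lit 0) (nat_lit 17129756775) (nat_lit 252) (nat_lit 9831655433) (nat_lit 336) (nat_lit 7983401985) (nat_lit 40) (nat_lit 5) (nat_lit 43) (nat_lit 5) (nat_lit 44) (nat_lit 5) (nat_lit 378) (nat_lit 325) (nat_lit 161)) (XT.lf (nat_lit 0) (nat_lit 29671841317) (nat_lit 252) (nat_lit 1515891624) (nat_lit 336) (nat_lit 4551431940) (nat_lit 40) (nat_lit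 5) (nat_lit 43) (nat_lit 5) (nat_lit 44) (nat_lit 5) (nat_lit 379) (nat_lit 325) (nat_lit 160)))) (XT.nd (nat_lit 94) (nat_lit 84) (nat_lit 0) (XT.lf (nat_lit 0) (nat_lit 6092637753) (nat_lit 252) (nat_lit 29579423663) (nat_lit 336) (nat_lit 882151751) (nat_lit 37) (nat_lit 5) (nat_lit 40) (nat_lit 5) (nat_lit 41) (nat_lit 5) (nat_lit 380) (nat_lit 325) (nat_lit 159)) (XT.nd (nat_lit 94) (nat_lit 0) (nat_lit 0) (XT.lf (nat_lit 0) (nat_lit 2918465457) (nat_lit 336) (nat_lit 18684036304) (nat_lit 84) (nat_lit 15788785912) (nat_lit 36) (nat_lit 5) (nat_lit 40) (nat_lit 5) (nat_lit 37) (nat_lit 5) (nat_lit 381) (nat_lit 325) (nat_lit 158)) (XT.lf (nat_lit 0) (nat_lit 6815234449) (nat_lit 336) (nat_lit 6554998518) (nat_lit 84) (nat_lit 24883911107) (nat_lit 36) (nat_lit 5) (nat_lit 40) (nat_lit 5) (nat_lit 37) (nat_lit 5) (nat_lit 382) (nat_lit 325) (nat_lit 157))))) (XT.nd (nat_lit 282)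 (nat_lit 252) (nat_lit 0) (XT.nd (nat_lit 94) (nat_lit 0) (nat_lit 0) (XT.lf (nat_lit 0) (nat_lit 6067848149) (nat_lit 252) (nat_lit 4821906466) (nat_lit 336) (nat_lit 28252237300) (nat_lit 33) (nat_lit 5) (nat_lit 36) (nat_lit 5) (nat_lit 37) (nat_lit 5) (nat_lit 383) (nat_lit 325) (nat_lit 156)) (XT.nd (nat_lit 94) (nat_lit 0) (nat_lit 0) (XT.lf (nat_lit 0) (nat_lit 15196100156) (nat_lit 336) (nat_lit 20879066426) (nat_lit 84) (nat_lit 3978933617) (nat_lit 33) (nat_lit 5) (nat_lit 37) (nat_lit 5) (nat_lit 34) (nat_lit 5) (nat_lit 384) (nat_lit 325) (nat_lit 155)) (XT.lf (nat_lit 0) (nat_lit 19682154768) (nat_lit 336) (nat_lit 8359618167) (nat_lit 84) (nat_lit 12951286211) (nat_lit 33) (nat_lit 5) (nat_lit 37) (nat_lit 5) (nat_lit 34) (nat_lit 5) (nat_lit 385) (nat_lit 325) (nat_lit 154)))) (XT.nd (nat_lit 94) (nat_lit 0) (nat_lit 0) (XT.lf (nat_lit 0) (nat_lit 4637132236) (nat_lit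 252) (nat_lit 19713134704) (nat_lit 336) (nat_lit 17609533845) (nat_lit 30) (nat_lit 5) (nat_lit 33) (nat_lit 5) (nat_lit 34) (nat_lit 5) (nat_lit 386) (nat_lit 325) (nat_lit 153)) (XT.nd (nat_lit 94) (nat_lit 0) (nat_lit 0) (XT.lf (nat_lit 0) (nat_lit 18209815595) (nat_lit 252) (nat_lit 11037570217) (nat_lit 336) (nat_lit 13706519871) (nat_lit 30) (nat_lit 5) (nat_lit 33) (nat_lit 5) (nat_lit 34) (nat_lit 5) (nat_lit 387) (nat_lit 325) (nat_lit 152)) (XT.lf (nat_lit 0) (nat_lit 32199192176) (nat_lit 252) (nat_lit 2094250209) (nat_lit 336) (nat_lit 9685481707) (nat_lit 30) (nat_lit 5) (nat_lit 33) (nat_lit 5) (nat_lit 34) (nat_lit 5) (nat_lit 388) (nat_lit 325) (nat_lit 151)))))) (XT.nd (nat_lit 564) (nat_lit 336) (nat_lit 0) (XT.nd (nat_lit 282) (nat_lit 252) (nat_lit 0) (XT.nd (nat_lit 94) (nat_lit 84) (nat_lit 0) (XT.lf (nat_lit 0) (nat_lit 1542893486) (nat_lit 168) (nat_lit 38036234806)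 (nat_lit 252) (nat_lit 5454017513) (nat_lit 28) (nat_lit 5) (nat_lit 30) (nat_lit 5) (nat_lit 31) (nat_lit 5) (nat_lit 389) (nat_lit 325) (nat_lit 150)) (XT.nd (nat_lit 94) (nat_lit 84) (nat_lit 0) (XT.lf (nat_lit 0) (nat_lit 15502405592) (nat_lit 168) (nat_lit 29667670151) (nat_lit 252) (nat_lit 945595856) (nat_lit 28) (nat_lit 5) (nat_lit 30) (nat_lit 5) (nat_lit 31) (nat_lit 5) (nat_lit 390) (nat_lit 325) (nat_lit 149)) (XT.lf (nat_lit 0) (nat_lit 3625283674) (nat_lit 252) (nat_lit 17377744706) (nat_lit 84) (nat_lit 26227678883) (nat_lit 27) (nat_lit 5) (nat_lit 30) (nat_lit 5) (nat_lit 28) (nat_lit 5) (nat_lit 391) (nat_lit 325) (nat_lit 148)))) (XT.nd (nat_lit 94) (nat_lit 252) (nat_lit 0) (XT.lf (nat_lit 0) (nat_lit 8315595209) (nat_lit 252) (nat_lit 3745397022) (nat_lit 84) (nat_lit 36319104484) (nat_lit 27) (nat_lit 5) (nat_lit 30) (nat_lit 5) (nat_lit 28) (nat_lit 5) (nat_lit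 392) (nat_lit 325) (nat_lit 147)) (XT.nd (nat_lit 94) (nat_lit 0) (nat_lit 0) (XT.lf (nat_lit 0) (nat_lit 10517773952) (nat_lit 252) (nat_lit 2735325927) (nat_lit 336) (nat_lit 36308867758) (nat_lit 24) (nat_lit 5) (nat_lit 27) (nat_lit 5) (nat_lit 28) (nat_lit 5) (nat_lit 393) (nat_lit 325) (nat_lit 146)) (XT.lf (nat_lit 0) (nat_lit 18448890898) (nat_lit 336) (nat_lit 25549129544) (nat_lit 84) (nat_lit 6779199992) (nat_lit 24) (nat_lit 5) (nat_lit 28) (nat_lit 5) (nat_lit 25) (nat_lit 5) (nat_lit 394) (nat_lit 325) (nat_lit 145))))) (XT.nd (nat_lit 282) (nat_lit 168) (nat_lit 0) (XT.nd (nat_lit 94) (nat_lit 168) (nat_lit 0) (XT.lf (nat_lit 0) (nat_lit 23831287756) (nat_lit 336) (nat_lit 11667306283) (nat_lit 84) (nat_lit 16530766043) (nat_lit 24) (nat_lit 5) (nat_lit 28) (nat_lit 5) (nat_lit 25) (nat_lit 5) (nat_lit 395) (nat_lit 325) (nat_lit 144)) (XT.nd (nat_lit 94) (nat_lit 0) (nat_lit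 0) (XT.lf (nat_lit 0) (nat_lit 2695661761) (nat_lit 168) (nat_lit 26709252176) (nat_lit 252) (nat_lit 23914651962) (nat_lit 22) (nat_lit 5) (nat_lit 24) (nat_lit 5) (nat_lit 25) (nat_lit 5) (nat_lit 396) (nat_lit 325) (nat_lit 143)) (XT.lf (nat_lit 0) (nat_lit 17747754731) (nat_lit 168) (nat_lit 17523021019) (nat_lit 252) (nat_lit 19375294602) (nat_lit 22) (nat_lit 5) (nat_lit 24) (nat_lit 5) (nat_lit 25) (nat_lit 5) (nat_lit 397) (nat_lit 325) (nat_lit 142)))) (XT.nd (nat_lit 94) (nat_lit 168) (nat_lit 0) (XT.lf (nat_lit 0) (nat_lit 33263099008) (nat_lit 168) (nat_lit 8053120787) (nat_lit 252) (nat_lit 14697551837) (nat_lit 22) (nat_lit 5) (nat_lit 24) (nat_lit 5) (nat_lit 25) (nat_lit 5) (nat_lit 398) (nat_lit 325) (nat_lit 141)) (XT.nd (nat_lit 94) (nat_lit 168) (nat_lit 0) (XT.lf (nat_lit 0) (nat_lit 47563837281) (nat_lit 252) (nat_lit 8184744287) (nat_lit 84) (nat_lit 1674837368)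 (nat_lit 22) (nat_lit 5) (nat_lit 25) (nat_lit 5) (nat_lit 23) (nat_lit 5) (nat_lit 399) (nat_lit 325) (nat_lit 140)) (XT.lf (nat_lit 0) (nat_lit 6885873577) (nat_lit 168) (nat_lit 47267794576) (nat_lit 252) (nat_lit 4718497338) (nat_lit 20) (nat_lit 5) (nat_lit 22) (nat_lit 5) (nat_lit 23) (nat_lit 5) (nat_lit 400) (nat_lit 325) (nat_lit 139))))))) (XT.nd (nat_lit 47282) (nat_lit 0) (nat_lit 8400) (XT.nd (nat_lit 564) (nat_lit 168) (nat_lit 0) (XT.nd (nat_lit 282) (nat_lit 168) (nat_lit 0) (XT.nd (nat_lit 94) (nat_lit 0) (nat_lit 0) (XT.lf (nat_lit 0) (nat_lit 654411583) (nat_lit 252) (nat_lit 37775869284) (nat_lit 84) (nat_lit 21932758447) (nat_lit 19) (nat_lit 5) (nat_lit 22) (nat_lit 5) (nat_lit 20) (nat_lit 5) (nat_lit 401) (nat_lit 325) (nat_lit 138)) (XT.nd (nat_lit 94) (nat_lit 0) (nat_lit 0) (XT.lf (nat_lit 0) (nat_lit 6093800912) (nat_lit 252) (nat_lit 23176325715) (nat_lit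 84) (nat_lit 32628576012) (nat_lit 19) (nat_lit 5) (nat_lit 22) (nat_lit 5) (nat_lit 20) (nat_lit 5) (nat_lit 402) (nat_lit 325) (nat_lit 137)) (XT.lf (nat_lit 0) (nat_lit 11699807933) (nat_lit 252) (nat_lit 8127244825) (nat_lit 84) (nat_lit 43654985156) (nat_lit 19) (nat_lit 5) (nat_lit 22) (nat_lit 5) (nat_lit 20) (nat_lit 5) (nat_lit 403) (nat_lit 325) (nat_lit 136)))) (XT.nd (nat_lit 94) (nat_lit 0) (nat_lit 0) (XT.lf (nat_lit 0) (nat_lit 7537259689) (nat_lit 168) (nat_lit 10015168892) (nat_lit 252) (nat_lit 47559774507) (nat_lit 17) (nat_lit 5) (nat_lit 19) (nat_lit 5) (nat_lit 20) (nat_lit 5) (nat_lit 404) (nat_lit 325) (nat_lit 135)) (XT.nd (nat_lit 94) (nat_lit 0) (nat_lit 0) (XT.lf (nat_lit 0) (nat_lit 23671256843) (nat_lit 252) (nat_lit 42935465076) (nat_lit 84) (nat_lit 183557426) (nat_lit 17) (nat_lit 5) (nat_lit 20) (nat_lit 5) (nat_lit 18) (nat_lit 5) (nat_lit 405) (nat_lit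 325) (nat_lit 134)) (XT.lf (nat_lit 0) (nat_lit 30080334444) (nat_lit 252) (nat_lit 27947485170) (nat_lit 84) (nat_lit 10489442724) (nat_lit 17) (nat_lit 5) (nat_lit 20) (nat_lit 5) (nat_lit 18) (nat_lit 5) (nat_lit 406) (nat_lit 325) (nat_lit 133))))) (XT.nd (nat_lit 282) (nat_lit 0) (nat_lit 0) (XT.nd (nat_lit 94) (nat_lit 168) (nat_lit 0) (XT.lf (nat_lit 0) (nat_lit 36686283601) (nat_lit 252) (nat_lit 12497681600) (nat_lit 84) (nat_lit 21113876499) (nat_lit 17) (nat_lit 5) (nat_lit 20) (nat_lit 5) (nat_lit 18) (nat_lit 5) (nat_lit 407) (nat_lit 325) (nat_lit 132)) (XT.nd (nat_lit 94) (nat_lit 0) (nat_lit 0) (XT.lf (nat_lit 0) (nat_lit 3498840305) (nat_lit 168) (nat_lit 40031130375) (nat_lit 252) (nat_lit 28602630462) (nat_lit 15) (nat_lit 5) (nat_lit 17) (nat_lit 5) (nat_lit 18) (nat_lit 5) (nat_lit 408) (nat_lit 325) (nat_lit 131)) (XT.lf (nat_lit 0) (nat_lit 20253506793) (nat_lit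 168) (nat_lit 30461026076) (nat_lit 252) (nat_lit 23305718479) (nat_lit 15) (nat_lit 5) (nat_lit 17) (nat_lit 5) (nat_lit 18) (nat_lit 5) (nat_lit 409) (nat_lit 325) (nat_lit 130)))) (XT.nd (nat_lit 94) (nat_lit 0) (nat_lit 0) (XT.lf (nat_lit 0) (nat_lit 37524957003) (nat_lit 168) (nat_lit 20595182129) (nat_lit 252) (nat_lit 17846335036) (nat_lit 15) (nat_lit 5) (nat_lit 17) (nat_lit 5) (nat_lit 18) (nat_lit 5) (nat_lit 410) (nat_lit 325) (nat_lit 129)) (XT.nd (nat_lit 46248) (nat_lit 0) (nat_lit 9408) (XT.lf (nat_lit 0) (nat_lit 55329289735) (nat_lit 168) (nat_lit 10424402533) (nat_lit 252) (nat_lit 12219391416) (nat_lit 15) (nat_lit 5) (nat_lit 17) (nat_lit 5) (nat_lit 18) (nat_lit 5) (nat_lit 411) (nat_lit 325) (nat_lit 128)) (XT.lf (nat_lit 0) (nat_lit 6176490920) (nat_lit 1092) (nat_lit 271026828) (nat_lit 1092) (nat_lit 271026828) (nat_lit 127) (nat_lit 3) (nat_lit 140) (nat_lit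 3) (nat_lit 140) (nat_lit 5) (nat_lit 326) (nat_lit 326) (nat_lit 212)))))) (XT.nd (nat_lit 564) (nat_lit 0) (nat_lit 84) (XT.nd (nat_lit 282) (nat_lit 0) (nat_lit 0) (XT.nd (nat_lit 94) (nat_lit 1008) (nat_lit 0) (XT.lf (nat_lit 84) (nat_lit 4749699686) (nat_lit 0) (nat_lit 8160774898) (nat_lit 1092) (nat_lit 722282453) (nat_lit 128) (nat_lit 5) (nat_lit 127) (nat_lit 3) (nat_lit 140) (nat_lit 5) (nat_lit 327) (nat_lit 326) (nat_lit 211)) (XT.nd (nat_lit 94) (nat_lit 1008) (nat_lit 0) (XT.lf (nat_lit 84) (nat_lit 10210202126) (nat_lit 0) (nat_lit 3267787677) (nat_lit 1092) (nat_lit 356776664) (nat_lit 128) (nat_lit 5) (nat_lit 127) (nat_lit 3) (nat_lit 140) (nat_lit 5) (nat_lit 328) (nat_lit 326) (nat_lit 210)) (XT.lf (nat_lit 0) (nat_lit 42942486) (nat_lit 1092) (nat_lit 12234129384) (nat_lit 1176) (nat_lit 1765286034) (nat_lit 115) (nat_lit 5) (nat_lit 128) (nat_lit 5) (nat_lit 129)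 (nat_lit 5) (nat_lit 329) (nat_lit 326) (nat_lit 209)))) (XT.nd (nat_lit 94) (nat_lit 0) (nat_lit 0) (XT.lf (nat_lit 0) (nat_lit 506947463) (nat_lit 1092) (nat_lit 6813700185) (nat_lit 1176) (nat_lit 6933831776) (nat_lit 115) (nat_lit 5) (nat_lit 128) (nat_lit 5) (nat_lit 129) (nat_lit 5) (nat_lit 330) (nat_lit 326) (nat_lit 208)) (XT.nd (nat_lit 94) (nat_lit 0) (nat_lit 84) (XT.lf (nat_lit 0) (nat_lit 973371397) (nat_lit 1092) (nat_lit 1232325404) (nat_lit 1176) (nat_lit 12267895778) (nat_lit 115) (nat_lit 5) (nat_lit 128) (nat_lit 5) (nat_lit 129) (nat_lit 5) (nat_lit 331) (nat_lit 326) (nat_lit 207)) (XT.lf (nat_lit 0) (nat_lit 1519308952) (nat_lit 1092) (nat_lit 10121393013) (nat_lit 1176) (nat_lit 3056823185) (nat_lit 116) (nat_lit 5) (nat_lit 129) (nat_lit 5) (nat_lit 130) (nat_lit 5) (nat_lit 332) (nat_lit 326) (nat_lit 206))))) (XT.nd (nat_lit 282) (nat_lit 0) (nat_lit 84) (XT.nd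 (nat_lit 94) (nat_lit 0) (nat_lit 0) (XT.lf (nat_lit 0) (nat_lit 2106445013) (nat_lit 1092) (nat_lit 4367158181) (nat_lit 1176) (nat_lit 8454086215) (nat_lit 116) (nat_lit 5) (nat_lit 129) (nat_lit 5) (nat_lit 130) (nat_lit 5) (nat_lit 333) (nat_lit 326) (nat_lit 205)) (XT.nd (nat_lit 94) (nat_lit 0) (nat_lit 84) (XT.lf (nat_lit 84) (nat_lit 1590477117) (nat_lit 0) (nat_lit 1126142888) (nat_lit 1176) (nat_lit 12448259798) (nat_lit 117) (nat_lit 5) (nat_lit 116) (nat_lit 5) (nat_lit 130) (nat_lit 5) (nat_lit 334) (nat_lit 326) (nat_lit 204)) (XT.lf (nat_lit 0) (nat_lit 3424638182) (nat_lit 1092) (nat_lit 7633978183) (nat_lit 1176) (nat_lit 4348399756) (nat_lit 117) (nat_lit 5) (nat_lit 130) (nat_lit 5) (nat_lit 131) (nat_lit 5) (nat_lit 335) (nat_lit 326) (nat_lit 203)))) (XT.nd (nat_lit 94) (nat_lit 0) (nat_lit 0) (XT.lf (nat_lit 0) (nat_lit 4155799630) (nat_lit 1092) (nat_lit 1528059030)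 (nat_lit 1176) (nat_lit 9972801553) (nat_lit 117) (nat_lit 5) (nat_lit 130) (nat_lit 5) (nat_lit 131) (nat_lit 5) (nat_lit 336) (nat_lit 326) (nat_lit 202)) (XT.nd (nat_lit 94) (nat_lit 0) (nat_lit 84) (XT.lf (nat_lit 84) (nat_lit 4858097443) (nat_lit 0) (nat_lit 89709879) (nat_lit 1176) (nat_lit 10965089787) (nat_lit 118) (nat_lit 5) (nat_lit 117) (nat_lit 5) (nat_lit 131) (nat_lit 5) (nat_lit 337) (nat_lit 326) (nat_lit 201)) (XT.lf (nat_lit 0) (nat_lit 5827054597) (nat_lit 1092) (nat_lit 4765676630) (nat_lit 1176) (nat_lit 5582439113) (nat_lit 118) (nat_lit 5) (nat_lit 131) (nat_lit 5) (nat_lit 132) (nat_lit 5) (nat_lit 338) (nat_lit 326) (nat_lit 200))))))))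
noncomputable def xc171 : XT := (XT.nd (nat_lit 2256) (nat_lit 2688) (nat_lit 0) (XT.nd (nat_lit 1128) (nat_lit 2352) (nat_lit 0) (XT.nd (nat_lit 564) (nat_lit 1176) (nat_lit 0) (XT.nd (nat_lit 282) (nat_lit 924) (nat_lit 0) (XT.nd (nat_lit 94) (nat_lit 0) (nat_lit 84) (XT.lf (nat_lit 84) (nat_lit 1745655627) (nat_lit 0) (nat_lit 4996680095) (nat_lit 1176) (nat_lit 9703001434) (nat_lit 119) (nat_lit 5) (nat_lit 118) (nat_lit 5) (nat_lit 132) (nat_lit 5) (nat_lit 339) (nat_lit 326) (nat_lit 199)) (XT.nd (nat_lit 94) (nat_lit 0) (nat_lit 0) (XT.lf (nat_lit 0) (nat_lit 7734690944) (nat_lit 1092) (nat_lit 8177923296) (nat_lit 1176) (nat_lit 809789340) (nat_lit 119) (nat_lit 5) (nat_lit 132) (nat_lit 5) (nat_lit 133) (nat_lit 5) (nat_lit 340) (nat_lit 326) (nat_lit 198)) (XT.lf (nat_lit 0) (nat_lit 8799971634) (nat_lit 1092) (nat_lit 1512155675) (nat_lit 1176) (nat_lit 6694657841) (nat_lit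 119) (nat_lit 5) (nat_lit 132) (nat_lit 5) (nat_lit 133) (nat_lit 5) (nat_lit 341) (nat_lit 326) (nat_lit 197)))) (XT.nd (nat_lit 94) (nat_lit 1008) (nat_lit 0) (XT.lf (nat_lit 84) (nat_lit 5463479138) (nat_lit 0) (nat_lit 4480322309) (nat_lit 1176) (nat_lit 7354801939) (nat_lit 120) (nat_lit 5) (nat_lit 119) (nat_lit 5) (nat_lit 133) (nat_lit 5) (nat_lit 342) (nat_lit 326) (nat_lit 196)) (XT.nd (nat_lit 94) (nat_lit 1092) (nat_lit 0) (XT.lf (nat_lit 0) (nat_lit 11145772943) (nat_lit 1092) (nat_lit 4934014964) (nat_lit 84) (nat_lit 1519008069) (nat_lit 120) (nat_lit 5) (nat_lit 133) (nat_lit 5) (nat_lit 121) (nat_lit 5) (nat_lit 343) (nat_lit 326) (nat_lit 195)) (XT.lf (nat_lit 0) (nat_lit 2172091450) (nat_lit 1092) (nat_lit 10272076559) (nat_lit 1176) (nat_lit 5462322717) (nat_lit 107) (nat_lit 5) (nat_lit 120) (nat_lit 5) (nat_lit 121) (nat_lit 5) (nat_lit 344) (nat_lit 326) (nat_lit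 194))))) (XT.nd (nat_lit 282) (nat_lit 672) (nat_lit 0) (XT.nd (nat_lit 94) (nat_lit 504) (nat_lit 0) (XT.lf (nat_lit 0) (nat_lit 9596278410) (nat_lit 1092) (nat_lit 4230007060) (nat_lit 1176) (nat_lit 4396120220) (nat_lit 107) (nat_lit 5) (nat_lit 120) (nat_lit 5) (nat_lit 121) (nat_lit 5) (nat_lit 345) (nat_lit 326) (nat_lit 193)) (XT.nd (nat_lit 94) (nat_lit 504) (nat_lit 0) (XT.lf (nat_lit 0) (nat_lit 15263306852) (nat_lit 1176) (nat_lit 1324217012) (nat_lit 84) (nat_lit 1960244779) (nat_lit 107) (nat_lit 5) (nat_lit 121) (nat_lit 5) (nat_lit 108) (nat_lit 5) (nat_lit 346) (nat_lit 326) (nat_lit 192)) (XT.lf (nat_lit 0) (nat_lit 6280653419) (nat_lit 504) (nat_lit 10562248473) (nat_lit 588) (nat_lit 2037304730) (nat_lit 101) (nat_lit 5) (nat_lit 107) (nat_lit 5) (nat_lit 108) (nat_lit 5) (nat_lit 347) (nat_lit 326) (nat_lit 191)))) (XT.nd (nat_lit 94) (nat_lit 672) (nat_lit 0) (XT.lf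 (nat_lit 0) (nat_lit 14142737936) (nat_lit 504) (nat_lit 4335167866) (nat_lit 588) (nat_lit 744871439) (nat_lit 101) (nat_lit 5) (nat_lit 107) (nat_lit 5) (nat_lit 108) (nat_lit 5) (nat_lit 348) (nat_lit 326) (nat_lit 190)) (XT.nd (nat_lit 94) (nat_lit 0) (nat_lit 0) (XT.lf (nat_lit 0) (nat_lit 616487001) (nat_lit 672) (nat_lit 16881363447) (nat_lit 84) (nat_lit 2076699887) (nat_lit 93) (nat_lit 5) (nat_lit 101) (nat_lit 5) (nat_lit 94) (nat_lit 5) (nat_lit 349) (nat_lit 326) (nat_lit 189)) (XT.lf (nat_lit 0) (nat_lit 2095382858) (nat_lit 672) (nat_lit 9179775549) (nat_lit 84) (nat_lit 8659043178) (nat_lit 93) (nat_lit 5) (nat_lit 101) (nat_lit 5) (nat_lit 94) (nat_lit 5) (nat_lit 350) (nat_lit 326) (nat_lit 188)))))) (XT.nd (nat_lit 564) (nat_lit 1344) (nat_lit 0) (XT.nd (nat_lit 282) (nat_lit 504) (nat_lit 0) (XT.nd (nat_lit 94) (nat_lit 504) (nat_lit 0) (XT.lf (nat_lit 0) (nat_lit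 3613239863) (nat_lit 672) (nat_lit 1246003917) (nat_lit 84) (nat_lit 15445995343) (nat_lit 93) (nat_lit 5) (nat_lit 101) (nat_lit 5) (nat_lit 94) (nat_lit 5) (nat_lit 351) (nat_lit 326) (nat_lit 187)) (XT.nd (nat_lit 94) (nat_lit 0) (nat_lit 0) (XT.lf (nat_lit 0) (nat_lit 5259741762) (nat_lit 588) (nat_lit 13634183440) (nat_lit 84) (nat_lit 1791347254) (nat_lit 87) (nat_lit 5) (nat_lit 94) (nat_lit 5) (nat_lit 88) (nat_lit 5) (nat_lit 352) (nat_lit 326) (nat_lit 186)) (XT.lf (nat_lit 0) (nat_lit 7013585566) (nat_lit 588) (nat_lit 5501239775) (nat_lit 84) (nat_lit 8560538441) (nat_lit 87) (nat_lit 5) (nat_lit 94) (nat_lit 5) (nat_lit 88) (nat_lit 5) (nat_lit 353) (nat_lit 326) (nat_lit 185)))) (XT.nd (nat_lit 94) (nat_lit 0) (nat_lit 0) (XT.lf (nat_lit 0) (nat_lit 2936657682) (nat_lit 504) (nat_lit 5907932379) (nat_lit 588) (nat_lit 12632272944) (nat_lit 81) (nat_lit 5) (nat_lit 87) (nat_lit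 5) (nat_lit 88) (nat_lit 5) (nat_lit 354) (nat_lit 326) (nat_lit 184)) (XT.nd (nat_lit 94) (nat_lit 0) (nat_lit 0) (XT.lf (nat_lit 0) (nat_lit 10793117583) (nat_lit 588) (nat_lit 10152311502) (nat_lit 84) (nat_lit 943516951) (nat_lit 81) (nat_lit 5) (nat_lit 88) (nat_lit 5) (nat_lit 82) (nat_lit 5) (nat_lit 355) (nat_lit 326) (nat_lit 183)) (XT.lf (nat_lit 0) (nat_lit 12856447897) (nat_lit 588) (nat_lit 1571105665) (nat_lit 84) (nat_lit 7884584053) (nat_lit 81) (nat_lit 5) (nat_lit 88) (nat_lit 5) (nat_lit 82) (nat_lit 5) (nat_lit 356) (nat_lit 326) (nat_lit 182))))) (XT.nd (nat_lit 282) (nat_lit 504) (nat_lit 0) (XT.nd (nat_lit 94) (nat_lit 420) (nat_lit 0) (XT.lf (nat_lit 0) (nat_lit 7419504676) (nat_lit 420) (nat_lit 7631994549) (nat_lit 504) (nat_lit 7694868127) (nat_lit 76) (nat_lit 5) (nat_lit 81) (nat_lit 5) (nat_lit 82) (nat_lit 5) (nat_lit 357) (nat_lit 326) (nat_lit 181)) (XT.nd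 (nat_lit 94) (nat_lit 420) (nat_lit 0) (XT.lf (nat_lit 0) (nat_lit 16716092943) (nat_lit 420) (nat_lit 609174535) (nat_lit 504) (nat_lit 5868479072) (nat_lit 76) (nat_lit 5) (nat_lit 81) (nat_lit 5) (nat_lit 82) (nat_lit 5) (nat_lit 358) (nat_lit 326) (nat_lit 180)) (XT.lf (nat_lit 0) (nat_lit 2626981016) (nat_lit 420) (nat_lit 17128825843) (nat_lit 504) (nat_lit 3896531374) (nat_lit 71) (nat_lit 5) (nat_lit 76) (nat_lit 5) (nat_lit 77) (nat_lit 5) (nat_lit 359) (nat_lit 326) (nat_lit 179)))) (XT.nd (nat_lit 94) (nat_lit 504) (nat_lit 0) (XT.lf (nat_lit 0) (nat_lit 12138840925) (nat_lit 420) (nat_lit 10191181106) (nat_lit 504) (nat_lit 1793024012) (nat_lit 71) (nat_lit 5) (nat_lit 76) (nat_lit 5) (nat_lit 77) (nat_lit 5) (nat_lit 360) (nat_lit 326) (nat_lit 178)) (XT.nd (nat_lit 94) (nat_lit 420) (nat_lit 0) (XT.lf (nat_lit 0) (nat_lit 362763770) (nat_lit 504) (nat_lit 2672434150) (nat_lit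 84) (nat_lit 21573215389) (nat_lit 70) (nat_lit 5) (nat_lit 76) (nat_lit 5) (nat_lit 71) (nat_lit 5) (nat_lit 361) (nat_lit 326) (nat_lit 177)) (XT.lf (nat_lit 0) (nat_lit 2656810009) (nat_lit 504) (nat_lit 18104375264) (nat_lit 84) (nat_lit 4343720705) (nat_lit 65) (nat_lit 5) (nat_lit 71) (nat_lit 5) (nat_lit 66) (nat_lit 5) (nat_lit 362) (nat_lit 326) (nat_lit 176))))))) (XT.nd (nat_lit 1128) (nat_lit 1176) (nat_lit 0) (XT.nd (nat_lit 564) (nat_lit 756) (nat_lit 0) (XT.nd (nat_lit 282) (nat_lit 336) (nat_lit 0) (XT.nd (nat_lit 94) (nat_lit 420) (nat_lit 0) (XT.lf (nat_lit 0) (nat_lit 5076090732) (nat_lit 504) (nat_lit 8623103177) (nat_lit 84) (nat_lit 11915934239) (nat_lit 65) (nat_lit 5) (nat_lit 71) (nat_lit 5) (nat_lit 66) (nat_lit 5) (nat_lit 363) (nat_lit 326) (nat_lit 175)) (XT.nd (nat_lit 94) (nat_lit 0) (nat_lit 0) (XT.lf (nat_lit 0) (nat_lit 1169975532) (nat_lit 420) (nat_lit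 6407049477) (nat_lit 504) (nat_lit 18563951305) (nat_lit 60) (nat_lit 5) (nat_lit 65) (nat_lit 5) (nat_lit 66) (nat_lit 5) (nat_lit 364) (nat_lit 326) (nat_lit 174)) (XT.lf (nat_lit 0) (nat_lit 10252574018) (nat_lit 504) (nat_lit 15248619496) (nat_lit 84) (nat_lit 1178937575) (nat_lit 60) (nat_lit 5) (nat_lit 66) (nat_lit 5) (nat_lit 61) (nat_lit 5) (nat_lit 365) (nat_lit 326) (nat_lit 173)))) (XT.nd (nat_lit 94) (nat_lit 336) (nat_lit 0) (XT.lf (nat_lit 0) (nat_lit 13071875305) (nat_lit 504) (nat_lit 5295985044) (nat_lit 84) (nat_lit 8866268722) (nat_lit 60) (nat_lit 5) (nat_lit 66) (nat_lit 5) (nat_lit 61) (nat_lit 5) (nat_lit 366) (nat_lit 326) (nat_lit 172)) (XT.nd (nat_lit 94) (nat_lit 0) (nat_lit 0) (XT.lf (nat_lit 0) (nat_lit 5061720584) (nat_lit 336) (nat_lit 10962490339) (nat_lit 420) (nat_lit 11779689440) (nat_lit 56) (nat_lit 5) (nat_lit 60) (nat_lit 5) (nat_lit 61) (nat_lit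 5) (nat_lit 367) (nat_lit 326) (nat_lit 171)) (XT.lf (nat_lit 0) (nat_lit 15847399413) (nat_lit 336) (nat_lit 3271456026) (nat_lit 420) (nat_lit 9270918411) (nat_lit 56) (nat_lit 5) (nat_lit 60) (nat_lit 5) (nat_lit 61) (nat_lit 5) (nat_lit 368) (nat_lit 326) (nat_lit 170))))) (XT.nd (nat_lit 282) (nat_lit 420) (nat_lit 0) (XT.nd (nat_lit 94) (nat_lit 336) (nat_lit 0) (XT.lf (nat_lit 0) (nat_lit 22351275617) (nat_lit 420) (nat_lit 2077948576) (nat_lit 84) (nat_lit 4563301383) (nat_lit 56) (nat_lit 5) (nat_lit 61) (nat_lit 5) (nat_lit 57) (nat_lit 5) (nat_lit 369) (nat_lit 326) (nat_lit 169)) (XT.nd (nat_lit 94) (nat_lit 0) (nat_lit 0) (XT.lf (nat_lit 0) (nat_lit 8850529455) (nat_lit 336) (nat_lit 16950394041) (nat_lit 420) (nat_lit 3809424263) (nat_lit 52) (nat_lit 5) (nat_lit 56) (nat_lit 5) (nat_lit 57) (nat_lit 5) (nat_lit 370) (nat_lit 326) (nat_lit 168)) (XT.lf (nat_lit 0) (nat_lit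 20156690234) (nat_lit 336) (nat_lit 9218351008) (nat_lit 420) (nat_lit 871750203) (nat_lit 52) (nat_lit 5) (nat_lit 56) (nat_lit 5) (nat_lit 57) (nat_lit 5) (nat_lit 371) (nat_lit 326) (nat_lit 167)))) (XT.nd (nat_lit 94) (nat_lit 0) (nat_lit 0) (XT.lf (nat_lit 0) (nat_lit 902061660) (nat_lit 336) (nat_lit 1216333278) (nat_lit 420) (nat_lit 28783767636) (nat_lit 47) (nat_lit 5) (nat_lit 51) (nat_lit 5) (nat_lit 52) (nat_lit 5) (nat_lit 372) (nat_lit 326) (nat_lit 166)) (XT.nd (nat_lit 94) (nat_lit 0) (nat_lit 0) (XT.lf (nat_lit 0) (nat_lit 5355274946) (nat_lit 420) (nat_lit 19210634061) (nat_lit 84) (nat_lit 7006339576) (nat_lit 47) (nat_lit 5) (nat_lit 52) (nat_lit 5) (nat_lit 48) (nat_lit 5) (nat_lit 373) (nat_lit 326) (nat_lit 165)) (XT.lf (nat_lit 0) (nat_lit 8701035348) (nat_lit 420) (nat_lit 8104145046) (nat_lit 84) (nat_lit 15457673251) (nat_lit 47) (nat_lit 5) (nat_lit 52) (nat_lit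 5) (nat_lit 48) (nat_lit 5) (nat_lit 374) (nat_lit 326) (nat_lit 164)))))) (XT.nd (nat_lit 564) (nat_lit 588) (nat_lit 0) (XT.nd (nat_lit 282) (nat_lit 252) (nat_lit 0) (XT.nd (nat_lit 94) (nat_lit 0) (nat_lit 0) (XT.lf (nat_lit 0) (nat_lit 3410498666) (nat_lit 336) (nat_lit 8770062468) (nat_lit 420) (nat_lit 20793385581) (nat_lit 43) (nat_lit 5) (nat_lit 47) (nat_lit 5) (nat_lit 48) (nat_lit 5) (nat_lit 375) (nat_lit 326) (nat_lit 163)) (XT.nd (nat_lit 94) (nat_lit 0) (nat_lit 0) (XT.lf (nat_lit 0) (nat_lit 15449088749) (nat_lit 336) (nat_lit 399734471) (nat_lit 420) (nat_lit 17855763833) (nat_lit 43) (nat_lit 5) (nat_lit 47) (nat_lit 5) (nat_lit 48) (nat_lit 5) (nat_lit 376) (nat_lit 326) (nat_lit 162)) (XT.lf (nat_lit 0) (nat_lit 19708826466) (nat_lit 420) (nat_lit 6683423417) (nat_lit 84) (nat_lit 8063218652) (nat_lit 43) (nat_lit 5) (nat_lit 48) (nat_lit 5) (nat_lit 44) (nat_lit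 5) (nat_lit 377) (nat_lit 326) (nat_lit 161)))) (XT.nd (nat_lit 94) (nat_lit 0) (nat_lit 0) (XT.lf (nat_lit 0) (nat_lit 5346380822) (nat_lit 252) (nat_lit 18395724574) (nat_lit 336) (nat_lit 11485869631) (nat_lit 40) (nat_lit 5) (nat_lit 43) (nat_lit 5) (nat_lit 44) (nat_lit 5) (nat_lit 378) (nat_lit 326) (nat_lit 160)) (XT.nd (nat_lit 94) (nat_lit 0) (nat_lit 0) (XT.lf (nat_lit 0) (nat_lit 17886206689) (nat_lit 252) (nat_lit 10080521013) (nat_lit 336) (nat_lit 8055655327) (nat_lit 40) (nat_lit 5) (nat_lit 43) (nat_lit 5) (nat_lit 44) (nat_lit 5) (nat_lit 379) (nat_lit 326) (nat_lit 159)) (XT.lf (nat_lit 0) (nat_lit 30810317723) (nat_lit 252) (nat_lit 1508649795) (nat_lit 336) (nat_lit 4522563071) (nat_lit 40) (nat_lit 5) (nat_lit 43) (nat_lit 5) (nat_lit 44) (nat_lit 5) (nat_lit 380) (nat_lit 326) (nat_lit 158))))) (XT.nd (nat_lit 282) (nat_lit 252) (nat_lit 0) (XT.nd (nat_lit 94) (nat_lit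 84) (nat_lit 0) (XT.lf (nat_lit 0) (nat_lit 6502904886) (nat_lit 252) (nat_lit 30437179786) (nat_lit 336) (nat_lit 741843268) (nat_lit 37) (nat_lit 5) (nat_lit 40) (nat_lit 5) (nat_lit 41) (nat_lit 5) (nat_lit 381) (nat_lit 326) (nat_lit 157)) (XT.nd (nat_lit 94) (nat_lit 0) (nat_lit 0) (XT.lf (nat_lit 0) (nat_lit 3168275723) (nat_lit 336) (nat_lit 19044814623) (nat_lit 84) (nat_lit 16331975748) (nat_lit 36) (nat_lit 5) (nat_lit 40) (nat_lit 5) (nat_lit 37) (nat_lit 5) (nat_lit 382) (nat_lit 326) (nat_lit 156)) (XT.lf (nat_lit 0) (nat_lit 7181053600) (nat_lit 336) (nat_lit 6546344300) (nat_lit 84) (nat_lit 25707434052) (nat_lit 36) (nat_lit 5) (nat_lit 40) (nat_lit 5) (nat_lit 37) (nat_lit 5) (nat_lit 383) (nat_lit 326) (nat_lit 155)))) (XT.nd (nat_lit 94) (nat_lit 0) (nat_lit 0) (XT.lf (nat_lit 0) (nat_lit 6465665730) (nat_lit 252) (nat_lit 4913651653) (nat_lit 336) (nat_lit 28970977270)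 (nat_lit 33) (nat_lit 5) (nat_lit 36) (nat_lit 5) (nat_lit 37) (nat_lit 5) (nat_lit 384) (nat_lit 326) (nat_lit 154)) (XT.nd (nat_lit 94) (nat_lit 0) (nat_lit 0) (XT.lf (nat_lit 0) (nat_lit 15815145413) (nat_lit 336) (nat_lit 21318518676) (nat_lit 84) (nat_lit 4157150301) (nat_lit 33) (nat_lit 5) (nat_lit 37) (nat_lit 5) (nat_lit 34) (nat_lit 5) (nat_lit 385) (nat_lit 326) (nat_lit 153)) (XT.lf (nat_lit 0) (nat_lit 20435818687) (nat_lit 336) (nat_lit 8417215594) (nat_lit 84) (nat_lit 13405996008) (nat_lit 33) (nat_lit 5) (nat_lit 37) (nat_lit 5) (nat_lit 34) (nat_lit 5) (nat_lit 386) (nat_lit 326) (nat_lit 152))))))))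
noncomputable def xc172 : XT := (XT.nd (nat_lit 2256) (nat_lit 0) (nat_lit 0) (XT.nd (nat_lit 1128) (nat_lit 588) (nat_lit 0) (XT.nd (nat_lit 564) (nat_lit 420) (nat_lit 0) (XT.nd (nat_lit 282) (nat_lit 252) (nat_lit 0) (XT.nd (nat_lit 94) (nat_lit 0) (nat_lit 0) (XT.lf (nat_lit 0) (nat_lit 4980393552) (nat_lit 252) (nat_lit 20265912693) (nat_lit 336) (nat_lit 18009518057) (nat_lit 30) (nat_lit 5) (nat_lit 33) (nat_lit 5) (nat_lit 34) (nat_lit 5) (nat_lit 387) (nat_lit 326) (nat_lit 151)) (XT.nd (nat_lit 94) (nat_lit 0) (nat_lit 0) (XT.lf (nat_lit 0) (nat_lit 18967831242) (nat_lit 252) (nat_lit 11323159543) (nat_lit 336) (nat_lit 13989897896) (nat_lit 30) (nat_lit 5) (nat_lit 33) (nat_lit 5) (nat_lit 34) (nat_lit 5) (nat_lit 388) (nat_lit 326) (nat_lit 150)) (XT.lf (nat_lit 0) (nat_lit 33385060018) (nat_lit 252) (nat_lit 2104297717) (nat_lit 336) (nat_lit 9848462881) (nat_lit 30) (nat_lit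 5) (nat_lit 33) (nat_lit 5) (nat_lit 34) (nat_lit 5) (nat_lit 389) (nat_lit 326) (nat_lit 149)))) (XT.nd (nat_lit 94) (nat_lit 84) (nat_lit 0) (XT.lf (nat_lit 0) (nat_lit 1780382069) (nat_lit 168) (nat_lit 39156933690) (nat_lit 252) (nat_lit 5487466556) (nat_lit 28) (nat_lit 5) (nat_lit 30) (nat_lit 5) (nat_lit 31) (nat_lit 5) (nat_lit 390) (nat_lit 326) (nat_lit 148)) (XT.nd (nat_lit 94) (nat_lit 84) (nat_lit 0) (XT.lf (nat_lit 0) (nat_lit 16166936407) (nat_lit 168) (nat_lit 30530700229) (nat_lit 252) (nat_lit 843361801) (nat_lit 28) (nat_lit 5) (nat_lit 30) (nat_lit 5) (nat_lit 31) (nat_lit 5) (nat_lit 391) (nat_lit 326) (nat_lit 147)) (XT.lf (nat_lit 0) (nat_lit 3862688939) (nat_lit 252) (nat_lit 17735164535) (nat_lit 84) (nat_lit 27092835553) (nat_lit 27) (nat_lit 5) (nat_lit 30) (nat_lit 5) (nat_lit 28) (nat_lit 5) (nat_lit 392) (nat_lit 326) (nat_lit 146))))) (XT.nd (nat_lit 282)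 (nat_lit 168) (nat_lit 0) (XT.nd (nat_lit 94) (nat_lit 252) (nat_lit 0) (XT.lf (nat_lit 0) (nat_lit 8694641000) (nat_lit 252) (nat_lit 3685665089) (nat_lit 84) (nat_lit 37495528852) (nat_lit 27) (nat_lit 5) (nat_lit 30) (nat_lit 5) (nat_lit 28) (nat_lit 5) (nat_lit 393) (nat_lit 326) (nat_lit 145)) (XT.nd (nat_lit 94) (nat_lit 0) (nat_lit 0) (XT.lf (nat_lit 0) (nat_lit 11017883971) (nat_lit 252) (nat_lit 2765404927) (nat_lit 336) (nat_lit 37311123053) (nat_lit 24) (nat_lit 5) (nat_lit 27) (nat_lit 5) (nat_lit 28) (nat_lit 5) (nat_lit 394) (nat_lit 326) (nat_lit 144)) (XT.lf (nat_lit 0) (nat_lit 19137087518) (nat_lit 336) (nat_lit 26168996481) (nat_lit 84) (nat_lit 7041356837) (nat_lit 24) (nat_lit 5) (nat_lit 28) (nat_lit 5) (nat_lit 25) (nat_lit 5) (nat_lit 395) (nat_lit 326) (nat_lit 143)))) (XT.nd (nat_lit 94) (nat_lit 168) (nat_lit 0) (XT.lf (nat_lit 0) (nat_lit 24682842353) (nat_lit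 336) (nat_lit 11862013069) (nat_lit 84) (nat_lit 17093657855) (nat_lit 24) (nat_lit 5) (nat_lit 28) (nat_lit 5) (nat_lit 25) (nat_lit 5) (nat_lit 396) (nat_lit 326) (nat_lit 142)) (XT.nd (nat_lit 94) (nat_lit 0) (nat_lit 0) (XT.lf (nat_lit 0) (nat_lit 2944516465) (nat_lit 168) (nat_lit 27482982973) (nat_lit 252) (nat_lit 24541278172) (nat_lit 22) (nat_lit 5) (nat_lit 24) (nat_lit 5) (nat_lit 25) (nat_lit 5) (nat_lit 397) (nat_lit 326) (nat_lit 141)) (XT.lf (nat_lit 0) (nat_lit 18458254419) (nat_lit 168) (nat_lit 18013610015) (nat_lit 252) (nat_lit 19864650363) (nat_lit 22) (nat_lit 5) (nat_lit 24) (nat_lit 5) (nat_lit 25) (nat_lit 5) (nat_lit 398) (nat_lit 326) (nat_lit 140)))))) (XT.nd (nat_lit 564) (nat_lit 336) (nat_lit 0) (XT.nd (nat_lit 282) (nat_lit 84) (nat_lit 0) (XT.nd (nat_lit 94) (nat_lit 168) (nat_lit 0) (XT.lf (nat_lit 0) (nat_lit 34449753904) (nat_lit 168) (nat_lit 8251725188)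 (nat_lit 252) (nat_lit 15045243479) (nat_lit 22) (nat_lit 5) (nat_lit 24) (nat_lit 5) (nat_lit 25) (nat_lit 5) (nat_lit 399) (nat_lit 326) (nat_lit 139)) (XT.nd (nat_lit 94) (nat_lit 168) (nat_lit 0) (XT.lf (nat_lit 0) (nat_lit 49140123056) (nat_lit 252) (nat_lit 8284767711) (nat_lit 84) (nat_lit 1775267466) (nat_lit 22) (nat_lit 5) (nat_lit 25) (nat_lit 5) (nat_lit 23) (nat_lit 5) (nat_lit 400) (nat_lit 326) (nat_lit 138)) (XT.lf (nat_lit 0) (nat_lit 7251483196) (nat_lit 168) (nat_lit 48681203695) (nat_lit 252) (nat_lit 4761184082) (nat_lit 20) (nat_lit 5) (nat_lit 22) (nat_lit 5) (nat_lit 23) (nat_lit 5) (nat_lit 401) (nat_lit 326) (nat_lit 137)))) (XT.nd (nat_lit 94) (nat_lit 0) (nat_lit 0) (XT.lf (nat_lit 0) (nat_lit 773146095) (nat_lit 252) (nat_lit 38797113672) (nat_lit 84) (nat_lit 22660771395) (nat_lit 19) (nat_lit 5) (nat_lit 22) (nat_lit 5) (nat_lit 20) (nat_lit 5) (nat_lit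 402) (nat_lit 326) (nat_lit 136)) (XT.nd (nat_lit 94) (nat_lit 0) (nat_lit 0) (XT.lf (nat_lit 0) (nat_lit 6378196376) (nat_lit 252) (nat_lit 23749488650) (nat_lit 84) (nat_lit 33686713116) (nat_lit 19) (nat_lit 5) (nat_lit 22) (nat_lit 5) (nat_lit 20) (nat_lit 5) (nat_lit 403) (nat_lit 326) (nat_lit 135)) (XT.lf (nat_lit 0) (nat_lit 12155118502) (nat_lit 252) (nat_lit 8238255213) (nat_lit 84) (nat_lit 45053538239) (nat_lit 19) (nat_lit 5) (nat_lit 22) (nat_lit 5) (nat_lit 20) (nat_lit 5) (nat_lit 404) (nat_lit 326) (nat_lit 134))))) (XT.nd (nat_lit 282) (nat_lit 168) (nat_lit 0) (XT.nd (nat_lit 94) (nat_lit 0) (nat_lit 0) (XT.lf (nat_lit 0) (nat_lit 7910422109) (nat_lit 168) (nat_lit 10277347428) (nat_lit 252) (nat_lit 48939892092) (nat_lit 17) (nat_lit 5) (nat_lit 19) (nat_lit 5) (nat_lit 20) (nat_lit 5) (nat_lit 405) (nat_lit 326) (nat_lit 133)) (XT.nd (nat_lit 94) (nat_lit 0) (nat_lit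 0) (XT.lf (nat_lit 0) (nat_lit 24494003467) (nat_lit 252) (nat_lit 44128687516) (nat_lit 84) (nat_lit 235143660) (nat_lit 17) (nat_lit 5) (nat_lit 20) (nat_lit 5) (nat_lit 18) (nat_lit 5) (nat_lit 406) (nat_lit 326) (nat_lit 132)) (XT.lf (nat_lit 0) (nat_lit 31099088306) (nat_lit 252) (nat_lit 28680222897) (nat_lit 84) (nat_lit 10859131408) (nat_lit 17) (nat_lit 5) (nat_lit 20) (nat_lit 5) (nat_lit 18) (nat_lit 5) (nat_lit 407) (nat_lit 326) (nat_lit 131)))) (XT.nd (nat_lit 94) (nat_lit 168) (nat_lit 0) (XT.lf (nat_lit 0) (nat_lit 37907228125) (nat_lit 252) (nat_lit 12755493518) (nat_lit 84) (nat_lit 21811584130) (nat_lit 17) (nat_lit 5) (nat_lit 20) (nat_lit 5) (nat_lit 18) (nat_lit 5) (nat_lit 408) (nat_lit 326) (nat_lit 130)) (XT.nd (nat_lit 94) (nat_lit 0) (nat_lit 0) (XT.lf (nat_lit 0) (nat_lit 3735608318) (nat_lit 168) (nat_lit 41226218204) (nat_lit 252) (nat_lit 29404160037) (nat_lit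 15) (nat_lit 5) (nat_lit 17) (nat_lit 5) (nat_lit 18) (nat_lit 5) (nat_lit 409) (nat_lit 326) (nat_lit 129)) (XT.lf (nat_lit 0) (nat_lit 21005811637) (nat_lit 168) (nat_lit 31360820103) (nat_lit 252) (nat_lit 23945604123) (nat_lit 15) (nat_lit 5) (nat_lit 17) (nat_lit 5) (nat_lit 18) (nat_lit 5) (nat_lit 410) (nat_lit 326) (nat_lit 128))))))) (XT.nd (nat_lit 47376) (nat_lit 0) (nat_lit 7224) (XT.nd (nat_lit 46812) (nat_lit 0) (nat_lit 8400) (XT.nd (nat_lit 46530) (nat_lit 0) (nat_lit 8316) (XT.nd (nat_lit 46342) (nat_lit 0) (nat_lit 9408) (XT.lf (nat_lit 0) (nat_lit 38808934970) (nat_lit 168) (nat_lit 21190472947) (nat_lit 252) (nat_lit 18319463149) (nat_lit 15) (nat_lit 5) (nat_lit 17) (nat_lit 5) (nat_lit 18) (nat_lit 5) (nat_lit 411) (nat_lit 326) (nat_lit 127)) (XT.nd (nat_lit 94) (nat_lit 0) (nat_lit 0) (XT.lf (nat_lit 0) (nat_lit 6683702489) (nat_lit 1092) (nat_lit 116040595) (nat_lit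 1092) (nat_lit 116040595) (nat_lit 127) (nat_lit 3) (nat_lit 140) (nat_lit 3) (nat_lit 140) (nat_lit 5) (nat_lit 327) (nat_lit 327) (nat_lit 210)) (XT.lf (nat_lit 84) (nat_lit 5220408190) (nat_lit 0) (nat_lit 8705993352) (nat_lit 1092) (nat_lit 107463579) (nat_lit 128) (nat_lit 5) (nat_lit 127) (nat_lit 3) (nat_lit 140) (nat_lit 5) (nat_lit 328) (nat_lit 327) (nat_lit 209)))) (XT.nd (nat_lit 94) (nat_lit 0) (nat_lit 84) (XT.lf (nat_lit 0) (nat_lit 245172096) (nat_lit 1092) (nat_lit 3404805462) (nat_lit 1176) (nat_lit 10592729019) (nat_lit 114) (nat_lit 5) (nat_lit 127) (nat_lit 3) (nat_lit 128) (nat_lit 5) (nat_lit 329) (nat_lit 327) (nat_lit 208)) (XT.nd (nat_lit 94) (nat_lit 0) (nat_lit 0) (XT.lf (nat_lit 0) (nat_lit 632254409) (nat_lit 1092) (nat_lit 12265090201) (nat_lit 1176) (nat_lit 1559890220) (nat_lit 115) (nat_lit 5) (nat_lit 128) (nat_lit 5) (nat_lit 129) (nat_lit 5) (nat_lit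 330) (nat_lit 327) (nat_lit 207)) (XT.lf (nat_lit 0) (nat_lit 1092964198) (nat_lit 1092) (nat_lit 6687100260) (nat_lit 1176) (nat_lit 6896482131) (nat_lit 115) (nat_lit 5) (nat_lit 128) (nat_lit 5) (nat_lit 129) (nat_lit 5) (nat_lit 331) (nat_lit 327) (nat_lit 206))))) (XT.nd (nat_lit 282) (nat_lit 0) (nat_lit 84) (XT.nd (nat_lit 94) (nat_lit 0) (nat_lit 84) (XT.lf (nat_lit 0) (nat_lit 1556699513) (nat_lit 1092) (nat_lit 942860537) (nat_lit 1176) (nat_lit 12403488201) (nat_lit 115) (nat_lit 5) (nat_lit 128) (nat_lit 5) (nat_lit 129) (nat_lit 5) (nat_lit 332) (nat_lit 327) (nat_lit 205)) (XT.nd (nat_lit 94) (nat_lit 0) (nat_lit 0) (XT.lf (nat_lit 0) (nat_lit 2104009866) (nat_lit 1092) (nat_lit 10089922517) (nat_lit 1176) (nat_lit 2940534916) (nat_lit 116) (nat_lit 5) (nat_lit 129) (nat_lit 5) (nat_lit 130) (nat_lit 5) (nat_lit 333) (nat_lit 327) (nat_lit 204)) (XT.lf (nat_lit 0) (nat_lit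 2693182574) (nat_lit 1092) (nat_lit 4167686856) (nat_lit 1176) (nat_lit 8511458922) (nat_lit 116) (nat_lit 5) (nat_lit 129) (nat_lit 5) (nat_lit 130) (nat_lit 5) (nat_lit 334) (nat_lit 327) (nat_lit 203)))) (XT.nd (nat_lit 94) (nat_lit 0) (nat_lit 84) (XT.lf (nat_lit 84) (nat_lit 1971245049) (nat_lit 0) (nat_lit 1338637562) (nat_lit 1176) (nat_lit 12307431919) (nat_lit 117) (nat_lit 5) (nat_lit 116) (nat_lit 5) (nat_lit 130) (nat_lit 5) (nat_lit 335) (nat_lit 327) (nat_lit 202)) (XT.nd (nat_lit 94) (nat_lit 0) (nat_lit 0) (XT.lf (nat_lit 0) (nat_lit 4022834679) (nat_lit 1092) (nat_lit 7530281025) (nat_lit 1176) (nat_lit 4314425835) (nat_lit 117) (nat_lit 5) (nat_lit 130) (nat_lit 5) (nat_lit 131) (nat_lit 5) (nat_lit 336) (nat_lit 327) (nat_lit 201)) (XT.lf (nat_lit 0) (nat_lit 4761867744) (nat_lit 1092) (nat_lit 1245312000) (nat_lit 1176) (nat_lit 10118258776) (nat_lit 117) (nat_lit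 5) (nat_lit 130) (nat_lit 5) (nat_lit 131) (nat_lit 5) (nat_lit 337) (nat_lit 327) (nat_lit 200)))))) (XT.nd (nat_lit 564) (nat_lit 1344) (nat_lit 0) (XT.nd (nat_lit 282) (nat_lit 0) (nat_lit 168) (XT.nd (nat_lit 94) (nat_lit 0) (nat_lit 84) (XT.lf (nat_lit 84) (nat_lit 5335473186) (nat_lit 0) (nat_lit 231846581) (nat_lit 1176) (nat_lit 10822696971) (nat_lit 118) (nat_lit 5) (nat_lit 117) (nat_lit 5) (nat_lit 131) (nat_lit 5) (nat_lit 338) (nat_lit 327) (nat_lit 199)) (XT.nd (nat_lit 94) (nat_lit 0) (nat_lit 0) (XT.lf (nat_lit 0) (nat_lit 6458467288) (nat_lit 1092) (nat_lit 4579428776) (nat_lit 1176) (nat_lit 5623052446) (nat_lit 118) (nat_lit 5) (nat_lit 131) (nat_lit 5) (nat_lit 132) (nat_lit 5) (nat_lit 339) (nat_lit 327) (nat_lit 198)) (XT.lf (nat_lit 84) (nat_lit 2130373495) (nat_lit 0) (nat_lit 5261474426) (nat_lit 1176) (nat_lit 9548011535) (nat_lit 119) (nat_lit 5) (nat_lit 118)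 (nat_lit 5) (nat_lit 132) (nat_lit 5) (nat_lit 340) (nat_lit 327) (nat_lit 197)))) (XT.nd (nat_lit 94) (nat_lit 0) (nat_lit 0) (XT.lf (nat_lit 0) (nat_lit 8400663839) (nat_lit 1092) (nat_lit 8094895863) (nat_lit 1176) (nat_lit 730447549) (nat_lit 119) (nat_lit 5) (nat_lit 132) (nat_lit 5) (nat_lit 133) (nat_lit 5) (nat_lit 341) (nat_lit 327) (nat_lit 196)) (XT.nd (nat_lit 94) (nat_lit 0) (nat_lit 0) (XT.lf (nat_lit 0) (nat_lit 9486153369) (nat_lit 1092) (nat_lit 1232608588) (nat_lit 1176) (nat_lit 6800887422) (nat_lit 119) (nat_lit 5) (nat_lit 132) (nat_lit 5) (nat_lit 133) (nat_lit 5) (nat_lit 342) (nat_lit 327) (nat_lit 195)) (XT.lf (nat_lit 84) (nat_lit 5955966156) (nat_lit 0) (nat_lit 4700251588) (nat_lit 1176) (nat_lit 7164628228) (nat_lit 120) (nat_lit 5) (nat_lit 119) (nat_lit 5) (nat_lit 133) (nat_lit 5) (nat_lit 343) (nat_lit 327) (nat_lit 194))))) (XT.nd (nat_lit 282) (nat_lit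 504) (nat_lit 0) (XT.nd (nat_lit 94) (nat_lit 1092) (nat_lit 0) (XT.lf (nat_lit 0) (nat_lit 11882518415) (nat_lit 1092) (nat_lit 4759193285) (nat_lit 84) (nat_lit 1489078380) (nat_lit 120) (nat_lit 5) (nat_lit 133) (nat_lit 5) (nat_lit 121) (nat_lit 5) (nat_lit 344) (nat_lit 327) (nat_lit 193)) (XT.nd (nat_lit 94) (nat_lit 0) (nat_lit 0) (XT.lf (nat_lit 0) (nat_lit 2563883989) (nat_lit 1092) (nat_lit 10648735041) (nat_lit 1176) (nat_lit 5235712535) (nat_lit 107) (nat_lit 5) (nat_lit 120) (nat_lit 5) (nat_lit 121) (nat_lit 5) (nat_lit 345) (nat_lit 327) (nat_lit 192)) (XT.lf (nat_lit 0) (nat_lit 10208464985) (nat_lit 1092) (nat_lit 4417610711) (nat_lit 1176) (nat_lit 4148362909) (nat_lit 107) (nat_lit 5) (nat_lit 120) (nat_lit 5) (nat_lit 121) (nat_lit 5) (nat_lit 346) (nat_lit 327) (nat_lit 191)))) (XT.nd (nat_lit 94) (nat_lit 504) (nat_lit 0) (XT.lf (nat_lit 0) (nat_lit 16095940900)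 (nat_lit 1176) (nat_lit 1047009904) (nat_lit 84) (nat_lit 1967340575) (nat_lit 107) (nat_lit 5) (nat_lit 121) (nat_lit 5) (nat_lit 108) (nat_lit 5) (nat_lit 347) (nat_lit 327) (nat_lit 190)) (XT.nd (nat_lit 94) (nat_lit 0) (nat_lit 0) (XT.lf (nat_lit 0) (nat_lit 6790389436) (nat_lit 504) (nat_lit 10926430591) (nat_lit 588) (nat_lit 1736492614) (nat_lit 101) (nat_lit 5) (nat_lit 107) (nat_lit 5) (nat_lit 108) (nat_lit 5) (nat_lit 348) (nat_lit 327) (nat_lit 189)) (XT.lf (nat_lit 0) (nat_lit 14886726111) (nat_lit 504) (nat_lit 4505205418) (nat_lit 588) (nat_lit 414937660) (nat_lit 101) (nat_lit 5) (nat_lit 107) (nat_lit 5) (nat_lit 108) (nat_lit 5) (nat_lit 349) (nat_lit 327) (nat_lit 188))))))))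
noncomputable def xc173 : XT := (XT.nd (nat_lit 2256) (nat_lit 1932) (nat_lit 0) (XT.nd (nat_lit 1128) (nat_lit 2016) (nat_lit 0) (XT.nd (nat_lit 564) (nat_lit 840) (nat_lit 0) (XT.nd (nat_lit 282) (nat_lit 1008) (nat_lit 0) (XT.nd (nat_lit 94) (nat_lit 0) (nat_lit 0) (XT.lf (nat_lit 0) (nat_lit 973914809) (nat_lit 672) (nat_lit 17082051528) (nat_lit 84) (nat_lit 2113743869) (nat_lit 93) (nat_lit 5) (nat_lit 101) (nat_lit 5) (nat_lit 94) (nat_lit 5) (nat_lit 350) (nat_lit 327) (nat_lit 187)) (XT.nd (nat_lit 94) (nat_lit 0) (nat_lit 0) (XT.lf (nat_lit 0) (nat_lit 2488483967) (nat_lit 672) (nat_lit 9151415337) (nat_lit 84) (nat_lit 8900961670) (nat_lit 93) (nat_lit 5) (nat_lit 101) (nat_lit 5) (nat_lit 94) (nat_lit 5) (nat_lit 351) (nat_lit 327) (nat_lit 186)) (XT.lf (nat_lit 0) (nat_lit 4043527932) (nat_lit 672) (nat_lit 981106028) (nat_lit 84) (nat_lit 15899106507) (nat_lit 93) (nat_lit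 5) (nat_lit 101) (nat_lit 5) (nat_lit 94) (nat_lit 5) (nat_lit 352) (nat_lit 327) (nat_lit 185)))) (XT.nd (nat_lit 94) (nat_lit 504) (nat_lit 0) (XT.lf (nat_lit 0) (nat_lit 5734370490) (nat_lit 588) (nat_lit 13745556662) (nat_lit 84) (nat_lit 1835868317) (nat_lit 87) (nat_lit 5) (nat_lit 94) (nat_lit 5) (nat_lit 88) (nat_lit 5) (nat_lit 353) (nat_lit 327) (nat_lit 184)) (XT.nd (nat_lit 94) (nat_lit 504) (nat_lit 0) (XT.lf (nat_lit 0) (nat_lit 7533214996) (nat_lit 588) (nat_lit 5369851473) (nat_lit 84) (nat_lit 8815235499) (nat_lit 87) (nat_lit 5) (nat_lit 94) (nat_lit 5) (nat_lit 88) (nat_lit 5) (nat_lit 354) (nat_lit 327) (nat_lit 183)) (XT.lf (nat_lit 0) (nat_lit 3326564068) (nat_lit 504) (nat_lit 6088294622) (nat_lit 588) (nat_lit 12717609715) (nat_lit 81) (nat_lit 5) (nat_lit 87) (nat_lit 5) (nat_lit 88) (nat_lit 5) (nat_lit 355) (nat_lit 327) (nat_lit 182))))) (XT.nd (nat_lit 282)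 (nat_lit 420) (nat_lit 0) (XT.nd (nat_lit 94) (nat_lit 420) (nat_lit 0) (XT.lf (nat_lit 0) (nat_lit 11414914657) (nat_lit 588) (nat_lit 10167304996) (nat_lit 84) (nat_lit 975411540) (nat_lit 81) (nat_lit 5) (nat_lit 88) (nat_lit 5) (nat_lit 82) (nat_lit 5) (nat_lit 356) (nat_lit 327) (nat_lit 181)) (XT.nd (nat_lit 94) (nat_lit 420) (nat_lit 0) (XT.lf (nat_lit 0) (nat_lit 13533572397) (nat_lit 588) (nat_lit 1329093972) (nat_lit 84) (nat_lit 8131572176) (nat_lit 81) (nat_lit 5) (nat_lit 88) (nat_lit 5) (nat_lit 82) (nat_lit 5) (nat_lit 357) (nat_lit 327) (nat_lit 180)) (XT.lf (nat_lit 0) (nat_lit 7937282051) (nat_lit 420) (nat_lit 7853866854) (nat_lit 504) (nat_lit 7650979912) (nat_lit 76) (nat_lit 5) (nat_lit 81) (nat_lit 5) (nat_lit 82) (nat_lit 5) (nat_lit 358) (nat_lit 327) (nat_lit 179)))) (XT.nd (nat_lit 94) (nat_lit 420) (nat_lit 0) (XT.lf (nat_lit 0) (nat_lit 17513411833) (nat_lit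 420) (nat_lit 613782005) (nat_lit 504) (nat_lit 5776464846) (nat_lit 76) (nat_lit 5) (nat_lit 81) (nat_lit 5) (nat_lit 82) (nat_lit 5) (nat_lit 359) (nat_lit 327) (nat_lit 178)) (XT.nd (nat_lit 94) (nat_lit 0) (nat_lit 0) (XT.lf (nat_lit 0) (nat_lit 2993573342) (nat_lit 420) (nat_lit 17634509477) (nat_lit 504) (nat_lit 3748565377) (nat_lit 71) (nat_lit 5) (nat_lit 76) (nat_lit 5) (nat_lit 77) (nat_lit 5) (nat_lit 360) (nat_lit 327) (nat_lit 177)) (XT.lf (nat_lit 0) (nat_lit 12791726870) (nat_lit 420) (nat_lit 10482558771) (nat_lit 504) (nat_lit 1587930289) (nat_lit 71) (nat_lit 5) (nat_lit 76) (nat_lit 5) (nat_lit 77) (nat_lit 5) (nat_lit 361) (nat_lit 327) (nat_lit 176)))))) (XT.nd (nat_lit 564) (nat_lit 1092) (nat_lit 0) (XT.nd (nat_lit 282) (nat_lit 420) (nat_lit 0) (XT.nd (nat_lit 94) (nat_lit 420) (nat_lit 0) (XT.lf (nat_lit 0) (nat_lit 621754741) (nat_lit 504) (nat_lit 2481137549)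 (nat_lit 84) (nat_lit 22259919462) (nat_lit 70) (nat_lit 5) (nat_lit 76) (nat_lit 5) (nat_lit 71) (nat_lit 5) (nat_lit 362) (nat_lit 327) (nat_lit 175)) (XT.nd (nat_lit 94) (nat_lit 0) (nat_lit 0) (XT.lf (nat_lit 0) (nat_lit 2982440742) (nat_lit 504) (nat_lit 18386234420) (nat_lit 84) (nat_lit 4506182797) (nat_lit 65) (nat_lit 5) (nat_lit 71) (nat_lit 5) (nat_lit 66) (nat_lit 5) (nat_lit 363) (nat_lit 327) (nat_lit 174)) (XT.lf (nat_lit 0) (nat_lit 5469404562) (nat_lit 504) (nat_lit 8619443161) (nat_lit 84) (nat_lit 12312298860) (nat_lit 65) (nat_lit 5) (nat_lit 71) (nat_lit 5) (nat_lit 66) (nat_lit 5) (nat_lit 364) (nat_lit 327) (nat_lit 173)))) (XT.nd (nat_lit 94) (nat_lit 0) (nat_lit 0) (XT.lf (nat_lit 0) (nat_lit 1474477597) (nat_lit 420) (nat_lit 6568956436) (nat_lit 504) (nat_lit 18900021583) (nat_lit 60) (nat_lit 5) (nat_lit 65) (nat_lit 5) (nat_lit 66) (nat_lit 5) (nat_lit 365)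 (nat_lit 327) (nat_lit 172)) (XT.nd (nat_lit 94) (nat_lit 0) (nat_lit 0) (XT.lf (nat_lit 0) (nat_lit 10795316938) (nat_lit 504) (nat_lit 15453858608) (nat_lit 84) (nat_lit 1250374958) (nat_lit 60) (nat_lit 5) (nat_lit 66) (nat_lit 5) (nat_lit 61) (nat_lit 5) (nat_lit 366) (nat_lit 327) (nat_lit 171)) (XT.lf (nat_lit 0) (nat_lit 13695253900) (nat_lit 504) (nat_lit 5200734691) (nat_lit 84) (nat_lit 9174964293) (nat_lit 60) (nat_lit 5) (nat_lit 66) (nat_lit 5) (nat_lit 61) (nat_lit 5) (nat_lit 367) (nat_lit 327) (nat_lit 170))))) (XT.nd (nat_lit 282) (nat_lit 756) (nat_lit 0) (XT.nd (nat_lit 94) (nat_lit 0) (nat_lit 0) (XT.lf (nat_lit 0) (nat_lit 5475433358) (nat_lit 336) (nat_lit 11259666722) (nat_lit 420) (nat_lit 11923431563) (nat_lit 56) (nat_lit 5) (nat_lit 60) (nat_lit 5) (nat_lit 61) (nat_lit 5) (nat_lit 368) (nat_lit 327) (nat_lit 169)) (XT.nd (nat_lit 94) (nat_lit 0) (nat_lit 0)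 (XT.lf (nat_lit 0) (nat_lit 16587746812) (nat_lit 336) (nat_lit 3331493066) (nat_lit 420) (nat_lit 9343546515) (nat_lit 56) (nat_lit 5) (nat_lit 60) (nat_lit 5) (nat_lit 61) (nat_lit 5) (nat_lit 369) (nat_lit 327) (nat_lit 168)) (XT.lf (nat_lit 0) (nat_lit 23246018117) (nat_lit 420) (nat_lit 1894316497) (nat_lit 84) (nat_lit 4744089060) (nat_lit 56) (nat_lit 5) (nat_lit 61) (nat_lit 5) (nat_lit 57) (nat_lit 5) (nat_lit 370) (nat_lit 327) (nat_lit 167)))) (XT.nd (nat_lit 94) (nat_lit 420) (nat_lit 0) (XT.lf (nat_lit 0) (nat_lit 9370433085) (nat_lit 336) (nat_lit 17428538461) (nat_lit 420) (nat_lit 3722557862) (nat_lit 52) (nat_lit 5) (nat_lit 56) (nat_lit 5) (nat_lit 57) (nat_lit 5) (nat_lit 371) (nat_lit 327) (nat_lit 166)) (XT.nd (nat_lit 94) (nat_lit 420) (nat_lit 0) (XT.lf (nat_lit 0) (nat_lit 21019702061) (nat_lit 336) (nat_lit 9458224840) (nat_lit 420) (nat_lit 699978578) (nat_lit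 52) (nat_lit 5) (nat_lit 56) (nat_lit 5) (nat_lit 57) (nat_lit 5) (nat_lit 372) (nat_lit 327) (nat_lit 165)) (XT.lf (nat_lit 0) (nat_lit 1170287112) (nat_lit 336) (nat_lit 1205095138) (nat_lit 420) (nat_lit 29478274221) (nat_lit 47) (nat_lit 5) (nat_lit 51) (nat_lit 5) (nat_lit 52) (nat_lit 5) (nat_lit 373) (nat_lit 327) (nat_lit 164))))))) (XT.nd (nat_lit 1128) (nat_lit 756) (nat_lit 0) (XT.nd (nat_lit 564) (nat_lit 588) (nat_lit 0) (XT.nd (nat_lit 282) (nat_lit 252) (nat_lit 0) (XT.nd (nat_lit 94) (nat_lit 336) (nat_lit 0) (XT.lf (nat_lit 0) (nat_lit 5707323972) (nat_lit 420) (nat_lit 19567318763) (nat_lit 84) (nat_lit 7270052446) (nat_lit 47) (nat_lit 5) (nat_lit 52) (nat_lit 5) (nat_lit 48) (nat_lit 5) (nat_lit 374) (nat_lit 327) (nat_lit 163)) (XT.nd (nat_lit 94) (nat_lit 336) (nat_lit 0) (XT.lf (nat_lit 0) (nat_lit 9151209250) (nat_lit 420) (nat_lit 8123710153) (nat_lit 84) (nat_lit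 15981978817) (nat_lit 47) (nat_lit 5) (nat_lit 52) (nat_lit 5) (nat_lit 48) (nat_lit 5) (nat_lit 375) (nat_lit 327) (nat_lit 162)) (XT.lf (nat_lit 0) (nat_lit 3745542130) (nat_lit 336) (nat_lit 8989907563) (nat_lit 420) (nat_lit 21254698492) (nat_lit 43) (nat_lit 5) (nat_lit 47) (nat_lit 5) (nat_lit 48) (nat_lit 5) (nat_lit 376) (nat_lit 327) (nat_lit 161)))) (XT.nd (nat_lit 94) (nat_lit 252) (nat_lit 0) (XT.lf (nat_lit 0) (nat_lit 16150433396) (nat_lit 336) (nat_lit 361663736) (nat_lit 420) (nat_lit 18231521375) (nat_lit 43) (nat_lit 5) (nat_lit 47) (nat_lit 5) (nat_lit 48) (nat_lit 5) (nat_lit 377) (nat_lit 327) (nat_lit 160)) (XT.nd (nat_lit 94) (nat_lit 252) (nat_lit 0) (XT.lf (nat_lit 0) (nat_lit 20487075534) (nat_lit 420) (nat_lit 6669723949) (nat_lit 84) (nat_lit 8361137496) (nat_lit 43) (nat_lit 5) (nat_lit 48) (nat_lit 5) (nat_lit 44) (nat_lit 5) (nat_lit 378) (nat_lit 327)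 (nat_lit 159)) (XT.lf (nat_lit 0) (nat_lit 5730767952) (nat_lit 252) (nat_lit 18911757566) (nat_lit 336) (nat_lit 11671968331) (nat_lit 40) (nat_lit 5) (nat_lit 43) (nat_lit 5) (nat_lit 44) (nat_lit 5) (nat_lit 379) (nat_lit 327) (nat_lit 158))))) (XT.nd (nat_lit 282) (nat_lit 336) (nat_lit 0) (XT.nd (nat_lit 94) (nat_lit 252) (nat_lit 0) (XT.lf (nat_lit 0) (nat_lit 18652754096) (nat_lit 252) (nat_lit 10340413411) (nat_lit 336) (nat_lit 8140527821) (nat_lit 40) (nat_lit 5) (nat_lit 43) (nat_lit 5) (nat_lit 44) (nat_lit 5) (nat_lit 380) (nat_lit 327) (nat_lit 157)) (XT.nd (nat_lit 94) (nat_lit 252) (nat_lit 0) (XT.lf (nat_lit 0) (nat_lit 31971135923) (nat_lit 252) (nat_lit 1504395869) (nat_lit 336) (nat_lit 4502866483) (nat_lit 40) (nat_lit 5) (nat_lit 43) (nat_lit 5) (nat_lit 44) (nat_lit 5) (nat_lit 381) (nat_lit 327) (nat_lit 156)) (XT.lf (nat_lit 0) (nat_lit 6912776673) (nat_lit 252)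 (nat_lit 31325033223) (nat_lit 336) (nat_lit 607115725) (nat_lit 37) (nat_lit 5) (nat_lit 40) (nat_lit 5) (nat_lit 41) (nat_lit 5) (nat_lit 382) (nat_lit 327) (nat_lit 155)))) (XT.nd (nat_lit 94) (nat_lit 252) (nat_lit 0) (XT.lf (nat_lit 0) (nat_lit 3416392254) (nat_lit 336) (nat_lit 19429714863) (nat_lit 84) (nat_lit 16888821507) (nat_lit 36) (nat_lit 5) (nat_lit 40) (nat_lit 5) (nat_lit 37) (nat_lit 5) (nat_lit 383) (nat_lit 327) (nat_lit 154)) (XT.nd (nat_lit 94) (nat_lit 252) (nat_lit 0) (XT.lf (nat_lit 0) (nat_lit 7549059068) (nat_lit 336) (nat_lit 6549970582) (nat_lit 84) (nat_lit 26553398950) (nat_lit 36) (nat_lit 5) (nat_lit 40) (nat_lit 5) (nat_lit 37) (nat_lit 5) (nat_lit 384) (nat_lit 327) (nat_lit 153)) (XT.lf (nat_lit 0) (nat_lit 6863393920) (nat_lit 252) (nat_lit 5011660620) (nat_lit 336) (nat_lit 29721302260) (nat_lit 33) (nat_lit 5) (nat_lit 36) (nat_lit 5) (nat_lit 37)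 (nat_lit 5) (nat_lit 385) (nat_lit 327) (nat_lit 152)))))) (XT.nd (nat_lit 564) (nat_lit 336) (nat_lit 0) (XT.nd (nat_lit 282) (nat_lit 168) (nat_lit 0) (XT.nd (nat_lit 94) (nat_lit 252) (nat_lit 0) (XT.lf (nat_lit 0) (nat_lit 16444616785) (nat_lit 336) (nat_lit 21783902225) (nat_lit 84) (nat_lit 4337641674) (nat_lit 33) (nat_lit 5) (nat_lit 37) (nat_lit 5) (nat_lit 34) (nat_lit 5) (nat_lit 386) (nat_lit 327) (nat_lit 151)) (XT.nd (nat_lit 94) (nat_lit 252) (nat_lit 0) (XT.lf (nat_lit 0) (nat_lit 21204345423) (nat_lit 336) (nat_lit 8488536736) (nat_lit 84) (nat_lit 13871649501) (nat_lit 33) (nat_lit 5) (nat_lit 37) (nat_lit 5) (nat_lit 34) (nat_lit 5) (nat_lit 387) (nat_lit 327) (nat_lit 150)) (XT.lf (nat_lit 0) (nat_lit 5322478637) (nat_lit 252) (nat_lit 20839281737) (nat_lit 336) (nat_lit 18430544358) (nat_lit 30) (nat_lit 5) (nat_lit 33) (nat_lit 5) (nat_lit 34) (nat_lit 5) (nat_lit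 388) (nat_lit 327) (nat_lit 149)))) (XT.nd (nat_lit 94) (nat_lit 168) (nat_lit 0) (XT.lf (nat_lit 0) (nat_lit 19737883366) (nat_lit 252) (nat_lit 11620953192) (nat_lit 336) (nat_lit 14290443355) (nat_lit 30) (nat_lit 5) (nat_lit 33) (nat_lit 5) (nat_lit 34) (nat_lit 5) (nat_lit 389) (nat_lit 327) (nat_lit 148)) (XT.nd (nat_lit 94) (nat_lit 168) (nat_lit 0) (XT.lf (nat_lit 0) (nat_lit 34596572393) (nat_lit 252) (nat_lit 2117906992) (nat_lit 336) (nat_lit 10024627135) (nat_lit 30) (nat_lit 5) (nat_lit 33) (nat_lit 5) (nat_lit 34) (nat_lit 5) (nat_lit 390) (nat_lit 327) (nat_lit 147)) (XT.lf (nat_lit 0) (nat_lit 2013998977) (nat_lit 168) (nat_lit 40315834817) (nat_lit 252) (nat_lit 5529985850) (nat_lit 28) (nat_lit 5) (nat_lit 30) (nat_lit 5) (nat_lit 31) (nat_lit 5) (nat_lit 391) (nat_lit 327) (nat_lit 146))))) (XT.nd (nat_lit 282) (nat_lit 252) (nat_lit 0) (XT.nd (nat_lit 94) (nat_lit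 84) (nat_lit 0) (XT.lf (nat_lit 0) (nat_lit 16841171633) (nat_lit 168) (nat_lit 31423840765) (nat_lit 252) (nat_lit 745750275) (nat_lit 28) (nat_lit 5) (nat_lit 30) (nat_lit 5) (nat_lit 31) (nat_lit 5) (nat_lit 392) (nat_lit 327) (nat_lit 145)) (XT.nd (nat_lit 94) (nat_lit 0) (nat_lit 0) (XT.lf (nat_lit 0) (nat_lit 4100048532) (nat_lit 252) (nat_lit 18114402510) (nat_lit 84) (nat_lit 27981726189) (nat_lit 27) (nat_lit 5) (nat_lit 30) (nat_lit 5) (nat_lit 28) (nat_lit 5) (nat_lit 393) (nat_lit 327) (nat_lit 144)) (XT.lf (nat_lit 0) (nat_lit 9078254634) (nat_lit 252) (nat_lit 3634496726) (nat_lit 84) (nat_lit 38705429271) (nat_lit 27) (nat_lit 5) (nat_lit 30) (nat_lit 5) (nat_lit 28) (nat_lit 5) (nat_lit 394) (nat_lit 327) (nat_lit 143)))) (XT.nd (nat_lit 94) (nat_lit 0) (nat_lit 0) (XT.lf (nat_lit 0) (nat_lit 11523187586) (nat_lit 252) (nat_lit 2799657305) (nat_lit 336) (nat_lit 38351752694)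 (nat_lit 24) (nat_lit 5) (nat_lit 27) (nat_lit 5) (nat_lit 28) (nat_lit 5) (nat_lit 395) (nat_lit 327) (nat_lit 142)) (XT.nd (nat_lit 94) (nat_lit 0) (nat_lit 0) (XT.lf (nat_lit 0) (nat_lit 19839730710) (nat_lit 336) (nat_lit 26818276392) (nat_lit 84) (nat_lit 7308560398) (nat_lit 24) (nat_lit 5) (nat_lit 28) (nat_lit 5) (nat_lit 25) (nat_lit 5) (nat_lit 396) (nat_lit 327) (nat_lit 141)) (XT.lf (nat_lit 0) (nat_lit 25554114714) (nat_lit 336) (nat_lit 12072646260) (nat_lit 84) (nat_lit 17671011780) (nat_lit 24) (nat_lit 5) (nat_lit 28) (nat_lit 5) (nat_lit 25) (nat_lit 5) (nat_lit 397) (nat_lit 327) (nat_lit 140))))))))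
noncomputable def xc174 : XT := (XT.nd (nat_lit 48598) (nat_lit 0) (nat_lit 4704) (XT.nd (nat_lit 1128) (nat_lit 168) (nat_lit 0) (XT.nd (nat_lit 564) (nat_lit 168) (nat_lit 0) (XT.nd (nat_lit 282) (nat_lit 252) (nat_lit 0) (XT.nd (nat_lit 94) (nat_lit 0) (nat_lit 0) (XT.lf (nat_lit 0) (nat_lit 3191295302) (nat_lit 168) (nat_lit 28283913102) (nat_lit 252) (nat_lit 25194125330) (nat_lit 22) (nat_lit 5) (nat_lit 24) (nat_lit 5) (nat_lit 25) (nat_lit 5) (nat_lit 398) (nat_lit 327) (nat_lit 139)) (XT.nd (nat_lit 94) (nat_lit 0) (nat_lit 0) (XT.lf (nat_lit 0) (nat_lit 19181283611) (nat_lit 168) (nat_lit 18522524318) (nat_lit 252) (nat_lit 20375767361) (nat_lit 22) (nat_lit 5) (nat_lit 24) (nat_lit 5) (nat_lit 25) (nat_lit 5) (nat_lit 399) (nat_lit 327) (nat_lit 138)) (XT.lf (nat_lit 0) (nat_lit 35663984641) (nat_lit 168) (nat_lit 8459509651) (nat_lit 252) (nat_lit 15410106586) (nat_lit 22)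 (nat_lit 5) (nat_lit 24) (nat_lit 5) (nat_lit 25) (nat_lit 5) (nat_lit 400) (nat_lit 327) (nat_lit 137)))) (XT.nd (nat_lit 94) (nat_lit 252) (nat_lit 0) (XT.lf (nat_lit 0) (nat_lit 50759243497) (nat_lit 252) (nat_lit 8396995991) (nat_lit 84) (nat_lit 1875937558) (nat_lit 22) (nat_lit 5) (nat_lit 25) (nat_lit 5) (nat_lit 23) (nat_lit 5) (nat_lit 401) (nat_lit 327) (nat_lit 136)) (XT.nd (nat_lit 94) (nat_lit 84) (nat_lit 0) (XT.lf (nat_lit 0) (nat_lit 7619414753) (nat_lit 168) (nat_lit 50141502178) (nat_lit 252) (nat_lit 4811329731) (nat_lit 20) (nat_lit 5) (nat_lit 22) (nat_lit 5) (nat_lit 23) (nat_lit 5) (nat_lit 402) (nat_lit 327) (nat_lit 135)) (XT.lf (nat_lit 0) (nat_lit 889730148) (nat_lit 252) (nat_lit 39858889994) (nat_lit 84) (nat_lit 23408503851) (nat_lit 19) (nat_lit 5) (nat_lit 22) (nat_lit 5) (nat_lit 20) (nat_lit 5) (nat_lit 403) (nat_lit 327) (nat_lit 134))))) (XT.nd (nat_lit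 282) (nat_lit 0) (nat_lit 0) (XT.nd (nat_lit 94) (nat_lit 168) (nat_lit 0) (XT.lf (nat_lit 0) (nat_lit 6665752203) (nat_lit 252) (nat_lit 24349026192) (nat_lit 84) (nat_lit 34774889237) (nat_lit 19) (nat_lit 5) (nat_lit 22) (nat_lit 5) (nat_lit 20) (nat_lit 5) (nat_lit 404) (nat_lit 327) (nat_lit 133)) (XT.nd (nat_lit 94) (nat_lit 168) (nat_lit 0) (XT.lf (nat_lit 0) (nat_lit 12619057864) (nat_lit 252) (nat_lit 8361054698) (nat_lit 84) (nat_lit 46492766318) (nat_lit 19) (nat_lit 5) (nat_lit 22) (nat_lit 5) (nat_lit 20) (nat_lit 5) (nat_lit 405) (nat_lit 327) (nat_lit 132)) (XT.lf (nat_lit 0) (nat_lit 8286889303) (nat_lit 168) (nat_lit 10550513899) (nat_lit 252) (nat_lit 50368375048) (nat_lit 17) (nat_lit 5) (nat_lit 19) (nat_lit 5) (nat_lit 20) (nat_lit 5) (nat_lit 406) (nat_lit 327) (nat_lit 131)))) (XT.nd (nat_lit 94) (nat_lit 0) (nat_lit 0) (XT.lf (nat_lit 0) (nat_lit 25336987307)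 (nat_lit 252) (nat_lit 45367060617) (nat_lit 84) (nat_lit 285610572) (nat_lit 17) (nat_lit 5) (nat_lit 20) (nat_lit 5) (nat_lit 18) (nat_lit 5) (nat_lit 407) (nat_lit 327) (nat_lit 130)) (XT.nd (nat_lit 94) (nat_lit 0) (nat_lit 0) (XT.lf (nat_lit 0) (nat_lit 32144314003) (nat_lit 252) (nat_lit 29443590882) (nat_lit 84) (nat_lit 11237643685) (nat_lit 17) (nat_lit 5) (nat_lit 20) (nat_lit 5) (nat_lit 18) (nat_lit 5) (nat_lit 408) (nat_lit 327) (nat_lit 129)) (XT.lf (nat_lit 0) (nat_lit 39161066028) (nat_lit 252) (nat_lit 13028974996) (nat_lit 84) (nat_lit 22528363221) (nat_lit 17) (nat_lit 5) (nat_lit 20) (nat_lit 5) (nat_lit 18) (nat_lit 5) (nat_lit 409) (nat_lit 327) (nat_lit 128)))))) (XT.nd (nat_lit 46906) (nat_lit 0) (nat_lit 8400) (XT.nd (nat_lit 46624) (nat_lit 0) (nat_lit 8316) (XT.nd (nat_lit 94) (nat_lit 0) (nat_lit 0) (XT.lf (nat_lit 0) (nat_lit 3972116476) (nat_lit 168) (nat_lit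 42461071141) (nat_lit 252) (nat_lit 30235580726) (nat_lit 15) (nat_lit 5) (nat_lit 17) (nat_lit 5) (nat_lit 18) (nat_lit 5) (nat_lit 410) (nat_lit 327) (nat_lit 127)) (XT.nd (nat_lit 46436) (nat_lit 0) (nat_lit 8316) (XT.lf (nat_lit 0) (nat_lit 21774066774) (nat_lit 168) (nat_lit 32291143424) (nat_lit 252) (nat_lit 24610218265) (nat_lit 15) (nat_lit 5) (nat_lit 17) (nat_lit 5) (nat_lit 18) (nat_lit 5) (nat_lit 411) (nat_lit 327) (nat_lit 126)) (XT.lf (nat_lit 0) (nat_lit 33727502) (nat_lit 0) (nat_lit 33727502) (nat_lit 1092) (nat_lit 7052293729) (nat_lit 114) (nat_lit 5) (nat_lit 114) (nat_lit 3) (nat_lit 127) (nat_lit 3) (nat_lit 328) (nat_lit 328) (nat_lit 208)))) (XT.nd (nat_lit 94) (nat_lit 0) (nat_lit 0) (XT.lf (nat_lit 0) (nat_lit 478826017) (nat_lit 1092) (nat_lit 8766980052) (nat_lit 1176) (nat_lit 5202725125) (nat_lit 114) (nat_lit 5) (nat_lit 127) (nat_lit 3) (nat_lit 128)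 (nat_lit 5) (nat_lit 329) (nat_lit 328) (nat_lit 207)) (XT.nd (nat_lit 94) (nat_lit 0) (nat_lit 84) (XT.lf (nat_lit 0) (nat_lit 822499585) (nat_lit 1092) (nat_lit 3201338967) (nat_lit 1176) (nat_lit 10640588032) (nat_lit 114) (nat_lit 5) (nat_lit 127) (nat_lit 3) (nat_lit 128) (nat_lit 5) (nat_lit 330) (nat_lit 328) (nat_lit 206)) (XT.lf (nat_lit 0) (nat_lit 1205007898) (nat_lit 1092) (nat_lit 12317641042) (nat_lit 1176) (nat_lit 1363534470) (nat_lit 115) (nat_lit 5) (nat_lit 128) (nat_lit 5) (nat_lit 129) (nat_lit 5) (nat_lit 331) (nat_lit 328) (nat_lit 205))))) (XT.nd (nat_lit 282) (nat_lit 0) (nat_lit 84) (XT.nd (nat_lit 94) (nat_lit 0) (nat_lit 0) (XT.lf (nat_lit 0) (nat_lit 1663367526) (nat_lit 1092) (nat_lit 6576585669) (nat_lit 1176) (nat_lit 6872918716) (nat_lit 115) (nat_lit 5) (nat_lit 128) (nat_lit 5) (nat_lit 129) (nat_lit 5) (nat_lit 332) (nat_lit 328) (nat_lit 204)) (XT.nd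 (nat_lit 94) (nat_lit 0) (nat_lit 84) (XT.lf (nat_lit 0) (nat_lit 2125346565) (nat_lit 1092) (nat_lit 663830533) (nat_lit 1176) (nat_lit 12557778720) (nat_lit 115) (nat_lit 5) (nat_lit 128) (nat_lit 5) (nat_lit 129) (nat_lit 5) (nat_lit 333) (nat_lit 328) (nat_lit 203)) (XT.lf (nat_lit 0) (nat_lit 2674993402) (nat_lit 1092) (nat_lit 10077925218) (nat_lit 1176) (nat_lit 2833142550) (nat_lit 116) (nat_lit 5) (nat_lit 129) (nat_lit 5) (nat_lit 130) (nat_lit 5) (nat_lit 334) (nat_lit 328) (nat_lit 202)))) (XT.nd (nat_lit 94) (nat_lit 0) (nat_lit 0) (XT.lf (nat_lit 0) (nat_lit 3267223348) (nat_lit 1092) (nat_lit 3981865849) (nat_lit 1176) (nat_lit 8582735150) (nat_lit 116) (nat_lit 5) (nat_lit 129) (nat_lit 5) (nat_lit 130) (nat_lit 5) (nat_lit 335) (nat_lit 328) (nat_lit 201)) (XT.nd (nat_lit 94) (nat_lit 0) (nat_lit 84) (XT.lf (nat_lit 84) (nat_lit 2344183657) (nat_lit 0) (nat_lit 1547200952)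 (nat_lit 1176) (nat_lit 12193437135) (nat_lit 117) (nat_lit 5) (nat_lit 116) (nat_lit 5) (nat_lit 130) (nat_lit 5) (nat_lit 336) (nat_lit 328) (nat_lit 200)) (XT.lf (nat_lit 0) (nat_lit 4610431327) (nat_lit 1092) (nat_lit 7443528797) (nat_lit 1176) (nat_lit 4289395514) (nat_lit 117) (nat_lit 5) (nat_lit 130) (nat_lit 5) (nat_lit 131) (nat_lit 5) (nat_lit 337) (nat_lit 328) (nat_lit 199))))))) (XT.nd (nat_lit 1128) (nat_lit 2520) (nat_lit 0) (XT.nd (nat_lit 564) (nat_lit 1344) (nat_lit 0) (XT.nd (nat_lit 282) (nat_lit 0) (nat_lit 84) (XT.nd (nat_lit 94) (nat_lit 0) (nat_lit 0) (XT.lf (nat_lit 0) (nat_lit 5358456326) (nat_lit 1092) (nat_lit 973353200) (nat_lit 1176) (nat_lit 10277921382) (nat_lit 117) (nat_lit 5) (nat_lit 130) (nat_lit 5) (nat_lit 131) (nat_lit 5) (nat_lit 338) (nat_lit 328) (nat_lit 198)) (XT.nd (nat_lit 94) (nat_lit 0) (nat_lit 84) (XT.lf (nat_lit 84) (nat_lit 5808292151)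 (nat_lit 0) (nat_lit 370135245) (nat_lit 1176) (nat_lit 10704458061) (nat_lit 118) (nat_lit 5) (nat_lit 117) (nat_lit 5) (nat_lit 131) (nat_lit 5) (nat_lit 339) (nat_lit 328) (nat_lit 197)) (XT.lf (nat_lit 0) (nat_lit 7082753658) (nat_lit 1092) (nat_lit 4407189672) (nat_lit 1176) (nat_lit 5672769576) (nat_lit 118) (nat_lit 5) (nat_lit 131) (nat_lit 5) (nat_lit 132) (nat_lit 5) (nat_lit 340) (nat_lit 328) (nat_lit 196)))) (XT.nd (nat_lit 94) (nat_lit 0) (nat_lit 84) (XT.lf (nat_lit 84) (nat_lit 2507435462) (nat_lit 0) (nat_lit 5527967980) (nat_lit 1176) (nat_lit 9415213753) (nat_lit 119) (nat_lit 5) (nat_lit 118) (nat_lit 5) (nat_lit 132) (nat_lit 5) (nat_lit 341) (nat_lit 328) (nat_lit 195)) (XT.nd (nat_lit 94) (nat_lit 0) (nat_lit 0) (XT.lf (nat_lit 0) (nat_lit 9062037488) (nat_lit 1092) (nat_lit 8029228601) (nat_lit 1176) (nat_lit 654832634) (nat_lit 119) (nat_lit 5) (nat_lit 132)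 (nat_lit 5) (nat_lit 133) (nat_lit 5) (nat_lit 342) (nat_lit 328) (nat_lit 194)) (XT.lf (nat_lit 0) (nat_lit 10169121378) (nat_lit 1092) (nat_lit 963730188) (nat_lit 1176) (nat_lit 6916410578) (nat_lit 119) (nat_lit 5) (nat_lit 132) (nat_lit 5) (nat_lit 133) (nat_lit 5) (nat_lit 343) (nat_lit 328) (nat_lit 193))))) (XT.nd (nat_lit 282) (nat_lit 504) (nat_lit 0) (XT.nd (nat_lit 94) (nat_lit 1008) (nat_lit 0) (XT.lf (nat_lit 84) (nat_lit 6444581370) (nat_lit 0) (nat_lit 4922198579) (nat_lit 1176) (nat_lit 6993328209) (nat_lit 120) (nat_lit 5) (nat_lit 119) (nat_lit 5) (nat_lit 133) (nat_lit 5) (nat_lit 344) (nat_lit 328) (nat_lit 192)) (XT.nd (nat_lit 94) (nat_lit 1092) (nat_lit 0) (XT.lf (nat_lit 0) (nat_lit 12618929980) (nat_lit 1092) (nat_lit 4598366875) (nat_lit 84) (nat_lit 1462782835) (nat_lit 120) (nat_lit 5) (nat_lit 133) (nat_lit 5) (nat_lit 121) (nat_lit 5) (nat_lit 345) (nat_lit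 328) (nat_lit 191)) (XT.lf (nat_lit 0) (nat_lit 2948603912) (nat_lit 1092) (nat_lit 11033621222) (nat_lit 1176) (nat_lit 5025529772) (nat_lit 107) (nat_lit 5) (nat_lit 120) (nat_lit 5) (nat_lit 121) (nat_lit 5) (nat_lit 346) (nat_lit 328) (nat_lit 190)))) (XT.nd (nat_lit 94) (nat_lit 504) (nat_lit 0) (XT.lf (nat_lit 0) (nat_lit 10820989008) (nat_lit 1092) (nat_lit 4607685057) (nat_lit 1176) (nat_lit 3915672293) (nat_lit 107) (nat_lit 5) (nat_lit 120) (nat_lit 5) (nat_lit 121) (nat_lit 5) (nat_lit 347) (nat_lit 328) (nat_lit 189)) (XT.nd (nat_lit 94) (nat_lit 504) (nat_lit 0) (XT.lf (nat_lit 0) (nat_lit 16933094489) (nat_lit 1176) (nat_lit 780060331) (nat_lit 84) (nat_lit 1977835412) (nat_lit 107) (nat_lit 5) (nat_lit 121) (nat_lit 5) (nat_lit 108) (nat_lit 5) (nat_lit 348) (nat_lit 328) (nat_lit 188)) (XT.lf (nat_lit 0) (nat_lit 7297267162) (nat_lit 504) (nat_lit 11299725447) (nat_lit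 588) (nat_lit 1447913804) (nat_lit 101) (nat_lit 5) (nat_lit 107) (nat_lit 5) (nat_lit 108) (nat_lit 5) (nat_lit 349) (nat_lit 328) (nat_lit 187)))))) (XT.nd (nat_lit 564) (nat_lit 1344) (nat_lit 0) (XT.nd (nat_lit 282) (nat_lit 504) (nat_lit 0) (XT.nd (nat_lit 94) (nat_lit 672) (nat_lit 0) (XT.lf (nat_lit 0) (nat_lit 15635678882) (nat_lit 504) (nat_lit 4678402680) (nat_lit 588) (nat_lit 95686197) (nat_lit 101) (nat_lit 5) (nat_lit 107) (nat_lit 5) (nat_lit 108) (nat_lit 5) (nat_lit 350) (nat_lit 328) (nat_lit 186)) (XT.nd (nat_lit 94) (nat_lit 0) (nat_lit 0) (XT.lf (nat_lit 0) (nat_lit 1322383802) (nat_lit 672) (nat_lit 17308071115) (nat_lit 84) (nat_lit 2153555238) (nat_lit 93) (nat_lit 5) (nat_lit 101) (nat_lit 5) (nat_lit 94) (nat_lit 5) (nat_lit 351) (nat_lit 328) (nat_lit 185)) (XT.lf (nat_lit 0) (nat_lit 2874334665) (nat_lit 672) (nat_lit 9140711530) (nat_lit 84) (nat_lit 9151949977)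 (nat_lit 93) (nat_lit 5) (nat_lit 101) (nat_lit 5) (nat_lit 94) (nat_lit 5) (nat_lit 352) (nat_lit 328) (nat_lit 184)))) (XT.nd (nat_lit 94) (nat_lit 504) (nat_lit 0) (XT.lf (nat_lit 0) (nat_lit 4468302802) (nat_lit 672) (nat_lit 725974551) (nat_lit 84) (nat_lit 16367787243) (nat_lit 93) (nat_lit 5) (nat_lit 101) (nat_lit 5) (nat_lit 94) (nat_lit 5) (nat_lit 353) (nat_lit 328) (nat_lit 183)) (XT.nd (nat_lit 94) (nat_lit 0) (nat_lit 0) (XT.lf (nat_lit 0) (nat_lit 6205257485) (nat_lit 588) (nat_lit 13878820485) (nat_lit 84) (nat_lit 1882421716) (nat_lit 87) (nat_lit 5) (nat_lit 94) (nat_lit 5) (nat_lit 88) (nat_lit 5) (nat_lit 354) (nat_lit 328) (nat_lit 182)) (XT.lf (nat_lit 0) (nat_lit 8051052624) (nat_lit 588) (nat_lit 5252273771) (nat_lit 84) (nat_lit 9078460740) (nat_lit 87) (nat_lit 5) (nat_lit 94) (nat_lit 5) (nat_lit 88) (nat_lit 5) (nat_lit 355) (nat_lit 328) (nat_lit 181)))))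 (XT.nd (nat_lit 282) (nat_lit 840) (nat_lit 0) (XT.nd (nat_lit 94) (nat_lit 0) (nat_lit 0) (XT.lf (nat_lit 0) (nat_lit 3710854971) (nat_lit 504) (nat_lit 6274412975) (nat_lit 588) (nat_lit 12823732450) (nat_lit 81) (nat_lit 5) (nat_lit 87) (nat_lit 5) (nat_lit 88) (nat_lit 5) (nat_lit 356) (nat_lit 328) (nat_lit 180)) (XT.nd (nat_lit 94) (nat_lit 0) (nat_lit 0) (XT.lf (nat_lit 0) (nat_lit 12038975474) (nat_lit 588) (nat_lit 10200516700) (nat_lit 84) (nat_lit 1008138160) (nat_lit 81) (nat_lit 5) (nat_lit 88) (nat_lit 5) (nat_lit 82) (nat_lit 5) (nat_lit 357) (nat_lit 328) (nat_lit 179)) (XT.lf (nat_lit 0) (nat_lit 14215187305) (nat_lit 588) (nat_lit 1096799522) (nat_lit 84) (nat_lit 8386064941) (nat_lit 81) (nat_lit 5) (nat_lit 88) (nat_lit 5) (nat_lit 82) (nat_lit 5) (nat_lit 358) (nat_lit 328) (nat_lit 178)))) (XT.nd (nat_lit 94) (nat_lit 420) (nat_lit 0) (XT.lf (nat_lit 0) (nat_lit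 8454065253) (nat_lit 420) (nat_lit 8083489063) (nat_lit 504) (nat_lit 7622459924) (nat_lit 76) (nat_lit 5) (nat_lit 81) (nat_lit 5) (nat_lit 82) (nat_lit 5) (nat_lit 359) (nat_lit 328) (nat_lit 177)) (XT.nd (nat_lit 94) (nat_lit 420) (nat_lit 0) (XT.lf (nat_lit 0) (nat_lit 18318914854) (nat_lit 420) (nat_lit 619377954) (nat_lit 504) (nat_lit 5697823941) (nat_lit 76) (nat_lit 5) (nat_lit 81) (nat_lit 5) (nat_lit 82) (nat_lit 5) (nat_lit 360) (nat_lit 328) (nat_lit 176)) (XT.lf (nat_lit 0) (nat_lit 3354639757) (nat_lit 420) (nat_lit 18157368457) (nat_lit 504) (nat_lit 3611931459) (nat_lit 71) (nat_lit 5) (nat_lit 76) (nat_lit 5) (nat_lit 77) (nat_lit 5) (nat_lit 361) (nat_lit 328) (nat_lit 175))))))))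
noncomputable def xc175 : XT := (XT.nd (nat_lit 2256) (nat_lit 1596) (nat_lit 0) (XT.nd (nat_lit 1128) (nat_lit 1344) (nat_lit 0) (XT.nd (nat_lit 564) (nat_lit 672) (nat_lit 0) (XT.nd (nat_lit 282) (nat_lit 420) (nat_lit 0) (XT.nd (nat_lit 94) (nat_lit 504) (nat_lit 0) (XT.lf (nat_lit 0) (nat_lit 13448469861) (nat_lit 420) (nat_lit 10784423220) (nat_lit 504) (nat_lit 1391919033) (nat_lit 71) (nat_lit 5) (nat_lit 76) (nat_lit 5) (nat_lit 77) (nat_lit 5) (nat_lit 362) (nat_lit 328) (nat_lit 174)) (XT.nd (nat_lit 94) (nat_lit 420) (nat_lit 0) (XT.lf (nat_lit 0) (nat_lit 874100053) (nat_lit 504) (nat_lit 2300148656) (nat_lit 84) (nat_lit 22966849076) (nat_lit 70) (nat_lit 5) (nat_lit 76) (nat_lit 5) (nat_lit 71) (nat_lit 5) (nat_lit 363) (nat_lit 328) (nat_lit 173)) (XT.lf (nat_lit 0) (nat_lit 3303756752) (nat_lit 504) (nat_lit 18693379157) (nat_lit 84) (nat_lit 4672034172) (nat_lit 65)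 (nat_lit 5) (nat_lit 71) (nat_lit 5) (nat_lit 66) (nat_lit 5) (nat_lit 364) (nat_lit 328) (nat_lit 172)))) (XT.nd (nat_lit 94) (nat_lit 420) (nat_lit 0) (XT.lf (nat_lit 0) (nat_lit 5860935101) (nat_lit 504) (nat_lit 8631720070) (nat_lit 84) (nat_lit 12719353266) (nat_lit 65) (nat_lit 5) (nat_lit 71) (nat_lit 5) (nat_lit 66) (nat_lit 5) (nat_lit 365) (nat_lit 328) (nat_lit 171)) (XT.nd (nat_lit 94) (nat_lit 0) (nat_lit 0) (XT.lf (nat_lit 0) (nat_lit 1772531337) (nat_lit 420) (nat_lit 6738057001) (nat_lit 504) (nat_lit 19260690835) (nat_lit 60) (nat_lit 5) (nat_lit 65) (nat_lit 5) (nat_lit 66) (nat_lit 5) (nat_lit 366) (nat_lit 328) (nat_lit 170)) (XT.lf (nat_lit 0) (nat_lit 11341562900) (nat_lit 504) (nat_lit 15681302725) (nat_lit 84) (nat_lit 1321960287) (nat_lit 60) (nat_lit 5) (nat_lit 66) (nat_lit 5) (nat_lit 61) (nat_lit 5) (nat_lit 367) (nat_lit 328) (nat_lit 169))))) (XT.nd (nat_lit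 282) (nat_lit 336) (nat_lit 0) (XT.nd (nat_lit 94) (nat_lit 336) (nat_lit 0) (XT.lf (nat_lit 0) (nat_lit 14325035807) (nat_lit 504) (nat_lit 5117897815) (nat_lit 84) (nat_lit 9491224951) (nat_lit 60) (nat_lit 5) (nat_lit 66) (nat_lit 5) (nat_lit 61) (nat_lit 5) (nat_lit 368) (nat_lit 328) (nat_lit 168)) (XT.nd (nat_lit 94) (nat_lit 0) (nat_lit 0) (XT.lf (nat_lit 0) (nat_lit 5886760558) (nat_lit 336) (nat_lit 11568582446) (nat_lit 420) (nat_lit 12084745267) (nat_lit 56) (nat_lit 5) (nat_lit 60) (nat_lit 5) (nat_lit 61) (nat_lit 5) (nat_lit 369) (nat_lit 328) (nat_lit 167)) (XT.lf (nat_lit 0) (nat_lit 17336291663) (nat_lit 336) (nat_lit 3395842150) (nat_lit 420) (nat_lit 9431147306) (nat_lit 56) (nat_lit 5) (nat_lit 60) (nat_lit 5) (nat_lit 61) (nat_lit 5) (nat_lit 370) (nat_lit 328) (nat_lit 166)))) (XT.nd (nat_lit 94) (nat_lit 336) (nat_lit 0) (XT.lf (nat_lit 0) (nat_lit 24156541537)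 (nat_lit 420) (nat_lit 1719684159) (nat_lit 84) (nat_lit 4928151849) (nat_lit 56) (nat_lit 5) (nat_lit 61) (nat_lit 5) (nat_lit 57) (nat_lit 5) (nat_lit 371) (nat_lit 328) (nat_lit 165)) (XT.nd (nat_lit 94) (nat_lit 0) (nat_lit 0) (XT.lf (nat_lit 0) (nat_lit 9891910138) (nat_lit 336) (nat_lit 17924308071) (nat_lit 420) (nat_lit 3645138650) (nat_lit 52) (nat_lit 5) (nat_lit 56) (nat_lit 5) (nat_lit 57) (nat_lit 5) (nat_lit 372) (nat_lit 328) (nat_lit 164)) (XT.lf (nat_lit 0) (nat_lit 21895360960) (nat_lit 336) (nat_lit 9708253203) (nat_lit 420) (nat_lit 534657054) (nat_lit 52) (nat_lit 5) (nat_lit 56) (nat_lit 5) (nat_lit 57) (nat_lit 5) (nat_lit 373) (nat_lit 328) (nat_lit 163)))))) (XT.nd (nat_lit 564) (nat_lit 588) (nat_lit 0) (XT.nd (nat_lit 282) (nat_lit 336) (nat_lit 0) (XT.nd (nat_lit 94) (nat_lit 0) (nat_lit 0) (XT.lf (nat_lit 0) (nat_lit 1432596449) (nat_lit 336) (nat_lit 1196407680)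 (nat_lit 420) (nat_lit 30206025964) (nat_lit 47) (nat_lit 5) (nat_lit 51) (nat_lit 5) (nat_lit 52) (nat_lit 5) (nat_lit 374) (nat_lit 328) (nat_lit 162)) (XT.nd (nat_lit 94) (nat_lit 0) (nat_lit 0) (XT.lf (nat_lit 0) (nat_lit 6059267316) (nat_lit 420) (nat_lit 19949207886) (nat_lit 84) (nat_lit 7539185173) (nat_lit 47) (nat_lit 5) (nat_lit 52) (nat_lit 5) (nat_lit 48) (nat_lit 5) (nat_lit 375) (nat_lit 328) (nat_lit 161)) (XT.lf (nat_lit 0) (nat_lit 9604650666) (nat_lit 420) (nat_lit 8157603598) (nat_lit 84) (nat_lit 16519865456) (nat_lit 47) (nat_lit 5) (nat_lit 52) (nat_lit 5) (nat_lit 48) (nat_lit 5) (nat_lit 376) (nat_lit 328) (nat_lit 160)))) (XT.nd (nat_lit 94) (nat_lit 0) (nat_lit 0) (XT.lf (nat_lit 0) (nat_lit 4077389044) (nat_lit 336) (nat_lit 9219649495) (nat_lit 420) (nat_lit 21741168213) (nat_lit 43) (nat_lit 5) (nat_lit 47) (nat_lit 5) (nat_lit 48) (nat_lit 5) (nat_lit 377)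 (nat_lit 328) (nat_lit 159)) (XT.nd (nat_lit 94) (nat_lit 0) (nat_lit 0) (XT.lf (nat_lit 0) (nat_lit 16860345238) (nat_lit 336) (nat_lit 325401788) (nat_lit 420) (nat_lit 18629457090) (nat_lit 43) (nat_lit 5) (nat_lit 47) (nat_lit 5) (nat_lit 48) (nat_lit 5) (nat_lit 378) (nat_lit 328) (nat_lit 158)) (XT.lf (nat_lit 0) (nat_lit 21279542312) (nat_lit 420) (nat_lit 6668683231) (nat_lit 84) (nat_lit 8665451127) (nat_lit 43) (nat_lit 5) (nat_lit 48) (nat_lit 5) (nat_lit 44) (nat_lit 5) (nat_lit 379) (nat_lit 328) (nat_lit 157))))) (XT.nd (nat_lit 282) (nat_lit 336) (nat_lit 0) (XT.nd (nat_lit 94) (nat_lit 0) (nat_lit 0) (XT.lf (nat_lit 0) (nat_lit 6114120110) (nat_lit 252) (nat_lit 19446999981) (nat_lit 336) (nat_lit 11873903305) (nat_lit 40) (nat_lit 5) (nat_lit 43) (nat_lit 5) (nat_lit 44) (nat_lit 5) (nat_lit 380) (nat_lit 328) (nat_lit 156)) (XT.nd (nat_lit 94) (nat_lit 0) (nat_lit 0)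 (XT.lf (nat_lit 0) (nat_lit 19430502908) (nat_lit 252) (nat_lit 10611478284) (nat_lit 336) (nat_lit 8237795877) (nat_lit 40) (nat_lit 5) (nat_lit 43) (nat_lit 5) (nat_lit 44) (nat_lit 5) (nat_lit 381) (nat_lit 328) (nat_lit 155)) (XT.lf (nat_lit 0) (nat_lit 33155755622) (nat_lit 252) (nat_lit 1503032197) (nat_lit 336) (nat_lit 4492030216) (nat_lit 40) (nat_lit 5) (nat_lit 43) (nat_lit 5) (nat_lit 44) (nat_lit 5) (nat_lit 382) (nat_lit 328) (nat_lit 154)))) (XT.nd (nat_lit 94) (nat_lit 84) (nat_lit 0) (XT.lf (nat_lit 0) (nat_lit 7323017602) (nat_lit 252) (nat_lit 32243709271) (nat_lit 336) (nat_lit 477553932) (nat_lit 37) (nat_lit 5) (nat_lit 40) (nat_lit 5) (nat_lit 41) (nat_lit 5) (nat_lit 383) (nat_lit 328) (nat_lit 153)) (XT.nd (nat_lit 94) (nat_lit 0) (nat_lit 0) (XT.lf (nat_lit 0) (nat_lit 3663321564) (nat_lit 336) (nat_lit 19838718477) (nat_lit 84) (nat_lit 17459935054) (nat_lit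 36) (nat_lit 5) (nat_lit 40) (nat_lit 5) (nat_lit 37) (nat_lit 5) (nat_lit 384) (nat_lit 328) (nat_lit 152)) (XT.lf (nat_lit 0) (nat_lit 7919860840) (nat_lit 336) (nat_lit 6565514775) (nat_lit 84) (nat_lit 27422684366) (nat_lit 36) (nat_lit 5) (nat_lit 40) (nat_lit 5) (nat_lit 37) (nat_lit 5) (nat_lit 385) (nat_lit 328) (nat_lit 151))))))) (XT.nd (nat_lit 1128) (nat_lit 588) (nat_lit 0) (XT.nd (nat_lit 564) (nat_lit 504) (nat_lit 0) (XT.nd (nat_lit 282) (nat_lit 252) (nat_lit 0) (XT.nd (nat_lit 94) (nat_lit 0) (nat_lit 0) (XT.lf (nat_lit 0) (nat_lit 7261765708) (nat_lit 252) (nat_lit 5115924989) (nat_lit 336) (nat_lit 30503640309) (nat_lit 33) (nat_lit 5) (nat_lit 36) (nat_lit 5) (nat_lit 37) (nat_lit 5) (nat_lit 386) (nat_lit 328) (nat_lit 150)) (XT.nd (nat_lit 94) (nat_lit 0) (nat_lit 0) (XT.lf (nat_lit 0) (nat_lit 17085356604) (nat_lit 336) (nat_lit 22275291902) (nat_lit 84) (nat_lit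 4520670755) (nat_lit 33) (nat_lit 5) (nat_lit 37) (nat_lit 5) (nat_lit 34) (nat_lit 5) (nat_lit 387) (nat_lit 328) (nat_lit 149)) (XT.lf (nat_lit 0) (nat_lit 21988699237) (nat_lit 336) (nat_lit 8573299909) (nat_lit 84) (nat_lit 14348772662) (nat_lit 33) (nat_lit 5) (nat_lit 37) (nat_lit 5) (nat_lit 34) (nat_lit 5) (nat_lit 388) (nat_lit 328) (nat_lit 148)))) (XT.nd (nat_lit 94) (nat_lit 0) (nat_lit 0) (XT.lf (nat_lit 0) (nat_lit 5664050988) (nat_lit 252) (nat_lit 21433675517) (nat_lit 336) (nat_lit 18872753137) (nat_lit 30) (nat_lit 5) (nat_lit 33) (nat_lit 5) (nat_lit 34) (nat_lit 5) (nat_lit 389) (nat_lit 328) (nat_lit 147)) (XT.nd (nat_lit 94) (nat_lit 0) (nat_lit 0) (XT.lf (nat_lit 0) (nat_lit 20521024010) (nat_lit 252) (nat_lit 11931131011) (nat_lit 336) (nat_lit 14608191914) (nat_lit 30) (nat_lit 5) (nat_lit 33) (nat_lit 5) (nat_lit 34) (nat_lit 5) (nat_lit 390) (nat_lit 328) (nat_lit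 146)) (XT.lf (nat_lit 0) (nat_lit 35835182781) (nat_lit 252) (nat_lit 2134995931) (nat_lit 336) (nat_lit 10213901551) (nat_lit 30) (nat_lit 5) (nat_lit 33) (nat_lit 5) (nat_lit 34) (nat_lit 5) (nat_lit 391) (nat_lit 328) (nat_lit 145))))) (XT.nd (nat_lit 282) (nat_lit 252) (nat_lit 0) (XT.nd (nat_lit 94) (nat_lit 84) (nat_lit 0) (XT.lf (nat_lit 0) (nat_lit 2244289587) (nat_lit 168) (nat_lit 41513917479) (nat_lit 252) (nat_lit 5581380745) (nat_lit 28) (nat_lit 5) (nat_lit 30) (nat_lit 5) (nat_lit 31) (nat_lit 5) (nat_lit 392) (nat_lit 328) (nat_lit 144)) (XT.nd (nat_lit 94) (nat_lit 84) (nat_lit 0) (XT.lf (nat_lit 0) (nat_lit 17526057500) (nat_lit 168) (nat_lit 32347826369) (nat_lit 252) (nat_lit 652443057) (nat_lit 28) (nat_lit 5) (nat_lit 30) (nat_lit 5) (nat_lit 31) (nat_lit 5) (nat_lit 393) (nat_lit 328) (nat_lit 143)) (XT.lf (nat_lit 0) (nat_lit 4337799661) (nat_lit 252) (nat_lit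 18515498958) (nat_lit 84) (nat_lit 28895269327) (nat_lit 27) (nat_lit 5) (nat_lit 30) (nat_lit 5) (nat_lit 28) (nat_lit 5) (nat_lit 394) (nat_lit 328) (nat_lit 142)))) (XT.nd (nat_lit 94) (nat_lit 252) (nat_lit 0) (XT.lf (nat_lit 0) (nat_lit 9467003151) (nat_lit 252) (nat_lit 3591540489) (nat_lit 84) (nat_lit 39950020785) (nat_lit 27) (nat_lit 5) (nat_lit 30) (nat_lit 5) (nat_lit 28) (nat_lit 5) (nat_lit 395) (nat_lit 328) (nat_lit 141)) (XT.nd (nat_lit 94) (nat_lit 0) (nat_lit 0) (XT.lf (nat_lit 0) (nat_lit 12034456467) (nat_lit 252) (nat_lit 2838020469) (nat_lit 336) (nat_lit 39431513632) (nat_lit 24) (nat_lit 5) (nat_lit 27) (nat_lit 5) (nat_lit 28) (nat_lit 5) (nat_lit 396) (nat_lit 328) (nat_lit 140)) (XT.lf (nat_lit 0) (nat_lit 20557676278) (nat_lit 336) (nat_lit 27497277088) (nat_lit 84) (nat_lit 7581149564) (nat_lit 24) (nat_lit 5) (nat_lit 28) (nat_lit 5) (nat_lit 25) (nat_lit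 5) (nat_lit 397) (nat_lit 328) (nat_lit 139)))))) (XT.nd (nat_lit 564) (nat_lit 252) (nat_lit 0) (XT.nd (nat_lit 282) (nat_lit 168) (nat_lit 0) (XT.nd (nat_lit 94) (nat_lit 168) (nat_lit 0) (XT.lf (nat_lit 0) (nat_lit 26446111781) (nat_lit 336) (nat_lit 12299113743) (nat_lit 84) (nat_lit 18263453101) (nat_lit 24) (nat_lit 5) (nat_lit 28) (nat_lit 5) (nat_lit 25) (nat_lit 5) (nat_lit 398) (nat_lit 328) (nat_lit 138)) (XT.nd (nat_lit 94) (nat_lit 0) (nat_lit 0) (XT.lf (nat_lit 0) (nat_lit 3436513822) (nat_lit 168) (nat_lit 29112695390) (nat_lit 252) (nat_lit 25873603775) (nat_lit 22) (nat_lit 5) (nat_lit 24) (nat_lit 5) (nat_lit 25) (nat_lit 5) (nat_lit 399) (nat_lit 328) (nat_lit 137)) (XT.lf (nat_lit 0) (nat_lit 19917793185) (nat_lit 168) (nat_lit 19050147384) (nat_lit 252) (nat_lit 20908929786) (nat_lit 22) (nat_lit 5) (nat_lit 24) (nat_lit 5) (nat_lit 25) (nat_lit 5) (nat_lit 400)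 (nat_lit 328) (nat_lit 136)))) (XT.nd (nat_lit 94) (nat_lit 168) (nat_lit 0) (XT.lf (nat_lit 0) (nat_lit 36907191620) (nat_lit 168) (nat_lit 8676579680) (nat_lit 252) (nat_lit 15792294805) (nat_lit 22) (nat_lit 5) (nat_lit 24) (nat_lit 5) (nat_lit 25) (nat_lit 5) (nat_lit 401) (nat_lit 328) (nat_lit 135)) (XT.nd (nat_lit 94) (nat_lit 168) (nat_lit 0) (XT.lf (nat_lit 0) (nat_lit 52422883659) (nat_lit 252) (nat_lit 8521268225) (nat_lit 84) (nat_lit 1977025277) (nat_lit 22) (nat_lit 5) (nat_lit 25) (nat_lit 5) (nat_lit 23) (nat_lit 5) (nat_lit 402) (nat_lit 328) (nat_lit 134)) (XT.lf (nat_lit 0) (nat_lit 7990274024) (nat_lit 168) (nat_lit 51649961538) (nat_lit 252) (nat_lit 4868802088) (nat_lit 20) (nat_lit 5) (nat_lit 22) (nat_lit 5) (nat_lit 23) (nat_lit 5) (nat_lit 403) (nat_lit 328) (nat_lit 133))))) (XT.nd (nat_lit 282) (nat_lit 168) (nat_lit 0) (XT.nd (nat_lit 94) (nat_lit 0) (nat_lit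 0) (XT.lf (nat_lit 0) (nat_lit 1004442470) (nat_lit 252) (nat_lit 40961929157) (nat_lit 84) (nat_lit 24176735864) (nat_lit 19) (nat_lit 5) (nat_lit 22) (nat_lit 5) (nat_lit 20) (nat_lit 5) (nat_lit 404) (nat_lit 328) (nat_lit 132)) (XT.nd (nat_lit 94) (nat_lit 0) (nat_lit 0) (XT.lf (nat_lit 0) (nat_lit 6956901373) (nat_lit 252) (nat_lit 24975246171) (nat_lit 84) (nat_lit 35894199255) (nat_lit 19) (nat_lit 5) (nat_lit 22) (nat_lit 5) (nat_lit 20) (nat_lit 5) (nat_lit 405) (nat_lit 328) (nat_lit 131)) (XT.lf (nat_lit 0) (nat_lit 13092218446) (nat_lit 252) (nat_lit 8495514287) (nat_lit 84) (nat_lit 47974089069) (nat_lit 19) (nat_lit 5) (nat_lit 22) (nat_lit 5) (nat_lit 20) (nat_lit 5) (nat_lit 406) (nat_lit 328) (nat_lit 130)))) (XT.nd (nat_lit 94) (nat_lit 0) (nat_lit 0) (XT.lf (nat_lit 0) (nat_lit 8667253167) (nat_lit 168) (nat_lit 10834839505) (nat_lit 252) (nat_lit 51846392086) (nat_lit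 17) (nat_lit 5) (nat_lit 19) (nat_lit 5) (nat_lit 20) (nat_lit 5) (nat_lit 407) (nat_lit 328) (nat_lit 129)) (XT.nd (nat_lit 94) (nat_lit 0) (nat_lit 0) (XT.lf (nat_lit 0) (nat_lit 26201147744) (nat_lit 252) (nat_lit 46651500675) (nat_lit 84) (nat_lit 335084484) (nat_lit 17) (nat_lit 5) (nat_lit 20) (nat_lit 5) (nat_lit 18) (nat_lit 5) (nat_lit 408) (nat_lit 328) (nat_lit 128)) (XT.lf (nat_lit 0) (nat_lit 33217134808) (nat_lit 252) (nat_lit 30238069821) (nat_lit 84) (nat_lit 11625409265) (nat_lit 17) (nat_lit 5) (nat_lit 20) (nat_lit 5) (nat_lit 18) (nat_lit 5) (nat_lit 409) (nat_lit 328) (nat_lit 127))))))))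
noncomputable def xc176 : XT := (XT.nd (nat_lit 48598) (nat_lit 0) (nat_lit 3108) (XT.nd (nat_lit 47470) (nat_lit 0) (nat_lit 7728) (XT.nd (nat_lit 46906) (nat_lit 0) (nat_lit 8400) (XT.nd (nat_lit 46624) (nat_lit 0) (nat_lit 8316) (XT.nd (nat_lit 94) (nat_lit 168) (nat_lit 0) (XT.lf (nat_lit 0) (nat_lit 40449110550) (nat_lit 252) (nat_lit 13318157044) (nat_lit 84) (nat_lit 23264956474) (nat_lit 17) (nat_lit 5) (nat_lit 20) (nat_lit 5) (nat_lit 18) (nat_lit 5) (nat_lit 410) (nat_lit 328) (nat_lit 126)) (XT.lf (nat_lit 0) (nat_lit 4208806865) (nat_lit 168) (nat_lit 43736760949) (nat_lit 252) (nat_lit 31097520407) (nat_lit 15) (nat_lit 5) (nat_lit 17) (nat_lit 5) (nat_lit 18) (nat_lit 5) (nat_lit 411) (nat_lit 328) (nat_lit 125))) (XT.nd (nat_lit 94) (nat_lit 0) (nat_lit 0) (XT.lf (nat_lit 0) (nat_lit 177914835) (nat_lit 0) (nat_lit 177914835) (nat_lit 1092) (nat_lit 6974685306) (nat_lit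 114) (nat_lit 5) (nat_lit 114) (nat_lit 3) (nat_lit 127) (nat_lit 3) (nat_lit 329) (nat_lit 329) (nat_lit 206)) (XT.nd (nat_lit 94) (nat_lit 0) (nat_lit 0) (XT.lf (nat_lit 0) (nat_lit 1046266283) (nat_lit 1092) (nat_lit 8739032414) (nat_lit 1176) (nat_lit 5091928532) (nat_lit 114) (nat_lit 5) (nat_lit 127) (nat_lit 3) (nat_lit 128) (nat_lit 5) (nat_lit 330) (nat_lit 329) (nat_lit 205)) (XT.lf (nat_lit 0) (nat_lit 1383978313) (nat_lit 1092) (nat_lit 3009868525) (nat_lit 1176) (nat_lit 10706546094) (nat_lit 114) (nat_lit 5) (nat_lit 127) (nat_lit 3) (nat_lit 128) (nat_lit 5) (nat_lit 331) (nat_lit 329) (nat_lit 204))))) (XT.nd (nat_lit 282) (nat_lit 0) (nat_lit 84) (XT.nd (nat_lit 94) (nat_lit 0) (nat_lit 0) (XT.lf (nat_lit 0) (nat_lit 1762752510) (nat_lit 1092) (nat_lit 12391229234) (nat_lit 1176) (nat_lit 1175586423) (nat_lit 115) (nat_lit 5) (nat_lit 128) (nat_lit 5) (nat_lit 129) (nat_lit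 5) (nat_lit 332) (nat_lit 329) (nat_lit 203)) (XT.nd (nat_lit 94) (nat_lit 0) (nat_lit 0) (XT.lf (nat_lit 0) (nat_lit 2219674274) (nat_lit 1092) (nat_lit 6481469834) (nat_lit 1176) (nat_lit 6862683740) (nat_lit 115) (nat_lit 5) (nat_lit 128) (nat_lit 5) (nat_lit 129) (nat_lit 5) (nat_lit 333) (nat_lit 329) (nat_lit 202)) (XT.lf (nat_lit 0) (nat_lit 2680798122) (nat_lit 1092) (nat_lit 394409289) (nat_lit 1176) (nat_lit 12730488428) (nat_lit 115) (nat_lit 5) (nat_lit 128) (nat_lit 5) (nat_lit 129) (nat_lit 5) (nat_lit 334) (nat_lit 329) (nat_lit 201)))) (XT.nd (nat_lit 94) (nat_lit 0) (nat_lit 0) (XT.lf (nat_lit 0) (nat_lit 3233720442) (nat_lit 1092) (nat_lit 10084793568) (nat_lit 1176) (nat_lit 2734181415) (nat_lit 116) (nat_lit 5) (nat_lit 129) (nat_lit 5) (nat_lit 130) (nat_lit 5) (nat_lit 335) (nat_lit 329) (nat_lit 200)) (XT.nd (nat_lit 94) (nat_lit 0) (nat_lit 0) (XT.lf (nat_lit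 0) (nat_lit 3830003144) (nat_lit 1092) (nat_lit 3808943524) (nat_lit 1176) (nat_lit 8667627724) (nat_lit 116) (nat_lit 5) (nat_lit 129) (nat_lit 5) (nat_lit 130) (nat_lit 5) (nat_lit 336) (nat_lit 329) (nat_lit 199)) (XT.lf (nat_lit 84) (nat_lit 2710213136) (nat_lit 0) (nat_lit 1752334224) (nat_lit 1176) (nat_lit 12105259318) (nat_lit 117) (nat_lit 5) (nat_lit 116) (nat_lit 5) (nat_lit 130) (nat_lit 5) (nat_lit 337) (nat_lit 329) (nat_lit 198)))))) (XT.nd (nat_lit 564) (nat_lit 840) (nat_lit 0) (XT.nd (nat_lit 282) (nat_lit 0) (nat_lit 84) (XT.nd (nat_lit 94) (nat_lit 0) (nat_lit 0) (XT.lf (nat_lit 0) (nat_lit 5188825777) (nat_lit 1092) (nat_lit 7373052707) (nat_lit 1176) (nat_lit 4272993917) (nat_lit 117) (nat_lit 5) (nat_lit 130) (nat_lit 5) (nat_lit 131) (nat_lit 5) (nat_lit 338) (nat_lit 329) (nat_lit 197)) (XT.nd (nat_lit 94) (nat_lit 0) (nat_lit 0) (XT.lf (nat_lit 0) (nat_lit 5946945852)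 (nat_lit 1092) (nat_lit 711358883) (nat_lit 1176) (nat_lit 10451655414) (nat_lit 117) (nat_lit 5) (nat_lit 130) (nat_lit 5) (nat_lit 131) (nat_lit 5) (nat_lit 339) (nat_lit 329) (nat_lit 196)) (XT.lf (nat_lit 84) (nat_lit 6277559533) (nat_lit 0) (nat_lit 504945496) (nat_lit 1176) (nat_lit 10609429691) (nat_lit 118) (nat_lit 5) (nat_lit 117) (nat_lit 5) (nat_lit 131) (nat_lit 5) (nat_lit 340) (nat_lit 329) (nat_lit 195)))) (XT.nd (nat_lit 94) (nat_lit 0) (nat_lit 0) (XT.lf (nat_lit 0) (nat_lit 7701274282) (nat_lit 1092) (nat_lit 4248221843) (nat_lit 1176) (nat_lit 5731408060) (nat_lit 118) (nat_lit 5) (nat_lit 131) (nat_lit 5) (nat_lit 132) (nat_lit 5) (nat_lit 341) (nat_lit 329) (nat_lit 194)) (XT.nd (nat_lit 94) (nat_lit 0) (nat_lit 84) (XT.lf (nat_lit 84) (nat_lit 2877764080) (nat_lit 0) (nat_lit 5796598994) (nat_lit 1176) (nat_lit 9303696977) (nat_lit 119) (nat_lit 5) (nat_lit 118)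 (nat_lit 5) (nat_lit 132) (nat_lit 5) (nat_lit 342) (nat_lit 329) (nat_lit 193)) (XT.lf (nat_lit 0) (nat_lit 9720164583) (nat_lit 1092) (nat_lit 7980278950) (nat_lit 1176) (nat_lit 582693693) (nat_lit 119) (nat_lit 5) (nat_lit 132) (nat_lit 5) (nat_lit 133) (nat_lit 5) (nat_lit 343) (nat_lit 329) (nat_lit 192))))) (XT.nd (nat_lit 282) (nat_lit 1008) (nat_lit 0) (XT.nd (nat_lit 94) (nat_lit 0) (nat_lit 0) (XT.lf (nat_lit 0) (nat_lit 10850226346) (nat_lit 1092) (nat_lit 704705981) (nat_lit 1176) (nat_lit 7041159992) (nat_lit 119) (nat_lit 5) (nat_lit 132) (nat_lit 5) (nat_lit 133) (nat_lit 5) (nat_lit 344) (nat_lit 329) (nat_lit 191)) (XT.nd (nat_lit 94) (nat_lit 0) (nat_lit 84) (XT.lf (nat_lit 84) (nat_lit 6930338384) (nat_lit 0) (nat_lit 5146510148) (nat_lit 1176) (nat_lit 6840019851) (nat_lit 120) (nat_lit 5) (nat_lit 119) (nat_lit 5) (nat_lit 133) (nat_lit 5) (nat_lit 345) (nat_lit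 329) (nat_lit 190)) (XT.lf (nat_lit 0) (nat_lit 13356369865) (nat_lit 1092) (nat_lit 4450819621) (nat_lit 84) (nat_lit 1439963878) (nat_lit 120) (nat_lit 5) (nat_lit 133) (nat_lit 5) (nat_lit 121) (nat_lit 5) (nat_lit 346) (nat_lit 329) (nat_lit 189)))) (XT.nd (nat_lit 94) (nat_lit 0) (nat_lit 0) (XT.lf (nat_lit 0) (nat_lit 3327170293) (nat_lit 1092) (nat_lit 11427194434) (nat_lit 1176) (nat_lit 4830894554) (nat_lit 107) (nat_lit 5) (nat_lit 120) (nat_lit 5) (nat_lit 121) (nat_lit 5) (nat_lit 347) (nat_lit 329) (nat_lit 188)) (XT.nd (nat_lit 94) (nat_lit 0) (nat_lit 0) (XT.lf (nat_lit 0) (nat_lit 11434965041) (nat_lit 1092) (nat_lit 4800504821) (nat_lit 1176) (nat_lit 3697168085) (nat_lit 107) (nat_lit 5) (nat_lit 120) (nat_lit 5) (nat_lit 121) (nat_lit 5) (nat_lit 348) (nat_lit 329) (nat_lit 187)) (XT.lf (nat_lit 0) (nat_lit 17776168893) (nat_lit 1176) (nat_lit 522569704) (nat_lit 84)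 (nat_lit 1991646359) (nat_lit 107) (nat_lit 5) (nat_lit 121) (nat_lit 5) (nat_lit 108) (nat_lit 5) (nat_lit 349) (nat_lit 329) (nat_lit 186))))))) (XT.nd (nat_lit 1128) (nat_lit 2016) (nat_lit 0) (XT.nd (nat_lit 564) (nat_lit 924) (nat_lit 0) (XT.nd (nat_lit 282) (nat_lit 504) (nat_lit 0) (XT.nd (nat_lit 94) (nat_lit 672) (nat_lit 0) (XT.lf (nat_lit 0) (nat_lit 7802303260) (nat_lit 504) (nat_lit 11682544476) (nat_lit 588) (nat_lit 1170670586) (nat_lit 101) (nat_lit 5) (nat_lit 107) (nat_lit 5) (nat_lit 108) (nat_lit 5) (nat_lit 350) (nat_lit 329) (nat_lit 185)) (XT.nd (nat_lit 94) (nat_lit 588) (nat_lit 0) (XT.lf (nat_lit 0) (nat_lit 209482949) (nat_lit 588) (nat_lit 4643313147) (nat_lit 84) (nat_lit 16179152667) (nat_lit 100) (nat_lit 5) (nat_lit 107) (nat_lit 5) (nat_lit 101) (nat_lit 5) (nat_lit 351) (nat_lit 329) (nat_lit 184)) (XT.lf (nat_lit 0) (nat_lit 1662803204) (nat_lit 672)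 (nat_lit 17559075556) (nat_lit 84) (nat_lit 2196123885) (nat_lit 93) (nat_lit 5) (nat_lit 101) (nat_lit 5) (nat_lit 94) (nat_lit 5) (nat_lit 352) (nat_lit 329) (nat_lit 183)))) (XT.nd (nat_lit 94) (nat_lit 504) (nat_lit 0) (XT.lf (nat_lit 0) (nat_lit 3253861449) (nat_lit 672) (nat_lit 9147113584) (nat_lit 84) (nat_lit 9412196250) (nat_lit 93) (nat_lit 5) (nat_lit 101) (nat_lit 5) (nat_lit 94) (nat_lit 5) (nat_lit 353) (nat_lit 329) (nat_lit 182)) (XT.nd (nat_lit 94) (nat_lit 504) (nat_lit 0) (XT.lf (nat_lit 0) (nat_lit 4888510208) (nat_lit 672) (nat_lit 479847363) (nat_lit 84) (nat_lit 16852429989) (nat_lit 93) (nat_lit 5) (nat_lit 101) (nat_lit 5) (nat_lit 94) (nat_lit 5) (nat_lit 354) (nat_lit 329) (nat_lit 181)) (XT.lf (nat_lit 0) (nat_lit 6673379888) (nat_lit 588) (nat_lit 14033561401) (nat_lit 84) (nat_lit 1931031823) (nat_lit 87) (nat_lit 5) (nat_lit 94) (nat_lit 5) (nat_lit 88)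 (nat_lit 5) (nat_lit 355) (nat_lit 329) (nat_lit 180))))) (XT.nd (nat_lit 282) (nat_lit 420) (nat_lit 0) (XT.nd (nat_lit 94) (nat_lit 504) (nat_lit 0) (XT.lf (nat_lit 0) (nat_lit 8568103171) (nat_lit 588) (nat_lit 5147875519) (nat_lit 84) (nat_lit 9350441067) (nat_lit 87) (nat_lit 5) (nat_lit 94) (nat_lit 5) (nat_lit 88) (nat_lit 5) (nat_lit 356) (nat_lit 329) (nat_lit 179)) (XT.nd (nat_lit 94) (nat_lit 0) (nat_lit 0) (XT.lf (nat_lit 0) (nat_lit 4090404864) (nat_lit 504) (nat_lit 6466456113) (nat_lit 588) (nat_lit 12950211017) (nat_lit 81) (nat_lit 5) (nat_lit 87) (nat_lit 5) (nat_lit 88) (nat_lit 5) (nat_lit 357) (nat_lit 329) (nat_lit 178)) (XT.lf (nat_lit 0) (nat_lit 12666377859) (nat_lit 588) (nat_lit 10251459814) (nat_lit 84) (nat_lit 1041731886) (nat_lit 81) (nat_lit 5) (nat_lit 88) (nat_lit 5) (nat_lit 82) (nat_lit 5) (nat_lit 358) (nat_lit 329) (nat_lit 177)))) (XT.nd (nat_lit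 94) (nat_lit 420) (nat_lit 0) (XT.lf (nat_lit 0) (nat_lit 14902409174) (nat_lit 588) (nat_lit 873503602) (nat_lit 84) (nat_lit 8648303994) (nat_lit 81) (nat_lit 5) (nat_lit 88) (nat_lit 5) (nat_lit 82) (nat_lit 5) (nat_lit 359) (nat_lit 329) (nat_lit 176)) (XT.nd (nat_lit 94) (nat_lit 0) (nat_lit 0) (XT.lf (nat_lit 0) (nat_lit 8970833083) (nat_lit 420) (nat_lit 8321049782) (nat_lit 504) (nat_lit 7608793703) (nat_lit 76) (nat_lit 5) (nat_lit 81) (nat_lit 5) (nat_lit 82) (nat_lit 5) (nat_lit 360) (nat_lit 329) (nat_lit 175)) (XT.lf (nat_lit 0) (nat_lit 19133834975) (nat_lit 420) (nat_lit 625942936) (nat_lit 504) (nat_lit 5632009850) (nat_lit 76) (nat_lit 5) (nat_lit 81) (nat_lit 5) (nat_lit 82) (nat_lit 5) (nat_lit 361) (nat_lit 329) (nat_lit 174)))))) (XT.nd (nat_lit 564) (nat_lit 672) (nat_lit 0) (XT.nd (nat_lit 282) (nat_lit 840) (nat_lit 0) (XT.nd (nat_lit 94) (nat_lit 84) (nat_lit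 0) (XT.lf (nat_lit 0) (nat_lit 3711009398) (nat_lit 420) (nat_lit 18697846420) (nat_lit 504) (nat_lit 3486038003) (nat_lit 71) (nat_lit 5) (nat_lit 76) (nat_lit 5) (nat_lit 77) (nat_lit 5) (nat_lit 362) (nat_lit 329) (nat_lit 173)) (XT.nd (nat_lit 94) (nat_lit 84) (nat_lit 0) (XT.lf (nat_lit 0) (nat_lit 14110159826) (nat_lit 420) (nat_lit 11097013415) (nat_lit 504) (nat_lit 1204357242) (nat_lit 71) (nat_lit 5) (nat_lit 76) (nat_lit 5) (nat_lit 77) (nat_lit 5) (nat_lit 363) (nat_lit 329) (nat_lit 172)) (XT.lf (nat_lit 0) (nat_lit 1120462881) (nat_lit 504) (nat_lit 2128825212) (nat_lit 84) (nat_lit 23694694144) (nat_lit 70) (nat_lit 5) (nat_lit 76) (nat_lit 5) (nat_lit 71) (nat_lit 5) (nat_lit 364) (nat_lit 329) (nat_lit 171)))) (XT.nd (nat_lit 94) (nat_lit 420) (nat_lit 0) (XT.lf (nat_lit 0) (nat_lit 3621477767) (nat_lit 504) (nat_lit 19025613164) (nat_lit 84) (nat_lit 4841477456) (nat_lit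 65) (nat_lit 5) (nat_lit 71) (nat_lit 5) (nat_lit 66) (nat_lit 5) (nat_lit 365) (nat_lit 329) (nat_lit 170)) (XT.nd (nat_lit 94) (nat_lit 420) (nat_lit 0) (XT.lf (nat_lit 0) (nat_lit 6251454890) (nat_lit 504) (nat_lit 8659477256) (nat_lit 84) (nat_lit 13137523464) (nat_lit 65) (nat_lit 5) (nat_lit 71) (nat_lit 5) (nat_lit 66) (nat_lit 5) (nat_lit 366) (nat_lit 329) (nat_lit 169)) (XT.lf (nat_lit 0) (nat_lit 2064877920) (nat_lit 420) (nat_lit 6914445373) (nat_lit 504) (nat_lit 19645881676) (nat_lit 60) (nat_lit 5) (nat_lit 65) (nat_lit 5) (nat_lit 66) (nat_lit 5) (nat_lit 367) (nat_lit 329) (nat_lit 168))))) (XT.nd (nat_lit 282) (nat_lit 336) (nat_lit 0) (XT.nd (nat_lit 94) (nat_lit 336) (nat_lit 0) (XT.lf (nat_lit 0) (nat_lit 11892209580) (nat_lit 504) (nat_lit 15930701819) (nat_lit 84) (nat_lit 1393820557) (nat_lit 60) (nat_lit 5) (nat_lit 66) (nat_lit 5) (nat_lit 61) (nat_lit 5) (nat_lit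 368) (nat_lit 329) (nat_lit 167)) (XT.nd (nat_lit 94) (nat_lit 336) (nat_lit 0) (XT.lf (nat_lit 0) (nat_lit 14962184886) (nat_lit 504) (nat_lit 5046949068) (nat_lit 84) (nat_lit 9815403944) (nat_lit 60) (nat_lit 5) (nat_lit 66) (nat_lit 5) (nat_lit 61) (nat_lit 5) (nat_lit 369) (nat_lit 329) (nat_lit 166)) (XT.lf (nat_lit 0) (nat_lit 6296529185) (nat_lit 336) (nat_lit 11889451760) (nat_lit 420) (nat_lit 12263398413) (nat_lit 56) (nat_lit 5) (nat_lit 60) (nat_lit 5) (nat_lit 61) (nat_lit 5) (nat_lit 370) (nat_lit 329) (nat_lit 165)))) (XT.nd (nat_lit 94) (nat_lit 336) (nat_lit 0) (XT.lf (nat_lit 0) (nat_lit 18094161951) (nat_lit 336) (nat_lit 3464491780) (nat_lit 420) (nat_lit 9533431439) (nat_lit 56) (nat_lit 5) (nat_lit 60) (nat_lit 5) (nat_lit 61) (nat_lit 5) (nat_lit 371) (nat_lit 329) (nat_lit 164)) (XT.nd (nat_lit 94) (nat_lit 336) (nat_lit 0) (XT.lf (nat_lit 0) (nat_lit 25084043268)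 (nat_lit 420) (nat_lit 1553460304) (nat_lit 84) (nat_lit 5115729246) (nat_lit 56) (nat_lit 5) (nat_lit 61) (nat_lit 5) (nat_lit 57) (nat_lit 5) (nat_lit 372) (nat_lit 329) (nat_lit 163)) (XT.lf (nat_lit 0) (nat_lit 10415870831) (nat_lit 336) (nat_lit 18438083244) (nat_lit 420) (nat_lit 3576740411) (nat_lit 52) (nat_lit 5) (nat_lit 56) (nat_lit 5) (nat_lit 57) (nat_lit 5) (nat_lit 373) (nat_lit 329) (nat_lit 162))))))))
noncomputable def xc177 : XT := (XT.nd (nat_lit 2256) (nat_lit 588) (nat_lit 0) (XT.nd (nat_lit 1128) (nat_lit 1008) (nat_lit 0) (XT.nd (nat_lit 564) (nat_lit 588) (nat_lit 0) (XT.nd (nat_lit 282) (nat_lit 336) (nat_lit 0) (XT.nd (nat_lit 94) (nat_lit 420) (nat_lit 0) (XT.lf (nat_lit 0) (nat_lit 22784894530) (nat_lit 336) (nat_lit 9968589870) (nat_lit 420) (nat_lit 375288129) (nat_lit 52) (nat_lit 5) (nat_lit 56) (nat_lit 5) (nat_lit 57) (nat_lit 5) (nat_lit 374) (nat_lit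 329) (nat_lit 161)) (XT.nd (nat_lit 94) (nat_lit 0) (nat_lit 0) (XT.lf (nat_lit 0) (nat_lit 1689649207) (nat_lit 336) (nat_lit 1190178259) (nat_lit 420) (nat_lit 30967359537) (nat_lit 47) (nat_lit 5) (nat_lit 51) (nat_lit 5) (nat_lit 52) (nat_lit 5) (nat_lit 375) (nat_lit 329) (nat_lit 160)) (XT.lf (nat_lit 0) (nat_lit 6411754389) (nat_lit 420) (nat_lit 20356244804) (nat_lit 84) (nat_lit 7814068969) (nat_lit 47) (nat_lit 5) (nat_lit 52) (nat_lit 5) (nat_lit 48) (nat_lit 5) (nat_lit 376) (nat_lit 329) (nat_lit 159)))) (XT.nd (nat_lit 94) (nat_lit 336) (nat_lit 0) (XT.lf (nat_lit 0) (nat_lit 10062093950) (nat_lit 420) (nat_lit 8205456791) (nat_lit 84) (nat_lit 17071912474) (nat_lit 47) (nat_lit 5) (nat_lit 52) (nat_lit 5) (nat_lit 48) (nat_lit 5) (nat_lit 377) (nat_lit 329) (nat_lit 158)) (XT.nd (nat_lit 94) (nat_lit 0) (nat_lit 0) (XT.lf (nat_lit 0) (nat_lit 4406744852) (nat_lit 336)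 (nat_lit 9459412535) (nat_lit 420) (nat_lit 22252931578) (nat_lit 43) (nat_lit 5) (nat_lit 47) (nat_lit 5) (nat_lit 48) (nat_lit 5) (nat_lit 378) (nat_lit 329) (nat_lit 157)) (XT.lf (nat_lit 0) (nat_lit 17579870206) (nat_lit 336) (nat_lit 290827658) (nat_lit 420) (nat_lit 19049634809) (nat_lit 43) (nat_lit 5) (nat_lit 47) (nat_lit 5) (nat_lit 48) (nat_lit 5) (nat_lit 379) (nat_lit 329) (nat_lit 156))))) (XT.nd (nat_lit 282) (nat_lit 336) (nat_lit 0) (XT.nd (nat_lit 94) (nat_lit 252) (nat_lit 0) (XT.lf (nat_lit 0) (nat_lit 22087254417) (nat_lit 420) (nat_lit 6679918727) (nat_lit 84) (nat_lit 8976526042) (nat_lit 43) (nat_lit 5) (nat_lit 48) (nat_lit 5) (nat_lit 44) (nat_lit 5) (nat_lit 380) (nat_lit 329) (nat_lit 155)) (XT.nd (nat_lit 94) (nat_lit 0) (nat_lit 0) (XT.lf (nat_lit 0) (nat_lit 6497172318) (nat_lit 252) (nat_lit 20001857036) (nat_lit 336) (nat_lit 12091569181) (nat_lit 40)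 (nat_lit 5) (nat_lit 43) (nat_lit 5) (nat_lit 44) (nat_lit 5) (nat_lit 381) (nat_lit 329) (nat_lit 154)) (XT.lf (nat_lit 0) (nat_lit 20220544410) (nat_lit 252) (nat_lit 10893877424) (nat_lit 336) (nat_lit 8347265389) (nat_lit 40) (nat_lit 5) (nat_lit 43) (nat_lit 5) (nat_lit 44) (nat_lit 5) (nat_lit 382) (nat_lit 329) (nat_lit 153)))) (XT.nd (nat_lit 94) (nat_lit 336) (nat_lit 0) (XT.lf (nat_lit 0) (nat_lit 34365636337) (nat_lit 252) (nat_lit 1504469369) (nat_lit 336) (nat_lit 4489767963) (nat_lit 40) (nat_lit 5) (nat_lit 43) (nat_lit 5) (nat_lit 44) (nat_lit 5) (nat_lit 383) (nat_lit 329) (nat_lit 152)) (XT.nd (nat_lit 94) (nat_lit 84) (nat_lit 0) (XT.lf (nat_lit 0) (nat_lit 7734369850) (nat_lit 252) (nat_lit 33193968017) (nat_lit 336) (nat_lit 352764666) (nat_lit 37) (nat_lit 5) (nat_lit 40) (nat_lit 5) (nat_lit 41) (nat_lit 5) (nat_lit 384) (nat_lit 329) (nat_lit 151)) (XT.lf (nat_lit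 0) (nat_lit 3909552759) (nat_lit 336) (nat_lit 20271851732) (nat_lit 84) (nat_lit 18045936056) (nat_lit 36) (nat_lit 5) (nat_lit 40) (nat_lit 5) (nat_lit 37) (nat_lit 5) (nat_lit 385) (nat_lit 329) (nat_lit 150)))))) (XT.nd (nat_lit 564) (nat_lit 504) (nat_lit 0) (XT.nd (nat_lit 282) (nat_lit 252) (nat_lit 0) (XT.nd (nat_lit 94) (nat_lit 252) (nat_lit 0) (XT.lf (nat_lit 0) (nat_lit 8294055699) (nat_lit 336) (nat_lit 6592647073) (nat_lit 84) (nat_lit 28316185268) (nat_lit 36) (nat_lit 5) (nat_lit 40) (nat_lit 5) (nat_lit 37) (nat_lit 5) (nat_lit 386) (nat_lit 329) (nat_lit 149)) (XT.nd (nat_lit 94) (nat_lit 0) (nat_lit 0) (XT.lf (nat_lit 0) (nat_lit 7661493227) (nat_lit 252) (nat_lit 5226448123) (nat_lit 336) (nat_lit 31318465367) (nat_lit 33) (nat_lit 5) (nat_lit 36) (nat_lit 5) (nat_lit 37) (nat_lit 5) (nat_lit 387) (nat_lit 329) (nat_lit 148)) (XT.lf (nat_lit 0) (nat_lit 17738202568)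 (nat_lit 336) (nat_lit 22792808041) (nat_lit 84) (nat_lit 4706497316) (nat_lit 33) (nat_lit 5) (nat_lit 37) (nat_lit 5) (nat_lit 34) (nat_lit 5) (nat_lit 388) (nat_lit 329) (nat_lit 147)))) (XT.nd (nat_lit 94) (nat_lit 252) (nat_lit 0) (XT.lf (nat_lit 0) (nat_lit 22789844461) (nat_lit 336) (nat_lit 8671256579) (nat_lit 84) (nat_lit 14837896707) (nat_lit 33) (nat_lit 5) (nat_lit 37) (nat_lit 5) (nat_lit 34) (nat_lit 5) (nat_lit 389) (nat_lit 329) (nat_lit 146)) (XT.nd (nat_lit 94) (nat_lit 0) (nat_lit 0) (XT.lf (nat_lit 0) (nat_lit 6005753213) (nat_lit 252) (nat_lit 22049553280) (nat_lit 336) (nat_lit 19336319460) (nat_lit 30) (nat_lit 5) (nat_lit 33) (nat_lit 5) (nat_lit 34) (nat_lit 5) (nat_lit 390) (nat_lit 329) (nat_lit 145)) (XT.lf (nat_lit 0) (nat_lit 21318297620) (nat_lit 252) (nat_lit 12253890177) (nat_lit 336) (nat_lit 14943209758) (nat_lit 30) (nat_lit 5) (nat_lit 33) (nat_lit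 5) (nat_lit 34) (nat_lit 5) (nat_lit 391) (nat_lit 329) (nat_lit 144))))) (XT.nd (nat_lit 282) (nat_lit 336) (nat_lit 0) (XT.nd (nat_lit 94) (nat_lit 168) (nat_lit 0) (XT.lf (nat_lit 0) (nat_lit 37102350717) (nat_lit 252) (nat_lit 2155491284) (nat_lit 336) (nat_lit 10416239478) (nat_lit 30) (nat_lit 5) (nat_lit 33) (nat_lit 5) (nat_lit 34) (nat_lit 5) (nat_lit 392) (nat_lit 329) (nat_lit 143)) (XT.nd (nat_lit 94) (nat_lit 0) (nat_lit 0) (XT.lf (nat_lit 0) (nat_lit 2471776770) (nat_lit 168) (nat_lit 42752203470) (nat_lit 252) (nat_lit 5641478740) (nat_lit 28) (nat_lit 5) (nat_lit 30) (nat_lit 5) (nat_lit 31) (nat_lit 5) (nat_lit 393) (nat_lit 329) (nat_lit 142)) (XT.lf (nat_lit 0) (nat_lit 18222531341) (nat_lit 168) (nat_lit 33303426202) (nat_lit 252) (nat_lit 563139395) (nat_lit 28) (nat_lit 5) (nat_lit 30) (nat_lit 5) (nat_lit 31) (nat_lit 5) (nat_lit 394) (nat_lit 329) (nat_lit 141))))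 (XT.nd (nat_lit 94) (nat_lit 252) (nat_lit 0) (XT.lf (nat_lit 0) (nat_lit 4576367109) (nat_lit 252) (nat_lit 18938533125) (nat_lit 84) (nat_lit 29834401150) (nat_lit 27) (nat_lit 5) (nat_lit 30) (nat_lit 5) (nat_lit 28) (nat_lit 5) (nat_lit 395) (nat_lit 329) (nat_lit 140)) (XT.nd (nat_lit 94) (nat_lit 252) (nat_lit 0) (XT.lf (nat_lit 0) (nat_lit 9861445969) (nat_lit 252) (nat_lit 3556470581) (nat_lit 84) (nat_lit 41230545604) (nat_lit 27) (nat_lit 5) (nat_lit 30) (nat_lit 5) (nat_lit 28) (nat_lit 5) (nat_lit 396) (nat_lit 329) (nat_lit 139)) (XT.lf (nat_lit 0) (nat_lit 12552450035) (nat_lit 252) (nat_lit 2880441259) (nat_lit 336) (nat_lit 40551211908) (nat_lit 24) (nat_lit 5) (nat_lit 27) (nat_lit 5) (nat_lit 28) (nat_lit 5) (nat_lit 397) (nat_lit 329) (nat_lit 138))))))) (XT.nd (nat_lit 1128) (nat_lit 0) (nat_lit 0) (XT.nd (nat_lit 564) (nat_lit 420) (nat_lit 0) (XT.nd (nat_lit 282)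 (nat_lit 0) (nat_lit 0) (XT.nd (nat_lit 94) (nat_lit 168) (nat_lit 0) (XT.lf (nat_lit 0) (nat_lit 21291782392) (nat_lit 336) (nat_lit 28206351696) (nat_lit 84) (nat_lit 7859462927) (nat_lit 24) (nat_lit 5) (nat_lit 28) (nat_lit 5) (nat_lit 25) (nat_lit 5) (nat_lit 398) (nat_lit 329) (nat_lit 137)) (XT.nd (nat_lit 94) (nat_lit 168) (nat_lit 0) (XT.lf (nat_lit 0) (nat_lit 27359848278) (nat_lit 336) (nat_lit 12541355249) (nat_lit 84) (nat_lit 18871616002) (nat_lit 24) (nat_lit 5) (nat_lit 28) (nat_lit 5) (nat_lit 25) (nat_lit 5) (nat_lit 399) (nat_lit 329) (nat_lit 136)) (XT.lf (nat_lit 0) (nat_lit 3680669206) (nat_lit 168) (nat_lit 29970014178) (nat_lit 252) (nat_lit 26580160406) (nat_lit 22) (nat_lit 5) (nat_lit 24) (nat_lit 5) (nat_lit 25) (nat_lit 5) (nat_lit 400) (nat_lit 329) (nat_lit 135)))) (XT.nd (nat_lit 94) (nat_lit 0) (nat_lit 0) (XT.lf (nat_lit 0) (nat_lit 20668730181) (nat_lit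 168) (nat_lit 19596885494) (nat_lit 252) (nat_lit 21464453762) (nat_lit 22) (nat_lit 5) (nat_lit 24) (nat_lit 5) (nat_lit 25) (nat_lit 5) (nat_lit 401) (nat_lit 329) (nat_lit 134)) (XT.nd (nat_lit 94) (nat_lit 0) (nat_lit 0) (XT.lf (nat_lit 0) (nat_lit 38180786342) (nat_lit 168) (nat_lit 8903054660) (nat_lit 252) (nat_lit 16191988973) (nat_lit 22) (nat_lit 5) (nat_lit 24) (nat_lit 5) (nat_lit 25) (nat_lit 5) (nat_lit 402) (nat_lit 329) (nat_lit 133)) (XT.lf (nat_lit 0) (nat_lit 54132759674) (nat_lit 252) (nat_lit 8657450463) (nat_lit 84) (nat_lit 2078703682) (nat_lit 22) (nat_lit 5) (nat_lit 25) (nat_lit 5) (nat_lit 23) (nat_lit 5) (nat_lit 403) (nat_lit 329) (nat_lit 132))))) (XT.nd (nat_lit 282) (nat_lit 168) (nat_lit 0) (XT.nd (nat_lit 94) (nat_lit 84) (nat_lit 0) (XT.lf (nat_lit 0) (nat_lit 8364653943) (nat_lit 168) (nat_lit 53207903485) (nat_lit 252) (nat_lit 4933486385) (nat_lit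 20) (nat_lit 5) (nat_lit 22) (nat_lit 5) (nat_lit 23) (nat_lit 5) (nat_lit 404) (nat_lit 329) (nat_lit 131)) (XT.nd (nat_lit 94) (nat_lit 0) (nat_lit 0) (XT.lf (nat_lit 0) (nat_lit 1117549976) (nat_lit 252) (nat_lit 42107015854) (nat_lit 84) (nat_lit 24966261671) (nat_lit 19) (nat_lit 5) (nat_lit 22) (nat_lit 5) (nat_lit 20) (nat_lit 5) (nat_lit 405) (nat_lit 329) (nat_lit 130)) (XT.lf (nat_lit 0) (nat_lit 7252070445) (nat_lit 252) (nat_lit 25628496158) (nat_lit 84) (nat_lit 37045762299) (nat_lit 19) (nat_lit 5) (nat_lit 22) (nat_lit 5) (nat_lit 20) (nat_lit 5) (nat_lit 406) (nat_lit 329) (nat_lit 129)))) (XT.nd (nat_lit 94) (nat_lit 168) (nat_lit 0) (XT.lf (nat_lit 0) (nat_lit 13575191796) (nat_lit 252) (nat_lit 8641530279) (nat_lit 84) (nat_lit 49498960774) (nat_lit 19) (nat_lit 5) (nat_lit 22) (nat_lit 5) (nat_lit 20) (nat_lit 5) (nat_lit 407) (nat_lit 329) (nat_lit 128)) (XT.nd (nat_lit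 94) (nat_lit 0) (nat_lit 0) (XT.lf (nat_lit 0) (nat_lit 9052094954) (nat_lit 168) (nat_lit 11130510787) (nat_lit 252) (nat_lit 53375167730) (nat_lit 17) (nat_lit 5) (nat_lit 19) (nat_lit 5) (nat_lit 20) (nat_lit 5) (nat_lit 408) (nat_lit 329) (nat_lit 127)) (XT.lf (nat_lit 0) (nat_lit 27087434800) (nat_lit 252) (nat_lit 47982981020) (nat_lit 84) (nat_lit 383686095) (nat_lit 17) (nat_lit 5) (nat_lit 20) (nat_lit 5) (nat_lit 18) (nat_lit 5) (nat_lit 409) (nat_lit 329) (nat_lit 126)))))) (XT.nd (nat_lit 47094) (nat_lit 0) (nat_lit 8232) (XT.nd (nat_lit 46812) (nat_lit 0) (nat_lit 8148) (XT.nd (nat_lit 94) (nat_lit 0) (nat_lit 0) (XT.lf (nat_lit 0) (nat_lit 34318690891) (nat_lit 252) (nat_lit 31064183084) (nat_lit 84) (nat_lit 12022861931) (nat_lit 17) (nat_lit 5) (nat_lit 20) (nat_lit 5) (nat_lit 18) (nat_lit 5) (nat_lit 410) (nat_lit 329) (nat_lit 125)) (XT.nd (nat_lit 46624) (nat_lit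 0) (nat_lit 8148) (XT.lf (nat_lit 0) (nat_lit 41772698257) (nat_lit 252) (nat_lit 13623098572) (nat_lit 84) (nat_lit 24022120637) (nat_lit 17) (nat_lit 5) (nat_lit 20) (nat_lit 5) (nat_lit 18) (nat_lit 5) (nat_lit 411) (nat_lit 329) (nat_lit 124)) (XT.lf (nat_lit 0) (nat_lit 318093443) (nat_lit 0) (nat_lit 318093443) (nat_lit 1092) (nat_lit 6912217203) (nat_lit 114) (nat_lit 5) (nat_lit 114) (nat_lit 3) (nat_lit 127) (nat_lit 3) (nat_lit 330) (nat_lit 330) (nat_lit 204)))) (XT.nd (nat_lit 94) (nat_lit 0) (nat_lit 0) (XT.lf (nat_lit 0) (nat_lit 1598565950) (nat_lit 1092) (nat_lit 8727971565) (nat_lit 1176) (nat_lit 4993813071) (nat_lit 114) (nat_lit 5) (nat_lit 127) (nat_lit 3) (nat_lit 128) (nat_lit 5) (nat_lit 331) (nat_lit 330) (nat_lit 203)) (XT.nd (nat_lit 94) (nat_lit 0) (nat_lit 84) (XT.lf (nat_lit 0) (nat_lit 1931115794) (nat_lit 1092) (nat_lit 2829681867) (nat_lit 1176) (nat_lit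 10790180114) (nat_lit 114) (nat_lit 5) (nat_lit 127) (nat_lit 3) (nat_lit 128) (nat_lit 5) (nat_lit 332) (nat_lit 330) (nat_lit 202)) (XT.lf (nat_lit 0) (nat_lit 2306963652) (nat_lit 1092) (nat_lit 12485357350) (nat_lit 1176) (nat_lit 995448170) (nat_lit 115) (nat_lit 5) (nat_lit 128) (nat_lit 5) (nat_lit 129) (nat_lit 5) (nat_lit 333) (nat_lit 330) (nat_lit 201))))) (XT.nd (nat_lit 282) (nat_lit 0) (nat_lit 84) (XT.nd (nat_lit 94) (nat_lit 0) (nat_lit 0) (XT.lf (nat_lit 0) (nat_lit 2763329777) (nat_lit 1092) (nat_lit 6401115098) (nat_lit 1176) (nat_lit 6865357652) (nat_lit 115) (nat_lit 5) (nat_lit 128) (nat_lit 5) (nat_lit 129) (nat_lit 5) (nat_lit 334) (nat_lit 330) (nat_lit 200)) (XT.nd (nat_lit 94) (nat_lit 0) (nat_lit 84) (XT.lf (nat_lit 0) (nat_lit 3224470857) (nat_lit 1092) (nat_lit 133813182) (nat_lit 1176) (nat_lit 12921380627) (nat_lit 115) (nat_lit 5) (nat_lit 128) (nat_lit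 5) (nat_lit 129) (nat_lit 5) (nat_lit 335) (nat_lit 330) (nat_lit 199)) (XT.lf (nat_lit 0) (nat_lit 3781585438) (nat_lit 1092) (nat_lit 10109972929) (nat_lit 1176) (nat_lit 2643216291) (nat_lit 116) (nat_lit 5) (nat_lit 129) (nat_lit 5) (nat_lit 130) (nat_lit 5) (nat_lit 336) (nat_lit 330) (nat_lit 198)))) (XT.nd (nat_lit 94) (nat_lit 0) (nat_lit 0) (XT.lf (nat_lit 0) (nat_lit 4382893924) (nat_lit 1092) (nat_lit 3648214527) (nat_lit 1176) (nat_lit 8765883109) (nat_lit 116) (nat_lit 5) (nat_lit 129) (nat_lit 5) (nat_lit 130) (nat_lit 5) (nat_lit 337) (nat_lit 330) (nat_lit 197)) (XT.nd (nat_lit 94) (nat_lit 0) (nat_lit 84) (XT.lf (nat_lit 84) (nat_lit 3070213327) (nat_lit 0) (nat_lit 1954517176) (nat_lit 1176) (nat_lit 12041960294) (nat_lit 117) (nat_lit 5) (nat_lit 116) (nat_lit 5) (nat_lit 130) (nat_lit 5) (nat_lit 338) (nat_lit 330) (nat_lit 196)) (XT.lf (nat_lit 0) (nat_lit 5759356757)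 (nat_lit 1092) (nat_lit 7318233959) (nat_lit 1176) (nat_lit 4264931481) (nat_lit 117) (nat_lit 5) (nat_lit 130) (nat_lit 5) (nat_lit 131) (nat_lit 5) (nat_lit 339) (nat_lit 330) (nat_lit 195))))))))
noncomputable def xc178 : XT := (XT.nd (nat_lit 2256) (nat_lit 2940) (nat_lit 0) (XT.nd (nat_lit 1128) (nat_lit 2520) (nat_lit 0) (XT.nd (nat_lit 564) (nat_lit 1344) (nat_lit 0) (XT.nd (nat_lit 282) (nat_lit 0) (nat_lit 84) (XT.nd (nat_lit 94) (nat_lit 0) (nat_lit 0) (XT.lf (nat_lit 0) (nat_lit 6528660418) (nat_lit 1092) (nat_lit 458548368) (nat_lit 1176) (nat_lit 10639356783) (nat_lit 117) (nat_lit 5) (nat_lit 130) (nat_lit 5) (nat_lit 131) (nat_lit 5) (nat_lit 340) (nat_lit 330) (nat_lit 194)) (XT.nd (nat_lit 94) (nat_lit 0) (nat_lit 84) (XT.lf (nat_lit 84) (nat_lit 6744243781) (nat_lit 0) (nat_lit 636629459) (nat_lit 1176) (nat_lit 10536739478) (nat_lit 118) (nat_lit 5) (nat_lit 117) (nat_lit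 5) (nat_lit 131) (nat_lit 5) (nat_lit 341) (nat_lit 330) (nat_lit 193)) (XT.lf (nat_lit 0) (nat_lit 8315338243) (nat_lit 1092) (nat_lit 4101834355) (nat_lit 1176) (nat_lit 5798807323) (nat_lit 118) (nat_lit 5) (nat_lit 131) (nat_lit 5) (nat_lit 132) (nat_lit 5) (nat_lit 342) (nat_lit 330) (nat_lit 192)))) (XT.nd (nat_lit 94) (nat_lit 0) (nat_lit 84) (XT.lf (nat_lit 84) (nat_lit 3242241797) (nat_lit 0) (nat_lit 6067796457) (nat_lit 1176) (nat_lit 9212616567) (nat_lit 119) (nat_lit 5) (nat_lit 118) (nat_lit 5) (nat_lit 132) (nat_lit 5) (nat_lit 343) (nat_lit 330) (nat_lit 191)) (XT.nd (nat_lit 94) (nat_lit 0) (nat_lit 0) (XT.lf (nat_lit 0) (nat_lit 10376351183) (nat_lit 1092) (nat_lit 7947454364) (nat_lit 1176) (nat_lit 513793750) (nat_lit 119) (nat_lit 5) (nat_lit 132) (nat_lit 5) (nat_lit 133) (nat_lit 5) (nat_lit 344) (nat_lit 330) (nat_lit 190)) (XT.lf (nat_lit 0) (nat_lit 11530774922)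 (nat_lit 1092) (nat_lit 454764055) (nat_lit 1176) (nat_lit 7175087312) (nat_lit 119) (nat_lit 5) (nat_lit 132) (nat_lit 5) (nat_lit 133) (nat_lit 5) (nat_lit 345) (nat_lit 330) (nat_lit 189))))) (XT.nd (nat_lit 282) (nat_lit 504) (nat_lit 0) (XT.nd (nat_lit 94) (nat_lit 1008) (nat_lit 0) (XT.lf (nat_lit 84) (nat_lit 7414215077) (nat_lit 0) (nat_lit 5373527076) (nat_lit 1176) (nat_lit 6703880683) (nat_lit 120) (nat_lit 5) (nat_lit 119) (nat_lit 5) (nat_lit 133) (nat_lit 5) (nat_lit 346) (nat_lit 330) (nat_lit 188)) (XT.nd (nat_lit 94) (nat_lit 1092) (nat_lit 0) (XT.lf (nat_lit 0) (nat_lit 14096161225) (nat_lit 1092) (nat_lit 4315881321) (nat_lit 84) (nat_lit 1420475076) (nat_lit 120) (nat_lit 5) (nat_lit 133) (nat_lit 5) (nat_lit 121) (nat_lit 5) (nat_lit 347) (nat_lit 330) (nat_lit 187)) (XT.lf (nat_lit 0) (nat_lit 3700463274) (nat_lit 1092) (nat_lit 11829916150) (nat_lit 1176) (nat_lit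 4650982015) (nat_lit 107) (nat_lit 5) (nat_lit 120) (nat_lit 5) (nat_lit 121) (nat_lit 5) (nat_lit 348) (nat_lit 330) (nat_lit 186)))) (XT.nd (nat_lit 94) (nat_lit 504) (nat_lit 0) (XT.lf (nat_lit 0) (nat_lit 12051476796) (nat_lit 1092) (nat_lit 4996341506) (nat_lit 1176) (nat_lit 3492022516) (nat_lit 107) (nat_lit 5) (nat_lit 120) (nat_lit 5) (nat_lit 121) (nat_lit 5) (nat_lit 349) (nat_lit 330) (nat_lit 185)) (XT.nd (nat_lit 94) (nat_lit 504) (nat_lit 0) (XT.lf (nat_lit 0) (nat_lit 18626534124) (nat_lit 1176) (nat_lit 273780812) (nat_lit 84) (nat_lit 2008699068) (nat_lit 107) (nat_lit 5) (nat_lit 121) (nat_lit 5) (nat_lit 108) (nat_lit 5) (nat_lit 350) (nat_lit 330) (nat_lit 184)) (XT.lf (nat_lit 0) (nat_lit 8306480443) (nat_lit 504) (nat_lit 12075304234) (nat_lit 588) (nat_lit 903913054) (nat_lit 101) (nat_lit 5) (nat_lit 107) (nat_lit 5) (nat_lit 108) (nat_lit 5) (nat_lit 351) (nat_lit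 330) (nat_lit 183)))))) (XT.nd (nat_lit 564) (nat_lit 1344) (nat_lit 0) (XT.nd (nat_lit 282) (nat_lit 504) (nat_lit 0) (XT.nd (nat_lit 94) (nat_lit 588) (nat_lit 0) (XT.lf (nat_lit 0) (nat_lit 503991055) (nat_lit 588) (nat_lit 4525916218) (nat_lit 84) (nat_lit 16644104787) (nat_lit 100) (nat_lit 5) (nat_lit 107) (nat_lit 5) (nat_lit 101) (nat_lit 5) (nat_lit 352) (nat_lit 330) (nat_lit 182)) (XT.nd (nat_lit 94) (nat_lit 0) (nat_lit 0) (XT.lf (nat_lit 0) (nat_lit 1996040122) (nat_lit 672) (nat_lit 17834774499) (nat_lit 84) (nat_lit 2241445067) (nat_lit 93) (nat_lit 5) (nat_lit 101) (nat_lit 5) (nat_lit 94) (nat_lit 5) (nat_lit 353) (nat_lit 330) (nat_lit 181)) (XT.lf (nat_lit 0) (nat_lit 3627951347) (nat_lit 672) (nat_lit 9170118916) (nat_lit 84) (nat_lit 9681899981) (nat_lit 93) (nat_lit 5) (nat_lit 101) (nat_lit 5) (nat_lit 94) (nat_lit 5) (nat_lit 354) (nat_lit 330) (nat_lit 180))))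 (XT.nd (nat_lit 94) (nat_lit 504) (nat_lit 0) (XT.lf (nat_lit 0) (nat_lit 5305059061) (nat_lit 672) (nat_lit 242001789) (nat_lit 84) (nat_lit 17353444695) (nat_lit 93) (nat_lit 5) (nat_lit 101) (nat_lit 5) (nat_lit 94) (nat_lit 5) (nat_lit 355) (nat_lit 330) (nat_lit 179)) (XT.nd (nat_lit 94) (nat_lit 0) (nat_lit 0) (XT.lf (nat_lit 0) (nat_lit 7139680383) (nat_lit 588) (nat_lit 14209417771) (nat_lit 84) (nat_lit 1981726054) (nat_lit 87) (nat_lit 5) (nat_lit 94) (nat_lit 5) (nat_lit 88) (nat_lit 5) (nat_lit 356) (nat_lit 330) (nat_lit 178)) (XT.lf (nat_lit 0) (nat_lit 9085339702) (nat_lit 588) (nat_lit 5056068745) (nat_lit 84) (nat_lit 9631412640) (nat_lit 87) (nat_lit 5) (nat_lit 94) (nat_lit 5) (nat_lit 88) (nat_lit 5) (nat_lit 357) (nat_lit 330) (nat_lit 177))))) (XT.nd (nat_lit 282) (nat_lit 840) (nat_lit 0) (XT.nd (nat_lit 94) (nat_lit 0) (nat_lit 0) (XT.lf (nat_lit 0) (nat_lit 4466053222)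 (nat_lit 504) (nat_lit 6664598514) (nat_lit 588) (nat_lit 13096665599) (nat_lit 81) (nat_lit 5) (nat_lit 87) (nat_lit 5) (nat_lit 88) (nat_lit 5) (nat_lit 358) (nat_lit 330) (nat_lit 176)) (XT.nd (nat_lit 94) (nat_lit 0) (nat_lit 0) (XT.lf (nat_lit 0) (nat_lit 13298173364) (nat_lit 588) (nat_lit 10319694733) (nat_lit 84) (nat_lit 1076228330) (nat_lit 81) (nat_lit 5) (nat_lit 88) (nat_lit 5) (nat_lit 82) (nat_lit 5) (nat_lit 359) (nat_lit 330) (nat_lit 175)) (XT.lf (nat_lit 0) (nat_lit 15596331279) (nat_lit 588) (nat_lit 658525632) (nat_lit 84) (nat_lit 8918537941) (nat_lit 81) (nat_lit 5) (nat_lit 88) (nat_lit 5) (nat_lit 82) (nat_lit 5) (nat_lit 360) (nat_lit 330) (nat_lit 174)))) (XT.nd (nat_lit 94) (nat_lit 420) (nat_lit 0) (XT.lf (nat_lit 0) (nat_lit 9488534885) (nat_lit 420) (nat_lit 8566746520) (nat_lit 504) (nat_lit 7609509535) (nat_lit 76) (nat_lit 5) (nat_lit 81) (nat_lit 5)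 (nat_lit 82) (nat_lit 5) (nat_lit 361) (nat_lit 330) (nat_lit 173)) (XT.nd (nat_lit 94) (nat_lit 420) (nat_lit 0) (XT.lf (nat_lit 0) (nat_lit 19959385388) (nat_lit 420) (nat_lit 633459869) (nat_lit 504) (nat_lit 5578516052) (nat_lit 76) (nat_lit 5) (nat_lit 81) (nat_lit 5) (nat_lit 82) (nat_lit 5) (nat_lit 362) (nat_lit 330) (nat_lit 172)) (XT.lf (nat_lit 0) (nat_lit 4063477846) (nat_lit 420) (nat_lit 19256406018) (nat_lit 504) (nat_lit 3370330902) (nat_lit 71) (nat_lit 5) (nat_lit 76) (nat_lit 5) (nat_lit 77) (nat_lit 5) (nat_lit 363) (nat_lit 330) (nat_lit 171))))))) (XT.nd (nat_lit 1128) (nat_lit 1344) (nat_lit 0) (XT.nd (nat_lit 564) (nat_lit 672) (nat_lit 0) (XT.nd (nat_lit 282) (nat_lit 420) (nat_lit 0) (XT.nd (nat_lit 94) (nat_lit 504) (nat_lit 0) (XT.lf (nat_lit 0) (nat_lit 14777863003) (nat_lit 420) (nat_lit 11420580830) (nat_lit 504) (nat_lit 1024646459) (nat_lit 71) (nat_lit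 5) (nat_lit 76) (nat_lit 5) (nat_lit 77) (nat_lit 5) (nat_lit 364) (nat_lit 330) (nat_lit 170)) (XT.nd (nat_lit 94) (nat_lit 420) (nat_lit 0) (XT.lf (nat_lit 0) (nat_lit 1361475472) (nat_lit 504) (nat_lit 1966562017) (nat_lit 84) (nat_lit 24444162239) (nat_lit 70) (nat_lit 5) (nat_lit 76) (nat_lit 5) (nat_lit 71) (nat_lit 5) (nat_lit 365) (nat_lit 330) (nat_lit 169)) (XT.lf (nat_lit 0) (nat_lit 3936295277) (nat_lit 504) (nat_lit 19382792103) (nat_lit 84) (nat_lit 5014715776) (nat_lit 65) (nat_lit 5) (nat_lit 71) (nat_lit 5) (nat_lit 66) (nat_lit 5) (nat_lit 366) (nat_lit 330) (nat_lit 168)))) (XT.nd (nat_lit 94) (nat_lit 420) (nat_lit 0) (XT.lf (nat_lit 0) (nat_lit 6641711388) (nat_lit 504) (nat_lit 8702300227) (nat_lit 84) (nat_lit 13567243062) (nat_lit 65) (nat_lit 5) (nat_lit 71) (nat_lit 5) (nat_lit 66) (nat_lit 5) (nat_lit 367) (nat_lit 330) (nat_lit 167)) (XT.nd (nat_lit 94) (nat_lit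 0) (nat_lit 0) (XT.lf (nat_lit 0) (nat_lit 2352225751) (nat_lit 420) (nat_lit 7098226306) (nat_lit 504) (nat_lit 20055564075) (nat_lit 60) (nat_lit 5) (nat_lit 65) (nat_lit 5) (nat_lit 66) (nat_lit 5) (nat_lit 368) (nat_lit 330) (nat_lit 166)) (XT.lf (nat_lit 0) (nat_lit 12448135748) (nat_lit 504) (nat_lit 16201853693) (nat_lit 84) (nat_lit 1466079449) (nat_lit 60) (nat_lit 5) (nat_lit 66) (nat_lit 5) (nat_lit 61) (nat_lit 5) (nat_lit 369) (nat_lit 330) (nat_lit 165))))) (XT.nd (nat_lit 282) (nat_lit 336) (nat_lit 0) (XT.nd (nat_lit 94) (nat_lit 336) (nat_lit 0) (XT.lf (nat_lit 0) (nat_lit 15607649544) (nat_lit 504) (nat_lit 4987400723) (nat_lit 84) (nat_lit 10147858435) (nat_lit 60) (nat_lit 5) (nat_lit 66) (nat_lit 5) (nat_lit 61) (nat_lit 5) (nat_lit 370) (nat_lit 330) (nat_lit 164)) (XT.nd (nat_lit 94) (nat_lit 0) (nat_lit 0) (XT.lf (nat_lit 0) (nat_lit 6705538512) (nat_lit 336)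 (nat_lit 12222504419) (nat_lit 420) (nat_lit 12459197678) (nat_lit 56) (nat_lit 5) (nat_lit 60) (nat_lit 5) (nat_lit 61) (nat_lit 5) (nat_lit 371) (nat_lit 330) (nat_lit 163)) (XT.lf (nat_lit 0) (nat_lit 18862468869) (nat_lit 336) (nat_lit 3537438702) (nat_lit 420) (nat_lit 9650145228) (nat_lit 56) (nat_lit 5) (nat_lit 60) (nat_lit 5) (nat_lit 61) (nat_lit 5) (nat_lit 372) (nat_lit 330) (nat_lit 162)))) (XT.nd (nat_lit 94) (nat_lit 336) (nat_lit 0) (XT.lf (nat_lit 0) (nat_lit 26029715869) (nat_lit 420) (nat_lit 1395086887) (nat_lit 84) (nat_lit 5307060002) (nat_lit 56) (nat_lit 5) (nat_lit 61) (nat_lit 5) (nat_lit 57) (nat_lit 5) (nat_lit 373) (nat_lit 330) (nat_lit 161)) (XT.nd (nat_lit 94) (nat_lit 0) (nat_lit 0) (XT.lf (nat_lit 0) (nat_lit 10943202575) (nat_lit 336) (nat_lit 18970265976) (nat_lit 420) (nat_lit 3516966314) (nat_lit 52) (nat_lit 5) (nat_lit 56) (nat_lit 5) (nat_lit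 57) (nat_lit 5) (nat_lit 374) (nat_lit 330) (nat_lit 160)) (XT.lf (nat_lit 0) (nat_lit 23689518936) (nat_lit 336) (nat_lit 10239402917) (nat_lit 420) (nat_lit 221400189) (nat_lit 52) (nat_lit 5) (nat_lit 56) (nat_lit 5) (nat_lit 57) (nat_lit 5) (nat_lit 375) (nat_lit 330) (nat_lit 159)))))) (XT.nd (nat_lit 564) (nat_lit 588) (nat_lit 0) (XT.nd (nat_lit 282) (nat_lit 336) (nat_lit 0) (XT.nd (nat_lit 94) (nat_lit 0) (nat_lit 0) (XT.lf (nat_lit 0) (nat_lit 1942075434) (nat_lit 336) (nat_lit 1186321529) (nat_lit 420) (nat_lit 31762663153) (nat_lit 47) (nat_lit 5) (nat_lit 51) (nat_lit 5) (nat_lit 52) (nat_lit 5) (nat_lit 376) (nat_lit 330) (nat_lit 158)) (XT.nd (nat_lit 94) (nat_lit 0) (nat_lit 0) (XT.lf (nat_lit 0) (nat_lit 6765416072) (nat_lit 420) (nat_lit 20788420772) (nat_lit 84) (nat_lit 8095035649) (nat_lit 47) (nat_lit 5) (nat_lit 52) (nat_lit 5) (nat_lit 48) (nat_lit 5) (nat_lit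 377) (nat_lit 330) (nat_lit 157)) (XT.lf (nat_lit 0) (nat_lit 10524258724) (nat_lit 420) (nat_lit 8266937861) (nat_lit 84) (nat_lit 17638707757) (nat_lit 47) (nat_lit 5) (nat_lit 52) (nat_lit 5) (nat_lit 48) (nat_lit 5) (nat_lit 378) (nat_lit 330) (nat_lit 156)))) (XT.nd (nat_lit 94) (nat_lit 0) (nat_lit 0) (XT.lf (nat_lit 0) (nat_lit 4734289214) (nat_lit 336) (nat_lit 9709335618) (nat_lit 420) (nat_lit 22790167752) (nat_lit 43) (nat_lit 5) (nat_lit 47) (nat_lit 5) (nat_lit 48) (nat_lit 5) (nat_lit 379) (nat_lit 330) (nat_lit 155)) (XT.nd (nat_lit 94) (nat_lit 0) (nat_lit 0) (XT.lf (nat_lit 0) (nat_lit 18310040432) (nat_lit 336) (nat_lit 257827113) (nat_lit 420) (nat_lit 19492157286) (nat_lit 43) (nat_lit 5) (nat_lit 47) (nat_lit 5) (nat_lit 48) (nat_lit 5) (nat_lit 380) (nat_lit 330) (nat_lit 154)) (XT.lf (nat_lit 0) (nat_lit 22911236562) (nat_lit 420) (nat_lit 6703081950) (nat_lit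 84) (nat_lit 9294730134) (nat_lit 43) (nat_lit 5) (nat_lit 48) (nat_lit 5) (nat_lit 44) (nat_lit 5) (nat_lit 381) (nat_lit 330) (nat_lit 153))))) (XT.nd (nat_lit 282) (nat_lit 336) (nat_lit 0) (XT.nd (nat_lit 94) (nat_lit 0) (nat_lit 0) (XT.lf (nat_lit 0) (nat_lit 6880636951) (nat_lit 252) (nat_lit 20576757778) (nat_lit 336) (nat_lit 12324892636) (nat_lit 40) (nat_lit 5) (nat_lit 43) (nat_lit 5) (nat_lit 44) (nat_lit 5) (nat_lit 382) (nat_lit 330) (nat_lit 152)) (XT.nd (nat_lit 94) (nat_lit 0) (nat_lit 0) (XT.lf (nat_lit 0) (nat_lit 21023959649) (nat_lit 252) (nat_lit 11187788569) (nat_lit 336) (nat_lit 8468770490) (nat_lit 40) (nat_lit 5) (nat_lit 43) (nat_lit 5) (nat_lit 44) (nat_lit 5) (nat_lit 383) (nat_lit 330) (nat_lit 151)) (XT.lf (nat_lit 0) (nat_lit 35602240086) (nat_lit 252) (nat_lit 1508625809) (nat_lit 336) (nat_lit 4495817768) (nat_lit 40) (nat_lit 5) (nat_lit 43) (nat_lit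 5) (nat_lit 44) (nat_lit 5) (nat_lit 384) (nat_lit 330) (nat_lit 150)))) (XT.nd (nat_lit 94) (nat_lit 84) (nat_lit 0) (XT.lf (nat_lit 0) (nat_lit 8147555321) (nat_lit 252) (nat_lit 34176604685) (nat_lit 336) (nat_lit 232375290) (nat_lit 37) (nat_lit 5) (nat_lit 40) (nat_lit 5) (nat_lit 41) (nat_lit 5) (nat_lit 385) (nat_lit 330) (nat_lit 149)) (XT.nd (nat_lit 94) (nat_lit 0) (nat_lit 0) (XT.lf (nat_lit 0) (nat_lit 4155558955) (nat_lit 336) (nat_lit 20729184412) (nat_lit 84) (nat_lit 18647452883) (nat_lit 36) (nat_lit 5) (nat_lit 40) (nat_lit 5) (nat_lit 37) (nat_lit 5) (nat_lit 386) (nat_lit 330) (nat_lit 148)) (XT.lf (nat_lit 0) (nat_lit 8672228710) (nat_lit 336) (nat_lit 6631068868) (nat_lit 84) (nat_lit 29234814179) (nat_lit 36) (nat_lit 5) (nat_lit 40) (nat_lit 5) (nat_lit 37) (nat_lit 5) (nat_lit 387) (nat_lit 330) (nat_lit 147))))))))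
noncomputable def xc179 : XT := (XT.nd (nat_lit 48974) (nat_lit 0) (nat_lit 6384) (XT.nd (nat_lit 1128) (nat_lit 588) (nat_lit 0) (XT.nd (nat_lit 564) (nat_lit 504) (nat_lit 0) (XT.nd (nat_lit 282) (nat_lit 252) (nat_lit 0) (XT.nd (nat_lit 94) (nat_lit 0) (nat_lit 0) (XT.lf (nat_lit 0) (nat_lit 8063269684) (nat_lit 252) (nat_lit 5343244775) (nat_lit 336) (nat_lit 32166296787) (nat_lit 33) (nat_lit 5) (nat_lit 36) (nat_lit 5) (nat_lit 37) (nat_lit 5) (nat_lit 388) (nat_lit 330) (nat_lit 146)) (XT.nd (nat_lit 94) (nat_lit 0) (nat_lit 0) (XT.lf (nat_lit 0) (nat_lit 18403989415) (nat_lit 336) (nat_lit 23336615326) (nat_lit 84) (nat_lit 4895378454) (nat_lit 33) (nat_lit 5) (nat_lit 37) (nat_lit 5) (nat_lit 34) (nat_lit 5) (nat_lit 389) (nat_lit 330) (nat_lit 145)) (XT.lf (nat_lit 0) (nat_lit 23608747261) (nat_lit 336) (nat_lit 8782189914) (nat_lit 84) (nat_lit 15339558917) (nat_lit 33) (nat_lit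 5) (nat_lit 37) (nat_lit 5) (nat_lit 34) (nat_lit 5) (nat_lit 390) (nat_lit 330) (nat_lit 144)))) (XT.nd (nat_lit 94) (nat_lit 0) (nat_lit 0) (XT.lf (nat_lit 0) (nat_lit 6348208833) (nat_lit 252) (nat_lit 22687399911) (nat_lit 336) (nat_lit 19821452341) (nat_lit 30) (nat_lit 5) (nat_lit 33) (nat_lit 5) (nat_lit 34) (nat_lit 5) (nat_lit 391) (nat_lit 330) (nat_lit 143)) (XT.nd (nat_lit 94) (nat_lit 0) (nat_lit 0) (XT.lf (nat_lit 0) (nat_lit 22130743188) (nat_lit 252) (nat_lit 12589445040) (nat_lit 336) (nat_lit 15295592789) (nat_lit 30) (nat_lit 5) (nat_lit 33) (nat_lit 5) (nat_lit 34) (nat_lit 5) (nat_lit 392) (nat_lit 330) (nat_lit 142)) (XT.lf (nat_lit 0) (nat_lit 38399544290) (nat_lit 252) (nat_lit 2179328262) (nat_lit 336) (nat_lit 10631619651) (nat_lit 30) (nat_lit 5) (nat_lit 33) (nat_lit 5) (nat_lit 34) (nat_lit 5) (nat_lit 393) (nat_lit 330) (nat_lit 141))))) (XT.nd (nat_lit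 282) (nat_lit 252) (nat_lit 0) (XT.nd (nat_lit 94) (nat_lit 84) (nat_lit 0) (XT.lf (nat_lit 0) (nat_lit 2696962527) (nat_lit 168) (nat_lit 44031757681) (nat_lit 252) (nat_lit 5710128503) (nat_lit 28) (nat_lit 5) (nat_lit 30) (nat_lit 5) (nat_lit 31) (nat_lit 5) (nat_lit 394) (nat_lit 330) (nat_lit 140)) (XT.nd (nat_lit 94) (nat_lit 84) (nat_lit 0) (XT.lf (nat_lit 0) (nat_lit 18931523583) (nat_lit 168) (nat_lit 34291444347) (nat_lit 252) (nat_lit 477554934) (nat_lit 28) (nat_lit 5) (nat_lit 30) (nat_lit 5) (nat_lit 31) (nat_lit 5) (nat_lit 395) (nat_lit 330) (nat_lit 139)) (XT.lf (nat_lit 0) (nat_lit 4816164383) (nat_lit 252) (nat_lit 19383622160) (nat_lit 84) (nat_lit 30800076679) (nat_lit 27) (nat_lit 5) (nat_lit 30) (nat_lit 5) (nat_lit 28) (nat_lit 5) (nat_lit 396) (nat_lit 330) (nat_lit 138)))) (XT.nd (nat_lit 94) (nat_lit 252) (nat_lit 0) (XT.lf (nat_lit 0) (nat_lit 10262136142)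 (nat_lit 252) (nat_lit 3528985483) (nat_lit 84) (nat_lit 42548274567) (nat_lit 27) (nat_lit 5) (nat_lit 30) (nat_lit 5) (nat_lit 28) (nat_lit 5) (nat_lit 397) (nat_lit 330) (nat_lit 137)) (XT.nd (nat_lit 94) (nat_lit 0) (nat_lit 0) (XT.lf (nat_lit 0) (nat_lit 13077917222) (nat_lit 252) (nat_lit 2926875562) (nat_lit 336) (nat_lit 41711702664) (nat_lit 24) (nat_lit 5) (nat_lit 27) (nat_lit 5) (nat_lit 28) (nat_lit 5) (nat_lit 398) (nat_lit 330) (nat_lit 136)) (XT.lf (nat_lit 0) (nat_lit 22042911090) (nat_lit 336) (nat_lit 28945897950) (nat_lit 84) (nat_lit 8143839406) (nat_lit 24) (nat_lit 5) (nat_lit 28) (nat_lit 5) (nat_lit 25) (nat_lit 5) (nat_lit 399) (nat_lit 330) (nat_lit 135)))))) (XT.nd (nat_lit 564) (nat_lit 252) (nat_lit 0) (XT.nd (nat_lit 282) (nat_lit 168) (nat_lit 0) (XT.nd (nat_lit 94) (nat_lit 168) (nat_lit 0) (XT.lf (nat_lit 0) (nat_lit 28296348331) (nat_lit 336) (nat_lit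 12799341288) (nat_lit 84) (nat_lit 19496144467) (nat_lit 24) (nat_lit 5) (nat_lit 28) (nat_lit 5) (nat_lit 25) (nat_lit 5) (nat_lit 400) (nat_lit 330) (nat_lit 134)) (XT.nd (nat_lit 94) (nat_lit 0) (nat_lit 0) (XT.lf (nat_lit 0) (nat_lit 3924241733) (nat_lit 168) (nat_lit 30856585627) (nat_lit 252) (nat_lit 27314278408) (nat_lit 22) (nat_lit 5) (nat_lit 24) (nat_lit 5) (nat_lit 25) (nat_lit 5) (nat_lit 401) (nat_lit 330) (nat_lit 133)) (XT.lf (nat_lit 0) (nat_lit 21435039655) (nat_lit 168) (nat_lit 20163167809) (nat_lit 252) (nat_lit 22042686968) (nat_lit 22) (nat_lit 5) (nat_lit 24) (nat_lit 5) (nat_lit 25) (nat_lit 5) (nat_lit 402) (nat_lit 330) (nat_lit 132)))) (XT.nd (nat_lit 94) (nat_lit 168) (nat_lit 0) (XT.lf (nat_lit 0) (nat_lit 39486193666) (nat_lit 168) (nat_lit 9139067652) (nat_lit 252) (nat_lit 16609396634) (nat_lit 22) (nat_lit 5) (nat_lit 24) (nat_lit 5) (nat_lit 25) (nat_lit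 5) (nat_lit 403) (nat_lit 330) (nat_lit 131)) (XT.nd (nat_lit 94) (nat_lit 168) (nat_lit 0) (XT.lf (nat_lit 0) (nat_lit 55890620973) (nat_lit 252) (nat_lit 8805434652) (nat_lit 84) (nat_lit 2181141712) (nat_lit 22) (nat_lit 5) (nat_lit 25) (nat_lit 5) (nat_lit 23) (nat_lit 5) (nat_lit 404) (nat_lit 330) (nat_lit 130)) (XT.lf (nat_lit 0) (nat_lit 8743136081) (nat_lit 168) (nat_lit 54816700849) (nat_lit 252) (nat_lit 5005284545) (nat_lit 20) (nat_lit 5) (nat_lit 22) (nat_lit 5) (nat_lit 23) (nat_lit 5) (nat_lit 405) (nat_lit 330) (nat_lit 129))))) (XT.nd (nat_lit 282) (nat_lit 168) (nat_lit 0) (XT.nd (nat_lit 94) (nat_lit 0) (nat_lit 0) (XT.lf (nat_lit 0) (nat_lit 1229308602) (nat_lit 252) (nat_lit 43294988395) (nat_lit 84) (nat_lit 25777890726) (nat_lit 19) (nat_lit 5) (nat_lit 22) (nat_lit 5) (nat_lit 20) (nat_lit 5) (nat_lit 406) (nat_lit 330) (nat_lit 128)) (XT.nd (nat_lit 94) (nat_lit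 0) (nat_lit 0) (XT.lf (nat_lit 0) (nat_lit 7551680534) (nat_lit 252) (nat_lit 26309162904) (nat_lit 84) (nat_lit 38230723067) (nat_lit 19) (nat_lit 5) (nat_lit 22) (nat_lit 5) (nat_lit 20) (nat_lit 5) (nat_lit 407) (nat_lit 330) (nat_lit 127)) (XT.lf (nat_lit 0) (nat_lit 14068569691) (nat_lit 252) (nat_lit 8799023309) (nat_lit 84) (nat_lit 51068871949) (nat_lit 19) (nat_lit 5) (nat_lit 22) (nat_lit 5) (nat_lit 20) (nat_lit 5) (nat_lit 408) (nat_lit 330) (nat_lit 126)))) (XT.nd (nat_lit 94) (nat_lit 0) (nat_lit 0) (XT.lf (nat_lit 0) (nat_lit 9441986662) (nat_lit 168) (nat_lit 11437729511) (nat_lit 252) (nat_lit 54955982888) (nat_lit 17) (nat_lit 5) (nat_lit 19) (nat_lit 5) (nat_lit 20) (nat_lit 5) (nat_lit 409) (nat_lit 330) (nat_lit 125)) (XT.nd (nat_lit 46812) (nat_lit 0) (nat_lit 8148) (XT.lf (nat_lit 0) (nat_lit 27996810559) (nat_lit 252) (nat_lit 49362532091) (nat_lit 84) (nat_lit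 431530877) (nat_lit 17) (nat_lit 5) (nat_lit 20) (nat_lit 5) (nat_lit 18) (nat_lit 5) (nat_lit 410) (nat_lit 330) (nat_lit 124)) (XT.lf (nat_lit 0) (nat_lit 454641253) (nat_lit 0) (nat_lit 454641253) (nat_lit 1092) (nat_lit 6864319482) (nat_lit 114) (nat_lit 5) (nat_lit 114) (nat_lit 3) (nat_lit 127) (nat_lit 3) (nat_lit 331) (nat_lit 331) (nat_lit 202))))))) (XT.nd (nat_lit 1128) (nat_lit 1764) (nat_lit 0) (XT.nd (nat_lit 564) (nat_lit 0) (nat_lit 168) (XT.nd (nat_lit 282) (nat_lit 0) (nat_lit 84) (XT.nd (nat_lit 94) (nat_lit 0) (nat_lit 0) (XT.lf (nat_lit 0) (nat_lit 2137194388) (nat_lit 1092) (nat_lit 8733269447) (nat_lit 1176) (nat_lit 4907817291) (nat_lit 114) (nat_lit 5) (nat_lit 127) (nat_lit 3) (nat_lit 128) (nat_lit 5) (nat_lit 332) (nat_lit 331) (nat_lit 201)) (XT.nd (nat_lit 94) (nat_lit 0) (nat_lit 84) (XT.lf (nat_lit 0) (nat_lit 2465347885) (nat_lit 1092) (nat_lit 2660108855)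 (nat_lit 1176) (nat_lit 10891112182) (nat_lit 114) (nat_lit 5) (nat_lit 127) (nat_lit 3) (nat_lit 128) (nat_lit 5) (nat_lit 333) (nat_lit 331) (nat_lit 200)) (XT.lf (nat_lit 0) (nat_lit 2839047518) (nat_lit 1092) (nat_lit 12599580633) (nat_lit 1176) (nat_lit 822554121) (nat_lit 115) (nat_lit 5) (nat_lit 128) (nat_lit 5) (nat_lit 129) (nat_lit 5) (nat_lit 334) (nat_lit 331) (nat_lit 199)))) (XT.nd (nat_lit 94) (nat_lit 0) (nat_lit 0) (XT.lf (nat_lit 0) (nat_lit 3295712682) (nat_lit 1092) (nat_lit 6334930078) (nat_lit 1176) (nat_lit 6880557218) (nat_lit 115) (nat_lit 5) (nat_lit 128) (nat_lit 5) (nat_lit 129) (nat_lit 5) (nat_lit 335) (nat_lit 331) (nat_lit 198)) (XT.nd (nat_lit 94) (nat_lit 0) (nat_lit 84) (XT.lf (nat_lit 84) (nat_lit 121142391) (nat_lit 0) (nat_lit 3637776571) (nat_lit 1176) (nat_lit 13010318475) (nat_lit 116) (nat_lit 5) (nat_lit 115) (nat_lit 5) (nat_lit 129) (nat_lit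 5) (nat_lit 336) (nat_lit 331) (nat_lit 197)) (XT.lf (nat_lit 0) (nat_lit 4319920971) (nat_lit 1092) (nat_lit 10152958960) (nat_lit 1176) (nat_lit 2559839726) (nat_lit 116) (nat_lit 5) (nat_lit 129) (nat_lit 5) (nat_lit 130) (nat_lit 5) (nat_lit 337) (nat_lit 331) (nat_lit 196))))) (XT.nd (nat_lit 282) (nat_lit 0) (nat_lit 84) (XT.nd (nat_lit 94) (nat_lit 0) (nat_lit 0) (XT.lf (nat_lit 0) (nat_lit 4927208237) (nat_lit 1092) (nat_lit 3499017102) (nat_lit 1176) (nat_lit 8877279927) (nat_lit 116) (nat_lit 5) (nat_lit 129) (nat_lit 5) (nat_lit 130) (nat_lit 5) (nat_lit 338) (nat_lit 331) (nat_lit 195)) (XT.nd (nat_lit 94) (nat_lit 0) (nat_lit 84) (XT.lf (nat_lit 84) (nat_lit 3425026544) (nat_lit 0) (nat_lit 2154209764) (nat_lit 1176) (nat_lit 12002675782) (nat_lit 117) (nat_lit 5) (nat_lit 116) (nat_lit 5) (nat_lit 130) (nat_lit 5) (nat_lit 339) (nat_lit 331) (nat_lit 194)) (XT.lf (nat_lit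 0) (nat_lit 6323308305) (nat_lit 1092) (nat_lit 7278501113) (nat_lit 1176) (nat_lit 4264942660) (nat_lit 117) (nat_lit 5) (nat_lit 130) (nat_lit 5) (nat_lit 131) (nat_lit 5) (nat_lit 340) (nat_lit 331) (nat_lit 193)))) (XT.nd (nat_lit 94) (nat_lit 0) (nat_lit 0) (XT.lf (nat_lit 0) (nat_lit 7104871867) (nat_lit 1092) (nat_lit 214181313) (nat_lit 1176) (nat_lit 10840950173) (nat_lit 117) (nat_lit 5) (nat_lit 130) (nat_lit 5) (nat_lit 131) (nat_lit 5) (nat_lit 341) (nat_lit 331) (nat_lit 192)) (XT.nd (nat_lit 94) (nat_lit 0) (nat_lit 84) (XT.lf (nat_lit 84) (nat_lit 7209279482) (nat_lit 0) (nat_lit 765522930) (nat_lit 1176) (nat_lit 10485582291) (nat_lit 118) (nat_lit 5) (nat_lit 117) (nat_lit 5) (nat_lit 131) (nat_lit 5) (nat_lit 342) (nat_lit 331) (nat_lit 191)) (XT.lf (nat_lit 0) (nat_lit 8926207076) (nat_lit 1092) (nat_lit 3967380150) (nat_lit 1176) (nat_lit 5874827703) (nat_lit 118)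 (nat_lit 5) (nat_lit 131) (nat_lit 5) (nat_lit 132) (nat_lit 5) (nat_lit 343) (nat_lit 331) (nat_lit 190)))))) (XT.nd (nat_lit 564) (nat_lit 1176) (nat_lit 0) (XT.nd (nat_lit 282) (nat_lit 924) (nat_lit 0) (XT.nd (nat_lit 94) (nat_lit 0) (nat_lit 84) (XT.lf (nat_lit 84) (nat_lit 3601713787) (nat_lit 0) (nat_lit 6341981167) (nat_lit 1176) (nat_lit 9141190803) (nat_lit 119) (nat_lit 5) (nat_lit 118) (nat_lit 5) (nat_lit 132) (nat_lit 5) (nat_lit 344) (nat_lit 331) (nat_lit 189)) (XT.nd (nat_lit 94) (nat_lit 0) (nat_lit 0) (XT.lf (nat_lit 0) (nat_lit 11031860514) (nat_lit 1092) (nat_lit 7930209726) (nat_lit 1176) (nat_lit 447908903) (nat_lit 119) (nat_lit 5) (nat_lit 132) (nat_lit 5) (nat_lit 133) (nat_lit 5) (nat_lit 345) (nat_lit 331) (nat_lit 188)) (XT.lf (nat_lit 0) (nat_lit 12212033449) (nat_lit 1092) (nat_lit 213172388) (nat_lit 1176) (nat_lit 7318162494) (nat_lit 119) (nat_lit 5)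 (nat_lit 132) (nat_lit 5) (nat_lit 133) (nat_lit 5) (nat_lit 346) (nat_lit 331) (nat_lit 187)))) (XT.nd (nat_lit 94) (nat_lit 1008) (nat_lit 0) (XT.lf (nat_lit 84) (nat_lit 7897156473) (nat_lit 0) (nat_lit 5603584862) (nat_lit 1176) (nat_lit 6584144484) (nat_lit 120) (nat_lit 5) (nat_lit 119) (nat_lit 5) (nat_lit 133) (nat_lit 5) (nat_lit 347) (nat_lit 331) (nat_lit 186)) (XT.nd (nat_lit 94) (nat_lit 1092) (nat_lit 0) (XT.lf (nat_lit 0) (nat_lit 14839591749) (nat_lit 1092) (nat_lit 4192925081) (nat_lit 84) (nat_lit 1404180514) (nat_lit 120) (nat_lit 5) (nat_lit 133) (nat_lit 5) (nat_lit 121) (nat_lit 5) (nat_lit 348) (nat_lit 331) (nat_lit 185)) (XT.lf (nat_lit 0) (nat_lit 4069326848) (nat_lit 1092) (nat_lit 12242250763) (nat_lit 1176) (nat_lit 4485019122) (nat_lit 107) (nat_lit 5) (nat_lit 120) (nat_lit 5) (nat_lit 121) (nat_lit 5) (nat_lit 349) (nat_lit 331) (nat_lit 184))))) (XT.nd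 (nat_lit 282) (nat_lit 672) (nat_lit 0) (XT.nd (nat_lit 94) (nat_lit 504) (nat_lit 0) (XT.lf (nat_lit 0) (nat_lit 12671580057) (nat_lit 1092) (nat_lit 5195463992) (nat_lit 1176) (nat_lit 3299457236) (nat_lit 107) (nat_lit 5) (nat_lit 120) (nat_lit 5) (nat_lit 121) (nat_lit 5) (nat_lit 350) (nat_lit 331) (nat_lit 183)) (XT.nd (nat_lit 94) (nat_lit 504) (nat_lit 0) (XT.lf (nat_lit 0) (nat_lit 19485532390) (nat_lit 1176) (nat_lit 32975190) (nat_lit 84) (nat_lit 2028927377) (nat_lit 107) (nat_lit 5) (nat_lit 121) (nat_lit 5) (nat_lit 108) (nat_lit 5) (nat_lit 351) (nat_lit 331) (nat_lit 182)) (XT.lf (nat_lit 0) (nat_lit 8810750298) (nat_lit 504) (nat_lit 12478427001) (nat_lit 588) (nat_lit 646836109) (nat_lit 101) (nat_lit 5) (nat_lit 107) (nat_lit 5) (nat_lit 108) (nat_lit 5) (nat_lit 352) (nat_lit 331) (nat_lit 181)))) (XT.nd (nat_lit 94) (nat_lit 588) (nat_lit 0) (XT.lf (nat_lit 0) (nat_lit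 790569341) (nat_lit 588) (nat_lit 4420359579) (nat_lit 84) (nat_lit 17125638400) (nat_lit 100) (nat_lit 5) (nat_lit 107) (nat_lit 5) (nat_lit 101) (nat_lit 5) (nat_lit 353) (nat_lit 331) (nat_lit 180)) (XT.nd (nat_lit 94) (nat_lit 0) (nat_lit 0) (XT.lf (nat_lit 0) (nat_lit 2322922403) (nat_lit 672) (nat_lit 18134931666) (nat_lit 84) (nat_lit 2289519241) (nat_lit 93) (nat_lit 5) (nat_lit 101) (nat_lit 5) (nat_lit 94) (nat_lit 5) (nat_lit 354) (nat_lit 331) (nat_lit 179)) (XT.lf (nat_lit 0) (nat_lit 3997454731) (nat_lit 672) (nat_lit 9209270544) (nat_lit 84) (nat_lit 9961272029) (nat_lit 93) (nat_lit 5) (nat_lit 101) (nat_lit 5) (nat_lit 94) (nat_lit 5) (nat_lit 355) (nat_lit 331) (nat_lit 178))))))))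
noncomputable def xc180 : XT := (XT.nd (nat_lit 2256) (nat_lit 2100) (nat_lit 0) (XT.nd (nat_lit 1128) (nat_lit 1512) (nat_lit 0) (XT.nd (nat_lit 564) (nat_lit 1344) (nat_lit 0) (XT.nd (nat_lit 282) (nat_lit 504) (nat_lit 0) (XT.nd (nat_lit 94) (nat_lit 504) (nat_lit 0) (XT.lf (nat_lit 0) (nat_lit 5718824227) (nat_lit 672) (nat_lit 11752091) (nat_lit 84) (nat_lit 17871259045) (nat_lit 93) (nat_lit 5) (nat_lit 101) (nat_lit 5) (nat_lit 94) (nat_lit 5) (nat_lit 356) (nat_lit 331) (nat_lit 177)) (XT.nd (nat_lit 94) (nat_lit 0) (nat_lit 0) (XT.lf (nat_lit 0) (nat_lit 7605069964) (nat_lit 588) (nat_lit 14406077602) (nat_lit 84) (nat_lit 2034534828) (nat_lit 87) (nat_lit 5) (nat_lit 94) (nat_lit 5) (nat_lit 88) (nat_lit 5) (nat_lit 357) (nat_lit 331) (nat_lit 176)) (XT.lf (nat_lit 0) (nat_lit 9603706367) (nat_lit 588) (nat_lit 4976306275) (nat_lit 84) (nat_lit 9921621026) (nat_lit 87) (nat_lit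 5) (nat_lit 94) (nat_lit 5) (nat_lit 88) (nat_lit 5) (nat_lit 358) (nat_lit 331) (nat_lit 175)))) (XT.nd (nat_lit 94) (nat_lit 0) (nat_lit 0) (XT.lf (nat_lit 0) (nat_lit 4838607117) (nat_lit 504) (nat_lit 6869020614) (nat_lit 588) (nat_lit 13262764475) (nat_lit 81) (nat_lit 5) (nat_lit 87) (nat_lit 5) (nat_lit 88) (nat_lit 5) (nat_lit 359) (nat_lit 331) (nat_lit 174)) (XT.nd (nat_lit 94) (nat_lit 0) (nat_lit 0) (XT.lf (nat_lit 0) (nat_lit 13935389988) (nat_lit 588) (nat_lit 10404826820) (nat_lit 84) (nat_lit 1111663690) (nat_lit 81) (nat_lit 5) (nat_lit 88) (nat_lit 5) (nat_lit 82) (nat_lit 5) (nat_lit 360) (nat_lit 331) (nat_lit 173)) (XT.lf (nat_lit 0) (nat_lit 16298026327) (nat_lit 588) (nat_lit 451220771) (nat_lit 84) (nat_lit 9197022590) (nat_lit 81) (nat_lit 5) (nat_lit 88) (nat_lit 5) (nat_lit 82) (nat_lit 5) (nat_lit 361) (nat_lit 331) (nat_lit 172))))) (XT.nd (nat_lit 282) (nat_lit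 504) (nat_lit 0) (XT.nd (nat_lit 94) (nat_lit 420) (nat_lit 0) (XT.lf (nat_lit 0) (nat_lit 10008093170) (nat_lit 420) (nat_lit 8820785790) (nat_lit 504) (nat_lit 7624176297) (nat_lit 76) (nat_lit 5) (nat_lit 81) (nat_lit 5) (nat_lit 82) (nat_lit 5) (nat_lit 362) (nat_lit 331) (nat_lit 171)) (XT.nd (nat_lit 94) (nat_lit 420) (nat_lit 0) (XT.lf (nat_lit 0) (nat_lit 20796762323) (nat_lit 420) (nat_lit 641913931) (nat_lit 504) (nat_lit 5536873877) (nat_lit 76) (nat_lit 5) (nat_lit 81) (nat_lit 5) (nat_lit 82) (nat_lit 5) (nat_lit 363) (nat_lit 331) (nat_lit 170)) (XT.lf (nat_lit 0) (nat_lit 4412809600) (nat_lit 420) (nat_lit 19833529191) (nat_lit 504) (nat_lit 3264291415) (nat_lit 71) (nat_lit 5) (nat_lit 76) (nat_lit 5) (nat_lit 77) (nat_lit 5) (nat_lit 364) (nat_lit 331) (nat_lit 169)))) (XT.nd (nat_lit 94) (nat_lit 504) (nat_lit 0) (XT.lf (nat_lit 0) (nat_lit 15452624612) (nat_lit 420)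 (nat_lit 11755389530) (nat_lit 504) (nat_lit 852220639) (nat_lit 71) (nat_lit 5) (nat_lit 76) (nat_lit 5) (nat_lit 77) (nat_lit 5) (nat_lit 365) (nat_lit 331) (nat_lit 168)) (XT.nd (nat_lit 94) (nat_lit 420) (nat_lit 0) (XT.lf (nat_lit 0) (nat_lit 1597741240) (nat_lit 504) (nat_lit 1812788702) (nat_lit 84) (nat_lit 25215979363) (nat_lit 70) (nat_lit 5) (nat_lit 76) (nat_lit 5) (nat_lit 71) (nat_lit 5) (nat_lit 366) (nat_lit 331) (nat_lit 167)) (XT.lf (nat_lit 0) (nat_lit 4248874645) (nat_lit 504) (nat_lit 19764821779) (nat_lit 84) (nat_lit 5191953120) (nat_lit 65) (nat_lit 5) (nat_lit 71) (nat_lit 5) (nat_lit 66) (nat_lit 5) (nat_lit 367) (nat_lit 331) (nat_lit 166)))))) (XT.nd (nat_lit 564) (nat_lit 756) (nat_lit 0) (XT.nd (nat_lit 282) (nat_lit 336) (nat_lit 0) (XT.nd (nat_lit 94) (nat_lit 420) (nat_lit 0) (XT.lf (nat_lit 0) (nat_lit 7032429091) (nat_lit 504) (nat_lit 8759814618) (nat_lit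 84) (nat_lit 14008953839) (nat_lit 65) (nat_lit 5) (nat_lit 71) (nat_lit 5) (nat_lit 66) (nat_lit 5) (nat_lit 368) (nat_lit 331) (nat_lit 165)) (XT.nd (nat_lit 94) (nat_lit 0) (nat_lit 0) (XT.lf (nat_lit 0) (nat_lit 2635252755) (nat_lit 420) (nat_lit 7289514977) (nat_lit 504) (nat_lit 20489753874) (nat_lit 60) (nat_lit 5) (nat_lit 65) (nat_lit 5) (nat_lit 66) (nat_lit 5) (nat_lit 369) (nat_lit 331) (nat_lit 164)) (XT.lf (nat_lit 0) (nat_lit 13010203443) (nat_lit 504) (nat_lit 16494602169) (nat_lit 84) (nat_lit 1538857659) (nat_lit 60) (nat_lit 5) (nat_lit 66) (nat_lit 5) (nat_lit 61) (nat_lit 5) (nat_lit 370) (nat_lit 331) (nat_lit 163)))) (XT.nd (nat_lit 94) (nat_lit 336) (nat_lit 0) (XT.lf (nat_lit 0) (nat_lit 16262364940) (nat_lit 504) (nat_lit 4938800652) (nat_lit 84) (nat_lit 10488950045) (nat_lit 60) (nat_lit 5) (nat_lit 66) (nat_lit 5) (nat_lit 61) (nat_lit 5) (nat_lit 371) (nat_lit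 331) (nat_lit 162)) (XT.nd (nat_lit 94) (nat_lit 0) (nat_lit 0) (XT.lf (nat_lit 0) (nat_lit 7114562386) (nat_lit 336) (nat_lit 12567985641) (nat_lit 420) (nat_lit 12671987040) (nat_lit 56) (nat_lit 5) (nat_lit 60) (nat_lit 5) (nat_lit 61) (nat_lit 5) (nat_lit 372) (nat_lit 331) (nat_lit 161)) (XT.lf (nat_lit 0) (nat_lit 19642309362) (nat_lit 336) (nat_lit 3614687648) (nat_lit 420) (nat_lit 9781069113) (nat_lit 56) (nat_lit 5) (nat_lit 60) (nat_lit 5) (nat_lit 61) (nat_lit 5) (nat_lit 373) (nat_lit 331) (nat_lit 160))))) (XT.nd (nat_lit 282) (nat_lit 420) (nat_lit 0) (XT.nd (nat_lit 94) (nat_lit 336) (nat_lit 0) (XT.lf (nat_lit 0) (nat_lit 26994749409) (nat_lit 420) (nat_lit 1244037061) (nat_lit 84) (nat_lit 5502382577) (nat_lit 56) (nat_lit 5) (nat_lit 61) (nat_lit 5) (nat_lit 57) (nat_lit 5) (nat_lit 374) (nat_lit 331) (nat_lit 159)) (XT.nd (nat_lit 94) (nat_lit 0) (nat_lit 0) (XT.lf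 (nat_lit 0) (nat_lit 11474772287) (nat_lit 336) (nat_lit 19521279974) (nat_lit 420) (nat_lit 3465447293) (nat_lit 52) (nat_lit 5) (nat_lit 56) (nat_lit 5) (nat_lit 57) (nat_lit 5) (nat_lit 375) (nat_lit 331) (nat_lit 158)) (XT.lf (nat_lit 0) (nat_lit 24610441484) (nat_lit 336) (nat_lit 10520874604) (nat_lit 420) (nat_lit 72545867) (nat_lit 52) (nat_lit 5) (nat_lit 56) (nat_lit 5) (nat_lit 57) (nat_lit 5) (nat_lit 376) (nat_lit 331) (nat_lit 157)))) (XT.nd (nat_lit 94) (nat_lit 0) (nat_lit 0) (XT.lf (nat_lit 0) (nat_lit 2190477742) (nat_lit 336) (nat_lit 1184759067) (nat_lit 420) (nat_lit 32592375728) (nat_lit 47) (nat_lit 5) (nat_lit 51) (nat_lit 5) (nat_lit 52) (nat_lit 5) (nat_lit 377) (nat_lit 331) (nat_lit 156)) (XT.nd (nat_lit 94) (nat_lit 0) (nat_lit 0) (XT.lf (nat_lit 0) (nat_lit 7120866435) (nat_lit 420) (nat_lit 21245773464) (nat_lit 84) (nat_lit 8382418220) (nat_lit 47) (nat_lit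 5) (nat_lit 52) (nat_lit 5) (nat_lit 48) (nat_lit 5) (nat_lit 378) (nat_lit 331) (nat_lit 155)) (XT.lf (nat_lit 0) (nat_lit 10991851641) (nat_lit 420) (nat_lit 8341749936) (nat_lit 84) (nat_lit 18220848596) (nat_lit 47) (nat_lit 5) (nat_lit 52) (nat_lit 5) (nat_lit 48) (nat_lit 5) (nat_lit 379) (nat_lit 331) (nat_lit 154))))))) (XT.nd (nat_lit 1128) (nat_lit 924) (nat_lit 0) (XT.nd (nat_lit 564) (nat_lit 588) (nat_lit 0) (XT.nd (nat_lit 282) (nat_lit 252) (nat_lit 0) (XT.nd (nat_lit 94) (nat_lit 0) (nat_lit 0) (XT.lf (nat_lit 0) (nat_lit 5060678029) (nat_lit 336) (nat_lit 9969572158) (nat_lit 420) (nat_lit 23353097285) (nat_lit 43) (nat_lit 5) (nat_lit 47) (nat_lit 5) (nat_lit 48) (nat_lit 5) (nat_lit 380) (nat_lit 331) (nat_lit 153)) (XT.nd (nat_lit 94) (nat_lit 0) (nat_lit 0) (XT.lf (nat_lit 0) (nat_lit 19051876563) (nat_lit 336) (nat_lit 226292242) (nat_lit 420) (nat_lit 19957165212)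 (nat_lit 43) (nat_lit 5) (nat_lit 47) (nat_lit 5) (nat_lit 48) (nat_lit 5) (nat_lit 381) (nat_lit 331) (nat_lit 152)) (XT.lf (nat_lit 0) (nat_lit 23752512523) (nat_lit 420) (nat_lit 6737856789) (nat_lit 84) (nat_lit 9620433326) (nat_lit 43) (nat_lit 5) (nat_lit 48) (nat_lit 5) (nat_lit 44) (nat_lit 5) (nat_lit 382) (nat_lit 331) (nat_lit 151)))) (XT.nd (nat_lit 94) (nat_lit 0) (nat_lit 0) (XT.lf (nat_lit 0) (nat_lit 7265205719) (nat_lit 252) (nat_lit 21172155159) (nat_lit 336) (nat_lit 12573831305) (nat_lit 40) (nat_lit 5) (nat_lit 43) (nat_lit 5) (nat_lit 44) (nat_lit 5) (nat_lit 383) (nat_lit 331) (nat_lit 150)) (XT.nd (nat_lit 94) (nat_lit 0) (nat_lit 0) (XT.lf (nat_lit 0) (nat_lit 21841821721) (nat_lit 252) (nat_lit 11493405252) (nat_lit 336) (nat_lit 8602172402) (nat_lit 40) (nat_lit 5) (nat_lit 43) (nat_lit 5) (nat_lit 44) (nat_lit 5) (nat_lit 384) (nat_lit 331) (nat_lit 149))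 (XT.lf (nat_lit 0) (nat_lit 36867033994) (nat_lit 252) (nat_lit 1515427388) (nat_lit 336) (nat_lit 4509940812) (nat_lit 40) (nat_lit 5) (nat_lit 43) (nat_lit 5) (nat_lit 44) (nat_lit 5) (nat_lit 385) (nat_lit 331) (nat_lit 148))))) (XT.nd (nat_lit 282) (nat_lit 252) (nat_lit 0) (XT.nd (nat_lit 94) (nat_lit 84) (nat_lit 0) (XT.lf (nat_lit 0) (nat_lit 8563277578) (nat_lit 252) (nat_lit 35192450040) (nat_lit 336) (nat_lit 116032454) (nat_lit 37) (nat_lit 5) (nat_lit 40) (nat_lit 5) (nat_lit 41) (nat_lit 5) (nat_lit 386) (nat_lit 331) (nat_lit 147)) (XT.nd (nat_lit 94) (nat_lit 0) (nat_lit 0) (XT.lf (nat_lit 0) (nat_lit 4401798630) (nat_lit 336) (nat_lit 21210828640) (nat_lit 84) (nat_lit 19265123503) (nat_lit 36) (nat_lit 5) (nat_lit 40) (nat_lit 5) (nat_lit 37) (nat_lit 5) (nat_lit 387) (nat_lit 331) (nat_lit 146)) (XT.lf (nat_lit 0) (nat_lit 9054954654) (nat_lit 336) (nat_lit 6680511256)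 (nat_lit 84) (nat_lit 30179502324) (nat_lit 36) (nat_lit 5) (nat_lit 40) (nat_lit 5) (nat_lit 37) (nat_lit 5) (nat_lit 388) (nat_lit 331) (nat_lit 145)))) (XT.nd (nat_lit 94) (nat_lit 0) (nat_lit 0) (XT.lf (nat_lit 0) (nat_lit 8467771208) (nat_lit 252) (nat_lit 5466340773) (nat_lit 336) (nat_lit 33047698911) (nat_lit 33) (nat_lit 5) (nat_lit 36) (nat_lit 5) (nat_lit 37) (nat_lit 5) (nat_lit 389) (nat_lit 331) (nat_lit 144)) (XT.nd (nat_lit 94) (nat_lit 0) (nat_lit 0) (XT.lf (nat_lit 0) (nat_lit 19083550547) (nat_lit 336) (nat_lit 23906921770) (nat_lit 84) (nat_lit 5087569145) (nat_lit 33) (nat_lit 5) (nat_lit 37) (nat_lit 5) (nat_lit 34) (nat_lit 5) (nat_lit 390) (nat_lit 331) (nat_lit 143)) (XT.lf (nat_lit 0) (nat_lit 24446377359) (nat_lit 336) (nat_lit 8905913425) (nat_lit 84) (nat_lit 15854303438) (nat_lit 33) (nat_lit 5) (nat_lit 37) (nat_lit 5) (nat_lit 34) (nat_lit 5) (nat_lit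 391) (nat_lit 331) (nat_lit 142)))))) (XT.nd (nat_lit 564) (nat_lit 420) (nat_lit 0) (XT.nd (nat_lit 282) (nat_lit 252) (nat_lit 0) (XT.nd (nat_lit 94) (nat_lit 0) (nat_lit 0) (XT.lf (nat_lit 0) (nat_lit 6692024007) (nat_lit 252) (nat_lit 23347726056) (nat_lit 336) (nat_lit 20328394113) (nat_lit 30) (nat_lit 5) (nat_lit 33) (nat_lit 5) (nat_lit 34) (nat_lit 5) (nat_lit 392) (nat_lit 331) (nat_lit 141)) (XT.nd (nat_lit 94) (nat_lit 0) (nat_lit 0) (XT.lf (nat_lit 0) (nat_lit 22959396324) (nat_lit 252) (nat_lit 12938027000) (nat_lit 336) (nat_lit 15665465913) (nat_lit 30) (nat_lit 5) (nat_lit 33) (nat_lit 5) (nat_lit 34) (nat_lit 5) (nat_lit 393) (nat_lit 331) (nat_lit 140)) (XT.lf (nat_lit 0) (nat_lit 39728242575) (nat_lit 252) (nat_lit 2206450158) (nat_lit 336) (nat_lit 10860045396) (nat_lit 30) (nat_lit 5) (nat_lit 33) (nat_lit 5) (nat_lit 34) (nat_lit 5) (nat_lit 394) (nat_lit 331)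 (nat_lit 139)))) (XT.nd (nat_lit 94) (nat_lit 84) (nat_lit 0) (XT.lf (nat_lit 0) (nat_lit 2920329540) (nat_lit 168) (nat_lit 45353688757) (nat_lit 252) (nat_lit 5787198954) (nat_lit 28) (nat_lit 5) (nat_lit 30) (nat_lit 5) (nat_lit 31) (nat_lit 5) (nat_lit 395) (nat_lit 331) (nat_lit 138)) (XT.nd (nat_lit 94) (nat_lit 84) (nat_lit 0) (XT.lf (nat_lit 0) (nat_lit 19653959663) (nat_lit 168) (nat_lit 35312720236) (nat_lit 252) (nat_lit 395420695) (nat_lit 28) (nat_lit 5) (nat_lit 30) (nat_lit 5) (nat_lit 31) (nat_lit 5) (nat_lit 396) (nat_lit 331) (nat_lit 137)) (XT.lf (nat_lit 0) (nat_lit 5057594817) (nat_lit 252) (nat_lit 19850920182) (nat_lit 84) (nat_lit 31793270956) (nat_lit 27) (nat_lit 5) (nat_lit 30) (nat_lit 5) (nat_lit 28) (nat_lit 5) (nat_lit 397) (nat_lit 331) (nat_lit 136))))) (XT.nd (nat_lit 282) (nat_lit 168) (nat_lit 0) (XT.nd (nat_lit 94) (nat_lit 252) (nat_lit 0) (XT.lf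 (nat_lit 0) (nat_lit 10669621566) (nat_lit 252) (nat_lit 3508806667) (nat_lit 84) (nat_lit 43904508615) (nat_lit 27) (nat_lit 5) (nat_lit 30) (nat_lit 5) (nat_lit 28) (nat_lit 5) (nat_lit 398) (nat_lit 331) (nat_lit 135)) (XT.nd (nat_lit 94) (nat_lit 0) (nat_lit 0) (XT.lf (nat_lit 0) (nat_lit 13611598167) (nat_lit 252) (nat_lit 2977287963) (nat_lit 336) (nat_lit 42913890227) (nat_lit 24) (nat_lit 5) (nat_lit 27) (nat_lit 5) (nat_lit 28) (nat_lit 5) (nat_lit 399) (nat_lit 331) (nat_lit 134)) (XT.lf (nat_lit 0) (nat_lit 22811929750) (nat_lit 336) (nat_lit 29716357572) (nat_lit 84) (nat_lit 8434618862) (nat_lit 24) (nat_lit 5) (nat_lit 28) (nat_lit 5) (nat_lit 25) (nat_lit 5) (nat_lit 400) (nat_lit 331) (nat_lit 133)))) (XT.nd (nat_lit 94) (nat_lit 168) (nat_lit 0) (XT.lf (nat_lit 0) (nat_lit 29256647074) (nat_lit 336) (nat_lit 13073072164) (nat_lit 84) (nat_lit 20137693165) (nat_lit 24)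 (nat_lit 5) (nat_lit 28) (nat_lit 5) (nat_lit 25) (nat_lit 5) (nat_lit 401) (nat_lit 331) (nat_lit 132)) (XT.nd (nat_lit 94) (nat_lit 0) (nat_lit 0) (XT.lf (nat_lit 0) (nat_lit 4167696174) (nat_lit 168) (nat_lit 31773158079) (nat_lit 252) (nat_lit 28076477042) (nat_lit 22) (nat_lit 5) (nat_lit 24) (nat_lit 5) (nat_lit 25) (nat_lit 5) (nat_lit 402) (nat_lit 331) (nat_lit 131)) (XT.lf (nat_lit 0) (nat_lit 22217666473) (nat_lit 168) (nat_lit 20749446475) (nat_lit 252) (nat_lit 22644008328) (nat_lit 22) (nat_lit 5) (nat_lit 24) (nat_lit 5) (nat_lit 25) (nat_lit 5) (nat_lit 403) (nat_lit 331) (nat_lit 130))))))))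
noncomputable def xc181 : XT := (XT.nd (nat_lit 48974) (nat_lit 0) (nat_lit 3612) (XT.nd (nat_lit 47846) (nat_lit 0) (nat_lit 8232) (XT.nd (nat_lit 564) (nat_lit 168) (nat_lit 0) (XT.nd (nat_lit 282) (nat_lit 84) (nat_lit 0) (XT.nd (nat_lit 94) (nat_lit 168) (nat_lit 0) (XT.lf (nat_lit 0) (nat_lit 40824854019) (nat_lit 168) (nat_lit 9384765232) (nat_lit 252) (nat_lit 17044751619) (nat_lit 22) (nat_lit 5) (nat_lit 24) (nat_lit 5) (nat_lit 25) (nat_lit 5) (nat_lit 404) (nat_lit 331) (nat_lit 129)) (XT.nd (nat_lit 94) (nat_lit 168) (nat_lit 0) (XT.lf (nat_lit 0) (nat_lit 57698252496) (nat_lit 252) (nat_lit 8965137657) (nat_lit 84) (nat_lit 2284504621) (nat_lit 22) (nat_lit 5) (nat_lit 25) (nat_lit 5) (nat_lit 23) (nat_lit 5) (nat_lit 405) (nat_lit 331) (nat_lit 128)) (XT.lf (nat_lit 0) (nat_lit 9126292057) (nat_lit 168) (nat_lit 56477778560) (nat_lit 252) (nat_lit 5084114504) (nat_lit 20)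 (nat_lit 5) (nat_lit 22) (nat_lit 5) (nat_lit 23) (nat_lit 5) (nat_lit 406) (nat_lit 331) (nat_lit 127)))) (XT.nd (nat_lit 94) (nat_lit 0) (nat_lit 0) (XT.lf (nat_lit 0) (nat_lit 1339964118) (nat_lit 252) (nat_lit 44526738627) (nat_lit 84) (nat_lit 26612448731) (nat_lit 19) (nat_lit 5) (nat_lit 22) (nat_lit 5) (nat_lit 20) (nat_lit 5) (nat_lit 407) (nat_lit 331) (nat_lit 126)) (XT.nd (nat_lit 94) (nat_lit 0) (nat_lit 0) (XT.lf (nat_lit 0) (nat_lit 7856148245) (nat_lit 252) (nat_lit 27017671873) (nat_lit 84) (nat_lit 39450253165) (nat_lit 19) (nat_lit 5) (nat_lit 22) (nat_lit 5) (nat_lit 20) (nat_lit 5) (nat_lit 408) (nat_lit 331) (nat_lit 125)) (XT.lf (nat_lit 0) (nat_lit 14572945220) (nat_lit 252) (nat_lit 8967937473) (nat_lit 84) (nat_lit 52685350999) (nat_lit 19) (nat_lit 5) (nat_lit 22) (nat_lit 5) (nat_lit 20) (nat_lit 5) (nat_lit 409) (nat_lit 331) (nat_lit 124))))) (XT.nd (nat_lit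 47000) (nat_lit 0) (nat_lit 8148) (XT.nd (nat_lit 94) (nat_lit 0) (nat_lit 0) (XT.lf (nat_lit 0) (nat_lit 9837492362) (nat_lit 168) (nat_lit 11756712580) (nat_lit 252) (nat_lit 56590175508) (nat_lit 17) (nat_lit 5) (nat_lit 19) (nat_lit 5) (nat_lit 20) (nat_lit 5) (nat_lit 410) (nat_lit 331) (nat_lit 123)) (XT.nd (nat_lit 46812) (nat_lit 0) (nat_lit 8148) (XT.lf (nat_lit 0) (nat_lit 28930250572) (nat_lit 252) (nat_lit 50791241611) (nat_lit 84) (nat_lit 478729436) (nat_lit 17) (nat_lit 5) (nat_lit 20) (nat_lit 5) (nat_lit 18) (nat_lit 5) (nat_lit 411) (nat_lit 331) (nat_lit 122)) (XT.lf (nat_lit 0) (nat_lit 587918162) (nat_lit 0) (nat_lit 587918162) (nat_lit 1092) (nat_lit 6830466091) (nat_lit 114) (nat_lit 5) (nat_lit 114) (nat_lit 3) (nat_lit 127) (nat_lit 3) (nat_lit 332) (nat_lit 332) (nat_lit 200)))) (XT.nd (nat_lit 94) (nat_lit 0) (nat_lit 0) (XT.lf (nat_lit 0) (nat_lit 2663551683)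 (nat_lit 1092) (nat_lit 8754443915) (nat_lit 1176) (nat_lit 4833418875) (nat_lit 114) (nat_lit 5) (nat_lit 127) (nat_lit 3) (nat_lit 128) (nat_lit 5) (nat_lit 333) (nat_lit 332) (nat_lit 199)) (XT.nd (nat_lit 94) (nat_lit 0) (nat_lit 84) (XT.lf (nat_lit 0) (nat_lit 2988043571) (nat_lit 1092) (nat_lit 2500518995) (nat_lit 1176) (nat_lit 11009007510) (nat_lit 114) (nat_lit 5) (nat_lit 127) (nat_lit 3) (nat_lit 128) (nat_lit 5) (nat_lit 334) (nat_lit 332) (nat_lit 198)) (XT.lf (nat_lit 0) (nat_lit 3360345753) (nat_lit 1092) (nat_lit 12733504599) (nat_lit 1176) (nat_lit 656368991) (nat_lit 115) (nat_lit 5) (nat_lit 128) (nat_lit 5) (nat_lit 129) (nat_lit 5) (nat_lit 335) (nat_lit 332) (nat_lit 197)))))) (XT.nd (nat_lit 564) (nat_lit 0) (nat_lit 168) (XT.nd (nat_lit 282) (nat_lit 0) (nat_lit 84) (XT.nd (nat_lit 94) (nat_lit 0) (nat_lit 0) (XT.lf (nat_lit 0) (nat_lit 3818139486) (nat_lit 1092)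 (nat_lit 6282367194) (nat_lit 1176) (nat_lit 6907933729) (nat_lit 115) (nat_lit 5) (nat_lit 128) (nat_lit 5) (nat_lit 129) (nat_lit 5) (nat_lit 336) (nat_lit 332) (nat_lit 196)) (XT.nd (nat_lit 94) (nat_lit 0) (nat_lit 84) (XT.lf (nat_lit 84) (nat_lit 371323170) (nat_lit 0) (nat_lit 3914190237) (nat_lit 1176) (nat_lit 12989327036) (nat_lit 116) (nat_lit 5) (nat_lit 115) (nat_lit 5) (nat_lit 129) (nat_lit 5) (nat_lit 337) (nat_lit 332) (nat_lit 195)) (XT.lf (nat_lit 0) (nat_lit 4850002053) (nat_lit 1092) (nat_lit 10213295184) (nat_lit 1176) (nat_lit 2483670453) (nat_lit 116) (nat_lit 5) (nat_lit 129) (nat_lit 5) (nat_lit 130) (nat_lit 5) (nat_lit 338) (nat_lit 332) (nat_lit 194)))) (XT.nd (nat_lit 94) (nat_lit 0) (nat_lit 0) (XT.lf (nat_lit 0) (nat_lit 5464203420) (nat_lit 1092) (nat_lit 3360730566) (nat_lit 1176) (nat_lit 9001627589) (nat_lit 116) (nat_lit 5) (nat_lit 129) (nat_lit 5)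 (nat_lit 130) (nat_lit 5) (nat_lit 339) (nat_lit 332) (nat_lit 193)) (XT.nd (nat_lit 94) (nat_lit 0) (nat_lit 84) (XT.lf (nat_lit 84) (nat_lit 3775460249) (nat_lit 0) (nat_lit 2351853540) (nat_lit 1176) (nat_lit 11986611583) (nat_lit 117) (nat_lit 5) (nat_lit 116) (nat_lit 5) (nat_lit 130) (nat_lit 5) (nat_lit 340) (nat_lit 332) (nat_lit 192)) (XT.lf (nat_lit 0) (nat_lit 6881913768) (nat_lit 1092) (nat_lit 7253327611) (nat_lit 1176) (nat_lit 4272784719) (nat_lit 117) (nat_lit 5) (nat_lit 130) (nat_lit 5) (nat_lit 131) (nat_lit 5) (nat_lit 341) (nat_lit 332) (nat_lit 191))))) (XT.nd (nat_lit 282) (nat_lit 0) (nat_lit 84) (XT.nd (nat_lit 94) (nat_lit 0) (nat_lit 0) (XT.lf (nat_lit 84) (nat_lit 22906375) (nat_lit 0) (nat_lit 7654124555) (nat_lit 1176) (nat_lit 11033708903) (nat_lit 118) (nat_lit 5) (nat_lit 117) (nat_lit 5) (nat_lit 131) (nat_lit 5) (nat_lit 342) (nat_lit 332) (nat_lit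 190)) (XT.nd (nat_lit 94) (nat_lit 0) (nat_lit 84) (XT.lf (nat_lit 84) (nat_lit 7673570095) (nat_lit 0) (nat_lit 891946486) (nat_lit 1176) (nat_lit 10455216741) (nat_lit 118) (nat_lit 5) (nat_lit 117) (nat_lit 5) (nat_lit 131) (nat_lit 5) (nat_lit 343) (nat_lit 332) (nat_lit 189)) (XT.lf (nat_lit 0) (nat_lit 9535098520) (nat_lit 1092) (nat_lit 3844253535) (nat_lit 1176) (nat_lit 5959349570) (nat_lit 118) (nat_lit 5) (nat_lit 131) (nat_lit 5) (nat_lit 132) (nat_lit 5) (nat_lit 344) (nat_lit 332) (nat_lit 188)))) (XT.nd (nat_lit 94) (nat_lit 0) (nat_lit 84) (XT.lf (nat_lit 84) (nat_lit 3956990616) (nat_lit 0) (nat_lit 6619566759) (nat_lit 1176) (nat_lit 9088697562) (nat_lit 119) (nat_lit 5) (nat_lit 118) (nat_lit 5) (nat_lit 132) (nat_lit 5) (nat_lit 345) (nat_lit 332) (nat_lit 187)) (XT.nd (nat_lit 94) (nat_lit 0) (nat_lit 0) (XT.lf (nat_lit 0) (nat_lit 11687916574) (nat_lit 1092) (nat_lit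 7928044915) (nat_lit 1176) (nat_lit 384827517) (nat_lit 119) (nat_lit 5) (nat_lit 132) (nat_lit 5) (nat_lit 133) (nat_lit 5) (nat_lit 346) (nat_lit 332) (nat_lit 186)) (XT.lf (nat_lit 84) (nat_lit 21190647) (nat_lit 0) (nat_lit 12874251062) (nat_lit 1176) (nat_lit 7449392758) (nat_lit 120) (nat_lit 5) (nat_lit 119) (nat_lit 5) (nat_lit 133) (nat_lit 5) (nat_lit 347) (nat_lit 332) (nat_lit 185))))))) (XT.nd (nat_lit 1128) (nat_lit 2268) (nat_lit 0) (XT.nd (nat_lit 564) (nat_lit 1176) (nat_lit 0) (XT.nd (nat_lit 282) (nat_lit 504) (nat_lit 0) (XT.nd (nat_lit 94) (nat_lit 1008) (nat_lit 0) (XT.lf (nat_lit 84) (nat_lit 8380077463) (nat_lit 0) (nat_lit 5837014502) (nat_lit 1176) (nat_lit 6480098196) (nat_lit 120) (nat_lit 5) (nat_lit 119) (nat_lit 5) (nat_lit 133) (nat_lit 5) (nat_lit 348) (nat_lit 332) (nat_lit 184)) (XT.nd (nat_lit 94) (nat_lit 1092) (nat_lit 0) (XT.lf (nat_lit 0) (nat_lit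 15587917088) (nat_lit 1092) (nat_lit 4081364854) (nat_lit 84) (nat_lit 1390954228) (nat_lit 120) (nat_lit 5) (nat_lit 133) (nat_lit 5) (nat_lit 121) (nat_lit 5) (nat_lit 349) (nat_lit 332) (nat_lit 183)) (XT.lf (nat_lit 0) (nat_lit 4434571500) (nat_lit 1092) (nat_lit 12664666355) (nat_lit 1176) (nat_lit 4332281700) (nat_lit 107) (nat_lit 5) (nat_lit 120) (nat_lit 5) (nat_lit 121) (nat_lit 5) (nat_lit 350) (nat_lit 332) (nat_lit 182)))) (XT.nd (nat_lit 94) (nat_lit 504) (nat_lit 0) (XT.lf (nat_lit 0) (nat_lit 13296305460) (nat_lit 1092) (nat_lit 5398139107) (nat_lit 1176) (nat_lit 3118740396) (nat_lit 107) (nat_lit 5) (nat_lit 120) (nat_lit 5) (nat_lit 121) (nat_lit 5) (nat_lit 351) (nat_lit 332) (nat_lit 181)) (XT.nd (nat_lit 94) (nat_lit 0) (nat_lit 0) (XT.lf (nat_lit 0) (nat_lit 204652659) (nat_lit 504) (nat_lit 20151858910) (nat_lit 588) (nat_lit 1849650465) (nat_lit 101) (nat_lit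 5) (nat_lit 107) (nat_lit 5) (nat_lit 108) (nat_lit 5) (nat_lit 352) (nat_lit 332) (nat_lit 180)) (XT.lf (nat_lit 0) (nat_lit 9316035970) (nat_lit 504) (nat_lit 12892341392) (nat_lit 588) (nat_lit 398676636) (nat_lit 101) (nat_lit 5) (nat_lit 107) (nat_lit 5) (nat_lit 108) (nat_lit 5) (nat_lit 353) (nat_lit 332) (nat_lit 179))))) (XT.nd (nat_lit 282) (nat_lit 504) (nat_lit 0) (XT.nd (nat_lit 94) (nat_lit 588) (nat_lit 0) (XT.lf (nat_lit 0) (nat_lit 1069982452) (nat_lit 588) (nat_lit 4326093395) (nat_lit 84) (nat_lit 17624139118) (nat_lit 100) (nat_lit 5) (nat_lit 107) (nat_lit 5) (nat_lit 101) (nat_lit 5) (nat_lit 354) (nat_lit 332) (nat_lit 178)) (XT.nd (nat_lit 94) (nat_lit 0) (nat_lit 0) (XT.lf (nat_lit 0) (nat_lit 2644241332) (nat_lit 672) (nat_lit 18459362794) (nat_lit 84) (nat_lit 2340351901) (nat_lit 93) (nat_lit 5) (nat_lit 101) (nat_lit 5) (nat_lit 94) (nat_lit 5) (nat_lit 355)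 (nat_lit 332) (nat_lit 177)) (XT.lf (nat_lit 0) (nat_lit 4363187986) (nat_lit 672) (nat_lit 9264154872) (nat_lit 84) (nat_lit 10250534667) (nat_lit 93) (nat_lit 5) (nat_lit 101) (nat_lit 5) (nat_lit 94) (nat_lit 5) (nat_lit 356) (nat_lit 332) (nat_lit 176)))) (XT.nd (nat_lit 94) (nat_lit 0) (nat_lit 0) (XT.lf (nat_lit 0) (nat_lit 215902866) (nat_lit 504) (nat_lit 5916888070) (nat_lit 588) (nat_lit 18192557628) (nat_lit 87) (nat_lit 5) (nat_lit 93) (nat_lit 5) (nat_lit 94) (nat_lit 5) (nat_lit 357) (nat_lit 332) (nat_lit 175)) (XT.nd (nat_lit 94) (nat_lit 0) (nat_lit 0) (XT.lf (nat_lit 0) (nat_lit 8070430561) (nat_lit 588) (nat_lit 14623276482) (nat_lit 84) (nat_lit 2089491532) (nat_lit 87) (nat_lit 5) (nat_lit 94) (nat_lit 5) (nat_lit 88) (nat_lit 5) (nat_lit 358) (nat_lit 332) (nat_lit 174)) (XT.lf (nat_lit 0) (nat_lit 10124121000) (nat_lit 588) (nat_lit 4908079505) (nat_lit 84) (nat_lit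 10221321369) (nat_lit 87) (nat_lit 5) (nat_lit 94) (nat_lit 5) (nat_lit 88) (nat_lit 5) (nat_lit 359) (nat_lit 332) (nat_lit 173)))))) (XT.nd (nat_lit 564) (nat_lit 924) (nat_lit 0) (XT.nd (nat_lit 282) (nat_lit 840) (nat_lit 0) (XT.nd (nat_lit 94) (nat_lit 0) (nat_lit 0) (XT.lf (nat_lit 0) (nat_lit 5208843669) (nat_lit 504) (nat_lit 7079908951) (nat_lit 588) (nat_lit 13448221971) (nat_lit 81) (nat_lit 5) (nat_lit 87) (nat_lit 5) (nat_lit 88) (nat_lit 5) (nat_lit 360) (nat_lit 332) (nat_lit 172)) (XT.nd (nat_lit 94) (nat_lit 0) (nat_lit 0) (XT.lf (nat_lit 0) (nat_lit 14579034777) (nat_lit 588) (nat_lit 10506504332) (nat_lit 84) (nat_lit 1148074802) (nat_lit 81) (nat_lit 5) (nat_lit 88) (nat_lit 5) (nat_lit 82) (nat_lit 5) (nat_lit 361) (nat_lit 332) (nat_lit 171)) (XT.lf (nat_lit 0) (nat_lit 17008549042) (nat_lit 588) (nat_lit 250977655) (nat_lit 84) (nat_lit 9484021209) (nat_lit 81)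 (nat_lit 5) (nat_lit 88) (nat_lit 5) (nat_lit 82) (nat_lit 5) (nat_lit 362) (nat_lit 332) (nat_lit 170)))) (XT.nd (nat_lit 94) (nat_lit 420) (nat_lit 0) (XT.lf (nat_lit 0) (nat_lit 10530406122) (nat_lit 420) (nat_lit 9083383211) (nat_lit 504) (nat_lit 7652401443) (nat_lit 76) (nat_lit 5) (nat_lit 81) (nat_lit 5) (nat_lit 82) (nat_lit 5) (nat_lit 363) (nat_lit 332) (nat_lit 169)) (XT.nd (nat_lit 94) (nat_lit 420) (nat_lit 0) (XT.lf (nat_lit 0) (nat_lit 21647147759) (nat_lit 420) (nat_lit 651292469) (nat_lit 504) (nat_lit 5506650508) (nat_lit 76) (nat_lit 5) (nat_lit 81) (nat_lit 5) (nat_lit 82) (nat_lit 5) (nat_lit 364) (nat_lit 332) (nat_lit 168)) (XT.lf (nat_lit 0) (nat_lit 4759740409) (nat_lit 420) (nat_lit 20429717475) (nat_lit 504) (nat_lit 3167434148) (nat_lit 71) (nat_lit 5) (nat_lit 76) (nat_lit 5) (nat_lit 77) (nat_lit 5) (nat_lit 365) (nat_lit 332) (nat_lit 167))))) (XT.nd (nat_lit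 282) (nat_lit 420) (nat_lit 0) (XT.nd (nat_lit 94) (nat_lit 504) (nat_lit 0) (XT.lf (nat_lit 0) (nat_lit 16135471408) (nat_lit 420) (nat_lit 12101716285) (nat_lit 504) (nat_lit 686544134) (nat_lit 71) (nat_lit 5) (nat_lit 76) (nat_lit 5) (nat_lit 77) (nat_lit 5) (nat_lit 366) (nat_lit 332) (nat_lit 166)) (XT.nd (nat_lit 94) (nat_lit 420) (nat_lit 0) (XT.lf (nat_lit 0) (nat_lit 1829836739) (nat_lit 504) (nat_lit 1666967639) (nat_lit 84) (nat_lit 26010890725) (nat_lit 70) (nat_lit 5) (nat_lit 76) (nat_lit 5) (nat_lit 71) (nat_lit 5) (nat_lit 367) (nat_lit 332) (nat_lit 165)) (XT.lf (nat_lit 0) (nat_lit 4559857122) (nat_lit 504) (nat_lit 20171656457) (nat_lit 84) (nat_lit 5373394687) (nat_lit 65) (nat_lit 5) (nat_lit 71) (nat_lit 5) (nat_lit 66) (nat_lit 5) (nat_lit 368) (nat_lit 332) (nat_lit 164)))) (XT.nd (nat_lit 94) (nat_lit 420) (nat_lit 0) (XT.lf (nat_lit 0) (nat_lit 7424311563)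 (nat_lit 504) (nat_lit 8831684296) (nat_lit 84) (nat_lit 14463106306) (nat_lit 65) (nat_lit 5) (nat_lit 71) (nat_lit 5) (nat_lit 66) (nat_lit 5) (nat_lit 369) (nat_lit 332) (nat_lit 163)) (XT.nd (nat_lit 94) (nat_lit 0) (nat_lit 0) (XT.lf (nat_lit 0) (nat_lit 2914608538) (nat_lit 420) (nat_lit 7488436883) (nat_lit 504) (nat_lit 20948511438) (nat_lit 60) (nat_lit 5) (nat_lit 65) (nat_lit 5) (nat_lit 66) (nat_lit 5) (nat_lit 370) (nat_lit 332) (nat_lit 162)) (XT.lf (nat_lit 0) (nat_lit 13579260060) (nat_lit 504) (nat_lit 16808835425) (nat_lit 84) (nat_lit 1612273206) (nat_lit 60) (nat_lit 5) (nat_lit 66) (nat_lit 5) (nat_lit 61) (nat_lit 5) (nat_lit 371) (nat_lit 332) (nat_lit 161))))))))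
noncomputable def xc182 : XT := (XT.nd (nat_lit 2256) (nat_lit 1092) (nat_lit 0) (XT.nd (nat_lit 1128) (nat_lit 1092) (nat_lit 0) (XT.nd (nat_lit 564) (nat_lit 672) (nat_lit 0) (XT.nd (nat_lit 282) (nat_lit 420) (nat_lit 0) (XT.nd (nat_lit 94) (nat_lit 336) (nat_lit 0) (XT.lf (nat_lit 0) (nat_lit 16927255102) (nat_lit 504) (nat_lit 4900730425) (nat_lit 84) (nat_lit 10839045382) (nat_lit 60) (nat_lit 5) (nat_lit 66) (nat_lit 5) (nat_lit 61) (nat_lit 5) (nat_lit 372) (nat_lit 332) (nat_lit 160)) (XT.nd (nat_lit 94) (nat_lit 0) (nat_lit 0) (XT.lf (nat_lit 0) (nat_lit 7524351412) (nat_lit 336) (nat_lit 12926156093) (nat_lit 420) (nat_lit 12901646362) (nat_lit 56) (nat_lit 5) (nat_lit 60) (nat_lit 5) (nat_lit 61) (nat_lit 5) (nat_lit 373) (nat_lit 332) (nat_lit 159)) (XT.lf (nat_lit 0) (nat_lit 20434768568) (nat_lit 336) (nat_lit 3696251109) (nat_lit 420) (nat_lit 9926016226) (nat_lit 56)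 (nat_lit 5) (nat_lit 60) (nat_lit 5) (nat_lit 61) (nat_lit 5) (nat_lit 374) (nat_lit 332) (nat_lit 158)))) (XT.nd (nat_lit 94) (nat_lit 420) (nat_lit 0) (XT.lf (nat_lit 0) (nat_lit 27980333725) (nat_lit 420) (nat_lit 1099813265) (nat_lit 84) (nat_lit 5701935596) (nat_lit 56) (nat_lit 5) (nat_lit 61) (nat_lit 5) (nat_lit 57) (nat_lit 5) (nat_lit 375) (nat_lit 332) (nat_lit 157)) (XT.nd (nat_lit 94) (nat_lit 84) (nat_lit 0) (XT.lf (nat_lit 0) (nat_lit 12011428599) (nat_lit 336) (nat_lit 20091570784) (nat_lit 420) (nat_lit 3421840535) (nat_lit 52) (nat_lit 5) (nat_lit 56) (nat_lit 5) (nat_lit 57) (nat_lit 5) (nat_lit 376) (nat_lit 332) (nat_lit 156)) (XT.lf (nat_lit 0) (nat_lit 70254925) (nat_lit 420) (nat_lit 10742213039) (nat_lit 84) (nat_lit 25477874863) (nat_lit 51) (nat_lit 5) (nat_lit 56) (nat_lit 5) (nat_lit 52) (nat_lit 5) (nat_lit 377) (nat_lit 332) (nat_lit 155))))) (XT.nd (nat_lit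 282) (nat_lit 336) (nat_lit 0) (XT.nd (nat_lit 94) (nat_lit 0) (nat_lit 0) (XT.lf (nat_lit 0) (nat_lit 2435433233) (nat_lit 336) (nat_lit 1185419019) (nat_lit 420) (nat_lit 33456986161) (nat_lit 47) (nat_lit 5) (nat_lit 51) (nat_lit 5) (nat_lit 52) (nat_lit 5) (nat_lit 378) (nat_lit 332) (nat_lit 154)) (XT.nd (nat_lit 94) (nat_lit 0) (nat_lit 0) (XT.lf (nat_lit 0) (nat_lit 7478704369) (nat_lit 420) (nat_lit 21728385653) (nat_lit 84) (nat_lit 8676551456) (nat_lit 47) (nat_lit 5) (nat_lit 52) (nat_lit 5) (nat_lit 48) (nat_lit 5) (nat_lit 379) (nat_lit 332) (nat_lit 153)) (XT.lf (nat_lit 0) (nat_lit 11465568076) (nat_lit 420) (nat_lit 8429629549) (nat_lit 84) (nat_lit 18818942498) (nat_lit 47) (nat_lit 5) (nat_lit 52) (nat_lit 5) (nat_lit 48) (nat_lit 5) (nat_lit 380) (nat_lit 332) (nat_lit 152)))) (XT.nd (nat_lit 94) (nat_lit 0) (nat_lit 0) (XT.lf (nat_lit 0) (nat_lit 5386545350) (nat_lit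 336) (nat_lit 10240289892) (nat_lit 420) (nat_lit 23941981275) (nat_lit 43) (nat_lit 5) (nat_lit 47) (nat_lit 5) (nat_lit 48) (nat_lit 5) (nat_lit 381) (nat_lit 332) (nat_lit 151)) (XT.nd (nat_lit 94) (nat_lit 0) (nat_lit 0) (XT.lf (nat_lit 0) (nat_lit 19806389977) (nat_lit 336) (nat_lit 196121072) (nat_lit 420) (nat_lit 20444836338) (nat_lit 43) (nat_lit 5) (nat_lit 47) (nat_lit 5) (nat_lit 48) (nat_lit 5) (nat_lit 382) (nat_lit 332) (nat_lit 150)) (XT.lf (nat_lit 0) (nat_lit 24612107048) (nat_lit 420) (nat_lit 6783957961) (nat_lit 84) (nat_lit 9954008184) (nat_lit 43) (nat_lit 5) (nat_lit 48) (nat_lit 5) (nat_lit 44) (nat_lit 5) (nat_lit 383) (nat_lit 332) (nat_lit 149)))))) (XT.nd (nat_lit 564) (nat_lit 504) (nat_lit 0) (XT.nd (nat_lit 282) (nat_lit 336) (nat_lit 0) (XT.nd (nat_lit 94) (nat_lit 0) (nat_lit 0) (XT.lf (nat_lit 0) (nat_lit 7651551561) (nat_lit 252) (nat_lit 21788526148)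 (nat_lit 336) (nat_lit 12838372768) (nat_lit 40) (nat_lit 5) (nat_lit 43) (nat_lit 5) (nat_lit 44) (nat_lit 5) (nat_lit 384) (nat_lit 332) (nat_lit 148)) (XT.nd (nat_lit 94) (nat_lit 0) (nat_lit 0) (XT.lf (nat_lit 0) (nat_lit 22675197986) (nat_lit 252) (nat_lit 11810936681) (nat_lit 336) (nat_lit 8747358363) (nat_lit 40) (nat_lit 5) (nat_lit 43) (nat_lit 5) (nat_lit 44) (nat_lit 5) (nat_lit 385) (nat_lit 332) (nat_lit 147)) (XT.lf (nat_lit 0) (nat_lit 38161492834) (nat_lit 252) (nat_lit 1524807059) (nat_lit 336) (nat_lit 4531920282) (nat_lit 40) (nat_lit 5) (nat_lit 43) (nat_lit 5) (nat_lit 44) (nat_lit 5) (nat_lit 386) (nat_lit 332) (nat_lit 146)))) (XT.nd (nat_lit 94) (nat_lit 84) (nat_lit 0) (XT.lf (nat_lit 0) (nat_lit 8982223687) (nat_lit 252) (nat_lit 36242370844) (nat_lit 336) (nat_lit 3400858) (nat_lit 37) (nat_lit 5) (nat_lit 40) (nat_lit 5) (nat_lit 41) (nat_lit 5) (nat_lit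 387) (nat_lit 332) (nat_lit 145)) (XT.nd (nat_lit 94) (nat_lit 0) (nat_lit 0) (XT.lf (nat_lit 0) (nat_lit 4648716904) (nat_lit 336) (nat_lit 21716937803) (nat_lit 84) (nat_lit 19899596362) (nat_lit 36) (nat_lit 5) (nat_lit 40) (nat_lit 5) (nat_lit 37) (nat_lit 5) (nat_lit 388) (nat_lit 332) (nat_lit 144)) (XT.lf (nat_lit 0) (nat_lit 9442799389) (nat_lit 336) (nat_lit 6740733658) (nat_lit 84) (nat_lit 31151200775) (nat_lit 36) (nat_lit 5) (nat_lit 40) (nat_lit 5) (nat_lit 37) (nat_lit 5) (nat_lit 389) (nat_lit 332) (nat_lit 143))))) (XT.nd (nat_lit 282) (nat_lit 252) (nat_lit 0) (XT.nd (nat_lit 94) (nat_lit 0) (nat_lit 0) (XT.lf (nat_lit 0) (nat_lit 8875658601) (nat_lit 252) (nat_lit 5595772735) (nat_lit 336) (nat_lit 33963280753) (nat_lit 33) (nat_lit 5) (nat_lit 36) (nat_lit 5) (nat_lit 37) (nat_lit 5) (nat_lit 390) (nat_lit 332) (nat_lit 142)) (XT.nd (nat_lit 94) (nat_lit 0) (nat_lit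 0) (XT.lf (nat_lit 0) (nat_lit 19777719599) (nat_lit 336) (nat_lit 24503977784) (nat_lit 84) (nat_lit 5283322775) (nat_lit 33) (nat_lit 5) (nat_lit 37) (nat_lit 5) (nat_lit 34) (nat_lit 5) (nat_lit 391) (nat_lit 332) (nat_lit 141)) (XT.lf (nat_lit 0) (nat_lit 25303709708) (nat_lit 336) (nat_lit 9042269718) (nat_lit 84) (nat_lit 16382682078) (nat_lit 33) (nat_lit 5) (nat_lit 37) (nat_lit 5) (nat_lit 34) (nat_lit 5) (nat_lit 392) (nat_lit 332) (nat_lit 140)))) (XT.nd (nat_lit 94) (nat_lit 0) (nat_lit 0) (XT.lf (nat_lit 0) (nat_lit 7037789164) (nat_lit 252) (nat_lit 24031068283) (nat_lit 336) (nat_lit 20857419867) (nat_lit 30) (nat_lit 5) (nat_lit 33) (nat_lit 5) (nat_lit 34) (nat_lit 5) (nat_lit 393) (nat_lit 332) (nat_lit 139)) (XT.nd (nat_lit 94) (nat_lit 0) (nat_lit 0) (XT.lf (nat_lit 0) (nat_lit 23805291260) (nat_lit 252) (nat_lit 13299884421) (nat_lit 336) (nat_lit 16052982394) (nat_lit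 30) (nat_lit 5) (nat_lit 33) (nat_lit 5) (nat_lit 34) (nat_lit 5) (nat_lit 394) (nat_lit 332) (nat_lit 138)) (XT.lf (nat_lit 0) (nat_lit 41089938027) (nat_lit 252) (nat_lit 2236808001) (nat_lit 336) (nat_lit 11101543891) (nat_lit 30) (nat_lit 5) (nat_lit 33) (nat_lit 5) (nat_lit 34) (nat_lit 5) (nat_lit 395) (nat_lit 332) (nat_lit 137))))))) (XT.nd (nat_lit 1128) (nat_lit 252) (nat_lit 0) (XT.nd (nat_lit 564) (nat_lit 336) (nat_lit 0) (XT.nd (nat_lit 282) (nat_lit 252) (nat_lit 0) (XT.nd (nat_lit 94) (nat_lit 84) (nat_lit 0) (XT.lf (nat_lit 0) (nat_lit 3142342635) (nat_lit 168) (nat_lit 46719149825) (nat_lit 252) (nat_lit 5872578414) (nat_lit 28) (nat_lit 5) (nat_lit 30) (nat_lit 5) (nat_lit 31) (nat_lit 5) (nat_lit 396) (nat_lit 332) (nat_lit 136)) (XT.nd (nat_lit 94) (nat_lit 84) (nat_lit 0) (XT.lf (nat_lit 0) (nat_lit 20390761879) (nat_lit 168) (nat_lit 36368129127) (nat_lit 252)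 (nat_lit 316482125) (nat_lit 28) (nat_lit 5) (nat_lit 30) (nat_lit 5) (nat_lit 31) (nat_lit 5) (nat_lit 397) (nat_lit 332) (nat_lit 135)) (XT.lf (nat_lit 0) (nat_lit 5301052617) (nat_lit 252) (nat_lit 20340617461) (nat_lit 84) (nat_lit 32814980238) (nat_lit 27) (nat_lit 5) (nat_lit 30) (nat_lit 5) (nat_lit 28) (nat_lit 5) (nat_lit 398) (nat_lit 332) (nat_lit 134)))) (XT.nd (nat_lit 94) (nat_lit 252) (nat_lit 0) (XT.lf (nat_lit 0) (nat_lit 11084446139) (nat_lit 252) (nat_lit 3495677397) (nat_lit 84) (nat_lit 45300580276) (nat_lit 27) (nat_lit 5) (nat_lit 30) (nat_lit 5) (nat_lit 28) (nat_lit 5) (nat_lit 399) (nat_lit 332) (nat_lit 133)) (XT.nd (nat_lit 94) (nat_lit 0) (nat_lit 0) (XT.lf (nat_lit 0) (nat_lit 14154225836) (nat_lit 252) (nat_lit 3031651415) (nat_lit 336) (nat_lit 44158728300) (nat_lit 24) (nat_lit 5) (nat_lit 27) (nat_lit 5) (nat_lit 28) (nat_lit 5) (nat_lit 400) (nat_lit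 332) (nat_lit 132)) (XT.lf (nat_lit 0) (nat_lit 23599712516) (nat_lit 336) (nat_lit 30518215768) (nat_lit 84) (nat_lit 8732142697) (nat_lit 24) (nat_lit 5) (nat_lit 28) (nat_lit 5) (nat_lit 25) (nat_lit 5) (nat_lit 401) (nat_lit 332) (nat_lit 131))))) (XT.nd (nat_lit 282) (nat_lit 168) (nat_lit 0) (XT.nd (nat_lit 94) (nat_lit 168) (nat_lit 0) (XT.lf (nat_lit 0) (nat_lit 30241792216) (nat_lit 336) (nat_lit 13362577082) (nat_lit 84) (nat_lit 20796928336) (nat_lit 24) (nat_lit 5) (nat_lit 28) (nat_lit 5) (nat_lit 25) (nat_lit 5) (nat_lit 402) (nat_lit 332) (nat_lit 130)) (XT.nd (nat_lit 94) (nat_lit 0) (nat_lit 0) (XT.lf (nat_lit 0) (nat_lit 4411483105) (nat_lit 168) (nat_lit 32720512462) (nat_lit 252) (nat_lit 28867311519) (nat_lit 22) (nat_lit 5) (nat_lit 24) (nat_lit 5) (nat_lit 25) (nat_lit 5) (nat_lit 403) (nat_lit 332) (nat_lit 129)) (XT.lf (nat_lit 0) (nat_lit 23017557053) (nat_lit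 168) (nat_lit 21356196757) (nat_lit 252) (nat_lit 23268827764) (nat_lit 22) (nat_lit 5) (nat_lit 24) (nat_lit 5) (nat_lit 25) (nat_lit 5) (nat_lit 404) (nat_lit 332) (nat_lit 128)))) (XT.nd (nat_lit 94) (nat_lit 168) (nat_lit 0) (XT.lf (nat_lit 0) (nat_lit 42198225579) (nat_lit 168) (nat_lit 9640307349) (nat_lit 252) (nat_lit 17498313680) (nat_lit 22) (nat_lit 5) (nat_lit 24) (nat_lit 5) (nat_lit 25) (nat_lit 5) (nat_lit 405) (nat_lit 332) (nat_lit 127)) (XT.nd (nat_lit 94) (nat_lit 168) (nat_lit 0) (XT.lf (nat_lit 0) (nat_lit 59557476898) (nat_lit 252) (nat_lit 9136500364) (nat_lit 84) (nat_lit 2388954394) (nat_lit 22) (nat_lit 5) (nat_lit 25) (nat_lit 5) (nat_lit 23) (nat_lit 5) (nat_lit 406) (nat_lit 332) (nat_lit 126)) (XT.lf (nat_lit 0) (nat_lit 9514684882) (nat_lit 168) (nat_lit 58192614702) (nat_lit 252) (nat_lit 5169909577) (nat_lit 20) (nat_lit 5) (nat_lit 22) (nat_lit 5) (nat_lit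 23) (nat_lit 5) (nat_lit 407) (nat_lit 332) (nat_lit 125)))))) (XT.nd (nat_lit 47282) (nat_lit 0) (nat_lit 8148) (XT.nd (nat_lit 282) (nat_lit 168) (nat_lit 0) (XT.nd (nat_lit 94) (nat_lit 0) (nat_lit 0) (XT.lf (nat_lit 0) (nat_lit 1449752875) (nat_lit 252) (nat_lit 45803211966) (nat_lit 84) (nat_lit 27470778660) (nat_lit 19) (nat_lit 5) (nat_lit 22) (nat_lit 5) (nat_lit 20) (nat_lit 5) (nat_lit 408) (nat_lit 332) (nat_lit 124)) (XT.nd (nat_lit 94) (nat_lit 0) (nat_lit 0) (XT.lf (nat_lit 0) (nat_lit 8165886580) (nat_lit 252) (nat_lit 27754486860) (nat_lit 84) (nat_lit 40705552448) (nat_lit 19) (nat_lit 5) (nat_lit 22) (nat_lit 5) (nat_lit 20) (nat_lit 5) (nat_lit 409) (nat_lit 332) (nat_lit 123)) (XT.lf (nat_lit 0) (nat_lit 15088913834) (nat_lit 252) (nat_lit 9148239519) (nat_lit 84) (nat_lit 54349965875) (nat_lit 19) (nat_lit 5) (nat_lit 22) (nat_lit 5) (nat_lit 20) (nat_lit 5) (nat_lit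 410) (nat_lit 332) (nat_lit 122)))) (XT.nd (nat_lit 94) (nat_lit 0) (nat_lit 0) (XT.lf (nat_lit 0) (nat_lit 10239169476) (nat_lit 168) (nat_lit 12087691976) (nat_lit 252) (nat_lit 58279141317) (nat_lit 17) (nat_lit 5) (nat_lit 19) (nat_lit 5) (nat_lit 20) (nat_lit 5) (nat_lit 411) (nat_lit 332) (nat_lit 121)) (XT.nd (nat_lit 46812) (nat_lit 0) (nat_lit 8148) (XT.lf (nat_lit 0) (nat_lit 29888745246) (nat_lit 252) (nat_lit 52270254861) (nat_lit 84) (nat_lit 525387868) (nat_lit 17) (nat_lit 5) (nat_lit 20) (nat_lit 5) (nat_lit 18) (nat_lit 5) (nat_lit 412) (nat_lit 332) (nat_lit 120)) (XT.lf (nat_lit 0) (nat_lit 718267241) (nat_lit 0) (nat_lit 718267241) (nat_lit 1092) (nat_lit 6810172587) (nat_lit 114) (nat_lit 5) (nat_lit 114) (nat_lit 3) (nat_lit 127) (nat_lit 3) (nat_lit 333) (nat_lit 333) (nat_lit 198))))) (XT.nd (nat_lit 282) (nat_lit 0) (nat_lit 84) (XT.nd (nat_lit 94) (nat_lit 0)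 (nat_lit 0) (XT.lf (nat_lit 0) (nat_lit 3178973290) (nat_lit 1092) (nat_lit 8791056472) (nat_lit 1176) (nat_lit 4770132504) (nat_lit 114) (nat_lit 5) (nat_lit 127) (nat_lit 3) (nat_lit 128) (nat_lit 5) (nat_lit 334) (nat_lit 333) (nat_lit 197)) (XT.nd (nat_lit 94) (nat_lit 0) (nat_lit 84) (XT.lf (nat_lit 0) (nat_lit 3500509494) (nat_lit 1092) (nat_lit 2350319076) (nat_lit 1176) (nat_lit 11143572527) (nat_lit 114) (nat_lit 5) (nat_lit 127) (nat_lit 3) (nat_lit 128) (nat_lit 5) (nat_lit 335) (nat_lit 333) (nat_lit 196)) (XT.lf (nat_lit 0) (nat_lit 3872139857) (nat_lit 1092) (nat_lit 12886782799) (nat_lit 1176) (nat_lit 496385913) (nat_lit 115) (nat_lit 5) (nat_lit 128) (nat_lit 5) (nat_lit 129) (nat_lit 5) (nat_lit 336) (nat_lit 333) (nat_lit 195)))) (XT.nd (nat_lit 94) (nat_lit 0) (nat_lit 0) (XT.lf (nat_lit 0) (nat_lit 4331868819) (nat_lit 1092) (nat_lit 6242920342) (nat_lit 1176) (nat_lit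 6947171316) (nat_lit 115) (nat_lit 5) (nat_lit 128) (nat_lit 5) (nat_lit 129) (nat_lit 5) (nat_lit 337) (nat_lit 333) (nat_lit 194)) (XT.nd (nat_lit 94) (nat_lit 0) (nat_lit 84) (XT.lf (nat_lit 84) (nat_lit 614663356) (nat_lit 0) (nat_lit 4189479895) (nat_lit 1176) (nat_lit 12992817547) (nat_lit 116) (nat_lit 5) (nat_lit 115) (nat_lit 5) (nat_lit 129) (nat_lit 5) (nat_lit 338) (nat_lit 333) (nat_lit 193)) (XT.lf (nat_lit 0) (nat_lit 5373050204) (nat_lit 1092) (nat_lit 10290570703) (nat_lit 1176) (nat_lit 2414351903) (nat_lit 116) (nat_lit 5) (nat_lit 129) (nat_lit 5) (nat_lit 130) (nat_lit 5) (nat_lit 339) (nat_lit 333) (nat_lit 192))))))))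
noncomputable def xc183 : XT := (XT.nd (nat_lit 2256) (nat_lit 3444) (nat_lit 0) (XT.nd (nat_lit 1128) (nat_lit 2184) (nat_lit 0) (XT.nd (nat_lit 564) (nat_lit 756) (nat_lit 0) (XT.nd (nat_lit 282) (nat_lit 0) (nat_lit 84) (XT.nd (nat_lit 94) (nat_lit 0) (nat_lit 0) (XT.lf (nat_lit 0) (nat_lit 5995085567) (nat_lit 1092) (nat_lit 3232772931) (nat_lit 1176) (nat_lit 9138765015) (nat_lit 116) (nat_lit 5) (nat_lit 129) (nat_lit 5) (nat_lit 130) (nat_lit 5) (nat_lit 340) (nat_lit 333) (nat_lit 191)) (XT.nd (nat_lit 94) (nat_lit 0) (nat_lit 84) (XT.lf (nat_lit 84) (nat_lit 4122289587) (nat_lit 0) (nat_lit 2547873017) (nat_lit 1176) (nat_lit 11993040014) (nat_lit 117) (nat_lit 5) (nat_lit 116) (nat_lit 5) (nat_lit 130) (nat_lit 5) (nat_lit 341) (nat_lit 333) (nat_lit 190)) (XT.lf (nat_lit 0) (nat_lit 7436359595) (nat_lit 1092) (nat_lit 7242229461) (nat_lit 1176) (nat_lit 4288236599) (nat_lit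 117) (nat_lit 5) (nat_lit 130) (nat_lit 5) (nat_lit 131) (nat_lit 5) (nat_lit 342) (nat_lit 333) (nat_lit 189)))) (XT.nd (nat_lit 94) (nat_lit 0) (nat_lit 0) (XT.lf (nat_lit 84) (nat_lit 257178984) (nat_lit 0) (nat_lit 7991007019) (nat_lit 1176) (nat_lit 11031021967) (nat_lit 118) (nat_lit 5) (nat_lit 117) (nat_lit 5) (nat_lit 131) (nat_lit 5) (nat_lit 343) (nat_lit 333) (nat_lit 188)) (XT.nd (nat_lit 94) (nat_lit 0) (nat_lit 84) (XT.lf (nat_lit 84) (nat_lit 8137990547) (nat_lit 0) (nat_lit 1016206529) (nat_lit 1176) (nat_lit 10444961911) (nat_lit 118) (nat_lit 5) (nat_lit 117) (nat_lit 5) (nat_lit 131) (nat_lit 5) (nat_lit 344) (nat_lit 333) (nat_lit 187)) (XT.lf (nat_lit 0) (nat_lit 10143190066) (nat_lit 1092) (nat_lit 3731887832) (nat_lit 1176) (nat_lit 6052272499) (nat_lit 118) (nat_lit 5) (nat_lit 131) (nat_lit 5) (nat_lit 132) (nat_lit 5) (nat_lit 345) (nat_lit 333) (nat_lit 186)))))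 (XT.nd (nat_lit 282) (nat_lit 924) (nat_lit 0) (XT.nd (nat_lit 94) (nat_lit 0) (nat_lit 84) (XT.lf (nat_lit 84) (nat_lit 4308850777) (nat_lit 0) (nat_lit 6900960673) (nat_lit 1176) (nat_lit 9054471195) (nat_lit 119) (nat_lit 5) (nat_lit 118) (nat_lit 5) (nat_lit 132) (nat_lit 5) (nat_lit 346) (nat_lit 333) (nat_lit 185)) (XT.nd (nat_lit 94) (nat_lit 0) (nat_lit 0) (XT.lf (nat_lit 0) (nat_lit 12345707565) (nat_lit 1092) (nat_lit 7940502537) (nat_lit 1176) (nat_lit 324349470) (nat_lit 119) (nat_lit 5) (nat_lit 132) (nat_lit 5) (nat_lit 133) (nat_lit 5) (nat_lit 347) (nat_lit 333) (nat_lit 184)) (XT.lf (nat_lit 84) (nat_lit 252797255) (nat_lit 0) (nat_lit 13331275744) (nat_lit 1176) (nat_lit 7381434732) (nat_lit 120) (nat_lit 5) (nat_lit 119) (nat_lit 5) (nat_lit 133) (nat_lit 5) (nat_lit 348) (nat_lit 333) (nat_lit 183)))) (XT.nd (nat_lit 94) (nat_lit 1008) (nat_lit 0) (XT.lf (nat_lit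 84) (nat_lit 8863865391) (nat_lit 0) (nat_lit 6074143232) (nat_lit 1176) (nat_lit 6391079008) (nat_lit 120) (nat_lit 5) (nat_lit 119) (nat_lit 5) (nat_lit 133) (nat_lit 5) (nat_lit 349) (nat_lit 333) (nat_lit 182)) (XT.nd (nat_lit 94) (nat_lit 1092) (nat_lit 0) (XT.lf (nat_lit 0) (nat_lit 16342364130) (nat_lit 1092) (nat_lit 3980653141) (nat_lit 84) (nat_lit 1380679675) (nat_lit 120) (nat_lit 5) (nat_lit 133) (nat_lit 5) (nat_lit 121) (nat_lit 5) (nat_lit 350) (nat_lit 333) (nat_lit 181)) (XT.lf (nat_lit 0) (nat_lit 4796976700) (nat_lit 1092) (nat_lit 13097635446) (nat_lit 1176) (nat_lit 4192091632) (nat_lit 107) (nat_lit 5) (nat_lit 120) (nat_lit 5) (nat_lit 121) (nat_lit 5) (nat_lit 351) (nat_lit 333) (nat_lit 180)))))) (XT.nd (nat_lit 564) (nat_lit 1008) (nat_lit 0) (XT.nd (nat_lit 282) (nat_lit 672) (nat_lit 0) (XT.nd (nat_lit 94) (nat_lit 504) (nat_lit 0) (XT.lf (nat_lit 0) (nat_lit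 13926661136) (nat_lit 1092) (nat_lit 5604632180) (nat_lit 1176) (nat_lit 2949183909) (nat_lit 107) (nat_lit 5) (nat_lit 120) (nat_lit 5) (nat_lit 121) (nat_lit 5) (nat_lit 352) (nat_lit 333) (nat_lit 179)) (XT.nd (nat_lit 94) (nat_lit 0) (nat_lit 0) (XT.lf (nat_lit 0) (nat_lit 436168970) (nat_lit 504) (nat_lit 20802835357) (nat_lit 588) (nat_lit 1646842790) (nat_lit 101) (nat_lit 5) (nat_lit 107) (nat_lit 5) (nat_lit 108) (nat_lit 5) (nat_lit 353) (nat_lit 333) (nat_lit 178)) (XT.lf (nat_lit 0) (nat_lit 9823234713) (nat_lit 504) (nat_lit 13317482948) (nat_lit 588) (nat_lit 158710840) (nat_lit 101) (nat_lit 5) (nat_lit 107) (nat_lit 5) (nat_lit 108) (nat_lit 5) (nat_lit 354) (nat_lit 333) (nat_lit 177)))) (XT.nd (nat_lit 94) (nat_lit 588) (nat_lit 0) (XT.lf (nat_lit 0) (nat_lit 1342958882) (nat_lit 588) (nat_lit 4242605097) (nat_lit 84) (nat_lit 18140012115) (nat_lit 100) (nat_lit 5)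 (nat_lit 107) (nat_lit 5) (nat_lit 101) (nat_lit 5) (nat_lit 355) (nat_lit 333) (nat_lit 176)) (XT.nd (nat_lit 94) (nat_lit 0) (nat_lit 0) (XT.lf (nat_lit 0) (nat_lit 2960754188) (nat_lit 672) (nat_lit 18807933730) (nat_lit 84) (nat_lit 2393953445) (nat_lit 93) (nat_lit 5) (nat_lit 101) (nat_lit 5) (nat_lit 94) (nat_lit 5) (nat_lit 356) (nat_lit 333) (nat_lit 175)) (XT.lf (nat_lit 0) (nat_lit 4725936023) (nat_lit 672) (nat_lit 9334399628) (nat_lit 84) (nat_lit 10549921644) (nat_lit 93) (nat_lit 5) (nat_lit 101) (nat_lit 5) (nat_lit 94) (nat_lit 5) (nat_lit 357) (nat_lit 333) (nat_lit 174))))) (XT.nd (nat_lit 282) (nat_lit 504) (nat_lit 0) (XT.nd (nat_lit 94) (nat_lit 0) (nat_lit 0) (XT.lf (nat_lit 0) (nat_lit 437343536) (nat_lit 504) (nat_lit 6108343330) (nat_lit 588) (nat_lit 18526082595) (nat_lit 87) (nat_lit 5) (nat_lit 93) (nat_lit 5) (nat_lit 94) (nat_lit 5) (nat_lit 358) (nat_lit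 333) (nat_lit 173)) (XT.nd (nat_lit 94) (nat_lit 0) (nat_lit 0) (XT.lf (nat_lit 0) (nat_lit 8536617531) (nat_lit 588) (nat_lit 14860795662) (nat_lit 84) (nat_lit 2146632493) (nat_lit 87) (nat_lit 5) (nat_lit 94) (nat_lit 5) (nat_lit 88) (nat_lit 5) (nat_lit 359) (nat_lit 333) (nat_lit 172)) (XT.lf (nat_lit 0) (nat_lit 10647477600) (nat_lit 588) (nat_lit 4850916302) (nat_lit 84) (nat_lit 10530778572) (nat_lit 87) (nat_lit 5) (nat_lit 94) (nat_lit 5) (nat_lit 88) (nat_lit 5) (nat_lit 360) (nat_lit 333) (nat_lit 171)))) (XT.nd (nat_lit 94) (nat_lit 0) (nat_lit 0) (XT.lf (nat_lit 0) (nat_lit 5577512377) (nat_lit 504) (nat_lit 7297456328) (nat_lit 588) (nat_lit 13652796548) (nat_lit 81) (nat_lit 5) (nat_lit 87) (nat_lit 5) (nat_lit 88) (nat_lit 5) (nat_lit 361) (nat_lit 333) (nat_lit 170)) (XT.nd (nat_lit 94) (nat_lit 0) (nat_lit 0) (XT.lf (nat_lit 0) (nat_lit 15230096299) (nat_lit 588) (nat_lit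 10624416481) (nat_lit 84) (nat_lit 1185499184) (nat_lit 81) (nat_lit 5) (nat_lit 88) (nat_lit 5) (nat_lit 82) (nat_lit 5) (nat_lit 362) (nat_lit 333) (nat_lit 169)) (XT.lf (nat_lit 0) (nat_lit 17728938644) (nat_lit 588) (nat_lit 57216269) (nat_lit 84) (nat_lit 9779804783) (nat_lit 81) (nat_lit 5) (nat_lit 88) (nat_lit 5) (nat_lit 82) (nat_lit 5) (nat_lit 363) (nat_lit 333) (nat_lit 168))))))) (XT.nd (nat_lit 1128) (nat_lit 1344) (nat_lit 0) (XT.nd (nat_lit 564) (nat_lit 756) (nat_lit 0) (XT.nd (nat_lit 282) (nat_lit 504) (nat_lit 0) (XT.nd (nat_lit 94) (nat_lit 420) (nat_lit 0) (XT.lf (nat_lit 0) (nat_lit 11056349977) (nat_lit 420) (nat_lit 9354763635) (nat_lit 504) (nat_lit 7693829128) (nat_lit 76) (nat_lit 5) (nat_lit 81) (nat_lit 5) (nat_lit 82) (nat_lit 5) (nat_lit 364) (nat_lit 333) (nat_lit 167)) (XT.nd (nat_lit 94) (nat_lit 420) (nat_lit 0) (XT.lf (nat_lit 0) (nat_lit 22511712021)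 (nat_lit 420) (nat_lit 661584907) (nat_lit 504) (nat_lit 5487447111) (nat_lit 76) (nat_lit 5) (nat_lit 81) (nat_lit 5) (nat_lit 82) (nat_lit 5) (nat_lit 365) (nat_lit 333) (nat_lit 166)) (XT.lf (nat_lit 0) (nat_lit 5104979493) (nat_lit 420) (nat_lit 21045492335) (nat_lit 504) (nat_lit 3079305165) (nat_lit 71) (nat_lit 5) (nat_lit 76) (nat_lit 5) (nat_lit 77) (nat_lit 5) (nat_lit 366) (nat_lit 333) (nat_lit 165)))) (XT.nd (nat_lit 94) (nat_lit 504) (nat_lit 0) (XT.lf (nat_lit 0) (nat_lit 16827414118) (nat_lit 420) (nat_lit 12459850691) (nat_lit 504) (nat_lit 527109794) (nat_lit 71) (nat_lit 5) (nat_lit 76) (nat_lit 5) (nat_lit 77) (nat_lit 5) (nat_lit 367) (nat_lit 333) (nat_lit 164)) (XT.nd (nat_lit 94) (nat_lit 420) (nat_lit 0) (XT.lf (nat_lit 0) (nat_lit 2058313530) (nat_lit 504) (nat_lit 1528591967) (nat_lit 84) (nat_lit 26829661532) (nat_lit 70) (nat_lit 5) (nat_lit 76) (nat_lit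 5) (nat_lit 71) (nat_lit 5) (nat_lit 368) (nat_lit 333) (nat_lit 163)) (XT.lf (nat_lit 0) (nat_lit 4869861742) (nat_lit 504) (nat_lit 20603297326) (nat_lit 84) (nat_lit 5559247224) (nat_lit 65) (nat_lit 5) (nat_lit 71) (nat_lit 5) (nat_lit 66) (nat_lit 5) (nat_lit 369) (nat_lit 333) (nat_lit 162))))) (XT.nd (nat_lit 282) (nat_lit 336) (nat_lit 0) (XT.nd (nat_lit 94) (nat_lit 420) (nat_lit 0) (XT.lf (nat_lit 0) (nat_lit 7818043349) (nat_lit 504) (nat_lit 8917609593) (nat_lit 84) (nat_lit 14930160276) (nat_lit 65) (nat_lit 5) (nat_lit 71) (nat_lit 5) (nat_lit 66) (nat_lit 5) (nat_lit 370) (nat_lit 333) (nat_lit 161)) (XT.nd (nat_lit 94) (nat_lit 0) (nat_lit 0) (XT.lf (nat_lit 0) (nat_lit 3190916436) (nat_lit 420) (nat_lit 7695127768) (nat_lit 504) (nat_lit 21431940431) (nat_lit 60) (nat_lit 5) (nat_lit 65) (nat_lit 5) (nat_lit 66) (nat_lit 5) (nat_lit 371) (nat_lit 333) (nat_lit 160))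 (XT.lf (nat_lit 0) (nat_lit 14156140350) (nat_lit 504) (nat_lit 17144484447) (nat_lit 84) (nat_lit 1686441730) (nat_lit 60) (nat_lit 5) (nat_lit 66) (nat_lit 5) (nat_lit 61) (nat_lit 5) (nat_lit 372) (nat_lit 333) (nat_lit 159)))) (XT.nd (nat_lit 94) (nat_lit 336) (nat_lit 0) (XT.lf (nat_lit 0) (nat_lit 17603234955) (nat_lit 504) (nat_lit 4872803528) (nat_lit 84) (nat_lit 11198516560) (nat_lit 60) (nat_lit 5) (nat_lit 66) (nat_lit 5) (nat_lit 61) (nat_lit 5) (nat_lit 373) (nat_lit 333) (nat_lit 158)) (XT.nd (nat_lit 94) (nat_lit 0) (nat_lit 0) (XT.lf (nat_lit 0) (nat_lit 7935635031) (nat_lit 336) (nat_lit 13297291902) (nat_lit 420) (nat_lit 13148090096) (nat_lit 56) (nat_lit 5) (nat_lit 60) (nat_lit 5) (nat_lit 61) (nat_lit 5) (nat_lit 374) (nat_lit 333) (nat_lit 157)) (XT.lf (nat_lit 0) (nat_lit 21240922169) (nat_lit 336) (nat_lit 3782149123) (nat_lit 420) (nat_lit 10084831068) (nat_lit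 56) (nat_lit 5) (nat_lit 60) (nat_lit 5) (nat_lit 61) (nat_lit 5) (nat_lit 375) (nat_lit 333) (nat_lit 156)))))) (XT.nd (nat_lit 564) (nat_lit 588) (nat_lit 0) (XT.nd (nat_lit 282) (nat_lit 336) (nat_lit 0) (XT.nd (nat_lit 94) (nat_lit 420) (nat_lit 0) (XT.lf (nat_lit 0) (nat_lit 28987660609) (nat_lit 420) (nat_lit 961945433) (nat_lit 84) (nat_lit 5905958273) (nat_lit 56) (nat_lit 5) (nat_lit 61) (nat_lit 5) (nat_lit 57) (nat_lit 5) (nat_lit 376) (nat_lit 333) (nat_lit 155)) (XT.nd (nat_lit 94) (nat_lit 84) (nat_lit 0) (XT.lf (nat_lit 0) (nat_lit 12554003967) (nat_lit 336) (nat_lit 20681605953) (nat_lit 420) (nat_lit 3385828067) (nat_lit 52) (nat_lit 5) (nat_lit 56) (nat_lit 5) (nat_lit 57) (nat_lit 5) (nat_lit 377) (nat_lit 333) (nat_lit 154)) (XT.lf (nat_lit 0) (nat_lit 207473310) (nat_lit 420) (nat_lit 10906954422) (nat_lit 84) (nat_lit 26296341847) (nat_lit 51) (nat_lit 5) (nat_lit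 56) (nat_lit 5) (nat_lit 52) (nat_lit 5) (nat_lit 378) (nat_lit 333) (nat_lit 153)))) (XT.nd (nat_lit 94) (nat_lit 0) (nat_lit 0) (XT.lf (nat_lit 0) (nat_lit 2677495330) (nat_lit 336) (nat_lit 1188235773) (nat_lit 420) (nat_lit 34357032730) (nat_lit 47) (nat_lit 5) (nat_lit 51) (nat_lit 5) (nat_lit 52) (nat_lit 5) (nat_lit 379) (nat_lit 333) (nat_lit 152)) (XT.nd (nat_lit 94) (nat_lit 0) (nat_lit 0) (XT.lf (nat_lit 0) (nat_lit 7839515139) (nat_lit 420) (nat_lit 22236384003) (nat_lit 84) (nat_lit 8977772462) (nat_lit 47) (nat_lit 5) (nat_lit 52) (nat_lit 5) (nat_lit 48) (nat_lit 5) (nat_lit 380) (nat_lit 333) (nat_lit 151)) (XT.lf (nat_lit 0) (nat_lit 11946093737) (nat_lit 420) (nat_lit 8530345151) (nat_lit 84) (nat_lit 19433607999) (nat_lit 47) (nat_lit 5) (nat_lit 52) (nat_lit 5) (nat_lit 48) (nat_lit 5) (nat_lit 381) (nat_lit 333) (nat_lit 150))))) (XT.nd (nat_lit 282) (nat_lit 252)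 (nat_lit 0) (XT.nd (nat_lit 94) (nat_lit 0) (nat_lit 0) (XT.lf (nat_lit 0) (nat_lit 5712505211) (nat_lit 336) (nat_lit 10521670761) (nat_lit 420) (nat_lit 24557120623) (nat_lit 43) (nat_lit 5) (nat_lit 47) (nat_lit 5) (nat_lit 48) (nat_lit 5) (nat_lit 382) (nat_lit 333) (nat_lit 149)) (XT.nd (nat_lit 94) (nat_lit 0) (nat_lit 0) (XT.lf (nat_lit 0) (nat_lit 20574584918) (nat_lit 336) (nat_lit 167217200) (nat_lit 420) (nat_lit 20955384682) (nat_lit 43) (nat_lit 5) (nat_lit 47) (nat_lit 5) (nat_lit 48) (nat_lit 5) (nat_lit 383) (nat_lit 333) (nat_lit 148)) (XT.lf (nat_lit 0) (nat_lit 25491047709) (nat_lit 420) (nat_lit 6841129556) (nat_lit 84) (nat_lit 10295830530) (nat_lit 43) (nat_lit 5) (nat_lit 48) (nat_lit 5) (nat_lit 44) (nat_lit 5) (nat_lit 384) (nat_lit 333) (nat_lit 147)))) (XT.nd (nat_lit 94) (nat_lit 0) (nat_lit 0) (XT.lf (nat_lit 0) (nat_lit 8040330447) (nat_lit 252) (nat_lit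 22426371881) (nat_lit 336) (nat_lit 13118533630) (nat_lit 40) (nat_lit 5) (nat_lit 43) (nat_lit 5) (nat_lit 44) (nat_lit 5) (nat_lit 385) (nat_lit 333) (nat_lit 146)) (XT.nd (nat_lit 94) (nat_lit 0) (nat_lit 0) (XT.lf (nat_lit 0) (nat_lit 23525152195) (nat_lit 252) (nat_lit 12140607651) (nat_lit 336) (nat_lit 8904240638) (nat_lit 40) (nat_lit 5) (nat_lit 43) (nat_lit 5) (nat_lit 44) (nat_lit 5) (nat_lit 386) (nat_lit 333) (nat_lit 145)) (XT.lf (nat_lit 0) (nat_lit 39487101509) (nat_lit 252) (nat_lit 1536704529) (nat_lit 336) (nat_lit 4561560312) (nat_lit 40) (nat_lit 5) (nat_lit 43) (nat_lit 5) (nat_lit 44) (nat_lit 5) (nat_lit 387) (nat_lit 333) (nat_lit 144))))))))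
noncomputable def xc184 : XT := (XT.nd (nat_lit 2256) (nat_lit 168) (nat_lit 0) (XT.nd (nat_lit 1128) (nat_lit 672) (nat_lit 0) (XT.nd (nat_lit 564) (nat_lit 504) (nat_lit 0) (XT.nd (nat_lit 282) (nat_lit 252) (nat_lit 0) (XT.nd (nat_lit 94) (nat_lit 0) (nat_lit 0) (XT.lf (nat_lit 0) (nat_lit 103705499) (nat_lit 336) (nat_lit 37222482395) (nat_lit 84) (nat_lit 9300278004) (nat_lit 36) (nat_lit 5) (nat_lit 40) (nat_lit 5) (nat_lit 37) (nat_lit 5) (nat_lit 388) (nat_lit 333) (nat_lit 143)) (XT.nd (nat_lit 94) (nat_lit 0) (nat_lit 0) (XT.lf (nat_lit 0) (nat_lit 4896746760) (nat_lit 336) (nat_lit 22247705603) (nat_lit 84) (nat_lit 20551531259) (nat_lit 36) (nat_lit 5) (nat_lit 40) (nat_lit 5) (nat_lit 37) (nat_lit 5) (nat_lit 389) (nat_lit 333) (nat_lit 142)) (XT.lf (nat_lit 0) (nat_lit 9836321158) (nat_lit 336) (nat_lit 6811522520) (nat_lit 84) (nat_lit 32150881607) (nat_lit 36) (nat_lit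 5) (nat_lit 40) (nat_lit 5) (nat_lit 37) (nat_lit 5) (nat_lit 390) (nat_lit 333) (nat_lit 141)))) (XT.nd (nat_lit 94) (nat_lit 0) (nat_lit 0) (XT.lf (nat_lit 0) (nat_lit 9287579013) (nat_lit 252) (nat_lit 5731587814) (nat_lit 336) (nat_lit 34913695778) (nat_lit 33) (nat_lit 5) (nat_lit 36) (nat_lit 5) (nat_lit 37) (nat_lit 5) (nat_lit 391) (nat_lit 333) (nat_lit 140)) (XT.nd (nat_lit 94) (nat_lit 0) (nat_lit 0) (XT.lf (nat_lit 0) (nat_lit 20487331962) (nat_lit 336) (nat_lit 25128075370) (nat_lit 84) (nat_lit 5482891653) (nat_lit 33) (nat_lit 5) (nat_lit 37) (nat_lit 5) (nat_lit 34) (nat_lit 5) (nat_lit 392) (nat_lit 333) (nat_lit 139)) (XT.lf (nat_lit 0) (nat_lit 26181726121) (nat_lit 336) (nat_lit 9191129327) (nat_lit 84) (nat_lit 16925255089) (nat_lit 33) (nat_lit 5) (nat_lit 37) (nat_lit 5) (nat_lit 34) (nat_lit 5) (nat_lit 393) (nat_lit 333) (nat_lit 138))))) (XT.nd (nat_lit 282)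 (nat_lit 252) (nat_lit 0) (XT.nd (nat_lit 94) (nat_lit 0) (nat_lit 0) (XT.lf (nat_lit 0) (nat_lit 7386080559) (nat_lit 252) (nat_lit 24737989289) (nat_lit 336) (nat_lit 21408836970) (nat_lit 30) (nat_lit 5) (nat_lit 33) (nat_lit 5) (nat_lit 34) (nat_lit 5) (nat_lit 394) (nat_lit 333) (nat_lit 137)) (XT.nd (nat_lit 94) (nat_lit 0) (nat_lit 0) (XT.lf (nat_lit 0) (nat_lit 24669462788) (nat_lit 252) (nat_lit 13675282573) (nat_lit 336) (nat_lit 16458323285) (nat_lit 30) (nat_lit 5) (nat_lit 33) (nat_lit 5) (nat_lit 34) (nat_lit 5) (nat_lit 395) (nat_lit 333) (nat_lit 136)) (XT.lf (nat_lit 0) (nat_lit 42486138811) (nat_lit 252) (nat_lit 2270360238) (nat_lit 336) (nat_lit 11356165502) (nat_lit 30) (nat_lit 5) (nat_lit 33) (nat_lit 5) (nat_lit 34) (nat_lit 5) (nat_lit 396) (nat_lit 333) (nat_lit 135)))) (XT.nd (nat_lit 94) (nat_lit 84) (nat_lit 0) (XT.lf (nat_lit 0) (nat_lit 3363450181) (nat_lit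 168) (nat_lit 48129339264) (nat_lit 252) (nat_lit 5966173824) (nat_lit 28) (nat_lit 5) (nat_lit 30) (nat_lit 5) (nat_lit 31) (nat_lit 5) (nat_lit 397) (nat_lit 333) (nat_lit 134)) (XT.nd (nat_lit 94) (nat_lit 84) (nat_lit 0) (XT.lf (nat_lit 0) (nat_lit 21142851176) (nat_lit 168) (nat_lit 37458582638) (nat_lit 252) (nat_lit 240498191) (nat_lit 28) (nat_lit 5) (nat_lit 30) (nat_lit 5) (nat_lit 31) (nat_lit 5) (nat_lit 398) (nat_lit 333) (nat_lit 133)) (XT.lf (nat_lit 0) (nat_lit 5546923856) (nat_lit 252) (nat_lit 20852939671) (nat_lit 84) (nat_lit 33866223184) (nat_lit 27) (nat_lit 5) (nat_lit 30) (nat_lit 5) (nat_lit 28) (nat_lit 5) (nat_lit 399) (nat_lit 333) (nat_lit 132)))))) (XT.nd (nat_lit 564) (nat_lit 252) (nat_lit 0) (XT.nd (nat_lit 282) (nat_lit 168) (nat_lit 0) (XT.nd (nat_lit 94) (nat_lit 252) (nat_lit 0) (XT.lf (nat_lit 0) (nat_lit 11507150883) (nat_lit 252) (nat_lit 3489361600)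 (nat_lit 84) (nat_lit 46737855159) (nat_lit 27) (nat_lit 5) (nat_lit 30) (nat_lit 5) (nat_lit 28) (nat_lit 5) (nat_lit 400) (nat_lit 333) (nat_lit 131)) (XT.nd (nat_lit 94) (nat_lit 0) (nat_lit 0) (XT.lf (nat_lit 0) (nat_lit 14706527582) (nat_lit 252) (nat_lit 3089946940) (nat_lit 336) (nat_lit 45447220221) (nat_lit 24) (nat_lit 5) (nat_lit 27) (nat_lit 5) (nat_lit 28) (nat_lit 5) (nat_lit 401) (nat_lit 333) (nat_lit 130)) (XT.lf (nat_lit 0) (nat_lit 24407141705) (nat_lit 336) (nat_lit 31352000807) (nat_lit 84) (nat_lit 9036754429) (nat_lit 24) (nat_lit 5) (nat_lit 28) (nat_lit 5) (nat_lit 25) (nat_lit 5) (nat_lit 402) (nat_lit 333) (nat_lit 129)))) (XT.nd (nat_lit 94) (nat_lit 168) (nat_lit 0) (XT.lf (nat_lit 0) (nat_lit 31252845584) (nat_lit 336) (nat_lit 13667913334) (nat_lit 84) (nat_lit 21474528661) (nat_lit 24) (nat_lit 5) (nat_lit 28) (nat_lit 5) (nat_lit 25) (nat_lit 5) (nat_lit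 403) (nat_lit 333) (nat_lit 128)) (XT.nd (nat_lit 94) (nat_lit 0) (nat_lit 0) (XT.lf (nat_lit 0) (nat_lit 4656040167) (nat_lit 168) (nat_lit 33699462744) (nat_lit 252) (nat_lit 29687372937) (nat_lit 22) (nat_lit 5) (nat_lit 24) (nat_lit 5) (nat_lit 25) (nat_lit 5) (nat_lit 404) (nat_lit 333) (nat_lit 127)) (XT.lf (nat_lit 0) (nat_lit 23835661055) (nat_lit 168) (nat_lit 21983917222) (nat_lit 252) (nat_lit 23917586023) (nat_lit 22) (nat_lit 5) (nat_lit 24) (nat_lit 5) (nat_lit 25) (nat_lit 5) (nat_lit 405) (nat_lit 333) (nat_lit 126))))) (XT.nd (nat_lit 282) (nat_lit 84) (nat_lit 0) (XT.nd (nat_lit 94) (nat_lit 168) (nat_lit 0) (XT.lf (nat_lit 0) (nat_lit 43607786415) (nat_lit 168) (nat_lit 9905867222) (nat_lit 252) (nat_lit 17970368192) (nat_lit 22) (nat_lit 5) (nat_lit 24) (nat_lit 5) (nat_lit 25) (nat_lit 5) (nat_lit 406) (nat_lit 333) (nat_lit 125)) (XT.nd (nat_lit 94) (nat_lit 168)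 (nat_lit 0) (XT.lf (nat_lit 0) (nat_lit 61470156767) (nat_lit 252) (nat_lit 9319486842) (nat_lit 84) (nat_lit 2494650140) (nat_lit 22) (nat_lit 5) (nat_lit 25) (nat_lit 5) (nat_lit 23) (nat_lit 5) (nat_lit 407) (nat_lit 333) (nat_lit 124)) (XT.lf (nat_lit 0) (nat_lit 9908870256) (nat_lit 168) (nat_lit 59962741625) (nat_lit 252) (nat_lit 5262617873) (nat_lit 20) (nat_lit 5) (nat_lit 22) (nat_lit 5) (nat_lit 23) (nat_lit 5) (nat_lit 408) (nat_lit 333) (nat_lit 123)))) (XT.nd (nat_lit 94) (nat_lit 0) (nat_lit 0) (XT.lf (nat_lit 0) (nat_lit 1558902527) (nat_lit 252) (nat_lit 47125407521) (nat_lit 84) (nat_lit 28353741794) (nat_lit 19) (nat_lit 5) (nat_lit 22) (nat_lit 5) (nat_lit 20) (nat_lit 5) (nat_lit 409) (nat_lit 333) (nat_lit 122)) (XT.nd (nat_lit 94) (nat_lit 0) (nat_lit 0) (XT.lf (nat_lit 0) (nat_lit 8481305798) (nat_lit 252) (nat_lit 28520109691) (nat_lit 84) (nat_lit 41997850370)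 (nat_lit 19) (nat_lit 5) (nat_lit 22) (nat_lit 5) (nat_lit 20) (nat_lit 5) (nat_lit 410) (nat_lit 333) (nat_lit 121)) (XT.lf (nat_lit 0) (nat_lit 15617074367) (nat_lit 252) (nat_lit 9339918104) (nat_lit 84) (nat_lit 56064325774) (nat_lit 19) (nat_lit 5) (nat_lit 22) (nat_lit 5) (nat_lit 20) (nat_lit 5) (nat_lit 411) (nat_lit 333) (nat_lit 120))))))) (XT.nd (nat_lit 47940) (nat_lit 0) (nat_lit 6972) (XT.nd (nat_lit 47376) (nat_lit 0) (nat_lit 8232) (XT.nd (nat_lit 47094) (nat_lit 0) (nat_lit 8148) (XT.nd (nat_lit 46906) (nat_lit 0) (nat_lit 8148) (XT.lf (nat_lit 0) (nat_lit 10647569995) (nat_lit 168) (nat_lit 12430914734) (nat_lit 252) (nat_lit 60024334652) (nat_lit 17) (nat_lit 5) (nat_lit 19) (nat_lit 5) (nat_lit 20) (nat_lit 5) (nat_lit 412) (nat_lit 333) (nat_lit 119)) (XT.nd (nat_lit 94) (nat_lit 0) (nat_lit 0) (XT.lf (nat_lit 0) (nat_lit 846015867) (nat_lit 0) (nat_lit 846015867)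 (nat_lit 1092) (nat_lit 6802993989) (nat_lit 114) (nat_lit 5) (nat_lit 114) (nat_lit 3) (nat_lit 127) (nat_lit 3) (nat_lit 334) (nat_lit 334) (nat_lit 196)) (XT.lf (nat_lit 0) (nat_lit 3684734432) (nat_lit 1092) (nat_lit 8842710156) (nat_lit 1176) (nat_lit 4717507857) (nat_lit 114) (nat_lit 5) (nat_lit 127) (nat_lit 3) (nat_lit 128) (nat_lit 5) (nat_lit 335) (nat_lit 334) (nat_lit 195)))) (XT.nd (nat_lit 94) (nat_lit 0) (nat_lit 84) (XT.lf (nat_lit 0) (nat_lit 4003994220) (nat_lit 1092) (nat_lit 2208950968) (nat_lit 1176) (nat_lit 11294553097) (nat_lit 114) (nat_lit 5) (nat_lit 127) (nat_lit 3) (nat_lit 128) (nat_lit 5) (nat_lit 336) (nat_lit 334) (nat_lit 194)) (XT.nd (nat_lit 94) (nat_lit 0) (nat_lit 0) (XT.lf (nat_lit 0) (nat_lit 4375655348) (nat_lit 1092) (nat_lit 13059114739) (nat_lit 1176) (nat_lit 342124644) (nat_lit 115) (nat_lit 5) (nat_lit 128) (nat_lit 5) (nat_lit 129) (nat_lit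 5) (nat_lit 337) (nat_lit 334) (nat_lit 193)) (XT.lf (nat_lit 0) (nat_lit 4838105496) (nat_lit 1092) (nat_lit 6216122718) (nat_lit 1176) (nat_lit 6997985390) (nat_lit 115) (nat_lit 5) (nat_lit 128) (nat_lit 5) (nat_lit 129) (nat_lit 5) (nat_lit 338) (nat_lit 334) (nat_lit 192))))) (XT.nd (nat_lit 282) (nat_lit 0) (nat_lit 84) (XT.nd (nat_lit 94) (nat_lit 0) (nat_lit 84) (XT.lf (nat_lit 84) (nat_lit 851815450) (nat_lit 0) (nat_lit 4464184824) (nat_lit 1176) (nat_lit 13020060298) (nat_lit 116) (nat_lit 5) (nat_lit 115) (nat_lit 5) (nat_lit 129) (nat_lit 5) (nat_lit 339) (nat_lit 334) (nat_lit 191)) (XT.nd (nat_lit 94) (nat_lit 0) (nat_lit 0) (XT.lf (nat_lit 0) (nat_lit 5890237302) (nat_lit 1092) (nat_lit 10384418083) (nat_lit 1176) (nat_lit 2351550808) (nat_lit 116) (nat_lit 5) (nat_lit 129) (nat_lit 5) (nat_lit 130) (nat_lit 5) (nat_lit 340) (nat_lit 334) (nat_lit 190)) (XT.lf (nat_lit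 0) (nat_lit 6521013279) (nat_lit 1092) (nat_lit 3114598676) (nat_lit 1176) (nat_lit 9288559452) (nat_lit 116) (nat_lit 5) (nat_lit 129) (nat_lit 5) (nat_lit 130) (nat_lit 5) (nat_lit 341) (nat_lit 334) (nat_lit 189)))) (XT.nd (nat_lit 94) (nat_lit 0) (nat_lit 84) (XT.lf (nat_lit 84) (nat_lit 4466259776) (nat_lit 0) (nat_lit 2742676963) (nat_lit 1176) (nat_lit 12021296573) (nat_lit 117) (nat_lit 5) (nat_lit 116) (nat_lit 5) (nat_lit 130) (nat_lit 5) (nat_lit 342) (nat_lit 334) (nat_lit 188)) (XT.nd (nat_lit 94) (nat_lit 0) (nat_lit 0) (XT.lf (nat_lit 0) (nat_lit 7987788920) (nat_lit 1092) (nat_lit 7244763067) (nat_lit 1176) (nat_lit 4311097860) (nat_lit 117) (nat_lit 5) (nat_lit 130) (nat_lit 5) (nat_lit 131) (nat_lit 5) (nat_lit 343) (nat_lit 334) (nat_lit 187)) (XT.lf (nat_lit 84) (nat_lit 484879736) (nat_lit 0) (nat_lit 8332433088) (nat_lit 1176) (nat_lit 11048670798) (nat_lit 118)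 (nat_lit 5) (nat_lit 117) (nat_lit 5) (nat_lit 131) (nat_lit 5) (nat_lit 344) (nat_lit 334) (nat_lit 186)))))) (XT.nd (nat_lit 564) (nat_lit 1428) (nat_lit 0) (XT.nd (nat_lit 282) (nat_lit 0) (nat_lit 168) (XT.nd (nat_lit 94) (nat_lit 0) (nat_lit 84) (XT.lf (nat_lit 84) (nat_lit 8603389693) (nat_lit 0) (nat_lit 1138596276) (nat_lit 1176) (nat_lit 10454194285) (nat_lit 118) (nat_lit 5) (nat_lit 117) (nat_lit 5) (nat_lit 131) (nat_lit 5) (nat_lit 345) (nat_lit 334) (nat_lit 185)) (XT.nd (nat_lit 94) (nat_lit 0) (nat_lit 0) (XT.lf (nat_lit 0) (nat_lit 10751622333) (nat_lit 1092) (nat_lit 3629753159) (nat_lit 1176) (nat_lit 6153514511) (nat_lit 118) (nat_lit 5) (nat_lit 131) (nat_lit 5) (nat_lit 132) (nat_lit 5) (nat_lit 346) (nat_lit 334) (nat_lit 184)) (XT.lf (nat_lit 84) (nat_lit 4658043084) (nat_lit 0) (nat_lit 7186565091) (nat_lit 1176) (nat_lit 9037899609) (nat_lit 119) (nat_lit 5)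 (nat_lit 118) (nat_lit 5) (nat_lit 132) (nat_lit 5) (nat_lit 347) (nat_lit 334) (nat_lit 183)))) (XT.nd (nat_lit 94) (nat_lit 0) (nat_lit 0) (XT.lf (nat_lit 0) (nat_lit 13006389143) (nat_lit 1092) (nat_lit 7967165801) (nat_lit 1176) (nat_lit 266285435) (nat_lit 119) (nat_lit 5) (nat_lit 132) (nat_lit 5) (nat_lit 133) (nat_lit 5) (nat_lit 348) (nat_lit 334) (nat_lit 182)) (XT.nd (nat_lit 94) (nat_lit 0) (nat_lit 0) (XT.lf (nat_lit 84) (nat_lit 477904122) (nat_lit 0) (nat_lit 13799037319) (nat_lit 1176) (nat_lit 7329073726) (nat_lit 120) (nat_lit 5) (nat_lit 119) (nat_lit 5) (nat_lit 133) (nat_lit 5) (nat_lit 349) (nat_lit 334) (nat_lit 181)) (XT.lf (nat_lit 84) (nat_lit 9349382514) (nat_lit 0) (nat_lit 6315295239) (nat_lit 1176) (nat_lit 6316471630) (nat_lit 120) (nat_lit 5) (nat_lit 119) (nat_lit 5) (nat_lit 133) (nat_lit 5) (nat_lit 350) (nat_lit 334) (nat_lit 180))))) (XT.nd (nat_lit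 282) (nat_lit 588) (nat_lit 0) (XT.nd (nat_lit 94) (nat_lit 1092) (nat_lit 0) (XT.lf (nat_lit 0) (nat_lit 17104134109) (nat_lit 1092) (nat_lit 3890278825) (nat_lit 84) (nat_lit 1373249236) (nat_lit 120) (nat_lit 5) (nat_lit 133) (nat_lit 5) (nat_lit 121) (nat_lit 5) (nat_lit 351) (nat_lit 334) (nat_lit 179)) (XT.nd (nat_lit 94) (nat_lit 0) (nat_lit 0) (XT.lf (nat_lit 0) (nat_lit 5157293265) (nat_lit 1092) (nat_lit 13541635724) (nat_lit 1176) (nat_lit 4063814233) (nat_lit 107) (nat_lit 5) (nat_lit 120) (nat_lit 5) (nat_lit 121) (nat_lit 5) (nat_lit 352) (nat_lit 334) (nat_lit 178)) (XT.lf (nat_lit 0) (nat_lit 14563635242) (nat_lit 1092) (nat_lit 5815207571) (nat_lit 1176) (nat_lit 2790140870) (nat_lit 107) (nat_lit 5) (nat_lit 120) (nat_lit 5) (nat_lit 121) (nat_lit 5) (nat_lit 353) (nat_lit 334) (nat_lit 177)))) (XT.nd (nat_lit 94) (nat_lit 84) (nat_lit 0) (XT.lf (nat_lit 0) (nat_lit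 661524959) (nat_lit 504) (nat_lit 21472436126) (nat_lit 588) (nat_lit 1453157019) (nat_lit 101) (nat_lit 5) (nat_lit 107) (nat_lit 5) (nat_lit 108) (nat_lit 5) (nat_lit 354) (nat_lit 334) (nat_lit 176)) (XT.nd (nat_lit 94) (nat_lit 0) (nat_lit 0) (XT.lf (nat_lit 0) (nat_lit 72262404) (nat_lit 588) (nat_lit 13681278052) (nat_lit 84) (nat_lit 10260203640) (nat_lit 100) (nat_lit 5) (nat_lit 107) (nat_lit 5) (nat_lit 101) (nat_lit 5) (nat_lit 355) (nat_lit 334) (nat_lit 175)) (XT.lf (nat_lit 0) (nat_lit 1610193404) (nat_lit 588) (nat_lit 4169417315) (nat_lit 84) (nat_lit 18673682279) (nat_lit 100) (nat_lit 5) (nat_lit 107) (nat_lit 5) (nat_lit 101) (nat_lit 5) (nat_lit 356) (nat_lit 334) (nat_lit 174))))))))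
noncomputable def xc185 : XT := (XT.nd (nat_lit 2256) (nat_lit 1932) (nat_lit 0) (XT.nd (nat_lit 1128) (nat_lit 2016) (nat_lit 0) (XT.nd (nat_lit 564) (nat_lit 840) (nat_lit 0) (XT.nd (nat_lit 282) (nat_lit 504) (nat_lit 0) (XT.nd (nat_lit 94) (nat_lit 504) (nat_lit 0) (XT.lf (nat_lit 0) (nat_lit 3273186656) (nat_lit 672) (nat_lit 19180558681) (nat_lit 84) (nat_lit 2450339041) (nat_lit 93) (nat_lit 5) (nat_lit 101) (nat_lit 5) (nat_lit 94) (nat_lit 5) (nat_lit 357) (nat_lit 334) (nat_lit 173)) (XT.nd (nat_lit 94) (nat_lit 504) (nat_lit 0) (XT.lf (nat_lit 0) (nat_lit 5086454674) (nat_lit 672) (nat_lit 9419671938) (nat_lit 84) (nat_lit 10859678273) (nat_lit 93) (nat_lit 5) (nat_lit 101) (nat_lit 5) (nat_lit 94) (nat_lit 5) (nat_lit 358) (nat_lit 334) (nat_lit 172)) (XT.lf (nat_lit 0) (nat_lit 652928994) (nat_lit 504) (nat_lit 6305257970) (nat_lit 588) (nat_lit 18883596447) (nat_lit 87)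 (nat_lit 5) (nat_lit 93) (nat_lit 5) (nat_lit 94) (nat_lit 5) (nat_lit 359) (nat_lit 334) (nat_lit 171)))) (XT.nd (nat_lit 94) (nat_lit 504) (nat_lit 0) (XT.lf (nat_lit 0) (nat_lit 9004462034) (nat_lit 588) (nat_lit 15118460281) (nat_lit 84) (nat_lit 2205996955) (nat_lit 87) (nat_lit 5) (nat_lit 94) (nat_lit 5) (nat_lit 88) (nat_lit 5) (nat_lit 360) (nat_lit 334) (nat_lit 170)) (XT.nd (nat_lit 94) (nat_lit 504) (nat_lit 0) (XT.lf (nat_lit 0) (nat_lit 11174648687) (nat_lit 588) (nat_lit 4804379046) (nat_lit 84) (nat_lit 10850267484) (nat_lit 87) (nat_lit 5) (nat_lit 94) (nat_lit 5) (nat_lit 88) (nat_lit 5) (nat_lit 361) (nat_lit 334) (nat_lit 169)) (XT.lf (nat_lit 0) (nat_lit 5945337327) (nat_lit 504) (nat_lit 7521861980) (nat_lit 588) (nat_lit 13876289033) (nat_lit 81) (nat_lit 5) (nat_lit 87) (nat_lit 5) (nat_lit 88) (nat_lit 5) (nat_lit 362) (nat_lit 334) (nat_lit 168))))) (XT.nd (nat_lit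 282) (nat_lit 420) (nat_lit 0) (XT.nd (nat_lit 94) (nat_lit 420) (nat_lit 0) (XT.lf (nat_lit 0) (nat_lit 15889547016) (nat_lit 588) (nat_lit 10758291633) (nat_lit 84) (nat_lit 1223975087) (nat_lit 81) (nat_lit 5) (nat_lit 88) (nat_lit 5) (nat_lit 82) (nat_lit 5) (nat_lit 363) (nat_lit 334) (nat_lit 167)) (XT.nd (nat_lit 94) (nat_lit 0) (nat_lit 0) (XT.lf (nat_lit 0) (nat_lit 133299752) (nat_lit 420) (nat_lit 18328243821) (nat_lit 504) (nat_lit 9952674877) (nat_lit 76) (nat_lit 5) (nat_lit 81) (nat_lit 5) (nat_lit 82) (nat_lit 5) (nat_lit 364) (nat_lit 334) (nat_lit 166)) (XT.lf (nat_lit 0) (nat_lit 11586781289) (nat_lit 420) (nat_lit 9635161280) (nat_lit 504) (nat_lit 7748138449) (nat_lit 76) (nat_lit 5) (nat_lit 81) (nat_lit 5) (nat_lit 82) (nat_lit 5) (nat_lit 365) (nat_lit 334) (nat_lit 165)))) (XT.nd (nat_lit 94) (nat_lit 420) (nat_lit 0) (XT.lf (nat_lit 0) (nat_lit 23391616280)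 (nat_lit 420) (nat_lit 672782663) (nat_lit 504) (nat_lit 5478897077) (nat_lit 76) (nat_lit 5) (nat_lit 81) (nat_lit 5) (nat_lit 82) (nat_lit 5) (nat_lit 366) (nat_lit 334) (nat_lit 164)) (XT.nd (nat_lit 94) (nat_lit 0) (nat_lit 0) (XT.lf (nat_lit 0) (nat_lit 5449211642) (nat_lit 420) (nat_lit 21681395517) (nat_lit 504) (nat_lit 2999480202) (nat_lit 71) (nat_lit 5) (nat_lit 76) (nat_lit 5) (nat_lit 77) (nat_lit 5) (nat_lit 367) (nat_lit 334) (nat_lit 163)) (XT.lf (nat_lit 0) (nat_lit 17529449780) (nat_lit 420) (nat_lit 12830095315) (nat_lit 504) (nat_lit 373437178) (nat_lit 71) (nat_lit 5) (nat_lit 76) (nat_lit 5) (nat_lit 77) (nat_lit 5) (nat_lit 368) (nat_lit 334) (nat_lit 162)))))) (XT.nd (nat_lit 564) (nat_lit 1092) (nat_lit 0) (XT.nd (nat_lit 282) (nat_lit 420) (nat_lit 0) (XT.nd (nat_lit 94) (nat_lit 420) (nat_lit 0) (XT.lf (nat_lit 0) (nat_lit 2283699945) (nat_lit 504) (nat_lit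 1397183734) (nat_lit 84) (nat_lit 27673077796) (nat_lit 70) (nat_lit 5) (nat_lit 76) (nat_lit 5) (nat_lit 71) (nat_lit 5) (nat_lit 369) (nat_lit 334) (nat_lit 161)) (XT.nd (nat_lit 94) (nat_lit 0) (nat_lit 0) (XT.lf (nat_lit 0) (nat_lit 5179487134) (nat_lit 504) (nat_lit 21059791090) (nat_lit 84) (nat_lit 5749719362) (nat_lit 65) (nat_lit 5) (nat_lit 71) (nat_lit 5) (nat_lit 66) (nat_lit 5) (nat_lit 370) (nat_lit 334) (nat_lit 160)) (XT.lf (nat_lit 0) (nat_lit 8214291808) (nat_lit 504) (nat_lit 9017325662) (nat_lit 84) (nat_lit 15410585423) (nat_lit 65) (nat_lit 5) (nat_lit 71) (nat_lit 5) (nat_lit 66) (nat_lit 5) (nat_lit 371) (nat_lit 334) (nat_lit 159)))) (XT.nd (nat_lit 94) (nat_lit 0) (nat_lit 0) (XT.lf (nat_lit 0) (nat_lit 3464775444) (nat_lit 420) (nat_lit 7909733556) (nat_lit 504) (nat_lit 21940186697) (nat_lit 60) (nat_lit 5) (nat_lit 65) (nat_lit 5) (nat_lit 66) (nat_lit 5)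 (nat_lit 372) (nat_lit 334) (nat_lit 158)) (XT.nd (nat_lit 94) (nat_lit 0) (nat_lit 0) (XT.lf (nat_lit 0) (nat_lit 14741668330) (nat_lit 504) (nat_lit 17501521622) (nat_lit 84) (nat_lit 1761476779) (nat_lit 60) (nat_lit 5) (nat_lit 66) (nat_lit 5) (nat_lit 61) (nat_lit 5) (nat_lit 373) (nat_lit 334) (nat_lit 157)) (XT.lf (nat_lit 0) (nat_lit 18291212279) (nat_lit 504) (nat_lit 4854663693) (nat_lit 84) (nat_lit 11567741722) (nat_lit 60) (nat_lit 5) (nat_lit 66) (nat_lit 5) (nat_lit 61) (nat_lit 5) (nat_lit 374) (nat_lit 334) (nat_lit 156))))) (XT.nd (nat_lit 282) (nat_lit 756) (nat_lit 0) (XT.nd (nat_lit 94) (nat_lit 0) (nat_lit 0) (XT.lf (nat_lit 0) (nat_lit 8349123496) (nat_lit 336) (nat_lit 13681684701) (nat_lit 420) (nat_lit 13411266087) (nat_lit 56) (nat_lit 5) (nat_lit 60) (nat_lit 5) (nat_lit 61) (nat_lit 5) (nat_lit 375) (nat_lit 334) (nat_lit 155)) (XT.nd (nat_lit 94) (nat_lit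 0) (nat_lit 0) (XT.lf (nat_lit 0) (nat_lit 22061838651) (nat_lit 336) (nat_lit 3872409082) (nat_lit 420) (nat_lit 10257388277) (nat_lit 56) (nat_lit 5) (nat_lit 60) (nat_lit 5) (nat_lit 61) (nat_lit 5) (nat_lit 376) (nat_lit 334) (nat_lit 154)) (XT.lf (nat_lit 0) (nat_lit 30017925946) (nat_lit 420) (nat_lit 829989305) (nat_lit 84) (nat_lit 6114690839) (nat_lit 56) (nat_lit 5) (nat_lit 61) (nat_lit 5) (nat_lit 57) (nat_lit 5) (nat_lit 377) (nat_lit 334) (nat_lit 153)))) (XT.nd (nat_lit 94) (nat_lit 420) (nat_lit 0) (XT.lf (nat_lit 0) (nat_lit 13103316686) (nat_lit 336) (nat_lit 21291875221) (nat_lit 420) (nat_lit 3357115418) (nat_lit 52) (nat_lit 5) (nat_lit 56) (nat_lit 5) (nat_lit 57) (nat_lit 5) (nat_lit 378) (nat_lit 334) (nat_lit 152)) (XT.nd (nat_lit 94) (nat_lit 336) (nat_lit 0) (XT.lf (nat_lit 0) (nat_lit 340946786) (nat_lit 420) (nat_lit 11086769544) (nat_lit 84) (nat_lit 27138484150)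 (nat_lit 51) (nat_lit 5) (nat_lit 56) (nat_lit 5) (nat_lit 52) (nat_lit 5) (nat_lit 379) (nat_lit 334) (nat_lit 151)) (XT.lf (nat_lit 0) (nat_lit 2917195501) (nat_lit 336) (nat_lit 1193149653) (nat_lit 420) (nat_lit 35293102596) (nat_lit 47) (nat_lit 5) (nat_lit 51) (nat_lit 5) (nat_lit 52) (nat_lit 5) (nat_lit 380) (nat_lit 334) (nat_lit 150))))))) (XT.nd (nat_lit 1128) (nat_lit 756) (nat_lit 0) (XT.nd (nat_lit 564) (nat_lit 588) (nat_lit 0) (XT.nd (nat_lit 282) (nat_lit 252) (nat_lit 0) (XT.nd (nat_lit 94) (nat_lit 336) (nat_lit 0) (XT.lf (nat_lit 0) (nat_lit 8203871874) (nat_lit 420) (nat_lit 22769937984) (nat_lit 84) (nat_lit 9286421220) (nat_lit 47) (nat_lit 5) (nat_lit 52) (nat_lit 5) (nat_lit 48) (nat_lit 5) (nat_lit 381) (nat_lit 334) (nat_lit 149)) (XT.nd (nat_lit 94) (nat_lit 336) (nat_lit 0) (XT.lf (nat_lit 0) (nat_lit 12434106217) (nat_lit 420) (nat_lit 8643695721) (nat_lit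 84) (nat_lit 20065475465) (nat_lit 47) (nat_lit 5) (nat_lit 52) (nat_lit 5) (nat_lit 48) (nat_lit 5) (nat_lit 382) (nat_lit 334) (nat_lit 148)) (XT.lf (nat_lit 0) (nat_lit 6039153349) (nat_lit 336) (nat_lit 10813910813) (nat_lit 420) (nat_lit 25198855395) (nat_lit 43) (nat_lit 5) (nat_lit 47) (nat_lit 5) (nat_lit 48) (nat_lit 5) (nat_lit 383) (nat_lit 334) (nat_lit 147)))) (XT.nd (nat_lit 94) (nat_lit 252) (nat_lit 0) (XT.lf (nat_lit 0) (nat_lit 21357460559) (nat_lit 336) (nat_lit 139489448) (nat_lit 420) (nat_lit 21489059835) (nat_lit 43) (nat_lit 5) (nat_lit 47) (nat_lit 5) (nat_lit 48) (nat_lit 5) (nat_lit 384) (nat_lit 334) (nat_lit 146)) (XT.nd (nat_lit 94) (nat_lit 252) (nat_lit 0) (XT.lf (nat_lit 0) (nat_lit 26390366705) (nat_lit 420) (nat_lit 6909143688) (nat_lit 84) (nat_lit 10646280028) (nat_lit 43) (nat_lit 5) (nat_lit 48) (nat_lit 5) (nat_lit 44) (nat_lit 5) (nat_lit 385)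 (nat_lit 334) (nat_lit 145)) (XT.lf (nat_lit 0) (nat_lit 8432183088) (nat_lit 252) (nat_lit 23086217859) (nat_lit 336) (nat_lit 13414358673) (nat_lit 40) (nat_lit 5) (nat_lit 43) (nat_lit 5) (nat_lit 44) (nat_lit 5) (nat_lit 386) (nat_lit 334) (nat_lit 144))))) (XT.nd (nat_lit 282) (nat_lit 252) (nat_lit 0) (XT.nd (nat_lit 94) (nat_lit 336) (nat_lit 0) (XT.lf (nat_lit 0) (nat_lit 24392746556) (nat_lit 252) (nat_lit 12482658487) (nat_lit 336) (nat_lit 9072755610) (nat_lit 40) (nat_lit 5) (nat_lit 43) (nat_lit 5) (nat_lit 44) (nat_lit 5) (nat_lit 387) (nat_lit 334) (nat_lit 143)) (XT.nd (nat_lit 94) (nat_lit 336) (nat_lit 0) (XT.lf (nat_lit 0) (nat_lit 40845357469) (nat_lit 252) (nat_lit 1551065937) (nat_lit 336) (nat_lit 4598684988) (nat_lit 40) (nat_lit 5) (nat_lit 43) (nat_lit 5) (nat_lit 44) (nat_lit 5) (nat_lit 388) (nat_lit 334) (nat_lit 142)) (XT.lf (nat_lit 0) (nat_lit 207715357)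 (nat_lit 336) (nat_lit 38238205468) (nat_lit 84) (nat_lit 9622580230) (nat_lit 36) (nat_lit 5) (nat_lit 40) (nat_lit 5) (nat_lit 37) (nat_lit 5) (nat_lit 389) (nat_lit 334) (nat_lit 141)))) (XT.nd (nat_lit 94) (nat_lit 252) (nat_lit 0) (XT.lf (nat_lit 0) (nat_lit 5146310204) (nat_lit 336) (nat_lit 22803365193) (nat_lit 84) (nat_lit 21221600219) (nat_lit 36) (nat_lit 5) (nat_lit 40) (nat_lit 5) (nat_lit 37) (nat_lit 5) (nat_lit 390) (nat_lit 334) (nat_lit 140)) (XT.nd (nat_lit 94) (nat_lit 252) (nat_lit 0) (XT.lf (nat_lit 0) (nat_lit 10236071842) (nat_lit 336) (nat_lit 6892690112) (nat_lit 84) (nat_lit 33179539045) (nat_lit 36) (nat_lit 5) (nat_lit 40) (nat_lit 5) (nat_lit 37) (nat_lit 5) (nat_lit 391) (nat_lit 334) (nat_lit 139)) (XT.lf (nat_lit 0) (nat_lit 9704167540) (nat_lit 252) (nat_lit 5873843464) (nat_lit 336) (nat_lit 35899641761) (nat_lit 33) (nat_lit 5) (nat_lit 36) (nat_lit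 5) (nat_lit 37) (nat_lit 5) (nat_lit 392) (nat_lit 334) (nat_lit 138)))))) (XT.nd (nat_lit 564) (nat_lit 336) (nat_lit 0) (XT.nd (nat_lit 282) (nat_lit 168) (nat_lit 0) (XT.nd (nat_lit 94) (nat_lit 252) (nat_lit 0) (XT.lf (nat_lit 0) (nat_lit 21213226268) (nat_lit 336) (nat_lit 25779547401) (nat_lit 84) (nat_lit 5686527507) (nat_lit 33) (nat_lit 5) (nat_lit 37) (nat_lit 5) (nat_lit 34) (nat_lit 5) (nat_lit 393) (nat_lit 334) (nat_lit 137)) (XT.nd (nat_lit 94) (nat_lit 252) (nat_lit 0) (XT.lf (nat_lit 0) (nat_lit 27081416871) (nat_lit 336) (nat_lit 9352389637) (nat_lit 84) (nat_lit 17482591938) (nat_lit 33) (nat_lit 5) (nat_lit 37) (nat_lit 5) (nat_lit 34) (nat_lit 5) (nat_lit 394) (nat_lit 334) (nat_lit 136)) (XT.lf (nat_lit 0) (nat_lit 7737461762) (nat_lit 252) (nat_lit 25469078146) (nat_lit 336) (nat_lit 21982984667) (nat_lit 30) (nat_lit 5) (nat_lit 33) (nat_lit 5) (nat_lit 34) (nat_lit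 5) (nat_lit 395) (nat_lit 334) (nat_lit 135)))) (XT.nd (nat_lit 94) (nat_lit 168) (nat_lit 0) (XT.lf (nat_lit 0) (nat_lit 25552948147) (nat_lit 252) (nat_lit 14064503615) (nat_lit 336) (nat_lit 16881696922) (nat_lit 30) (nat_lit 5) (nat_lit 33) (nat_lit 5) (nat_lit 34) (nat_lit 5) (nat_lit 396) (nat_lit 334) (nat_lit 134)) (XT.nd (nat_lit 94) (nat_lit 168) (nat_lit 0) (XT.lf (nat_lit 0) (nat_lit 43918371105) (nat_lit 252) (nat_lit 2307072426) (nat_lit 336) (nat_lit 11623983175) (nat_lit 30) (nat_lit 5) (nat_lit 33) (nat_lit 5) (nat_lit 34) (nat_lit 5) (nat_lit 397) (nat_lit 334) (nat_lit 133)) (XT.lf (nat_lit 0) (nat_lit 3584085399) (nat_lit 168) (nat_lit 49585501553) (nat_lit 252) (nat_lit 6067910003) (nat_lit 28) (nat_lit 5) (nat_lit 30) (nat_lit 5) (nat_lit 31) (nat_lit 5) (nat_lit 398) (nat_lit 334) (nat_lit 132))))) (XT.nd (nat_lit 282) (nat_lit 252) (nat_lit 0) (XT.nd (nat_lit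 94) (nat_lit 84) (nat_lit 0) (XT.lf (nat_lit 0) (nat_lit 21911148875) (nat_lit 168) (nat_lit 38585029323) (nat_lit 252) (nat_lit 167240532) (nat_lit 28) (nat_lit 5) (nat_lit 30) (nat_lit 5) (nat_lit 31) (nat_lit 5) (nat_lit 399) (nat_lit 334) (nat_lit 131)) (XT.nd (nat_lit 94) (nat_lit 0) (nat_lit 0) (XT.lf (nat_lit 0) (nat_lit 5795587432) (nat_lit 252) (nat_lit 21388147245) (nat_lit 84) (nat_lit 34948042053) (nat_lit 27) (nat_lit 5) (nat_lit 30) (nat_lit 5) (nat_lit 28) (nat_lit 5) (nat_lit 400) (nat_lit 334) (nat_lit 130)) (XT.lf (nat_lit 0) (nat_lit 11938275020) (nat_lit 252) (nat_lit 3489642813) (nat_lit 84) (nat_lit 48217733470) (nat_lit 27) (nat_lit 5) (nat_lit 30) (nat_lit 5) (nat_lit 28) (nat_lit 5) (nat_lit 401) (nat_lit 334) (nat_lit 129)))) (XT.nd (nat_lit 94) (nat_lit 0) (nat_lit 0) (XT.lf (nat_lit 0) (nat_lit 15269226655) (nat_lit 252) (nat_lit 3152163349) (nat_lit 336)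 (nat_lit 46780419319) (nat_lit 24) (nat_lit 5) (nat_lit 27) (nat_lit 5) (nat_lit 28) (nat_lit 5) (nat_lit 402) (nat_lit 334) (nat_lit 128)) (XT.nd (nat_lit 94) (nat_lit 0) (nat_lit 0) (XT.lf (nat_lit 0) (nat_lit 25235109179) (nat_lit 336) (nat_lit 32218283698) (nat_lit 84) (nat_lit 9348800262) (nat_lit 24) (nat_lit 5) (nat_lit 28) (nat_lit 5) (nat_lit 25) (nat_lit 5) (nat_lit 403) (nat_lit 334) (nat_lit 127)) (XT.lf (nat_lit 0) (nat_lit 32290884652) (nat_lit 336) (nat_lit 13989165559) (nat_lit 84) (nat_lit 22171186136) (nat_lit 24) (nat_lit 5) (nat_lit 28) (nat_lit 5) (nat_lit 25) (nat_lit 5) (nat_lit 404) (nat_lit 334) (nat_lit 126))))))))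
noncomputable def xc186 : XT := (XT.nd (nat_lit 49162) (nat_lit 0) (nat_lit 3444) (XT.nd (nat_lit 48034) (nat_lit 0) (nat_lit 8064) (XT.nd (nat_lit 564) (nat_lit 0) (nat_lit 0) (XT.nd (nat_lit 282) (nat_lit 252) (nat_lit 0) (XT.nd (nat_lit 94) (nat_lit 0) (nat_lit 0) (XT.lf (nat_lit 0) (nat_lit 4901793255) (nat_lit 168) (nat_lit 34710856434) (nat_lit 252) (nat_lit 30537288286) (nat_lit 22) (nat_lit 5) (nat_lit 24) (nat_lit 5) (nat_lit 25) (nat_lit 5) (nat_lit 405) (nat_lit 334) (nat_lit 125)) (XT.nd (nat_lit 94) (nat_lit 0) (nat_lit 0) (XT.lf (nat_lit 0) (nat_lit 24672933030) (nat_lit 168) (nat_lit 22633129951) (nat_lit 252) (nat_lit 24590754554) (nat_lit 22) (nat_lit 5) (nat_lit 24) (nat_lit 5) (nat_lit 25) (nat_lit 5) (nat_lit 406) (nat_lit 334) (nat_lit 124)) (XT.lf (nat_lit 0) (nat_lit 45055036603) (nat_lit 168) (nat_lit 10181631255) (nat_lit 252) (nat_lit 18461225905) (nat_lit 22)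 (nat_lit 5) (nat_lit 24) (nat_lit 5) (nat_lit 25) (nat_lit 5) (nat_lit 407) (nat_lit 334) (nat_lit 123)))) (XT.nd (nat_lit 94) (nat_lit 252) (nat_lit 0) (XT.lf (nat_lit 0) (nat_lit 63438196839) (nat_lit 252) (nat_lit 9514083586) (nat_lit 84) (nat_lit 2601748471) (nat_lit 22) (nat_lit 5) (nat_lit 25) (nat_lit 5) (nat_lit 23) (nat_lit 5) (nat_lit 408) (nat_lit 334) (nat_lit 122)) (XT.nd (nat_lit 94) (nat_lit 84) (nat_lit 0) (XT.lf (nat_lit 0) (nat_lit 10309397805) (nat_lit 168) (nat_lit 61789747129) (nat_lit 252) (nat_lit 5362201756) (nat_lit 20) (nat_lit 5) (nat_lit 22) (nat_lit 5) (nat_lit 23) (nat_lit 5) (nat_lit 409) (nat_lit 334) (nat_lit 121)) (XT.lf (nat_lit 0) (nat_lit 1667632708) (nat_lit 252) (nat_lit 48494378314) (nat_lit 84) (nat_lit 29262218746) (nat_lit 19) (nat_lit 5) (nat_lit 22) (nat_lit 5) (nat_lit 20) (nat_lit 5) (nat_lit 410) (nat_lit 334) (nat_lit 120))))) (XT.nd (nat_lit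 47188) (nat_lit 0) (nat_lit 7980) (XT.nd (nat_lit 94) (nat_lit 0) (nat_lit 0) (XT.lf (nat_lit 0) (nat_lit 8802814254) (nat_lit 252) (nat_lit 29315079998) (nat_lit 84) (nat_lit 43328407355) (nat_lit 19) (nat_lit 5) (nat_lit 22) (nat_lit 5) (nat_lit 20) (nat_lit 5) (nat_lit 411) (nat_lit 334) (nat_lit 119)) (XT.nd (nat_lit 47000) (nat_lit 0) (nat_lit 7980) (XT.lf (nat_lit 0) (nat_lit 16158030031) (nat_lit 252) (nat_lit 9542983117) (nat_lit 84) (nat_lit 57830082845) (nat_lit 19) (nat_lit 5) (nat_lit 22) (nat_lit 5) (nat_lit 20) (nat_lit 5) (nat_lit 412) (nat_lit 334) (nat_lit 118)) (XT.lf (nat_lit 0) (nat_lit 971476801) (nat_lit 0) (nat_lit 971476801) (nat_lit 1092) (nat_lit 6808522779) (nat_lit 114) (nat_lit 5) (nat_lit 114) (nat_lit 3) (nat_lit 127) (nat_lit 3) (nat_lit 335) (nat_lit 335) (nat_lit 194)))) (XT.nd (nat_lit 94) (nat_lit 0) (nat_lit 0) (XT.lf (nat_lit 0) (nat_lit 4182054247)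 (nat_lit 1092) (nat_lit 8909047557) (nat_lit 1176) (nat_lit 4675127731) (nat_lit 114) (nat_lit 5) (nat_lit 127) (nat_lit 3) (nat_lit 128) (nat_lit 5) (nat_lit 336) (nat_lit 335) (nat_lit 193)) (XT.nd (nat_lit 94) (nat_lit 0) (nat_lit 84) (XT.lf (nat_lit 0) (nat_lit 4499692288) (nat_lit 1092) (nat_lit 2075889541) (nat_lit 1176) (nat_lit 11461732866) (nat_lit 114) (nat_lit 5) (nat_lit 127) (nat_lit 3) (nat_lit 128) (nat_lit 5) (nat_lit 337) (nat_lit 335) (nat_lit 192)) (XT.lf (nat_lit 0) (nat_lit 4872065692) (nat_lit 1092) (nat_lit 13250243945) (nat_lit 1176) (nat_lit 193129890) (nat_lit 115) (nat_lit 5) (nat_lit 128) (nat_lit 5) (nat_lit 129) (nat_lit 5) (nat_lit 338) (nat_lit 335) (nat_lit 191)))))) (XT.nd (nat_lit 564) (nat_lit 0) (nat_lit 168) (XT.nd (nat_lit 282) (nat_lit 0) (nat_lit 84) (XT.nd (nat_lit 94) (nat_lit 0) (nat_lit 0) (XT.lf (nat_lit 0) (nat_lit 5338004350) (nat_lit 1092)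 (nat_lit 6201544782) (nat_lit 1176) (nat_lit 7060121174) (nat_lit 115) (nat_lit 5) (nat_lit 128) (nat_lit 5) (nat_lit 129) (nat_lit 5) (nat_lit 339) (nat_lit 335) (nat_lit 190)) (XT.nd (nat_lit 94) (nat_lit 0) (nat_lit 84) (XT.lf (nat_lit 84) (nat_lit 1083400969) (nat_lit 0) (nat_lit 4738827015) (nat_lit 1176) (nat_lit 13070391132) (nat_lit 116) (nat_lit 5) (nat_lit 115) (nat_lit 5) (nat_lit 129) (nat_lit 5) (nat_lit 340) (nat_lit 335) (nat_lit 189)) (XT.lf (nat_lit 0) (nat_lit 6402689227) (nat_lit 1092) (nat_lit 10494511362) (nat_lit 1176) (nat_lit 2294955888) (nat_lit 116) (nat_lit 5) (nat_lit 129) (nat_lit 5) (nat_lit 130) (nat_lit 5) (nat_lit 341) (nat_lit 335) (nat_lit 188)))) (XT.nd (nat_lit 94) (nat_lit 0) (nat_lit 0) (XT.lf (nat_lit 0) (nat_lit 7043101226) (nat_lit 1092) (nat_lit 3005696646) (nat_lit 1176) (nat_lit 9450905382) (nat_lit 116) (nat_lit 5) (nat_lit 129) (nat_lit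 5) (nat_lit 130) (nat_lit 5) (nat_lit 342) (nat_lit 335) (nat_lit 187)) (XT.nd (nat_lit 94) (nat_lit 0) (nat_lit 84) (XT.lf (nat_lit 84) (nat_lit 4808088375) (nat_lit 0) (nat_lit 2936659620) (nat_lit 1176) (nat_lit 12070776818) (nat_lit 117) (nat_lit 5) (nat_lit 116) (nat_lit 5) (nat_lit 130) (nat_lit 5) (nat_lit 343) (nat_lit 335) (nat_lit 186)) (XT.lf (nat_lit 0) (nat_lit 8537304968) (nat_lit 1092) (nat_lit 7260523205) (nat_lit 1176) (nat_lit 4341187697) (nat_lit 117) (nat_lit 5) (nat_lit 130) (nat_lit 5) (nat_lit 131) (nat_lit 5) (nat_lit 344) (nat_lit 335) (nat_lit 185))))) (XT.nd (nat_lit 282) (nat_lit 0) (nat_lit 84) (XT.nd (nat_lit 94) (nat_lit 0) (nat_lit 0) (XT.lf (nat_lit 84) (nat_lit 706624335) (nat_lit 0) (nat_lit 8678893067) (nat_lit 1176) (nat_lit 11086076348) (nat_lit 118) (nat_lit 5) (nat_lit 117) (nat_lit 5) (nat_lit 131) (nat_lit 5) (nat_lit 345) (nat_lit 335) (nat_lit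 184)) (XT.nd (nat_lit 94) (nat_lit 0) (nat_lit 84) (XT.lf (nat_lit 84) (nat_lit 9070592665) (nat_lit 0) (nat_lit 1259396691) (nat_lit 1176) (nat_lit 10482344875) (nat_lit 118) (nat_lit 5) (nat_lit 117) (nat_lit 5) (nat_lit 131) (nat_lit 5) (nat_lit 346) (nat_lit 335) (nat_lit 183)) (XT.lf (nat_lit 0) (nat_lit 11361502269) (nat_lit 1092) (nat_lit 3537354351) (nat_lit 1176) (nat_lit 6263011369) (nat_lit 118) (nat_lit 5) (nat_lit 131) (nat_lit 5) (nat_lit 132) (nat_lit 5) (nat_lit 347) (nat_lit 335) (nat_lit 182)))) (XT.nd (nat_lit 94) (nat_lit 0) (nat_lit 84) (XT.lf (nat_lit 84) (nat_lit 5005288932) (nat_lit 0) (nat_lit 7476777835) (nat_lit 1176) (nat_lit 9038421534) (nat_lit 119) (nat_lit 5) (nat_lit 118) (nat_lit 5) (nat_lit 132) (nat_lit 5) (nat_lit 348) (nat_lit 335) (nat_lit 181)) (XT.nd (nat_lit 94) (nat_lit 0) (nat_lit 0) (XT.lf (nat_lit 0) (nat_lit 13671087529) (nat_lit 1092) (nat_lit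 8007656532) (nat_lit 1176) (nat_lit 210456212) (nat_lit 119) (nat_lit 5) (nat_lit 132) (nat_lit 5) (nat_lit 133) (nat_lit 5) (nat_lit 349) (nat_lit 335) (nat_lit 180)) (XT.lf (nat_lit 84) (nat_lit 697120019) (nat_lit 0) (nat_lit 14278071847) (nat_lit 1176) (nat_lit 7291744626) (nat_lit 120) (nat_lit 5) (nat_lit 119) (nat_lit 5) (nat_lit 133) (nat_lit 5) (nat_lit 350) (nat_lit 335) (nat_lit 179))))))) (XT.nd (nat_lit 1128) (nat_lit 2268) (nat_lit 0) (XT.nd (nat_lit 564) (nat_lit 1092) (nat_lit 0) (XT.nd (nat_lit 282) (nat_lit 588) (nat_lit 0) (XT.nd (nat_lit 94) (nat_lit 1008) (nat_lit 0) (XT.lf (nat_lit 84) (nat_lit 9837468337) (nat_lit 0) (nat_lit 6560792351) (nat_lit 1176) (nat_lit 6255705737) (nat_lit 120) (nat_lit 5) (nat_lit 119) (nat_lit 5) (nat_lit 133) (nat_lit 5) (nat_lit 351) (nat_lit 335) (nat_lit 178)) (XT.nd (nat_lit 94) (nat_lit 1092) (nat_lit 0) (XT.lf (nat_lit 0) (nat_lit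 17874405590) (nat_lit 1092) (nat_lit 3809765139) (nat_lit 84) (nat_lit 1368563753) (nat_lit 120) (nat_lit 5) (nat_lit 133) (nat_lit 5) (nat_lit 121) (nat_lit 5) (nat_lit 352) (nat_lit 335) (nat_lit 177)) (XT.lf (nat_lit 0) (nat_lit 5516245604) (nat_lit 1092) (nat_lit 13997150771) (nat_lit 1176) (nat_lit 3946855772) (nat_lit 107) (nat_lit 5) (nat_lit 120) (nat_lit 5) (nat_lit 121) (nat_lit 5) (nat_lit 353) (nat_lit 335) (nat_lit 176)))) (XT.nd (nat_lit 94) (nat_lit 588) (nat_lit 0) (XT.lf (nat_lit 0) (nat_lit 15208198379) (nat_lit 1092) (nat_lit 6030129189) (nat_lit 1176) (nat_lit 2641003130) (nat_lit 107) (nat_lit 5) (nat_lit 120) (nat_lit 5) (nat_lit 121) (nat_lit 5) (nat_lit 354) (nat_lit 335) (nat_lit 175)) (XT.nd (nat_lit 94) (nat_lit 84) (nat_lit 0) (XT.lf (nat_lit 0) (nat_lit 881319649) (nat_lit 504) (nat_lit 22161330734) (nat_lit 588) (nat_lit 1267963234) (nat_lit 101) (nat_lit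 5) (nat_lit 107) (nat_lit 5) (nat_lit 108) (nat_lit 5) (nat_lit 355) (nat_lit 335) (nat_lit 174)) (XT.lf (nat_lit 0) (nat_lit 293321934) (nat_lit 588) (nat_lit 13906844287) (nat_lit 84) (nat_lit 10550461795) (nat_lit 100) (nat_lit 5) (nat_lit 107) (nat_lit 5) (nat_lit 101) (nat_lit 5) (nat_lit 356) (nat_lit 335) (nat_lit 173))))) (XT.nd (nat_lit 282) (nat_lit 504) (nat_lit 0) (XT.nd (nat_lit 94) (nat_lit 588) (nat_lit 0) (XT.lf (nat_lit 0) (nat_lit 1872349356) (nat_lit 588) (nat_lit 4106085950) (nat_lit 84) (nat_lit 19225594405) (nat_lit 100) (nat_lit 5) (nat_lit 107) (nat_lit 5) (nat_lit 101) (nat_lit 5) (nat_lit 357) (nat_lit 335) (nat_lit 172)) (XT.nd (nat_lit 94) (nat_lit 0) (nat_lit 0) (XT.lf (nat_lit 0) (nat_lit 3582235107) (nat_lit 672) (nat_lit 19577198602) (nat_lit 84) (nat_lit 2509528511) (nat_lit 93) (nat_lit 5) (nat_lit 101) (nat_lit 5) (nat_lit 94) (nat_lit 5) (nat_lit 358)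 (nat_lit 335) (nat_lit 171)) (XT.lf (nat_lit 0) (nat_lit 5445472950) (nat_lit 672) (nat_lit 9519676532) (nat_lit 84) (nat_lit 11180061529) (nat_lit 93) (nat_lit 5) (nat_lit 101) (nat_lit 5) (nat_lit 94) (nat_lit 5) (nat_lit 359) (nat_lit 335) (nat_lit 170)))) (XT.nd (nat_lit 94) (nat_lit 0) (nat_lit 0) (XT.lf (nat_lit 0) (nat_lit 863231149) (nat_lit 504) (nat_lit 6507829410) (nat_lit 588) (nat_lit 19265034351) (nat_lit 87) (nat_lit 5) (nat_lit 93) (nat_lit 5) (nat_lit 94) (nat_lit 5) (nat_lit 360) (nat_lit 335) (nat_lit 169)) (XT.nd (nat_lit 94) (nat_lit 0) (nat_lit 0) (XT.lf (nat_lit 0) (nat_lit 9474773278) (nat_lit 588) (nat_lit 15396137729) (nat_lit 84) (nat_lit 2267627068) (nat_lit 87) (nat_lit 5) (nat_lit 94) (nat_lit 5) (nat_lit 88) (nat_lit 5) (nat_lit 361) (nat_lit 335) (nat_lit 168)) (XT.lf (nat_lit 0) (nat_lit 11706487549) (nat_lit 588) (nat_lit 4768062788) (nat_lit 84) (nat_lit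 11180073116) (nat_lit 87) (nat_lit 5) (nat_lit 94) (nat_lit 5) (nat_lit 88) (nat_lit 5) (nat_lit 362) (nat_lit 335) (nat_lit 167)))))) (XT.nd (nat_lit 564) (nat_lit 924) (nat_lit 0) (XT.nd (nat_lit 282) (nat_lit 420) (nat_lit 0) (XT.nd (nat_lit 94) (nat_lit 420) (nat_lit 0) (XT.lf (nat_lit 0) (nat_lit 6313019283) (nat_lit 504) (nat_lit 7753331742) (nat_lit 588) (nat_lit 14118540975) (nat_lit 81) (nat_lit 5) (nat_lit 87) (nat_lit 5) (nat_lit 88) (nat_lit 5) (nat_lit 363) (nat_lit 335) (nat_lit 166)) (XT.nd (nat_lit 94) (nat_lit 420) (nat_lit 0) (XT.lf (nat_lit 0) (nat_lit 16558345556) (nat_lit 588) (nat_lit 10907895634) (nat_lit 84) (nat_lit 1263541543) (nat_lit 81) (nat_lit 5) (nat_lit 88) (nat_lit 5) (nat_lit 82) (nat_lit 5) (nat_lit 364) (nat_lit 335) (nat_lit 165)) (XT.lf (nat_lit 0) (nat_lit 319473231) (nat_lit 420) (nat_lit 18887108004) (nat_lit 504) (nat_lit 10082546904) (nat_lit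 76) (nat_lit 5) (nat_lit 81) (nat_lit 5) (nat_lit 82) (nat_lit 5) (nat_lit 365) (nat_lit 335) (nat_lit 164)))) (XT.nd (nat_lit 94) (nat_lit 420) (nat_lit 0) (XT.lf (nat_lit 0) (nat_lit 12122539100) (nat_lit 420) (nat_lit 9924819877) (nat_lit 504) (nat_lit 7815041804) (nat_lit 76) (nat_lit 5) (nat_lit 81) (nat_lit 5) (nat_lit 82) (nat_lit 5) (nat_lit 366) (nat_lit 335) (nat_lit 163)) (XT.nd (nat_lit 94) (nat_lit 420) (nat_lit 0) (XT.lf (nat_lit 0) (nat_lit 24288014960) (nat_lit 420) (nat_lit 684879079) (nat_lit 504) (nat_lit 5480664383) (nat_lit 76) (nat_lit 5) (nat_lit 81) (nat_lit 5) (nat_lit 82) (nat_lit 5) (nat_lit 367) (nat_lit 335) (nat_lit 162)) (XT.lf (nat_lit 0) (nat_lit 5793099205) (nat_lit 420) (nat_lit 22337989440) (nat_lit 504) (nat_lit 2927563003) (nat_lit 71) (nat_lit 5) (nat_lit 76) (nat_lit 5) (nat_lit 77) (nat_lit 5) (nat_lit 368) (nat_lit 335) (nat_lit 161))))) (XT.nd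 (nat_lit 282) (nat_lit 420) (nat_lit 0) (XT.nd (nat_lit 94) (nat_lit 504) (nat_lit 0) (XT.lf (nat_lit 0) (nat_lit 18242563986) (nat_lit 420) (nat_lit 13212765867) (nat_lit 504) (nat_lit 225070874) (nat_lit 71) (nat_lit 5) (nat_lit 76) (nat_lit 5) (nat_lit 77) (nat_lit 5) (nat_lit 369) (nat_lit 335) (nat_lit 160)) (XT.nd (nat_lit 94) (nat_lit 420) (nat_lit 0) (XT.lf (nat_lit 0) (nat_lit 2506502757) (nat_lit 504) (nat_lit 1272292155) (nat_lit 84) (nat_lit 28541947145) (nat_lit 70) (nat_lit 5) (nat_lit 76) (nat_lit 5) (nat_lit 71) (nat_lit 5) (nat_lit 370) (nat_lit 335) (nat_lit 159)) (XT.lf (nat_lit 0) (nat_lit 5489313228) (nat_lit 504) (nat_lit 21541228678) (nat_lit 84) (nat_lit 5945021942) (nat_lit 65) (nat_lit 5) (nat_lit 71) (nat_lit 5) (nat_lit 66) (nat_lit 5) (nat_lit 371) (nat_lit 335) (nat_lit 158)))) (XT.nd (nat_lit 94) (nat_lit 420) (nat_lit 0) (XT.lf (nat_lit 0) (nat_lit 8613708854)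 (nat_lit 504) (nat_lit 9130600938) (nat_lit 84) (nat_lit 15904861854) (nat_lit 65) (nat_lit 5) (nat_lit 71) (nat_lit 5) (nat_lit 66) (nat_lit 5) (nat_lit 372) (nat_lit 335) (nat_lit 157)) (XT.nd (nat_lit 94) (nat_lit 0) (nat_lit 0) (XT.lf (nat_lit 0) (nat_lit 3736762050) (nat_lit 420) (nat_lit 8132410318) (nat_lit 504) (nat_lit 22473437268) (nat_lit 60) (nat_lit 5) (nat_lit 65) (nat_lit 5) (nat_lit 66) (nat_lit 5) (nat_lit 373) (nat_lit 335) (nat_lit 156)) (XT.lf (nat_lit 0) (nat_lit 15336659117) (nat_lit 504) (nat_lit 17879959438) (nat_lit 84) (nat_lit 1837490076) (nat_lit 60) (nat_lit 5) (nat_lit 66) (nat_lit 5) (nat_lit 61) (nat_lit 5) (nat_lit 374) (nat_lit 335) (nat_lit 155))))))))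
noncomputable def xc187 : XT := (XT.nd (nat_lit 2256) (nat_lit 924) (nat_lit 0) (XT.nd (nat_lit 1128) (nat_lit 1092) (nat_lit 0) (XT.nd (nat_lit 564) (nat_lit 672) (nat_lit 0) (XT.nd (nat_lit 282) (nat_lit 420) (nat_lit 0) (XT.nd (nat_lit 94) (nat_lit 336) (nat_lit 0) (XT.lf (nat_lit 0) (nat_lit 18992089587) (nat_lit 504) (nat_lit 4845983336) (nat_lit 84) (nat_lit 11947105553) (nat_lit 60) (nat_lit 5) (nat_lit 66) (nat_lit 5) (nat_lit 61) (nat_lit 5) (nat_lit 375) (nat_lit 335) (nat_lit 154)) (XT.nd (nat_lit 94) (nat_lit 0) (nat_lit 0) (XT.lf (nat_lit 0) (nat_lit 8765509752) (nat_lit 336) (nat_lit 14079641695) (nat_lit 420) (nat_lit 13691154469) (nat_lit 56) (nat_lit 5) (nat_lit 60) (nat_lit 5) (nat_lit 61) (nat_lit 5) (nat_lit 376) (nat_lit 335) (nat_lit 153)) (XT.lf (nat_lit 0) (nat_lit 22898581477) (nat_lit 336) (nat_lit 3967065566) (nat_lit 420) (nat_lit 10443591497) (nat_lit 56)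 (nat_lit 5) (nat_lit 60) (nat_lit 5) (nat_lit 61) (nat_lit 5) (nat_lit 377) (nat_lit 335) (nat_lit 152)))) (XT.nd (nat_lit 94) (nat_lit 420) (nat_lit 0) (XT.lf (nat_lit 0) (nat_lit 31072331780) (nat_lit 420) (nat_lit 703524833) (nat_lit 84) (nat_lit 6328374947) (nat_lit 56) (nat_lit 5) (nat_lit 61) (nat_lit 5) (nat_lit 57) (nat_lit 5) (nat_lit 378) (nat_lit 335) (nat_lit 151)) (XT.nd (nat_lit 94) (nat_lit 84) (nat_lit 0) (XT.lf (nat_lit 0) (nat_lit 13660172815) (nat_lit 336) (nat_lit 21922890757) (nat_lit 420) (nat_lit 3335430377) (nat_lit 52) (nat_lit 5) (nat_lit 56) (nat_lit 5) (nat_lit 57) (nat_lit 5) (nat_lit 379) (nat_lit 335) (nat_lit 150)) (XT.lf (nat_lit 0) (nat_lit 471033037) (nat_lit 420) (nat_lit 11281535342) (nat_lit 84) (nat_lit 28005136231) (nat_lit 51) (nat_lit 5) (nat_lit 56) (nat_lit 5) (nat_lit 52) (nat_lit 5) (nat_lit 380) (nat_lit 335) (nat_lit 149))))) (XT.nd (nat_lit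 282) (nat_lit 336) (nat_lit 0) (XT.nd (nat_lit 94) (nat_lit 0) (nat_lit 0) (XT.lf (nat_lit 0) (nat_lit 3155044897) (nat_lit 336) (nat_lit 1200106623) (nat_lit 420) (nat_lit 36265831408) (nat_lit 47) (nat_lit 5) (nat_lit 51) (nat_lit 5) (nat_lit 52) (nat_lit 5) (nat_lit 381) (nat_lit 335) (nat_lit 148)) (XT.nd (nat_lit 94) (nat_lit 0) (nat_lit 0) (XT.lf (nat_lit 0) (nat_lit 8572336979) (nat_lit 420) (nat_lit 23329258895) (nat_lit 84) (nat_lit 9602841129) (nat_lit 47) (nat_lit 5) (nat_lit 52) (nat_lit 5) (nat_lit 48) (nat_lit 5) (nat_lit 382) (nat_lit 335) (nat_lit 147)) (XT.lf (nat_lit 0) (nat_lit 12930276485) (nat_lit 420) (nat_lit 8769509487) (nat_lit 84) (nat_lit 20715187892) (nat_lit 47) (nat_lit 5) (nat_lit 52) (nat_lit 5) (nat_lit 48) (nat_lit 5) (nat_lit 383) (nat_lit 335) (nat_lit 146)))) (XT.nd (nat_lit 94) (nat_lit 0) (nat_lit 0) (XT.lf (nat_lit 0) (nat_lit 6367068857) (nat_lit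 336) (nat_lit 11117220142) (nat_lit 420) (nat_lit 25867564264) (nat_lit 43) (nat_lit 5) (nat_lit 47) (nat_lit 5) (nat_lit 48) (nat_lit 5) (nat_lit 384) (nat_lit 335) (nat_lit 145)) (XT.nd (nat_lit 94) (nat_lit 0) (nat_lit 0) (XT.lf (nat_lit 0) (nat_lit 22156012985) (nat_lit 336) (nat_lit 112851539) (nat_lit 420) (nat_lit 22046146347) (nat_lit 43) (nat_lit 5) (nat_lit 47) (nat_lit 5) (nat_lit 48) (nat_lit 5) (nat_lit 385) (nat_lit 335) (nat_lit 144)) (XT.lf (nat_lit 0) (nat_lit 27311102616) (nat_lit 420) (nat_lit 6987799230) (nat_lit 84) (nat_lit 11005740766) (nat_lit 43) (nat_lit 5) (nat_lit 48) (nat_lit 5) (nat_lit 44) (nat_lit 5) (nat_lit 386) (nat_lit 335) (nat_lit 143)))))) (XT.nd (nat_lit 564) (nat_lit 504) (nat_lit 0) (XT.nd (nat_lit 282) (nat_lit 336) (nat_lit 0) (XT.nd (nat_lit 94) (nat_lit 0) (nat_lit 0) (XT.lf (nat_lit 0) (nat_lit 8827736577) (nat_lit 252) (nat_lit 23768614181)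 (nat_lit 336) (nat_lit 13725920098) (nat_lit 40) (nat_lit 5) (nat_lit 43) (nat_lit 5) (nat_lit 44) (nat_lit 5) (nat_lit 387) (nat_lit 335) (nat_lit 142)) (XT.nd (nat_lit 94) (nat_lit 0) (nat_lit 0) (XT.lf (nat_lit 0) (nat_lit 25279043730) (nat_lit 252) (nat_lit 12837345020) (nat_lit 336) (nat_lit 9252862932) (nat_lit 40) (nat_lit 5) (nat_lit 43) (nat_lit 5) (nat_lit 44) (nat_lit 5) (nat_lit 388) (nat_lit 335) (nat_lit 141)) (XT.lf (nat_lit 0) (nat_lit 42237773086) (nat_lit 252) (nat_lit 1567843569) (nat_lit 336) (nat_lit 4643137431) (nat_lit 40) (nat_lit 5) (nat_lit 43) (nat_lit 5) (nat_lit 44) (nat_lit 5) (nat_lit 389) (nat_lit 335) (nat_lit 140)))) (XT.nd (nat_lit 94) (nat_lit 0) (nat_lit 0) (XT.lf (nat_lit 0) (nat_lit 308979261) (nat_lit 336) (nat_lit 39293600232) (nat_lit 84) (nat_lit 9952860325) (nat_lit 36) (nat_lit 5) (nat_lit 40) (nat_lit 5) (nat_lit 37) (nat_lit 5) (nat_lit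 390) (nat_lit 335) (nat_lit 139)) (XT.nd (nat_lit 94) (nat_lit 0) (nat_lit 0) (XT.lf (nat_lit 0) (nat_lit 5397819368) (nat_lit 336) (nat_lit 23384188422) (nat_lit 84) (nat_lit 21910488360) (nat_lit 36) (nat_lit 5) (nat_lit 40) (nat_lit 5) (nat_lit 37) (nat_lit 5) (nat_lit 391) (nat_lit 335) (nat_lit 138)) (XT.lf (nat_lit 0) (nat_lit 10642598166) (nat_lit 336) (nat_lit 6984073406) (nat_lit 84) (nat_lit 34238190627) (nat_lit 36) (nat_lit 5) (nat_lit 40) (nat_lit 5) (nat_lit 37) (nat_lit 5) (nat_lit 392) (nat_lit 335) (nat_lit 137))))) (XT.nd (nat_lit 282) (nat_lit 252) (nat_lit 0) (XT.nd (nat_lit 94) (nat_lit 0) (nat_lit 0) (XT.lf (nat_lit 0) (nat_lit 10126048756) (nat_lit 252) (nat_lit 6022607239) (nat_lit 336) (nat_lit 36921860738) (nat_lit 33) (nat_lit 5) (nat_lit 36) (nat_lit 5) (nat_lit 37) (nat_lit 5) (nat_lit 393) (nat_lit 335) (nat_lit 136)) (XT.nd (nat_lit 94) (nat_lit 0) (nat_lit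 0) (XT.lf (nat_lit 0) (nat_lit 21956245826) (nat_lit 336) (nat_lit 26458767009) (nat_lit 84) (nat_lit 5894481966) (nat_lit 33) (nat_lit 5) (nat_lit 37) (nat_lit 5) (nat_lit 34) (nat_lit 5) (nat_lit 394) (nat_lit 335) (nat_lit 135)) (XT.lf (nat_lit 0) (nat_lit 28003782253) (nat_lit 336) (nat_lit 9525973889) (nat_lit 84) (nat_lit 18055272081) (nat_lit 33) (nat_lit 5) (nat_lit 37) (nat_lit 5) (nat_lit 34) (nat_lit 5) (nat_lit 395) (nat_lit 335) (nat_lit 134)))) (XT.nd (nat_lit 94) (nat_lit 0) (nat_lit 0) (XT.lf (nat_lit 0) (nat_lit 8092485067) (nat_lit 252) (nat_lit 26224950589) (nat_lit 336) (nat_lit 22580233734) (nat_lit 30) (nat_lit 5) (nat_lit 33) (nat_lit 5) (nat_lit 34) (nat_lit 5) (nat_lit 396) (nat_lit 335) (nat_lit 133)) (XT.nd (nat_lit 94) (nat_lit 0) (nat_lit 0) (XT.lf (nat_lit 0) (nat_lit 26456788852) (nat_lit 252) (nat_lit 14467846604) (nat_lit 336) (nat_lit 17323338492) (nat_lit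 30) (nat_lit 5) (nat_lit 33) (nat_lit 5) (nat_lit 34) (nat_lit 5) (nat_lit 397) (nat_lit 335) (nat_lit 132)) (XT.lf (nat_lit 0) (nat_lit 45388181358) (nat_lit 252) (nat_lit 2346916964) (nat_lit 336) (nat_lit 11905091897) (nat_lit 30) (nat_lit 5) (nat_lit 33) (nat_lit 5) (nat_lit 34) (nat_lit 5) (nat_lit 398) (nat_lit 335) (nat_lit 131))))))) (XT.nd (nat_lit 1128) (nat_lit 84) (nat_lit 0) (XT.nd (nat_lit 564) (nat_lit 336) (nat_lit 0) (XT.nd (nat_lit 282) (nat_lit 252) (nat_lit 0) (XT.nd (nat_lit 94) (nat_lit 84) (nat_lit 0) (XT.lf (nat_lit 0) (nat_lit 3804667617) (nat_lit 168) (nat_lit 51088928166) (nat_lit 252) (nat_lit 6177728984) (nat_lit 28) (nat_lit 5) (nat_lit 30) (nat_lit 5) (nat_lit 31) (nat_lit 5) (nat_lit 399) (nat_lit 335) (nat_lit 130)) (XT.nd (nat_lit 94) (nat_lit 84) (nat_lit 0) (XT.lf (nat_lit 0) (nat_lit 22696578361) (nat_lit 168) (nat_lit 39748455304) (nat_lit 252) (nat_lit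 96492661) (nat_lit 28) (nat_lit 5) (nat_lit 30) (nat_lit 5) (nat_lit 31) (nat_lit 5) (nat_lit 400) (nat_lit 335) (nat_lit 129)) (XT.lf (nat_lit 0) (nat_lit 6047415977) (nat_lit 252) (nat_lit 21946534808) (nat_lit 84) (nat_lit 36061503908) (nat_lit 27) (nat_lit 5) (nat_lit 30) (nat_lit 5) (nat_lit 28) (nat_lit 5) (nat_lit 401) (nat_lit 335) (nat_lit 128)))) (XT.nd (nat_lit 94) (nat_lit 252) (nat_lit 0) (XT.lf (nat_lit 0) (nat_lit 12378357021) (nat_lit 252) (nat_lit 3496323194) (nat_lit 84) (nat_lit 49741651541) (nat_lit 27) (nat_lit 5) (nat_lit 30) (nat_lit 5) (nat_lit 28) (nat_lit 5) (nat_lit 402) (nat_lit 335) (nat_lit 127)) (XT.nd (nat_lit 94) (nat_lit 0) (nat_lit 0) (XT.lf (nat_lit 0) (nat_lit 15843043647) (nat_lit 252) (nat_lit 3218296990) (nat_lit 336) (nat_lit 48159429341) (nat_lit 24) (nat_lit 5) (nat_lit 27) (nat_lit 5) (nat_lit 28) (nat_lit 5) (nat_lit 403) (nat_lit 335) (nat_lit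 126)) (XT.lf (nat_lit 0) (nat_lit 26084517694) (nat_lit 336) (nat_lit 33117677953) (nat_lit 84) (nat_lit 9668629643) (nat_lit 24) (nat_lit 5) (nat_lit 28) (nat_lit 5) (nat_lit 25) (nat_lit 5) (nat_lit 404) (nat_lit 335) (nat_lit 125))))) (XT.nd (nat_lit 282) (nat_lit 168) (nat_lit 0) (XT.nd (nat_lit 94) (nat_lit 168) (nat_lit 0) (XT.lf (nat_lit 0) (nat_lit 33357004045) (nat_lit 336) (nat_lit 14326445075) (nat_lit 84) (nat_lit 22887606944) (nat_lit 24) (nat_lit 5) (nat_lit 28) (nat_lit 5) (nat_lit 25) (nat_lit 5) (nat_lit 405) (nat_lit 335) (nat_lit 124)) (XT.nd (nat_lit 94) (nat_lit 0) (nat_lit 0) (XT.lf (nat_lit 0) (nat_lit 5149157655) (nat_lit 168) (nat_lit 35755575132) (nat_lit 252) (nat_lit 31417720521) (nat_lit 22) (nat_lit 5) (nat_lit 24) (nat_lit 5) (nat_lit 25) (nat_lit 5) (nat_lit 406) (nat_lit 335) (nat_lit 123)) (XT.lf (nat_lit 0) (nat_lit 25530334020) (nat_lit 168) (nat_lit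 23304380790) (nat_lit 252) (nat_lit 25288835451) (nat_lit 22) (nat_lit 5) (nat_lit 24) (nat_lit 5) (nat_lit 25) (nat_lit 5) (nat_lit 407) (nat_lit 335) (nat_lit 122)))) (XT.nd (nat_lit 94) (nat_lit 168) (nat_lit 0) (XT.lf (nat_lit 0) (nat_lit 46541500319) (nat_lit 168) (nat_lit 10467798982) (nat_lit 252) (nat_lit 18971222749) (nat_lit 22) (nat_lit 5) (nat_lit 24) (nat_lit 5) (nat_lit 25) (nat_lit 5) (nat_lit 408) (nat_lit 335) (nat_lit 121)) (XT.nd (nat_lit 94) (nat_lit 168) (nat_lit 0) (XT.lf (nat_lit 0) (nat_lit 65463546232) (nat_lit 252) (nat_lit 9720298815) (nat_lit 84) (nat_lit 2710403868) (nat_lit 22) (nat_lit 5) (nat_lit 25) (nat_lit 5) (nat_lit 23) (nat_lit 5) (nat_lit 409) (nat_lit 335) (nat_lit 120)) (XT.lf (nat_lit 0) (nat_lit 10716812275) (nat_lit 168) (nat_lit 63675275710) (nat_lit 252) (nat_lit 5468637346) (nat_lit 20) (nat_lit 5) (nat_lit 22) (nat_lit 5) (nat_lit 23) (nat_lit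 5) (nat_lit 410) (nat_lit 335) (nat_lit 119)))))) (XT.nd (nat_lit 47564) (nat_lit 0) (nat_lit 8064) (XT.nd (nat_lit 47282) (nat_lit 0) (nat_lit 7980) (XT.nd (nat_lit 94) (nat_lit 0) (nat_lit 0) (XT.lf (nat_lit 0) (nat_lit 1776155681) (nat_lit 252) (nat_lit 49911231593) (nat_lit 84) (nat_lit 30197110499) (nat_lit 19) (nat_lit 5) (nat_lit 22) (nat_lit 5) (nat_lit 20) (nat_lit 5) (nat_lit 411) (nat_lit 335) (nat_lit 118)) (XT.nd (nat_lit 47094) (nat_lit 0) (nat_lit 7980) (XT.lf (nat_lit 0) (nat_lit 9130819206) (nat_lit 252) (nat_lit 30139975074) (nat_lit 84) (nat_lit 44698516181) (nat_lit 19) (nat_lit 5) (nat_lit 22) (nat_lit 5) (nat_lit 20) (nat_lit 5) (nat_lit 412) (nat_lit 335) (nat_lit 117)) (XT.lf (nat_lit 0) (nat_lit 1094949198) (nat_lit 0) (nat_lit 1094949198) (nat_lit 1092) (nat_lit 6826387025) (nat_lit 114) (nat_lit 5) (nat_lit 114) (nat_lit 3) (nat_lit 127) (nat_lit 3) (nat_lit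 336) (nat_lit 336) (nat_lit 192)))) (XT.nd (nat_lit 94) (nat_lit 0) (nat_lit 0) (XT.lf (nat_lit 0) (nat_lit 4672099720) (nat_lit 1092) (nat_lit 8989748974) (nat_lit 1176) (nat_lit 4642606277) (nat_lit 114) (nat_lit 5) (nat_lit 127) (nat_lit 3) (nat_lit 128) (nat_lit 5) (nat_lit 337) (nat_lit 336) (nat_lit 191)) (XT.nd (nat_lit 94) (nat_lit 0) (nat_lit 84) (XT.lf (nat_lit 0) (nat_lit 4988748016) (nat_lit 1092) (nat_lit 1950640704) (nat_lit 1176) (nat_lit 11644931732) (nat_lit 114) (nat_lit 5) (nat_lit 127) (nat_lit 3) (nat_lit 128) (nat_lit 5) (nat_lit 338) (nat_lit 336) (nat_lit 190)) (XT.lf (nat_lit 0) (nat_lit 5362496026) (nat_lit 1092) (nat_lit 13459956172) (nat_lit 1176) (nat_lit 48969717) (nat_lit 115) (nat_lit 5) (nat_lit 128) (nat_lit 5) (nat_lit 129) (nat_lit 5) (nat_lit 339) (nat_lit 336) (nat_lit 189))))) (XT.nd (nat_lit 282) (nat_lit 0) (nat_lit 84) (XT.nd (nat_lit 94) (nat_lit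 0) (nat_lit 0) (XT.lf (nat_lit 0) (nat_lit 5832673850) (nat_lit 1092) (nat_lit 6198792345) (nat_lit 1176) (nat_lit 7133352341) (nat_lit 115) (nat_lit 5) (nat_lit 128) (nat_lit 5) (nat_lit 129) (nat_lit 5) (nat_lit 340) (nat_lit 336) (nat_lit 188)) (XT.nd (nat_lit 94) (nat_lit 0) (nat_lit 84) (XT.lf (nat_lit 84) (nat_lit 1310012521) (nat_lit 0) (nat_lit 5013912648) (nat_lit 1176) (nat_lit 13143208254) (nat_lit 116) (nat_lit 5) (nat_lit 115) (nat_lit 5) (nat_lit 129) (nat_lit 5) (nat_lit 341) (nat_lit 336) (nat_lit 187)) (XT.lf (nat_lit 0) (nat_lit 6911489310) (nat_lit 1092) (nat_lit 10620564212) (nat_lit 1176) (nat_lit 2244276618) (nat_lit 116) (nat_lit 5) (nat_lit 129) (nat_lit 5) (nat_lit 130) (nat_lit 5) (nat_lit 342) (nat_lit 336) (nat_lit 186)))) (XT.nd (nat_lit 94) (nat_lit 0) (nat_lit 0) (XT.lf (nat_lit 0) (nat_lit 7562423511) (nat_lit 1092) (nat_lit 2905588080) (nat_lit 1176)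 (nat_lit 9625723503) (nat_lit 116) (nat_lit 5) (nat_lit 129) (nat_lit 5) (nat_lit 130) (nat_lit 5) (nat_lit 343) (nat_lit 336) (nat_lit 185)) (XT.nd (nat_lit 94) (nat_lit 0) (nat_lit 84) (XT.lf (nat_lit 84) (nat_lit 5148467438) (nat_lit 0) (nat_lit 3130201873) (nat_lit 1176) (nat_lit 12140933453) (nat_lit 117) (nat_lit 5) (nat_lit 116) (nat_lit 5) (nat_lit 130) (nat_lit 5) (nat_lit 344) (nat_lit 336) (nat_lit 184)) (XT.lf (nat_lit 0) (nat_lit 9085974281) (nat_lit 1092) (nat_lit 7289141118) (nat_lit 1176) (nat_lit 4378344010) (nat_lit 117) (nat_lit 5) (nat_lit 130) (nat_lit 5) (nat_lit 131) (nat_lit 5) (nat_lit 345) (nat_lit 336) (nat_lit 183))))))))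
noncomputable def xc188 : XT := (XT.nd (nat_lit 2256) (nat_lit 2940) (nat_lit 0) (XT.nd (nat_lit 1128) (nat_lit 2436) (nat_lit 0) (XT.nd (nat_lit 564) (nat_lit 1428) (nat_lit 0) (XT.nd (nat_lit 282) (nat_lit 0) (nat_lit 84) (XT.nd (nat_lit 94) (nat_lit 0) (nat_lit 0) (XT.lf (nat_lit 84) (nat_lit 922999031) (nat_lit 0) (nat_lit 9030871759) (nat_lit 1176) (nat_lit 11142713257) (nat_lit 118) (nat_lit 5) (nat_lit 117) (nat_lit 5) (nat_lit 131) (nat_lit 5) (nat_lit 346) (nat_lit 336) (nat_lit 182)) (XT.nd (nat_lit 94) (nat_lit 0) (nat_lit 84) (XT.lf (nat_lit 84) (nat_lit 9540403096) (nat_lit 0) (nat_lit 1378877375) (nat_lit 1176) (nat_lit 10528896541) (nat_lit 118) (nat_lit 5) (nat_lit 117) (nat_lit 5) (nat_lit 131) (nat_lit 5) (nat_lit 347) (nat_lit 336) (nat_lit 181)) (XT.lf (nat_lit 0) (nat_lit 11973906198) (nat_lit 1092) (nat_lit 3454229012) (nat_lit 1176) (nat_lit 6380715922) (nat_lit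 118) (nat_lit 5) (nat_lit 131) (nat_lit 5) (nat_lit 132) (nat_lit 5) (nat_lit 348) (nat_lit 336) (nat_lit 180)))) (XT.nd (nat_lit 94) (nat_lit 0) (nat_lit 84) (XT.lf (nat_lit 84) (nat_lit 5351284455) (nat_lit 0) (nat_lit 7771993226) (nat_lit 1176) (nat_lit 9055523963) (nat_lit 119) (nat_lit 5) (nat_lit 118) (nat_lit 5) (nat_lit 132) (nat_lit 5) (nat_lit 349) (nat_lit 336) (nat_lit 179)) (XT.nd (nat_lit 94) (nat_lit 0) (nat_lit 0) (XT.lf (nat_lit 0) (nat_lit 14340902453) (nat_lit 1092) (nat_lit 8061633315) (nat_lit 1176) (nat_lit 156692093) (nat_lit 119) (nat_lit 5) (nat_lit 132) (nat_lit 5) (nat_lit 133) (nat_lit 5) (nat_lit 350) (nat_lit 336) (nat_lit 178)) (XT.lf (nat_lit 84) (nat_lit 911024595) (nat_lit 0) (nat_lit 14768919969) (nat_lit 1176) (nat_lit 7268926912) (nat_lit 120) (nat_lit 5) (nat_lit 119) (nat_lit 5) (nat_lit 133) (nat_lit 5) (nat_lit 351) (nat_lit 336) (nat_lit 177)))))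 (XT.nd (nat_lit 282) (nat_lit 588) (nat_lit 0) (XT.nd (nat_lit 94) (nat_lit 1008) (nat_lit 0) (XT.lf (nat_lit 84) (nat_lit 10328941840) (nat_lit 0) (nat_lit 6810954697) (nat_lit 1176) (nat_lit 6208253568) (nat_lit 120) (nat_lit 5) (nat_lit 119) (nat_lit 5) (nat_lit 133) (nat_lit 5) (nat_lit 352) (nat_lit 336) (nat_lit 176)) (XT.nd (nat_lit 94) (nat_lit 1092) (nat_lit 0) (XT.lf (nat_lit 0) (nat_lit 18654337310) (nat_lit 1092) (nat_lit 3738667757) (nat_lit 84) (nat_lit 1366532085) (nat_lit 120) (nat_lit 5) (nat_lit 133) (nat_lit 5) (nat_lit 121) (nat_lit 5) (nat_lit 353) (nat_lit 336) (nat_lit 175)) (XT.lf (nat_lit 0) (nat_lit 5874533839) (nat_lit 1092) (nat_lit 14464670770) (nat_lit 1176) (nat_lit 3840661156) (nat_lit 107) (nat_lit 5) (nat_lit 120) (nat_lit 5) (nat_lit 121) (nat_lit 5) (nat_lit 354) (nat_lit 336) (nat_lit 174)))) (XT.nd (nat_lit 94) (nat_lit 588) (nat_lit 0) (XT.lf (nat_lit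 0) (nat_lit 15861305895) (nat_lit 1092) (nat_lit 6249660988) (nat_lit 1176) (nat_lit 2501199014) (nat_lit 107) (nat_lit 5) (nat_lit 120) (nat_lit 5) (nat_lit 121) (nat_lit 5) (nat_lit 355) (nat_lit 336) (nat_lit 173)) (XT.nd (nat_lit 94) (nat_lit 84) (nat_lit 0) (XT.lf (nat_lit 0) (nat_lit 1096123839) (nat_lit 504) (nat_lit 22870203990) (nat_lit 588) (nat_lit 1090666049) (nat_lit 101) (nat_lit 5) (nat_lit 107) (nat_lit 5) (nat_lit 108) (nat_lit 5) (nat_lit 356) (nat_lit 336) (nat_lit 172)) (XT.lf (nat_lit 0) (nat_lit 508273261) (nat_lit 588) (nat_lit 14151163733) (nat_lit 84) (nat_lit 10851365077) (nat_lit 100) (nat_lit 5) (nat_lit 107) (nat_lit 5) (nat_lit 101) (nat_lit 5) (nat_lit 357) (nat_lit 336) (nat_lit 171)))))) (XT.nd (nat_lit 564) (nat_lit 1344) (nat_lit 0) (XT.nd (nat_lit 282) (nat_lit 504) (nat_lit 0) (XT.nd (nat_lit 94) (nat_lit 588) (nat_lit 0) (XT.lf (nat_lit 0) (nat_lit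 2130060806) (nat_lit 588) (nat_lit 4052198351) (nat_lit 84) (nat_lit 19796213405) (nat_lit 100) (nat_lit 5) (nat_lit 107) (nat_lit 5) (nat_lit 101) (nat_lit 5) (nat_lit 358) (nat_lit 336) (nat_lit 170)) (XT.nd (nat_lit 94) (nat_lit 0) (nat_lit 0) (XT.lf (nat_lit 0) (nat_lit 3888568761) (nat_lit 672) (nat_lit 19997859716) (nat_lit 84) (nat_lit 2571546232) (nat_lit 93) (nat_lit 5) (nat_lit 101) (nat_lit 5) (nat_lit 94) (nat_lit 5) (nat_lit 359) (nat_lit 336) (nat_lit 169)) (XT.lf (nat_lit 0) (nat_lit 5803695187) (nat_lit 672) (nat_lit 9634154067) (nat_lit 84) (nat_lit 11511340175) (nat_lit 93) (nat_lit 5) (nat_lit 101) (nat_lit 5) (nat_lit 94) (nat_lit 5) (nat_lit 360) (nat_lit 336) (nat_lit 168)))) (XT.nd (nat_lit 94) (nat_lit 0) (nat_lit 0) (XT.lf (nat_lit 0) (nat_lit 1068795011) (nat_lit 504) (nat_lit 6716259518) (nat_lit 588) (nat_lit 19670377350) (nat_lit 87) (nat_lit 5) (nat_lit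 93) (nat_lit 5) (nat_lit 94) (nat_lit 5) (nat_lit 361) (nat_lit 336) (nat_lit 167)) (XT.nd (nat_lit 94) (nat_lit 0) (nat_lit 0) (XT.lf (nat_lit 0) (nat_lit 9948340671) (nat_lit 588) (nat_lit 15693736128) (nat_lit 84) (nat_lit 2331567871) (nat_lit 87) (nat_lit 5) (nat_lit 94) (nat_lit 5) (nat_lit 88) (nat_lit 5) (nat_lit 362) (nat_lit 336) (nat_lit 166)) (XT.lf (nat_lit 0) (nat_lit 12243830391) (nat_lit 588) (nat_lit 4741593519) (nat_lit 84) (nat_lit 11520490847) (nat_lit 87) (nat_lit 5) (nat_lit 94) (nat_lit 5) (nat_lit 88) (nat_lit 5) (nat_lit 363) (nat_lit 336) (nat_lit 165))))) (XT.nd (nat_lit 282) (nat_lit 420) (nat_lit 0) (XT.nd (nat_lit 94) (nat_lit 420) (nat_lit 0) (XT.lf (nat_lit 0) (nat_lit 6681237675) (nat_lit 504) (nat_lit 7992078231) (nat_lit 588) (nat_lit 14379433138) (nat_lit 81) (nat_lit 5) (nat_lit 87) (nat_lit 5) (nat_lit 88) (nat_lit 5) (nat_lit 364) (nat_lit 336) (nat_lit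 164)) (XT.nd (nat_lit 94) (nat_lit 420) (nat_lit 0) (XT.lf (nat_lit 0) (nat_lit 17237438885) (nat_lit 588) (nat_lit 11073030250) (nat_lit 84) (nat_lit 1304238412) (nat_lit 81) (nat_lit 5) (nat_lit 88) (nat_lit 5) (nat_lit 82) (nat_lit 5) (nat_lit 365) (nat_lit 336) (nat_lit 163)) (XT.lf (nat_lit 0) (nat_lit 500635477) (nat_lit 420) (nat_lit 19463848505) (nat_lit 504) (nat_lit 10227027354) (nat_lit 76) (nat_lit 5) (nat_lit 81) (nat_lit 5) (nat_lit 82) (nat_lit 5) (nat_lit 366) (nat_lit 336) (nat_lit 162)))) (XT.nd (nat_lit 94) (nat_lit 420) (nat_lit 0) (XT.lf (nat_lit 0) (nat_lit 12664447003) (nat_lit 420) (nat_lit 10223992837) (nat_lit 504) (nat_lit 7894283363) (nat_lit 76) (nat_lit 5) (nat_lit 81) (nat_lit 5) (nat_lit 82) (nat_lit 5) (nat_lit 367) (nat_lit 336) (nat_lit 161)) (XT.nd (nat_lit 94) (nat_lit 420) (nat_lit 0) (XT.lf (nat_lit 0) (nat_lit 25202058061) (nat_lit 420) (nat_lit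 697869345) (nat_lit 504) (nat_lit 5492442053) (nat_lit 76) (nat_lit 5) (nat_lit 81) (nat_lit 5) (nat_lit 82) (nat_lit 5) (nat_lit 368) (nat_lit 336) (nat_lit 160)) (XT.lf (nat_lit 0) (nat_lit 6137283984) (nat_lit 420) (nat_lit 23015857604) (nat_lit 504) (nat_lit 2863183745) (nat_lit 71) (nat_lit 5) (nat_lit 76) (nat_lit 5) (nat_lit 77) (nat_lit 5) (nat_lit 369) (nat_lit 336) (nat_lit 159))))))) (XT.nd (nat_lit 1128) (nat_lit 1260) (nat_lit 0) (XT.nd (nat_lit 564) (nat_lit 756) (nat_lit 0) (XT.nd (nat_lit 282) (nat_lit 420) (nat_lit 0) (XT.nd (nat_lit 94) (nat_lit 504) (nat_lit 0) (XT.lf (nat_lit 0) (nat_lit 18967733036) (nat_lit 420) (nat_lit 13608191377) (nat_lit 504) (nat_lit 81578904) (nat_lit 71) (nat_lit 5) (nat_lit 76) (nat_lit 5) (nat_lit 77) (nat_lit 5) (nat_lit 370) (nat_lit 336) (nat_lit 158)) (XT.nd (nat_lit 94) (nat_lit 420) (nat_lit 0) (XT.lf (nat_lit 0) (nat_lit 2727208754)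 (nat_lit 504) (nat_lit 1153491965) (nat_lit 84) (nat_lit 29437099661) (nat_lit 70) (nat_lit 5) (nat_lit 76) (nat_lit 5) (nat_lit 71) (nat_lit 5) (nat_lit 371) (nat_lit 336) (nat_lit 157)) (XT.lf (nat_lit 0) (nat_lit 5799902888) (nat_lit 504) (nat_lit 22047744091) (nat_lit 84) (nat_lit 6145368332) (nat_lit 65) (nat_lit 5) (nat_lit 71) (nat_lit 5) (nat_lit 66) (nat_lit 5) (nat_lit 372) (nat_lit 336) (nat_lit 156)))) (XT.nd (nat_lit 94) (nat_lit 420) (nat_lit 0) (XT.lf (nat_lit 0) (nat_lit 9016932616) (nat_lit 504) (nat_lit 9257235721) (nat_lit 84) (nat_lit 16413480670) (nat_lit 65) (nat_lit 5) (nat_lit 71) (nat_lit 5) (nat_lit 66) (nat_lit 5) (nat_lit 373) (nat_lit 336) (nat_lit 155)) (XT.nd (nat_lit 94) (nat_lit 0) (nat_lit 0) (XT.lf (nat_lit 0) (nat_lit 4007431971) (nat_lit 420) (nat_lit 8363324254) (nat_lit 504) (nat_lit 23031919461) (nat_lit 60) (nat_lit 5) (nat_lit 65) (nat_lit 5)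 (nat_lit 66) (nat_lit 5) (nat_lit 374) (nat_lit 336) (nat_lit 154)) (XT.lf (nat_lit 0) (nat_lit 15941920697) (nat_lit 504) (nat_lit 18279849304) (nat_lit 84) (nat_lit 1914591781) (nat_lit 60) (nat_lit 5) (nat_lit 66) (nat_lit 5) (nat_lit 61) (nat_lit 5) (nat_lit 375) (nat_lit 336) (nat_lit 153))))) (XT.nd (nat_lit 282) (nat_lit 420) (nat_lit 0) (XT.nd (nat_lit 94) (nat_lit 336) (nat_lit 0) (XT.lf (nat_lit 0) (nat_lit 19706765943) (nat_lit 504) (nat_lit 4846462092) (nat_lit 84) (nat_lit 12336999785) (nat_lit 60) (nat_lit 5) (nat_lit 66) (nat_lit 5) (nat_lit 61) (nat_lit 5) (nat_lit 376) (nat_lit 336) (nat_lit 152)) (XT.nd (nat_lit 94) (nat_lit 0) (nat_lit 0) (XT.lf (nat_lit 0) (nat_lit 9185471231) (nat_lit 336) (nat_lit 14491485760) (nat_lit 420) (nat_lit 13987766662) (nat_lit 56) (nat_lit 5) (nat_lit 60) (nat_lit 5) (nat_lit 61) (nat_lit 5) (nat_lit 377) (nat_lit 336) (nat_lit 151))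 (XT.lf (nat_lit 0) (nat_lit 23752211194) (nat_lit 336) (nat_lit 4066160188) (nat_lit 420) (nat_lit 10643372325) (nat_lit 56) (nat_lit 5) (nat_lit 60) (nat_lit 5) (nat_lit 61) (nat_lit 5) (nat_lit 378) (nat_lit 336) (nat_lit 150)))) (XT.nd (nat_lit 94) (nat_lit 420) (nat_lit 0) (XT.lf (nat_lit 0) (nat_lit 32152088341) (nat_lit 420) (nat_lit 582154681) (nat_lit 84) (nat_lit 6547254079) (nat_lit 56) (nat_lit 5) (nat_lit 61) (nat_lit 5) (nat_lit 57) (nat_lit 5) (nat_lit 379) (nat_lit 336) (nat_lit 149)) (XT.nd (nat_lit 94) (nat_lit 84) (nat_lit 0) (XT.lf (nat_lit 0) (nat_lit 14225368031) (nat_lit 336) (nat_lit 22575187426) (nat_lit 420) (nat_lit 3320521819) (nat_lit 52) (nat_lit 5) (nat_lit 56) (nat_lit 5) (nat_lit 57) (nat_lit 5) (nat_lit 380) (nat_lit 336) (nat_lit 148)) (XT.lf (nat_lit 0) (nat_lit 598072770) (nat_lit 420) (nat_lit 11491159907) (nat_lit 84) (nat_lit 28897152466) (nat_lit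 51) (nat_lit 5) (nat_lit 56) (nat_lit 5) (nat_lit 52) (nat_lit 5) (nat_lit 381) (nat_lit 336) (nat_lit 147)))))) (XT.nd (nat_lit 564) (nat_lit 588) (nat_lit 0) (XT.nd (nat_lit 282) (nat_lit 336) (nat_lit 0) (XT.nd (nat_lit 94) (nat_lit 0) (nat_lit 0) (XT.lf (nat_lit 0) (nat_lit 3391535902) (nat_lit 336) (nat_lit 1209058028) (nat_lit 420) (nat_lit 37275903018) (nat_lit 47) (nat_lit 5) (nat_lit 51) (nat_lit 5) (nat_lit 52) (nat_lit 5) (nat_lit 382) (nat_lit 336) (nat_lit 146)) (XT.nd (nat_lit 94) (nat_lit 0) (nat_lit 0) (XT.lf (nat_lit 0) (nat_lit 8945463495) (nat_lit 420) (nat_lit 23914598993) (nat_lit 84) (nat_lit 9927379532) (nat_lit 47) (nat_lit 5) (nat_lit 52) (nat_lit 5) (nat_lit 48) (nat_lit 5) (nat_lit 383) (nat_lit 336) (nat_lit 145)) (XT.lf (nat_lit 0) (nat_lit 13435270312) (nat_lit 420) (nat_lit 8907642722) (nat_lit 84) (nat_lit 21383401712) (nat_lit 47) (nat_lit 5) (nat_lit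 52) (nat_lit 5) (nat_lit 48) (nat_lit 5) (nat_lit 384) (nat_lit 336) (nat_lit 144)))) (XT.nd (nat_lit 94) (nat_lit 0) (nat_lit 0) (XT.lf (nat_lit 0) (nat_lit 6696815740) (nat_lit 336) (nat_lit 11431822850) (nat_lit 420) (nat_lit 26563664050) (nat_lit 43) (nat_lit 5) (nat_lit 47) (nat_lit 5) (nat_lit 48) (nat_lit 5) (nat_lit 385) (nat_lit 336) (nat_lit 143)) (XT.nd (nat_lit 94) (nat_lit 0) (nat_lit 0) (XT.lf (nat_lit 0) (nat_lit 22971237116) (nat_lit 336) (nat_lit 87221792) (nat_lit 420) (nat_lit 22626963201) (nat_lit 43) (nat_lit 5) (nat_lit 47) (nat_lit 5) (nat_lit 48) (nat_lit 5) (nat_lit 386) (nat_lit 336) (nat_lit 142)) (XT.lf (nat_lit 0) (nat_lit 28254302121) (nat_lit 420) (nat_lit 7076920645) (nat_lit 84) (nat_lit 11374601831) (nat_lit 43) (nat_lit 5) (nat_lit 48) (nat_lit 5) (nat_lit 44) (nat_lit 5) (nat_lit 387) (nat_lit 336) (nat_lit 141))))) (XT.nd (nat_lit 282) (nat_lit 336)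 (nat_lit 0) (XT.nd (nat_lit 94) (nat_lit 0) (nat_lit 0) (XT.lf (nat_lit 0) (nat_lit 9227605945) (nat_lit 252) (nat_lit 24474135809) (nat_lit 336) (nat_lit 14053316830) (nat_lit 40) (nat_lit 5) (nat_lit 43) (nat_lit 5) (nat_lit 44) (nat_lit 5) (nat_lit 388) (nat_lit 336) (nat_lit 140)) (XT.nd (nat_lit 94) (nat_lit 0) (nat_lit 0) (XT.lf (nat_lit 0) (nat_lit 26185108765) (nat_lit 252) (nat_lit 13204938592) (nat_lit 336) (nat_lit 9444544756) (nat_lit 40) (nat_lit 5) (nat_lit 43) (nat_lit 5) (nat_lit 44) (nat_lit 5) (nat_lit 389) (nat_lit 336) (nat_lit 139)) (XT.lf (nat_lit 0) (nat_lit 43665877979) (nat_lit 252) (nat_lit 1586995581) (nat_lit 336) (nat_lit 4694778933) (nat_lit 40) (nat_lit 5) (nat_lit 43) (nat_lit 5) (nat_lit 44) (nat_lit 5) (nat_lit 390) (nat_lit 336) (nat_lit 138)))) (XT.nd (nat_lit 94) (nat_lit 0) (nat_lit 0) (XT.lf (nat_lit 0) (nat_lit 407765715) (nat_lit 336) (nat_lit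 40389411740) (nat_lit 84) (nat_lit 10291484867) (nat_lit 36) (nat_lit 5) (nat_lit 40) (nat_lit 5) (nat_lit 37) (nat_lit 5) (nat_lit 391) (nat_lit 336) (nat_lit 137)) (XT.nd (nat_lit 94) (nat_lit 0) (nat_lit 0) (XT.lf (nat_lit 0) (nat_lit 5651677566) (nat_lit 336) (nat_lit 23990485170) (nat_lit 84) (nat_lit 22618894752) (nat_lit 36) (nat_lit 5) (nat_lit 40) (nat_lit 5) (nat_lit 37) (nat_lit 5) (nat_lit 392) (nat_lit 336) (nat_lit 136)) (XT.lf (nat_lit 0) (nat_lit 11056442858) (nat_lit 336) (nat_lit 7085533035) (nat_lit 84) (nat_lit 35327878371) (nat_lit 36) (nat_lit 5) (nat_lit 40) (nat_lit 5) (nat_lit 37) (nat_lit 5) (nat_lit 393) (nat_lit 336) (nat_lit 135))))))))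
noncomputable def xc189 : XT := (XT.nd (nat_lit 49350) (nat_lit 0) (nat_lit 5208) (XT.nd (nat_lit 1128) (nat_lit 420) (nat_lit 0) (XT.nd (nat_lit 564) (nat_lit 504) (nat_lit 0) (XT.nd (nat_lit 282) (nat_lit 252) (nat_lit 0) (XT.nd (nat_lit 94) (nat_lit 0) (nat_lit 0) (XT.lf (nat_lit 0) (nat_lit 10553838170) (nat_lit 252) (nat_lit 6177956609) (nat_lit 336) (nat_lit 37981139038) (nat_lit 33) (nat_lit 5) (nat_lit 36) (nat_lit 5) (nat_lit 37) (nat_lit 5) (nat_lit 394) (nat_lit 336) (nat_lit 134)) (XT.nd (nat_lit 94) (nat_lit 0) (nat_lit 0) (XT.lf (nat_lit 0) (nat_lit 22717240038) (nat_lit 336) (nat_lit 27166147052) (nat_lit 84) (nat_lit 6107007020) (nat_lit 33) (nat_lit 5) (nat_lit 37) (nat_lit 5) (nat_lit 34) (nat_lit 5) (nat_lit 395) (nat_lit 336) (nat_lit 133)) (XT.lf (nat_lit 0) (nat_lit 28949834120) (nat_lit 336) (nat_lit 9711830259) (nat_lit 84) (nat_lit 18643885722) (nat_lit 33) (nat_lit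 5) (nat_lit 37) (nat_lit 5) (nat_lit 34) (nat_lit 5) (nat_lit 396) (nat_lit 336) (nat_lit 132)))) (XT.nd (nat_lit 94) (nat_lit 0) (nat_lit 0) (XT.lf (nat_lit 0) (nat_lit 8451692853) (nat_lit 252) (nat_lit 27006249350) (nat_lit 336) (nat_lit 23200986223) (nat_lit 30) (nat_lit 5) (nat_lit 33) (nat_lit 5) (nat_lit 34) (nat_lit 5) (nat_lit 397) (nat_lit 336) (nat_lit 131)) (XT.nd (nat_lit 94) (nat_lit 0) (nat_lit 0) (XT.lf (nat_lit 0) (nat_lit 27382032477) (nat_lit 252) (nat_lit 14885627532) (nat_lit 336) (nat_lit 17783509651) (nat_lit 30) (nat_lit 5) (nat_lit 33) (nat_lit 5) (nat_lit 34) (nat_lit 5) (nat_lit 398) (nat_lit 336) (nat_lit 130)) (XT.lf (nat_lit 0) (nat_lit 46897138521) (nat_lit 252) (nat_lit 2389872829) (nat_lit 336) (nat_lit 12199608198) (nat_lit 30) (nat_lit 5) (nat_lit 33) (nat_lit 5) (nat_lit 34) (nat_lit 5) (nat_lit 399) (nat_lit 336) (nat_lit 129))))) (XT.nd (nat_lit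 282) (nat_lit 252) (nat_lit 0) (XT.nd (nat_lit 94) (nat_lit 84) (nat_lit 0) (XT.lf (nat_lit 0) (nat_lit 4025603458) (nat_lit 168) (nat_lit 52640958530) (nat_lit 252) (nat_lit 6295589381) (nat_lit 28) (nat_lit 5) (nat_lit 30) (nat_lit 5) (nat_lit 31) (nat_lit 5) (nat_lit 400) (nat_lit 336) (nat_lit 128)) (XT.nd (nat_lit 94) (nat_lit 84) (nat_lit 0) (XT.lf (nat_lit 0) (nat_lit 23500066708) (nat_lit 168) (nat_lit 40949884956) (nat_lit 252) (nat_lit 28049208) (nat_lit 28) (nat_lit 5) (nat_lit 30) (nat_lit 5) (nat_lit 31) (nat_lit 5) (nat_lit 401) (nat_lit 336) (nat_lit 127)) (XT.lf (nat_lit 0) (nat_lit 6302776731) (nat_lit 252) (nat_lit 22528430688) (nat_lit 84) (nat_lit 37207701833) (nat_lit 27) (nat_lit 5) (nat_lit 30) (nat_lit 5) (nat_lit 28) (nat_lit 5) (nat_lit 402) (nat_lit 336) (nat_lit 126)))) (XT.nd (nat_lit 94) (nat_lit 252) (nat_lit 0) (XT.lf (nat_lit 0) (nat_lit 12827935612)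 (nat_lit 252) (nat_lit 3509222599) (nat_lit 84) (nat_lit 51311083383) (nat_lit 27) (nat_lit 5) (nat_lit 30) (nat_lit 5) (nat_lit 28) (nat_lit 5) (nat_lit 403) (nat_lit 336) (nat_lit 125)) (XT.nd (nat_lit 94) (nat_lit 0) (nat_lit 0) (XT.lf (nat_lit 0) (nat_lit 16428697898) (nat_lit 252) (nat_lit 3288351515) (nat_lit 336) (nat_lit 49585404962) (nat_lit 24) (nat_lit 5) (nat_lit 27) (nat_lit 5) (nat_lit 28) (nat_lit 5) (nat_lit 404) (nat_lit 336) (nat_lit 124)) (XT.lf (nat_lit 0) (nat_lit 26956282232) (nat_lit 336) (nat_lit 34050839436) (nat_lit 84) (nat_lit 9996595802) (nat_lit 24) (nat_lit 5) (nat_lit 28) (nat_lit 5) (nat_lit 25) (nat_lit 5) (nat_lit 405) (nat_lit 336) (nat_lit 123)))))) (XT.nd (nat_lit 564) (nat_lit 84) (nat_lit 0) (XT.nd (nat_lit 282) (nat_lit 168) (nat_lit 0) (XT.nd (nat_lit 94) (nat_lit 168) (nat_lit 0) (XT.lf (nat_lit 0) (nat_lit 34452317039) (nat_lit 336) (nat_lit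 14679889282) (nat_lit 84) (nat_lit 23624512323) (nat_lit 24) (nat_lit 5) (nat_lit 28) (nat_lit 5) (nat_lit 25) (nat_lit 5) (nat_lit 406) (nat_lit 336) (nat_lit 122)) (XT.nd (nat_lit 94) (nat_lit 0) (nat_lit 0) (XT.lf (nat_lit 0) (nat_lit 5398539124) (nat_lit 168) (nat_lit 36834535120) (nat_lit 252) (nat_lit 32329368699) (nat_lit 22) (nat_lit 5) (nat_lit 24) (nat_lit 5) (nat_lit 25) (nat_lit 5) (nat_lit 407) (nat_lit 336) (nat_lit 121)) (XT.lf (nat_lit 0) (nat_lit 26408833135) (nat_lit 168) (nat_lit 23998239639) (nat_lit 252) (nat_lit 26012361456) (nat_lit 22) (nat_lit 5) (nat_lit 24) (nat_lit 5) (nat_lit 25) (nat_lit 5) (nat_lit 408) (nat_lit 336) (nat_lit 120)))) (XT.nd (nat_lit 94) (nat_lit 168) (nat_lit 0) (XT.lf (nat_lit 0) (nat_lit 48068727915) (nat_lit 168) (nat_lit 10764583044) (nat_lit 252) (nat_lit 19500719701) (nat_lit 22) (nat_lit 5) (nat_lit 24) (nat_lit 5) (nat_lit 25) (nat_lit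 5) (nat_lit 409) (nat_lit 336) (nat_lit 119)) (XT.nd (nat_lit 94) (nat_lit 168) (nat_lit 0) (XT.lf (nat_lit 0) (nat_lit 67548200688) (nat_lit 252) (nat_lit 9938161833) (nat_lit 84) (nat_lit 2820769023) (nat_lit 22) (nat_lit 5) (nat_lit 25) (nat_lit 5) (nat_lit 23) (nat_lit 5) (nat_lit 410) (nat_lit 336) (nat_lit 118)) (XT.lf (nat_lit 0) (nat_lit 11131654679) (nat_lit 168) (nat_lit 65621029880) (nat_lit 252) (nat_lit 5581914060) (nat_lit 20) (nat_lit 5) (nat_lit 22) (nat_lit 5) (nat_lit 23) (nat_lit 5) (nat_lit 411) (nat_lit 336) (nat_lit 117))))) (XT.nd (nat_lit 47376) (nat_lit 0) (nat_lit 7980) (XT.nd (nat_lit 47188) (nat_lit 0) (nat_lit 7980) (XT.lf (nat_lit 0) (nat_lit 1884676944) (nat_lit 252) (nat_lit 51377129236) (nat_lit 84) (nat_lit 31159339448) (nat_lit 19) (nat_lit 5) (nat_lit 22) (nat_lit 5) (nat_lit 20) (nat_lit 5) (nat_lit 412) (nat_lit 336) (nat_lit 116)) (XT.nd (nat_lit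 94) (nat_lit 0) (nat_lit 0) (XT.lf (nat_lit 0) (nat_lit 1216719568) (nat_lit 0) (nat_lit 1216719568) (nat_lit 1092) (nat_lit 6856248626) (nat_lit 114) (nat_lit 5) (nat_lit 114) (nat_lit 3) (nat_lit 127) (nat_lit 3) (nat_lit 337) (nat_lit 337) (nat_lit 190)) (XT.lf (nat_lit 0) (nat_lit 5155989387) (nat_lit 1092) (nat_lit 9084530695) (nat_lit 1176) (nat_lit 4619587349) (nat_lit 114) (nat_lit 5) (nat_lit 127) (nat_lit 3) (nat_lit 128) (nat_lit 5) (nat_lit 338) (nat_lit 337) (nat_lit 189)))) (XT.nd (nat_lit 94) (nat_lit 0) (nat_lit 0) (XT.lf (nat_lit 0) (nat_lit 5472259123) (nat_lit 1092) (nat_lit 1832739569) (nat_lit 1176) (nat_lit 11844004419) (nat_lit 114) (nat_lit 5) (nat_lit 127) (nat_lit 3) (nat_lit 128) (nat_lit 5) (nat_lit 339) (nat_lit 337) (nat_lit 188)) (XT.nd (nat_lit 94) (nat_lit 0) (nat_lit 84) (XT.lf (nat_lit 84) (nat_lit 5756313321) (nat_lit 0) (nat_lit 92632279) (nat_lit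 1176) (nat_lit 13596364382) (nat_lit 115) (nat_lit 5) (nat_lit 114) (nat_lit 5) (nat_lit 128) (nat_lit 5) (nat_lit 340) (nat_lit 337) (nat_lit 187)) (XT.lf (nat_lit 0) (nat_lit 6323179536) (nat_lit 1092) (nat_lit 6207504786) (nat_lit 1176) (nat_lit 7217479741) (nat_lit 115) (nat_lit 5) (nat_lit 128) (nat_lit 5) (nat_lit 129) (nat_lit 5) (nat_lit 341) (nat_lit 337) (nat_lit 186))))))) (XT.nd (nat_lit 1128) (nat_lit 2856) (nat_lit 0) (XT.nd (nat_lit 564) (nat_lit 0) (nat_lit 168) (XT.nd (nat_lit 282) (nat_lit 0) (nat_lit 84) (XT.nd (nat_lit 94) (nat_lit 0) (nat_lit 84) (XT.lf (nat_lit 84) (nat_lit 1532215763) (nat_lit 0) (nat_lit 5289933496) (nat_lit 1176) (nat_lit 13237969255) (nat_lit 116) (nat_lit 5) (nat_lit 115) (nat_lit 5) (nat_lit 129) (nat_lit 5) (nat_lit 342) (nat_lit 337) (nat_lit 185)) (XT.nd (nat_lit 94) (nat_lit 0) (nat_lit 0) (XT.lf (nat_lit 0) (nat_lit 7417681605) (nat_lit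 1092) (nat_lit 10762328218) (nat_lit 1176) (nat_lit 2199242068) (nat_lit 116) (nat_lit 5) (nat_lit 129) (nat_lit 5) (nat_lit 130) (nat_lit 5) (nat_lit 343) (nat_lit 337) (nat_lit 184)) (XT.lf (nat_lit 0) (nat_lit 8080016862) (nat_lit 1092) (nat_lit 2813824759) (nat_lit 1176) (nat_lit 9812959803) (nat_lit 116) (nat_lit 5) (nat_lit 129) (nat_lit 5) (nat_lit 130) (nat_lit 5) (nat_lit 344) (nat_lit 337) (nat_lit 183)))) (XT.nd (nat_lit 94) (nat_lit 0) (nat_lit 84) (XT.lf (nat_lit 84) (nat_lit 5488065548) (nat_lit 0) (nat_lit 3323672340) (nat_lit 1176) (nat_lit 12231273601) (nat_lit 117) (nat_lit 5) (nat_lit 116) (nat_lit 5) (nat_lit 130) (nat_lit 5) (nat_lit 345) (nat_lit 337) (nat_lit 182)) (XT.nd (nat_lit 94) (nat_lit 0) (nat_lit 0) (XT.lf (nat_lit 0) (nat_lit 9634829775) (nat_lit 1092) (nat_lit 7330282749) (nat_lit 1176) (nat_lit 4422422553) (nat_lit 117) (nat_lit 5) (nat_lit 130) (nat_lit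 5) (nat_lit 131) (nat_lit 5) (nat_lit 346) (nat_lit 337) (nat_lit 181)) (XT.lf (nat_lit 84) (nat_lit 1134562591) (nat_lit 0) (nat_lit 9388849528) (nat_lit 1176) (nat_lit 11218107275) (nat_lit 118) (nat_lit 5) (nat_lit 117) (nat_lit 5) (nat_lit 131) (nat_lit 5) (nat_lit 347) (nat_lit 337) (nat_lit 180))))) (XT.nd (nat_lit 282) (nat_lit 0) (nat_lit 168) (XT.nd (nat_lit 94) (nat_lit 0) (nat_lit 84) (XT.lf (nat_lit 84) (nat_lit 10013605243) (nat_lit 0) (nat_lit 1497297398) (nat_lit 1176) (nat_lit 10593381477) (nat_lit 118) (nat_lit 5) (nat_lit 117) (nat_lit 5) (nat_lit 131) (nat_lit 5) (nat_lit 348) (nat_lit 337) (nat_lit 179)) (XT.nd (nat_lit 94) (nat_lit 0) (nat_lit 0) (XT.lf (nat_lit 0) (nat_lit 12589882713) (nat_lit 1092) (nat_lit 3379945673) (nat_lit 1176) (nat_lit 6506597509) (nat_lit 118) (nat_lit 5) (nat_lit 131) (nat_lit 5) (nat_lit 132) (nat_lit 5) (nat_lit 349) (nat_lit 337) (nat_lit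 178)) (XT.lf (nat_lit 84) (nat_lit 5696702559) (nat_lit 0) (nat_lit 8072602913) (nat_lit 1176) (nat_lit 9088739758) (nat_lit 119) (nat_lit 5) (nat_lit 118) (nat_lit 5) (nat_lit 132) (nat_lit 5) (nat_lit 350) (nat_lit 337) (nat_lit 177)))) (XT.nd (nat_lit 94) (nat_lit 0) (nat_lit 0) (XT.lf (nat_lit 0) (nat_lit 15016909975) (nat_lit 1092) (nat_lit 8128789764) (nat_lit 1176) (nat_lit 104832263) (nat_lit 119) (nat_lit 5) (nat_lit 132) (nat_lit 5) (nat_lit 133) (nat_lit 5) (nat_lit 351) (nat_lit 337) (nat_lit 176)) (XT.nd (nat_lit 94) (nat_lit 0) (nat_lit 0) (XT.lf (nat_lit 84) (nat_lit 1120170319) (nat_lit 0) (nat_lit 15272127762) (nat_lit 1176) (nat_lit 7260142359) (nat_lit 120) (nat_lit 5) (nat_lit 119) (nat_lit 5) (nat_lit 133) (nat_lit 5) (nat_lit 352) (nat_lit 337) (nat_lit 175)) (XT.lf (nat_lit 84) (nat_lit 10824603597) (nat_lit 0) (nat_lit 7066101347) (nat_lit 1176) (nat_lit 6173627676)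 (nat_lit 120) (nat_lit 5) (nat_lit 119) (nat_lit 5) (nat_lit 133) (nat_lit 5) (nat_lit 353) (nat_lit 337) (nat_lit 174)))))) (XT.nd (nat_lit 564) (nat_lit 1596) (nat_lit 0) (XT.nd (nat_lit 282) (nat_lit 588) (nat_lit 0) (XT.nd (nat_lit 94) (nat_lit 1092) (nat_lit 0) (XT.lf (nat_lit 0) (nat_lit 19445070903) (nat_lit 1092) (nat_lit 3676573001) (nat_lit 84) (nat_lit 1367070709) (nat_lit 120) (nat_lit 5) (nat_lit 133) (nat_lit 5) (nat_lit 121) (nat_lit 5) (nat_lit 354) (nat_lit 337) (nat_lit 173)) (XT.nd (nat_lit 94) (nat_lit 0) (nat_lit 0) (XT.lf (nat_lit 0) (nat_lit 6232835820) (nat_lit 1092) (nat_lit 14944693210) (nat_lit 1176) (nat_lit 3744711745) (nat_lit 107) (nat_lit 5) (nat_lit 120) (nat_lit 5) (nat_lit 121) (nat_lit 5) (nat_lit 355) (nat_lit 337) (nat_lit 172)) (XT.lf (nat_lit 0) (nat_lit 16523900105) (nat_lit 1092) (nat_lit 6474067449) (nat_lit 1176) (nat_lit 2370191172) (nat_lit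 107) (nat_lit 5) (nat_lit 120) (nat_lit 5) (nat_lit 121) (nat_lit 5) (nat_lit 356) (nat_lit 337) (nat_lit 171)))) (XT.nd (nat_lit 94) (nat_lit 84) (nat_lit 0) (XT.lf (nat_lit 0) (nat_lit 1306482004) (nat_lit 504) (nat_lit 23599756802) (nat_lit 588) (nat_lit 920702479) (nat_lit 101) (nat_lit 5) (nat_lit 107) (nat_lit 5) (nat_lit 108) (nat_lit 5) (nat_lit 357) (nat_lit 337) (nat_lit 170)) (XT.nd (nat_lit 94) (nat_lit 0) (nat_lit 0) (XT.lf (nat_lit 0) (nat_lit 717694738) (nat_lit 588) (nat_lit 14414121134) (nat_lit 84) (nat_lit 11163145924) (nat_lit 100) (nat_lit 5) (nat_lit 107) (nat_lit 5) (nat_lit 101) (nat_lit 5) (nat_lit 358) (nat_lit 337) (nat_lit 169)) (XT.lf (nat_lit 0) (nat_lit 2383934598) (nat_lit 588) (nat_lit 4007371616) (nat_lit 84) (nat_lit 20386024565) (nat_lit 100) (nat_lit 5) (nat_lit 107) (nat_lit 5) (nat_lit 101) (nat_lit 5) (nat_lit 359) (nat_lit 337) (nat_lit 168)))))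 (XT.nd (nat_lit 282) (nat_lit 504) (nat_lit 0) (XT.nd (nat_lit 94) (nat_lit 504) (nat_lit 0) (XT.lf (nat_lit 0) (nat_lit 4192831731) (nat_lit 672) (nat_lit 20442592167) (nat_lit 84) (nat_lit 2636421041) (nat_lit 93) (nat_lit 5) (nat_lit 101) (nat_lit 5) (nat_lit 94) (nat_lit 5) (nat_lit 360) (nat_lit 337) (nat_lit 167)) (XT.nd (nat_lit 94) (nat_lit 504) (nat_lit 0) (XT.lf (nat_lit 0) (nat_lit 6161803083) (nat_lit 672) (nat_lit 9762879575) (nat_lit 84) (nat_lit 11853794897) (nat_lit 93) (nat_lit 5) (nat_lit 101) (nat_lit 5) (nat_lit 94) (nat_lit 5) (nat_lit 361) (nat_lit 337) (nat_lit 166)) (XT.lf (nat_lit 0) (nat_lit 1270140503) (nat_lit 504) (nat_lit 6930754854) (nat_lit 588) (nat_lit 20099650952) (nat_lit 87) (nat_lit 5) (nat_lit 93) (nat_lit 5) (nat_lit 94) (nat_lit 5) (nat_lit 362) (nat_lit 337) (nat_lit 165)))) (XT.nd (nat_lit 94) (nat_lit 504) (nat_lit 0) (XT.lf (nat_lit 0) (nat_lit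 10425935864) (nat_lit 588) (nat_lit 16011202942) (nat_lit 84) (nat_lit 2397867294) (nat_lit 87) (nat_lit 5) (nat_lit 94) (nat_lit 5) (nat_lit 88) (nat_lit 5) (nat_lit 363) (nat_lit 337) (nat_lit 164)) (XT.nd (nat_lit 94) (nat_lit 504) (nat_lit 0) (XT.lf (nat_lit 0) (nat_lit 12787498379) (nat_lit 588) (nat_lit 4724626559) (nat_lit 84) (nat_lit 11871826663) (nat_lit 87) (nat_lit 5) (nat_lit 94) (nat_lit 5) (nat_lit 88) (nat_lit 5) (nat_lit 364) (nat_lit 337) (nat_lit 163)) (XT.lf (nat_lit 0) (nat_lit 7050652491) (nat_lit 504) (nat_lit 8238321035) (nat_lit 588) (nat_lit 14658884094) (nat_lit 81) (nat_lit 5) (nat_lit 87) (nat_lit 5) (nat_lit 88) (nat_lit 5) (nat_lit 365) (nat_lit 337) (nat_lit 162))))))))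
noncomputable def xc190 : XT := (XT.nd (nat_lit 2256) (nat_lit 1764) (nat_lit 0) (XT.nd (nat_lit 1128) (nat_lit 1680) (nat_lit 0) (XT.nd (nat_lit 564) (nat_lit 840) (nat_lit 0) (XT.nd (nat_lit 282) (nat_lit 504) (nat_lit 0) (XT.nd (nat_lit 94) (nat_lit 420) (nat_lit 0) (XT.lf (nat_lit 0) (nat_lit 17927764400) (nat_lit 588) (nat_lit 11253531728) (nat_lit 84) (nat_lit 1346106433) (nat_lit 81) (nat_lit 5) (nat_lit 88) (nat_lit 5) (nat_lit 82) (nat_lit 5) (nat_lit 366) (nat_lit 337) (nat_lit 161)) (XT.nd (nat_lit 94) (nat_lit 0) (nat_lit 0) (XT.lf (nat_lit 0) (nat_lit 677269813) (nat_lit 420) (nat_lit 20058986822) (nat_lit 504) (nat_lit 10385942276) (nat_lit 76) (nat_lit 5) (nat_lit 81) (nat_lit 5) (nat_lit 82) (nat_lit 5) (nat_lit 367) (nat_lit 337) (nat_lit 160)) (XT.lf (nat_lit 0) (nat_lit 13213315119) (nat_lit 420) (nat_lit 10532943418) (nat_lit 504) (nat_lit 7985637645) (nat_lit 76)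 (nat_lit 5) (nat_lit 81) (nat_lit 5) (nat_lit 82) (nat_lit 5) (nat_lit 368) (nat_lit 337) (nat_lit 159)))) (XT.nd (nat_lit 94) (nat_lit 504) (nat_lit 0) (XT.lf (nat_lit 0) (nat_lit 26134893402) (nat_lit 420) (nat_lit 711750436) (nat_lit 504) (nat_lit 5513950722) (nat_lit 76) (nat_lit 5) (nat_lit 81) (nat_lit 5) (nat_lit 82) (nat_lit 5) (nat_lit 369) (nat_lit 337) (nat_lit 158)) (XT.nd (nat_lit 94) (nat_lit 84) (nat_lit 0) (XT.lf (nat_lit 0) (nat_lit 6482389027) (nat_lit 420) (nat_lit 23715605028) (nat_lit 504) (nat_lit 2805997564) (nat_lit 71) (nat_lit 5) (nat_lit 76) (nat_lit 5) (nat_lit 77) (nat_lit 5) (nat_lit 370) (nat_lit 337) (nat_lit 157)) (XT.lf (nat_lit 0) (nat_lit 56291305) (nat_lit 504) (nat_lit 13959835534) (nat_lit 84) (nat_lit 19649047138) (nat_lit 70) (nat_lit 5) (nat_lit 76) (nat_lit 5) (nat_lit 71) (nat_lit 5) (nat_lit 371) (nat_lit 337) (nat_lit 156))))) (XT.nd (nat_lit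 282) (nat_lit 420) (nat_lit 0) (XT.nd (nat_lit 94) (nat_lit 420) (nat_lit 0) (XT.lf (nat_lit 0) (nat_lit 2946286242) (nat_lit 504) (nat_lit 1040381869) (nat_lit 84) (nat_lit 30359388730) (nat_lit 70) (nat_lit 5) (nat_lit 76) (nat_lit 5) (nat_lit 71) (nat_lit 5) (nat_lit 372) (nat_lit 337) (nat_lit 155)) (XT.nd (nat_lit 94) (nat_lit 0) (nat_lit 0) (XT.lf (nat_lit 0) (nat_lit 6111803454) (nat_lit 504) (nat_lit 22579513347) (nat_lit 84) (nat_lit 6350974750) (nat_lit 65) (nat_lit 5) (nat_lit 71) (nat_lit 5) (nat_lit 66) (nat_lit 5) (nat_lit 373) (nat_lit 337) (nat_lit 154)) (XT.lf (nat_lit 0) (nat_lit 9424589027) (nat_lit 504) (nat_lit 9397060841) (nat_lit 84) (nat_lit 16936944545) (nat_lit 65) (nat_lit 5) (nat_lit 71) (nat_lit 5) (nat_lit 66) (nat_lit 5) (nat_lit 374) (nat_lit 337) (nat_lit 153)))) (XT.nd (nat_lit 94) (nat_lit 0) (nat_lit 0) (XT.lf (nat_lit 0) (nat_lit 4277321795) (nat_lit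 420) (nat_lit 8602651687) (nat_lit 504) (nat_lit 23615900091) (nat_lit 60) (nat_lit 5) (nat_lit 65) (nat_lit 5) (nat_lit 66) (nat_lit 5) (nat_lit 375) (nat_lit 337) (nat_lit 152)) (XT.nd (nat_lit 94) (nat_lit 0) (nat_lit 0) (XT.lf (nat_lit 0) (nat_lit 16558255621) (nat_lit 504) (nat_lit 18701280474) (nat_lit 84) (nat_lit 1992890741) (nat_lit 60) (nat_lit 5) (nat_lit 66) (nat_lit 5) (nat_lit 61) (nat_lit 5) (nat_lit 376) (nat_lit 337) (nat_lit 151)) (XT.lf (nat_lit 0) (nat_lit 20436138715) (nat_lit 504) (nat_lit 4855825444) (nat_lit 84) (nat_lit 12737823709) (nat_lit 60) (nat_lit 5) (nat_lit 66) (nat_lit 5) (nat_lit 61) (nat_lit 5) (nat_lit 377) (nat_lit 337) (nat_lit 150)))))) (XT.nd (nat_lit 564) (nat_lit 588) (nat_lit 0) (XT.nd (nat_lit 282) (nat_lit 756) (nat_lit 0) (XT.nd (nat_lit 94) (nat_lit 0) (nat_lit 0) (XT.lf (nat_lit 0) (nat_lit 9609671559) (nat_lit 336) (nat_lit 14917555562)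 (nat_lit 420) (nat_lit 14301144452) (nat_lit 56) (nat_lit 5) (nat_lit 60) (nat_lit 5) (nat_lit 61) (nat_lit 5) (nat_lit 378) (nat_lit 337) (nat_lit 149)) (XT.nd (nat_lit 94) (nat_lit 0) (nat_lit 0) (XT.lf (nat_lit 0) (nat_lit 24623787471) (nat_lit 336) (nat_lit 4169741457) (nat_lit 420) (nat_lit 10856689343) (nat_lit 56) (nat_lit 5) (nat_lit 60) (nat_lit 5) (nat_lit 61) (nat_lit 5) (nat_lit 379) (nat_lit 337) (nat_lit 148)) (XT.lf (nat_lit 0) (nat_lit 33258416014) (nat_lit 420) (nat_lit 465502816) (nat_lit 84) (nat_lit 6771573933) (nat_lit 56) (nat_lit 5) (nat_lit 61) (nat_lit 5) (nat_lit 57) (nat_lit 5) (nat_lit 380) (nat_lit 337) (nat_lit 147)))) (XT.nd (nat_lit 94) (nat_lit 420) (nat_lit 0) (XT.lf (nat_lit 0) (nat_lit 14799689397) (nat_lit 336) (nat_lit 23249323083) (nat_lit 420) (nat_lit 3312158617) (nat_lit 52) (nat_lit 5) (nat_lit 56) (nat_lit 5) (nat_lit 57) (nat_lit 5) (nat_lit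 381) (nat_lit 337) (nat_lit 146)) (XT.nd (nat_lit 94) (nat_lit 336) (nat_lit 0) (XT.lf (nat_lit 0) (nat_lit 722390858) (nat_lit 420) (nat_lit 11715581375) (nat_lit 84) (nat_lit 29815408112) (nat_lit 51) (nat_lit 5) (nat_lit 56) (nat_lit 5) (nat_lit 52) (nat_lit 5) (nat_lit 382) (nat_lit 337) (nat_lit 145)) (XT.lf (nat_lit 0) (nat_lit 3627143602) (nat_lit 336) (nat_lit 1219960334) (nat_lit 420) (nat_lit 38324049283) (nat_lit 47) (nat_lit 5) (nat_lit 51) (nat_lit 5) (nat_lit 52) (nat_lit 5) (nat_lit 383) (nat_lit 337) (nat_lit 144))))) (XT.nd (nat_lit 282) (nat_lit 252) (nat_lit 0) (XT.nd (nat_lit 94) (nat_lit 336) (nat_lit 0) (XT.lf (nat_lit 0) (nat_lit 9323796390) (nat_lit 420) (nat_lit 24526250729) (nat_lit 84) (nat_lit 10260388234) (nat_lit 47) (nat_lit 5) (nat_lit 52) (nat_lit 5) (nat_lit 48) (nat_lit 5) (nat_lit 384) (nat_lit 337) (nat_lit 143)) (XT.nd (nat_lit 94) (nat_lit 336)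 (nat_lit 0) (XT.lf (nat_lit 0) (nat_lit 13949749654) (nat_lit 420) (nat_lit 9057978644) (nat_lit 84) (nat_lit 22070787589) (nat_lit 47) (nat_lit 5) (nat_lit 52) (nat_lit 5) (nat_lit 48) (nat_lit 5) (nat_lit 385) (nat_lit 337) (nat_lit 142)) (XT.lf (nat_lit 0) (nat_lit 7028944408) (nat_lit 336) (nat_lit 11757957035) (nat_lit 420) (nat_lit 27287609330) (nat_lit 43) (nat_lit 5) (nat_lit 47) (nat_lit 5) (nat_lit 48) (nat_lit 5) (nat_lit 386) (nat_lit 337) (nat_lit 141)))) (XT.nd (nat_lit 94) (nat_lit 252) (nat_lit 0) (XT.lf (nat_lit 0) (nat_lit 23804128570) (nat_lit 336) (nat_lit 62522833) (nat_lit 420) (nat_lit 23231863361) (nat_lit 43) (nat_lit 5) (nat_lit 47) (nat_lit 5) (nat_lit 48) (nat_lit 5) (nat_lit 387) (nat_lit 337) (nat_lit 140)) (XT.nd (nat_lit 94) (nat_lit 252) (nat_lit 0) (XT.lf (nat_lit 0) (nat_lit 29221021674) (nat_lit 420) (nat_lit 7176356889) (nat_lit 84) (nat_lit 11753257871)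 (nat_lit 43) (nat_lit 5) (nat_lit 48) (nat_lit 5) (nat_lit 44) (nat_lit 5) (nat_lit 388) (nat_lit 337) (nat_lit 139)) (XT.lf (nat_lit 0) (nat_lit 9632395657) (nat_lit 252) (nat_lit 25203382880) (nat_lit 336) (nat_lit 14396673893) (nat_lit 40) (nat_lit 5) (nat_lit 43) (nat_lit 5) (nat_lit 44) (nat_lit 5) (nat_lit 389) (nat_lit 337) (nat_lit 138))))))) (XT.nd (nat_lit 1128) (nat_lit 756) (nat_lit 0) (XT.nd (nat_lit 564) (nat_lit 420) (nat_lit 0) (XT.nd (nat_lit 282) (nat_lit 252) (nat_lit 0) (XT.nd (nat_lit 94) (nat_lit 336) (nat_lit 0) (XT.lf (nat_lit 0) (nat_lit 27112010985) (nat_lit 252) (nat_lit 13585726083) (nat_lit 336) (nat_lit 9647805024) (nat_lit 40) (nat_lit 5) (nat_lit 43) (nat_lit 5) (nat_lit 44) (nat_lit 5) (nat_lit 390) (nat_lit 337) (nat_lit 137)) (XT.nd (nat_lit 94) (nat_lit 336) (nat_lit 0) (XT.lf (nat_lit 0) (nat_lit 45131221310) (nat_lit 252) (nat_lit 1608485747) (nat_lit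 336) (nat_lit 4753488157) (nat_lit 40) (nat_lit 5) (nat_lit 43) (nat_lit 5) (nat_lit 44) (nat_lit 5) (nat_lit 391) (nat_lit 337) (nat_lit 136)) (XT.lf (nat_lit 0) (nat_lit 504330601) (nat_lit 336) (nat_lit 41526436857) (nat_lit 84) (nat_lit 10638824732) (nat_lit 36) (nat_lit 5) (nat_lit 40) (nat_lit 5) (nat_lit 37) (nat_lit 5) (nat_lit 392) (nat_lit 337) (nat_lit 135)))) (XT.nd (nat_lit 94) (nat_lit 252) (nat_lit 0) (XT.lf (nat_lit 0) (nat_lit 5908280297) (nat_lit 336) (nat_lit 24622602774) (nat_lit 84) (nat_lit 23347533287) (nat_lit 36) (nat_lit 5) (nat_lit 40) (nat_lit 5) (nat_lit 37) (nat_lit 5) (nat_lit 393) (nat_lit 337) (nat_lit 134)) (XT.nd (nat_lit 94) (nat_lit 252) (nat_lit 0) (XT.lf (nat_lit 0) (nat_lit 11478145764) (nat_lit 336) (nat_lit 7196952322) (nat_lit 84) (nat_lit 36449669950) (nat_lit 36) (nat_lit 5) (nat_lit 40) (nat_lit 5) (nat_lit 37) (nat_lit 5) (nat_lit 394) (nat_lit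 337) (nat_lit 133)) (XT.lf (nat_lit 0) (nat_lit 10988143637) (nat_lit 252) (nat_lit 6339978810) (nat_lit 336) (nat_lit 39078307393) (nat_lit 33) (nat_lit 5) (nat_lit 36) (nat_lit 5) (nat_lit 37) (nat_lit 5) (nat_lit 395) (nat_lit 337) (nat_lit 132))))) (XT.nd (nat_lit 282) (nat_lit 168) (nat_lit 0) (XT.nd (nat_lit 94) (nat_lit 252) (nat_lit 0) (XT.lf (nat_lit 0) (nat_lit 23497065766) (nat_lit 336) (nat_lit 27902139687) (nat_lit 84) (nat_lit 6324355476) (nat_lit 33) (nat_lit 5) (nat_lit 37) (nat_lit 5) (nat_lit 34) (nat_lit 5) (nat_lit 396) (nat_lit 337) (nat_lit 131)) (XT.nd (nat_lit 94) (nat_lit 252) (nat_lit 0) (XT.lf (nat_lit 0) (nat_lit 29920597395) (nat_lit 336) (nat_lit 9909931018) (nat_lit 84) (nat_lit 19249034577) (nat_lit 33) (nat_lit 5) (nat_lit 37) (nat_lit 5) (nat_lit 34) (nat_lit 5) (nat_lit 397) (nat_lit 337) (nat_lit 130)) (XT.lf (nat_lit 0) (nat_lit 8815618873) (nat_lit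 252) (nat_lit 27813644519) (nat_lit 336) (nat_lit 23845675249) (nat_lit 30) (nat_lit 5) (nat_lit 33) (nat_lit 5) (nat_lit 34) (nat_lit 5) (nat_lit 398) (nat_lit 337) (nat_lit 129)))) (XT.nd (nat_lit 94) (nat_lit 168) (nat_lit 0) (XT.lf (nat_lit 0) (nat_lit 28329734399) (nat_lit 252) (nat_lit 15318179405) (nat_lit 336) (nat_lit 18262498210) (nat_lit 30) (nat_lit 5) (nat_lit 33) (nat_lit 5) (nat_lit 34) (nat_lit 5) (nat_lit 399) (nat_lit 337) (nat_lit 128)) (XT.nd (nat_lit 94) (nat_lit 168) (nat_lit 0) (XT.lf (nat_lit 0) (nat_lit 48446836251) (nat_lit 252) (nat_lit 2435925346) (nat_lit 336) (nat_lit 12507669729) (nat_lit 30) (nat_lit 5) (nat_lit 33) (nat_lit 5) (nat_lit 34) (nat_lit 5) (nat_lit 400) (nat_lit 337) (nat_lit 127)) (XT.lf (nat_lit 0) (nat_lit 4247287968) (nat_lit 168) (nat_lit 54242981045) (nat_lit 252) (nat_lit 6421465818) (nat_lit 28) (nat_lit 5) (nat_lit 30) (nat_lit 5)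 (nat_lit 31) (nat_lit 5) (nat_lit 401) (nat_lit 337) (nat_lit 126)))))) (XT.nd (nat_lit 564) (nat_lit 420) (nat_lit 0) (XT.nd (nat_lit 282) (nat_lit 252) (nat_lit 0) (XT.nd (nat_lit 94) (nat_lit 0) (nat_lit 0) (XT.lf (nat_lit 0) (nat_lit 37513437) (nat_lit 252) (nat_lit 42152476632) (nat_lit 84) (nat_lit 24284641276) (nat_lit 27) (nat_lit 5) (nat_lit 30) (nat_lit 5) (nat_lit 28) (nat_lit 5) (nat_lit 402) (nat_lit 337) (nat_lit 125)) (XT.nd (nat_lit 94) (nat_lit 0) (nat_lit 0) (XT.lf (nat_lit 0) (nat_lit 6562032376) (nat_lit 252) (nat_lit 23134196506) (nat_lit 84) (nat_lit 38387756151) (nat_lit 27) (nat_lit 5) (nat_lit 30) (nat_lit 5) (nat_lit 28) (nat_lit 5) (nat_lit 403) (nat_lit 337) (nat_lit 124)) (XT.lf (nat_lit 0) (nat_lit 13287550759) (nat_lit 252) (nat_lit 3528177721) (nat_lit 84) (nat_lit 52927542255) (nat_lit 27) (nat_lit 5) (nat_lit 30) (nat_lit 5) (nat_lit 28) (nat_lit 5)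 (nat_lit 404) (nat_lit 337) (nat_lit 123)))) (XT.nd (nat_lit 94) (nat_lit 0) (nat_lit 0) (XT.lf (nat_lit 0) (nat_lit 17026908855) (nat_lit 252) (nat_lit 3362337663) (nat_lit 336) (nat_lit 51059552380) (nat_lit 24) (nat_lit 5) (nat_lit 27) (nat_lit 5) (nat_lit 28) (nat_lit 5) (nat_lit 405) (nat_lit 337) (nat_lit 122)) (XT.nd (nat_lit 94) (nat_lit 0) (nat_lit 0) (XT.lf (nat_lit 0) (nat_lit 27851331316) (nat_lit 336) (nat_lit 35018466292) (nat_lit 84) (nat_lit 10333056289) (nat_lit 24) (nat_lit 5) (nat_lit 28) (nat_lit 5) (nat_lit 25) (nat_lit 5) (nat_lit 406) (nat_lit 337) (nat_lit 121)) (XT.lf (nat_lit 0) (nat_lit 35577957038) (nat_lit 336) (nat_lit 15049661130) (nat_lit 84) (nat_lit 24382639438) (nat_lit 24) (nat_lit 5) (nat_lit 28) (nat_lit 5) (nat_lit 25) (nat_lit 5) (nat_lit 407) (nat_lit 337) (nat_lit 120))))) (XT.nd (nat_lit 282) (nat_lit 252) (nat_lit 0) (XT.nd (nat_lit 94) (nat_lit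 0) (nat_lit 0) (XT.lf (nat_lit 0) (nat_lit 5650334923) (nat_lit 168) (nat_lit 37948688001) (nat_lit 252) (nat_lit 33272968175) (nat_lit 22) (nat_lit 5) (nat_lit 24) (nat_lit 5) (nat_lit 25) (nat_lit 5) (nat_lit 408) (nat_lit 337) (nat_lit 119)) (XT.nd (nat_lit 94) (nat_lit 0) (nat_lit 0) (XT.lf (nat_lit 0) (nat_lit 27309409083) (nat_lit 168) (nat_lit 24715300774) (nat_lit 252) (nat_lit 26761896015) (nat_lit 22) (nat_lit 5) (nat_lit 24) (nat_lit 5) (nat_lit 25) (nat_lit 5) (nat_lit 409) (nat_lit 337) (nat_lit 118)) (XT.lf (nat_lit 0) (nat_lit 49638297977) (nat_lit 168) (nat_lit 11072209178) (nat_lit 252) (nat_lit 20050102684) (nat_lit 22) (nat_lit 5) (nat_lit 24) (nat_lit 5) (nat_lit 25) (nat_lit 5) (nat_lit 410) (nat_lit 337) (nat_lit 117)))) (XT.nd (nat_lit 94) (nat_lit 252) (nat_lit 0) (XT.lf (nat_lit 0) (nat_lit 69694204835) (nat_lit 252) (nat_lit 10167722455) (nat_lit 84) (nat_lit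 2932995178) (nat_lit 22) (nat_lit 5) (nat_lit 25) (nat_lit 5) (nat_lit 23) (nat_lit 5) (nat_lit 411) (nat_lit 337) (nat_lit 116)) (XT.nd (nat_lit 94) (nat_lit 84) (nat_lit 0) (XT.lf (nat_lit 0) (nat_lit 11554463401) (nat_lit 168) (nat_lit 67628771541) (nat_lit 252) (nat_lit 5702034199) (nat_lit 20) (nat_lit 5) (nat_lit 22) (nat_lit 5) (nat_lit 23) (nat_lit 5) (nat_lit 412) (nat_lit 337) (nat_lit 115)) (XT.lf (nat_lit 0) (nat_lit 1993395813) (nat_lit 252) (nat_lit 52893288237) (nat_lit 84) (nat_lit 32149850450) (nat_lit 19) (nat_lit 5) (nat_lit 22) (nat_lit 5) (nat_lit 20) (nat_lit 5) (nat_lit 413) (nat_lit 337) (nat_lit 114))))))))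
noncomputable def xc191 : XT := (XT.nd (nat_lit 49256) (nat_lit 0) (nat_lit 2352) (XT.nd (nat_lit 48128) (nat_lit 0) (nat_lit 6804) (XT.nd (nat_lit 47564) (nat_lit 0) (nat_lit 8064) (XT.nd (nat_lit 47282) (nat_lit 0) (nat_lit 7980) (XT.nd (nat_lit 47094) (nat_lit 0) (nat_lit 7980) (XT.lf (nat_lit 0) (nat_lit 9807946802) (nat_lit 252) (nat_lit 31882036659) (nat_lit 84) (nat_lit 47562730648) (nat_lit 19) (nat_lit 5) (nat_lit 22) (nat_lit 5) (nat_lit 20) (nat_lit 5) (nat_lit 414) (nat_lit 337) (nat_lit 113)) (XT.nd (nat_lit 94) (nat_lit 0) (nat_lit 0) (XT.lf (nat_lit 0) (nat_lit 1337062678) (nat_lit 0) (nat_lit 1337062678) (nat_lit 1092) (nat_lit 6897801680) (nat_lit 114) (nat_lit 5) (nat_lit 114) (nat_lit 3) (nat_lit 127) (nat_lit 3) (nat_lit 338) (nat_lit 338) (nat_lit 188)) (XT.lf (nat_lit 0) (nat_lit 5634796851) (nat_lit 1092) (nat_lit 9193143390) (nat_lit 1176) (nat_lit 4605742961)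 (nat_lit 114) (nat_lit 5) (nat_lit 127) (nat_lit 3) (nat_lit 128) (nat_lit 5) (nat_lit 339) (nat_lit 338) (nat_lit 187)))) (XT.nd (nat_lit 94) (nat_lit 0) (nat_lit 0) (XT.lf (nat_lit 0) (nat_lit 5951280138) (nat_lit 1092) (nat_lit 1721748718) (nat_lit 1176) (nat_lit 12058839171) (nat_lit 114) (nat_lit 5) (nat_lit 127) (nat_lit 3) (nat_lit 128) (nat_lit 5) (nat_lit 340) (nat_lit 338) (nat_lit 186)) (XT.nd (nat_lit 94) (nat_lit 0) (nat_lit 84) (XT.lf (nat_lit 84) (nat_lit 6100865928) (nat_lit 0) (nat_lit 231123334) (nat_lit 1176) (nat_lit 13705643423) (nat_lit 115) (nat_lit 5) (nat_lit 114) (nat_lit 5) (nat_lit 128) (nat_lit 5) (nat_lit 341) (nat_lit 338) (nat_lit 185)) (XT.lf (nat_lit 0) (nat_lit 6810547264) (nat_lit 1092) (nat_lit 6227353377) (nat_lit 1176) (nat_lit 7312330222) (nat_lit 115) (nat_lit 5) (nat_lit 128) (nat_lit 5) (nat_lit 129) (nat_lit 5) (nat_lit 342) (nat_lit 338) (nat_lit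 184))))) (XT.nd (nat_lit 282) (nat_lit 0) (nat_lit 84) (XT.nd (nat_lit 94) (nat_lit 0) (nat_lit 84) (XT.lf (nat_lit 84) (nat_lit 1750551250) (nat_lit 0) (nat_lit 5567368264) (nat_lit 1176) (nat_lit 13354188327) (nat_lit 116) (nat_lit 5) (nat_lit 115) (nat_lit 5) (nat_lit 129) (nat_lit 5) (nat_lit 343) (nat_lit 338) (nat_lit 183)) (XT.nd (nat_lit 94) (nat_lit 0) (nat_lit 0) (XT.lf (nat_lit 0) (nat_lit 7922273986) (nat_lit 1092) (nat_lit 10919591284) (nat_lit 1176) (nat_lit 2159599825) (nat_lit 116) (nat_lit 5) (nat_lit 129) (nat_lit 5) (nat_lit 130) (nat_lit 5) (nat_lit 344) (nat_lit 338) (nat_lit 182)) (XT.lf (nat_lit 0) (nat_lit 8596883660) (nat_lit 1092) (nat_lit 2729987266) (nat_lit 1176) (nat_lit 10012584691) (nat_lit 116) (nat_lit 5) (nat_lit 129) (nat_lit 5) (nat_lit 130) (nat_lit 5) (nat_lit 345) (nat_lit 338) (nat_lit 181)))) (XT.nd (nat_lit 94) (nat_lit 0) (nat_lit 84) (XT.lf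 (nat_lit 84) (nat_lit 5827529751) (nat_lit 0) (nat_lit 3517428429) (nat_lit 1176) (nat_lit 12341356269) (nat_lit 117) (nat_lit 5) (nat_lit 116) (nat_lit 5) (nat_lit 130) (nat_lit 5) (nat_lit 346) (nat_lit 338) (nat_lit 180)) (XT.nd (nat_lit 94) (nat_lit 0) (nat_lit 0) (XT.lf (nat_lit 0) (nat_lit 10184873650) (nat_lit 1092) (nat_lit 7383647078) (nat_lit 1176) (nat_lit 4473296124) (nat_lit 117) (nat_lit 5) (nat_lit 130) (nat_lit 5) (nat_lit 131) (nat_lit 5) (nat_lit 347) (nat_lit 338) (nat_lit 179)) (XT.lf (nat_lit 84) (nat_lit 1341848145) (nat_lit 0) (nat_lit 9753303304) (nat_lit 1176) (nat_lit 11311832853) (nat_lit 118) (nat_lit 5) (nat_lit 117) (nat_lit 5) (nat_lit 131) (nat_lit 5) (nat_lit 348) (nat_lit 338) (nat_lit 178)))))) (XT.nd (nat_lit 564) (nat_lit 1428) (nat_lit 0) (XT.nd (nat_lit 282) (nat_lit 0) (nat_lit 168) (XT.nd (nat_lit 94) (nat_lit 0) (nat_lit 84) (XT.lf (nat_lit 84)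 (nat_lit 10490966009) (nat_lit 0) (nat_lit 1614906092) (nat_lit 1176) (nat_lit 10675378875) (nat_lit 118) (nat_lit 5) (nat_lit 117) (nat_lit 5) (nat_lit 131) (nat_lit 5) (nat_lit 349) (nat_lit 338) (nat_lit 177)) (XT.nd (nat_lit 94) (nat_lit 0) (nat_lit 0) (XT.lf (nat_lit 0) (nat_lit 13210455440) (nat_lit 1092) (nat_lit 3314102077) (nat_lit 1176) (nat_lit 6640641407) (nat_lit 118) (nat_lit 5) (nat_lit 131) (nat_lit 5) (nat_lit 132) (nat_lit 5) (nat_lit 350) (nat_lit 338) (nat_lit 176)) (XT.lf (nat_lit 84) (nat_lit 6042194857) (nat_lit 0) (nat_lit 8378996677) (nat_lit 1176) (nat_lit 9137645414) (nat_lit 119) (nat_lit 5) (nat_lit 118) (nat_lit 5) (nat_lit 132) (nat_lit 5) (nat_lit 351) (nat_lit 338) (nat_lit 175)))) (XT.nd (nat_lit 94) (nat_lit 0) (nat_lit 0) (XT.lf (nat_lit 0) (nat_lit 15700165169) (nat_lit 1092) (nat_lit 8208852907) (nat_lit 1176) (nat_lit 54724240) (nat_lit 119) (nat_lit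 5) (nat_lit 132) (nat_lit 5) (nat_lit 133) (nat_lit 5) (nat_lit 352) (nat_lit 338) (nat_lit 174)) (XT.nd (nat_lit 94) (nat_lit 0) (nat_lit 0) (XT.lf (nat_lit 84) (nat_lit 1325084309) (nat_lit 0) (nat_lit 15788247578) (nat_lit 1176) (nat_lit 7264952890) (nat_lit 120) (nat_lit 5) (nat_lit 119) (nat_lit 5) (nat_lit 133) (nat_lit 5) (nat_lit 353) (nat_lit 338) (nat_lit 173)) (XT.lf (nat_lit 84) (nat_lit 11325237802) (nat_lit 0) (nat_lit 7326550931) (nat_lit 1176) (nat_lit 6151378822) (nat_lit 120) (nat_lit 5) (nat_lit 119) (nat_lit 5) (nat_lit 133) (nat_lit 5) (nat_lit 354) (nat_lit 338) (nat_lit 172))))) (XT.nd (nat_lit 282) (nat_lit 588) (nat_lit 0) (XT.nd (nat_lit 94) (nat_lit 1092) (nat_lit 0) (XT.lf (nat_lit 0) (nat_lit 20247733511) (nat_lit 1092) (nat_lit 3623096165) (nat_lit 84) (nat_lit 1370103329) (nat_lit 120) (nat_lit 5) (nat_lit 133) (nat_lit 5) (nat_lit 121) (nat_lit 5) (nat_lit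 355) (nat_lit 338) (nat_lit 171)) (XT.nd (nat_lit 94) (nat_lit 0) (nat_lit 0) (XT.lf (nat_lit 0) (nat_lit 6591809042) (nat_lit 1092) (nat_lit 15437723579) (nat_lit 1176) (nat_lit 3658523308) (nat_lit 107) (nat_lit 5) (nat_lit 120) (nat_lit 5) (nat_lit 121) (nat_lit 5) (nat_lit 356) (nat_lit 338) (nat_lit 170)) (XT.lf (nat_lit 0) (nat_lit 17196912407) (nat_lit 1092) (nat_lit 6703614054) (nat_lit 1176) (nat_lit 2247474565) (nat_lit 107) (nat_lit 5) (nat_lit 120) (nat_lit 5) (nat_lit 121) (nat_lit 5) (nat_lit 357) (nat_lit 338) (nat_lit 169)))) (XT.nd (nat_lit 94) (nat_lit 84) (nat_lit 0) (XT.lf (nat_lit 0) (nat_lit 1512914081) (nat_lit 504) (nat_lit 24350706970) (nat_lit 588) (nat_lit 757539935) (nat_lit 101) (nat_lit 5) (nat_lit 107) (nat_lit 5) (nat_lit 108) (nat_lit 5) (nat_lit 358) (nat_lit 338) (nat_lit 168)) (XT.nd (nat_lit 94) (nat_lit 0) (nat_lit 0) (XT.lf (nat_lit 0) (nat_lit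 922137170) (nat_lit 588) (nat_lit 14695638925) (nat_lit 84) (nat_lit 11486049757) (nat_lit 100) (nat_lit 5) (nat_lit 107) (nat_lit 5) (nat_lit 101) (nat_lit 5) (nat_lit 359) (nat_lit 338) (nat_lit 167)) (XT.lf (nat_lit 0) (nat_lit 2634552279) (nat_lit 588) (nat_lit 3971250995) (nat_lit 84) (nat_lit 20995533819) (nat_lit 100) (nat_lit 5) (nat_lit 107) (nat_lit 5) (nat_lit 101) (nat_lit 5) (nat_lit 360) (nat_lit 338) (nat_lit 166))))))) (XT.nd (nat_lit 1128) (nat_lit 1932) (nat_lit 0) (XT.nd (nat_lit 564) (nat_lit 924) (nat_lit 0) (XT.nd (nat_lit 282) (nat_lit 504) (nat_lit 0) (XT.nd (nat_lit 94) (nat_lit 504) (nat_lit 0) (XT.lf (nat_lit 0) (nat_lit 4495644960) (nat_lit 672) (nat_lit 20911488791) (nat_lit 84) (nat_lit 2704186152) (nat_lit 93) (nat_lit 5) (nat_lit 101) (nat_lit 5) (nat_lit 94) (nat_lit 5) (nat_lit 361) (nat_lit 338) (nat_lit 165)) (XT.nd (nat_lit 94) (nat_lit 504) (nat_lit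 0) (XT.lf (nat_lit 0) (nat_lit 6520457626) (nat_lit 672) (nat_lit 9905661011) (nat_lit 84) (nat_lit 12207718464) (nat_lit 93) (nat_lit 5) (nat_lit 101) (nat_lit 5) (nat_lit 94) (nat_lit 5) (nat_lit 362) (nat_lit 338) (nat_lit 164)) (XT.lf (nat_lit 0) (nat_lit 1467764171) (nat_lit 504) (nat_lit 7151526902) (nat_lit 588) (nat_lit 20552923839) (nat_lit 87) (nat_lit 5) (nat_lit 93) (nat_lit 5) (nat_lit 94) (nat_lit 5) (nat_lit 363) (nat_lit 338) (nat_lit 163)))) (XT.nd (nat_lit 94) (nat_lit 504) (nat_lit 0) (XT.lf (nat_lit 0) (nat_lit 10908314701) (nat_lit 588) (nat_lit 16348523697) (nat_lit 84) (nat_lit 2466576156) (nat_lit 87) (nat_lit 5) (nat_lit 94) (nat_lit 5) (nat_lit 88) (nat_lit 5) (nat_lit 364) (nat_lit 338) (nat_lit 162)) (XT.nd (nat_lit 94) (nat_lit 504) (nat_lit 0) (XT.lf (nat_lit 0) (nat_lit 13338299603) (nat_lit 588) (nat_lit 4716845040) (nat_lit 84) (nat_lit 12234397399) (nat_lit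 87) (nat_lit 5) (nat_lit 94) (nat_lit 5) (nat_lit 88) (nat_lit 5) (nat_lit 365) (nat_lit 338) (nat_lit 161)) (XT.lf (nat_lit 0) (nat_lit 7421906070) (nat_lit 504) (nat_lit 8492286902) (nat_lit 588) (nat_lit 14956848944) (nat_lit 81) (nat_lit 5) (nat_lit 87) (nat_lit 5) (nat_lit 88) (nat_lit 5) (nat_lit 366) (nat_lit 338) (nat_lit 160))))) (XT.nd (nat_lit 282) (nat_lit 504) (nat_lit 0) (XT.nd (nat_lit 94) (nat_lit 420) (nat_lit 0) (XT.lf (nat_lit 0) (nat_lit 18630251938) (nat_lit 588) (nat_lit 11449269450) (nat_lit 84) (nat_lit 1389187268) (nat_lit 81) (nat_lit 5) (nat_lit 88) (nat_lit 5) (nat_lit 82) (nat_lit 5) (nat_lit 367) (nat_lit 338) (nat_lit 159)) (XT.nd (nat_lit 94) (nat_lit 0) (nat_lit 0) (XT.lf (nat_lit 0) (nat_lit 849836719) (nat_lit 420) (nat_lit 20673062555) (nat_lit 504) (nat_lit 10559149452) (nat_lit 76) (nat_lit 5) (nat_lit 81) (nat_lit 5) (nat_lit 82) (nat_lit 5) (nat_lit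 368) (nat_lit 338) (nat_lit 158)) (XT.lf (nat_lit 0) (nat_lit 13769941991) (nat_lit 420) (nat_lit 10851944918) (nat_lit 504) (nat_lit 8088908188) (nat_lit 76) (nat_lit 5) (nat_lit 81) (nat_lit 5) (nat_lit 82) (nat_lit 5) (nat_lit 369) (nat_lit 338) (nat_lit 157)))) (XT.nd (nat_lit 94) (nat_lit 504) (nat_lit 0) (XT.lf (nat_lit 0) (nat_lit 27087668796) (nat_lit 420) (nat_lit 726521056) (nat_lit 504) (nat_lit 5544937294) (nat_lit 76) (nat_lit 5) (nat_lit 81) (nat_lit 5) (nat_lit 82) (nat_lit 5) (nat_lit 370) (nat_lit 338) (nat_lit 156)) (XT.nd (nat_lit 94) (nat_lit 84) (nat_lit 0) (XT.lf (nat_lit 0) (nat_lit 6829020342) (nat_lit 420) (nat_lit 24437858712) (nat_lit 504) (nat_lit 2755683178) (nat_lit 71) (nat_lit 5) (nat_lit 76) (nat_lit 5) (nat_lit 77) (nat_lit 5) (nat_lit 371) (nat_lit 338) (nat_lit 155)) (XT.lf (nat_lit 0) (nat_lit 188525197) (nat_lit 504) (nat_lit 14248198246) (nat_lit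 84) (nat_lit 20267613748) (nat_lit 70) (nat_lit 5) (nat_lit 76) (nat_lit 5) (nat_lit 71) (nat_lit 5) (nat_lit 372) (nat_lit 338) (nat_lit 154)))))) (XT.nd (nat_lit 564) (nat_lit 1092) (nat_lit 0) (XT.nd (nat_lit 282) (nat_lit 420) (nat_lit 0) (XT.nd (nat_lit 94) (nat_lit 420) (nat_lit 0) (XT.lf (nat_lit 0) (nat_lit 3164186451) (nat_lit 504) (nat_lit 932583086) (nat_lit 84) (nat_lit 31309691903) (nat_lit 70) (nat_lit 5) (nat_lit 76) (nat_lit 5) (nat_lit 71) (nat_lit 5) (nat_lit 373) (nat_lit 338) (nat_lit 153)) (XT.nd (nat_lit 94) (nat_lit 0) (nat_lit 0) (XT.lf (nat_lit 0) (nat_lit 6425548217) (nat_lit 504) (nat_lit 23136753540) (nat_lit 84) (nat_lit 6562060568) (nat_lit 65) (nat_lit 5) (nat_lit 71) (nat_lit 5) (nat_lit 66) (nat_lit 5) (nat_lit 374) (nat_lit 338) (nat_lit 152)) (XT.lf (nat_lit 0) (nat_lit 9837293338) (nat_lit 504) (nat_lit 9549936439) (nat_lit 84) (nat_lit 17475768294)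 (nat_lit 65) (nat_lit 5) (nat_lit 71) (nat_lit 5) (nat_lit 66) (nat_lit 5) (nat_lit 375) (nat_lit 338) (nat_lit 151)))) (XT.nd (nat_lit 94) (nat_lit 0) (nat_lit 0) (XT.lf (nat_lit 0) (nat_lit 4546950547) (nat_lit 420) (nat_lit 8850579092) (nat_lit 504) (nat_lit 24225684769) (nat_lit 60) (nat_lit 5) (nat_lit 65) (nat_lit 5) (nat_lit 66) (nat_lit 5) (nat_lit 376) (nat_lit 338) (nat_lit 150)) (XT.nd (nat_lit 94) (nat_lit 0) (nat_lit 0) (XT.lf (nat_lit 0) (nat_lit 17186462640) (nat_lit 504) (nat_lit 19144379070) (nat_lit 84) (nat_lit 2072494728) (nat_lit 60) (nat_lit 5) (nat_lit 66) (nat_lit 5) (nat_lit 61) (nat_lit 5) (nat_lit 377) (nat_lit 338) (nat_lit 149)) (XT.lf (nat_lit 0) (nat_lit 21181105276) (nat_lit 504) (nat_lit 4873823445) (nat_lit 84) (nat_lit 13149984677) (nat_lit 60) (nat_lit 5) (nat_lit 66) (nat_lit 5) (nat_lit 61) (nat_lit 5) (nat_lit 378) (nat_lit 338) (nat_lit 148)))))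 (XT.nd (nat_lit 282) (nat_lit 756) (nat_lit 0) (XT.nd (nat_lit 94) (nat_lit 0) (nat_lit 0) (XT.lf (nat_lit 0) (nat_lit 10038762192) (nat_lit 336) (nat_lit 15358205704) (nat_lit 420) (nat_lit 14631359150) (nat_lit 56) (nat_lit 5) (nat_lit 60) (nat_lit 5) (nat_lit 61) (nat_lit 5) (nat_lit 379) (nat_lit 338) (nat_lit 147)) (XT.nd (nat_lit 94) (nat_lit 0) (nat_lit 0) (XT.lf (nat_lit 0) (nat_lit 25514371066) (nat_lit 336) (nat_lit 4277864665) (nat_lit 420) (nat_lit 11083527237) (nat_lit 56) (nat_lit 5) (nat_lit 60) (nat_lit 5) (nat_lit 61) (nat_lit 5) (nat_lit 380) (nat_lit 338) (nat_lit 146)) (XT.lf (nat_lit 0) (nat_lit 34392547283) (nat_lit 420) (nat_lit 353213176) (nat_lit 84) (nat_lit 7001582811) (nat_lit 56) (nat_lit 5) (nat_lit 61) (nat_lit 5) (nat_lit 57) (nat_lit 5) (nat_lit 381) (nat_lit 338) (nat_lit 145)))) (XT.nd (nat_lit 94) (nat_lit 420) (nat_lit 0) (XT.lf (nat_lit 0) (nat_lit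 15383917067) (nat_lit 336) (nat_lit 23945878914) (nat_lit 420) (nat_lit 3310128608) (nat_lit 52) (nat_lit 5) (nat_lit 56) (nat_lit 5) (nat_lit 57) (nat_lit 5) (nat_lit 382) (nat_lit 338) (nat_lit 144)) (XT.nd (nat_lit 94) (nat_lit 336) (nat_lit 0) (XT.lf (nat_lit 0) (nat_lit 844297404) (nat_lit 420) (nat_lit 11954766915) (nat_lit 84) (nat_lit 30760800292) (nat_lit 51) (nat_lit 5) (nat_lit 56) (nat_lit 5) (nat_lit 52) (nat_lit 5) (nat_lit 383) (nat_lit 338) (nat_lit 143)) (XT.lf (nat_lit 0) (nat_lit 3862327173) (nat_lit 336) (nat_lit 1232774902) (nat_lit 420) (nat_lit 39411049967) (nat_lit 47) (nat_lit 5) (nat_lit 51) (nat_lit 5) (nat_lit 52) (nat_lit 5) (nat_lit 384) (nat_lit 338) (nat_lit 142))))))))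
noncomputable def xc192 : XT := (XT.nd (nat_lit 2162) (nat_lit 420) (nat_lit 0) (XT.nd (nat_lit 1034) (nat_lit 1008) (nat_lit 0) (XT.nd (nat_lit 470) (nat_lit 588) (nat_lit 0) (XT.nd (nat_lit 188) (nat_lit 336) (nat_lit 0) (XT.nd (nat_lit 94) (nat_lit 0) (nat_lit 0) (XT.lf (nat_lit 0) (nat_lit 9707873808) (nat_lit 420) (nat_lit 25164546071) (nat_lit 84) (nat_lit 10602224017) (nat_lit 47) (nat_lit 5) (nat_lit 52) (nat_lit 5) (nat_lit 48) (nat_lit 5) (nat_lit 385) (nat_lit 338) (nat_lit 141)) (XT.lf (nat_lit 0) (nat_lit 14474373979) (nat_lit 420) (nat_lit 9220426389) (nat_lit 84) (nat_lit 22778031226) (nat_lit 47) (nat_lit 5) (nat_lit 52) (nat_lit 5) (nat_lit 48) (nat_lit 5) (nat_lit 386) (nat_lit 338) (nat_lit 140))) (XT.nd (nat_lit 94) (nat_lit 0) (nat_lit 0) (XT.lf (nat_lit 0) (nat_lit 7363993094) (nat_lit 336) (nat_lit 12095874814) (nat_lit 420) (nat_lit 28039892146) (nat_lit 43) (nat_lit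 5) (nat_lit 47) (nat_lit 5) (nat_lit 48) (nat_lit 5) (nat_lit 387) (nat_lit 338) (nat_lit 139)) (XT.nd (nat_lit 94) (nat_lit 0) (nat_lit 0) (XT.lf (nat_lit 0) (nat_lit 24655685470) (nat_lit 336) (nat_lit 38681323) (nat_lit 420) (nat_lit 23861233402) (nat_lit 43) (nat_lit 5) (nat_lit 47) (nat_lit 5) (nat_lit 48) (nat_lit 5) (nat_lit 388) (nat_lit 338) (nat_lit 138)) (XT.lf (nat_lit 0) (nat_lit 30212329150) (nat_lit 420) (nat_lit 7285980399) (nat_lit 84) (nat_lit 12142109655) (nat_lit 43) (nat_lit 5) (nat_lit 48) (nat_lit 5) (nat_lit 44) (nat_lit 5) (nat_lit 389) (nat_lit 338) (nat_lit 137))))) (XT.nd (nat_lit 282) (nat_lit 336) (nat_lit 0) (XT.nd (nat_lit 94) (nat_lit 0) (nat_lit 0) (XT.lf (nat_lit 0) (nat_lit 10042701037) (nat_lit 252) (nat_lit 25956981052) (nat_lit 336) (nat_lit 14756141861) (nat_lit 40) (nat_lit 5) (nat_lit 43) (nat_lit 5) (nat_lit 44) (nat_lit 5) (nat_lit 390) (nat_lit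 338) (nat_lit 136)) (XT.nd (nat_lit 94) (nat_lit 0) (nat_lit 0) (XT.lf (nat_lit 0) (nat_lit 28060825822) (nat_lit 252) (nat_lit 13980009976) (nat_lit 336) (nat_lit 9862668820) (nat_lit 40) (nat_lit 5) (nat_lit 43) (nat_lit 5) (nat_lit 44) (nat_lit 5) (nat_lit 391) (nat_lit 338) (nat_lit 135)) (XT.lf (nat_lit 0) (nat_lit 46635374037) (nat_lit 252) (nat_lit 1632283222) (nat_lit 336) (nat_lit 4819160393) (nat_lit 40) (nat_lit 5) (nat_lit 43) (nat_lit 5) (nat_lit 44) (nat_lit 5) (nat_lit 392) (nat_lit 338) (nat_lit 134)))) (XT.nd (nat_lit 94) (nat_lit 0) (nat_lit 0) (XT.lf (nat_lit 0) (nat_lit 598918027) (nat_lit 336) (nat_lit 42705524162) (nat_lit 84) (nat_lit 10995255648) (nat_lit 36) (nat_lit 5) (nat_lit 40) (nat_lit 5) (nat_lit 37) (nat_lit 5) (nat_lit 393) (nat_lit 338) (nat_lit 133)) (XT.nd (nat_lit 94) (nat_lit 0) (nat_lit 0) (XT.lf (nat_lit 0) (nat_lit 6168016208) (nat_lit 336) (nat_lit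 25280925538) (nat_lit 84) (nat_lit 24097133540) (nat_lit 36) (nat_lit 5) (nat_lit 40) (nat_lit 5) (nat_lit 37) (nat_lit 5) (nat_lit 394) (nat_lit 338) (nat_lit 132)) (XT.lf (nat_lit 0) (nat_lit 11908244929) (nat_lit 336) (nat_lit 7318236387) (nat_lit 84) (nat_lit 37604659884) (nat_lit 36) (nat_lit 5) (nat_lit 40) (nat_lit 5) (nat_lit 37) (nat_lit 5) (nat_lit 395) (nat_lit 338) (nat_lit 131)))))) (XT.nd (nat_lit 564) (nat_lit 504) (nat_lit 0) (XT.nd (nat_lit 282) (nat_lit 252) (nat_lit 0) (XT.nd (nat_lit 94) (nat_lit 0) (nat_lit 0) (XT.lf (nat_lit 0) (nat_lit 11429566695) (nat_lit 252) (nat_lit 6508770706) (nat_lit 336) (nat_lit 40214241132) (nat_lit 33) (nat_lit 5) (nat_lit 36) (nat_lit 5) (nat_lit 37) (nat_lit 5) (nat_lit 396) (nat_lit 338) (nat_lit 130)) (XT.nd (nat_lit 94) (nat_lit 0) (nat_lit 0) (XT.lf (nat_lit 0) (nat_lit 24296588691) (nat_lit 336) (nat_lit 28667236008) (nat_lit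 84) (nat_lit 6546781395) (nat_lit 33) (nat_lit 5) (nat_lit 37) (nat_lit 5) (nat_lit 34) (nat_lit 5) (nat_lit 397) (nat_lit 338) (nat_lit 129)) (XT.lf (nat_lit 0) (nat_lit 30917111555) (nat_lit 336) (nat_lit 10120271752) (nat_lit 84) (nat_lit 19871332631) (nat_lit 33) (nat_lit 5) (nat_lit 37) (nat_lit 5) (nat_lit 34) (nat_lit 5) (nat_lit 398) (nat_lit 338) (nat_lit 128)))) (XT.nd (nat_lit 94) (nat_lit 0) (nat_lit 0) (XT.lf (nat_lit 0) (nat_lit 9184789493) (nat_lit 252) (nat_lit 28647833958) (nat_lit 336) (nat_lit 24514764858) (nat_lit 30) (nat_lit 5) (nat_lit 33) (nat_lit 5) (nat_lit 34) (nat_lit 5) (nat_lit 399) (nat_lit 338) (nat_lit 127)) (XT.nd (nat_lit 94) (nat_lit 0) (nat_lit 0) (XT.lf (nat_lit 0) (nat_lit 29300959497) (nat_lit 252) (nat_lit 15765852336) (nat_lit 336) (nat_lit 18760617882) (nat_lit 30) (nat_lit 5) (nat_lit 33) (nat_lit 5) (nat_lit 34) (nat_lit 5) (nat_lit 400) (nat_lit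 338) (nat_lit 126)) (XT.lf (nat_lit 0) (nat_lit 50038895092) (nat_lit 252) (nat_lit 2485065965) (nat_lit 336) (nat_lit 12829434869) (nat_lit 30) (nat_lit 5) (nat_lit 33) (nat_lit 5) (nat_lit 34) (nat_lit 5) (nat_lit 401) (nat_lit 338) (nat_lit 125))))) (XT.nd (nat_lit 282) (nat_lit 252) (nat_lit 0) (XT.nd (nat_lit 94) (nat_lit 84) (nat_lit 0) (XT.lf (nat_lit 0) (nat_lit 4470105690) (nat_lit 168) (nat_lit 55896434159) (nat_lit 252) (nat_lit 6555348402) (nat_lit 28) (nat_lit 5) (nat_lit 30) (nat_lit 5) (nat_lit 31) (nat_lit 5) (nat_lit 402) (nat_lit 338) (nat_lit 124)) (XT.nd (nat_lit 94) (nat_lit 0) (nat_lit 0) (XT.lf (nat_lit 0) (nat_lit 100625497) (nat_lit 252) (nat_lit 43369372629) (nat_lit 84) (nat_lit 25063280443) (nat_lit 27) (nat_lit 5) (nat_lit 30) (nat_lit 5) (nat_lit 28) (nat_lit 5) (nat_lit 403) (nat_lit 338) (nat_lit 123)) (XT.lf (nat_lit 0) (nat_lit 6825541842) (nat_lit 252)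 (nat_lit 23764226842) (nat_lit 84) (nat_lit 39602815667) (nat_lit 27) (nat_lit 5) (nat_lit 30) (nat_lit 5) (nat_lit 28) (nat_lit 5) (nat_lit 404) (nat_lit 338) (nat_lit 122)))) (XT.nd (nat_lit 94) (nat_lit 252) (nat_lit 0) (XT.lf (nat_lit 0) (nat_lit 13757744622) (nat_lit 252) (nat_lit 3553041282) (nat_lit 84) (nat_lit 54592582268) (nat_lit 27) (nat_lit 5) (nat_lit 30) (nat_lit 5) (nat_lit 28) (nat_lit 5) (nat_lit 405) (nat_lit 338) (nat_lit 121)) (XT.nd (nat_lit 94) (nat_lit 0) (nat_lit 0) (XT.lf (nat_lit 0) (nat_lit 17638397390) (nat_lit 252) (nat_lit 3440273070) (nat_lit 336) (nat_lit 52583129974) (nat_lit 24) (nat_lit 5) (nat_lit 27) (nat_lit 5) (nat_lit 28) (nat_lit 5) (nat_lit 406) (nat_lit 338) (nat_lit 120)) (XT.lf (nat_lit 0) (nat_lit 28770608300) (nat_lit 336) (nat_lit 36021298960) (nat_lit 84) (nat_lit 10678373500) (nat_lit 24) (nat_lit 5) (nat_lit 28) (nat_lit 5) (nat_lit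 25) (nat_lit 5) (nat_lit 407) (nat_lit 338) (nat_lit 119))))))) (XT.nd (nat_lit 48128) (nat_lit 0) (nat_lit 8064) (XT.nd (nat_lit 564) (nat_lit 84) (nat_lit 0) (XT.nd (nat_lit 282) (nat_lit 168) (nat_lit 0) (XT.nd (nat_lit 94) (nat_lit 168) (nat_lit 0) (XT.lf (nat_lit 0) (nat_lit 36735079053) (nat_lit 336) (nat_lit 15435948649) (nat_lit 84) (nat_lit 25162742256) (nat_lit 24) (nat_lit 5) (nat_lit 28) (nat_lit 5) (nat_lit 25) (nat_lit 5) (nat_lit 408) (nat_lit 338) (nat_lit 118)) (XT.nd (nat_lit 94) (nat_lit 0) (nat_lit 0) (XT.lf (nat_lit 0) (nat_lit 5904934802) (nat_lit 168) (nat_lit 39099021390) (nat_lit 252) (nat_lit 34249290861) (nat_lit 22) (nat_lit 5) (nat_lit 24) (nat_lit 5) (nat_lit 25) (nat_lit 5) (nat_lit 409) (nat_lit 338) (nat_lit 117)) (XT.lf (nat_lit 0) (nat_lit 28233051682) (nat_lit 168) (nat_lit 25456183207) (nat_lit 252) (nat_lit 27538033388) (nat_lit 22) (nat_lit 5) (nat_lit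 24) (nat_lit 5) (nat_lit 25) (nat_lit 5) (nat_lit 410) (nat_lit 338) (nat_lit 116)))) (XT.nd (nat_lit 94) (nat_lit 168) (nat_lit 0) (XT.lf (nat_lit 0) (nat_lit 51251819373) (nat_lit 168) (nat_lit 11390916246) (nat_lit 252) (nat_lit 20619782537) (nat_lit 22) (nat_lit 5) (nat_lit 24) (nat_lit 5) (nat_lit 25) (nat_lit 5) (nat_lit 411) (nat_lit 338) (nat_lit 115)) (XT.nd (nat_lit 94) (nat_lit 168) (nat_lit 0) (XT.lf (nat_lit 0) (nat_lit 71903654473) (nat_lit 252) (nat_lit 10409050471) (nat_lit 84) (nat_lit 3047232446) (nat_lit 22) (nat_lit 5) (nat_lit 25) (nat_lit 5) (nat_lit 23) (nat_lit 5) (nat_lit 412) (nat_lit 338) (nat_lit 114)) (XT.lf (nat_lit 0) (nat_lit 11985775265) (nat_lit 168) (nat_lit 69700323442) (nat_lit 252) (nat_lit 5829012556) (nat_lit 20) (nat_lit 5) (nat_lit 22) (nat_lit 5) (nat_lit 23) (nat_lit 5) (nat_lit 413) (nat_lit 338) (nat_lit 113))))) (XT.nd (nat_lit 47282) (nat_lit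 0) (nat_lit 7980) (XT.nd (nat_lit 94) (nat_lit 0) (nat_lit 0) (XT.lf (nat_lit 0) (nat_lit 2102505973) (nat_lit 252) (nat_lit 54460981288) (nat_lit 84) (nat_lit 33169611882) (nat_lit 19) (nat_lit 5) (nat_lit 22) (nat_lit 5) (nat_lit 20) (nat_lit 5) (nat_lit 414) (nat_lit 338) (nat_lit 112)) (XT.nd (nat_lit 47094) (nat_lit 0) (nat_lit 7980) (XT.lf (nat_lit 0) (nat_lit 10157885385) (nat_lit 252) (nat_lit 32800545766) (nat_lit 84) (nat_lit 49059596314) (nat_lit 19) (nat_lit 5) (nat_lit 22) (nat_lit 5) (nat_lit 20) (nat_lit 5) (nat_lit 415) (nat_lit 338) (nat_lit 111)) (XT.lf (nat_lit 0) (nat_lit 1456242416) (nat_lit 0) (nat_lit 1456242416) (nat_lit 1092) (nat_lit 6950770947) (nat_lit 114) (nat_lit 5) (nat_lit 114) (nat_lit 3) (nat_lit 127) (nat_lit 3) (nat_lit 339) (nat_lit 339) (nat_lit 186)))) (XT.nd (nat_lit 94) (nat_lit 0) (nat_lit 0) (XT.lf (nat_lit 0) (nat_lit 6109554101) (nat_lit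 1092) (nat_lit 9315370625) (nat_lit 1176) (nat_lit 4600771831) (nat_lit 114) (nat_lit 5) (nat_lit 127) (nat_lit 3) (nat_lit 128) (nat_lit 5) (nat_lit 340) (nat_lit 339) (nat_lit 185)) (XT.nd (nat_lit 94) (nat_lit 0) (nat_lit 0) (XT.lf (nat_lit 0) (nat_lit 6426825640) (nat_lit 1092) (nat_lit 1617256575) (nat_lit 1176) (nat_lit 12289356530) (nat_lit 114) (nat_lit 5) (nat_lit 127) (nat_lit 3) (nat_lit 128) (nat_lit 5) (nat_lit 341) (nat_lit 339) (nat_lit 184)) (XT.lf (nat_lit 84) (nat_lit 6446260870) (nat_lit 0) (nat_lit 365874638) (nat_lit 1176) (nat_lit 13836802743) (nat_lit 115) (nat_lit 5) (nat_lit 114) (nat_lit 5) (nat_lit 128) (nat_lit 5) (nat_lit 342) (nat_lit 339) (nat_lit 183)))))) (XT.nd (nat_lit 564) (nat_lit 0) (nat_lit 168) (XT.nd (nat_lit 282) (nat_lit 0) (nat_lit 84) (XT.nd (nat_lit 94) (nat_lit 0) (nat_lit 0) (XT.lf (nat_lit 0) (nat_lit 7295766282) (nat_lit 1092) (nat_lit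 6258039724) (nat_lit 1176) (nat_lit 7417755526) (nat_lit 115) (nat_lit 5) (nat_lit 128) (nat_lit 5) (nat_lit 129) (nat_lit 5) (nat_lit 343) (nat_lit 339) (nat_lit 182)) (XT.nd (nat_lit 94) (nat_lit 0) (nat_lit 84) (XT.lf (nat_lit 84) (nat_lit 1965536181) (nat_lit 0) (nat_lit 5846683860) (nat_lit 1176) (nat_lit 13491433671) (nat_lit 116) (nat_lit 5) (nat_lit 115) (nat_lit 5) (nat_lit 129) (nat_lit 5) (nat_lit 344) (nat_lit 339) (nat_lit 181)) (XT.lf (nat_lit 0) (nat_lit 8426241080) (nat_lit 1092) (nat_lit 11092176149) (nat_lit 1176) (nat_lit 2125114960) (nat_lit 116) (nat_lit 5) (nat_lit 129) (nat_lit 5) (nat_lit 130) (nat_lit 5) (nat_lit 345) (nat_lit 339) (nat_lit 180)))) (XT.nd (nat_lit 94) (nat_lit 0) (nat_lit 0) (XT.lf (nat_lit 0) (nat_lit 9113994814) (nat_lit 1092) (nat_lit 2653683346) (nat_lit 1176) (nat_lit 10224592218) (nat_lit 116) (nat_lit 5) (nat_lit 129) (nat_lit 5) (nat_lit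 130) (nat_lit 5) (nat_lit 346) (nat_lit 339) (nat_lit 179)) (XT.nd (nat_lit 94) (nat_lit 0) (nat_lit 84) (XT.lf (nat_lit 84) (nat_lit 6167487391) (nat_lit 0) (nat_lit 3711817323) (nat_lit 1176) (nat_lit 12470789972) (nat_lit 117) (nat_lit 5) (nat_lit 116) (nat_lit 5) (nat_lit 130) (nat_lit 5) (nat_lit 347) (nat_lit 339) (nat_lit 178)) (XT.lf (nat_lit 0) (nat_lit 10737080156) (nat_lit 1092) (nat_lit 7448964582) (nat_lit 1176) (nat_lit 4530853825) (nat_lit 117) (nat_lit 5) (nat_lit 130) (nat_lit 5) (nat_lit 131) (nat_lit 5) (nat_lit 348) (nat_lit 339) (nat_lit 177))))) (XT.nd (nat_lit 282) (nat_lit 0) (nat_lit 84) (XT.nd (nat_lit 94) (nat_lit 0) (nat_lit 0) (XT.lf (nat_lit 84) (nat_lit 1545364937) (nat_lit 0) (nat_lit 10124707574) (nat_lit 1176) (nat_lit 11423510896) (nat_lit 118) (nat_lit 5) (nat_lit 117) (nat_lit 5) (nat_lit 131) (nat_lit 5) (nat_lit 349) (nat_lit 339) (nat_lit 176))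 (XT.nd (nat_lit 94) (nat_lit 0) (nat_lit 84) (XT.lf (nat_lit 84) (nat_lit 10973236877) (nat_lit 0) (nat_lit 1731943803) (nat_lit 1176) (nat_lit 10774512734) (nat_lit 118) (nat_lit 5) (nat_lit 117) (nat_lit 5) (nat_lit 131) (nat_lit 5) (nat_lit 350) (nat_lit 339) (nat_lit 175)) (XT.lf (nat_lit 0) (nat_lit 13836625667) (nat_lit 1092) (nat_lit 3256323557) (nat_lit 1176) (nat_lit 6782848319) (nat_lit 118) (nat_lit 5) (nat_lit 131) (nat_lit 5) (nat_lit 132) (nat_lit 5) (nat_lit 351) (nat_lit 339) (nat_lit 174)))) (XT.nd (nat_lit 94) (nat_lit 0) (nat_lit 84) (XT.lf (nat_lit 84) (nat_lit 6388393505) (nat_lit 0) (nat_lit 8691563197) (nat_lit 1176) (nat_lit 9201858969) (nat_lit 119) (nat_lit 5) (nat_lit 118) (nat_lit 5) (nat_lit 132) (nat_lit 5) (nat_lit 352) (nat_lit 339) (nat_lit 173)) (XT.nd (nat_lit 94) (nat_lit 0) (nat_lit 0) (XT.lf (nat_lit 0) (nat_lit 16391704695) (nat_lit 1092) (nat_lit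 8301581676) (nat_lit 1176) (nat_lit 6223344) (nat_lit 119) (nat_lit 5) (nat_lit 132) (nat_lit 5) (nat_lit 133) (nat_lit 5) (nat_lit 353) (nat_lit 339) (nat_lit 172)) (XT.lf (nat_lit 84) (nat_lit 1526270064) (nat_lit 0) (nat_lit 16317838871) (nat_lit 1176) (nat_lit 7282958562) (nat_lit 120) (nat_lit 5) (nat_lit 119) (nat_lit 5) (nat_lit 133) (nat_lit 5) (nat_lit 354) (nat_lit 339) (nat_lit 171))))))))
noncomputable def xc193 : XT := (XT.nd (nat_lit 2256) (nat_lit 2520) (nat_lit 0) (XT.nd (nat_lit 1128) (nat_lit 2268) (nat_lit 0) (XT.nd (nat_lit 564) (nat_lit 1092) (nat_lit 0) (XT.nd (nat_lit 282) (nat_lit 588) (nat_lit 0) (XT.nd (nat_lit 94) (nat_lit 1008) (nat_lit 0) (XT.lf (nat_lit 84) (nat_lit 11831614200) (nat_lit 0) (nat_lit 7592622233) (nat_lit 1176) (nat_lit 6141094002) (nat_lit 120) (nat_lit 5) (nat_lit 119) (nat_lit 5) (nat_lit 133) (nat_lit 5) (nat_lit 355) (nat_lit 339) (nat_lit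 170)) (XT.nd (nat_lit 94) (nat_lit 1092) (nat_lit 0) (XT.lf (nat_lit 0) (nat_lit 21063440290) (nat_lit 1092) (nat_lit 3577879933) (nat_lit 84) (nat_lit 1375560526) (nat_lit 120) (nat_lit 5) (nat_lit 133) (nat_lit 5) (nat_lit 121) (nat_lit 5) (nat_lit 356) (nat_lit 339) (nat_lit 169)) (XT.lf (nat_lit 0) (nat_lit 6952092464) (nat_lit 1092) (nat_lit 15944276050) (nat_lit 1176) (nat_lit 3581644094) (nat_lit 107) (nat_lit 5) (nat_lit 120) (nat_lit 5) (nat_lit 121) (nat_lit 5) (nat_lit 357) (nat_lit 339) (nat_lit 168)))) (XT.nd (nat_lit 94) (nat_lit 588) (nat_lit 0) (XT.lf (nat_lit 0) (nat_lit 17881265325) (nat_lit 1092) (nat_lit 6938567737) (nat_lit 1176) (nat_lit 2132574563) (nat_lit 107) (nat_lit 5) (nat_lit 120) (nat_lit 5) (nat_lit 121) (nat_lit 5) (nat_lit 358) (nat_lit 339) (nat_lit 167)) (XT.nd (nat_lit 94) (nat_lit 84) (nat_lit 0) (XT.lf (nat_lit 0) (nat_lit 1715917167) (nat_lit 504)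 (nat_lit 25123790003) (nat_lit 588) (nat_lit 600674327) (nat_lit 101) (nat_lit 5) (nat_lit 107) (nat_lit 5) (nat_lit 108) (nat_lit 5) (nat_lit 359) (nat_lit 339) (nat_lit 166)) (XT.lf (nat_lit 0) (nat_lit 1122125662) (nat_lit 588) (nat_lit 14995675951) (nat_lit 84) (nat_lit 11820335041) (nat_lit 100) (nat_lit 5) (nat_lit 107) (nat_lit 5) (nat_lit 101) (nat_lit 5) (nat_lit 360) (nat_lit 339) (nat_lit 165))))) (XT.nd (nat_lit 282) (nat_lit 504) (nat_lit 0) (XT.nd (nat_lit 94) (nat_lit 588) (nat_lit 0) (XT.lf (nat_lit 0) (nat_lit 2882471934) (nat_lit 588) (nat_lit 3943508389) (nat_lit 84) (nat_lit 21625268055) (nat_lit 100) (nat_lit 5) (nat_lit 107) (nat_lit 5) (nat_lit 101) (nat_lit 5) (nat_lit 361) (nat_lit 339) (nat_lit 164)) (XT.nd (nat_lit 94) (nat_lit 0) (nat_lit 0) (XT.lf (nat_lit 0) (nat_lit 4797608061) (nat_lit 672) (nat_lit 21404684002) (nat_lit 84) (nat_lit 2774879090) (nat_lit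 93) (nat_lit 5) (nat_lit 101) (nat_lit 5) (nat_lit 94) (nat_lit 5) (nat_lit 362) (nat_lit 339) (nat_lit 163)) (XT.lf (nat_lit 0) (nat_lit 6880300936) (nat_lit 672) (nat_lit 10062337917) (nat_lit 84) (nat_lit 12573415901) (nat_lit 93) (nat_lit 5) (nat_lit 101) (nat_lit 5) (nat_lit 94) (nat_lit 5) (nat_lit 363) (nat_lit 339) (nat_lit 162)))) (XT.nd (nat_lit 94) (nat_lit 0) (nat_lit 0) (XT.lf (nat_lit 0) (nat_lit 1662140795) (nat_lit 504) (nat_lit 7378792311) (nat_lit 588) (nat_lit 21030306696) (nat_lit 87) (nat_lit 5) (nat_lit 93) (nat_lit 5) (nat_lit 94) (nat_lit 5) (nat_lit 364) (nat_lit 339) (nat_lit 161)) (XT.nd (nat_lit 94) (nat_lit 0) (nat_lit 0) (XT.lf (nat_lit 0) (nat_lit 11396219086) (nat_lit 588) (nat_lit 16705720809) (nat_lit 84) (nat_lit 2537748173) (nat_lit 87) (nat_lit 5) (nat_lit 94) (nat_lit 5) (nat_lit 88) (nat_lit 5) (nat_lit 365) (nat_lit 339) (nat_lit 160)) (XT.lf (nat_lit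 0) (nat_lit 13897030953) (nat_lit 588) (nat_lit 4717958485) (nat_lit 84) (nat_lit 12608530989) (nat_lit 87) (nat_lit 5) (nat_lit 94) (nat_lit 5) (nat_lit 88) (nat_lit 5) (nat_lit 366) (nat_lit 339) (nat_lit 159)))))) (XT.nd (nat_lit 564) (nat_lit 924) (nat_lit 0) (XT.nd (nat_lit 282) (nat_lit 420) (nat_lit 0) (XT.nd (nat_lit 94) (nat_lit 420) (nat_lit 0) (XT.lf (nat_lit 0) (nat_lit 7795624813) (nat_lit 504) (nat_lit 8754209943) (nat_lit 588) (nat_lit 15273318130) (nat_lit 81) (nat_lit 5) (nat_lit 87) (nat_lit 5) (nat_lit 88) (nat_lit 5) (nat_lit 367) (nat_lit 339) (nat_lit 158)) (XT.nd (nat_lit 94) (nat_lit 420) (nat_lit 0) (XT.lf (nat_lit 0) (nat_lit 19345825708) (nat_lit 588) (nat_lit 11660144706) (nat_lit 84) (nat_lit 1433523555) (nat_lit 81) (nat_lit 5) (nat_lit 88) (nat_lit 5) (nat_lit 82) (nat_lit 5) (nat_lit 368) (nat_lit 339) (nat_lit 157)) (XT.lf (nat_lit 0) (nat_lit 1018775356)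 (nat_lit 420) (nat_lit 21306633851) (nat_lit 504) (nat_lit 10746537185) (nat_lit 76) (nat_lit 5) (nat_lit 81) (nat_lit 5) (nat_lit 82) (nat_lit 5) (nat_lit 369) (nat_lit 339) (nat_lit 156)))) (XT.nd (nat_lit 94) (nat_lit 420) (nat_lit 0) (XT.lf (nat_lit 0) (nat_lit 14335116399) (nat_lit 420) (nat_lit 11181280871) (nat_lit 504) (nat_lit 8203926320) (nat_lit 76) (nat_lit 5) (nat_lit 81) (nat_lit 5) (nat_lit 82) (nat_lit 5) (nat_lit 370) (nat_lit 339) (nat_lit 155)) (XT.nd (nat_lit 94) (nat_lit 420) (nat_lit 0) (XT.lf (nat_lit 0) (nat_lit 28061534159) (nat_lit 420) (nat_lit 742181580) (nat_lit 504) (nat_lit 5585173685) (nat_lit 76) (nat_lit 5) (nat_lit 81) (nat_lit 5) (nat_lit 82) (nat_lit 5) (nat_lit 371) (nat_lit 339) (nat_lit 154)) (XT.lf (nat_lit 0) (nat_lit 7177768513) (nat_lit 420) (nat_lit 25183268130) (nat_lit 504) (nat_lit 2711941577) (nat_lit 71) (nat_lit 5) (nat_lit 76) (nat_lit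 5) (nat_lit 77) (nat_lit 5) (nat_lit 372) (nat_lit 339) (nat_lit 153))))) (XT.nd (nat_lit 282) (nat_lit 420) (nat_lit 0) (XT.nd (nat_lit 94) (nat_lit 420) (nat_lit 0) (XT.lf (nat_lit 0) (nat_lit 317129261) (nat_lit 504) (nat_lit 14554052799) (nat_lit 84) (nat_lit 20904796411) (nat_lit 70) (nat_lit 5) (nat_lit 76) (nat_lit 5) (nat_lit 71) (nat_lit 5) (nat_lit 373) (nat_lit 339) (nat_lit 152)) (XT.nd (nat_lit 94) (nat_lit 420) (nat_lit 0) (XT.lf (nat_lit 0) (nat_lit 3381344886) (nat_lit 504) (nat_lit 829737980) (nat_lit 84) (nat_lit 32288911787) (nat_lit 70) (nat_lit 5) (nat_lit 76) (nat_lit 5) (nat_lit 71) (nat_lit 5) (nat_lit 374) (nat_lit 339) (nat_lit 151)) (XT.lf (nat_lit 0) (nat_lit 6741657818) (nat_lit 504) (nat_lit 23719722009) (nat_lit 84) (nat_lit 6778848624) (nat_lit 65) (nat_lit 5) (nat_lit 71) (nat_lit 5) (nat_lit 66) (nat_lit 5) (nat_lit 375) (nat_lit 339) (nat_lit 150))))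 (XT.nd (nat_lit 94) (nat_lit 420) (nat_lit 0) (XT.lf (nat_lit 0) (nat_lit 10255651572) (nat_lit 504) (nat_lit 9715750821) (nat_lit 84) (nat_lit 18030479457) (nat_lit 65) (nat_lit 5) (nat_lit 71) (nat_lit 5) (nat_lit 66) (nat_lit 5) (nat_lit 376) (nat_lit 339) (nat_lit 149)) (XT.nd (nat_lit 94) (nat_lit 0) (nat_lit 0) (XT.lf (nat_lit 0) (nat_lit 4816821163) (nat_lit 420) (nat_lit 9107303126) (nat_lit 504) (nat_lit 24861617298) (nat_lit 60) (nat_lit 5) (nat_lit 65) (nat_lit 5) (nat_lit 66) (nat_lit 5) (nat_lit 377) (nat_lit 339) (nat_lit 148)) (XT.lf (nat_lit 0) (nat_lit 17827338287) (nat_lit 504) (nat_lit 19609307209) (nat_lit 84) (nat_lit 2153510671) (nat_lit 60) (nat_lit 5) (nat_lit 66) (nat_lit 5) (nat_lit 61) (nat_lit 5) (nat_lit 378) (nat_lit 339) (nat_lit 147))))))) (XT.nd (nat_lit 1128) (nat_lit 1092) (nat_lit 0) (XT.nd (nat_lit 564) (nat_lit 672) (nat_lit 0) (XT.nd (nat_lit 282)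 (nat_lit 420) (nat_lit 0) (XT.nd (nat_lit 94) (nat_lit 336) (nat_lit 0) (XT.lf (nat_lit 0) (nat_lit 21942564647) (nat_lit 504) (nat_lit 4900229516) (nat_lit 84) (nat_lit 13573898611) (nat_lit 60) (nat_lit 5) (nat_lit 66) (nat_lit 5) (nat_lit 61) (nat_lit 5) (nat_lit 379) (nat_lit 339) (nat_lit 146)) (XT.nd (nat_lit 94) (nat_lit 0) (nat_lit 0) (XT.lf (nat_lit 0) (nat_lit 10473383978) (nat_lit 336) (nat_lit 15813806902) (nat_lit 420) (nat_lit 14978510842) (nat_lit 56) (nat_lit 5) (nat_lit 60) (nat_lit 5) (nat_lit 61) (nat_lit 5) (nat_lit 380) (nat_lit 339) (nat_lit 145)) (XT.lf (nat_lit 0) (nat_lit 26425025743) (nat_lit 336) (nat_lit 4390591778) (nat_lit 420) (nat_lit 11323895978) (nat_lit 56) (nat_lit 5) (nat_lit 60) (nat_lit 5) (nat_lit 61) (nat_lit 5) (nat_lit 381) (nat_lit 339) (nat_lit 144)))) (XT.nd (nat_lit 94) (nat_lit 420) (nat_lit 0) (XT.lf (nat_lit 0) (nat_lit 35555728626) (nat_lit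 420) (nat_lit 244948414) (nat_lit 84) (nat_lit 7237531994) (nat_lit 56) (nat_lit 5) (nat_lit 61) (nat_lit 5) (nat_lit 57) (nat_lit 5) (nat_lit 382) (nat_lit 339) (nat_lit 143)) (XT.nd (nat_lit 94) (nat_lit 84) (nat_lit 0) (XT.lf (nat_lit 0) (nat_lit 15978825928) (nat_lit 336) (nat_lit 24665459795) (nat_lit 420) (nat_lit 3314237640) (nat_lit 52) (nat_lit 5) (nat_lit 56) (nat_lit 5) (nat_lit 57) (nat_lit 5) (nat_lit 383) (nat_lit 339) (nat_lit 142)) (XT.lf (nat_lit 0) (nat_lit 964088761) (nat_lit 420) (nat_lit 12208711790) (nat_lit 84) (nat_lit 31734248979) (nat_lit 51) (nat_lit 5) (nat_lit 56) (nat_lit 5) (nat_lit 52) (nat_lit 5) (nat_lit 384) (nat_lit 339) (nat_lit 141))))) (XT.nd (nat_lit 282) (nat_lit 336) (nat_lit 0) (XT.nd (nat_lit 94) (nat_lit 0) (nat_lit 0) (XT.lf (nat_lit 0) (nat_lit 4097531209) (nat_lit 336) (nat_lit 1247467763) (nat_lit 420) (nat_lit 40537732731) (nat_lit 47)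 (nat_lit 5) (nat_lit 51) (nat_lit 5) (nat_lit 52) (nat_lit 5) (nat_lit 385) (nat_lit 339) (nat_lit 140)) (XT.nd (nat_lit 94) (nat_lit 0) (nat_lit 0) (XT.lf (nat_lit 0) (nat_lit 10098228260) (nat_lit 420) (nat_lit 25829855929) (nat_lit 84) (nat_lit 10953249142) (nat_lit 47) (nat_lit 5) (nat_lit 52) (nat_lit 5) (nat_lit 48) (nat_lit 5) (nat_lit 386) (nat_lit 339) (nat_lit 139)) (XT.lf (nat_lit 0) (nat_lit 15009801555) (nat_lit 420) (nat_lit 9394920063) (nat_lit 84) (nat_lit 23505834171) (nat_lit 47) (nat_lit 5) (nat_lit 52) (nat_lit 5) (nat_lit 48) (nat_lit 5) (nat_lit 387) (nat_lit 339) (nat_lit 138)))) (XT.nd (nat_lit 94) (nat_lit 0) (nat_lit 0) (XT.lf (nat_lit 0) (nat_lit 7702489212) (nat_lit 336) (nat_lit 12445842358) (nat_lit 420) (nat_lit 28821041776) (nat_lit 43) (nat_lit 5) (nat_lit 47) (nat_lit 5) (nat_lit 48) (nat_lit 5) (nat_lit 388) (nat_lit 339) (nat_lit 137)) (XT.nd (nat_lit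 94) (nat_lit 0) (nat_lit 0) (XT.lf (nat_lit 0) (nat_lit 25526910198) (nat_lit 336) (nat_lit 15627703) (nat_lit 420) (nat_lit 24515493203) (nat_lit 43) (nat_lit 5) (nat_lit 47) (nat_lit 5) (nat_lit 48) (nat_lit 5) (nat_lit 389) (nat_lit 339) (nat_lit 136)) (XT.lf (nat_lit 0) (nat_lit 31229305463) (nat_lit 420) (nat_lit 7405686154) (nat_lit 84) (nat_lit 12541564620) (nat_lit 43) (nat_lit 5) (nat_lit 48) (nat_lit 5) (nat_lit 44) (nat_lit 5) (nat_lit 390) (nat_lit 339) (nat_lit 135)))))) (XT.nd (nat_lit 564) (nat_lit 504) (nat_lit 0) (XT.nd (nat_lit 282) (nat_lit 336) (nat_lit 0) (XT.nd (nat_lit 94) (nat_lit 0) (nat_lit 0) (XT.lf (nat_lit 0) (nat_lit 10459109635) (nat_lit 252) (nat_lit 26735581882) (nat_lit 336) (nat_lit 15131896362) (nat_lit 40) (nat_lit 5) (nat_lit 43) (nat_lit 5) (nat_lit 44) (nat_lit 5) (nat_lit 391) (nat_lit 339) (nat_lit 134)) (XT.nd (nat_lit 94) (nat_lit 0) (nat_lit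 0) (XT.lf (nat_lit 0) (nat_lit 29032636608) (nat_lit 252) (nat_lit 14388108440) (nat_lit 336) (nat_lit 10089181779) (nat_lit 40) (nat_lit 5) (nat_lit 43) (nat_lit 5) (nat_lit 44) (nat_lit 5) (nat_lit 392) (nat_lit 339) (nat_lit 133)) (XT.lf (nat_lit 0) (nat_lit 48179931141) (nat_lit 252) (nat_lit 1658362329) (nat_lit 336) (nat_lit 4891706864) (nat_lit 40) (nat_lit 5) (nat_lit 43) (nat_lit 5) (nat_lit 44) (nat_lit 5) (nat_lit 393) (nat_lit 339) (nat_lit 132)))) (XT.nd (nat_lit 94) (nat_lit 0) (nat_lit 0) (XT.lf (nat_lit 0) (nat_lit 691761132) (nat_lit 336) (nat_lit 43927573955) (nat_lit 84) (nat_lit 11361158739) (nat_lit 36) (nat_lit 5) (nat_lit 40) (nat_lit 5) (nat_lit 37) (nat_lit 5) (nat_lit 394) (nat_lit 339) (nat_lit 131)) (XT.nd (nat_lit 94) (nat_lit 0) (nat_lit 0) (XT.lf (nat_lit 0) (nat_lit 6431268014) (nat_lit 336) (nat_lit 25965874330) (nat_lit 84) (nat_lit 24868441640) (nat_lit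 36) (nat_lit 5) (nat_lit 40) (nat_lit 5) (nat_lit 37) (nat_lit 5) (nat_lit 395) (nat_lit 339) (nat_lit 130)) (XT.lf (nat_lit 0) (nat_lit 12347277634) (nat_lit 336) (nat_lit 7449311318) (nat_lit 84) (nat_lit 38793970742) (nat_lit 36) (nat_lit 5) (nat_lit 40) (nat_lit 5) (nat_lit 37) (nat_lit 5) (nat_lit 396) (nat_lit 339) (nat_lit 129))))) (XT.nd (nat_lit 282) (nat_lit 252) (nat_lit 0) (XT.nd (nat_lit 94) (nat_lit 0) (nat_lit 0) (XT.lf (nat_lit 0) (nat_lit 11878703868) (nat_lit 252) (nat_lit 6684438679) (nat_lit 336) (nat_lit 41389860444) (nat_lit 33) (nat_lit 5) (nat_lit 36) (nat_lit 5) (nat_lit 37) (nat_lit 5) (nat_lit 397) (nat_lit 339) (nat_lit 128)) (XT.nd (nat_lit 94) (nat_lit 0) (nat_lit 0) (XT.lf (nat_lit 0) (nat_lit 25116684630) (nat_lit 336) (nat_lit 29461965787) (nat_lit 84) (nat_lit 6774540525) (nat_lit 33) (nat_lit 5) (nat_lit 37) (nat_lit 5) (nat_lit 34) (nat_lit 5) (nat_lit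 398) (nat_lit 339) (nat_lit 127)) (XT.lf (nat_lit 0) (nat_lit 31940432110) (nat_lit 336) (nat_lit 10342870654) (nat_lit 84) (nat_lit 20511406897) (nat_lit 33) (nat_lit 5) (nat_lit 37) (nat_lit 5) (nat_lit 34) (nat_lit 5) (nat_lit 399) (nat_lit 339) (nat_lit 126)))) (XT.nd (nat_lit 94) (nat_lit 0) (nat_lit 0) (XT.lf (nat_lit 0) (nat_lit 9559724885) (nat_lit 252) (nat_lit 29509543745) (nat_lit 336) (nat_lit 25208749947) (nat_lit 30) (nat_lit 5) (nat_lit 33) (nat_lit 5) (nat_lit 34) (nat_lit 5) (nat_lit 400) (nat_lit 339) (nat_lit 125)) (XT.nd (nat_lit 94) (nat_lit 0) (nat_lit 0) (XT.lf (nat_lit 0) (nat_lit 30296783827) (nat_lit 252) (nat_lit 16229013674) (nat_lit 336) (nat_lit 19278208073) (nat_lit 30) (nat_lit 5) (nat_lit 33) (nat_lit 5) (nat_lit 34) (nat_lit 5) (nat_lit 401) (nat_lit 339) (nat_lit 124)) (XT.lf (nat_lit 0) (nat_lit 51674964647) (nat_lit 252) (nat_lit 2537292066) (nat_lit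 336) (nat_lit 13165082400) (nat_lit 30) (nat_lit 5) (nat_lit 33) (nat_lit 5) (nat_lit 34) (nat_lit 5) (nat_lit 402) (nat_lit 339) (nat_lit 123))))))))
noncomputable def xc194 : XT := (XT.nd (nat_lit 49256) (nat_lit 0) (nat_lit 4368) (XT.nd (nat_lit 1128) (nat_lit 84) (nat_lit 0) (XT.nd (nat_lit 564) (nat_lit 336) (nat_lit 0) (XT.nd (nat_lit 282) (nat_lit 252) (nat_lit 0) (XT.nd (nat_lit 94) (nat_lit 84) (nat_lit 0) (XT.lf (nat_lit 0) (nat_lit 4694431685) (nat_lit 168) (nat_lit 57602807505) (nat_lit 252) (nat_lit 6697242239) (nat_lit 28) (nat_lit 5) (nat_lit 30) (nat_lit 5) (nat_lit 31) (nat_lit 5) (nat_lit 403) (nat_lit 339) (nat_lit 122)) (XT.nd (nat_lit 94) (nat_lit 0) (nat_lit 0) (XT.lf (nat_lit 0) (nat_lit 162024677) (nat_lit 252) (nat_lit 44629313233) (nat_lit 84) (nat_lit 25864528340) (nat_lit 27) (nat_lit 5) (nat_lit 30) (nat_lit 5) (nat_lit 28) (nat_lit 5) (nat_lit 404) (nat_lit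 339) (nat_lit 121)) (XT.lf (nat_lit 0) (nat_lit 7093661078) (nat_lit 252) (nat_lit 24418948963) (nat_lit 84) (nat_lit 40854058921) (nat_lit 27) (nat_lit 5) (nat_lit 30) (nat_lit 5) (nat_lit 28) (nat_lit 5) (nat_lit 405) (nat_lit 339) (nat_lit 120)))) (XT.nd (nat_lit 94) (nat_lit 252) (nat_lit 0) (XT.lf (nat_lit 0) (nat_lit 14239062483) (nat_lit 252) (nat_lit 3583681283) (nat_lit 84) (nat_lit 56307800008) (nat_lit 27) (nat_lit 5) (nat_lit 30) (nat_lit 5) (nat_lit 28) (nat_lit 5) (nat_lit 406) (nat_lit 339) (nat_lit 119)) (XT.nd (nat_lit 94) (nat_lit 0) (nat_lit 0) (XT.lf (nat_lit 0) (nat_lit 18263887078) (nat_lit 252) (nat_lit 3522182095) (nat_lit 336) (nat_lit 54157449049) (nat_lit 24) (nat_lit 5) (nat_lit 27) (nat_lit 5) (nat_lit 28) (nat_lit 5) (nat_lit 407) (nat_lit 339) (nat_lit 118)) (XT.lf (nat_lit 0) (nat_lit 29715072664) (nat_lit 336) (nat_lit 37060120261) (nat_lit 84) (nat_lit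 11032915199) (nat_lit 24) (nat_lit 5) (nat_lit 28) (nat_lit 5) (nat_lit 25) (nat_lit 5) (nat_lit 408) (nat_lit 339) (nat_lit 117))))) (XT.nd (nat_lit 282) (nat_lit 168) (nat_lit 0) (XT.nd (nat_lit 94) (nat_lit 168) (nat_lit 0) (XT.lf (nat_lit 0) (nat_lit 37924861176) (nat_lit 336) (nat_lit 15838964544) (nat_lit 84) (nat_lit 25965592425) (nat_lit 24) (nat_lit 5) (nat_lit 28) (nat_lit 5) (nat_lit 25) (nat_lit 5) (nat_lit 409) (nat_lit 339) (nat_lit 116)) (XT.nd (nat_lit 94) (nat_lit 0) (nat_lit 0) (XT.lf (nat_lit 0) (nat_lit 6162721939) (nat_lit 168) (nat_lit 40286559636) (nat_lit 252) (nat_lit 35259145548) (nat_lit 22) (nat_lit 5) (nat_lit 24) (nat_lit 5) (nat_lit 25) (nat_lit 5) (nat_lit 410) (nat_lit 339) (nat_lit 115)) (XT.lf (nat_lit 0) (nat_lit 29180763345) (nat_lit 168) (nat_lit 26221531077) (nat_lit 252) (nat_lit 28341398815) (nat_lit 22) (nat_lit 5) (nat_lit 24) (nat_lit 5) (nat_lit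 25) (nat_lit 5) (nat_lit 411) (nat_lit 339) (nat_lit 114)))) (XT.nd (nat_lit 94) (nat_lit 168) (nat_lit 0) (XT.lf (nat_lit 0) (nat_lit 52910933300) (nat_lit 168) (nat_lit 11720956270) (nat_lit 252) (nat_lit 21210195012) (nat_lit 22) (nat_lit 5) (nat_lit 24) (nat_lit 5) (nat_lit 25) (nat_lit 5) (nat_lit 412) (nat_lit 339) (nat_lit 113)) (XT.nd (nat_lit 94) (nat_lit 168) (nat_lit 0) (XT.lf (nat_lit 0) (nat_lit 74178698885) (nat_lit 252) (nat_lit 10662235184) (nat_lit 84) (nat_lit 3163630116) (nat_lit 22) (nat_lit 5) (nat_lit 25) (nat_lit 5) (nat_lit 23) (nat_lit 5) (nat_lit 413) (nat_lit 339) (nat_lit 112)) (XT.lf (nat_lit 0) (nat_lit 12426126567) (nat_lit 168) (nat_lit 71837570692) (nat_lit 252) (nat_lit 5962876075) (nat_lit 20) (nat_lit 5) (nat_lit 22) (nat_lit 5) (nat_lit 23) (nat_lit 5) (nat_lit 414) (nat_lit 339) (nat_lit 111)))))) (XT.nd (nat_lit 47564) (nat_lit 0) (nat_lit 8064)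 (XT.nd (nat_lit 47282) (nat_lit 0) (nat_lit 7980) (XT.nd (nat_lit 94) (nat_lit 0) (nat_lit 0) (XT.lf (nat_lit 0) (nat_lit 2212196007) (nat_lit 252) (nat_lit 56081537442) (nat_lit 84) (nat_lit 34219616714) (nat_lit 19) (nat_lit 5) (nat_lit 22) (nat_lit 5) (nat_lit 20) (nat_lit 5) (nat_lit 415) (nat_lit 339) (nat_lit 110)) (XT.nd (nat_lit 47094) (nat_lit 0) (nat_lit 7980) (XT.lf (nat_lit 0) (nat_lit 10515953787) (nat_lit 252) (nat_lit 33751665045) (nat_lit 84) (nat_lit 50601536781) (nat_lit 19) (nat_lit 5) (nat_lit 22) (nat_lit 5) (nat_lit 20) (nat_lit 5) (nat_lit 416) (nat_lit 339) (nat_lit 109)) (XT.lf (nat_lit 0) (nat_lit 1574512598) (nat_lit 0) (nat_lit 1574512598) (nat_lit 1092) (nat_lit 7014910428) (nat_lit 114) (nat_lit 5) (nat_lit 114) (nat_lit 3) (nat_lit 127) (nat_lit 3) (nat_lit 340) (nat_lit 340) (nat_lit 184)))) (XT.nd (nat_lit 94) (nat_lit 0) (nat_lit 0) (XT.lf (nat_lit 0)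 (nat_lit 6581254659) (nat_lit 1092) (nat_lit 9451027470) (nat_lit 1176) (nat_lit 4604398032) (nat_lit 114) (nat_lit 5) (nat_lit 127) (nat_lit 3) (nat_lit 128) (nat_lit 5) (nat_lit 341) (nat_lit 340) (nat_lit 183)) (XT.nd (nat_lit 94) (nat_lit 0) (nat_lit 0) (XT.lf (nat_lit 0) (nat_lit 6899873317) (nat_lit 1092) (nat_lit 1518875870) (nat_lit 1176) (nat_lit 12535508225) (nat_lit 114) (nat_lit 5) (nat_lit 127) (nat_lit 3) (nat_lit 128) (nat_lit 5) (nat_lit 342) (nat_lit 340) (nat_lit 182)) (XT.lf (nat_lit 84) (nat_lit 6793107029) (nat_lit 0) (nat_lit 497246068) (nat_lit 1176) (nat_lit 13989425282) (nat_lit 115) (nat_lit 5) (nat_lit 114) (nat_lit 5) (nat_lit 128) (nat_lit 5) (nat_lit 343) (nat_lit 340) (nat_lit 181))))) (XT.nd (nat_lit 282) (nat_lit 0) (nat_lit 84) (XT.nd (nat_lit 94) (nat_lit 0) (nat_lit 0) (XT.lf (nat_lit 0) (nat_lit 7779792148) (nat_lit 1092) (nat_lit 6299294303) (nat_lit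 1176) (nat_lit 7533631270) (nat_lit 115) (nat_lit 5) (nat_lit 128) (nat_lit 5) (nat_lit 129) (nat_lit 5) (nat_lit 344) (nat_lit 340) (nat_lit 180)) (XT.nd (nat_lit 94) (nat_lit 0) (nat_lit 84) (XT.lf (nat_lit 84) (nat_lit 2177666053) (nat_lit 0) (nat_lit 6128336606) (nat_lit 1176) (nat_lit 13649325079) (nat_lit 116) (nat_lit 5) (nat_lit 115) (nat_lit 5) (nat_lit 129) (nat_lit 5) (nat_lit 345) (nat_lit 340) (nat_lit 179)) (XT.lf (nat_lit 0) (nat_lit 8930527066) (nat_lit 1092) (nat_lit 11279939017) (nat_lit 1176) (nat_lit 2095569083) (nat_lit 116) (nat_lit 5) (nat_lit 129) (nat_lit 5) (nat_lit 130) (nat_lit 5) (nat_lit 346) (nat_lit 340) (nat_lit 178)))) (XT.nd (nat_lit 94) (nat_lit 0) (nat_lit 0) (XT.lf (nat_lit 0) (nat_lit 9632292487) (nat_lit 1092) (nat_lit 2584546373) (nat_lit 1176) (nat_lit 10448999349) (nat_lit 116) (nat_lit 5) (nat_lit 129) (nat_lit 5) (nat_lit 130) (nat_lit 5)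 (nat_lit 347) (nat_lit 340) (nat_lit 177)) (XT.nd (nat_lit 94) (nat_lit 0) (nat_lit 84) (XT.lf (nat_lit 84) (nat_lit 6508547856) (nat_lit 0) (nat_lit 3907176928) (nat_lit 1176) (nat_lit 12619230530) (nat_lit 117) (nat_lit 5) (nat_lit 116) (nat_lit 5) (nat_lit 130) (nat_lit 5) (nat_lit 348) (nat_lit 340) (nat_lit 176)) (XT.lf (nat_lit 0) (nat_lit 11292398220) (nat_lit 1092) (nat_lit 7525995790) (nat_lit 1176) (nat_lit 4595000364) (nat_lit 117) (nat_lit 5) (nat_lit 130) (nat_lit 5) (nat_lit 131) (nat_lit 5) (nat_lit 349) (nat_lit 340) (nat_lit 175))))))) (XT.nd (nat_lit 1128) (nat_lit 2436) (nat_lit 0) (XT.nd (nat_lit 564) (nat_lit 1428) (nat_lit 0) (XT.nd (nat_lit 282) (nat_lit 0) (nat_lit 84) (XT.nd (nat_lit 94) (nat_lit 0) (nat_lit 0) (XT.lf (nat_lit 84) (nat_lit 1745599980) (nat_lit 0) (nat_lit 10503535315) (nat_lit 1176) (nat_lit 11552806672) (nat_lit 118) (nat_lit 5) (nat_lit 117)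 (nat_lit 5) (nat_lit 131) (nat_lit 5) (nat_lit 350) (nat_lit 340) (nat_lit 174)) (XT.nd (nat_lit 94) (nat_lit 0) (nat_lit 84) (XT.lf (nat_lit 84) (nat_lit 11461155746) (nat_lit 0) (nat_lit 1848642603) (nat_lit 1176) (nat_lit 10890449825) (nat_lit 118) (nat_lit 5) (nat_lit 117) (nat_lit 5) (nat_lit 131) (nat_lit 5) (nat_lit 351) (nat_lit 340) (nat_lit 173)) (XT.lf (nat_lit 0) (nat_lit 14469374851) (nat_lit 1092) (nat_lit 3206261522) (nat_lit 1176) (nat_lit 6933233921) (nat_lit 118) (nat_lit 5) (nat_lit 131) (nat_lit 5) (nat_lit 132) (nat_lit 5) (nat_lit 352) (nat_lit 340) (nat_lit 172)))) (XT.nd (nat_lit 94) (nat_lit 0) (nat_lit 0) (XT.lf (nat_lit 84) (nat_lit 6735912947) (nat_lit 0) (nat_lit 9010690801) (nat_lit 1176) (nat_lit 9281038056) (nat_lit 119) (nat_lit 5) (nat_lit 118) (nat_lit 5) (nat_lit 132) (nat_lit 5) (nat_lit 353) (nat_lit 340) (nat_lit 171)) (XT.nd (nat_lit 94) (nat_lit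 0) (nat_lit 84) (XT.lf (nat_lit 84) (nat_lit 17051315499) (nat_lit 0) (nat_lit 41646897) (nat_lit 1176) (nat_lit 8365531755) (nat_lit 119) (nat_lit 5) (nat_lit 118) (nat_lit 5) (nat_lit 132) (nat_lit 5) (nat_lit 354) (nat_lit 340) (nat_lit 170)) (XT.lf (nat_lit 84) (nat_lit 1724209098) (nat_lit 0) (nat_lit 16861469008) (nat_lit 1176) (nat_lit 7313795686) (nat_lit 120) (nat_lit 5) (nat_lit 119) (nat_lit 5) (nat_lit 133) (nat_lit 5) (nat_lit 355) (nat_lit 340) (nat_lit 169))))) (XT.nd (nat_lit 282) (nat_lit 588) (nat_lit 0) (XT.nd (nat_lit 94) (nat_lit 1008) (nat_lit 0) (XT.lf (nat_lit 84) (nat_lit 12344489936) (nat_lit 0) (nat_lit 7864634775) (nat_lit 1176) (nat_lit 6142394598) (nat_lit 120) (nat_lit 5) (nat_lit 119) (nat_lit 5) (nat_lit 133) (nat_lit 5) (nat_lit 356) (nat_lit 340) (nat_lit 168)) (XT.nd (nat_lit 94) (nat_lit 1092) (nat_lit 0) (XT.lf (nat_lit 0) (nat_lit 21893296815) (nat_lit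 1092) (nat_lit 3540592901) (nat_lit 84) (nat_lit 1383379417) (nat_lit 120) (nat_lit 5) (nat_lit 133) (nat_lit 5) (nat_lit 121) (nat_lit 5) (nat_lit 357) (nat_lit 340) (nat_lit 167)) (XT.lf (nat_lit 0) (nat_lit 7314308235) (nat_lit 1092) (nat_lit 16464874163) (nat_lit 1176) (nat_lit 3513653030) (nat_lit 107) (nat_lit 5) (nat_lit 120) (nat_lit 5) (nat_lit 121) (nat_lit 5) (nat_lit 358) (nat_lit 340) (nat_lit 166)))) (XT.nd (nat_lit 94) (nat_lit 588) (nat_lit 0) (XT.lf (nat_lit 0) (nat_lit 18577874467) (nat_lit 1092) (nat_lit 7179197339) (nat_lit 1176) (nat_lit 2025045160) (nat_lit 107) (nat_lit 5) (nat_lit 120) (nat_lit 5) (nat_lit 121) (nat_lit 5) (nat_lit 359) (nat_lit 340) (nat_lit 165)) (XT.nd (nat_lit 94) (nat_lit 84) (nat_lit 0) (XT.lf (nat_lit 0) (nat_lit 1915967116) (nat_lit 504) (nat_lit 25919759935) (nat_lit 588) (nat_lit 449628286) (nat_lit 101) (nat_lit 5) (nat_lit 107) (nat_lit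 5) (nat_lit 108) (nat_lit 5) (nat_lit 360) (nat_lit 340) (nat_lit 164)) (XT.lf (nat_lit 0) (nat_lit 1318161348) (nat_lit 588) (nat_lit 15314226303) (nat_lit 84) (nat_lit 12166273370) (nat_lit 100) (nat_lit 5) (nat_lit 107) (nat_lit 5) (nat_lit 101) (nat_lit 5) (nat_lit 361) (nat_lit 340) (nat_lit 163)))))) (XT.nd (nat_lit 564) (nat_lit 1344) (nat_lit 0) (XT.nd (nat_lit 282) (nat_lit 504) (nat_lit 0) (XT.nd (nat_lit 94) (nat_lit 588) (nat_lit 0) (XT.lf (nat_lit 0) (nat_lit 3128229913) (nat_lit 588) (nat_lit 3923840949) (nat_lit 84) (nat_lit 22275775461) (nat_lit 100) (nat_lit 5) (nat_lit 107) (nat_lit 5) (nat_lit 101) (nat_lit 5) (nat_lit 362) (nat_lit 340) (nat_lit 162)) (XT.nd (nat_lit 94) (nat_lit 0) (nat_lit 0) (XT.lf (nat_lit 0) (nat_lit 5099301053) (nat_lit 672) (nat_lit 21922352790) (nat_lit 84) (nat_lit 2848541626) (nat_lit 93) (nat_lit 5) (nat_lit 101) (nat_lit 5) (nat_lit 94)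 (nat_lit 5) (nat_lit 363) (nat_lit 340) (nat_lit 161)) (XT.lf (nat_lit 0) (nat_lit 7241958007) (nat_lit 672) (nat_lit 10232780173) (nat_lit 84) (nat_lit 12951204678) (nat_lit 93) (nat_lit 5) (nat_lit 101) (nat_lit 5) (nat_lit 94) (nat_lit 5) (nat_lit 364) (nat_lit 340) (nat_lit 160)))) (XT.nd (nat_lit 94) (nat_lit 0) (nat_lit 0) (XT.lf (nat_lit 0) (nat_lit 1853724917) (nat_lit 504) (nat_lit 7612773142) (nat_lit 588) (nat_lit 21531951148) (nat_lit 87) (nat_lit 5) (nat_lit 93) (nat_lit 5) (nat_lit 94) (nat_lit 5) (nat_lit 365) (nat_lit 340) (nat_lit 159)) (XT.nd (nat_lit 94) (nat_lit 0) (nat_lit 0) (XT.lf (nat_lit 0) (nat_lit 11890378756) (nat_lit 588) (nat_lit 17082852518) (nat_lit 84) (nat_lit 2611439967) (nat_lit 87) (nat_lit 5) (nat_lit 94) (nat_lit 5) (nat_lit 88) (nat_lit 5) (nat_lit 366) (nat_lit 340) (nat_lit 158)) (XT.lf (nat_lit 0) (nat_lit 14464479920) (nat_lit 588) (nat_lit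 4727701487) (nat_lit 84) (nat_lit 12994566740) (nat_lit 87) (nat_lit 5) (nat_lit 94) (nat_lit 5) (nat_lit 88) (nat_lit 5) (nat_lit 367) (nat_lit 340) (nat_lit 157))))) (XT.nd (nat_lit 282) (nat_lit 420) (nat_lit 0) (XT.nd (nat_lit 94) (nat_lit 420) (nat_lit 0) (XT.lf (nat_lit 0) (nat_lit 8172420815) (nat_lit 504) (nat_lit 9024331842) (nat_lit 588) (nat_lit 15608316362) (nat_lit 81) (nat_lit 5) (nat_lit 87) (nat_lit 5) (nat_lit 88) (nat_lit 5) (nat_lit 368) (nat_lit 340) (nat_lit 156)) (XT.nd (nat_lit 94) (nat_lit 420) (nat_lit 0) (XT.lf (nat_lit 0) (nat_lit 20075406158) (nat_lit 588) (nat_lit 11886089547) (nat_lit 84) (nat_lit 1479158956) (nat_lit 81) (nat_lit 5) (nat_lit 88) (nat_lit 5) (nat_lit 82) (nat_lit 5) (nat_lit 369) (nat_lit 340) (nat_lit 155)) (XT.lf (nat_lit 0) (nat_lit 1184505022) (nat_lit 420) (nat_lit 21960277872) (nat_lit 504) (nat_lit 10948023172) (nat_lit 76) (nat_lit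 5) (nat_lit 81) (nat_lit 5) (nat_lit 82) (nat_lit 5) (nat_lit 370) (nat_lit 340) (nat_lit 154)))) (XT.nd (nat_lit 94) (nat_lit 420) (nat_lit 0) (XT.lf (nat_lit 0) (nat_lit 14909619101) (nat_lit 420) (nat_lit 11521245265) (nat_lit 504) (nat_lit 8330550010) (nat_lit 76) (nat_lit 5) (nat_lit 81) (nat_lit 5) (nat_lit 82) (nat_lit 5) (nat_lit 371) (nat_lit 340) (nat_lit 153)) (XT.nd (nat_lit 94) (nat_lit 420) (nat_lit 0) (XT.lf (nat_lit 0) (nat_lit 29057643554) (nat_lit 420) (nat_lit 758734007) (nat_lit 504) (nat_lit 5634455654) (nat_lit 76) (nat_lit 5) (nat_lit 81) (nat_lit 5) (nat_lit 82) (nat_lit 5) (nat_lit 372) (nat_lit 340) (nat_lit 152)) (XT.lf (nat_lit 0) (nat_lit 7529210259) (nat_lit 420) (nat_lit 25952505747) (nat_lit 504) (nat_lit 2674494816) (nat_lit 71) (nat_lit 5) (nat_lit 76) (nat_lit 5) (nat_lit 77) (nat_lit 5) (nat_lit 373) (nat_lit 340) (nat_lit 151))))))))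
noncomputable def xc195 : XT := (XT.nd (nat_lit 2256) (nat_lit 1428) (nat_lit 0) (XT.nd (nat_lit 1128) (nat_lit 1260) (nat_lit 0) (XT.nd (nat_lit 564) (nat_lit 756) (nat_lit 0) (XT.nd (nat_lit 282) (nat_lit 420) (nat_lit 0) (XT.nd (nat_lit 94) (nat_lit 420) (nat_lit 0) (XT.lf (nat_lit 0) (nat_lit 442448779) (nat_lit 504) (nat_lit 14877434855) (nat_lit 84) (nat_lit 21561205366) (nat_lit 70) (nat_lit 5) (nat_lit 76) (nat_lit 5) (nat_lit 71) (nat_lit 5) (nat_lit 374) (nat_lit 340) (nat_lit 150)) (XT.nd (nat_lit 94) (nat_lit 420) (nat_lit 0) (XT.lf (nat_lit 0) (nat_lit 3598182591) (nat_lit 504) (nat_lit 731508760) (nat_lit 84) (nat_lit 33297976943) (nat_lit 70) (nat_lit 5) (nat_lit 76) (nat_lit 5) (nat_lit 71) (nat_lit 5) (nat_lit 375) (nat_lit 340) (nat_lit 149)) (XT.lf (nat_lit 0) (nat_lit 7060641587) (nat_lit 504) (nat_lit 24328715595) (nat_lit 84) (nat_lit 7001565527) (nat_lit 65) (nat_lit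 5) (nat_lit 71) (nat_lit 5) (nat_lit 66) (nat_lit 5) (nat_lit 376) (nat_lit 340) (nat_lit 148)))) (XT.nd (nat_lit 94) (nat_lit 420) (nat_lit 0) (XT.lf (nat_lit 0) (nat_lit 10680261907) (nat_lit 504) (nat_lit 9894419411) (nat_lit 84) (nat_lit 18601618884) (nat_lit 65) (nat_lit 5) (nat_lit 71) (nat_lit 5) (nat_lit 66) (nat_lit 5) (nat_lit 377) (nat_lit 340) (nat_lit 147)) (XT.nd (nat_lit 94) (nat_lit 0) (nat_lit 0) (XT.lf (nat_lit 0) (nat_lit 5087421903) (nat_lit 420) (nat_lit 9373030683) (nat_lit 504) (nat_lit 25524079154) (nat_lit 60) (nat_lit 5) (nat_lit 65) (nat_lit 5) (nat_lit 66) (nat_lit 5) (nat_lit 378) (nat_lit 340) (nat_lit 146)) (XT.lf (nat_lit 0) (nat_lit 18481678410) (nat_lit 504) (nat_lit 20096262216) (nat_lit 84) (nat_lit 2236044874) (nat_lit 60) (nat_lit 5) (nat_lit 66) (nat_lit 5) (nat_lit 61) (nat_lit 5) (nat_lit 379) (nat_lit 340) (nat_lit 145))))) (XT.nd (nat_lit 282)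 (nat_lit 420) (nat_lit 0) (XT.nd (nat_lit 94) (nat_lit 336) (nat_lit 0) (XT.lf (nat_lit 0) (nat_lit 22721419103) (nat_lit 504) (nat_lit 4934839330) (nat_lit 84) (nat_lit 14009990509) (nat_lit 60) (nat_lit 5) (nat_lit 66) (nat_lit 5) (nat_lit 61) (nat_lit 5) (nat_lit 380) (nat_lit 340) (nat_lit 144)) (XT.nd (nat_lit 94) (nat_lit 0) (nat_lit 0) (XT.lf (nat_lit 0) (nat_lit 10914168652) (nat_lit 336) (nat_lit 16284746175) (nat_lit 420) (nat_lit 15342727701) (nat_lit 56) (nat_lit 5) (nat_lit 60) (nat_lit 5) (nat_lit 61) (nat_lit 5) (nat_lit 381) (nat_lit 340) (nat_lit 143)) (XT.lf (nat_lit 0) (nat_lit 27356820136) (nat_lit 336) (nat_lit 4507991354) (nat_lit 420) (nat_lit 11577830083) (nat_lit 56) (nat_lit 5) (nat_lit 60) (nat_lit 5) (nat_lit 61) (nat_lit 5) (nat_lit 382) (nat_lit 340) (nat_lit 142)))) (XT.nd (nat_lit 94) (nat_lit 420) (nat_lit 0) (XT.lf (nat_lit 0) (nat_lit 36749222381) (nat_lit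 420) (nat_lit 140388715) (nat_lit 84) (nat_lit 7479676115) (nat_lit 56) (nat_lit 5) (nat_lit 61) (nat_lit 5) (nat_lit 57) (nat_lit 5) (nat_lit 383) (nat_lit 340) (nat_lit 141)) (XT.nd (nat_lit 94) (nat_lit 84) (nat_lit 0) (XT.lf (nat_lit 0) (nat_lit 16585187183) (nat_lit 336) (nat_lit 25408694693) (nat_lit 420) (nat_lit 3324308668) (nat_lit 52) (nat_lit 5) (nat_lit 56) (nat_lit 5) (nat_lit 57) (nat_lit 5) (nat_lit 384) (nat_lit 340) (nat_lit 140)) (XT.lf (nat_lit 0) (nat_lit 1082048488) (nat_lit 420) (nat_lit 12477438507) (nat_lit 84) (nat_lit 32736698005) (nat_lit 51) (nat_lit 5) (nat_lit 56) (nat_lit 5) (nat_lit 52) (nat_lit 5) (nat_lit 385) (nat_lit 340) (nat_lit 139)))))) (XT.nd (nat_lit 564) (nat_lit 588) (nat_lit 0) (XT.nd (nat_lit 282) (nat_lit 336) (nat_lit 0) (XT.nd (nat_lit 94) (nat_lit 0) (nat_lit 0) (XT.lf (nat_lit 0) (nat_lit 4333186973) (nat_lit 336) (nat_lit 1264009420)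 (nat_lit 420) (nat_lit 41704973214) (nat_lit 47) (nat_lit 5) (nat_lit 51) (nat_lit 5) (nat_lit 52) (nat_lit 5) (nat_lit 386) (nat_lit 340) (nat_lit 138)) (XT.nd (nat_lit 94) (nat_lit 0) (nat_lit 0) (XT.lf (nat_lit 0) (nat_lit 10495387772) (nat_lit 420) (nat_lit 26522589664) (nat_lit 84) (nat_lit 11313831850) (nat_lit 47) (nat_lit 5) (nat_lit 52) (nat_lit 5) (nat_lit 48) (nat_lit 5) (nat_lit 387) (nat_lit 340) (nat_lit 137)) (XT.lf (nat_lit 0) (nat_lit 15556690695) (nat_lit 420) (nat_lit 9581417873) (nat_lit 84) (nat_lit 24254914628) (nat_lit 47) (nat_lit 5) (nat_lit 52) (nat_lit 5) (nat_lit 48) (nat_lit 5) (nat_lit 388) (nat_lit 340) (nat_lit 136)))) (XT.nd (nat_lit 94) (nat_lit 0) (nat_lit 0) (XT.lf (nat_lit 0) (nat_lit 8044950643) (nat_lit 336) (nat_lit 12808139959) (nat_lit 420) (nat_lit 29631624591) (nat_lit 43) (nat_lit 5) (nat_lit 47) (nat_lit 5) (nat_lit 48) (nat_lit 5) (nat_lit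 389) (nat_lit 340) (nat_lit 135)) (XT.nd (nat_lit 94) (nat_lit 0) (nat_lit 0) (XT.lf (nat_lit 0) (nat_lit 26412173570) (nat_lit 420) (nat_lit 25188458179) (nat_lit 84) (nat_lit 6568976) (nat_lit 43) (nat_lit 5) (nat_lit 48) (nat_lit 5) (nat_lit 44) (nat_lit 5) (nat_lit 390) (nat_lit 340) (nat_lit 134)) (XT.lf (nat_lit 0) (nat_lit 32273046162) (nat_lit 420) (nat_lit 7535390805) (nat_lit 84) (nat_lit 12952037424) (nat_lit 43) (nat_lit 5) (nat_lit 48) (nat_lit 5) (nat_lit 44) (nat_lit 5) (nat_lit 391) (nat_lit 340) (nat_lit 133))))) (XT.nd (nat_lit 282) (nat_lit 336) (nat_lit 0) (XT.nd (nat_lit 94) (nat_lit 0) (nat_lit 0) (XT.lf (nat_lit 0) (nat_lit 10882202543) (nat_lit 252) (nat_lit 27539863247) (nat_lit 336) (nat_lit 15524137647) (nat_lit 40) (nat_lit 5) (nat_lit 43) (nat_lit 5) (nat_lit 44) (nat_lit 5) (nat_lit 392) (nat_lit 340) (nat_lit 132)) (XT.nd (nat_lit 94) (nat_lit 0) (nat_lit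 0) (XT.lf (nat_lit 0) (nat_lit 30028536325) (nat_lit 252) (nat_lit 14810355444) (nat_lit 336) (nat_lit 10327409555) (nat_lit 40) (nat_lit 5) (nat_lit 43) (nat_lit 5) (nat_lit 44) (nat_lit 5) (nat_lit 393) (nat_lit 340) (nat_lit 131)) (XT.lf (nat_lit 0) (nat_lit 49766513839) (nat_lit 252) (nat_lit 1686702349) (nat_lit 336) (nat_lit 4971054084) (nat_lit 40) (nat_lit 5) (nat_lit 43) (nat_lit 5) (nat_lit 44) (nat_lit 5) (nat_lit 394) (nat_lit 340) (nat_lit 130)))) (XT.nd (nat_lit 94) (nat_lit 0) (nat_lit 0) (XT.lf (nat_lit 0) (nat_lit 783082840) (nat_lit 336) (nat_lit 45193538350) (nat_lit 84) (nat_lit 11736921062) (nat_lit 36) (nat_lit 5) (nat_lit 40) (nat_lit 5) (nat_lit 37) (nat_lit 5) (nat_lit 395) (nat_lit 340) (nat_lit 129)) (XT.nd (nat_lit 94) (nat_lit 0) (nat_lit 0) (XT.lf (nat_lit 0) (nat_lit 6698413377) (nat_lit 336) (nat_lit 26677906253) (nat_lit 84) (nat_lit 25662221140) (nat_lit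 36) (nat_lit 5) (nat_lit 40) (nat_lit 5) (nat_lit 37) (nat_lit 5) (nat_lit 396) (nat_lit 340) (nat_lit 128)) (XT.lf (nat_lit 0) (nat_lit 12795781413) (nat_lit 336) (nat_lit 7590123401) (nat_lit 84) (nat_lit 40018754359) (nat_lit 36) (nat_lit 5) (nat_lit 40) (nat_lit 5) (nat_lit 37) (nat_lit 5) (nat_lit 397) (nat_lit 340) (nat_lit 127))))))) (XT.nd (nat_lit 1128) (nat_lit 420) (nat_lit 0) (XT.nd (nat_lit 564) (nat_lit 504) (nat_lit 0) (XT.nd (nat_lit 282) (nat_lit 252) (nat_lit 0) (XT.nd (nat_lit 94) (nat_lit 0) (nat_lit 0) (XT.lf (nat_lit 0) (nat_lit 12336147907) (nat_lit 252) (nat_lit 6867098540) (nat_lit 336) (nat_lit 42606130718) (nat_lit 33) (nat_lit 5) (nat_lit 36) (nat_lit 5) (nat_lit 37) (nat_lit 5) (nat_lit 398) (nat_lit 340) (nat_lit 126)) (XT.nd (nat_lit 94) (nat_lit 0) (nat_lit 0) (XT.lf (nat_lit 0) (nat_lit 25958240841) (nat_lit 336) (nat_lit 30286897278) (nat_lit 84) (nat_lit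 7007890714) (nat_lit 33) (nat_lit 5) (nat_lit 37) (nat_lit 5) (nat_lit 34) (nat_lit 5) (nat_lit 399) (nat_lit 340) (nat_lit 125)) (XT.lf (nat_lit 0) (nat_lit 32991632050) (nat_lit 336) (nat_lit 10577767880) (nat_lit 84) (nat_lit 21169898176) (nat_lit 33) (nat_lit 5) (nat_lit 37) (nat_lit 5) (nat_lit 34) (nat_lit 5) (nat_lit 400) (nat_lit 340) (nat_lit 124)))) (XT.nd (nat_lit 94) (nat_lit 0) (nat_lit 0) (XT.lf (nat_lit 0) (nat_lit 9940940164) (nat_lit 252) (nat_lit 30399528656) (nat_lit 336) (nat_lit 25928156246) (nat_lit 30) (nat_lit 5) (nat_lit 33) (nat_lit 5) (nat_lit 34) (nat_lit 5) (nat_lit 401) (nat_lit 340) (nat_lit 123)) (XT.nd (nat_lit 94) (nat_lit 0) (nat_lit 0) (XT.lf (nat_lit 0) (nat_lit 31318296256) (nat_lit 252) (nat_lit 16708048167) (nat_lit 336) (nat_lit 19815633736) (nat_lit 30) (nat_lit 5) (nat_lit 33) (nat_lit 5) (nat_lit 34) (nat_lit 5) (nat_lit 402) (nat_lit 340)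 (nat_lit 122)) (XT.lf (nat_lit 0) (nat_lit 53356725730) (nat_lit 252) (nat_lit 2592606770) (nat_lit 336) (nat_lit 13514811218) (nat_lit 30) (nat_lit 5) (nat_lit 33) (nat_lit 5) (nat_lit 34) (nat_lit 5) (nat_lit 403) (nat_lit 340) (nat_lit 121))))) (XT.nd (nat_lit 282) (nat_lit 252) (nat_lit 0) (XT.nd (nat_lit 94) (nat_lit 84) (nat_lit 0) (XT.lf (nat_lit 0) (nat_lit 4920632505) (nat_lit 168) (nat_lit 59363643095) (nat_lit 252) (nat_lit 6847166989) (nat_lit 28) (nat_lit 5) (nat_lit 30) (nat_lit 5) (nat_lit 31) (nat_lit 5) (nat_lit 404) (nat_lit 340) (nat_lit 120)) (XT.nd (nat_lit 94) (nat_lit 0) (nat_lit 0) (XT.lf (nat_lit 0) (nat_lit 221875219) (nat_lit 252) (nat_lit 45933317665) (nat_lit 84) (nat_lit 26689176409) (nat_lit 27) (nat_lit 5) (nat_lit 30) (nat_lit 5) (nat_lit 28) (nat_lit 5) (nat_lit 405) (nat_lit 340) (nat_lit 119)) (XT.lf (nat_lit 0) (nat_lit 7366743794) (nat_lit 252) (nat_lit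 25098822628) (nat_lit 84) (nat_lit 42142695456) (nat_lit 27) (nat_lit 5) (nat_lit 30) (nat_lit 5) (nat_lit 28) (nat_lit 5) (nat_lit 406) (nat_lit 340) (nat_lit 118)))) (XT.nd (nat_lit 94) (nat_lit 252) (nat_lit 0) (XT.lf (nat_lit 0) (nat_lit 14732053655) (nat_lit 252) (nat_lit 3619980299) (nat_lit 84) (nat_lit 58074836191) (nat_lit 27) (nat_lit 5) (nat_lit 30) (nat_lit 5) (nat_lit 28) (nat_lit 5) (nat_lit 407) (nat_lit 340) (nat_lit 117)) (XT.nd (nat_lit 94) (nat_lit 0) (nat_lit 0) (XT.lf (nat_lit 0) (nat_lit 18904105449) (nat_lit 252) (nat_lit 3608095660) (nat_lit 336) (nat_lit 55783874655) (nat_lit 24) (nat_lit 5) (nat_lit 27) (nat_lit 5) (nat_lit 28) (nat_lit 5) (nat_lit 408) (nat_lit 340) (nat_lit 116)) (XT.lf (nat_lit 0) (nat_lit 30685701286) (nat_lit 336) (nat_lit 38135755557) (nat_lit 84) (nat_lit 11397055026) (nat_lit 24) (nat_lit 5) (nat_lit 28) (nat_lit 5) (nat_lit 25) (nat_lit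 5) (nat_lit 409) (nat_lit 340) (nat_lit 115)))))) (XT.nd (nat_lit 564) (nat_lit 84) (nat_lit 0) (XT.nd (nat_lit 282) (nat_lit 168) (nat_lit 0) (XT.nd (nat_lit 94) (nat_lit 168) (nat_lit 0) (XT.lf (nat_lit 0) (nat_lit 39148506043) (nat_lit 336) (nat_lit 16258945838) (nat_lit 84) (nat_lit 26791980162) (nat_lit 24) (nat_lit 5) (nat_lit 28) (nat_lit 5) (nat_lit 25) (nat_lit 5) (nat_lit 410) (nat_lit 340) (nat_lit 114)) (XT.nd (nat_lit 94) (nat_lit 0) (nat_lit 0) (XT.lf (nat_lit 0) (nat_lit 6424073846) (nat_lit 168) (nat_lit 41512364605) (nat_lit 252) (nat_lit 36303378276) (nat_lit 22) (nat_lit 5) (nat_lit 24) (nat_lit 5) (nat_lit 25) (nat_lit 5) (nat_lit 411) (nat_lit 340) (nat_lit 113)) (XT.lf (nat_lit 0) (nat_lit 30153560536) (nat_lit 168) (nat_lit 27012014079) (nat_lit 252) (nat_lit 29172648731) (nat_lit 22) (nat_lit 5) (nat_lit 24) (nat_lit 5) (nat_lit 25) (nat_lit 5) (nat_lit 412) (nat_lit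 340) (nat_lit 112)))) (XT.nd (nat_lit 94) (nat_lit 168) (nat_lit 0) (XT.lf (nat_lit 0) (nat_lit 54617315324) (nat_lit 168) (nat_lit 12062594507) (nat_lit 252) (nat_lit 21821800827) (nat_lit 22) (nat_lit 5) (nat_lit 24) (nat_lit 5) (nat_lit 25) (nat_lit 5) (nat_lit 413) (nat_lit 340) (nat_lit 111)) (XT.nd (nat_lit 94) (nat_lit 168) (nat_lit 0) (XT.lf (nat_lit 0) (nat_lit 76521543171) (nat_lit 252) (nat_lit 10927384981) (nat_lit 84) (nat_lit 3282336957) (nat_lit 22) (nat_lit 5) (nat_lit 25) (nat_lit 5) (nat_lit 23) (nat_lit 5) (nat_lit 414) (nat_lit 340) (nat_lit 110)) (XT.lf (nat_lit 0) (nat_lit 12876054075) (nat_lit 168) (nat_lit 74042462348) (nat_lit 252) (nat_lit 6103663533) (nat_lit 20) (nat_lit 5) (nat_lit 22) (nat_lit 5) (nat_lit 23) (nat_lit 5) (nat_lit 415) (nat_lit 340) (nat_lit 109))))) (XT.nd (nat_lit 47376) (nat_lit 0) (nat_lit 7980) (XT.nd (nat_lit 47188) (nat_lit 0) (nat_lit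 7980) (XT.lf (nat_lit 0) (nat_lit 2322649889) (nat_lit 252) (nat_lit 57756342853) (nat_lit 84) (nat_lit 35300883591) (nat_lit 19) (nat_lit 5) (nat_lit 22) (nat_lit 5) (nat_lit 20) (nat_lit 5) (nat_lit 416) (nat_lit 340) (nat_lit 108)) (XT.nd (nat_lit 94) (nat_lit 0) (nat_lit 0) (XT.lf (nat_lit 0) (nat_lit 1692117738) (nat_lit 0) (nat_lit 1692117738) (nat_lit 1092) (nat_lit 7090002030) (nat_lit 114) (nat_lit 5) (nat_lit 114) (nat_lit 3) (nat_lit 127) (nat_lit 3) (nat_lit 341) (nat_lit 341) (nat_lit 182)) (XT.lf (nat_lit 0) (nat_lit 7050856563) (nat_lit 1092) (nat_lit 9599959215) (nat_lit 1176) (nat_lit 4616369718) (nat_lit 114) (nat_lit 5) (nat_lit 127) (nat_lit 3) (nat_lit 128) (nat_lit 5) (nat_lit 342) (nat_lit 341) (nat_lit 181)))) (XT.nd (nat_lit 94) (nat_lit 0) (nat_lit 0) (XT.lf (nat_lit 0) (nat_lit 7371366877) (nat_lit 1092) (nat_lit 1426242199) (nat_lit 1176) (nat_lit 12797276146)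 (nat_lit 114) (nat_lit 5) (nat_lit 127) (nat_lit 3) (nat_lit 128) (nat_lit 5) (nat_lit 343) (nat_lit 341) (nat_lit 180)) (XT.nd (nat_lit 94) (nat_lit 0) (nat_lit 84) (XT.lf (nat_lit 84) (nat_lit 7141997642) (nat_lit 0) (nat_lit 625580470) (nat_lit 1176) (nat_lit 14163145929) (nat_lit 115) (nat_lit 5) (nat_lit 114) (nat_lit 5) (nat_lit 128) (nat_lit 5) (nat_lit 344) (nat_lit 341) (nat_lit 179)) (XT.lf (nat_lit 0) (nat_lit 8263549498) (nat_lit 1092) (nat_lit 6350875102) (nat_lit 1176) (nat_lit 7659856000) (nat_lit 115) (nat_lit 5) (nat_lit 128) (nat_lit 5) (nat_lit 129) (nat_lit 5) (nat_lit 345) (nat_lit 341) (nat_lit 178))))))))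
noncomputable def xc196 : XT := (XT.nd (nat_lit 2256) (nat_lit 3444) (nat_lit 0) (XT.nd (nat_lit 1128) (nat_lit 2856) (nat_lit 0) (XT.nd (nat_lit 564) (nat_lit 0) (nat_lit 168) (XT.nd (nat_lit 282) (nat_lit 0) (nat_lit 84) (XT.nd (nat_lit 94) (nat_lit 0) (nat_lit 84) (XT.lf (nat_lit 84) (nat_lit 2387416218) (nat_lit 0) (nat_lit 6412773395) (nat_lit 1176) (nat_lit 13827531684) (nat_lit 116) (nat_lit 5) (nat_lit 115) (nat_lit 5) (nat_lit 129) (nat_lit 5) (nat_lit 346) (nat_lit 341) (nat_lit 177)) (XT.nd (nat_lit 94) (nat_lit 0) (nat_lit 0) (XT.lf (nat_lit 0) (nat_lit 9436048317) (nat_lit 1092) (nat_lit 11482768284) (nat_lit 1176) (nat_lit 2070759437) (nat_lit 116) (nat_lit 5) (nat_lit 129) (nat_lit 5) (nat_lit 130) (nat_lit 5) (nat_lit 347) (nat_lit 341) (nat_lit 176)) (XT.lf (nat_lit 0) (nat_lit 10152692693) (nat_lit 1092) (nat_lit 2522233903) (nat_lit 1176) (nat_lit 10685845304) (nat_lit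 116) (nat_lit 5) (nat_lit 129) (nat_lit 5) (nat_lit 130) (nat_lit 5) (nat_lit 348) (nat_lit 341) (nat_lit 175)))) (XT.nd (nat_lit 94) (nat_lit 0) (nat_lit 84) (XT.lf (nat_lit 84) (nat_lit 6851304236) (nat_lit 0) (nat_lit 4103836773) (nat_lit 1176) (nat_lit 12786379010) (nat_lit 117) (nat_lit 5) (nat_lit 116) (nat_lit 5) (nat_lit 130) (nat_lit 5) (nat_lit 349) (nat_lit 341) (nat_lit 174)) (XT.nd (nat_lit 94) (nat_lit 0) (nat_lit 0) (XT.lf (nat_lit 0) (nat_lit 11851753949) (nat_lit 1092) (nat_lit 7614529936) (nat_lit 1176) (nat_lit 4665655413) (nat_lit 117) (nat_lit 5) (nat_lit 130) (nat_lit 5) (nat_lit 131) (nat_lit 5) (nat_lit 350) (nat_lit 341) (nat_lit 173)) (XT.lf (nat_lit 84) (nat_lit 1943019619) (nat_lit 0) (nat_lit 10890258917) (nat_lit 1176) (nat_lit 11699427865) (nat_lit 118) (nat_lit 5) (nat_lit 117) (nat_lit 5) (nat_lit 131) (nat_lit 5) (nat_lit 351) (nat_lit 341) (nat_lit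 172))))) (XT.nd (nat_lit 282) (nat_lit 0) (nat_lit 84) (XT.nd (nat_lit 94) (nat_lit 0) (nat_lit 84) (XT.lf (nat_lit 84) (nat_lit 11955448702) (nat_lit 0) (nat_lit 1965226962) (nat_lit 1176) (nat_lit 11022897790) (nat_lit 118) (nat_lit 5) (nat_lit 117) (nat_lit 5) (nat_lit 131) (nat_lit 5) (nat_lit 352) (nat_lit 341) (nat_lit 171)) (XT.nd (nat_lit 94) (nat_lit 0) (nat_lit 0) (XT.lf (nat_lit 0) (nat_lit 15109667019) (nat_lit 1092) (nat_lit 3163592031) (nat_lit 1176) (nat_lit 7091828431) (nat_lit 118) (nat_lit 5) (nat_lit 131) (nat_lit 5) (nat_lit 132) (nat_lit 5) (nat_lit 353) (nat_lit 341) (nat_lit 170)) (XT.lf (nat_lit 84) (nat_lit 7085351581) (nat_lit 0) (nat_lit 9336768187) (nat_lit 1176) (nat_lit 9374878079) (nat_lit 119) (nat_lit 5) (nat_lit 118) (nat_lit 5) (nat_lit 132) (nat_lit 5) (nat_lit 354) (nat_lit 341) (nat_lit 169)))) (XT.nd (nat_lit 94) (nat_lit 0) (nat_lit 84) (XT.lf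 (nat_lit 84) (nat_lit 17716303304) (nat_lit 0) (nat_lit 88278369) (nat_lit 1176) (nat_lit 8436820411) (nat_lit 119) (nat_lit 5) (nat_lit 118) (nat_lit 5) (nat_lit 132) (nat_lit 5) (nat_lit 355) (nat_lit 341) (nat_lit 168)) (XT.nd (nat_lit 94) (nat_lit 0) (nat_lit 0) (XT.lf (nat_lit 84) (nat_lit 1919362485) (nat_lit 0) (nat_lit 17419714075) (nat_lit 1176) (nat_lit 7357135071) (nat_lit 120) (nat_lit 5) (nat_lit 119) (nat_lit 5) (nat_lit 133) (nat_lit 5) (nat_lit 356) (nat_lit 341) (nat_lit 167)) (XT.lf (nat_lit 84) (nat_lit 12864611321) (nat_lit 0) (nat_lit 8142909382) (nat_lit 1176) (nat_lit 6154934648) (nat_lit 120) (nat_lit 5) (nat_lit 119) (nat_lit 5) (nat_lit 133) (nat_lit 5) (nat_lit 357) (nat_lit 341) (nat_lit 166)))))) (XT.nd (nat_lit 564) (nat_lit 1596) (nat_lit 0) (XT.nd (nat_lit 282) (nat_lit 588) (nat_lit 0) (XT.nd (nat_lit 94) (nat_lit 1092) (nat_lit 0) (XT.lf (nat_lit 0)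 (nat_lit 22738401402) (nat_lit 1092) (nat_lit 3510928188) (nat_lit 84) (nat_lit 1393503348) (nat_lit 120) (nat_lit 5) (nat_lit 133) (nat_lit 5) (nat_lit 121) (nat_lit 5) (nat_lit 358) (nat_lit 341) (nat_lit 165)) (XT.nd (nat_lit 94) (nat_lit 0) (nat_lit 0) (XT.lf (nat_lit 0) (nat_lit 7679063350) (nat_lit 1092) (nat_lit 17000051510) (nat_lit 1176) (nat_lit 3454158025) (nat_lit 107) (nat_lit 5) (nat_lit 120) (nat_lit 5) (nat_lit 121) (nat_lit 5) (nat_lit 359) (nat_lit 341) (nat_lit 164)) (XT.lf (nat_lit 0) (nat_lit 19287650418) (nat_lit 1092) (nat_lit 7425774036) (nat_lit 1176) (nat_lit 1924467293) (nat_lit 107) (nat_lit 5) (nat_lit 120) (nat_lit 5) (nat_lit 121) (nat_lit 5) (nat_lit 360) (nat_lit 341) (nat_lit 163)))) (XT.nd (nat_lit 94) (nat_lit 84) (nat_lit 0) (XT.lf (nat_lit 0) (nat_lit 2113520051) (nat_lit 504) (nat_lit 26739390151) (nat_lit 588) (nat_lit 303949481) (nat_lit 101)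 (nat_lit 5) (nat_lit 107) (nat_lit 5) (nat_lit 108) (nat_lit 5) (nat_lit 361) (nat_lit 341) (nat_lit 162)) (XT.nd (nat_lit 94) (nat_lit 0) (nat_lit 0) (XT.lf (nat_lit 0) (nat_lit 1510723040) (nat_lit 588) (nat_lit 15651318239) (nat_lit 84) (nat_lit 12524149566) (nat_lit 100) (nat_lit 5) (nat_lit 107) (nat_lit 5) (nat_lit 101) (nat_lit 5) (nat_lit 362) (nat_lit 341) (nat_lit 161)) (XT.lf (nat_lit 0) (nat_lit 3372342470) (nat_lit 588) (nat_lit 3911969757) (nat_lit 84) (nat_lit 22947625879) (nat_lit 100) (nat_lit 5) (nat_lit 107) (nat_lit 5) (nat_lit 101) (nat_lit 5) (nat_lit 363) (nat_lit 341) (nat_lit 160))))) (XT.nd (nat_lit 282) (nat_lit 504) (nat_lit 0) (XT.nd (nat_lit 94) (nat_lit 504) (nat_lit 0) (XT.lf (nat_lit 0) (nat_lit 5401286022) (nat_lit 672) (nat_lit 22464709820) (nat_lit 84) (nat_lit 2925219728) (nat_lit 93) (nat_lit 5) (nat_lit 101) (nat_lit 5) (nat_lit 94) (nat_lit 5)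 (nat_lit 364) (nat_lit 341) (nat_lit 159)) (XT.nd (nat_lit 94) (nat_lit 504) (nat_lit 0) (XT.lf (nat_lit 0) (nat_lit 7606038373) (nat_lit 672) (nat_lit 10416886847) (nat_lit 84) (nat_lit 13341414926) (nat_lit 93) (nat_lit 5) (nat_lit 101) (nat_lit 5) (nat_lit 94) (nat_lit 5) (nat_lit 365) (nat_lit 341) (nat_lit 158)) (XT.lf (nat_lit 0) (nat_lit 2042952287) (nat_lit 504) (nat_lit 7853697107) (nat_lit 588) (nat_lit 22058048811) (nat_lit 87) (nat_lit 5) (nat_lit 93) (nat_lit 5) (nat_lit 94) (nat_lit 5) (nat_lit 366) (nat_lit 341) (nat_lit 157)))) (XT.nd (nat_lit 94) (nat_lit 504) (nat_lit 0) (XT.lf (nat_lit 0) (nat_lit 12391512998) (nat_lit 588) (nat_lit 17480011915) (nat_lit 84) (nat_lit 2687711086) (nat_lit 87) (nat_lit 5) (nat_lit 94) (nat_lit 5) (nat_lit 88) (nat_lit 5) (nat_lit 367) (nat_lit 341) (nat_lit 156)) (XT.nd (nat_lit 94) (nat_lit 504) (nat_lit 0) (XT.lf (nat_lit 0) (nat_lit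 15041426325) (nat_lit 588) (nat_lit 4745832463) (nat_lit 84) (nat_lit 13392855613) (nat_lit 87) (nat_lit 5) (nat_lit 94) (nat_lit 5) (nat_lit 88) (nat_lit 5) (nat_lit 368) (nat_lit 341) (nat_lit 155)) (XT.lf (nat_lit 0) (nat_lit 8552893415) (nat_lit 504) (nat_lit 9302902069) (nat_lit 588) (nat_lit 15961901629) (nat_lit 81) (nat_lit 5) (nat_lit 87) (nat_lit 5) (nat_lit 88) (nat_lit 5) (nat_lit 369) (nat_lit 341) (nat_lit 154))))))) (XT.nd (nat_lit 1128) (nat_lit 1680) (nat_lit 0) (XT.nd (nat_lit 564) (nat_lit 840) (nat_lit 0) (XT.nd (nat_lit 282) (nat_lit 504) (nat_lit 0) (XT.nd (nat_lit 94) (nat_lit 420) (nat_lit 0) (XT.lf (nat_lit 0) (nat_lit 20819911780) (nat_lit 588) (nat_lit 12127065739) (nat_lit 84) (nat_lit 1526138202) (nat_lit 81) (nat_lit 5) (nat_lit 88) (nat_lit 5) (nat_lit 82) (nat_lit 5) (nat_lit 370) (nat_lit 341) (nat_lit 153)) (XT.nd (nat_lit 94) (nat_lit 0) (nat_lit 0)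 (XT.lf (nat_lit 0) (nat_lit 1347426514) (nat_lit 420) (nat_lit 22634591284) (nat_lit 504) (nat_lit 11163553475) (nat_lit 76) (nat_lit 5) (nat_lit 81) (nat_lit 5) (nat_lit 82) (nat_lit 5) (nat_lit 371) (nat_lit 341) (nat_lit 152)) (XT.lf (nat_lit 0) (nat_lit 15494224506) (nat_lit 420) (nat_lit 11872142760) (nat_lit 504) (nat_lit 8468662806) (nat_lit 76) (nat_lit 5) (nat_lit 81) (nat_lit 5) (nat_lit 82) (nat_lit 5) (nat_lit 372) (nat_lit 341) (nat_lit 151)))) (XT.nd (nat_lit 94) (nat_lit 504) (nat_lit 0) (XT.lf (nat_lit 0) (nat_lit 30077157190) (nat_lit 420) (nat_lit 776181912) (nat_lit 504) (nat_lit 5692601709) (nat_lit 76) (nat_lit 5) (nat_lit 81) (nat_lit 5) (nat_lit 82) (nat_lit 5) (nat_lit 373) (nat_lit 341) (nat_lit 150)) (XT.nd (nat_lit 94) (nat_lit 84) (nat_lit 0) (XT.lf (nat_lit 0) (nat_lit 7883909899) (nat_lit 420) (nat_lit 26746267560) (nat_lit 504) (nat_lit 2643084862) (nat_lit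 71) (nat_lit 5) (nat_lit 76) (nat_lit 5) (nat_lit 77) (nat_lit 5) (nat_lit 374) (nat_lit 341) (nat_lit 149)) (XT.lf (nat_lit 0) (nat_lit 564812619) (nat_lit 504) (nat_lit 15218411187) (nat_lit 84) (nat_lit 22237467805) (nat_lit 70) (nat_lit 5) (nat_lit 76) (nat_lit 5) (nat_lit 71) (nat_lit 5) (nat_lit 375) (nat_lit 341) (nat_lit 148))))) (XT.nd (nat_lit 282) (nat_lit 420) (nat_lit 0) (XT.nd (nat_lit 94) (nat_lit 420) (nat_lit 0) (XT.lf (nat_lit 0) (nat_lit 3815107366) (nat_lit 504) (nat_lit 637576271) (nat_lit 84) (nat_lit 34337842815) (nat_lit 70) (nat_lit 5) (nat_lit 76) (nat_lit 5) (nat_lit 71) (nat_lit 5) (nat_lit 376) (nat_lit 341) (nat_lit 147)) (XT.nd (nat_lit 94) (nat_lit 0) (nat_lit 0) (XT.lf (nat_lit 0) (nat_lit 7382998815) (nat_lit 504) (nat_lit 24964070002) (nat_lit 84) (nat_lit 7230441957) (nat_lit 65) (nat_lit 5) (nat_lit 71) (nat_lit 5) (nat_lit 66) (nat_lit 5) (nat_lit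 377) (nat_lit 341) (nat_lit 146)) (XT.lf (nat_lit 0) (nat_lit 11111716020) (nat_lit 504) (nat_lit 10085883778) (nat_lit 84) (nat_lit 19189741329) (nat_lit 65) (nat_lit 5) (nat_lit 71) (nat_lit 5) (nat_lit 66) (nat_lit 5) (nat_lit 378) (nat_lit 341) (nat_lit 145)))) (XT.nd (nat_lit 94) (nat_lit 0) (nat_lit 0) (XT.lf (nat_lit 0) (nat_lit 5359227686) (nat_lit 420) (nat_lit 9647978973) (nat_lit 504) (nat_lit 26213489060) (nat_lit 60) (nat_lit 5) (nat_lit 65) (nat_lit 5) (nat_lit 66) (nat_lit 5) (nat_lit 379) (nat_lit 341) (nat_lit 144)) (XT.nd (nat_lit 94) (nat_lit 0) (nat_lit 0) (XT.lf (nat_lit 0) (nat_lit 19150279647) (nat_lit 504) (nat_lit 20605475926) (nat_lit 84) (nat_lit 2320203236) (nat_lit 60) (nat_lit 5) (nat_lit 66) (nat_lit 5) (nat_lit 61) (nat_lit 5) (nat_lit 380) (nat_lit 341) (nat_lit 143)) (XT.lf (nat_lit 0) (nat_lit 23518575730) (nat_lit 504) (nat_lit 4977469768) (nat_lit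 84) (nat_lit 14458694949) (nat_lit 60) (nat_lit 5) (nat_lit 66) (nat_lit 5) (nat_lit 61) (nat_lit 5) (nat_lit 381) (nat_lit 341) (nat_lit 142)))))) (XT.nd (nat_lit 564) (nat_lit 588) (nat_lit 0) (XT.nd (nat_lit 282) (nat_lit 756) (nat_lit 0) (XT.nd (nat_lit 94) (nat_lit 0) (nat_lit 0) (XT.lf (nat_lit 0) (nat_lit 11361740271) (nat_lit 336) (nat_lit 16771427071) (nat_lit 420) (nat_lit 15724165383) (nat_lit 56) (nat_lit 5) (nat_lit 60) (nat_lit 5) (nat_lit 61) (nat_lit 5) (nat_lit 382) (nat_lit 341) (nat_lit 141)) (XT.nd (nat_lit 94) (nat_lit 0) (nat_lit 0) (XT.lf (nat_lit 0) (nat_lit 28310829562) (nat_lit 336) (nat_lit 4630138469) (nat_lit 420) (nat_lit 11845387940) (nat_lit 56) (nat_lit 5) (nat_lit 60) (nat_lit 5) (nat_lit 61) (nat_lit 5) (nat_lit 383) (nat_lit 341) (nat_lit 140)) (XT.lf (nat_lit 0) (nat_lit 37974308591) (nat_lit 420) (nat_lit 39230685) (nat_lit 84) (nat_lit 7728273527)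 (nat_lit 56) (nat_lit 5) (nat_lit 61) (nat_lit 5) (nat_lit 57) (nat_lit 5) (nat_lit 384) (nat_lit 341) (nat_lit 139)))) (XT.nd (nat_lit 94) (nat_lit 420) (nat_lit 0) (XT.lf (nat_lit 0) (nat_lit 17203769870) (nat_lit 336) (nat_lit 26176237098) (nat_lit 420) (nat_lit 3340180922) (nat_lit 52) (nat_lit 5) (nat_lit 56) (nat_lit 5) (nat_lit 57) (nat_lit 5) (nat_lit 385) (nat_lit 341) (nat_lit 138)) (XT.nd (nat_lit 94) (nat_lit 336) (nat_lit 0) (XT.lf (nat_lit 0) (nat_lit 1198448253) (nat_lit 420) (nat_lit 12760996038) (nat_lit 84) (nat_lit 33769116068) (nat_lit 51) (nat_lit 5) (nat_lit 56) (nat_lit 5) (nat_lit 52) (nat_lit 5) (nat_lit 386) (nat_lit 341) (nat_lit 137)) (XT.lf (nat_lit 0) (nat_lit 4569713588) (nat_lit 336) (nat_lit 1282374657) (nat_lit 420) (nat_lit 42913695199) (nat_lit 47) (nat_lit 5) (nat_lit 51) (nat_lit 5) (nat_lit 52) (nat_lit 5) (nat_lit 387) (nat_lit 341) (nat_lit 136)))))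 (XT.nd (nat_lit 282) (nat_lit 252) (nat_lit 0) (XT.nd (nat_lit 94) (nat_lit 336) (nat_lit 0) (XT.lf (nat_lit 0) (nat_lit 10899876986) (nat_lit 420) (nat_lit 27243194685) (nat_lit 84) (nat_lit 11684346863) (nat_lit 47) (nat_lit 5) (nat_lit 52) (nat_lit 5) (nat_lit 48) (nat_lit 5) (nat_lit 388) (nat_lit 341) (nat_lit 135)) (XT.nd (nat_lit 94) (nat_lit 336) (nat_lit 0) (XT.lf (nat_lit 0) (nat_lit 16115700961) (nat_lit 420) (nat_lit 9779901323) (nat_lit 84) (nat_lit 25026008276) (nat_lit 47) (nat_lit 5) (nat_lit 52) (nat_lit 5) (nat_lit 48) (nat_lit 5) (nat_lit 389) (nat_lit 341) (nat_lit 134)) (XT.lf (nat_lit 0) (nat_lit 8391886983) (nat_lit 336) (nat_lit 13183062123) (nat_lit 420) (nat_lit 30472243974) (nat_lit 43) (nat_lit 5) (nat_lit 47) (nat_lit 5) (nat_lit 48) (nat_lit 5) (nat_lit 390) (nat_lit 341) (nat_lit 133)))) (XT.nd (nat_lit 94) (nat_lit 252) (nat_lit 0) (XT.lf (nat_lit 0) (nat_lit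 27304309078) (nat_lit 420) (nat_lit 25872431693) (nat_lit 84) (nat_lit 27804913) (nat_lit 43) (nat_lit 5) (nat_lit 48) (nat_lit 5) (nat_lit 44) (nat_lit 5) (nat_lit 391) (nat_lit 341) (nat_lit 132)) (XT.nd (nat_lit 94) (nat_lit 252) (nat_lit 0) (XT.lf (nat_lit 0) (nat_lit 33344662996) (nat_lit 420) (nat_lit 7675031868) (nat_lit 84) (nat_lit 13373950486) (nat_lit 43) (nat_lit 5) (nat_lit 48) (nat_lit 5) (nat_lit 44) (nat_lit 5) (nat_lit 392) (nat_lit 341) (nat_lit 131)) (XT.lf (nat_lit 0) (nat_lit 11312555653) (nat_lit 252) (nat_lit 28370529795) (nat_lit 336) (nat_lit 15933090222) (nat_lit 40) (nat_lit 5) (nat_lit 43) (nat_lit 5) (nat_lit 44) (nat_lit 5) (nat_lit 393) (nat_lit 341) (nat_lit 130))))))))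
noncomputable def xc197 : XT := (XT.nd (nat_lit 49444) (nat_lit 0) (nat_lit 6132) (XT.nd (nat_lit 1128) (nat_lit 672) (nat_lit 0) (XT.nd (nat_lit 564) (nat_lit 420) (nat_lit 0) (XT.nd (nat_lit 282) (nat_lit 252) (nat_lit 0) (XT.nd (nat_lit 94) (nat_lit 336) (nat_lit 0) (XT.lf (nat_lit 0) (nat_lit 31049629323) (nat_lit 252) (nat_lit 15247100893) (nat_lit 336) (nat_lit 10577437339) (nat_lit 40) (nat_lit 5) (nat_lit 43) (nat_lit 5) (nat_lit 44) (nat_lit 5) (nat_lit 394) (nat_lit 341) (nat_lit 129)) (XT.nd (nat_lit 94) (nat_lit 336) (nat_lit 0) (XT.lf (nat_lit 0) (nat_lit 51396771764) (nat_lit 252) (nat_lit 1717287338) (nat_lit 336) (nat_lit 5057143266) (nat_lit 40) (nat_lit 5) (nat_lit 43) (nat_lit 5) (nat_lit 44) (nat_lit 5) (nat_lit 395) (nat_lit 341) (nat_lit 128)) (XT.lf (nat_lit 0) (nat_lit 873096580) (nat_lit 336) (nat_lit 46504421471) (nat_lit 84) (nat_lit 12122936138) (nat_lit 36)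 (nat_lit 5) (nat_lit 40) (nat_lit 5) (nat_lit 37) (nat_lit 5) (nat_lit 396) (nat_lit 341) (nat_lit 127)))) (XT.nd (nat_lit 94) (nat_lit 252) (nat_lit 0) (XT.lf (nat_lit 0) (nat_lit 6969825755) (nat_lit 336) (nat_lit 27417514394) (nat_lit 84) (nat_lit 26479253898) (nat_lit 36) (nat_lit 5) (nat_lit 40) (nat_lit 5) (nat_lit 37) (nat_lit 5) (nat_lit 397) (nat_lit 341) (nat_lit 126)) (XT.nd (nat_lit 94) (nat_lit 252) (nat_lit 0) (XT.lf (nat_lit 0) (nat_lit 13254295024) (nat_lit 336) (nat_lit 7740638417) (nat_lit 84) (nat_lit 41280193069) (nat_lit 36) (nat_lit 5) (nat_lit 40) (nat_lit 5) (nat_lit 37) (nat_lit 5) (nat_lit 398) (nat_lit 341) (nat_lit 125)) (XT.lf (nat_lit 0) (nat_lit 12802488992) (nat_lit 252) (nat_lit 7056875453) (nat_lit 336) (nat_lit 43864062961) (nat_lit 33) (nat_lit 5) (nat_lit 36) (nat_lit 5) (nat_lit 37) (nat_lit 5) (nat_lit 399) (nat_lit 341) (nat_lit 124))))) (XT.nd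 (nat_lit 282) (nat_lit 168) (nat_lit 0) (XT.nd (nat_lit 94) (nat_lit 252) (nat_lit 0) (XT.lf (nat_lit 0) (nat_lit 26822157310) (nat_lit 336) (nat_lit 31142637102) (nat_lit 84) (nat_lit 7247092324) (nat_lit 33) (nat_lit 5) (nat_lit 37) (nat_lit 5) (nat_lit 34) (nat_lit 5) (nat_lit 400) (nat_lit 341) (nat_lit 123)) (XT.nd (nat_lit 94) (nat_lit 252) (nat_lit 0) (XT.lf (nat_lit 0) (nat_lit 34071803297) (nat_lit 336) (nat_lit 10825024959) (nat_lit 84) (nat_lit 21847461817) (nat_lit 33) (nat_lit 5) (nat_lit 37) (nat_lit 5) (nat_lit 34) (nat_lit 5) (nat_lit 401) (nat_lit 341) (nat_lit 122)) (XT.lf (nat_lit 0) (nat_lit 10328946487) (nat_lit 252) (nat_lit 31318572695) (nat_lit 336) (nat_lit 26673540353) (nat_lit 30) (nat_lit 5) (nat_lit 33) (nat_lit 5) (nat_lit 34) (nat_lit 5) (nat_lit 402) (nat_lit 341) (nat_lit 121)))) (XT.nd (nat_lit 94) (nat_lit 168) (nat_lit 0) (XT.lf (nat_lit 0) (nat_lit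 32366600083) (nat_lit 252) (nat_lit 17203358136) (nat_lit 336) (nat_lit 20373285271) (nat_lit 30) (nat_lit 5) (nat_lit 33) (nat_lit 5) (nat_lit 34) (nat_lit 5) (nat_lit 403) (nat_lit 341) (nat_lit 120)) (XT.nd (nat_lit 94) (nat_lit 168) (nat_lit 0) (XT.lf (nat_lit 0) (nat_lit 55085892513) (nat_lit 252) (nat_lit 2651018779) (nat_lit 336) (nat_lit 13878840094) (nat_lit 30) (nat_lit 5) (nat_lit 33) (nat_lit 5) (nat_lit 34) (nat_lit 5) (nat_lit 404) (nat_lit 341) (nat_lit 119)) (XT.lf (nat_lit 0) (nat_lit 5149067124) (nat_lit 168) (nat_lit 61180536582) (nat_lit 252) (nat_lit 7005156470) (nat_lit 28) (nat_lit 5) (nat_lit 30) (nat_lit 5) (nat_lit 31) (nat_lit 5) (nat_lit 405) (nat_lit 341) (nat_lit 118)))))) (XT.nd (nat_lit 564) (nat_lit 336) (nat_lit 0) (XT.nd (nat_lit 282) (nat_lit 252) (nat_lit 0) (XT.nd (nat_lit 94) (nat_lit 0) (nat_lit 0) (XT.lf (nat_lit 0) (nat_lit 280333586) (nat_lit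 252) (nat_lit 47282455408) (nat_lit 84) (nat_lit 27538035260) (nat_lit 27) (nat_lit 5) (nat_lit 30) (nat_lit 5) (nat_lit 28) (nat_lit 5) (nat_lit 406) (nat_lit 341) (nat_lit 117)) (XT.nd (nat_lit 94) (nat_lit 0) (nat_lit 0) (XT.lf (nat_lit 0) (nat_lit 7645142177) (nat_lit 252) (nat_lit 25804339957) (nat_lit 84) (nat_lit 43469967107) (nat_lit 27) (nat_lit 5) (nat_lit 30) (nat_lit 5) (nat_lit 28) (nat_lit 5) (nat_lit 407) (nat_lit 341) (nat_lit 116)) (XT.lf (nat_lit 0) (nat_lit 15237272367) (nat_lit 252) (nat_lit 3661834826) (nat_lit 84) (nat_lit 59895377346) (nat_lit 27) (nat_lit 5) (nat_lit 30) (nat_lit 5) (nat_lit 28) (nat_lit 5) (nat_lit 408) (nat_lit 341) (nat_lit 115)))) (XT.nd (nat_lit 94) (nat_lit 0) (nat_lit 0) (XT.lf (nat_lit 0) (nat_lit 19559785199) (nat_lit 252) (nat_lit 3698051108) (nat_lit 336) (nat_lit 57463826473) (nat_lit 24) (nat_lit 5) (nat_lit 27) (nat_lit 5) (nat_lit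 28) (nat_lit 5) (nat_lit 409) (nat_lit 341) (nat_lit 114)) (XT.nd (nat_lit 94) (nat_lit 0) (nat_lit 0) (XT.lf (nat_lit 0) (nat_lit 31683489714) (nat_lit 336) (nat_lit 39249072992) (nat_lit 84) (nat_lit 11771173016) (nat_lit 24) (nat_lit 5) (nat_lit 28) (nat_lit 5) (nat_lit 25) (nat_lit 5) (nat_lit 410) (nat_lit 341) (nat_lit 113)) (XT.lf (nat_lit 0) (nat_lit 40407242308) (nat_lit 336) (nat_lit 16696153579) (nat_lit 84) (nat_lit 27642715139) (nat_lit 24) (nat_lit 5) (nat_lit 28) (nat_lit 5) (nat_lit 25) (nat_lit 5) (nat_lit 411) (nat_lit 341) (nat_lit 112))))) (XT.nd (nat_lit 282) (nat_lit 168) (nat_lit 0) (XT.nd (nat_lit 94) (nat_lit 0) (nat_lit 0) (XT.lf (nat_lit 0) (nat_lit 6689363227) (nat_lit 168) (nat_lit 42777536500) (nat_lit 252) (nat_lit 37382872772) (nat_lit 22) (nat_lit 5) (nat_lit 24) (nat_lit 5) (nat_lit 25) (nat_lit 5) (nat_lit 412) (nat_lit 341) (nat_lit 111)) (XT.nd (nat_lit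 94) (nat_lit 0) (nat_lit 0) (XT.lf (nat_lit 0) (nat_lit 31152475220) (nat_lit 168) (nat_lit 27828327925) (nat_lit 252) (nat_lit 30032471036) (nat_lit 22) (nat_lit 5) (nat_lit 24) (nat_lit 5) (nat_lit 25) (nat_lit 5) (nat_lit 413) (nat_lit 341) (nat_lit 110)) (XT.lf (nat_lit 0) (nat_lit 56372677422) (nat_lit 168) (nat_lit 12416109533) (nat_lit 252) (nat_lit 22455085765) (nat_lit 22) (nat_lit 5) (nat_lit 24) (nat_lit 5) (nat_lit 25) (nat_lit 5) (nat_lit 414) (nat_lit 341) (nat_lit 109)))) (XT.nd (nat_lit 94) (nat_lit 168) (nat_lit 0) (XT.lf (nat_lit 0) (nat_lit 78934450623) (nat_lit 252) (nat_lit 11204626962) (nat_lit 84) (nat_lit 3403501504) (nat_lit 22) (nat_lit 5) (nat_lit 25) (nat_lit 5) (nat_lit 23) (nat_lit 5) (nat_lit 415) (nat_lit 341) (nat_lit 108)) (XT.nd (nat_lit 47282) (nat_lit 0) (nat_lit 7896) (XT.lf (nat_lit 0) (nat_lit 13336096003) (nat_lit 168) (nat_lit 76317013068) (nat_lit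 252) (nat_lit 6251425251) (nat_lit 20) (nat_lit 5) (nat_lit 22) (nat_lit 5) (nat_lit 23) (nat_lit 5) (nat_lit 416) (nat_lit 341) (nat_lit 107)) (XT.lf (nat_lit 0) (nat_lit 1809293777) (nat_lit 0) (nat_lit 1809293777) (nat_lit 1092) (nat_lit 7175854327) (nat_lit 114) (nat_lit 5) (nat_lit 114) (nat_lit 3) (nat_lit 127) (nat_lit 3) (nat_lit 342) (nat_lit 342) (nat_lit 180))))))) (XT.nd (nat_lit 1128) (nat_lit 1764) (nat_lit 0) (XT.nd (nat_lit 564) (nat_lit 0) (nat_lit 168) (XT.nd (nat_lit 282) (nat_lit 0) (nat_lit 84) (XT.nd (nat_lit 94) (nat_lit 0) (nat_lit 0) (XT.lf (nat_lit 0) (nat_lit 7519285189) (nat_lit 1092) (nat_lit 9762040179) (nat_lit 1176) (nat_lit 4636457941) (nat_lit 114) (nat_lit 5) (nat_lit 127) (nat_lit 3) (nat_lit 128) (nat_lit 5) (nat_lit 343) (nat_lit 342) (nat_lit 179)) (XT.nd (nat_lit 94) (nat_lit 0) (nat_lit 0) (XT.lf (nat_lit 0) (nat_lit 7842218798) (nat_lit 1092)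 (nat_lit 1339012670) (nat_lit 1176) (nat_lit 13074671397) (nat_lit 114) (nat_lit 5) (nat_lit 127) (nat_lit 3) (nat_lit 128) (nat_lit 5) (nat_lit 344) (nat_lit 342) (nat_lit 178)) (XT.lf (nat_lit 84) (nat_lit 7493511863) (nat_lit 0) (nat_lit 751204807) (nat_lit 1176) (nat_lit 14357649290) (nat_lit 115) (nat_lit 5) (nat_lit 114) (nat_lit 5) (nat_lit 128) (nat_lit 5) (nat_lit 345) (nat_lit 342) (nat_lit 177)))) (XT.nd (nat_lit 94) (nat_lit 0) (nat_lit 0) (XT.lf (nat_lit 0) (nat_lit 8747934672) (nat_lit 1092) (nat_lit 6412566344) (nat_lit 1176) (nat_lit 7796350316) (nat_lit 115) (nat_lit 5) (nat_lit 128) (nat_lit 5) (nat_lit 129) (nat_lit 5) (nat_lit 346) (nat_lit 342) (nat_lit 176)) (XT.nd (nat_lit 94) (nat_lit 0) (nat_lit 84) (XT.lf (nat_lit 84) (nat_lit 2595243372) (nat_lit 0) (nat_lit 6700432795) (nat_lit 1176) (nat_lit 14025769871) (nat_lit 116) (nat_lit 5) (nat_lit 115) (nat_lit 5)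 (nat_lit 129) (nat_lit 5) (nat_lit 347) (nat_lit 342) (nat_lit 175)) (XT.lf (nat_lit 0) (nat_lit 9943695920) (nat_lit 1092) (nat_lit 11700583366) (nat_lit 1176) (nat_lit 2050498058) (nat_lit 116) (nat_lit 5) (nat_lit 129) (nat_lit 5) (nat_lit 130) (nat_lit 5) (nat_lit 348) (nat_lit 342) (nat_lit 174))))) (XT.nd (nat_lit 282) (nat_lit 0) (nat_lit 84) (XT.nd (nat_lit 94) (nat_lit 0) (nat_lit 0) (XT.lf (nat_lit 0) (nat_lit 10676087762) (nat_lit 1092) (nat_lit 2466426321) (nat_lit 1176) (nat_lit 10935190969) (nat_lit 116) (nat_lit 5) (nat_lit 129) (nat_lit 5) (nat_lit 130) (nat_lit 5) (nat_lit 349) (nat_lit 342) (nat_lit 173)) (XT.nd (nat_lit 94) (nat_lit 0) (nat_lit 84) (XT.lf (nat_lit 84) (nat_lit 7196334903) (nat_lit 0) (nat_lit 4302118866) (nat_lit 1176) (nat_lit 12971979820) (nat_lit 117) (nat_lit 5) (nat_lit 116) (nat_lit 5) (nat_lit 130) (nat_lit 5) (nat_lit 350) (nat_lit 342) (nat_lit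 172)) (XT.lf (nat_lit 0) (nat_lit 12416053019) (nat_lit 1092) (nat_lit 7714383719) (nat_lit 1176) (nat_lit 4742753012) (nat_lit 117) (nat_lit 5) (nat_lit 130) (nat_lit 5) (nat_lit 131) (nat_lit 5) (nat_lit 351) (nat_lit 342) (nat_lit 171)))) (XT.nd (nat_lit 94) (nat_lit 0) (nat_lit 0) (XT.lf (nat_lit 84) (nat_lit 2138071004) (nat_lit 0) (nat_lit 11285351064) (nat_lit 1176) (nat_lit 11863122759) (nat_lit 118) (nat_lit 5) (nat_lit 117) (nat_lit 5) (nat_lit 131) (nat_lit 5) (nat_lit 352) (nat_lit 342) (nat_lit 170)) (XT.nd (nat_lit 94) (nat_lit 0) (nat_lit 84) (XT.lf (nat_lit 84) (nat_lit 12456831702) (nat_lit 0) (nat_lit 2081914391) (nat_lit 1176) (nat_lit 11171603383) (nat_lit 118) (nat_lit 5) (nat_lit 117) (nat_lit 5) (nat_lit 131) (nat_lit 5) (nat_lit 353) (nat_lit 342) (nat_lit 169)) (XT.lf (nat_lit 0) (nat_lit 15758451065) (nat_lit 1092) (nat_lit 3128014455) (nat_lit 1176) (nat_lit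 7258676233) (nat_lit 118) (nat_lit 5) (nat_lit 131) (nat_lit 5) (nat_lit 132) (nat_lit 5) (nat_lit 354) (nat_lit 342) (nat_lit 168)))))) (XT.nd (nat_lit 564) (nat_lit 1176) (nat_lit 0) (XT.nd (nat_lit 282) (nat_lit 924) (nat_lit 0) (XT.nd (nat_lit 94) (nat_lit 0) (nat_lit 0) (XT.lf (nat_lit 84) (nat_lit 7437293334) (nat_lit 0) (nat_lit 9670185129) (nat_lit 1176) (nat_lit 9483110523) (nat_lit 119) (nat_lit 5) (nat_lit 118) (nat_lit 5) (nat_lit 132) (nat_lit 5) (nat_lit 355) (nat_lit 342) (nat_lit 167)) (XT.nd (nat_lit 94) (nat_lit 0) (nat_lit 84) (XT.lf (nat_lit 84) (nat_lit 18393826702) (nat_lit 0) (nat_lit 133669827) (nat_lit 1176) (nat_lit 8521457113) (nat_lit 119) (nat_lit 5) (nat_lit 118) (nat_lit 5) (nat_lit 132) (nat_lit 5) (nat_lit 356) (nat_lit 342) (nat_lit 166)) (XT.lf (nat_lit 84) (nat_lit 2112172322) (nat_lit 0) (nat_lit 17993159671) (nat_lit 1176) (nat_lit 7412680378) (nat_lit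 120) (nat_lit 5) (nat_lit 119) (nat_lit 5) (nat_lit 133) (nat_lit 5) (nat_lit 357) (nat_lit 342) (nat_lit 165)))) (XT.nd (nat_lit 94) (nat_lit 1008) (nat_lit 0) (XT.lf (nat_lit 84) (nat_lit 13392715532) (nat_lit 0) (nat_lit 8427768729) (nat_lit 1176) (nat_lit 6178399233) (nat_lit 120) (nat_lit 5) (nat_lit 119) (nat_lit 5) (nat_lit 133) (nat_lit 5) (nat_lit 358) (nat_lit 342) (nat_lit 164)) (XT.nd (nat_lit 94) (nat_lit 1092) (nat_lit 0) (XT.lf (nat_lit 0) (nat_lit 23599847341) (nat_lit 1092) (nat_lit 3488602137) (nat_lit 84) (nat_lit 1405881601) (nat_lit 120) (nat_lit 5) (nat_lit 133) (nat_lit 5) (nat_lit 121) (nat_lit 5) (nat_lit 359) (nat_lit 342) (nat_lit 163)) (XT.lf (nat_lit 0) (nat_lit 8046951212) (nat_lit 1092) (nat_lit 17550352408) (nat_lit 1176) (nat_lit 3402794376) (nat_lit 107) (nat_lit 5) (nat_lit 120) (nat_lit 5) (nat_lit 121) (nat_lit 5) (nat_lit 360) (nat_lit 342) (nat_lit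 162))))) (XT.nd (nat_lit 282) (nat_lit 588) (nat_lit 0) (XT.nd (nat_lit 94) (nat_lit 588) (nat_lit 0) (XT.lf (nat_lit 0) (nat_lit 20011500558) (nat_lit 1092) (nat_lit 7678571771) (nat_lit 1176) (nat_lit 1830447265) (nat_lit 107) (nat_lit 5) (nat_lit 120) (nat_lit 5) (nat_lit 121) (nat_lit 5) (nat_lit 361) (nat_lit 342) (nat_lit 161)) (XT.nd (nat_lit 94) (nat_lit 84) (nat_lit 0) (XT.lf (nat_lit 0) (nat_lit 2309013794) (nat_lit 504) (nat_lit 27583474226) (nat_lit 588) (nat_lit 163209038) (nat_lit 101) (nat_lit 5) (nat_lit 107) (nat_lit 5) (nat_lit 108) (nat_lit 5) (nat_lit 362) (nat_lit 342) (nat_lit 160)) (XT.lf (nat_lit 0) (nat_lit 1700268771) (nat_lit 588) (nat_lit 16007013215) (nat_lit 84) (nat_lit 12894261810) (nat_lit 100) (nat_lit 5) (nat_lit 107) (nat_lit 5) (nat_lit 101) (nat_lit 5) (nat_lit 363) (nat_lit 342) (nat_lit 159)))) (XT.nd (nat_lit 94) (nat_lit 588) (nat_lit 0) (XT.lf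 (nat_lit 0) (nat_lit 3615307314) (nat_lit 588) (nat_lit 3907638599) (nat_lit 84) (nat_lit 23641411212) (nat_lit 100) (nat_lit 5) (nat_lit 107) (nat_lit 5) (nat_lit 101) (nat_lit 5) (nat_lit 364) (nat_lit 342) (nat_lit 158)) (XT.nd (nat_lit 94) (nat_lit 0) (nat_lit 0) (XT.lf (nat_lit 0) (nat_lit 5704108689) (nat_lit 672) (nat_lit 23032008636) (nat_lit 84) (nat_lit 3004963521) (nat_lit 93) (nat_lit 5) (nat_lit 101) (nat_lit 5) (nat_lit 94) (nat_lit 5) (nat_lit 365) (nat_lit 342) (nat_lit 157)) (XT.lf (nat_lit 0) (nat_lit 7973137686) (nat_lit 672) (nat_lit 10614585133) (nat_lit 84) (nat_lit 13744389652) (nat_lit 93) (nat_lit 5) (nat_lit 101) (nat_lit 5) (nat_lit 94) (nat_lit 5) (nat_lit 366) (nat_lit 342) (nat_lit 156))))))))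
noncomputable def xc198 : XT := (XT.nd (nat_lit 2256) (nat_lit 2100) (nat_lit 0) (XT.nd (nat_lit 1128) (nat_lit 1512) (nat_lit 0) (XT.nd (nat_lit 564) (nat_lit 924) (nat_lit 0) (XT.nd (nat_lit 282) (nat_lit 924) (nat_lit 0) (XT.nd (nat_lit 94) (nat_lit 0) (nat_lit 0) (XT.lf (nat_lit 0) (nat_lit 2230241222) (nat_lit 504) (nat_lit 8101797820) (nat_lit 588) (nat_lit 22608830441) (nat_lit 87) (nat_lit 5) (nat_lit 93) (nat_lit 5) (nat_lit 94) (nat_lit 5) (nat_lit 367) (nat_lit 342) (nat_lit 155)) (XT.nd (nat_lit 94) (nat_lit 0) (nat_lit 0) (XT.lf (nat_lit 0) (nat_lit 12900332275) (nat_lit 588) (nat_lit 17897326066) (nat_lit 84) (nat_lit 2766624023) (nat_lit 87) (nat_lit 5) (nat_lit 94) (nat_lit 5) (nat_lit 88) (nat_lit 5) (nat_lit 368) (nat_lit 342) (nat_lit 154)) (XT.lf (nat_lit 0) (nat_lit 15628643978) (nat_lit 588) (nat_lit 4772132495) (nat_lit 84) (nat_lit 13803760512) (nat_lit 87) (nat_lit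 5) (nat_lit 94) (nat_lit 5) (nat_lit 88) (nat_lit 5) (nat_lit 369) (nat_lit 342) (nat_lit 153)))) (XT.nd (nat_lit 94) (nat_lit 420) (nat_lit 0) (XT.lf (nat_lit 0) (nat_lit 8937630683) (nat_lit 504) (nat_lit 9590178107) (nat_lit 588) (nat_lit 16334164304) (nat_lit 81) (nat_lit 5) (nat_lit 87) (nat_lit 5) (nat_lit 88) (nat_lit 5) (nat_lit 370) (nat_lit 342) (nat_lit 152)) (XT.nd (nat_lit 94) (nat_lit 420) (nat_lit 0) (XT.lf (nat_lit 0) (nat_lit 21580260855) (nat_lit 588) (nat_lit 12383063797) (nat_lit 84) (nat_lit 1574507151) (nat_lit 81) (nat_lit 5) (nat_lit 88) (nat_lit 5) (nat_lit 82) (nat_lit 5) (nat_lit 371) (nat_lit 342) (nat_lit 151)) (XT.lf (nat_lit 0) (nat_lit 1507923421) (nat_lit 420) (nat_lit 23330190764) (nat_lit 504) (nat_lit 11393101563) (nat_lit 76) (nat_lit 5) (nat_lit 81) (nat_lit 5) (nat_lit 82) (nat_lit 5) (nat_lit 372) (nat_lit 342) (nat_lit 150))))) (XT.nd (nat_lit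 282) (nat_lit 504) (nat_lit 0) (XT.nd (nat_lit 94) (nat_lit 420) (nat_lit 0) (XT.lf (nat_lit 0) (nat_lit 16089702290) (nat_lit 420) (nat_lit 12234288934) (nat_lit 504) (nat_lit 8618172857) (nat_lit 76) (nat_lit 5) (nat_lit 81) (nat_lit 5) (nat_lit 82) (nat_lit 5) (nat_lit 373) (nat_lit 342) (nat_lit 149)) (XT.nd (nat_lit 94) (nat_lit 420) (nat_lit 0) (XT.lf (nat_lit 0) (nat_lit 31121243364) (nat_lit 420) (nat_lit 794530407) (nat_lit 504) (nat_lit 5759452094) (nat_lit 76) (nat_lit 5) (nat_lit 81) (nat_lit 5) (nat_lit 82) (nat_lit 5) (nat_lit 374) (nat_lit 342) (nat_lit 148)) (XT.lf (nat_lit 0) (nat_lit 8242420770) (nat_lit 420) (nat_lit 27565273670) (nat_lit 504) (nat_lit 2617472527) (nat_lit 71) (nat_lit 5) (nat_lit 76) (nat_lit 5) (nat_lit 77) (nat_lit 5) (nat_lit 375) (nat_lit 342) (nat_lit 147)))) (XT.nd (nat_lit 94) (nat_lit 420) (nat_lit 0) (XT.lf (nat_lit 0) (nat_lit 684534336)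 (nat_lit 504) (nat_lit 15577078868) (nat_lit 84) (nat_lit 22934228519) (nat_lit 70) (nat_lit 5) (nat_lit 76) (nat_lit 5) (nat_lit 71) (nat_lit 5) (nat_lit 376) (nat_lit 342) (nat_lit 146)) (XT.nd (nat_lit 94) (nat_lit 420) (nat_lit 0) (XT.lf (nat_lit 0) (nat_lit 4032514904) (nat_lit 504) (nat_lit 547638840) (nat_lit 84) (nat_lit 35409492675) (nat_lit 70) (nat_lit 5) (nat_lit 76) (nat_lit 5) (nat_lit 71) (nat_lit 5) (nat_lit 377) (nat_lit 342) (nat_lit 145)) (XT.lf (nat_lit 0) (nat_lit 7709219978) (nat_lit 504) (nat_lit 25626159242) (nat_lit 84) (nat_lit 7465712970) (nat_lit 65) (nat_lit 5) (nat_lit 71) (nat_lit 5) (nat_lit 66) (nat_lit 5) (nat_lit 378) (nat_lit 342) (nat_lit 144)))))) (XT.nd (nat_lit 564) (nat_lit 756) (nat_lit 0) (XT.nd (nat_lit 282) (nat_lit 336) (nat_lit 0) (XT.nd (nat_lit 94) (nat_lit 420) (nat_lit 0) (XT.lf (nat_lit 0) (nat_lit 11550600361) (nat_lit 504) (nat_lit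 10290110743) (nat_lit 84) (nat_lit 19795416047) (nat_lit 65) (nat_lit 5) (nat_lit 71) (nat_lit 5) (nat_lit 66) (nat_lit 5) (nat_lit 379) (nat_lit 342) (nat_lit 143)) (XT.nd (nat_lit 94) (nat_lit 0) (nat_lit 0) (XT.lf (nat_lit 0) (nat_lit 5632701365) (nat_lit 420) (nat_lit 9932375602) (nat_lit 504) (nat_lit 26930302625) (nat_lit 60) (nat_lit 5) (nat_lit 65) (nat_lit 5) (nat_lit 66) (nat_lit 5) (nat_lit 380) (nat_lit 342) (nat_lit 142)) (XT.lf (nat_lit 0) (nat_lit 19833940872) (nat_lit 504) (nat_lit 21137214079) (nat_lit 84) (nat_lit 2406091451) (nat_lit 60) (nat_lit 5) (nat_lit 66) (nat_lit 5) (nat_lit 61) (nat_lit 5) (nat_lit 381) (nat_lit 342) (nat_lit 141)))) (XT.nd (nat_lit 94) (nat_lit 336) (nat_lit 0) (XT.lf (nat_lit 0) (nat_lit 24334947946) (nat_lit 504) (nat_lit 5027957945) (nat_lit 84) (nat_lit 14920456601) (nat_lit 60) (nat_lit 5) (nat_lit 66) (nat_lit 5) (nat_lit 61) (nat_lit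 5) (nat_lit 382) (nat_lit 342) (nat_lit 140)) (XT.nd (nat_lit 94) (nat_lit 0) (nat_lit 0) (XT.lf (nat_lit 0) (nat_lit 11816716588) (nat_lit 336) (nat_lit 17274269907) (nat_lit 420) (nat_lit 16123006482) (nat_lit 56) (nat_lit 5) (nat_lit 60) (nat_lit 5) (nat_lit 61) (nat_lit 5) (nat_lit 383) (nat_lit 342) (nat_lit 139)) (XT.lf (nat_lit 0) (nat_lit 29288137799) (nat_lit 336) (nat_lit 4757114660) (nat_lit 420) (nat_lit 12126651196) (nat_lit 56) (nat_lit 5) (nat_lit 60) (nat_lit 5) (nat_lit 61) (nat_lit 5) (nat_lit 384) (nat_lit 342) (nat_lit 138))))) (XT.nd (nat_lit 282) (nat_lit 336) (nat_lit 0) (XT.nd (nat_lit 94) (nat_lit 84) (nat_lit 0) (XT.lf (nat_lit 0) (nat_lit 60023030) (nat_lit 336) (nat_lit 39172859226) (nat_lit 420) (nat_lit 7924159068) (nat_lit 52) (nat_lit 5) (nat_lit 56) (nat_lit 5) (nat_lit 57) (nat_lit 5) (nat_lit 385) (nat_lit 342) (nat_lit 137)) (XT.nd (nat_lit 94) (nat_lit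 84) (nat_lit 0) (XT.lf (nat_lit 0) (nat_lit 17835342350) (nat_lit 336) (nat_lit 26968765481) (nat_lit 420) (nat_lit 3361709114) (nat_lit 52) (nat_lit 5) (nat_lit 56) (nat_lit 5) (nat_lit 57) (nat_lit 5) (nat_lit 386) (nat_lit 342) (nat_lit 136)) (XT.lf (nat_lit 0) (nat_lit 1313548693) (nat_lit 420) (nat_lit 13059459116) (nat_lit 84) (nat_lit 34832497774) (nat_lit 51) (nat_lit 5) (nat_lit 56) (nat_lit 5) (nat_lit 52) (nat_lit 5) (nat_lit 387) (nat_lit 342) (nat_lit 135)))) (XT.nd (nat_lit 94) (nat_lit 0) (nat_lit 0) (XT.lf (nat_lit 0) (nat_lit 4807519176) (nat_lit 336) (nat_lit 1302542364) (nat_lit 420) (nat_lit 44164870859) (nat_lit 47) (nat_lit 5) (nat_lit 51) (nat_lit 5) (nat_lit 52) (nat_lit 5) (nat_lit 388) (nat_lit 342) (nat_lit 134)) (XT.nd (nat_lit 94) (nat_lit 0) (nat_lit 0) (XT.lf (nat_lit 0) (nat_lit 11312218231) (nat_lit 420) (nat_lit 27992156122) (nat_lit 84) (nat_lit 12065175868)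 (nat_lit 47) (nat_lit 5) (nat_lit 52) (nat_lit 5) (nat_lit 48) (nat_lit 5) (nat_lit 389) (nat_lit 342) (nat_lit 133)) (XT.lf (nat_lit 0) (nat_lit 16687494343) (nat_lit 420) (nat_lit 9990374483) (nat_lit 84) (nat_lit 25819869094) (nat_lit 47) (nat_lit 5) (nat_lit 52) (nat_lit 5) (nat_lit 48) (nat_lit 5) (nat_lit 390) (nat_lit 342) (nat_lit 132))))))) (XT.nd (nat_lit 1128) (nat_lit 924) (nat_lit 0) (XT.nd (nat_lit 564) (nat_lit 588) (nat_lit 0) (XT.nd (nat_lit 282) (nat_lit 252) (nat_lit 0) (XT.nd (nat_lit 94) (nat_lit 0) (nat_lit 0) (XT.lf (nat_lit 0) (nat_lit 8743800718) (nat_lit 336) (nat_lit 13570917683) (nat_lit 420) (nat_lit 31343540320) (nat_lit 43) (nat_lit 5) (nat_lit 47) (nat_lit 5) (nat_lit 48) (nat_lit 5) (nat_lit 391) (nat_lit 342) (nat_lit 131)) (XT.nd (nat_lit 94) (nat_lit 0) (nat_lit 0) (XT.lf (nat_lit 0) (nat_lit 28219755659) (nat_lit 420) (nat_lit 26583346083) (nat_lit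 84) (nat_lit 48453386) (nat_lit 43) (nat_lit 5) (nat_lit 48) (nat_lit 5) (nat_lit 44) (nat_lit 5) (nat_lit 392) (nat_lit 342) (nat_lit 130)) (XT.lf (nat_lit 0) (nat_lit 34445285473) (nat_lit 420) (nat_lit 7824566981) (nat_lit 84) (nat_lit 13807734532) (nat_lit 43) (nat_lit 5) (nat_lit 48) (nat_lit 5) (nat_lit 44) (nat_lit 5) (nat_lit 393) (nat_lit 342) (nat_lit 129)))) (XT.nd (nat_lit 94) (nat_lit 0) (nat_lit 0) (XT.lf (nat_lit 0) (nat_lit 11750740875) (nat_lit 252) (nat_lit 29228313435) (nat_lit 336) (nat_lit 16359002524) (nat_lit 40) (nat_lit 5) (nat_lit 43) (nat_lit 5) (nat_lit 44) (nat_lit 5) (nat_lit 394) (nat_lit 342) (nat_lit 128)) (XT.nd (nat_lit 94) (nat_lit 0) (nat_lit 0) (XT.lf (nat_lit 0) (nat_lit 32097033008) (nat_lit 252) (nat_lit 15698710794) (nat_lit 336) (nat_lit 10839369424) (nat_lit 40) (nat_lit 5) (nat_lit 43) (nat_lit 5) (nat_lit 44) (nat_lit 5) (nat_lit 395) (nat_lit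 342) (nat_lit 127)) (XT.lf (nat_lit 0) (nat_lit 53072385148) (nat_lit 252) (nat_lit 1750105955) (nat_lit 336) (nat_lit 5149929768) (nat_lit 40) (nat_lit 5) (nat_lit 43) (nat_lit 5) (nat_lit 44) (nat_lit 5) (nat_lit 396) (nat_lit 342) (nat_lit 126))))) (XT.nd (nat_lit 282) (nat_lit 252) (nat_lit 0) (XT.nd (nat_lit 94) (nat_lit 0) (nat_lit 0) (XT.lf (nat_lit 0) (nat_lit 962006961) (nat_lit 336) (nat_lit 47861279727) (nat_lit 84) (nat_lit 12519604484) (nat_lit 36) (nat_lit 5) (nat_lit 40) (nat_lit 5) (nat_lit 37) (nat_lit 5) (nat_lit 397) (nat_lit 342) (nat_lit 125)) (XT.nd (nat_lit 94) (nat_lit 0) (nat_lit 0) (XT.lf (nat_lit 0) (nat_lit 7245875211) (nat_lit 336) (nat_lit 28185227652) (nat_lit 84) (nat_lit 27320340958) (nat_lit 36) (nat_lit 5) (nat_lit 40) (nat_lit 5) (nat_lit 37) (nat_lit 5) (nat_lit 398) (nat_lit 342) (nat_lit 124)) (XT.lf (nat_lit 0) (nat_lit 13723359408) (nat_lit 336)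 (nat_lit 7900840993) (nat_lit 84) (nat_lit 42579500965) (nat_lit 36) (nat_lit 5) (nat_lit 40) (nat_lit 5) (nat_lit 37) (nat_lit 5) (nat_lit 399) (nat_lit 342) (nat_lit 123)))) (XT.nd (nat_lit 94) (nat_lit 0) (nat_lit 0) (XT.lf (nat_lit 0) (nat_lit 13278315896) (nat_lit 252) (nat_lit 7253903889) (nat_lit 336) (nat_lit 45164714280) (nat_lit 33) (nat_lit 5) (nat_lit 36) (nat_lit 5) (nat_lit 37) (nat_lit 5) (nat_lit 400) (nat_lit 342) (nat_lit 122)) (XT.nd (nat_lit 94) (nat_lit 0) (nat_lit 0) (XT.lf (nat_lit 0) (nat_lit 27709348021) (nat_lit 336) (nat_lit 32029830215) (nat_lit 84) (nat_lit 7492408633) (nat_lit 33) (nat_lit 5) (nat_lit 37) (nat_lit 5) (nat_lit 34) (nat_lit 5) (nat_lit 401) (nat_lit 342) (nat_lit 121)) (XT.lf (nat_lit 0) (nat_lit 35182058136) (nat_lit 336) (nat_lit 11084724266) (nat_lit 84) (nat_lit 22544768484) (nat_lit 33) (nat_lit 5) (nat_lit 37) (nat_lit 5) (nat_lit 34)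 (nat_lit 5) (nat_lit 402) (nat_lit 342) (nat_lit 120)))))) (XT.nd (nat_lit 564) (nat_lit 420) (nat_lit 0) (XT.nd (nat_lit 282) (nat_lit 252) (nat_lit 0) (XT.nd (nat_lit 94) (nat_lit 0) (nat_lit 0) (XT.lf (nat_lit 0) (nat_lit 10724252115) (nat_lit 252) (nat_lit 32267489647) (nat_lit 336) (nat_lit 27445489832) (nat_lit 30) (nat_lit 5) (nat_lit 33) (nat_lit 5) (nat_lit 34) (nat_lit 5) (nat_lit 403) (nat_lit 342) (nat_lit 119)) (XT.nd (nat_lit 94) (nat_lit 0) (nat_lit 0) (XT.lf (nat_lit 0) (nat_lit 33442814623) (nat_lit 252) (nat_lit 17715363691) (nat_lit 336) (nat_lit 20951578480) (nat_lit 30) (nat_lit 5) (nat_lit 33) (nat_lit 5) (nat_lit 34) (nat_lit 5) (nat_lit 404) (nat_lit 342) (nat_lit 118)) (XT.lf (nat_lit 0) (nat_lit 56864214675) (nat_lit 252) (nat_lit 2712542217) (nat_lit 336) (nat_lit 14257407479) (nat_lit 30) (nat_lit 5) (nat_lit 33) (nat_lit 5) (nat_lit 34) (nat_lit 5) (nat_lit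 405) (nat_lit 342) (nat_lit 117)))) (XT.nd (nat_lit 94) (nat_lit 84) (nat_lit 0) (XT.lf (nat_lit 0) (nat_lit 5380087826) (nat_lit 168) (nat_lit 63055138573) (nat_lit 252) (nat_lit 7171258290) (nat_lit 28) (nat_lit 5) (nat_lit 30) (nat_lit 5) (nat_lit 31) (nat_lit 5) (nat_lit 406) (nat_lit 342) (nat_lit 116)) (XT.nd (nat_lit 94) (nat_lit 0) (nat_lit 0) (XT.lf (nat_lit 0) (nat_lit 337548976) (nat_lit 252) (nat_lit 48677846664) (nat_lit 84) (nat_lit 28411935586) (nat_lit 27) (nat_lit 5) (nat_lit 30) (nat_lit 5) (nat_lit 28) (nat_lit 5) (nat_lit 407) (nat_lit 342) (nat_lit 115)) (XT.lf (nat_lit 0) (nat_lit 7929207587) (nat_lit 252) (nat_lit 26536025357) (nat_lit 84) (nat_lit 44837149310) (nat_lit 27) (nat_lit 5) (nat_lit 30) (nat_lit 5) (nat_lit 28) (nat_lit 5) (nat_lit 408) (nat_lit 342) (nat_lit 114))))) (XT.nd (nat_lit 282) (nat_lit 168) (nat_lit 0) (XT.nd (nat_lit 94) (nat_lit 252) (nat_lit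 0) (XT.lf (nat_lit 0) (nat_lit 15755278637) (nat_lit 252) (nat_lit 3709154675) (nat_lit 84) (nat_lit 61771157539) (nat_lit 27) (nat_lit 5) (nat_lit 30) (nat_lit 5) (nat_lit 28) (nat_lit 5) (nat_lit 409) (nat_lit 342) (nat_lit 113)) (XT.nd (nat_lit 94) (nat_lit 0) (nat_lit 0) (XT.lf (nat_lit 0) (nat_lit 20231665385) (nat_lit 252) (nat_lit 3792092085) (nat_lit 336) (nat_lit 59198779781) (nat_lit 24) (nat_lit 5) (nat_lit 27) (nat_lit 5) (nat_lit 28) (nat_lit 5) (nat_lit 410) (nat_lit 342) (nat_lit 112)) (XT.lf (nat_lit 0) (nat_lit 32709453432) (nat_lit 336) (nat_lit 40400983799) (nat_lit 84) (nat_lit 12155656093) (nat_lit 24) (nat_lit 5) (nat_lit 28) (nat_lit 5) (nat_lit 25) (nat_lit 5) (nat_lit 411) (nat_lit 342) (nat_lit 111)))) (XT.nd (nat_lit 94) (nat_lit 168) (nat_lit 0) (XT.lf (nat_lit 0) (nat_lit 41702326118) (nat_lit 336) (nat_lit 17150872598) (nat_lit 84) (nat_lit 28518627391)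 (nat_lit 24) (nat_lit 5) (nat_lit 28) (nat_lit 5) (nat_lit 25) (nat_lit 5) (nat_lit 412) (nat_lit 342) (nat_lit 110)) (XT.nd (nat_lit 94) (nat_lit 0) (nat_lit 0) (XT.lf (nat_lit 0) (nat_lit 6958958810) (nat_lit 168) (nat_lit 44083214728) (nat_lit 252) (nat_lit 38498550940) (nat_lit 22) (nat_lit 5) (nat_lit 24) (nat_lit 5) (nat_lit 25) (nat_lit 5) (nat_lit 413) (nat_lit 342) (nat_lit 109)) (XT.lf (nat_lit 0) (nat_lit 32178556291) (nat_lit 168) (nat_lit 28671194836) (nat_lit 252) (nat_lit 30921585409) (nat_lit 22) (nat_lit 5) (nat_lit 24) (nat_lit 5) (nat_lit 25) (nat_lit 5) (nat_lit 414) (nat_lit 342) (nat_lit 108))))))))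
noncomputable def xc199 : XT := (XT.nd (nat_lit 49538) (nat_lit 0) (nat_lit 2436) (XT.nd (nat_lit 48410) (nat_lit 0) (nat_lit 6552) (XT.nd (nat_lit 47846) (nat_lit 0) (nat_lit 7812) (XT.nd (nat_lit 47564) (nat_lit 0) (nat_lit 7728) (XT.nd (nat_lit 94) (nat_lit 0) (nat_lit 0) (XT.lf (nat_lit 0) (nat_lit 58178770033) (nat_lit 168) (nat_lit 12781793357) (nat_lit 252) (nat_lit 23110560805) (nat_lit 22) (nat_lit 5) (nat_lit 24) (nat_lit 5) (nat_lit 25) (nat_lit 5) (nat_lit 415) (nat_lit 342) (nat_lit 107)) (XT.nd (nat_lit 47376) (nat_lit 0) (nat_lit 7728) (XT.lf (nat_lit 0) (nat_lit 81419745129) (nat_lit 252) (nat_lit 11494106606) (nat_lit 84) (nat_lit 3527272341) (nat_lit 22) (nat_lit 5) (nat_lit 25) (nat_lit 5) (nat_lit 23) (nat_lit 5) (nat_lit 416) (nat_lit 342) (nat_lit 106)) (XT.lf (nat_lit 0) (nat_lit 1926268773) (nat_lit 0) (nat_lit 1926268773) (nat_lit 1092) (nat_lit 7272301409) (nat_lit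 114) (nat_lit 5) (nat_lit 114) (nat_lit 3) (nat_lit 127) (nat_lit 3) (nat_lit 343) (nat_lit 343) (nat_lit 178)))) (XT.nd (nat_lit 94) (nat_lit 0) (nat_lit 0) (XT.lf (nat_lit 0) (nat_lit 7987435937) (nat_lit 1092) (nat_lit 9937172603) (nat_lit 1176) (nat_lit 4664455539) (nat_lit 114) (nat_lit 5) (nat_lit 127) (nat_lit 3) (nat_lit 128) (nat_lit 5) (nat_lit 344) (nat_lit 343) (nat_lit 177)) (XT.nd (nat_lit 94) (nat_lit 0) (nat_lit 0) (XT.lf (nat_lit 0) (nat_lit 8313312941) (nat_lit 1092) (nat_lit 1256864621) (nat_lit 1176) (nat_lit 13367733448) (nat_lit 114) (nat_lit 5) (nat_lit 127) (nat_lit 3) (nat_lit 128) (nat_lit 5) (nat_lit 345) (nat_lit 343) (nat_lit 176)) (XT.lf (nat_lit 84) (nat_lit 7848216252) (nat_lit 0) (nat_lit 874431234) (nat_lit 1176) (nat_lit 14572667617) (nat_lit 115) (nat_lit 5) (nat_lit 114) (nat_lit 5) (nat_lit 128) (nat_lit 5) (nat_lit 346) (nat_lit 343) (nat_lit 175)))))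 (XT.nd (nat_lit 282) (nat_lit 0) (nat_lit 84) (XT.nd (nat_lit 94) (nat_lit 0) (nat_lit 0) (XT.lf (nat_lit 0) (nat_lit 9233818213) (nat_lit 1092) (nat_lit 6484177306) (nat_lit 1176) (nat_lit 7943056062) (nat_lit 115) (nat_lit 5) (nat_lit 128) (nat_lit 5) (nat_lit 129) (nat_lit 5) (nat_lit 347) (nat_lit 343) (nat_lit 174)) (XT.nd (nat_lit 94) (nat_lit 0) (nat_lit 84) (XT.lf (nat_lit 84) (nat_lit 2801586942) (nat_lit 0) (nat_lit 6991746102) (nat_lit 1176) (nat_lit 14243801335) (nat_lit 116) (nat_lit 5) (nat_lit 115) (nat_lit 5) (nat_lit 129) (nat_lit 5) (nat_lit 348) (nat_lit 343) (nat_lit 173)) (XT.lf (nat_lit 0) (nat_lit 10454338074) (nat_lit 1092) (nat_lit 11933333621) (nat_lit 1176) (nat_lit 2034610986) (nat_lit 116) (nat_lit 5) (nat_lit 129) (nat_lit 5) (nat_lit 130) (nat_lit 5) (nat_lit 349) (nat_lit 343) (nat_lit 172)))) (XT.nd (nat_lit 94) (nat_lit 0) (nat_lit 0) (XT.lf (nat_lit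 0) (nat_lit 11203348694) (nat_lit 1092) (nat_lit 2416825567) (nat_lit 1176) (nat_lit 11197118347) (nat_lit 116) (nat_lit 5) (nat_lit 129) (nat_lit 5) (nat_lit 130) (nat_lit 5) (nat_lit 350) (nat_lit 343) (nat_lit 171)) (XT.nd (nat_lit 94) (nat_lit 0) (nat_lit 84) (XT.lf (nat_lit 84) (nat_lit 7544205012) (nat_lit 0) (nat_lit 4502338511) (nat_lit 1176) (nat_lit 13175818934) (nat_lit 117) (nat_lit 5) (nat_lit 116) (nat_lit 5) (nat_lit 130) (nat_lit 5) (nat_lit 351) (nat_lit 343) (nat_lit 170)) (XT.lf (nat_lit 0) (nat_lit 12986182950) (nat_lit 1092) (nat_lit 7825400129) (nat_lit 1176) (nat_lit 4826241010) (nat_lit 117) (nat_lit 5) (nat_lit 130) (nat_lit 5) (nat_lit 131) (nat_lit 5) (nat_lit 352) (nat_lit 343) (nat_lit 169)))))) (XT.nd (nat_lit 564) (nat_lit 1428) (nat_lit 0) (XT.nd (nat_lit 282) (nat_lit 0) (nat_lit 84) (XT.nd (nat_lit 94) (nat_lit 0) (nat_lit 0) (XT.lf (nat_lit 84) (nat_lit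 2331183494) (nat_lit 0) (nat_lit 11689285592) (nat_lit 1176) (nat_lit 12043678556) (nat_lit 118) (nat_lit 5) (nat_lit 117) (nat_lit 5) (nat_lit 131) (nat_lit 5) (nat_lit 353) (nat_lit 343) (nat_lit 168)) (XT.nd (nat_lit 94) (nat_lit 0) (nat_lit 84) (XT.lf (nat_lit 84) (nat_lit 12966012194) (nat_lit 0) (nat_lit 2198916050) (nat_lit 1176) (nat_lit 11336350821) (nat_lit 118) (nat_lit 5) (nat_lit 117) (nat_lit 5) (nat_lit 131) (nat_lit 5) (nat_lit 354) (nat_lit 343) (nat_lit 167)) (XT.lf (nat_lit 0) (nat_lit 16416662941) (nat_lit 1092) (nat_lit 3099250229) (nat_lit 1176) (nat_lit 7433835531) (nat_lit 118) (nat_lit 5) (nat_lit 131) (nat_lit 5) (nat_lit 132) (nat_lit 5) (nat_lit 355) (nat_lit 343) (nat_lit 166)))) (XT.nd (nat_lit 94) (nat_lit 0) (nat_lit 0) (XT.lf (nat_lit 84) (nat_lit 7792309170) (nat_lit 0) (nat_lit 10011333155) (nat_lit 1176) (nat_lit 9605501372) (nat_lit 119) (nat_lit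 5) (nat_lit 118) (nat_lit 5) (nat_lit 132) (nat_lit 5) (nat_lit 356) (nat_lit 343) (nat_lit 165)) (XT.nd (nat_lit 94) (nat_lit 0) (nat_lit 84) (XT.lf (nat_lit 84) (nat_lit 19084752831) (nat_lit 0) (nat_lit 177941901) (nat_lit 1176) (nat_lit 8619195924) (nat_lit 119) (nat_lit 5) (nat_lit 118) (nat_lit 5) (nat_lit 132) (nat_lit 5) (nat_lit 357) (nat_lit 343) (nat_lit 164)) (XT.lf (nat_lit 84) (nat_lit 2303063108) (nat_lit 0) (nat_lit 18582401701) (nat_lit 1176) (nat_lit 7480166594) (nat_lit 120) (nat_lit 5) (nat_lit 119) (nat_lit 5) (nat_lit 133) (nat_lit 5) (nat_lit 358) (nat_lit 343) (nat_lit 163))))) (XT.nd (nat_lit 282) (nat_lit 588) (nat_lit 0) (XT.nd (nat_lit 94) (nat_lit 1008) (nat_lit 0) (XT.lf (nat_lit 84) (nat_lit 13929532239) (nat_lit 0) (nat_lit 8719537882) (nat_lit 1176) (nat_lit 6212502959) (nat_lit 120) (nat_lit 5) (nat_lit 119) (nat_lit 5) (nat_lit 133) (nat_lit 5) (nat_lit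 359) (nat_lit 343) (nat_lit 162)) (XT.nd (nat_lit 94) (nat_lit 1092) (nat_lit 0) (XT.lf (nat_lit 0) (nat_lit 24478725055) (nat_lit 1092) (nat_lit 3473353096) (nat_lit 84) (nat_lit 1420469123) (nat_lit 120) (nat_lit 5) (nat_lit 133) (nat_lit 5) (nat_lit 121) (nat_lit 5) (nat_lit 360) (nat_lit 343) (nat_lit 161)) (XT.lf (nat_lit 0) (nat_lit 8418553137) (nat_lit 1092) (nat_lit 18116332576) (nat_lit 1176) (nat_lit 3359223277) (nat_lit 107) (nat_lit 5) (nat_lit 120) (nat_lit 5) (nat_lit 121) (nat_lit 5) (nat_lit 361) (nat_lit 343) (nat_lit 160)))) (XT.nd (nat_lit 94) (nat_lit 588) (nat_lit 0) (XT.lf (nat_lit 0) (nat_lit 20750330825) (nat_lit 1092) (nat_lit 7937867674) (nat_lit 1176) (nat_lit 1742615258) (nat_lit 107) (nat_lit 5) (nat_lit 120) (nat_lit 5) (nat_lit 121) (nat_lit 5) (nat_lit 362) (nat_lit 343) (nat_lit 159)) (XT.nd (nat_lit 94) (nat_lit 84) (nat_lit 0) (XT.lf (nat_lit 0) (nat_lit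 2502869224) (nat_lit 504) (nat_lit 28452826779) (nat_lit 588) (nat_lit 27000046) (nat_lit 101) (nat_lit 5) (nat_lit 107) (nat_lit 5) (nat_lit 108) (nat_lit 5) (nat_lit 363) (nat_lit 343) (nat_lit 158)) (XT.lf (nat_lit 0) (nat_lit 1887237265) (nat_lit 588) (nat_lit 16381405000) (nat_lit 84) (nat_lit 13276921783) (nat_lit 100) (nat_lit 5) (nat_lit 107) (nat_lit 5) (nat_lit 101) (nat_lit 5) (nat_lit 364) (nat_lit 343) (nat_lit 157))))))) (XT.nd (nat_lit 1128) (nat_lit 1680) (nat_lit 0) (XT.nd (nat_lit 564) (nat_lit 1344) (nat_lit 0) (XT.nd (nat_lit 282) (nat_lit 504) (nat_lit 0) (XT.nd (nat_lit 94) (nat_lit 588) (nat_lit 0) (XT.lf (nat_lit 0) (nat_lit 3857605083) (nat_lit 588) (nat_lit 3910612810) (nat_lit 84) (nat_lit 24357745839) (nat_lit 100) (nat_lit 5) (nat_lit 107) (nat_lit 5) (nat_lit 101) (nat_lit 5) (nat_lit 365) (nat_lit 343) (nat_lit 156)) (XT.nd (nat_lit 94) (nat_lit 0) (nat_lit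 0) (XT.lf (nat_lit 0) (nat_lit 6008299903) (nat_lit 672) (nat_lit 23624540955) (nat_lit 84) (nat_lit 3087827248) (nat_lit 93) (nat_lit 5) (nat_lit 101) (nat_lit 5) (nat_lit 94) (nat_lit 5) (nat_lit 366) (nat_lit 343) (nat_lit 155)) (XT.lf (nat_lit 0) (nat_lit 8343839237) (nat_lit 672) (nat_lit 10825829368) (nat_lit 84) (nat_lit 14160484993) (nat_lit 93) (nat_lit 5) (nat_lit 101) (nat_lit 5) (nat_lit 94) (nat_lit 5) (nat_lit 367) (nat_lit 343) (nat_lit 154)))) (XT.nd (nat_lit 94) (nat_lit 0) (nat_lit 0) (XT.lf (nat_lit 0) (nat_lit 2415993905) (nat_lit 504) (nat_lit 8357315052) (nat_lit 588) (nat_lit 23184565179) (nat_lit 87) (nat_lit 5) (nat_lit 93) (nat_lit 5) (nat_lit 94) (nat_lit 5) (nat_lit 368) (nat_lit 343) (nat_lit 153)) (XT.nd (nat_lit 94) (nat_lit 0) (nat_lit 0) (XT.lf (nat_lit 0) (nat_lit 13417539799) (nat_lit 588) (nat_lit 18334955227) (nat_lit 84) (nat_lit 2848244242) (nat_lit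 87) (nat_lit 5) (nat_lit 94) (nat_lit 5) (nat_lit 88) (nat_lit 5) (nat_lit 369) (nat_lit 343) (nat_lit 152)) (XT.lf (nat_lit 0) (nat_lit 16226902284) (nat_lit 588) (nat_lit 4806404250) (nat_lit 84) (nat_lit 14227656598) (nat_lit 87) (nat_lit 5) (nat_lit 94) (nat_lit 5) (nat_lit 88) (nat_lit 5) (nat_lit 370) (nat_lit 343) (nat_lit 151))))) (XT.nd (nat_lit 282) (nat_lit 420) (nat_lit 0) (XT.nd (nat_lit 94) (nat_lit 420) (nat_lit 0) (XT.lf (nat_lit 0) (nat_lit 9327210837) (nat_lit 504) (nat_lit 9886425682) (nat_lit 588) (nat_lit 16725226341) (nat_lit 81) (nat_lit 5) (nat_lit 87) (nat_lit 5) (nat_lit 88) (nat_lit 5) (nat_lit 371) (nat_lit 343) (nat_lit 150)) (XT.nd (nat_lit 94) (nat_lit 420) (nat_lit 0) (XT.lf (nat_lit 0) (nat_lit 22357373144) (nat_lit 588) (nat_lit 12654102104) (nat_lit 84) (nat_lit 1624312830) (nat_lit 81) (nat_lit 5) (nat_lit 88) (nat_lit 5) (nat_lit 82) (nat_lit 5) (nat_lit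 372) (nat_lit 343) (nat_lit 149)) (XT.lf (nat_lit 0) (nat_lit 1666363348) (nat_lit 420) (nat_lit 24047713534) (nat_lit 504) (nat_lit 11636667444) (nat_lit 76) (nat_lit 5) (nat_lit 81) (nat_lit 5) (nat_lit 82) (nat_lit 5) (nat_lit 373) (nat_lit 343) (nat_lit 148)))) (XT.nd (nat_lit 94) (nat_lit 420) (nat_lit 0) (XT.lf (nat_lit 0) (nat_lit 16696818949) (nat_lit 420) (nat_lit 12608010528) (nat_lit 504) (nat_lit 8779011998) (nat_lit 76) (nat_lit 5) (nat_lit 81) (nat_lit 5) (nat_lit 82) (nat_lit 5) (nat_lit 374) (nat_lit 343) (nat_lit 147)) (XT.nd (nat_lit 94) (nat_lit 420) (nat_lit 0) (XT.lf (nat_lit 0) (nat_lit 32191080364) (nat_lit 420) (nat_lit 813786104) (nat_lit 504) (nat_lit 5834867838) (nat_lit 76) (nat_lit 5) (nat_lit 81) (nat_lit 5) (nat_lit 82) (nat_lit 5) (nat_lit 375) (nat_lit 343) (nat_lit 146)) (XT.lf (nat_lit 0) (nat_lit 8605286567) (nat_lit 420) (nat_lit 28410268878) (nat_lit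 504) (nat_lit 2597436460) (nat_lit 71) (nat_lit 5) (nat_lit 76) (nat_lit 5) (nat_lit 77) (nat_lit 5) (nat_lit 376) (nat_lit 343) (nat_lit 145)))))) (XT.nd (nat_lit 564) (nat_lit 756) (nat_lit 0) (XT.nd (nat_lit 282) (nat_lit 420) (nat_lit 0) (XT.nd (nat_lit 94) (nat_lit 420) (nat_lit 0) (XT.lf (nat_lit 0) (nat_lit 801913203) (nat_lit 504) (nat_lit 15953564534) (nat_lit 84) (nat_lit 23652150547) (nat_lit 70) (nat_lit 5) (nat_lit 76) (nat_lit 5) (nat_lit 71) (nat_lit 5) (nat_lit 377) (nat_lit 343) (nat_lit 144)) (XT.nd (nat_lit 94) (nat_lit 420) (nat_lit 0) (XT.lf (nat_lit 0) (nat_lit 4250789891) (nat_lit 504) (nat_lit 461411203) (nat_lit 84) (nat_lit 36513938591) (nat_lit 70) (nat_lit 5) (nat_lit 76) (nat_lit 5) (nat_lit 71) (nat_lit 5) (nat_lit 378) (nat_lit 343) (nat_lit 143)) (XT.lf (nat_lit 0) (nat_lit 8039787896) (nat_lit 504) (nat_lit 26315395172) (nat_lit 84) (nat_lit 7707618294)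 (nat_lit 65) (nat_lit 5) (nat_lit 71) (nat_lit 5) (nat_lit 66) (nat_lit 5) (nat_lit 379) (nat_lit 343) (nat_lit 142)))) (XT.nd (nat_lit 94) (nat_lit 420) (nat_lit 0) (XT.lf (nat_lit 0) (nat_lit 11997497390) (nat_lit 504) (nat_lit 10507091560) (nat_lit 84) (nat_lit 20419227410) (nat_lit 65) (nat_lit 5) (nat_lit 71) (nat_lit 5) (nat_lit 66) (nat_lit 5) (nat_lit 380) (nat_lit 343) (nat_lit 141)) (XT.nd (nat_lit 94) (nat_lit 0) (nat_lit 0) (XT.lf (nat_lit 0) (nat_lit 5908294936) (nat_lit 420) (nat_lit 10226458683) (nat_lit 504) (nat_lit 27675012081) (nat_lit 60) (nat_lit 5) (nat_lit 65) (nat_lit 5) (nat_lit 66) (nat_lit 5) (nat_lit 381) (nat_lit 343) (nat_lit 140)) (XT.lf (nat_lit 0) (nat_lit 20533464590) (nat_lit 504) (nat_lit 21691775779) (nat_lit 84) (nat_lit 2493815212) (nat_lit 60) (nat_lit 5) (nat_lit 66) (nat_lit 5) (nat_lit 61) (nat_lit 5) (nat_lit 382) (nat_lit 343) (nat_lit 139)))))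 (XT.nd (nat_lit 282) (nat_lit 420) (nat_lit 0) (XT.nd (nat_lit 94) (nat_lit 336) (nat_lit 0) (XT.lf (nat_lit 0) (nat_lit 25171456988) (nat_lit 504) (nat_lit 5086160300) (nat_lit 84) (nat_lit 15395730742) (nat_lit 60) (nat_lit 5) (nat_lit 66) (nat_lit 5) (nat_lit 61) (nat_lit 5) (nat_lit 383) (nat_lit 343) (nat_lit 138)) (XT.nd (nat_lit 94) (nat_lit 0) (nat_lit 0) (XT.lf (nat_lit 0) (nat_lit 12279710380) (nat_lit 336) (nat_lit 17793712039) (nat_lit 420) (nat_lit 16539460061) (nat_lit 56) (nat_lit 5) (nat_lit 60) (nat_lit 5) (nat_lit 61) (nat_lit 5) (nat_lit 384) (nat_lit 343) (nat_lit 137)) (XT.lf (nat_lit 0) (nat_lit 30289838818) (nat_lit 336) (nat_lit 4889007877) (nat_lit 420) (nat_lit 12421724209) (nat_lit 56) (nat_lit 5) (nat_lit 60) (nat_lit 5) (nat_lit 61) (nat_lit 5) (nat_lit 385) (nat_lit 343) (nat_lit 136)))) (XT.nd (nat_lit 94) (nat_lit 84) (nat_lit 0) (XT.lf (nat_lit 0) (nat_lit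 157185018) (nat_lit 336) (nat_lit 40368852230) (nat_lit 420) (nat_lit 8090256674) (nat_lit 52) (nat_lit 5) (nat_lit 56) (nat_lit 5) (nat_lit 57) (nat_lit 5) (nat_lit 386) (nat_lit 343) (nat_lit 135)) (XT.nd (nat_lit 94) (nat_lit 84) (nat_lit 0) (XT.lf (nat_lit 0) (nat_lit 18480673727) (nat_lit 336) (nat_lit 27786983794) (nat_lit 420) (nat_lit 3388762711) (nat_lit 52) (nat_lit 5) (nat_lit 56) (nat_lit 5) (nat_lit 57) (nat_lit 5) (nat_lit 387) (nat_lit 343) (nat_lit 134)) (XT.lf (nat_lit 0) (nat_lit 1427600220) (nat_lit 420) (nat_lit 13372927596) (nat_lit 84) (nat_lit 35927864672) (nat_lit 51) (nat_lit 5) (nat_lit 56) (nat_lit 5) (nat_lit 52) (nat_lit 5) (nat_lit 388) (nat_lit 343) (nat_lit 133))))))))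
noncomputable def xc200 : XT := (XT.nd (nat_lit 2256) (nat_lit 168) (nat_lit 0) (XT.nd (nat_lit 1128) (nat_lit 1008) (nat_lit 0) (XT.nd (nat_lit 564) (nat_lit 588) (nat_lit 0) (XT.nd (nat_lit 282) (nat_lit 336) (nat_lit 0) (XT.nd (nat_lit 94) (nat_lit 0) (nat_lit 0) (XT.lf (nat_lit 0) (nat_lit 5047001937) (nat_lit 336) (nat_lit 1324495377) (nat_lit 420) (nat_lit 45459521089) (nat_lit 47) (nat_lit 5) (nat_lit 51) (nat_lit 5) (nat_lit 52) (nat_lit 5) (nat_lit 389) (nat_lit 343) (nat_lit 132)) (XT.nd (nat_lit 94) (nat_lit 0) (nat_lit 0) (XT.lf (nat_lit 0) (nat_lit 11732932546) (nat_lit 420) (nat_lit 28769996588) (nat_lit 84) (nat_lit 12456708019) (nat_lit 47) (nat_lit 5) (nat_lit 52) (nat_lit 5) (nat_lit 48) (nat_lit 5) (nat_lit 390) (nat_lit 343) (nat_lit 131)) (XT.lf (nat_lit 0) (nat_lit 17272736395) (nat_lit 420) (nat_lit 10212863315) (nat_lit 84) (nat_lit 26637270194) (nat_lit 47) (nat_lit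 5) (nat_lit 52) (nat_lit 5) (nat_lit 48) (nat_lit 5) (nat_lit 391) (nat_lit 343) (nat_lit 130)))) (XT.nd (nat_lit 94) (nat_lit 0) (nat_lit 0) (XT.lf (nat_lit 0) (nat_lit 9101188367) (nat_lit 336) (nat_lit 13972029931) (nat_lit 420) (nat_lit 32246191097) (nat_lit 43) (nat_lit 5) (nat_lit 47) (nat_lit 5) (nat_lit 48) (nat_lit 5) (nat_lit 392) (nat_lit 343) (nat_lit 129)) (XT.nd (nat_lit 94) (nat_lit 0) (nat_lit 0) (XT.lf (nat_lit 0) (nat_lit 29159493326) (nat_lit 420) (nat_lit 27321696664) (nat_lit 84) (nat_lit 68569971) (nat_lit 43) (nat_lit 5) (nat_lit 48) (nat_lit 5) (nat_lit 44) (nat_lit 5) (nat_lit 393) (nat_lit 343) (nat_lit 128)) (XT.lf (nat_lit 0) (nat_lit 35576062400) (nat_lit 420) (nat_lit 7983973225) (nat_lit 84) (nat_lit 14253829134) (nat_lit 43) (nat_lit 5) (nat_lit 48) (nat_lit 5) (nat_lit 44) (nat_lit 5) (nat_lit 394) (nat_lit 343) (nat_lit 127))))) (XT.nd (nat_lit 282)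 (nat_lit 336) (nat_lit 0) (XT.nd (nat_lit 94) (nat_lit 0) (nat_lit 0) (XT.lf (nat_lit 0) (nat_lit 12197327301) (nat_lit 252) (nat_lit 30113973861) (nat_lit 336) (nat_lit 16802146664) (nat_lit 40) (nat_lit 5) (nat_lit 43) (nat_lit 5) (nat_lit 44) (nat_lit 5) (nat_lit 395) (nat_lit 343) (nat_lit 126)) (XT.nd (nat_lit 94) (nat_lit 0) (nat_lit 0) (XT.lf (nat_lit 0) (nat_lit 33171879498) (nat_lit 252) (nat_lit 16165567443) (nat_lit 336) (nat_lit 11113328830) (nat_lit 40) (nat_lit 5) (nat_lit 43) (nat_lit 5) (nat_lit 44) (nat_lit 5) (nat_lit 396) (nat_lit 343) (nat_lit 125)) (XT.lf (nat_lit 0) (nat_lit 54795066979) (nat_lit 252) (nat_lit 1785151300) (nat_lit 336) (nat_lit 5249382590) (nat_lit 40) (nat_lit 5) (nat_lit 43) (nat_lit 5) (nat_lit 44) (nat_lit 5) (nat_lit 397) (nat_lit 343) (nat_lit 124)))) (XT.nd (nat_lit 94) (nat_lit 0) (nat_lit 0) (XT.lf (nat_lit 0) (nat_lit 1050010415) (nat_lit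 336) (nat_lit 49265222183) (nat_lit 84) (nat_lit 12927334133) (nat_lit 36) (nat_lit 5) (nat_lit 40) (nat_lit 5) (nat_lit 37) (nat_lit 5) (nat_lit 398) (nat_lit 343) (nat_lit 123)) (XT.nd (nat_lit 94) (nat_lit 0) (nat_lit 0) (XT.lf (nat_lit 0) (nat_lit 7526929193) (nat_lit 336) (nat_lit 28981610625) (nat_lit 84) (nat_lit 28186303449) (nat_lit 36) (nat_lit 5) (nat_lit 40) (nat_lit 5) (nat_lit 37) (nat_lit 5) (nat_lit 399) (nat_lit 343) (nat_lit 122)) (XT.lf (nat_lit 0) (nat_lit 14203518614) (nat_lit 336) (nat_lit 8070734004) (nat_lit 84) (nat_lit 43917925166) (nat_lit 36) (nat_lit 5) (nat_lit 40) (nat_lit 5) (nat_lit 37) (nat_lit 5) (nat_lit 400) (nat_lit 343) (nat_lit 121)))))) (XT.nd (nat_lit 564) (nat_lit 504) (nat_lit 0) (XT.nd (nat_lit 282) (nat_lit 252) (nat_lit 0) (XT.nd (nat_lit 94) (nat_lit 0) (nat_lit 0) (XT.lf (nat_lit 0) (nat_lit 13764217105) (nat_lit 252) (nat_lit 7458327590)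 (nat_lit 336) (nat_lit 46509188435) (nat_lit 33) (nat_lit 5) (nat_lit 36) (nat_lit 5) (nat_lit 37) (nat_lit 5) (nat_lit 401) (nat_lit 343) (nat_lit 120)) (XT.nd (nat_lit 94) (nat_lit 0) (nat_lit 0) (XT.lf (nat_lit 0) (nat_lit 28620742211) (nat_lit 336) (nat_lit 32949159931) (nat_lit 84) (nat_lit 7744106231) (nat_lit 33) (nat_lit 5) (nat_lit 37) (nat_lit 5) (nat_lit 34) (nat_lit 5) (nat_lit 402) (nat_lit 343) (nat_lit 119)) (XT.lf (nat_lit 0) (nat_lit 36323530649) (nat_lit 336) (nat_lit 11356968544) (nat_lit 84) (nat_lit 23262504931) (nat_lit 33) (nat_lit 5) (nat_lit 37) (nat_lit 5) (nat_lit 34) (nat_lit 5) (nat_lit 403) (nat_lit 343) (nat_lit 118)))) (XT.nd (nat_lit 94) (nat_lit 0) (nat_lit 0) (XT.lf (nat_lit 0) (nat_lit 11127363424) (nat_lit 252) (nat_lit 33247123682) (nat_lit 336) (nat_lit 28244623359) (nat_lit 30) (nat_lit 5) (nat_lit 33) (nat_lit 5) (nat_lit 34) (nat_lit 5) (nat_lit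 404) (nat_lit 343) (nat_lit 117)) (XT.nd (nat_lit 94) (nat_lit 0) (nat_lit 0) (XT.lf (nat_lit 0) (nat_lit 34548076788) (nat_lit 252) (nat_lit 18244502968) (nat_lit 336) (nat_lit 21550954564) (nat_lit 30) (nat_lit 5) (nat_lit 33) (nat_lit 5) (nat_lit 34) (nat_lit 5) (nat_lit 405) (nat_lit 343) (nat_lit 116)) (XT.lf (nat_lit 0) (nat_lit 58693479541) (nat_lit 252) (nat_lit 2777196499) (nat_lit 336) (nat_lit 14650771350) (nat_lit 30) (nat_lit 5) (nat_lit 33) (nat_lit 5) (nat_lit 34) (nat_lit 5) (nat_lit 406) (nat_lit 343) (nat_lit 115))))) (XT.nd (nat_lit 282) (nat_lit 252) (nat_lit 0) (XT.nd (nat_lit 94) (nat_lit 84) (nat_lit 0) (XT.lf (nat_lit 0) (nat_lit 5614041047) (nat_lit 168) (nat_lit 64989156005) (nat_lit 252) (nat_lit 7345533520) (nat_lit 28) (nat_lit 5) (nat_lit 30) (nat_lit 5) (nat_lit 31) (nat_lit 5) (nat_lit 407) (nat_lit 343) (nat_lit 114)) (XT.nd (nat_lit 94) (nat_lit 0) (nat_lit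 0) (XT.lf (nat_lit 0) (nat_lit 393663821) (nat_lit 252) (nat_lit 50120662879) (nat_lit 84) (nat_lit 29311729084) (nat_lit 27) (nat_lit 5) (nat_lit 30) (nat_lit 5) (nat_lit 28) (nat_lit 5) (nat_lit 408) (nat_lit 343) (nat_lit 113)) (XT.lf (nat_lit 0) (nat_lit 8219291225) (nat_lit 252) (nat_lit 27294435517) (nat_lit 84) (nat_lit 46245552437) (nat_lit 27) (nat_lit 5) (nat_lit 30) (nat_lit 5) (nat_lit 28) (nat_lit 5) (nat_lit 409) (nat_lit 343) (nat_lit 112)))) (XT.nd (nat_lit 94) (nat_lit 252) (nat_lit 0) (XT.lf (nat_lit 0) (nat_lit 16286639126) (nat_lit 252) (nat_lit 3761862403) (nat_lit 84) (nat_lit 63703960123) (nat_lit 27) (nat_lit 5) (nat_lit 30) (nat_lit 5) (nat_lit 28) (nat_lit 5) (nat_lit 410) (nat_lit 343) (nat_lit 111)) (XT.nd (nat_lit 94) (nat_lit 0) (nat_lit 0) (XT.lf (nat_lit 0) (nat_lit 20920492590) (nat_lit 252) (nat_lit 3890268422) (nat_lit 336) (nat_lit 60990266492) (nat_lit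 24) (nat_lit 5) (nat_lit 27) (nat_lit 5) (nat_lit 28) (nat_lit 5) (nat_lit 411) (nat_lit 343) (nat_lit 110)) (XT.lf (nat_lit 0) (nat_lit 33764629125) (nat_lit 336) (nat_lit 41592442676) (nat_lit 84) (nat_lit 12550898583) (nat_lit 24) (nat_lit 5) (nat_lit 28) (nat_lit 5) (nat_lit 25) (nat_lit 5) (nat_lit 412) (nat_lit 343) (nat_lit 109))))))) (XT.nd (nat_lit 48504) (nat_lit 0) (nat_lit 7140) (XT.nd (nat_lit 47940) (nat_lit 0) (nat_lit 7728) (XT.nd (nat_lit 282) (nat_lit 0) (nat_lit 0) (XT.nd (nat_lit 94) (nat_lit 168) (nat_lit 0) (XT.lf (nat_lit 0) (nat_lit 43035042589) (nat_lit 336) (nat_lit 17623411316) (nat_lit 84) (nat_lit 29420568227) (nat_lit 24) (nat_lit 5) (nat_lit 28) (nat_lit 5) (nat_lit 25) (nat_lit 5) (nat_lit 413) (nat_lit 343) (nat_lit 108)) (XT.nd (nat_lit 94) (nat_lit 0) (nat_lit 0) (XT.lf (nat_lit 0) (nat_lit 7233226144) (nat_lit 168) (nat_lit 45430578813) (nat_lit 252)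 (nat_lit 39651373401) (nat_lit 22) (nat_lit 5) (nat_lit 24) (nat_lit 5) (nat_lit 25) (nat_lit 5) (nat_lit 414) (nat_lit 343) (nat_lit 107)) (XT.lf (nat_lit 0) (nat_lit 33232870983) (nat_lit 168) (nat_lit 29541364076) (nat_lit 252) (nat_lit 31840743675) (nat_lit 22) (nat_lit 5) (nat_lit 24) (nat_lit 5) (nat_lit 25) (nat_lit 5) (nat_lit 415) (nat_lit 343) (nat_lit 106)))) (XT.nd (nat_lit 47470) (nat_lit 0) (nat_lit 7728) (XT.lf (nat_lit 0) (nat_lit 60037384113) (nat_lit 168) (nat_lit 13159951550) (nat_lit 252) (nat_lit 23788762311) (nat_lit 22) (nat_lit 5) (nat_lit 24) (nat_lit 5) (nat_lit 25) (nat_lit 5) (nat_lit 416) (nat_lit 343) (nat_lit 105)) (XT.nd (nat_lit 94) (nat_lit 0) (nat_lit 0) (XT.lf (nat_lit 0) (nat_lit 2043263560) (nat_lit 0) (nat_lit 2043263560) (nat_lit 1092) (nat_lit 7379201806) (nat_lit 114) (nat_lit 5) (nat_lit 114) (nat_lit 3) (nat_lit 127) (nat_lit 3) (nat_lit 344)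 (nat_lit 344) (nat_lit 176)) (XT.lf (nat_lit 0) (nat_lit 8456176772) (nat_lit 1092) (nat_lit 10125285632) (nat_lit 1176) (nat_lit 4700176102) (nat_lit 114) (nat_lit 5) (nat_lit 127) (nat_lit 3) (nat_lit 128) (nat_lit 5) (nat_lit 345) (nat_lit 344) (nat_lit 175))))) (XT.nd (nat_lit 282) (nat_lit 0) (nat_lit 84) (XT.nd (nat_lit 94) (nat_lit 0) (nat_lit 0) (XT.lf (nat_lit 0) (nat_lit 8785507040) (nat_lit 1092) (nat_lit 1179494425) (nat_lit 1176) (nat_lit 13676529346) (nat_lit 114) (nat_lit 5) (nat_lit 127) (nat_lit 3) (nat_lit 128) (nat_lit 5) (nat_lit 346) (nat_lit 344) (nat_lit 174)) (XT.nd (nat_lit 94) (nat_lit 0) (nat_lit 84) (XT.lf (nat_lit 84) (nat_lit 8206666188) (nat_lit 0) (nat_lit 995558117) (nat_lit 1176) (nat_lit 14807978881) (nat_lit 115) (nat_lit 5) (nat_lit 114) (nat_lit 5) (nat_lit 128) (nat_lit 5) (nat_lit 347) (nat_lit 344) (nat_lit 173)) (XT.lf (nat_lit 0) (nat_lit 9722047239)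 (nat_lit 1092) (nat_lit 6565541214) (nat_lit 1176) (nat_lit 8099935580) (nat_lit 115) (nat_lit 5) (nat_lit 128) (nat_lit 5) (nat_lit 129) (nat_lit 5) (nat_lit 348) (nat_lit 344) (nat_lit 172)))) (XT.nd (nat_lit 94) (nat_lit 0) (nat_lit 84) (XT.lf (nat_lit 84) (nat_lit 3006870421) (nat_lit 0) (nat_lit 7287138358) (nat_lit 1176) (nat_lit 14481431278) (nat_lit 116) (nat_lit 5) (nat_lit 115) (nat_lit 5) (nat_lit 129) (nat_lit 5) (nat_lit 349) (nat_lit 344) (nat_lit 171)) (XT.nd (nat_lit 94) (nat_lit 0) (nat_lit 0) (XT.lf (nat_lit 0) (nat_lit 10968822371) (nat_lit 1092) (nat_lit 12180997350) (nat_lit 1176) (nat_lit 2022937523) (nat_lit 116) (nat_lit 5) (nat_lit 129) (nat_lit 5) (nat_lit 130) (nat_lit 5) (nat_lit 350) (nat_lit 344) (nat_lit 170)) (XT.lf (nat_lit 0) (nat_lit 11735327400) (nat_lit 1092) (nat_lit 2373153936) (nat_lit 1176) (nat_lit 11471730079) (nat_lit 116) (nat_lit 5) (nat_lit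 129) (nat_lit 5) (nat_lit 130) (nat_lit 5) (nat_lit 351) (nat_lit 344) (nat_lit 169)))))) (XT.nd (nat_lit 564) (nat_lit 756) (nat_lit 0) (XT.nd (nat_lit 282) (nat_lit 0) (nat_lit 84) (XT.nd (nat_lit 94) (nat_lit 0) (nat_lit 84) (XT.lf (nat_lit 84) (nat_lit 7895467940) (nat_lit 0) (nat_lit 4704805091) (nat_lit 1176) (nat_lit 13397722251) (nat_lit 117) (nat_lit 5) (nat_lit 116) (nat_lit 5) (nat_lit 130) (nat_lit 5) (nat_lit 352) (nat_lit 344) (nat_lit 168)) (XT.nd (nat_lit 94) (nat_lit 0) (nat_lit 0) (XT.lf (nat_lit 0) (nat_lit 13563015283) (nat_lit 1092) (nat_lit 7947447377) (nat_lit 1176) (nat_lit 4916080563) (nat_lit 117) (nat_lit 5) (nat_lit 130) (nat_lit 5) (nat_lit 131) (nat_lit 5) (nat_lit 353) (nat_lit 344) (nat_lit 167)) (XT.lf (nat_lit 84) (nat_lit 2522769978) (nat_lit 0) (nat_lit 12102538327) (nat_lit 1176) (nat_lit 12240919820) (nat_lit 118) (nat_lit 5) (nat_lit 117) (nat_lit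 5) (nat_lit 131) (nat_lit 5) (nat_lit 354) (nat_lit 344) (nat_lit 166)))) (XT.nd (nat_lit 94) (nat_lit 0) (nat_lit 84) (XT.lf (nat_lit 84) (nat_lit 13483690672) (nat_lit 0) (nat_lit 2316437328) (nat_lit 1176) (nat_lit 11516960265) (nat_lit 118) (nat_lit 5) (nat_lit 117) (nat_lit 5) (nat_lit 131) (nat_lit 5) (nat_lit 355) (nat_lit 344) (nat_lit 165)) (XT.nd (nat_lit 94) (nat_lit 0) (nat_lit 0) (XT.lf (nat_lit 0) (nat_lit 17085227770) (nat_lit 1092) (nat_lit 3077041674) (nat_lit 1176) (nat_lit 7617378041) (nat_lit 118) (nat_lit 5) (nat_lit 131) (nat_lit 5) (nat_lit 132) (nat_lit 5) (nat_lit 356) (nat_lit 344) (nat_lit 164)) (XT.lf (nat_lit 84) (nat_lit 8150958535) (nat_lit 0) (nat_lit 10360606218) (nat_lit 1176) (nat_lit 9741849645) (nat_lit 119) (nat_lit 5) (nat_lit 118) (nat_lit 5) (nat_lit 132) (nat_lit 5) (nat_lit 357) (nat_lit 344) (nat_lit 163))))) (XT.nd (nat_lit 282) (nat_lit 924)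 (nat_lit 0) (XT.nd (nat_lit 94) (nat_lit 0) (nat_lit 84) (XT.lf (nat_lit 84) (nat_lit 19789947365) (nat_lit 0) (nat_lit 221209541) (nat_lit 1176) (nat_lit 8729822356) (nat_lit 119) (nat_lit 5) (nat_lit 118) (nat_lit 5) (nat_lit 132) (nat_lit 5) (nat_lit 358) (nat_lit 344) (nat_lit 162)) (XT.nd (nat_lit 94) (nat_lit 0) (nat_lit 0) (XT.lf (nat_lit 84) (nat_lit 2492443055) (nat_lit 0) (nat_lit 19188047155) (nat_lit 1176) (nat_lit 7559358596) (nat_lit 120) (nat_lit 5) (nat_lit 119) (nat_lit 5) (nat_lit 133) (nat_lit 5) (nat_lit 359) (nat_lit 344) (nat_lit 161)) (XT.lf (nat_lit 84) (nat_lit 14475785169) (nat_lit 0) (nat_lit 9018544818) (nat_lit 1176) (nat_lit 6256988551) (nat_lit 120) (nat_lit 5) (nat_lit 119) (nat_lit 5) (nat_lit 133) (nat_lit 5) (nat_lit 360) (nat_lit 344) (nat_lit 160)))) (XT.nd (nat_lit 94) (nat_lit 1092) (nat_lit 0) (XT.lf (nat_lit 0) (nat_lit 25376124185) (nat_lit 1092)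 (nat_lit 3464940273) (nat_lit 84) (nat_lit 1437226269) (nat_lit 120) (nat_lit 5) (nat_lit 133) (nat_lit 5) (nat_lit 121) (nat_lit 5) (nat_lit 361) (nat_lit 344) (nat_lit 159)) (XT.nd (nat_lit 94) (nat_lit 0) (nat_lit 0) (XT.lf (nat_lit 0) (nat_lit 8794439778) (nat_lit 1092) (nat_lit 18698559815) (nat_lit 1176) (nat_lit 3323130418) (nat_lit 107) (nat_lit 5) (nat_lit 120) (nat_lit 5) (nat_lit 121) (nat_lit 5) (nat_lit 362) (nat_lit 344) (nat_lit 158)) (XT.lf (nat_lit 0) (nat_lit 21505047428) (nat_lit 1092) (nat_lit 8203942473) (nat_lit 1176) (nat_lit 1660623935) (nat_lit 107) (nat_lit 5) (nat_lit 120) (nat_lit 5) (nat_lit 121) (nat_lit 5) (nat_lit 363) (nat_lit 344) (nat_lit 157))))))))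
noncomputable def xc201 : XT := (XT.nd (nat_lit 2256) (nat_lit 2100) (nat_lit 0) (XT.nd (nat_lit 1128) (nat_lit 2016) (nat_lit 0) (XT.nd (nat_lit 564) (nat_lit 924) (nat_lit 0) (XT.nd (nat_lit 282) (nat_lit 1092) (nat_lit 0) (XT.nd (nat_lit 94) (nat_lit 0) (nat_lit 0) (XT.lf (nat_lit 0) (nat_lit 102947048) (nat_lit 588) (nat_lit 29244262725) (nat_lit 84) (nat_lit 2591469950) (nat_lit 100) (nat_lit 5) (nat_lit 107) (nat_lit 5) (nat_lit 101) (nat_lit 5) (nat_lit 364) (nat_lit 344) (nat_lit 156)) (XT.nd (nat_lit 94) (nat_lit 0) (nat_lit 0) (XT.lf (nat_lit 0) (nat_lit 2072049324) (nat_lit 588) (nat_lit 16774618869) (nat_lit 84) (nat_lit 13672454835) (nat_lit 100) (nat_lit 5) (nat_lit 107) (nat_lit 5) (nat_lit 101) (nat_lit 5) (nat_lit 365) (nat_lit 344) (nat_lit 155)) (XT.lf (nat_lit 0) (nat_lit 4099700737) (nat_lit 588) (nat_lit 3920678194) (nat_lit 84) (nat_lit 25097267072) (nat_lit 100)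 (nat_lit 5) (nat_lit 107) (nat_lit 5) (nat_lit 101) (nat_lit 5) (nat_lit 366) (nat_lit 344) (nat_lit 154)))) (XT.nd (nat_lit 94) (nat_lit 504) (nat_lit 0) (XT.lf (nat_lit 0) (nat_lit 6314377066) (nat_lit 672) (nat_lit 24242636057) (nat_lit 84) (nat_lit 3173869254) (nat_lit 93) (nat_lit 5) (nat_lit 101) (nat_lit 5) (nat_lit 94) (nat_lit 5) (nat_lit 367) (nat_lit 344) (nat_lit 153)) (XT.nd (nat_lit 94) (nat_lit 504) (nat_lit 0) (XT.lf (nat_lit 0) (nat_lit 8718715388) (nat_lit 672) (nat_lit 11050600139) (nat_lit 84) (nat_lit 14590070465) (nat_lit 93) (nat_lit 5) (nat_lit 101) (nat_lit 5) (nat_lit 94) (nat_lit 5) (nat_lit 368) (nat_lit 344) (nat_lit 152)) (XT.lf (nat_lit 0) (nat_lit 2600597602) (nat_lit 504) (nat_lit 8620494979) (nat_lit 588) (nat_lit 23785559891) (nat_lit 87) (nat_lit 5) (nat_lit 93) (nat_lit 5) (nat_lit 94) (nat_lit 5) (nat_lit 369) (nat_lit 344) (nat_lit 151))))) (XT.nd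 (nat_lit 282) (nat_lit 420) (nat_lit 0) (XT.nd (nat_lit 94) (nat_lit 504) (nat_lit 0) (XT.lf (nat_lit 0) (nat_lit 13943833040) (nat_lit 588) (nat_lit 18793092135) (nat_lit 84) (nat_lit 2932640211) (nat_lit 87) (nat_lit 5) (nat_lit 94) (nat_lit 5) (nat_lit 88) (nat_lit 5) (nat_lit 370) (nat_lit 344) (nat_lit 150)) (XT.nd (nat_lit 94) (nat_lit 504) (nat_lit 0) (XT.lf (nat_lit 0) (nat_lit 16836967785) (nat_lit 588) (nat_lit 4848470964) (nat_lit 84) (nat_lit 14664931602) (nat_lit 87) (nat_lit 5) (nat_lit 94) (nat_lit 5) (nat_lit 88) (nat_lit 5) (nat_lit 371) (nat_lit 344) (nat_lit 149)) (XT.lf (nat_lit 0) (nat_lit 9722203602) (nat_lit 504) (nat_lit 10191919004) (nat_lit 588) (nat_lit 17135240543) (nat_lit 81) (nat_lit 5) (nat_lit 87) (nat_lit 5) (nat_lit 88) (nat_lit 5) (nat_lit 372) (nat_lit 344) (nat_lit 148)))) (XT.nd (nat_lit 94) (nat_lit 420) (nat_lit 0) (XT.lf (nat_lit 0) (nat_lit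 23152171532) (nat_lit 588) (nat_lit 12940226108) (nat_lit 84) (nat_lit 1675603493) (nat_lit 81) (nat_lit 5) (nat_lit 88) (nat_lit 5) (nat_lit 82) (nat_lit 5) (nat_lit 373) (nat_lit 344) (nat_lit 147)) (XT.nd (nat_lit 94) (nat_lit 0) (nat_lit 0) (XT.lf (nat_lit 0) (nat_lit 1823099068) (nat_lit 420) (nat_lit 24787817908) (nat_lit 504) (nat_lit 11894276863) (nat_lit 76) (nat_lit 5) (nat_lit 81) (nat_lit 5) (nat_lit 82) (nat_lit 5) (nat_lit 374) (nat_lit 344) (nat_lit 146)) (XT.lf (nat_lit 0) (nat_lit 17316339304) (nat_lit 420) (nat_lit 12993645717) (nat_lit 504) (nat_lit 8951134919) (nat_lit 76) (nat_lit 5) (nat_lit 81) (nat_lit 5) (nat_lit 82) (nat_lit 5) (nat_lit 375) (nat_lit 344) (nat_lit 145)))))) (XT.nd (nat_lit 564) (nat_lit 1092) (nat_lit 0) (XT.nd (nat_lit 282) (nat_lit 420) (nat_lit 0) (XT.nd (nat_lit 94) (nat_lit 504) (nat_lit 0) (XT.lf (nat_lit 0) (nat_lit 33287858334) (nat_lit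 420) (nat_lit 833957084) (nat_lit 504) (nat_lit 5918729874) (nat_lit 76) (nat_lit 5) (nat_lit 81) (nat_lit 5) (nat_lit 82) (nat_lit 5) (nat_lit 376) (nat_lit 344) (nat_lit 144)) (XT.nd (nat_lit 94) (nat_lit 84) (nat_lit 0) (XT.lf (nat_lit 0) (nat_lit 8973042634) (nat_lit 420) (nat_lit 29282023314) (nat_lit 504) (nat_lit 2582772204) (nat_lit 71) (nat_lit 5) (nat_lit 76) (nat_lit 5) (nat_lit 77) (nat_lit 5) (nat_lit 377) (nat_lit 344) (nat_lit 143)) (XT.lf (nat_lit 0) (nat_lit 917235194) (nat_lit 504) (nat_lit 16348023735) (nat_lit 84) (nat_lit 24391915849) (nat_lit 70) (nat_lit 5) (nat_lit 76) (nat_lit 5) (nat_lit 71) (nat_lit 5) (nat_lit 378) (nat_lit 344) (nat_lit 142)))) (XT.nd (nat_lit 94) (nat_lit 420) (nat_lit 0) (XT.lf (nat_lit 0) (nat_lit 4470307037) (nat_lit 504) (nat_lit 378623486) (nat_lit 84) (nat_lit 37652222419) (nat_lit 70) (nat_lit 5) (nat_lit 76) (nat_lit 5) (nat_lit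 71) (nat_lit 5) (nat_lit 379) (nat_lit 344) (nat_lit 141)) (XT.nd (nat_lit 94) (nat_lit 0) (nat_lit 0) (XT.lf (nat_lit 0) (nat_lit 8375178855) (nat_lit 504) (nat_lit 27032227111) (nat_lit 84) (nat_lit 7956402633) (nat_lit 65) (nat_lit 5) (nat_lit 71) (nat_lit 5) (nat_lit 66) (nat_lit 5) (nat_lit 380) (nat_lit 344) (nat_lit 140)) (XT.lf (nat_lit 0) (nat_lit 12452986768) (nat_lit 504) (nat_lit 10736841165) (nat_lit 84) (nat_lit 21061775517) (nat_lit 65) (nat_lit 5) (nat_lit 71) (nat_lit 5) (nat_lit 66) (nat_lit 5) (nat_lit 381) (nat_lit 344) (nat_lit 139))))) (XT.nd (nat_lit 282) (nat_lit 672) (nat_lit 0) (XT.nd (nat_lit 94) (nat_lit 0) (nat_lit 0) (XT.lf (nat_lit 0) (nat_lit 6186450701) (nat_lit 420) (nat_lit 10530476955) (nat_lit 504) (nat_lit 28448146080) (nat_lit 60) (nat_lit 5) (nat_lit 65) (nat_lit 5) (nat_lit 66) (nat_lit 5) (nat_lit 382) (nat_lit 344) (nat_lit 138)) (XT.nd (nat_lit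 94) (nat_lit 0) (nat_lit 0) (XT.lf (nat_lit 0) (nat_lit 21249658302) (nat_lit 504) (nat_lit 22269493048) (nat_lit 84) (nat_lit 2583480406) (nat_lit 60) (nat_lit 5) (nat_lit 66) (nat_lit 5) (nat_lit 61) (nat_lit 5) (nat_lit 383) (nat_lit 344) (nat_lit 137)) (XT.lf (nat_lit 0) (nat_lit 26029033366) (nat_lit 504) (nat_lit 5151951754) (nat_lit 84) (nat_lit 15884983771) (nat_lit 60) (nat_lit 5) (nat_lit 66) (nat_lit 5) (nat_lit 61) (nat_lit 5) (nat_lit 384) (nat_lit 344) (nat_lit 136)))) (XT.nd (nat_lit 94) (nat_lit 336) (nat_lit 0) (XT.lf (nat_lit 0) (nat_lit 12751330720) (nat_lit 336) (nat_lit 18330208153) (nat_lit 420) (nat_lit 16973761235) (nat_lit 56) (nat_lit 5) (nat_lit 60) (nat_lit 5) (nat_lit 61) (nat_lit 5) (nat_lit 385) (nat_lit 344) (nat_lit 135)) (XT.nd (nat_lit 94) (nat_lit 336) (nat_lit 0) (XT.lf (nat_lit 0) (nat_lit 31317038484) (nat_lit 336) (nat_lit 5025912456) (nat_lit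 420) (nat_lit 12730733558) (nat_lit 56) (nat_lit 5) (nat_lit 60) (nat_lit 5) (nat_lit 61) (nat_lit 5) (nat_lit 386) (nat_lit 344) (nat_lit 134)) (XT.lf (nat_lit 0) (nat_lit 251714169) (nat_lit 336) (nat_lit 41603008844) (nat_lit 420) (nat_lit 8266215266) (nat_lit 52) (nat_lit 5) (nat_lit 56) (nat_lit 5) (nat_lit 57) (nat_lit 5) (nat_lit 387) (nat_lit 344) (nat_lit 133))))))) (XT.nd (nat_lit 1128) (nat_lit 756) (nat_lit 0) (XT.nd (nat_lit 564) (nat_lit 588) (nat_lit 0) (XT.nd (nat_lit 282) (nat_lit 336) (nat_lit 0) (XT.nd (nat_lit 94) (nat_lit 420) (nat_lit 0) (XT.lf (nat_lit 0) (nat_lit 19140535249) (nat_lit 336) (nat_lit 28631621995) (nat_lit 420) (nat_lit 3421225253) (nat_lit 52) (nat_lit 5) (nat_lit 56) (nat_lit 5) (nat_lit 57) (nat_lit 5) (nat_lit 388) (nat_lit 344) (nat_lit 132)) (XT.nd (nat_lit 94) (nat_lit 336) (nat_lit 0) (XT.lf (nat_lit 0) (nat_lit 1540843794) (nat_lit 420)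 (nat_lit 13701525881) (nat_lit 84) (nat_lit 37056266330) (nat_lit 51) (nat_lit 5) (nat_lit 56) (nat_lit 5) (nat_lit 52) (nat_lit 5) (nat_lit 389) (nat_lit 344) (nat_lit 131)) (XT.lf (nat_lit 0) (nat_lit 5288551174) (nat_lit 336) (nat_lit 1348220325) (nat_lit 420) (nat_lit 46798715914) (nat_lit 47) (nat_lit 5) (nat_lit 51) (nat_lit 5) (nat_lit 52) (nat_lit 5) (nat_lit 390) (nat_lit 344) (nat_lit 130)))) (XT.nd (nat_lit 94) (nat_lit 336) (nat_lit 0) (XT.lf (nat_lit 0) (nat_lit 12162540679) (nat_lit 420) (nat_lit 29577276010) (nat_lit 84) (nat_lit 12859340418) (nat_lit 47) (nat_lit 5) (nat_lit 52) (nat_lit 5) (nat_lit 48) (nat_lit 5) (nat_lit 391) (nat_lit 344) (nat_lit 129)) (XT.nd (nat_lit 94) (nat_lit 336) (nat_lit 0) (XT.lf (nat_lit 0) (nat_lit 17872097358) (nat_lit 420) (nat_lit 10447415062) (nat_lit 84) (nat_lit 27479004669) (nat_lit 47) (nat_lit 5) (nat_lit 52) (nat_lit 5) (nat_lit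 48) (nat_lit 5) (nat_lit 392) (nat_lit 344) (nat_lit 128)) (XT.lf (nat_lit 0) (nat_lit 9464541569) (nat_lit 336) (nat_lit 14386736784) (nat_lit 420) (nat_lit 33180910975) (nat_lit 43) (nat_lit 5) (nat_lit 47) (nat_lit 5) (nat_lit 48) (nat_lit 5) (nat_lit 393) (nat_lit 344) (nat_lit 127))))) (XT.nd (nat_lit 282) (nat_lit 336) (nat_lit 0) (XT.nd (nat_lit 94) (nat_lit 252) (nat_lit 0) (XT.lf (nat_lit 0) (nat_lit 30124517228) (nat_lit 420) (nat_lit 28088014235) (nat_lit 84) (nat_lit 88207601) (nat_lit 43) (nat_lit 5) (nat_lit 48) (nat_lit 5) (nat_lit 44) (nat_lit 5) (nat_lit 394) (nat_lit 344) (nat_lit 126)) (XT.nd (nat_lit 94) (nat_lit 252) (nat_lit 0) (XT.lf (nat_lit 0) (nat_lit 36738163407) (nat_lit 420) (nat_lit 8153246496) (nat_lit 84) (nat_lit 14712683250) (nat_lit 43) (nat_lit 5) (nat_lit 48) (nat_lit 5) (nat_lit 44) (nat_lit 5) (nat_lit 395) (nat_lit 344) (nat_lit 125)) (XT.lf (nat_lit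 0) (nat_lit 12652882339) (nat_lit 252) (nat_lit 31028299111) (nat_lit 336) (nat_lit 17262818209) (nat_lit 40) (nat_lit 5) (nat_lit 43) (nat_lit 5) (nat_lit 44) (nat_lit 5) (nat_lit 396) (nat_lit 344) (nat_lit 124)))) (XT.nd (nat_lit 94) (nat_lit 336) (nat_lit 0) (XT.lf (nat_lit 0) (nat_lit 34275317260) (nat_lit 252) (nat_lit 16648069636) (nat_lit 336) (nat_lit 11399456959) (nat_lit 40) (nat_lit 5) (nat_lit 43) (nat_lit 5) (nat_lit 44) (nat_lit 5) (nat_lit 397) (nat_lit 344) (nat_lit 123)) (XT.nd (nat_lit 94) (nat_lit 336) (nat_lit 0) (XT.lf (nat_lit 0) (nat_lit 56566565168) (nat_lit 252) (nat_lit 1822420770) (nat_lit 336) (nat_lit 5355483901) (nat_lit 40) (nat_lit 5) (nat_lit 43) (nat_lit 5) (nat_lit 44) (nat_lit 5) (nat_lit 398) (nat_lit 344) (nat_lit 122)) (XT.lf (nat_lit 0) (nat_lit 1137295802) (nat_lit 336) (nat_lit 50717411012) (nat_lit 84) (nat_lit 13346541162) (nat_lit 36) (nat_lit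 5) (nat_lit 40) (nat_lit 5) (nat_lit 37) (nat_lit 5) (nat_lit 399) (nat_lit 344) (nat_lit 121)))))) (XT.nd (nat_lit 564) (nat_lit 252) (nat_lit 0) (XT.nd (nat_lit 282) (nat_lit 252) (nat_lit 0) (XT.nd (nat_lit 94) (nat_lit 252) (nat_lit 0) (XT.lf (nat_lit 0) (nat_lit 7813353294) (nat_lit 336) (nat_lit 29807263582) (nat_lit 84) (nat_lit 29077983483) (nat_lit 36) (nat_lit 5) (nat_lit 40) (nat_lit 5) (nat_lit 37) (nat_lit 5) (nat_lit 400) (nat_lit 344) (nat_lit 120)) (XT.nd (nat_lit 94) (nat_lit 252) (nat_lit 0) (XT.lf (nat_lit 0) (nat_lit 14695320703) (nat_lit 336) (nat_lit 8250338036) (nat_lit 84) (nat_lit 45296747119) (nat_lit 36) (nat_lit 5) (nat_lit 40) (nat_lit 5) (nat_lit 37) (nat_lit 5) (nat_lit 401) (nat_lit 344) (nat_lit 119)) (XT.lf (nat_lit 0) (nat_lit 14260781911) (nat_lit 252) (nat_lit 7670299556) (nat_lit 336) (nat_lit 47898636467) (nat_lit 33) (nat_lit 5) (nat_lit 36) (nat_lit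 5) (nat_lit 37) (nat_lit 5) (nat_lit 402) (nat_lit 344) (nat_lit 118)))) (XT.nd (nat_lit 94) (nat_lit 252) (nat_lit 0) (XT.lf (nat_lit 0) (nat_lit 29557285618) (nat_lit 336) (nat_lit 33901348026) (nat_lit 84) (nat_lit 8002455409) (nat_lit 33) (nat_lit 5) (nat_lit 37) (nat_lit 5) (nat_lit 34) (nat_lit 5) (nat_lit 403) (nat_lit 344) (nat_lit 117)) (XT.nd (nat_lit 94) (nat_lit 252) (nat_lit 0) (XT.lf (nat_lit 0) (nat_lit 37497378138) (nat_lit 336) (nat_lit 11641880484) (nat_lit 84) (nat_lit 24001374770) (nat_lit 33) (nat_lit 5) (nat_lit 37) (nat_lit 5) (nat_lit 34) (nat_lit 5) (nat_lit 404) (nat_lit 344) (nat_lit 116)) (XT.lf (nat_lit 0) (nat_lit 11538785900) (nat_lit 252) (nat_lit 34258349989) (nat_lit 336) (nat_lit 29071590922) (nat_lit 30) (nat_lit 5) (nat_lit 33) (nat_lit 5) (nat_lit 34) (nat_lit 5) (nat_lit 405) (nat_lit 344) (nat_lit 115))))) (XT.nd (nat_lit 282) (nat_lit 84) (nat_lit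 0) (XT.nd (nat_lit 94) (nat_lit 168) (nat_lit 0) (XT.lf (nat_lit 0) (nat_lit 35683542640) (nat_lit 252) (nat_lit 18791232389) (nat_lit 336) (nat_lit 22171880168) (nat_lit 30) (nat_lit 5) (nat_lit 33) (nat_lit 5) (nat_lit 34) (nat_lit 5) (nat_lit 406) (nat_lit 344) (nat_lit 114)) (XT.nd (nat_lit 94) (nat_lit 168) (nat_lit 0) (XT.lf (nat_lit 0) (nat_lit 60575514236) (nat_lit 252) (nat_lit 2845006203) (nat_lit 336) (nat_lit 15059209096) (nat_lit 30) (nat_lit 5) (nat_lit 33) (nat_lit 5) (nat_lit 34) (nat_lit 5) (nat_lit 407) (nat_lit 344) (nat_lit 113)) (XT.lf (nat_lit 0) (nat_lit 5851268195) (nat_lit 168) (nat_lit 66984353592) (nat_lit 252) (nat_lit 7528056406) (nat_lit 28) (nat_lit 5) (nat_lit 30) (nat_lit 5) (nat_lit 31) (nat_lit 5) (nat_lit 408) (nat_lit 344) (nat_lit 112)))) (XT.nd (nat_lit 94) (nat_lit 0) (nat_lit 0) (XT.lf (nat_lit 0) (nat_lit 448814250) (nat_lit 252) (nat_lit 51612127361)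 (nat_lit 84) (nat_lit 30238289386) (nat_lit 27) (nat_lit 5) (nat_lit 30) (nat_lit 5) (nat_lit 28) (nat_lit 5) (nat_lit 409) (nat_lit 344) (nat_lit 111)) (XT.nd (nat_lit 94) (nat_lit 0) (nat_lit 0) (XT.lf (nat_lit 0) (nat_lit 8515744782) (nat_lit 252) (nat_lit 28080159461) (nat_lit 84) (nat_lit 47696523148) (nat_lit 27) (nat_lit 5) (nat_lit 30) (nat_lit 5) (nat_lit 28) (nat_lit 5) (nat_lit 410) (nat_lit 344) (nat_lit 110)) (XT.lf (nat_lit 0) (nat_lit 16831927974) (nat_lit 252) (nat_lit 3819892788) (nat_lit 84) (nat_lit 65695619536) (nat_lit 27) (nat_lit 5) (nat_lit 30) (nat_lit 5) (nat_lit 28) (nat_lit 5) (nat_lit 411) (nat_lit 344) (nat_lit 109))))))))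
noncomputable def xc202 : XT := (XT.nd (nat_lit 49726) (nat_lit 0) (nat_lit 2856) (XT.nd (nat_lit 48598) (nat_lit 0) (nat_lit 7140) (XT.nd (nat_lit 48034) (nat_lit 0) (nat_lit 7728) (XT.nd (nat_lit 282) (nat_lit 168) (nat_lit 0) (XT.nd (nat_lit 94) (nat_lit 0) (nat_lit 0) (XT.lf (nat_lit 0) (nat_lit 21627022065) (nat_lit 252) (nat_lit 3992636049) (nat_lit 336) (nat_lit 62839876264) (nat_lit 24) (nat_lit 5) (nat_lit 27) (nat_lit 5) (nat_lit 28) (nat_lit 5) (nat_lit 412) (nat_lit 344) (nat_lit 108)) (XT.nd (nat_lit 94) (nat_lit 0) (nat_lit 0) (XT.lf (nat_lit 0) (nat_lit 34850075946) (nat_lit 336) (nat_lit 42824448231) (nat_lit 84) (nat_lit 12957302712) (nat_lit 24) (nat_lit 5) (nat_lit 28) (nat_lit 5) (nat_lit 25) (nat_lit 5) (nat_lit 413) (nat_lit 344) (nat_lit 107)) (XT.lf (nat_lit 0) (nat_lit 44406707298) (nat_lit 336) (nat_lit 18114101598) (nat_lit 84) (nat_lit 30349411150) (nat_lit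 24) (nat_lit 5) (nat_lit 28) (nat_lit 5) (nat_lit 25) (nat_lit 5) (nat_lit 414) (nat_lit 344) (nat_lit 106)))) (XT.nd (nat_lit 94) (nat_lit 0) (nat_lit 0) (XT.lf (nat_lit 0) (nat_lit 7512528363) (nat_lit 168) (nat_lit 46820849356) (nat_lit 252) (nat_lit 40842340097) (nat_lit 22) (nat_lit 5) (nat_lit 24) (nat_lit 5) (nat_lit 25) (nat_lit 5) (nat_lit 415) (nat_lit 344) (nat_lit 105)) (XT.nd (nat_lit 47564) (nat_lit 0) (nat_lit 7728) (XT.lf (nat_lit 0) (nat_lit 34316506288) (nat_lit 168) (nat_lit 30439612511) (nat_lit 252) (nat_lit 32790730222) (nat_lit 22) (nat_lit 5) (nat_lit 24) (nat_lit 5) (nat_lit 25) (nat_lit 5) (nat_lit 416) (nat_lit 344) (nat_lit 104)) (XT.lf (nat_lit 0) (nat_lit 2160492366) (nat_lit 0) (nat_lit 2160492366) (nat_lit 1092) (nat_lit 7496437499) (nat_lit 114) (nat_lit 5) (nat_lit 114) (nat_lit 3) (nat_lit 127) (nat_lit 3) (nat_lit 345) (nat_lit 345) (nat_lit 174)))))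 (XT.nd (nat_lit 282) (nat_lit 0) (nat_lit 84) (XT.nd (nat_lit 94) (nat_lit 0) (nat_lit 0) (XT.lf (nat_lit 0) (nat_lit 8926350645) (nat_lit 1092) (nat_lit 10326334375) (nat_lit 1176) (nat_lit 4743453008) (nat_lit 114) (nat_lit 5) (nat_lit 127) (nat_lit 3) (nat_lit 128) (nat_lit 5) (nat_lit 346) (nat_lit 345) (nat_lit 173)) (XT.nd (nat_lit 94) (nat_lit 0) (nat_lit 0) (XT.lf (nat_lit 0) (nat_lit 9259635055) (nat_lit 1092) (nat_lit 1106616356) (nat_lit 1176) (nat_lit 14001153013) (nat_lit 114) (nat_lit 5) (nat_lit 127) (nat_lit 3) (nat_lit 128) (nat_lit 5) (nat_lit 347) (nat_lit 345) (nat_lit 172)) (XT.lf (nat_lit 84) (nat_lit 8569407230) (nat_lit 0) (nat_lit 1114870998) (nat_lit 1176) (nat_lit 15063404991) (nat_lit 115) (nat_lit 5) (nat_lit 114) (nat_lit 5) (nat_lit 128) (nat_lit 5) (nat_lit 348) (nat_lit 345) (nat_lit 171)))) (XT.nd (nat_lit 94) (nat_lit 0) (nat_lit 0) (XT.lf (nat_lit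 0) (nat_lit 10213447705) (nat_lit 1092) (nat_lit 6656514216) (nat_lit 1176) (nat_lit 8266971026) (nat_lit 115) (nat_lit 5) (nat_lit 128) (nat_lit 5) (nat_lit 129) (nat_lit 5) (nat_lit 349) (nat_lit 345) (nat_lit 170)) (XT.nd (nat_lit 94) (nat_lit 0) (nat_lit 84) (XT.lf (nat_lit 84) (nat_lit 3211502624) (nat_lit 0) (nat_lit 7587029311) (nat_lit 1176) (nat_lit 14738506748) (nat_lit 116) (nat_lit 5) (nat_lit 115) (nat_lit 5) (nat_lit 129) (nat_lit 5) (nat_lit 350) (nat_lit 345) (nat_lit 169)) (XT.lf (nat_lit 0) (nat_lit 11487977975) (nat_lit 1092) (nat_lit 12443580894) (nat_lit 1176) (nat_lit 2015329540) (nat_lit 116) (nat_lit 5) (nat_lit 129) (nat_lit 5) (nat_lit 130) (nat_lit 5) (nat_lit 351) (nat_lit 345) (nat_lit 168)))))) (XT.nd (nat_lit 564) (nat_lit 756) (nat_lit 0) (XT.nd (nat_lit 282) (nat_lit 0) (nat_lit 84) (XT.nd (nat_lit 94) (nat_lit 0) (nat_lit 0) (XT.lf (nat_lit 0) (nat_lit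 12272858834) (nat_lit 1092) (nat_lit 2335152965) (nat_lit 1176) (nat_lit 11759149011) (nat_lit 116) (nat_lit 5) (nat_lit 129) (nat_lit 5) (nat_lit 130) (nat_lit 5) (nat_lit 352) (nat_lit 345) (nat_lit 167)) (XT.nd (nat_lit 94) (nat_lit 0) (nat_lit 84) (XT.lf (nat_lit 84) (nat_lit 8250666656) (nat_lit 0) (nat_lit 4909822811) (nat_lit 1176) (nat_lit 13637554073) (nat_lit 117) (nat_lit 5) (nat_lit 116) (nat_lit 5) (nat_lit 130) (nat_lit 5) (nat_lit 353) (nat_lit 345) (nat_lit 166)) (XT.lf (nat_lit 0) (nat_lit 14147407661) (nat_lit 1092) (nat_lit 8080417889) (nat_lit 1176) (nat_lit 5012245653) (nat_lit 117) (nat_lit 5) (nat_lit 130) (nat_lit 5) (nat_lit 131) (nat_lit 5) (nat_lit 354) (nat_lit 345) (nat_lit 165)))) (XT.nd (nat_lit 94) (nat_lit 0) (nat_lit 0) (XT.lf (nat_lit 84) (nat_lit 2713228127) (nat_lit 0) (nat_lit 12525587898) (nat_lit 1176) (nat_lit 12454707024) (nat_lit 118) (nat_lit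 5) (nat_lit 117) (nat_lit 5) (nat_lit 131) (nat_lit 5) (nat_lit 355) (nat_lit 345) (nat_lit 164)) (XT.nd (nat_lit 94) (nat_lit 0) (nat_lit 84) (XT.lf (nat_lit 84) (nat_lit 14010562173) (nat_lit 0) (nat_lit 2434678392) (nat_lit 1176) (nat_lit 11713286411) (nat_lit 118) (nat_lit 5) (nat_lit 117) (nat_lit 5) (nat_lit 131) (nat_lit 5) (nat_lit 356) (nat_lit 345) (nat_lit 163)) (XT.lf (nat_lit 0) (nat_lit 17765061868) (nat_lit 1092) (nat_lit 3061150895) (nat_lit 1176) (nat_lit 7809388714) (nat_lit 118) (nat_lit 5) (nat_lit 131) (nat_lit 5) (nat_lit 132) (nat_lit 5) (nat_lit 357) (nat_lit 345) (nat_lit 162))))) (XT.nd (nat_lit 282) (nat_lit 924) (nat_lit 0) (XT.nd (nat_lit 94) (nat_lit 0) (nat_lit 0) (XT.lf (nat_lit 84) (nat_lit 8513790719) (nat_lit 0) (nat_lit 10718401346) (nat_lit 1176) (nat_lit 9891986032) (nat_lit 119) (nat_lit 5) (nat_lit 118) (nat_lit 5) (nat_lit 132) (nat_lit 5) (nat_lit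 358) (nat_lit 345) (nat_lit 161)) (XT.nd (nat_lit 94) (nat_lit 0) (nat_lit 84) (XT.lf (nat_lit 84) (nat_lit 20510276151) (nat_lit 0) (nat_lit 263582395) (nat_lit 1176) (nat_lit 8853152036) (nat_lit 119) (nat_lit 5) (nat_lit 118) (nat_lit 5) (nat_lit 132) (nat_lit 5) (nat_lit 359) (nat_lit 345) (nat_lit 160)) (XT.lf (nat_lit 84) (nat_lit 2680705327) (nat_lit 0) (nat_lit 19810714893) (nat_lit 1176) (nat_lit 7650049828) (nat_lit 120) (nat_lit 5) (nat_lit 119) (nat_lit 5) (nat_lit 133) (nat_lit 5) (nat_lit 360) (nat_lit 345) (nat_lit 159)))) (XT.nd (nat_lit 94) (nat_lit 1008) (nat_lit 0) (XT.lf (nat_lit 84) (nat_lit 15032193615) (nat_lit 0) (nat_lit 9325120945) (nat_lit 1176) (nat_lit 6311625531) (nat_lit 120) (nat_lit 5) (nat_lit 119) (nat_lit 5) (nat_lit 133) (nat_lit 5) (nat_lit 361) (nat_lit 345) (nat_lit 158)) (XT.nd (nat_lit 94) (nat_lit 1092) (nat_lit 0) (XT.lf (nat_lit 0) (nat_lit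 26293135623) (nat_lit 1092) (nat_lit 3463142671) (nat_lit 84) (nat_lit 1456118574) (nat_lit 120) (nat_lit 5) (nat_lit 133) (nat_lit 5) (nat_lit 121) (nat_lit 5) (nat_lit 362) (nat_lit 345) (nat_lit 157)) (XT.lf (nat_lit 0) (nat_lit 9175172501) (nat_lit 1092) (nat_lit 19297614685) (nat_lit 1176) (nat_lit 3294224672) (nat_lit 107) (nat_lit 5) (nat_lit 120) (nat_lit 5) (nat_lit 121) (nat_lit 5) (nat_lit 363) (nat_lit 345) (nat_lit 156))))))) (XT.nd (nat_lit 1128) (nat_lit 1680) (nat_lit 0) (XT.nd (nat_lit 564) (nat_lit 1428) (nat_lit 0) (XT.nd (nat_lit 282) (nat_lit 588) (nat_lit 0) (XT.nd (nat_lit 94) (nat_lit 588) (nat_lit 0) (XT.lf (nat_lit 0) (nat_lit 22276558496) (nat_lit 1092) (nat_lit 8477080903) (nat_lit 1176) (nat_lit 1584147128) (nat_lit 107) (nat_lit 5) (nat_lit 120) (nat_lit 5) (nat_lit 121) (nat_lit 5) (nat_lit 364) (nat_lit 345) (nat_lit 155)) (XT.nd (nat_lit 94) (nat_lit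 0) (nat_lit 0) (XT.lf (nat_lit 0) (nat_lit 228648303) (nat_lit 588) (nat_lit 30039671256) (nat_lit 84) (nat_lit 2656236631) (nat_lit 100) (nat_lit 5) (nat_lit 107) (nat_lit 5) (nat_lit 101) (nat_lit 5) (nat_lit 365) (nat_lit 345) (nat_lit 154)) (XT.lf (nat_lit 0) (nat_lit 2255109135) (nat_lit 588) (nat_lit 17186810897) (nat_lit 84) (nat_lit 14081200171) (nat_lit 100) (nat_lit 5) (nat_lit 107) (nat_lit 5) (nat_lit 101) (nat_lit 5) (nat_lit 366) (nat_lit 345) (nat_lit 153)))) (XT.nd (nat_lit 94) (nat_lit 588) (nat_lit 0) (XT.lf (nat_lit 0) (nat_lit 4342044885) (nat_lit 588) (nat_lit 3937640016) (nat_lit 84) (nat_lit 25860635636) (nat_lit 100) (nat_lit 5) (nat_lit 107) (nat_lit 5) (nat_lit 101) (nat_lit 5) (nat_lit 367) (nat_lit 345) (nat_lit 152)) (XT.nd (nat_lit 94) (nat_lit 0) (nat_lit 0) (XT.lf (nat_lit 0) (nat_lit 6622845486) (nat_lit 672) (nat_lit 24886660258) (nat_lit 84) (nat_lit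 3263151963) (nat_lit 93) (nat_lit 5) (nat_lit 101) (nat_lit 5) (nat_lit 94) (nat_lit 5) (nat_lit 368) (nat_lit 345) (nat_lit 151)) (XT.lf (nat_lit 0) (nat_lit 9098328961) (nat_lit 672) (nat_lit 11288903450) (nat_lit 84) (nat_lit 15033529247) (nat_lit 93) (nat_lit 5) (nat_lit 101) (nat_lit 5) (nat_lit 94) (nat_lit 5) (nat_lit 369) (nat_lit 345) (nat_lit 150))))) (XT.nd (nat_lit 282) (nat_lit 924) (nat_lit 0) (XT.nd (nat_lit 94) (nat_lit 0) (nat_lit 0) (XT.lf (nat_lit 0) (nat_lit 2784425828) (nat_lit 504) (nat_lit 8891590446) (nat_lit 588) (nat_lit 24412158599) (nat_lit 87) (nat_lit 5) (nat_lit 93) (nat_lit 5) (nat_lit 94) (nat_lit 5) (nat_lit 370) (nat_lit 345) (nat_lit 149)) (XT.nd (nat_lit 94) (nat_lit 0) (nat_lit 0) (XT.lf (nat_lit 0) (nat_lit 14479905182) (nat_lit 588) (nat_lit 19271961387) (nat_lit 84) (nat_lit 3019883435) (nat_lit 87) (nat_lit 5) (nat_lit 94) (nat_lit 5) (nat_lit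 88) (nat_lit 5) (nat_lit 371) (nat_lit 345) (nat_lit 148)) (XT.lf (nat_lit 0) (nat_lit 17459605656) (nat_lit 588) (nat_lit 4898175500) (nat_lit 84) (nat_lit 15115986167) (nat_lit 87) (nat_lit 5) (nat_lit 94) (nat_lit 5) (nat_lit 88) (nat_lit 5) (nat_lit 372) (nat_lit 345) (nat_lit 147)))) (XT.nd (nat_lit 94) (nat_lit 420) (nat_lit 0) (XT.lf (nat_lit 0) (nat_lit 10123171512) (nat_lit 504) (nat_lit 10506941014) (nat_lit 588) (nat_lit 17564389919) (nat_lit 81) (nat_lit 5) (nat_lit 87) (nat_lit 5) (nat_lit 88) (nat_lit 5) (nat_lit 373) (nat_lit 345) (nat_lit 146)) (XT.nd (nat_lit 94) (nat_lit 420) (nat_lit 0) (XT.lf (nat_lit 0) (nat_lit 23965583631) (nat_lit 588) (nat_lit 13241507589) (nat_lit 84) (nat_lit 1728428669) (nat_lit 81) (nat_lit 5) (nat_lit 88) (nat_lit 5) (nat_lit 82) (nat_lit 5) (nat_lit 374) (nat_lit 345) (nat_lit 145)) (XT.lf (nat_lit 0) (nat_lit 1978469618) (nat_lit 420)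 (nat_lit 25551183874) (nat_lit 504) (nat_lit 12165980579) (nat_lit 76) (nat_lit 5) (nat_lit 81) (nat_lit 5) (nat_lit 82) (nat_lit 5) (nat_lit 375) (nat_lit 345) (nat_lit 144)))))) (XT.nd (nat_lit 564) (nat_lit 756) (nat_lit 0) (XT.nd (nat_lit 282) (nat_lit 504) (nat_lit 0) (XT.nd (nat_lit 94) (nat_lit 420) (nat_lit 0) (XT.lf (nat_lit 0) (nat_lit 17949027955) (nat_lit 420) (nat_lit 13391544380) (nat_lit 504) (nat_lit 9134518387) (nat_lit 76) (nat_lit 5) (nat_lit 81) (nat_lit 5) (nat_lit 82) (nat_lit 5) (nat_lit 376) (nat_lit 345) (nat_lit 143)) (XT.nd (nat_lit 94) (nat_lit 420) (nat_lit 0) (XT.lf (nat_lit 0) (nat_lit 34412781101) (nat_lit 420) (nat_lit 855052862) (nat_lit 504) (nat_lit 6010938227) (nat_lit 76) (nat_lit 5) (nat_lit 81) (nat_lit 5) (nat_lit 82) (nat_lit 5) (nat_lit 377) (nat_lit 345) (nat_lit 142)) (XT.lf (nat_lit 0) (nat_lit 9346217200) (nat_lit 420) (nat_lit 30181333085)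 (nat_lit 504) (nat_lit 2573291314) (nat_lit 71) (nat_lit 5) (nat_lit 76) (nat_lit 5) (nat_lit 77) (nat_lit 5) (nat_lit 378) (nat_lit 345) (nat_lit 141)))) (XT.nd (nat_lit 94) (nat_lit 420) (nat_lit 0) (XT.lf (nat_lit 0) (nat_lit 1030773908) (nat_lit 504) (nat_lit 16760640342) (nat_lit 84) (nat_lit 25154225988) (nat_lit 70) (nat_lit 5) (nat_lit 76) (nat_lit 5) (nat_lit 71) (nat_lit 5) (nat_lit 379) (nat_lit 345) (nat_lit 140)) (XT.nd (nat_lit 94) (nat_lit 420) (nat_lit 0) (XT.lf (nat_lit 0) (nat_lit 4691432067) (nat_lit 504) (nat_lit 299020243) (nat_lit 84) (nat_lit 38825416821) (nat_lit 70) (nat_lit 5) (nat_lit 76) (nat_lit 5) (nat_lit 71) (nat_lit 5) (nat_lit 380) (nat_lit 345) (nat_lit 139)) (XT.lf (nat_lit 0) (nat_lit 8715863676) (nat_lit 504) (nat_lit 27777141541) (nat_lit 84) (nat_lit 8212315962) (nat_lit 65) (nat_lit 5) (nat_lit 71) (nat_lit 5) (nat_lit 66) (nat_lit 5) (nat_lit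 381) (nat_lit 345) (nat_lit 138))))) (XT.nd (nat_lit 282) (nat_lit 336) (nat_lit 0) (XT.nd (nat_lit 94) (nat_lit 420) (nat_lit 0) (XT.lf (nat_lit 0) (nat_lit 12917646502) (nat_lit 504) (nat_lit 10979397489) (nat_lit 84) (nat_lit 21723676832) (nat_lit 65) (nat_lit 5) (nat_lit 71) (nat_lit 5) (nat_lit 66) (nat_lit 5) (nat_lit 382) (nat_lit 345) (nat_lit 137)) (XT.nd (nat_lit 94) (nat_lit 0) (nat_lit 0) (XT.lf (nat_lit 0) (nat_lit 6467602363) (nat_lit 420) (nat_lit 10844689922) (nat_lit 504) (nat_lit 29250269571) (nat_lit 60) (nat_lit 5) (nat_lit 65) (nat_lit 5) (nat_lit 66) (nat_lit 5) (nat_lit 383) (nat_lit 345) (nat_lit 136)) (XT.lf (nat_lit 0) (nat_lit 21983335839) (nat_lit 504) (nat_lit 22870730441) (nat_lit 84) (nat_lit 2675193299) (nat_lit 60) (nat_lit 5) (nat_lit 66) (nat_lit 5) (nat_lit 61) (nat_lit 5) (nat_lit 384) (nat_lit 345) (nat_lit 135)))) (XT.nd (nat_lit 94) (nat_lit 336)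 (nat_lit 0) (XT.lf (nat_lit 0) (nat_lit 26908618299) (nat_lit 504) (nat_lit 5225224924) (nat_lit 84) (nat_lit 16388693729) (nat_lit 60) (nat_lit 5) (nat_lit 66) (nat_lit 5) (nat_lit 61) (nat_lit 5) (nat_lit 385) (nat_lit 345) (nat_lit 134)) (XT.nd (nat_lit 94) (nat_lit 0) (nat_lit 0) (XT.lf (nat_lit 0) (nat_lit 13232184206) (nat_lit 336) (nat_lit 18884230576) (nat_lit 420) (nat_lit 17426170819) (nat_lit 56) (nat_lit 5) (nat_lit 60) (nat_lit 5) (nat_lit 61) (nat_lit 5) (nat_lit 386) (nat_lit 345) (nat_lit 133)) (XT.lf (nat_lit 0) (nat_lit 32370856235) (nat_lit 336) (nat_lit 5167929099) (nat_lit 420) (nat_lit 13053827604) (nat_lit 56) (nat_lit 5) (nat_lit 60) (nat_lit 5) (nat_lit 61) (nat_lit 5) (nat_lit 387) (nat_lit 345) (nat_lit 132))))))))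
noncomputable def xc203 : XT := (XT.nd (nat_lit 2256) (nat_lit 420) (nat_lit 0) (XT.nd (nat_lit 1128) (nat_lit 1092) (nat_lit 0) (XT.nd (nat_lit 564) (nat_lit 588) (nat_lit 0) (XT.nd (nat_lit 282) (nat_lit 336) (nat_lit 0) (XT.nd (nat_lit 94) (nat_lit 84) (nat_lit 0) (XT.lf (nat_lit 0) (nat_lit 343863222) (nat_lit 336) (nat_lit 42876447708) (nat_lit 420) (nat_lit 8452061439) (nat_lit 52) (nat_lit 5) (nat_lit 56) (nat_lit 5) (nat_lit 57) (nat_lit 5) (nat_lit 388) (nat_lit 345) (nat_lit 131)) (XT.nd (nat_lit 94) (nat_lit 84) (nat_lit 0) (XT.lf (nat_lit 0) (nat_lit 19815701651) (nat_lit 336) (nat_lit 29503436602) (nat_lit 420) (nat_lit 3458993710) (nat_lit 52) (nat_lit 5) (nat_lit 56) (nat_lit 5) (nat_lit 57) (nat_lit 5) (nat_lit 389) (nat_lit 345) (nat_lit 130)) (XT.lf (nat_lit 0) (nat_lit 1653511643) (nat_lit 420) (nat_lit 14045402418) (nat_lit 84) (nat_lit 38218781415) (nat_lit 51) (nat_lit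 5) (nat_lit 56) (nat_lit 5) (nat_lit 52) (nat_lit 5) (nat_lit 390) (nat_lit 345) (nat_lit 129)))) (XT.nd (nat_lit 94) (nat_lit 0) (nat_lit 0) (XT.lf (nat_lit 0) (nat_lit 5532548282) (nat_lit 336) (nat_lit 1373707494) (nat_lit 420) (nat_lit 48183574980) (nat_lit 47) (nat_lit 5) (nat_lit 51) (nat_lit 5) (nat_lit 52) (nat_lit 5) (nat_lit 391) (nat_lit 345) (nat_lit 128)) (XT.nd (nat_lit 94) (nat_lit 0) (nat_lit 0) (XT.lf (nat_lit 0) (nat_lit 12601564051) (nat_lit 420) (nat_lit 30414591532) (nat_lit 84) (nat_lit 13273478612) (nat_lit 47) (nat_lit 5) (nat_lit 52) (nat_lit 5) (nat_lit 48) (nat_lit 5) (nat_lit 392) (nat_lit 345) (nat_lit 127)) (XT.lf (nat_lit 0) (nat_lit 18486253240) (nat_lit 420) (nat_lit 10694097699) (nat_lit 84) (nat_lit 28345886443) (nat_lit 47) (nat_lit 5) (nat_lit 52) (nat_lit 5) (nat_lit 48) (nat_lit 5) (nat_lit 393) (nat_lit 345) (nat_lit 126))))) (XT.nd (nat_lit 282)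 (nat_lit 252) (nat_lit 0) (XT.nd (nat_lit 94) (nat_lit 0) (nat_lit 0) (XT.lf (nat_lit 0) (nat_lit 9834348136) (nat_lit 336) (nat_lit 14815390957) (nat_lit 420) (nat_lit 34148452021) (nat_lit 43) (nat_lit 5) (nat_lit 47) (nat_lit 5) (nat_lit 48) (nat_lit 5) (nat_lit 394) (nat_lit 345) (nat_lit 125)) (XT.nd (nat_lit 94) (nat_lit 0) (nat_lit 0) (XT.lf (nat_lit 0) (nat_lit 31115839021) (nat_lit 420) (nat_lit 28882864985) (nat_lit 84) (nat_lit 107416733) (nat_lit 43) (nat_lit 5) (nat_lit 48) (nat_lit 5) (nat_lit 44) (nat_lit 5) (nat_lit 395) (nat_lit 345) (nat_lit 124)) (XT.lf (nat_lit 0) (nat_lit 37932780478) (nat_lit 420) (nat_lit 8332400929) (nat_lit 84) (nat_lit 15184755768) (nat_lit 43) (nat_lit 5) (nat_lit 48) (nat_lit 5) (nat_lit 44) (nat_lit 5) (nat_lit 396) (nat_lit 345) (nat_lit 123)))) (XT.nd (nat_lit 94) (nat_lit 0) (nat_lit 0) (XT.lf (nat_lit 0) (nat_lit 13117972805) (nat_lit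 252) (nat_lit 31972106163) (nat_lit 336) (nat_lit 17741336025) (nat_lit 40) (nat_lit 5) (nat_lit 43) (nat_lit 5) (nat_lit 44) (nat_lit 5) (nat_lit 397) (nat_lit 345) (nat_lit 122)) (XT.nd (nat_lit 94) (nat_lit 0) (nat_lit 0) (XT.lf (nat_lit 0) (nat_lit 35408512728) (nat_lit 252) (nat_lit 17146632908) (nat_lit 336) (nat_lit 11697913307) (nat_lit 40) (nat_lit 5) (nat_lit 43) (nat_lit 5) (nat_lit 44) (nat_lit 5) (nat_lit 398) (nat_lit 345) (nat_lit 121)) (XT.lf (nat_lit 0) (nat_lit 58388664705) (nat_lit 252) (nat_lit 1861915923) (nat_lit 336) (nat_lit 5468228619) (nat_lit 40) (nat_lit 5) (nat_lit 43) (nat_lit 5) (nat_lit 44) (nat_lit 5) (nat_lit 399) (nat_lit 345) (nat_lit 120)))))) (XT.nd (nat_lit 564) (nat_lit 504) (nat_lit 0) (XT.nd (nat_lit 282) (nat_lit 252) (nat_lit 0) (XT.nd (nat_lit 94) (nat_lit 0) (nat_lit 0) (XT.lf (nat_lit 0) (nat_lit 1224044985) (nat_lit 336) (nat_lit 52219062031)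 (nat_lit 84) (nat_lit 13777650211) (nat_lit 36) (nat_lit 5) (nat_lit 40) (nat_lit 5) (nat_lit 37) (nat_lit 5) (nat_lit 400) (nat_lit 345) (nat_lit 119)) (XT.nd (nat_lit 94) (nat_lit 0) (nat_lit 0) (XT.lf (nat_lit 0) (nat_lit 8105511972) (nat_lit 336) (nat_lit 30662822485) (nat_lit 84) (nat_lit 29996245077) (nat_lit 36) (nat_lit 5) (nat_lit 40) (nat_lit 5) (nat_lit 37) (nat_lit 5) (nat_lit 401) (nat_lit 345) (nat_lit 118)) (XT.lf (nat_lit 0) (nat_lit 15199318638) (nat_lit 336) (nat_lit 8439690884) (nat_lit 84) (nat_lit 46717283918) (nat_lit 36) (nat_lit 5) (nat_lit 40) (nat_lit 5) (nat_lit 37) (nat_lit 5) (nat_lit 402) (nat_lit 345) (nat_lit 117)))) (XT.nd (nat_lit 94) (nat_lit 0) (nat_lit 0) (XT.lf (nat_lit 0) (nat_lit 14768601464) (nat_lit 252) (nat_lit 7889982045) (nat_lit 336) (nat_lit 49334257386) (nat_lit 33) (nat_lit 5) (nat_lit 36) (nat_lit 5) (nat_lit 37) (nat_lit 5) (nat_lit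 403) (nat_lit 345) (nat_lit 116)) (XT.nd (nat_lit 94) (nat_lit 0) (nat_lit 0) (XT.lf (nat_lit 0) (nat_lit 30519941724) (nat_lit 336) (nat_lit 34887154912) (nat_lit 84) (nat_lit 8267730544) (nat_lit 33) (nat_lit 5) (nat_lit 37) (nat_lit 5) (nat_lit 34) (nat_lit 5) (nat_lit 404) (nat_lit 345) (nat_lit 115)) (XT.lf (nat_lit 0) (nat_lit 38704782556) (nat_lit 336) (nat_lit 11939602345) (nat_lit 84) (nat_lit 24762099267) (nat_lit 33) (nat_lit 5) (nat_lit 37) (nat_lit 5) (nat_lit 34) (nat_lit 5) (nat_lit 405) (nat_lit 345) (nat_lit 114))))) (XT.nd (nat_lit 282) (nat_lit 252) (nat_lit 0) (XT.nd (nat_lit 94) (nat_lit 0) (nat_lit 0) (XT.lf (nat_lit 0) (nat_lit 11959025093) (nat_lit 252) (nat_lit 35302075452) (nat_lit 336) (nat_lit 29927074074) (nat_lit 30) (nat_lit 5) (nat_lit 33) (nat_lit 5) (nat_lit 34) (nat_lit 5) (nat_lit 406) (nat_lit 345) (nat_lit 113)) (XT.nd (nat_lit 94) (nat_lit 0) (nat_lit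 0) (XT.lf (nat_lit 0) (nat_lit 36850388940) (nat_lit 252) (nat_lit 19356026949) (nat_lit 336) (nat_lit 22814847477) (nat_lit 30) (nat_lit 5) (nat_lit 33) (nat_lit 5) (nat_lit 34) (nat_lit 5) (nat_lit 407) (nat_lit 345) (nat_lit 112)) (XT.lf (nat_lit 0) (nat_lit 62512187843) (nat_lit 252) (nat_lit 2916000965) (nat_lit 336) (nat_lit 15483017443) (nat_lit 30) (nat_lit 5) (nat_lit 33) (nat_lit 5) (nat_lit 34) (nat_lit 5) (nat_lit 408) (nat_lit 345) (nat_lit 111)))) (XT.nd (nat_lit 94) (nat_lit 84) (nat_lit 0) (XT.lf (nat_lit 0) (nat_lit 6092106421) (nat_lit 168) (nat_lit 69042555324) (nat_lit 252) (nat_lit 7718914102) (nat_lit 28) (nat_lit 5) (nat_lit 30) (nat_lit 5) (nat_lit 31) (nat_lit 5) (nat_lit 409) (nat_lit 345) (nat_lit 110)) (XT.nd (nat_lit 94) (nat_lit 0) (nat_lit 0) (XT.lf (nat_lit 0) (nat_lit 503130527) (nat_lit 252) (nat_lit 53153515960) (nat_lit 84) (nat_lit 31192513006) (nat_lit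 27) (nat_lit 5) (nat_lit 30) (nat_lit 5) (nat_lit 28) (nat_lit 5) (nat_lit 410) (nat_lit 345) (nat_lit 109)) (XT.lf (nat_lit 0) (nat_lit 8818921072) (nat_lit 252) (nat_lit 28893818653) (nat_lit 84) (nat_lit 49191445771) (nat_lit 27) (nat_lit 5) (nat_lit 30) (nat_lit 5) (nat_lit 28) (nat_lit 5) (nat_lit 411) (nat_lit 345) (nat_lit 108))))))) (XT.nd (nat_lit 48410) (nat_lit 0) (nat_lit 7812) (XT.nd (nat_lit 564) (nat_lit 0) (nat_lit 0) (XT.nd (nat_lit 282) (nat_lit 168) (nat_lit 0) (XT.nd (nat_lit 94) (nat_lit 252) (nat_lit 0) (XT.lf (nat_lit 0) (nat_lit 17391727635) (nat_lit 252) (nat_lit 3883192344) (nat_lit 84) (nat_lit 67748023126) (nat_lit 27) (nat_lit 5) (nat_lit 30) (nat_lit 5) (nat_lit 28) (nat_lit 5) (nat_lit 412) (nat_lit 345) (nat_lit 107)) (XT.nd (nat_lit 94) (nat_lit 0) (nat_lit 0) (XT.lf (nat_lit 0) (nat_lit 22352018858) (nat_lit 252) (nat_lit 4099256907) (nat_lit 336) (nat_lit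 64749257681) (nat_lit 24) (nat_lit 5) (nat_lit 27) (nat_lit 5) (nat_lit 28) (nat_lit 5) (nat_lit 413) (nat_lit 345) (nat_lit 106)) (XT.lf (nat_lit 0) (nat_lit 35966876785) (nat_lit 336) (nat_lit 44098043499) (nat_lit 84) (nat_lit 13375279103) (nat_lit 24) (nat_lit 5) (nat_lit 28) (nat_lit 5) (nat_lit 25) (nat_lit 5) (nat_lit 414) (nat_lit 345) (nat_lit 105)))) (XT.nd (nat_lit 94) (nat_lit 168) (nat_lit 0) (XT.lf (nat_lit 0) (nat_lit 45818667780) (nat_lit 336) (nat_lit 18623298663) (nat_lit 84) (nat_lit 31306052796) (nat_lit 24) (nat_lit 5) (nat_lit 28) (nat_lit 5) (nat_lit 25) (nat_lit 5) (nat_lit 415) (nat_lit 345) (nat_lit 104)) (XT.nd (nat_lit 94) (nat_lit 0) (nat_lit 0) (XT.lf (nat_lit 0) (nat_lit 7797226931) (nat_lit 168) (nat_lit 48255289040) (nat_lit 252) (nat_lit 42072490946) (nat_lit 22) (nat_lit 5) (nat_lit 24) (nat_lit 5) (nat_lit 25) (nat_lit 5) (nat_lit 416) (nat_lit 345)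 (nat_lit 103)) (XT.lf (nat_lit 0) (nat_lit 35430570347) (nat_lit 168) (nat_lit 31366745207) (nat_lit 252) (nat_lit 33772362457) (nat_lit 22) (nat_lit 5) (nat_lit 24) (nat_lit 5) (nat_lit 25) (nat_lit 5) (nat_lit 417) (nat_lit 345) (nat_lit 102))))) (XT.nd (nat_lit 47564) (nat_lit 0) (nat_lit 7728) (XT.nd (nat_lit 94) (nat_lit 0) (nat_lit 0) (XT.lf (nat_lit 0) (nat_lit 63919555540) (nat_lit 168) (nat_lit 13954982096) (nat_lit 252) (nat_lit 25215618447) (nat_lit 22) (nat_lit 5) (nat_lit 24) (nat_lit 5) (nat_lit 25) (nat_lit 5) (nat_lit 418) (nat_lit 345) (nat_lit 101)) (XT.nd (nat_lit 47376) (nat_lit 0) (nat_lit 7728) (XT.lf (nat_lit 0) (nat_lit 89334150441) (nat_lit 252) (nat_lit 12437696347) (nat_lit 84) (nat_lit 3915714754) (nat_lit 22) (nat_lit 5) (nat_lit 25) (nat_lit 5) (nat_lit 23) (nat_lit 5) (nat_lit 419) (nat_lit 345) (nat_lit 100)) (XT.lf (nat_lit 0) (nat_lit 2278163408) (nat_lit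 0) (nat_lit 2278163408) (nat_lit 1092) (nat_lit 7623912993) (nat_lit 114) (nat_lit 5) (nat_lit 114) (nat_lit 3) (nat_lit 127) (nat_lit 3) (nat_lit 346) (nat_lit 346) (nat_lit 172)))) (XT.nd (nat_lit 94) (nat_lit 0) (nat_lit 0) (XT.lf (nat_lit 0) (nat_lit 9398777794) (nat_lit 1092) (nat_lit 10540299047) (nat_lit 1176) (nat_lit 4794138515) (nat_lit 114) (nat_lit 5) (nat_lit 127) (nat_lit 3) (nat_lit 128) (nat_lit 5) (nat_lit 347) (nat_lit 346) (nat_lit 171)) (XT.nd (nat_lit 94) (nat_lit 0) (nat_lit 0) (XT.lf (nat_lit 0) (nat_lit 9736509424) (nat_lit 1092) (nat_lit 1037961527) (nat_lit 1176) (nat_lit 14341724609) (nat_lit 114) (nat_lit 5) (nat_lit 127) (nat_lit 3) (nat_lit 128) (nat_lit 5) (nat_lit 348) (nat_lit 346) (nat_lit 170)) (XT.lf (nat_lit 84) (nat_lit 8936976413) (nat_lit 0) (nat_lit 1232643498) (nat_lit 1176) (nat_lit 15338810144) (nat_lit 115) (nat_lit 5) (nat_lit 114) (nat_lit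 5) (nat_lit 128) (nat_lit 5) (nat_lit 349) (nat_lit 346) (nat_lit 169)))))) (XT.nd (nat_lit 564) (nat_lit 0) (nat_lit 168) (XT.nd (nat_lit 282) (nat_lit 0) (nat_lit 84) (XT.nd (nat_lit 94) (nat_lit 0) (nat_lit 0) (XT.lf (nat_lit 0) (nat_lit 10708826553) (nat_lit 1092) (nat_lit 6756974430) (nat_lit 1176) (nat_lit 8444163740) (nat_lit 115) (nat_lit 5) (nat_lit 128) (nat_lit 5) (nat_lit 129) (nat_lit 5) (nat_lit 350) (nat_lit 346) (nat_lit 168)) (XT.nd (nat_lit 94) (nat_lit 0) (nat_lit 84) (XT.lf (nat_lit 84) (nat_lit 3415878873) (nat_lit 0) (nat_lit 7891834348) (nat_lit 1176) (nat_lit 15014915096) (nat_lit 116) (nat_lit 5) (nat_lit 115) (nat_lit 5) (nat_lit 129) (nat_lit 5) (nat_lit 351) (nat_lit 346) (nat_lit 167)) (XT.lf (nat_lit 0) (nat_lit 12012617694) (nat_lit 1092) (nat_lit 12721117796) (nat_lit 1176) (nat_lit 2011650827) (nat_lit 116) (nat_lit 5) (nat_lit 129) (nat_lit 5) (nat_lit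 130) (nat_lit 5) (nat_lit 352) (nat_lit 346) (nat_lit 166)))) (XT.nd (nat_lit 94) (nat_lit 0) (nat_lit 0) (XT.lf (nat_lit 0) (nat_lit 12816763046) (nat_lit 1092) (nat_lit 2302582371) (nat_lit 1176) (nat_lit 12059517812) (nat_lit 116) (nat_lit 5) (nat_lit 129) (nat_lit 5) (nat_lit 130) (nat_lit 5) (nat_lit 353) (nat_lit 346) (nat_lit 165)) (XT.nd (nat_lit 94) (nat_lit 0) (nat_lit 84) (XT.lf (nat_lit 84) (nat_lit 8610335029) (nat_lit 0) (nat_lit 5117691413) (nat_lit 1176) (nat_lit 13895215703) (nat_lit 117) (nat_lit 5) (nat_lit 116) (nat_lit 5) (nat_lit 130) (nat_lit 5) (nat_lit 354) (nat_lit 346) (nat_lit 164)) (XT.lf (nat_lit 0) (nat_lit 14740205820) (nat_lit 1092) (nat_lit 8224227384) (nat_lit 1176) (nat_lit 5114722661) (nat_lit 117) (nat_lit 5) (nat_lit 130) (nat_lit 5) (nat_lit 131) (nat_lit 5) (nat_lit 355) (nat_lit 346) (nat_lit 163))))) (XT.nd (nat_lit 282) (nat_lit 0) (nat_lit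 84) (XT.nd (nat_lit 94) (nat_lit 0) (nat_lit 0) (XT.lf (nat_lit 84) (nat_lit 2902941584) (nat_lit 0) (nat_lit 12958916532) (nat_lit 1176) (nat_lit 12684935219) (nat_lit 118) (nat_lit 5) (nat_lit 117) (nat_lit 5) (nat_lit 131) (nat_lit 5) (nat_lit 356) (nat_lit 346) (nat_lit 162)) (XT.nd (nat_lit 94) (nat_lit 0) (nat_lit 84) (XT.lf (nat_lit 84) (nat_lit 14547317714) (nat_lit 0) (nat_lit 2553834711) (nat_lit 1176) (nat_lit 11925217181) (nat_lit 118) (nat_lit 5) (nat_lit 117) (nat_lit 5) (nat_lit 131) (nat_lit 5) (nat_lit 357) (nat_lit 346) (nat_lit 161)) (XT.lf (nat_lit 0) (nat_lit 18457074691) (nat_lit 1092) (nat_lit 3051358752) (nat_lit 1176) (nat_lit 8009965498) (nat_lit 118) (nat_lit 5) (nat_lit 131) (nat_lit 5) (nat_lit 132) (nat_lit 5) (nat_lit 358) (nat_lit 346) (nat_lit 160)))) (XT.nd (nat_lit 94) (nat_lit 0) (nat_lit 0) (XT.lf (nat_lit 84) (nat_lit 8881346182) (nat_lit 0) (nat_lit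 11085119274) (nat_lit 1176) (nat_lit 10055771631) (nat_lit 119) (nat_lit 5) (nat_lit 118) (nat_lit 5) (nat_lit 132) (nat_lit 5) (nat_lit 359) (nat_lit 346) (nat_lit 159)) (XT.nd (nat_lit 94) (nat_lit 0) (nat_lit 84) (XT.lf (nat_lit 84) (nat_lit 21246606788) (nat_lit 0) (nat_lit 305165173) (nat_lit 1176) (nat_lit 8989029460) (nat_lit 119) (nat_lit 5) (nat_lit 118) (nat_lit 5) (nat_lit 132) (nat_lit 5) (nat_lit 360) (nat_lit 346) (nat_lit 158)) (XT.lf (nat_lit 84) (nat_lit 2868229215) (nat_lit 0) (nat_lit 20451036421) (nat_lit 1176) (nat_lit 7752061057) (nat_lit 120) (nat_lit 5) (nat_lit 119) (nat_lit 5) (nat_lit 133) (nat_lit 5) (nat_lit 361) (nat_lit 346) (nat_lit 157))))))))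
noncomputable def xc204 : XT := (XT.nd (nat_lit 2256) (nat_lit 2520) (nat_lit 0) (XT.nd (nat_lit 1128) (nat_lit 2268) (nat_lit 0) (XT.nd (nat_lit 564) (nat_lit 1092) (nat_lit 0) (XT.nd (nat_lit 282) (nat_lit 588) (nat_lit 0) (XT.nd (nat_lit 94) (nat_lit 1008) (nat_lit 0) (XT.lf (nat_lit 84) (nat_lit 15599473889) (nat_lit 0) (nat_lit 9639601602) (nat_lit 1176) (nat_lit 6376208992) (nat_lit 120) (nat_lit 5) (nat_lit 119) (nat_lit 5) (nat_lit 133) (nat_lit 5) (nat_lit 362) (nat_lit 346) (nat_lit 156)) (XT.nd (nat_lit 94) (nat_lit 1092) (nat_lit 0) (XT.lf (nat_lit 0) (nat_lit 27230853467) (nat_lit 1092) (nat_lit 3467758083) (nat_lit 84) (nat_lit 1477116528) (nat_lit 120) (nat_lit 5) (nat_lit 133) (nat_lit 5) (nat_lit 121) (nat_lit 5) (nat_lit 363) (nat_lit 346) (nat_lit 155)) (XT.lf (nat_lit 0) (nat_lit 9561304689) (nat_lit 1092) (nat_lit 19914091190) (nat_lit 1176) (nat_lit 3272236860)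 (nat_lit 107) (nat_lit 5) (nat_lit 120) (nat_lit 5) (nat_lit 121) (nat_lit 5) (nat_lit 364) (nat_lit 346) (nat_lit 154)))) (XT.nd (nat_lit 94) (nat_lit 588) (nat_lit 0) (XT.lf (nat_lit 0) (nat_lit 23065775689) (nat_lit 1092) (nat_lit 8757572108) (nat_lit 1176) (nat_lit 1512878602) (nat_lit 107) (nat_lit 5) (nat_lit 120) (nat_lit 5) (nat_lit 121) (nat_lit 5) (nat_lit 365) (nat_lit 346) (nat_lit 153)) (XT.nd (nat_lit 94) (nat_lit 0) (nat_lit 0) (XT.lf (nat_lit 0) (nat_lit 350989826) (nat_lit 588) (nat_lit 30866321863) (nat_lit 84) (nat_lit 2723933251) (nat_lit 100) (nat_lit 5) (nat_lit 107) (nat_lit 5) (nat_lit 101) (nat_lit 5) (nat_lit 366) (nat_lit 346) (nat_lit 152)) (XT.lf (nat_lit 0) (nat_lit 2436805515) (nat_lit 588) (nat_lit 17618167309) (nat_lit 84) (nat_lit 14503511057) (nat_lit 100) (nat_lit 5) (nat_lit 107) (nat_lit 5) (nat_lit 101) (nat_lit 5) (nat_lit 367) (nat_lit 346) (nat_lit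 151))))) (XT.nd (nat_lit 282) (nat_lit 504) (nat_lit 0) (XT.nd (nat_lit 94) (nat_lit 588) (nat_lit 0) (XT.lf (nat_lit 0) (nat_lit 4585075045) (nat_lit 588) (nat_lit 3961322060) (nat_lit 84) (nat_lit 26648536175) (nat_lit 100) (nat_lit 5) (nat_lit 107) (nat_lit 5) (nat_lit 101) (nat_lit 5) (nat_lit 368) (nat_lit 346) (nat_lit 150)) (XT.nd (nat_lit 94) (nat_lit 0) (nat_lit 0) (XT.lf (nat_lit 0) (nat_lit 6934199666) (nat_lit 672) (nat_lit 25557016471) (nat_lit 84) (nat_lit 3355741873) (nat_lit 93) (nat_lit 5) (nat_lit 101) (nat_lit 5) (nat_lit 94) (nat_lit 5) (nat_lit 369) (nat_lit 346) (nat_lit 149)) (XT.lf (nat_lit 0) (nat_lit 9483234550) (nat_lit 672) (nat_lit 11540769976) (nat_lit 84) (nat_lit 15491258468) (nat_lit 93) (nat_lit 5) (nat_lit 101) (nat_lit 5) (nat_lit 94) (nat_lit 5) (nat_lit 370) (nat_lit 346) (nat_lit 148)))) (XT.nd (nat_lit 94) (nat_lit 0) (nat_lit 0) (XT.lf (nat_lit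 0) (nat_lit 2967839442) (nat_lit 504) (nat_lit 9170861231) (nat_lit 588) (nat_lit 25064741996) (nat_lit 87) (nat_lit 5) (nat_lit 93) (nat_lit 5) (nat_lit 94) (nat_lit 5) (nat_lit 371) (nat_lit 346) (nat_lit 147)) (XT.nd (nat_lit 94) (nat_lit 0) (nat_lit 0) (XT.lf (nat_lit 0) (nat_lit 15026446519) (nat_lit 588) (nat_lit 19771818899) (nat_lit 84) (nat_lit 3110048497) (nat_lit 87) (nat_lit 5) (nat_lit 94) (nat_lit 5) (nat_lit 88) (nat_lit 5) (nat_lit 372) (nat_lit 346) (nat_lit 146)) (XT.lf (nat_lit 0) (nat_lit 18095581149) (nat_lit 588) (nat_lit 4955379473) (nat_lit 84) (nat_lit 15581234188) (nat_lit 87) (nat_lit 5) (nat_lit 94) (nat_lit 5) (nat_lit 88) (nat_lit 5) (nat_lit 373) (nat_lit 346) (nat_lit 145)))))) (XT.nd (nat_lit 564) (nat_lit 924) (nat_lit 0) (XT.nd (nat_lit 282) (nat_lit 420) (nat_lit 0) (XT.nd (nat_lit 94) (nat_lit 420) (nat_lit 0) (XT.lf (nat_lit 0) (nat_lit 10530671157)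 (nat_lit 504) (nat_lit 10831783642) (nat_lit 588) (nat_lit 18012887113) (nat_lit 81) (nat_lit 5) (nat_lit 87) (nat_lit 5) (nat_lit 88) (nat_lit 5) (nat_lit 374) (nat_lit 346) (nat_lit 144)) (XT.nd (nat_lit 94) (nat_lit 420) (nat_lit 0) (XT.lf (nat_lit 0) (nat_lit 24798543339) (nat_lit 588) (nat_lit 13558044003) (nat_lit 84) (nat_lit 1782839214) (nat_lit 81) (nat_lit 5) (nat_lit 88) (nat_lit 5) (nat_lit 82) (nat_lit 5) (nat_lit 375) (nat_lit 346) (nat_lit 143)) (XT.lf (nat_lit 0) (nat_lit 2132801335) (nat_lit 420) (nat_lit 26338513683) (nat_lit 504) (nat_lit 12451853703) (nat_lit 76) (nat_lit 5) (nat_lit 81) (nat_lit 5) (nat_lit 82) (nat_lit 5) (nat_lit 376) (nat_lit 346) (nat_lit 142)))) (XT.nd (nat_lit 94) (nat_lit 420) (nat_lit 0) (XT.lf (nat_lit 0) (nat_lit 18595650692) (nat_lit 420) (nat_lit 13802068394) (nat_lit 504) (nat_lit 9329160549) (nat_lit 76) (nat_lit 5) (nat_lit 81) (nat_lit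 5) (nat_lit 82) (nat_lit 5) (nat_lit 377) (nat_lit 346) (nat_lit 141)) (XT.nd (nat_lit 94) (nat_lit 420) (nat_lit 0) (XT.lf (nat_lit 0) (nat_lit 35567067975) (nat_lit 420) (nat_lit 877084369) (nat_lit 504) (nat_lit 6111411251) (nat_lit 76) (nat_lit 5) (nat_lit 81) (nat_lit 5) (nat_lit 82) (nat_lit 5) (nat_lit 378) (nat_lit 346) (nat_lit 140)) (XT.lf (nat_lit 0) (nat_lit 9725332558) (nat_lit 420) (nat_lit 31109020957) (nat_lit 504) (nat_lit 2568820528) (nat_lit 71) (nat_lit 5) (nat_lit 76) (nat_lit 5) (nat_lit 77) (nat_lit 5) (nat_lit 379) (nat_lit 346) (nat_lit 139))))) (XT.nd (nat_lit 282) (nat_lit 420) (nat_lit 0) (XT.nd (nat_lit 94) (nat_lit 420) (nat_lit 0) (XT.lf (nat_lit 0) (nat_lit 1142791440) (nat_lit 504) (nat_lit 17191626040) (nat_lit 84) (nat_lit 25939802830) (nat_lit 70) (nat_lit 5) (nat_lit 76) (nat_lit 5) (nat_lit 71) (nat_lit 5) (nat_lit 380) (nat_lit 346) (nat_lit 138))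 (XT.nd (nat_lit 94) (nat_lit 420) (nat_lit 0) (XT.lf (nat_lit 0) (nat_lit 4914522660) (nat_lit 504) (nat_lit 222359558) (nat_lit 84) (nat_lit 40034626310) (nat_lit 70) (nat_lit 5) (nat_lit 76) (nat_lit 5) (nat_lit 71) (nat_lit 5) (nat_lit 381) (nat_lit 346) (nat_lit 137)) (XT.lf (nat_lit 0) (nat_lit 9062308742) (nat_lit 504) (nat_lit 28550661879) (nat_lit 84) (nat_lit 8475613832) (nat_lit 65) (nat_lit 5) (nat_lit 71) (nat_lit 5) (nat_lit 66) (nat_lit 5) (nat_lit 382) (nat_lit 346) (nat_lit 136)))) (XT.nd (nat_lit 94) (nat_lit 420) (nat_lit 0) (XT.lf (nat_lit 0) (nat_lit 13392054060) (nat_lit 504) (nat_lit 11234820838) (nat_lit 84) (nat_lit 22405564814) (nat_lit 65) (nat_lit 5) (nat_lit 71) (nat_lit 5) (nat_lit 66) (nat_lit 5) (nat_lit 383) (nat_lit 346) (nat_lit 135)) (XT.nd (nat_lit 94) (nat_lit 0) (nat_lit 0) (XT.lf (nat_lit 0) (nat_lit 6752176088) (nat_lit 420) (nat_lit 11169368001)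 (nat_lit 504) (nat_lit 30081983748) (nat_lit 60) (nat_lit 5) (nat_lit 65) (nat_lit 5) (nat_lit 66) (nat_lit 5) (nat_lit 384) (nat_lit 346) (nat_lit 134)) (XT.lf (nat_lit 0) (nat_lit 22735318666) (nat_lit 504) (nat_lit 23495884739) (nat_lit 84) (nat_lit 2769060723) (nat_lit 60) (nat_lit 5) (nat_lit 66) (nat_lit 5) (nat_lit 61) (nat_lit 5) (nat_lit 385) (nat_lit 346) (nat_lit 133))))))) (XT.nd (nat_lit 1128) (nat_lit 1092) (nat_lit 0) (XT.nd (nat_lit 564) (nat_lit 672) (nat_lit 0) (XT.nd (nat_lit 282) (nat_lit 420) (nat_lit 0) (XT.nd (nat_lit 94) (nat_lit 336) (nat_lit 0) (XT.lf (nat_lit 0) (nat_lit 27811165113) (nat_lit 504) (nat_lit 5305889393) (nat_lit 84) (nat_lit 16907350831) (nat_lit 60) (nat_lit 5) (nat_lit 66) (nat_lit 5) (nat_lit 61) (nat_lit 5) (nat_lit 386) (nat_lit 346) (nat_lit 132)) (XT.nd (nat_lit 94) (nat_lit 0) (nat_lit 0) (XT.lf (nat_lit 0) (nat_lit 13722876153) (nat_lit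 336) (nat_lit 19456269615) (nat_lit 420) (nat_lit 17896975039) (nat_lit 56) (nat_lit 5) (nat_lit 60) (nat_lit 5) (nat_lit 61) (nat_lit 5) (nat_lit 387) (nat_lit 346) (nat_lit 131)) (XT.lf (nat_lit 0) (nat_lit 33452426723) (nat_lit 336) (nat_lit 5315164863) (nat_lit 420) (nat_lit 13391176109) (nat_lit 56) (nat_lit 5) (nat_lit 60) (nat_lit 5) (nat_lit 61) (nat_lit 5) (nat_lit 388) (nat_lit 346) (nat_lit 130)))) (XT.nd (nat_lit 94) (nat_lit 84) (nat_lit 0) (XT.lf (nat_lit 0) (nat_lit 433872942) (nat_lit 336) (nat_lit 44190325953) (nat_lit 420) (nat_lit 8647839140) (nat_lit 52) (nat_lit 5) (nat_lit 56) (nat_lit 5) (nat_lit 57) (nat_lit 5) (nat_lit 389) (nat_lit 346) (nat_lit 129)) (XT.nd (nat_lit 94) (nat_lit 84) (nat_lit 0) (XT.lf (nat_lit 0) (nat_lit 20506952476) (nat_lit 336) (nat_lit 30403211290) (nat_lit 420) (nat_lit 3501977895) (nat_lit 52) (nat_lit 5) (nat_lit 56) (nat_lit 5) (nat_lit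 57) (nat_lit 5) (nat_lit 390) (nat_lit 346) (nat_lit 128)) (XT.lf (nat_lit 0) (nat_lit 1765827957) (nat_lit 420) (nat_lit 14404729241) (nat_lit 84) (nat_lit 39416518797) (nat_lit 51) (nat_lit 5) (nat_lit 56) (nat_lit 5) (nat_lit 52) (nat_lit 5) (nat_lit 391) (nat_lit 346) (nat_lit 127))))) (XT.nd (nat_lit 282) (nat_lit 336) (nat_lit 0) (XT.nd (nat_lit 94) (nat_lit 0) (nat_lit 0) (XT.lf (nat_lit 0) (nat_lit 5779367683) (nat_lit 336) (nat_lit 1400950695) (nat_lit 420) (nat_lit 49615268114) (nat_lit 47) (nat_lit 5) (nat_lit 51) (nat_lit 5) (nat_lit 52) (nat_lit 5) (nat_lit 392) (nat_lit 346) (nat_lit 126)) (XT.nd (nat_lit 94) (nat_lit 0) (nat_lit 0) (XT.lf (nat_lit 0) (nat_lit 13050525693) (nat_lit 420) (nat_lit 31282577497) (nat_lit 84) (nat_lit 13699537079) (nat_lit 47) (nat_lit 5) (nat_lit 52) (nat_lit 5) (nat_lit 48) (nat_lit 5) (nat_lit 393) (nat_lit 346) (nat_lit 125)) (XT.lf (nat_lit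 0) (nat_lit 19115886893) (nat_lit 420) (nat_lit 10952999430) (nat_lit 84) (nat_lit 29238751144) (nat_lit 47) (nat_lit 5) (nat_lit 52) (nat_lit 5) (nat_lit 48) (nat_lit 5) (nat_lit 394) (nat_lit 346) (nat_lit 124)))) (XT.nd (nat_lit 94) (nat_lit 0) (nat_lit 0) (XT.lf (nat_lit 0) (nat_lit 10211093062) (nat_lit 336) (nat_lit 15258360171) (nat_lit 420) (nat_lit 35149603955) (nat_lit 43) (nat_lit 5) (nat_lit 47) (nat_lit 5) (nat_lit 48) (nat_lit 5) (nat_lit 395) (nat_lit 346) (nat_lit 123)) (XT.nd (nat_lit 94) (nat_lit 0) (nat_lit 0) (XT.lf (nat_lit 0) (nat_lit 32134488231) (nat_lit 420) (nat_lit 29706850475) (nat_lit 84) (nat_lit 126245524) (nat_lit 43) (nat_lit 5) (nat_lit 48) (nat_lit 5) (nat_lit 44) (nat_lit 5) (nat_lit 396) (nat_lit 346) (nat_lit 122)) (XT.lf (nat_lit 0) (nat_lit 39161129457) (nat_lit 420) (nat_lit 8521468379) (nat_lit 84) (nat_lit 15670516050) (nat_lit 43) (nat_lit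 5) (nat_lit 48) (nat_lit 5) (nat_lit 44) (nat_lit 5) (nat_lit 397) (nat_lit 346) (nat_lit 121)))))) (XT.nd (nat_lit 564) (nat_lit 504) (nat_lit 0) (XT.nd (nat_lit 282) (nat_lit 336) (nat_lit 0) (XT.nd (nat_lit 94) (nat_lit 0) (nat_lit 0) (XT.lf (nat_lit 0) (nat_lit 13593165978) (nat_lit 252) (nat_lit 32946241564) (nat_lit 336) (nat_lit 18238042158) (nat_lit 40) (nat_lit 5) (nat_lit 43) (nat_lit 5) (nat_lit 44) (nat_lit 5) (nat_lit 398) (nat_lit 346) (nat_lit 120)) (XT.nd (nat_lit 94) (nat_lit 0) (nat_lit 0) (XT.lf (nat_lit 0) (nat_lit 36572651906) (nat_lit 252) (nat_lit 17661689789) (nat_lit 336) (nat_lit 12008875212) (nat_lit 40) (nat_lit 5) (nat_lit 43) (nat_lit 5) (nat_lit 44) (nat_lit 5) (nat_lit 399) (nat_lit 346) (nat_lit 119)) (XT.lf (nat_lit 0) (nat_lit 60263189822) (nat_lit 252) (nat_lit 1903642359) (nat_lit 336) (nat_lit 5587624009) (nat_lit 40) (nat_lit 5) (nat_lit 43) (nat_lit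 5) (nat_lit 44) (nat_lit 5) (nat_lit 400) (nat_lit 346) (nat_lit 118)))) (XT.nd (nat_lit 94) (nat_lit 0) (nat_lit 0) (XT.lf (nat_lit 0) (nat_lit 1310433373) (nat_lit 336) (nat_lit 53771445322) (nat_lit 84) (nat_lit 14221095007) (nat_lit 36) (nat_lit 5) (nat_lit 40) (nat_lit 5) (nat_lit 37) (nat_lit 5) (nat_lit 401) (nat_lit 346) (nat_lit 117)) (XT.nd (nat_lit 94) (nat_lit 0) (nat_lit 0) (XT.lf (nat_lit 0) (nat_lit 8403769258) (nat_lit 336) (nat_lit 31548959088) (nat_lit 84) (nat_lit 30941975075) (nat_lit 36) (nat_lit 5) (nat_lit 40) (nat_lit 5) (nat_lit 37) (nat_lit 5) (nat_lit 402) (nat_lit 346) (nat_lit 116)) (XT.lf (nat_lit 0) (nat_lit 15716071148) (nat_lit 336) (nat_lit 8638847107) (nat_lit 84) (nat_lit 48180889653) (nat_lit 36) (nat_lit 5) (nat_lit 40) (nat_lit 5) (nat_lit 37) (nat_lit 5) (nat_lit 403) (nat_lit 346) (nat_lit 115))))) (XT.nd (nat_lit 282) (nat_lit 252) (nat_lit 0)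 (XT.nd (nat_lit 94) (nat_lit 0) (nat_lit 0) (XT.lf (nat_lit 0) (nat_lit 15288269808) (nat_lit 252) (nat_lit 8117546596) (nat_lit 336) (nat_lit 50817298935) (nat_lit 33) (nat_lit 5) (nat_lit 36) (nat_lit 5) (nat_lit 37) (nat_lit 5) (nat_lit 404) (nat_lit 346) (nat_lit 114)) (XT.nd (nat_lit 94) (nat_lit 0) (nat_lit 0) (XT.lf (nat_lit 0) (nat_lit 31509692987) (nat_lit 336) (nat_lit 35907379862) (nat_lit 84) (nat_lit 8540210481) (nat_lit 33) (nat_lit 5) (nat_lit 37) (nat_lit 5) (nat_lit 34) (nat_lit 5) (nat_lit 405) (nat_lit 346) (nat_lit 113)) (XT.lf (nat_lit 0) (nat_lit 39946951930) (nat_lit 336) (nat_lit 12250295632) (nat_lit 84) (nat_lit 25545418128) (nat_lit 33) (nat_lit 5) (nat_lit 37) (nat_lit 5) (nat_lit 34) (nat_lit 5) (nat_lit 406) (nat_lit 346) (nat_lit 112)))) (XT.nd (nat_lit 94) (nat_lit 0) (nat_lit 0) (XT.lf (nat_lit 0) (nat_lit 12388587537) (nat_lit 252) (nat_lit 36379239361)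 (nat_lit 336) (nat_lit 30811786236) (nat_lit 30) (nat_lit 5) (nat_lit 33) (nat_lit 5) (nat_lit 34) (nat_lit 5) (nat_lit 407) (nat_lit 346) (nat_lit 111)) (XT.nd (nat_lit 94) (nat_lit 0) (nat_lit 0) (XT.lf (nat_lit 0) (nat_lit 38049814689) (nat_lit 252) (nat_lit 19939380535) (nat_lit 336) (nat_lit 23480374350) (nat_lit 30) (nat_lit 5) (nat_lit 33) (nat_lit 5) (nat_lit 34) (nat_lit 5) (nat_lit 408) (nat_lit 346) (nat_lit 110)) (XT.lf (nat_lit 0) (nat_lit 64505413573) (nat_lit 252) (nat_lit 2990215376) (nat_lit 336) (nat_lit 15922512420) (nat_lit 30) (nat_lit 5) (nat_lit 33) (nat_lit 5) (nat_lit 34) (nat_lit 5) (nat_lit 409) (nat_lit 346) (nat_lit 109))))))))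
noncomputable def xc205 : XT := (XT.nd (nat_lit 49538) (nat_lit 0) (nat_lit 3612) (XT.nd (nat_lit 48410) (nat_lit 0) (nat_lit 7728) (XT.nd (nat_lit 564) (nat_lit 168) (nat_lit 0) (XT.nd (nat_lit 282) (nat_lit 252) (nat_lit 0) (XT.nd (nat_lit 94) (nat_lit 84) (nat_lit 0) (XT.lf (nat_lit 0) (nat_lit 6336889371) (nat_lit 168) (nat_lit 71165646033) (nat_lit 252) (nat_lit 7918206449) (nat_lit 28) (nat_lit 5) (nat_lit 30) (nat_lit 5) (nat_lit 31) (nat_lit 5) (nat_lit 410) (nat_lit 346) (nat_lit 108)) (XT.nd (nat_lit 94) (nat_lit 0) (nat_lit 0) (XT.lf (nat_lit 0) (nat_lit 556737468) (nat_lit 252) (nat_lit 54746157835) (nat_lit 84) (nat_lit 32175320294) (nat_lit 27) (nat_lit 5) (nat_lit 30) (nat_lit 5) (nat_lit 28) (nat_lit 5) (nat_lit 411) (nat_lit 346) (nat_lit 107)) (XT.lf (nat_lit 0) (nat_lit 9129174641) (nat_lit 252) (nat_lit 29736067167) (nat_lit 84) (nat_lit 50731743718) (nat_lit 27)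 (nat_lit 5) (nat_lit 30) (nat_lit 5) (nat_lit 28) (nat_lit 5) (nat_lit 412) (nat_lit 346) (nat_lit 106)))) (XT.nd (nat_lit 94) (nat_lit 252) (nat_lit 0) (XT.lf (nat_lit 0) (nat_lit 17966629695) (nat_lit 252) (nat_lit 3951718868) (nat_lit 84) (nat_lit 69863113034) (nat_lit 27) (nat_lit 5) (nat_lit 30) (nat_lit 5) (nat_lit 28) (nat_lit 5) (nat_lit 413) (nat_lit 346) (nat_lit 105)) (XT.nd (nat_lit 94) (nat_lit 0) (nat_lit 0) (XT.lf (nat_lit 0) (nat_lit 23096258923) (nat_lit 252) (nat_lit 4210198887) (nat_lit 336) (nat_lit 66720119508) (nat_lit 24) (nat_lit 5) (nat_lit 27) (nat_lit 5) (nat_lit 28) (nat_lit 5) (nat_lit 414) (nat_lit 346) (nat_lit 104)) (XT.lf (nat_lit 0) (nat_lit 37116139545) (nat_lit 336) (nat_lit 45414316519) (nat_lit 84) (nat_lit 13805247285) (nat_lit 24) (nat_lit 5) (nat_lit 28) (nat_lit 5) (nat_lit 25) (nat_lit 5) (nat_lit 415) (nat_lit 346) (nat_lit 103))))) (XT.nd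 (nat_lit 282) (nat_lit 0) (nat_lit 0) (XT.nd (nat_lit 94) (nat_lit 168) (nat_lit 0) (XT.lf (nat_lit 0) (nat_lit 47272305045) (nat_lit 336) (nat_lit 19151381030) (nat_lit 84) (nat_lit 32291413885) (nat_lit 24) (nat_lit 5) (nat_lit 28) (nat_lit 5) (nat_lit 25) (nat_lit 5) (nat_lit 416) (nat_lit 346) (nat_lit 102)) (XT.nd (nat_lit 94) (nat_lit 0) (nat_lit 0) (XT.lf (nat_lit 0) (nat_lit 8087682347) (nat_lit 168) (nat_lit 49735203688) (nat_lit 252) (nat_lit 43342906544) (nat_lit 22) (nat_lit 5) (nat_lit 24) (nat_lit 5) (nat_lit 25) (nat_lit 5) (nat_lit 417) (nat_lit 346) (nat_lit 101)) (XT.lf (nat_lit 0) (nat_lit 36576193859) (nat_lit 168) (nat_lit 32323596062) (nat_lit 252) (nat_lit 34786491317) (nat_lit 22) (nat_lit 5) (nat_lit 24) (nat_lit 5) (nat_lit 25) (nat_lit 5) (nat_lit 418) (nat_lit 346) (nat_lit 100)))) (XT.nd (nat_lit 94) (nat_lit 0) (nat_lit 0) (XT.lf (nat_lit 0) (nat_lit 65946916108)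 (nat_lit 168) (nat_lit 14372534895) (nat_lit 252) (nat_lit 25965474902) (nat_lit 22) (nat_lit 5) (nat_lit 24) (nat_lit 5) (nat_lit 25) (nat_lit 5) (nat_lit 419) (nat_lit 346) (nat_lit 99)) (XT.nd (nat_lit 47376) (nat_lit 0) (nat_lit 7728) (XT.lf (nat_lit 0) (nat_lit 92133530458) (nat_lit 252) (nat_lit 12777939959) (nat_lit 84) (nat_lit 4051406847) (nat_lit 22) (nat_lit 5) (nat_lit 25) (nat_lit 5) (nat_lit 23) (nat_lit 5) (nat_lit 420) (nat_lit 346) (nat_lit 98)) (XT.lf (nat_lit 0) (nat_lit 2396479454) (nat_lit 0) (nat_lit 2396479454) (nat_lit 1092) (nat_lit 7761554468) (nat_lit 114) (nat_lit 5) (nat_lit 114) (nat_lit 3) (nat_lit 127) (nat_lit 3) (nat_lit 347) (nat_lit 347) (nat_lit 170)))))) (XT.nd (nat_lit 564) (nat_lit 0) (nat_lit 168) (XT.nd (nat_lit 282) (nat_lit 0) (nat_lit 84) (XT.nd (nat_lit 94) (nat_lit 0) (nat_lit 0) (XT.lf (nat_lit 0) (nat_lit 9874257929) (nat_lit 1092) (nat_lit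 10767184170) (nat_lit 1176) (nat_lit 4852102933) (nat_lit 114) (nat_lit 5) (nat_lit 127) (nat_lit 3) (nat_lit 128) (nat_lit 5) (nat_lit 348) (nat_lit 347) (nat_lit 169)) (XT.nd (nat_lit 94) (nat_lit 0) (nat_lit 0) (XT.lf (nat_lit 0) (nat_lit 10216923198) (nat_lit 1092) (nat_lit 973276892) (nat_lit 1176) (nat_lit 14698389967) (nat_lit 114) (nat_lit 5) (nat_lit 127) (nat_lit 3) (nat_lit 128) (nat_lit 5) (nat_lit 349) (nat_lit 347) (nat_lit 168)) (XT.lf (nat_lit 84) (nat_lit 9309903490) (nat_lit 0) (nat_lit 1349138186) (nat_lit 1176) (nat_lit 15634099308) (nat_lit 115) (nat_lit 5) (nat_lit 114) (nat_lit 5) (nat_lit 128) (nat_lit 5) (nat_lit 350) (nat_lit 347) (nat_lit 167)))) (XT.nd (nat_lit 94) (nat_lit 0) (nat_lit 0) (XT.lf (nat_lit 0) (nat_lit 11208973767) (nat_lit 1092) (nat_lit 6866821059) (nat_lit 1176) (nat_lit 8631533673) (nat_lit 115) (nat_lit 5) (nat_lit 128) (nat_lit 5) (nat_lit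 129) (nat_lit 5) (nat_lit 351) (nat_lit 347) (nat_lit 166)) (XT.nd (nat_lit 94) (nat_lit 0) (nat_lit 84) (XT.lf (nat_lit 84) (nat_lit 3620382138) (nat_lit 0) (nat_lit 8201965392) (nat_lit 1176) (nat_lit 15310582560) (nat_lit 116) (nat_lit 5) (nat_lit 115) (nat_lit 5) (nat_lit 129) (nat_lit 5) (nat_lit 352) (nat_lit 347) (nat_lit 165)) (XT.lf (nat_lit 0) (nat_lit 12543539965) (nat_lit 1092) (nat_lit 13013668048) (nat_lit 1176) (nat_lit 2011776485) (nat_lit 116) (nat_lit 5) (nat_lit 129) (nat_lit 5) (nat_lit 130) (nat_lit 5) (nat_lit 353) (nat_lit 347) (nat_lit 164))))) (XT.nd (nat_lit 282) (nat_lit 0) (nat_lit 84) (XT.nd (nat_lit 94) (nat_lit 0) (nat_lit 0) (XT.lf (nat_lit 0) (nat_lit 13367847127) (nat_lit 1092) (nat_lit 2275219070) (nat_lit 1176) (nat_lit 12372998637) (nat_lit 116) (nat_lit 5) (nat_lit 129) (nat_lit 5) (nat_lit 130) (nat_lit 5) (nat_lit 354) (nat_lit 347) (nat_lit 163))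 (XT.nd (nat_lit 94) (nat_lit 0) (nat_lit 84) (XT.lf (nat_lit 84) (nat_lit 8974999082) (nat_lit 0) (nat_lit 5328706862) (nat_lit 1176) (nat_lit 14170644150) (nat_lit 117) (nat_lit 5) (nat_lit 116) (nat_lit 5) (nat_lit 130) (nat_lit 5) (nat_lit 355) (nat_lit 347) (nat_lit 162)) (XT.lf (nat_lit 0) (nat_lit 15342245504) (nat_lit 1092) (nat_lit 8378814018) (nat_lit 1176) (nat_lit 5223509969) (nat_lit 117) (nat_lit 5) (nat_lit 130) (nat_lit 5) (nat_lit 131) (nat_lit 5) (nat_lit 356) (nat_lit 347) (nat_lit 161)))) (XT.nd (nat_lit 94) (nat_lit 0) (nat_lit 0) (XT.lf (nat_lit 84) (nat_lit 3092281088) (nat_lit 0) (nat_lit 13403010829) (nat_lit 1176) (nat_lit 12931532800) (nat_lit 118) (nat_lit 5) (nat_lit 117) (nat_lit 5) (nat_lit 131) (nat_lit 5) (nat_lit 357) (nat_lit 347) (nat_lit 160)) (XT.nd (nat_lit 94) (nat_lit 0) (nat_lit 84) (XT.lf (nat_lit 84) (nat_lit 15094645684) (nat_lit 0) (nat_lit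 2674097558) (nat_lit 1176) (nat_lit 12152672521) (nat_lit 118) (nat_lit 5) (nat_lit 117) (nat_lit 5) (nat_lit 131) (nat_lit 5) (nat_lit 358) (nat_lit 347) (nat_lit 159)) (XT.lf (nat_lit 0) (nat_lit 19162170714) (nat_lit 1092) (nat_lit 3047463892) (nat_lit 1176) (nat_lit 8219219124) (nat_lit 118) (nat_lit 5) (nat_lit 131) (nat_lit 5) (nat_lit 132) (nat_lit 5) (nat_lit 359) (nat_lit 347) (nat_lit 158))))))) (XT.nd (nat_lit 1128) (nat_lit 2352) (nat_lit 0) (XT.nd (nat_lit 564) (nat_lit 1176) (nat_lit 0) (XT.nd (nat_lit 282) (nat_lit 924) (nat_lit 0) (XT.nd (nat_lit 94) (nat_lit 0) (nat_lit 0) (XT.lf (nat_lit 84) (nat_lit 9254157804) (nat_lit 0) (nat_lit 11461165074) (nat_lit 1176) (nat_lit 10233096779) (nat_lit 119) (nat_lit 5) (nat_lit 118) (nat_lit 5) (nat_lit 132) (nat_lit 5) (nat_lit 360) (nat_lit 347) (nat_lit 157)) (XT.nd (nat_lit 94) (nat_lit 0) (nat_lit 84) (XT.lf (nat_lit 84) (nat_lit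 21999810172) (nat_lit 0) (nat_lit 346057983) (nat_lit 1176) (nat_lit 9137326840) (nat_lit 119) (nat_lit 5) (nat_lit 118) (nat_lit 5) (nat_lit 132) (nat_lit 5) (nat_lit 361) (nat_lit 347) (nat_lit 156)) (XT.lf (nat_lit 84) (nat_lit 3055381248) (nat_lit 0) (nat_lit 21109656676) (nat_lit 1176) (nat_lit 7865239227) (nat_lit 120) (nat_lit 5) (nat_lit 119) (nat_lit 5) (nat_lit 133) (nat_lit 5) (nat_lit 362) (nat_lit 347) (nat_lit 155)))) (XT.nd (nat_lit 94) (nat_lit 1008) (nat_lit 0) (XT.lf (nat_lit 84) (nat_lit 16178340730) (nat_lit 0) (nat_lit 9962326561) (nat_lit 1176) (nat_lit 6450558451) (nat_lit 120) (nat_lit 5) (nat_lit 119) (nat_lit 5) (nat_lit 133) (nat_lit 5) (nat_lit 363) (nat_lit 347) (nat_lit 154)) (XT.nd (nat_lit 94) (nat_lit 1092) (nat_lit 0) (XT.lf (nat_lit 0) (nat_lit 28190376942) (nat_lit 1092) (nat_lit 3478602159) (nat_lit 84) (nat_lit 1500195373) (nat_lit 120) (nat_lit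 5) (nat_lit 133) (nat_lit 5) (nat_lit 121) (nat_lit 5) (nat_lit 364) (nat_lit 347) (nat_lit 153)) (XT.lf (nat_lit 0) (nat_lit 9953383000) (nat_lit 1092) (nat_lit 20548597461) (nat_lit 1176) (nat_lit 3256918601) (nat_lit 107) (nat_lit 5) (nat_lit 120) (nat_lit 5) (nat_lit 121) (nat_lit 5) (nat_lit 365) (nat_lit 347) (nat_lit 152))))) (XT.nd (nat_lit 282) (nat_lit 588) (nat_lit 0) (XT.nd (nat_lit 94) (nat_lit 588) (nat_lit 0) (XT.lf (nat_lit 0) (nat_lit 23873615769) (nat_lit 1092) (nat_lit 9045710038) (nat_lit 1176) (nat_lit 1446530892) (nat_lit 107) (nat_lit 5) (nat_lit 120) (nat_lit 5) (nat_lit 121) (nat_lit 5) (nat_lit 366) (nat_lit 347) (nat_lit 151)) (XT.nd (nat_lit 94) (nat_lit 0) (nat_lit 0) (XT.lf (nat_lit 0) (nat_lit 470297279) (nat_lit 588) (nat_lit 31724793044) (nat_lit 84) (nat_lit 2794596016) (nat_lit 100) (nat_lit 5) (nat_lit 107) (nat_lit 5) (nat_lit 101) (nat_lit 5) (nat_lit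 367) (nat_lit 347) (nat_lit 150)) (XT.lf (nat_lit 0) (nat_lit 2617513089) (nat_lit 588) (nat_lit 18068903923) (nat_lit 84) (nat_lit 14939755044) (nat_lit 100) (nat_lit 5) (nat_lit 107) (nat_lit 5) (nat_lit 101) (nat_lit 5) (nat_lit 368) (nat_lit 347) (nat_lit 149)))) (XT.nd (nat_lit 94) (nat_lit 588) (nat_lit 0) (XT.lf (nat_lit 0) (nat_lit 4829216836) (nat_lit 588) (nat_lit 3991565747) (nat_lit 84) (nat_lit 27461677794) (nat_lit 100) (nat_lit 5) (nat_lit 107) (nat_lit 5) (nat_lit 101) (nat_lit 5) (nat_lit 369) (nat_lit 347) (nat_lit 148)) (XT.nd (nat_lit 94) (nat_lit 0) (nat_lit 0) (XT.lf (nat_lit 0) (nat_lit 7248924542) (nat_lit 672) (nat_lit 26254143845) (nat_lit 84) (nat_lit 3451709555) (nat_lit 93) (nat_lit 5) (nat_lit 101) (nat_lit 5) (nat_lit 94) (nat_lit 5) (nat_lit 370) (nat_lit 347) (nat_lit 147)) (XT.lf (nat_lit 0) (nat_lit 9873979792) (nat_lit 672) (nat_lit 11806254372) (nat_lit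 84) (nat_lit 15963669522) (nat_lit 93) (nat_lit 5) (nat_lit 101) (nat_lit 5) (nat_lit 94) (nat_lit 5) (nat_lit 371) (nat_lit 347) (nat_lit 146)))))) (XT.nd (nat_lit 564) (nat_lit 924) (nat_lit 0) (XT.nd (nat_lit 282) (nat_lit 924) (nat_lit 0) (XT.nd (nat_lit 94) (nat_lit 0) (nat_lit 0) (XT.lf (nat_lit 0) (nat_lit 3151187691) (nat_lit 504) (nat_lit 9458574311) (nat_lit 588) (nat_lit 25743727038) (nat_lit 87) (nat_lit 5) (nat_lit 93) (nat_lit 5) (nat_lit 94) (nat_lit 5) (nat_lit 372) (nat_lit 347) (nat_lit 145)) (XT.nd (nat_lit 94) (nat_lit 0) (nat_lit 0) (XT.lf (nat_lit 0) (nat_lit 15584145816) (nat_lit 588) (nat_lit 20292951427) (nat_lit 84) (nat_lit 3203213104) (nat_lit 87) (nat_lit 5) (nat_lit 94) (nat_lit 5) (nat_lit 88) (nat_lit 5) (nat_lit 373) (nat_lit 347) (nat_lit 144)) (XT.lf (nat_lit 0) (nat_lit 18745660997) (nat_lit 588) (nat_lit 5019962427) (nat_lit 84) (nat_lit 16061103179)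 (nat_lit 87) (nat_lit 5) (nat_lit 94) (nat_lit 5) (nat_lit 88) (nat_lit 5) (nat_lit 374) (nat_lit 347) (nat_lit 143)))) (XT.nd (nat_lit 94) (nat_lit 420) (nat_lit 0) (XT.lf (nat_lit 0) (nat_lit 10945254386) (nat_lit 504) (nat_lit 11166748073) (nat_lit 588) (nat_lit 18480973898) (nat_lit 81) (nat_lit 5) (nat_lit 87) (nat_lit 5) (nat_lit 88) (nat_lit 5) (nat_lit 375) (nat_lit 347) (nat_lit 142)) (XT.nd (nat_lit 94) (nat_lit 420) (nat_lit 0) (XT.lf (nat_lit 0) (nat_lit 25651992368) (nat_lit 588) (nat_lit 13889957884) (nat_lit 84) (nat_lit 1838887368) (nat_lit 81) (nat_lit 5) (nat_lit 88) (nat_lit 5) (nat_lit 82) (nat_lit 5) (nat_lit 376) (nat_lit 347) (nat_lit 141)) (XT.lf (nat_lit 0) (nat_lit 2286408836) (nat_lit 420) (nat_lit 27150532475) (nat_lit 504) (nat_lit 12751995108) (nat_lit 76) (nat_lit 5) (nat_lit 81) (nat_lit 5) (nat_lit 82) (nat_lit 5) (nat_lit 377) (nat_lit 347) (nat_lit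 140))))) (XT.nd (nat_lit 282) (nat_lit 504) (nat_lit 0) (XT.nd (nat_lit 94) (nat_lit 420) (nat_lit 0) (XT.lf (nat_lit 0) (nat_lit 19256975863) (nat_lit 420) (nat_lit 14225591940) (nat_lit 504) (nat_lit 9535080278) (nat_lit 76) (nat_lit 5) (nat_lit 81) (nat_lit 5) (nat_lit 82) (nat_lit 5) (nat_lit 378) (nat_lit 347) (nat_lit 139)) (XT.nd (nat_lit 94) (nat_lit 420) (nat_lit 0) (XT.lf (nat_lit 0) (nat_lit 36751955521) (nat_lit 420) (nat_lit 900063922) (nat_lit 504) (nat_lit 6220084934) (nat_lit 76) (nat_lit 5) (nat_lit 81) (nat_lit 5) (nat_lit 82) (nat_lit 5) (nat_lit 379) (nat_lit 347) (nat_lit 138)) (XT.lf (nat_lit 0) (nat_lit 10110906206) (nat_lit 420) (nat_lit 32065937065) (nat_lit 504) (nat_lit 2569200995) (nat_lit 71) (nat_lit 5) (nat_lit 76) (nat_lit 5) (nat_lit 77) (nat_lit 5) (nat_lit 380) (nat_lit 347) (nat_lit 137)))) (XT.nd (nat_lit 94) (nat_lit 420) (nat_lit 0) (XT.lf (nat_lit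 0) (nat_lit 1253539216) (nat_lit 504) (nat_lit 17641219879) (nat_lit 84) (nat_lit 26749389257) (nat_lit 70) (nat_lit 5) (nat_lit 76) (nat_lit 5) (nat_lit 71) (nat_lit 5) (nat_lit 381) (nat_lit 347) (nat_lit 136)) (XT.nd (nat_lit 94) (nat_lit 420) (nat_lit 0) (XT.lf (nat_lit 0) (nat_lit 5139929352) (nat_lit 504) (nat_lit 148412191) (nat_lit 84) (nat_lit 41280988319) (nat_lit 70) (nat_lit 5) (nat_lit 76) (nat_lit 5) (nat_lit 71) (nat_lit 5) (nat_lit 382) (nat_lit 347) (nat_lit 135)) (XT.lf (nat_lit 0) (nat_lit 9414976993) (nat_lit 504) (nat_lit 29353348331) (nat_lit 84) (nat_lit 8746557668) (nat_lit 65) (nat_lit 5) (nat_lit 71) (nat_lit 5) (nat_lit 66) (nat_lit 5) (nat_lit 383) (nat_lit 347) (nat_lit 134))))))))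
noncomputable def xc206 : XT := (XT.nd (nat_lit 2256) (nat_lit 924) (nat_lit 0) (XT.nd (nat_lit 1128) (nat_lit 1176) (nat_lit 0) (XT.nd (nat_lit 564) (nat_lit 756) (nat_lit 0) (XT.nd (nat_lit 282) (nat_lit 336) (nat_lit 0) (XT.nd (nat_lit 94) (nat_lit 420) (nat_lit 0) (XT.lf (nat_lit 0) (nat_lit 13876787445) (nat_lit 504) (nat_lit 11503193333) (nat_lit 84) (nat_lit 23108090579) (nat_lit 65) (nat_lit 5) (nat_lit 71) (nat_lit 5) (nat_lit 66) (nat_lit 5) (nat_lit 384) (nat_lit 347) (nat_lit 133)) (XT.nd (nat_lit 94) (nat_lit 0) (nat_lit 0) (XT.lf (nat_lit 0) (nat_lit 7040591512) (nat_lit 420) (nat_lit 11504792699) (nat_lit 504) (nat_lit 30943926059) (nat_lit 60) (nat_lit 5) (nat_lit 65) (nat_lit 5) (nat_lit 66) (nat_lit 5) (nat_lit 385) (nat_lit 347) (nat_lit 132)) (XT.lf (nat_lit 0) (nat_lit 23506437160) (nat_lit 504) (nat_lit 24145384709) (nat_lit 84) (nat_lit 2865190254) (nat_lit 60)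 (nat_lit 5) (nat_lit 66) (nat_lit 5) (nat_lit 61) (nat_lit 5) (nat_lit 386) (nat_lit 347) (nat_lit 131)))) (XT.nd (nat_lit 94) (nat_lit 336) (nat_lit 0) (XT.lf (nat_lit 0) (nat_lit 28737640635) (nat_lit 504) (nat_lit 5393871036) (nat_lit 84) (nat_lit 17441457997) (nat_lit 60) (nat_lit 5) (nat_lit 66) (nat_lit 5) (nat_lit 61) (nat_lit 5) (nat_lit 387) (nat_lit 347) (nat_lit 130)) (XT.nd (nat_lit 94) (nat_lit 0) (nat_lit 0) (XT.lf (nat_lit 0) (nat_lit 14224011739) (nat_lit 336) (nat_lit 20046833918) (nat_lit 420) (nat_lit 18386485290) (nat_lit 56) (nat_lit 5) (nat_lit 60) (nat_lit 5) (nat_lit 61) (nat_lit 5) (nat_lit 388) (nat_lit 347) (nat_lit 129)) (XT.lf (nat_lit 0) (nat_lit 34562901442) (nat_lit 336) (nat_lit 5467733174) (nat_lit 420) (nat_lit 13742969905) (nat_lit 56) (nat_lit 5) (nat_lit 60) (nat_lit 5) (nat_lit 61) (nat_lit 5) (nat_lit 389) (nat_lit 347) (nat_lit 128))))) (XT.nd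 (nat_lit 282) (nat_lit 336) (nat_lit 0) (XT.nd (nat_lit 94) (nat_lit 84) (nat_lit 0) (XT.lf (nat_lit 0) (nat_lit 521972929) (nat_lit 336) (nat_lit 45545840174) (nat_lit 420) (nat_lit 8853609234) (nat_lit 52) (nat_lit 5) (nat_lit 56) (nat_lit 5) (nat_lit 57) (nat_lit 5) (nat_lit 390) (nat_lit 347) (nat_lit 127)) (XT.nd (nat_lit 94) (nat_lit 84) (nat_lit 0) (XT.lf (nat_lit 0) (nat_lit 21215073363) (nat_lit 336) (nat_lit 31331757509) (nat_lit 420) (nat_lit 3550099909) (nat_lit 52) (nat_lit 5) (nat_lit 56) (nat_lit 5) (nat_lit 57) (nat_lit 5) (nat_lit 391) (nat_lit 347) (nat_lit 126)) (XT.lf (nat_lit 0) (nat_lit 1878009539) (nat_lit 420) (nat_lit 14779701583) (nat_lit 84) (nat_lit 40650618683) (nat_lit 51) (nat_lit 5) (nat_lit 56) (nat_lit 5) (nat_lit 52) (nat_lit 5) (nat_lit 392) (nat_lit 347) (nat_lit 125)))) (XT.nd (nat_lit 94) (nat_lit 0) (nat_lit 0) (XT.lf (nat_lit 0) (nat_lit 6029377720)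 (nat_lit 336) (nat_lit 1429947152) (nat_lit 420) (nat_lit 51095015964) (nat_lit 47) (nat_lit 5) (nat_lit 51) (nat_lit 5) (nat_lit 52) (nat_lit 5) (nat_lit 393) (nat_lit 347) (nat_lit 124)) (XT.nd (nat_lit 94) (nat_lit 0) (nat_lit 0) (XT.lf (nat_lit 0) (nat_lit 13509951158) (nat_lit 420) (nat_lit 32181905490) (nat_lit 84) (nat_lit 14137939723) (nat_lit 47) (nat_lit 5) (nat_lit 52) (nat_lit 5) (nat_lit 48) (nat_lit 5) (nat_lit 394) (nat_lit 347) (nat_lit 123)) (XT.lf (nat_lit 0) (nat_lit 19761689056) (nat_lit 420) (nat_lit 11224228242) (nat_lit 84) (nat_lit 30158456983) (nat_lit 47) (nat_lit 5) (nat_lit 52) (nat_lit 5) (nat_lit 48) (nat_lit 5) (nat_lit 395) (nat_lit 347) (nat_lit 122)))))) (XT.nd (nat_lit 564) (nat_lit 588) (nat_lit 0) (XT.nd (nat_lit 282) (nat_lit 252) (nat_lit 0) (XT.nd (nat_lit 94) (nat_lit 0) (nat_lit 0) (XT.lf (nat_lit 0) (nat_lit 10595259497) (nat_lit 336) (nat_lit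 15716027376) (nat_lit 420) (nat_lit 36185194464) (nat_lit 43) (nat_lit 5) (nat_lit 47) (nat_lit 5) (nat_lit 48) (nat_lit 5) (nat_lit 396) (nat_lit 347) (nat_lit 121)) (XT.nd (nat_lit 94) (nat_lit 0) (nat_lit 0) (XT.lf (nat_lit 0) (nat_lit 33181513607) (nat_lit 420) (nat_lit 30560607671) (nat_lit 84) (nat_lit 144739983) (nat_lit 43) (nat_lit 5) (nat_lit 48) (nat_lit 5) (nat_lit 44) (nat_lit 5) (nat_lit 397) (nat_lit 347) (nat_lit 120)) (XT.lf (nat_lit 0) (nat_lit 40424451570) (nat_lit 420) (nat_lit 8720497945) (nat_lit 84) (nat_lit 16170444480) (nat_lit 43) (nat_lit 5) (nat_lit 48) (nat_lit 5) (nat_lit 44) (nat_lit 5) (nat_lit 398) (nat_lit 347) (nat_lit 119)))) (XT.nd (nat_lit 94) (nat_lit 0) (nat_lit 0) (XT.lf (nat_lit 0) (nat_lit 14079030635) (nat_lit 252) (nat_lit 33951582095) (nat_lit 336) (nat_lit 18753301768) (nat_lit 40) (nat_lit 5) (nat_lit 43) (nat_lit 5) (nat_lit 44) (nat_lit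 5) (nat_lit 399) (nat_lit 347) (nat_lit 118)) (XT.nd (nat_lit 94) (nat_lit 0) (nat_lit 0) (XT.lf (nat_lit 0) (nat_lit 37768941953) (nat_lit 252) (nat_lit 18193690089) (nat_lit 336) (nat_lit 12332537641) (nat_lit 40) (nat_lit 5) (nat_lit 43) (nat_lit 5) (nat_lit 44) (nat_lit 5) (nat_lit 400) (nat_lit 347) (nat_lit 117)) (XT.lf (nat_lit 0) (nat_lit 62192006164) (nat_lit 252) (nat_lit 1947609605) (nat_lit 336) (nat_lit 5713689332) (nat_lit 40) (nat_lit 5) (nat_lit 43) (nat_lit 5) (nat_lit 44) (nat_lit 5) (nat_lit 401) (nat_lit 347) (nat_lit 116))))) (XT.nd (nat_lit 282) (nat_lit 252) (nat_lit 0) (XT.nd (nat_lit 94) (nat_lit 0) (nat_lit 0) (XT.lf (nat_lit 0) (nat_lit 1396630439) (nat_lit 336) (nat_lit 55375885934) (nat_lit 84) (nat_lit 14677318884) (nat_lit 36) (nat_lit 5) (nat_lit 40) (nat_lit 5) (nat_lit 37) (nat_lit 5) (nat_lit 402) (nat_lit 347) (nat_lit 115)) (XT.nd (nat_lit 94) (nat_lit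 0) (nat_lit 0) (XT.lf (nat_lit 0) (nat_lit 8708489433) (nat_lit 336) (nat_lit 32466381093) (nat_lit 84) (nat_lit 31916084093) (nat_lit 36) (nat_lit 5) (nat_lit 40) (nat_lit 5) (nat_lit 37) (nat_lit 5) (nat_lit 403) (nat_lit 347) (nat_lit 114)) (XT.lf (nat_lit 0) (nat_lit 16246143581) (nat_lit 336) (nat_lit 8847877627) (nat_lit 84) (nat_lit 49688956777) (nat_lit 36) (nat_lit 5) (nat_lit 40) (nat_lit 5) (nat_lit 37) (nat_lit 5) (nat_lit 404) (nat_lit 347) (nat_lit 113)))) (XT.nd (nat_lit 94) (nat_lit 0) (nat_lit 0) (XT.lf (nat_lit 0) (nat_lit 15820384881) (nat_lit 252) (nat_lit 8353174061) (nat_lit 336) (nat_lit 52349058410) (nat_lit 33) (nat_lit 5) (nat_lit 36) (nat_lit 5) (nat_lit 37) (nat_lit 5) (nat_lit 405) (nat_lit 347) (nat_lit 112)) (XT.nd (nat_lit 94) (nat_lit 0) (nat_lit 0) (XT.lf (nat_lit 0) (nat_lit 32527542078) (nat_lit 336) (nat_lit 36962861319) (nat_lit 84) (nat_lit 8820178910)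 (nat_lit 33) (nat_lit 5) (nat_lit 37) (nat_lit 5) (nat_lit 34) (nat_lit 5) (nat_lit 406) (nat_lit 347) (nat_lit 111)) (XT.lf (nat_lit 0) (nat_lit 41225121803) (nat_lit 336) (nat_lit 12574140811) (nat_lit 84) (nat_lit 26352090303) (nat_lit 33) (nat_lit 5) (nat_lit 37) (nat_lit 5) (nat_lit 34) (nat_lit 5) (nat_lit 407) (nat_lit 347) (nat_lit 110))))))) (XT.nd (nat_lit 1128) (nat_lit 0) (nat_lit 0) (XT.nd (nat_lit 564) (nat_lit 420) (nat_lit 0) (XT.nd (nat_lit 282) (nat_lit 252) (nat_lit 0) (XT.nd (nat_lit 94) (nat_lit 0) (nat_lit 0) (XT.lf (nat_lit 0) (nat_lit 12827981657) (nat_lit 252) (nat_lit 37490814162) (nat_lit 336) (nat_lit 31726473045) (nat_lit 30) (nat_lit 5) (nat_lit 33) (nat_lit 5) (nat_lit 34) (nat_lit 5) (nat_lit 408) (nat_lit 347) (nat_lit 109)) (XT.nd (nat_lit 94) (nat_lit 0) (nat_lit 0) (XT.lf (nat_lit 0) (nat_lit 39283042656) (nat_lit 252) (nat_lit 20541806260) (nat_lit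 336) (nat_lit 24169004496) (nat_lit 30) (nat_lit 5) (nat_lit 33) (nat_lit 5) (nat_lit 34) (nat_lit 5) (nat_lit 409) (nat_lit 347) (nat_lit 108)) (XT.lf (nat_lit 0) (nat_lit 66557150948) (nat_lit 252) (nat_lit 3067688898) (nat_lit 336) (nat_lit 16378029356) (nat_lit 30) (nat_lit 5) (nat_lit 33) (nat_lit 5) (nat_lit 34) (nat_lit 5) (nat_lit 410) (nat_lit 347) (nat_lit 107)))) (XT.nd (nat_lit 94) (nat_lit 84) (nat_lit 0) (XT.lf (nat_lit 0) (nat_lit 6585947902) (nat_lit 168) (nat_lit 73355573029) (nat_lit 252) (nat_lit 8126045771) (nat_lit 28) (nat_lit 5) (nat_lit 30) (nat_lit 5) (nat_lit 31) (nat_lit 5) (nat_lit 411) (nat_lit 347) (nat_lit 106)) (XT.nd (nat_lit 94) (nat_lit 0) (nat_lit 0) (XT.lf (nat_lit 0) (nat_lit 609754832) (nat_lit 252) (nat_lit 56391436289) (nat_lit 84) (nat_lit 33187656414) (nat_lit 27) (nat_lit 5) (nat_lit 30) (nat_lit 5) (nat_lit 28) (nat_lit 5) (nat_lit 412) (nat_lit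 347) (nat_lit 105)) (XT.lf (nat_lit 0) (nat_lit 9446862375) (nat_lit 252) (nat_lit 30607591904) (nat_lit 84) (nat_lit 52318880917) (nat_lit 27) (nat_lit 5) (nat_lit 30) (nat_lit 5) (nat_lit 28) (nat_lit 5) (nat_lit 413) (nat_lit 347) (nat_lit 104))))) (XT.nd (nat_lit 282) (nat_lit 168) (nat_lit 0) (XT.nd (nat_lit 94) (nat_lit 252) (nat_lit 0) (XT.lf (nat_lit 0) (nat_lit 18557235681) (nat_lit 252) (nat_lit 4025441022) (nat_lit 84) (nat_lit 72042888107) (nat_lit 27) (nat_lit 5) (nat_lit 30) (nat_lit 5) (nat_lit 28) (nat_lit 5) (nat_lit 414) (nat_lit 347) (nat_lit 103)) (XT.nd (nat_lit 94) (nat_lit 0) (nat_lit 0) (XT.lf (nat_lit 0) (nat_lit 23860530214) (nat_lit 252) (nat_lit 4325535770) (nat_lit 336) (nat_lit 68754232023) (nat_lit 24) (nat_lit 5) (nat_lit 27) (nat_lit 5) (nat_lit 28) (nat_lit 5) (nat_lit 415) (nat_lit 347) (nat_lit 102)) (XT.lf (nat_lit 0) (nat_lit 38298998420) (nat_lit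 336) (nat_lit 46774400980) (nat_lit 84) (nat_lit 14247636191) (nat_lit 24) (nat_lit 5) (nat_lit 28) (nat_lit 5) (nat_lit 25) (nat_lit 5) (nat_lit 416) (nat_lit 347) (nat_lit 101)))) (XT.nd (nat_lit 94) (nat_lit 168) (nat_lit 0) (XT.lf (nat_lit 0) (nat_lit 48769035103) (nat_lit 336) (nat_lit 19698750514) (nat_lit 84) (nat_lit 33306440189) (nat_lit 24) (nat_lit 5) (nat_lit 28) (nat_lit 5) (nat_lit 25) (nat_lit 5) (nat_lit 417) (nat_lit 347) (nat_lit 100)) (XT.nd (nat_lit 94) (nat_lit 0) (nat_lit 0) (XT.lf (nat_lit 0) (nat_lit 8384254846) (nat_lit 168) (nat_lit 51261943356) (nat_lit 252) (nat_lit 44654708930) (nat_lit 22) (nat_lit 5) (nat_lit 24) (nat_lit 5) (nat_lit 25) (nat_lit 5) (nat_lit 418) (nat_lit 347) (nat_lit 99)) (XT.lf (nat_lit 0) (nat_lit 37754531471) (nat_lit 168) (nat_lit 33311028465) (nat_lit 252) (nat_lit 35834001824) (nat_lit 22) (nat_lit 5) (nat_lit 24) (nat_lit 5) (nat_lit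 25) (nat_lit 5) (nat_lit 419) (nat_lit 347) (nat_lit 98)))))) (XT.nd (nat_lit 47940) (nat_lit 0) (nat_lit 7812) (XT.nd (nat_lit 47658) (nat_lit 0) (nat_lit 7728) (XT.nd (nat_lit 47470) (nat_lit 0) (nat_lit 7728) (XT.lf (nat_lit 0) (nat_lit 68034408822) (nat_lit 168) (nat_lit 14803923365) (nat_lit 252) (nat_lit 26740462117) (nat_lit 22) (nat_lit 5) (nat_lit 24) (nat_lit 5) (nat_lit 25) (nat_lit 5) (nat_lit 420) (nat_lit 347) (nat_lit 97)) (XT.nd (nat_lit 94) (nat_lit 0) (nat_lit 0) (XT.lf (nat_lit 0) (nat_lit 2515638361) (nat_lit 0) (nat_lit 2515638361) (nat_lit 1092) (nat_lit 7909308987) (nat_lit 114) (nat_lit 5) (nat_lit 114) (nat_lit 3) (nat_lit 127) (nat_lit 3) (nat_lit 348) (nat_lit 348) (nat_lit 168)) (XT.lf (nat_lit 0) (nat_lit 10353572322) (nat_lit 1092) (nat_lit 11007017856) (nat_lit 1176) (nat_lit 4917233831) (nat_lit 114) (nat_lit 5) (nat_lit 127) (nat_lit 3) (nat_lit 128)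 (nat_lit 5) (nat_lit 349) (nat_lit 348) (nat_lit 167)))) (XT.nd (nat_lit 94) (nat_lit 0) (nat_lit 0) (XT.lf (nat_lit 0) (nat_lit 10701652083) (nat_lit 1092) (nat_lit 912324302) (nat_lit 1176) (nat_lit 15071320082) (nat_lit 114) (nat_lit 5) (nat_lit 127) (nat_lit 3) (nat_lit 128) (nat_lit 5) (nat_lit 350) (nat_lit 348) (nat_lit 166)) (XT.nd (nat_lit 94) (nat_lit 0) (nat_lit 84) (XT.lf (nat_lit 84) (nat_lit 9688712121) (nat_lit 0) (nat_lit 1464607389) (nat_lit 1176) (nat_lit 15949216817) (nat_lit 115) (nat_lit 5) (nat_lit 114) (nat_lit 5) (nat_lit 128) (nat_lit 5) (nat_lit 351) (nat_lit 348) (nat_lit 165)) (XT.lf (nat_lit 0) (nat_lit 11714664336) (nat_lit 1092) (nat_lit 6985973572) (nat_lit 1176) (nat_lit 8829118862) (nat_lit 115) (nat_lit 5) (nat_lit 128) (nat_lit 5) (nat_lit 129) (nat_lit 5) (nat_lit 352) (nat_lit 348) (nat_lit 164))))) (XT.nd (nat_lit 282) (nat_lit 0) (nat_lit 84) (XT.nd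 (nat_lit 94) (nat_lit 0) (nat_lit 84) (XT.lf (nat_lit 84) (nat_lit 3825384104) (nat_lit 0) (nat_lit 8517831759) (nat_lit 1176) (nat_lit 15625472959) (nat_lit 116) (nat_lit 5) (nat_lit 115) (nat_lit 5) (nat_lit 129) (nat_lit 5) (nat_lit 353) (nat_lit 348) (nat_lit 163)) (XT.nd (nat_lit 94) (nat_lit 0) (nat_lit 0) (XT.lf (nat_lit 0) (nat_lit 13081530757) (nat_lit 1092) (nat_lit 13321317407) (nat_lit 1176) (nat_lit 2015592354) (nat_lit 116) (nat_lit 5) (nat_lit 129) (nat_lit 5) (nat_lit 130) (nat_lit 5) (nat_lit 354) (nat_lit 348) (nat_lit 162)) (XT.lf (nat_lit 0) (nat_lit 13926907083) (nat_lit 1092) (nat_lit 2252856244) (nat_lit 1176) (nat_lit 12699772844) (nat_lit 116) (nat_lit 5) (nat_lit 129) (nat_lit 5) (nat_lit 130) (nat_lit 5) (nat_lit 355) (nat_lit 348) (nat_lit 161)))) (XT.nd (nat_lit 94) (nat_lit 0) (nat_lit 84) (XT.lf (nat_lit 84) (nat_lit 9345178196) (nat_lit 0) (nat_lit 5543162002)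 (nat_lit 1176) (nat_lit 14463810940) (nat_lit 117) (nat_lit 5) (nat_lit 116) (nat_lit 5) (nat_lit 130) (nat_lit 5) (nat_lit 356) (nat_lit 348) (nat_lit 160)) (XT.nd (nat_lit 94) (nat_lit 0) (nat_lit 0) (XT.lf (nat_lit 0) (nat_lit 15954354292) (nat_lit 1092) (nat_lit 8544137594) (nat_lit 1176) (nat_lit 5338617593) (nat_lit 117) (nat_lit 5) (nat_lit 130) (nat_lit 5) (nat_lit 131) (nat_lit 5) (nat_lit 357) (nat_lit 348) (nat_lit 159)) (XT.lf (nat_lit 84) (nat_lit 3281605547) (nat_lit 0) (nat_lit 13858362527) (nat_lit 1176) (nat_lit 13194460373) (nat_lit 118) (nat_lit 5) (nat_lit 117) (nat_lit 5) (nat_lit 131) (nat_lit 5) (nat_lit 358) (nat_lit 348) (nat_lit 158))))))))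
noncomputable def xc207 : XT := (XT.nd (nat_lit 2256) (nat_lit 3108) (nat_lit 0) (XT.nd (nat_lit 1128) (nat_lit 2520) (nat_lit 0) (XT.nd (nat_lit 564) (nat_lit 1428) (nat_lit 0) (XT.nd (nat_lit 282) (nat_lit 0) (nat_lit 84) (XT.nd (nat_lit 94) (nat_lit 0) (nat_lit 84) (XT.lf (nat_lit 84) (nat_lit 15653233187) (nat_lit 0) (nat_lit 2795654488) (nat_lit 1176) (nat_lit 12395603290) (nat_lit 118) (nat_lit 5) (nat_lit 117) (nat_lit 5) (nat_lit 131) (nat_lit 5) (nat_lit 359) (nat_lit 348) (nat_lit 157)) (XT.nd (nat_lit 94) (nat_lit 0) (nat_lit 0) (XT.lf (nat_lit 0) (nat_lit 19881251237) (nat_lit 1092) (nat_lit 3049281843) (nat_lit 1176) (nat_lit 8437272924) (nat_lit 118) (nat_lit 5) (nat_lit 131) (nat_lit 5) (nat_lit 132) (nat_lit 5) (nat_lit 360) (nat_lit 348) (nat_lit 156)) (XT.lf (nat_lit 84) (nat_lit 9632752092) (nat_lit 0) (nat_lit 11846948766) (nat_lit 1176) (nat_lit 10423879973) (nat_lit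 119) (nat_lit 5) (nat_lit 118) (nat_lit 5) (nat_lit 132) (nat_lit 5) (nat_lit 361) (nat_lit 348) (nat_lit 155)))) (XT.nd (nat_lit 94) (nat_lit 0) (nat_lit 84) (XT.lf (nat_lit 84) (nat_lit 22770761995) (nat_lit 0) (nat_lit 386356658) (nat_lit 1176) (nat_lit 9297943034) (nat_lit 119) (nat_lit 5) (nat_lit 118) (nat_lit 5) (nat_lit 132) (nat_lit 5) (nat_lit 362) (nat_lit 348) (nat_lit 154)) (XT.nd (nat_lit 94) (nat_lit 0) (nat_lit 0) (XT.lf (nat_lit 84) (nat_lit 3242516253) (nat_lit 0) (nat_lit 21787234800) (nat_lit 1176) (nat_lit 7989456386) (nat_lit 120) (nat_lit 5) (nat_lit 119) (nat_lit 5) (nat_lit 133) (nat_lit 5) (nat_lit 363) (nat_lit 348) (nat_lit 153)) (XT.lf (nat_lit 84) (nat_lit 16769508658) (nat_lit 0) (nat_lit 10293640515) (nat_lit 1176) (nat_lit 6534516785) (nat_lit 120) (nat_lit 5) (nat_lit 119) (nat_lit 5) (nat_lit 133) (nat_lit 5) (nat_lit 364) (nat_lit 348) (nat_lit 152)))))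 (XT.nd (nat_lit 282) (nat_lit 588) (nat_lit 0) (XT.nd (nat_lit 94) (nat_lit 1092) (nat_lit 0) (XT.lf (nat_lit 0) (nat_lit 29172812259) (nat_lit 1092) (nat_lit 3495507526) (nat_lit 84) (nat_lit 1525334920) (nat_lit 120) (nat_lit 5) (nat_lit 133) (nat_lit 5) (nat_lit 121) (nat_lit 5) (nat_lit 365) (nat_lit 348) (nat_lit 151)) (XT.nd (nat_lit 94) (nat_lit 0) (nat_lit 0) (XT.lf (nat_lit 0) (nat_lit 10351948575) (nat_lit 1092) (nat_lit 21201756451) (nat_lit 1176) (nat_lit 3248041229) (nat_lit 107) (nat_lit 5) (nat_lit 120) (nat_lit 5) (nat_lit 121) (nat_lit 5) (nat_lit 366) (nat_lit 348) (nat_lit 150)) (XT.lf (nat_lit 0) (nat_lit 24701002128) (nat_lit 1092) (nat_lit 9341793848) (nat_lit 1176) (nat_lit 1384834214) (nat_lit 107) (nat_lit 5) (nat_lit 120) (nat_lit 5) (nat_lit 121) (nat_lit 5) (nat_lit 367) (nat_lit 348) (nat_lit 149)))) (XT.nd (nat_lit 94) (nat_lit 0) (nat_lit 0) (XT.lf (nat_lit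 0) (nat_lit 586880959) (nat_lit 588) (nat_lit 32615704331) (nat_lit 84) (nat_lit 2868265491) (nat_lit 100) (nat_lit 5) (nat_lit 107) (nat_lit 5) (nat_lit 101) (nat_lit 5) (nat_lit 368) (nat_lit 348) (nat_lit 148)) (XT.nd (nat_lit 94) (nat_lit 0) (nat_lit 0) (XT.lf (nat_lit 0) (nat_lit 2797593400) (nat_lit 588) (nat_lit 18539265651) (nat_lit 84) (nat_lit 15390314219) (nat_lit 100) (nat_lit 5) (nat_lit 107) (nat_lit 5) (nat_lit 101) (nat_lit 5) (nat_lit 369) (nat_lit 348) (nat_lit 147)) (XT.lf (nat_lit 0) (nat_lit 5074885123) (nat_lit 588) (nat_lit 4028229315) (nat_lit 84) (nat_lit 28300794625) (nat_lit 100) (nat_lit 5) (nat_lit 107) (nat_lit 5) (nat_lit 101) (nat_lit 5) (nat_lit 370) (nat_lit 348) (nat_lit 146)))))) (XT.nd (nat_lit 564) (nat_lit 924) (nat_lit 0) (XT.nd (nat_lit 282) (nat_lit 504) (nat_lit 0) (XT.nd (nat_lit 94) (nat_lit 504) (nat_lit 0) (XT.lf (nat_lit 0) (nat_lit 7567496655)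 (nat_lit 672) (nat_lit 26978517480) (nat_lit 84) (nat_lit 3551129663) (nat_lit 93) (nat_lit 5) (nat_lit 101) (nat_lit 5) (nat_lit 94) (nat_lit 5) (nat_lit 371) (nat_lit 348) (nat_lit 145)) (XT.nd (nat_lit 94) (nat_lit 504) (nat_lit 0) (XT.lf (nat_lit 0) (nat_lit 10271106583) (nat_lit 672) (nat_lit 12085434656) (nat_lit 84) (nat_lit 16451188390) (nat_lit 93) (nat_lit 5) (nat_lit 101) (nat_lit 5) (nat_lit 94) (nat_lit 5) (nat_lit 372) (nat_lit 348) (nat_lit 144)) (XT.lf (nat_lit 0) (nat_lit 3334809201) (nat_lit 504) (nat_lit 9755004139) (nat_lit 588) (nat_lit 26449566626) (nat_lit 87) (nat_lit 5) (nat_lit 93) (nat_lit 5) (nat_lit 94) (nat_lit 5) (nat_lit 373) (nat_lit 348) (nat_lit 143)))) (XT.nd (nat_lit 94) (nat_lit 504) (nat_lit 0) (XT.lf (nat_lit 0) (nat_lit 16153691614) (nat_lit 588) (nat_lit 20835676170) (nat_lit 84) (nat_lit 3299458134) (nat_lit 87) (nat_lit 5) (nat_lit 94) (nat_lit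 5) (nat_lit 88) (nat_lit 5) (nat_lit 374) (nat_lit 348) (nat_lit 142)) (XT.nd (nat_lit 94) (nat_lit 504) (nat_lit 0) (XT.lf (nat_lit 0) (nat_lit 19410614778) (nat_lit 588) (nat_lit 5091821077) (nat_lit 84) (nat_lit 16556034646) (nat_lit 87) (nat_lit 5) (nat_lit 94) (nat_lit 5) (nat_lit 88) (nat_lit 5) (nat_lit 375) (nat_lit 348) (nat_lit 141)) (XT.lf (nat_lit 0) (nat_lit 11367469461) (nat_lit 504) (nat_lit 11512145024) (nat_lit 588) (nat_lit 18968920751) (nat_lit 81) (nat_lit 5) (nat_lit 87) (nat_lit 5) (nat_lit 88) (nat_lit 5) (nat_lit 376) (nat_lit 348) (nat_lit 140))))) (XT.nd (nat_lit 282) (nat_lit 504) (nat_lit 0) (XT.nd (nat_lit 94) (nat_lit 420) (nat_lit 0) (XT.lf (nat_lit 0) (nat_lit 26526881735) (nat_lit 588) (nat_lit 14237396318) (nat_lit 84) (nat_lit 1896626806) (nat_lit 81) (nat_lit 5) (nat_lit 88) (nat_lit 5) (nat_lit 82) (nat_lit 5) (nat_lit 377) (nat_lit 348) (nat_lit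 139)) (XT.nd (nat_lit 94) (nat_lit 0) (nat_lit 0) (XT.lf (nat_lit 0) (nat_lit 2439595948) (nat_lit 420) (nat_lit 27987988919) (nat_lit 504) (nat_lit 13066526890) (nat_lit 76) (nat_lit 5) (nat_lit 81) (nat_lit 5) (nat_lit 82) (nat_lit 5) (nat_lit 378) (nat_lit 348) (nat_lit 138)) (XT.lf (nat_lit 0) (nat_lit 19933775711) (nat_lit 420) (nat_lit 14662501815) (nat_lit 504) (nat_lit 9752316587) (nat_lit 76) (nat_lit 5) (nat_lit 81) (nat_lit 5) (nat_lit 82) (nat_lit 5) (nat_lit 379) (nat_lit 348) (nat_lit 137)))) (XT.nd (nat_lit 94) (nat_lit 504) (nat_lit 0) (XT.lf (nat_lit 0) (nat_lit 37968699310) (nat_lit 420) (nat_lit 924005210) (nat_lit 504) (nat_lit 6336912242) (nat_lit 76) (nat_lit 5) (nat_lit 81) (nat_lit 5) (nat_lit 82) (nat_lit 5) (nat_lit 380) (nat_lit 348) (nat_lit 136)) (XT.nd (nat_lit 94) (nat_lit 84) (nat_lit 0) (XT.lf (nat_lit 0) (nat_lit 10503451941) (nat_lit 420) (nat_lit 33052959651)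 (nat_lit 504) (nat_lit 2574287544) (nat_lit 71) (nat_lit 5) (nat_lit 76) (nat_lit 5) (nat_lit 77) (nat_lit 5) (nat_lit 381) (nat_lit 348) (nat_lit 135)) (XT.lf (nat_lit 0) (nat_lit 1363258767) (nat_lit 504) (nat_lit 18109687886) (nat_lit 84) (nat_lit 27583749900) (nat_lit 70) (nat_lit 5) (nat_lit 76) (nat_lit 5) (nat_lit 71) (nat_lit 5) (nat_lit 382) (nat_lit 348) (nat_lit 134))))))) (XT.nd (nat_lit 1128) (nat_lit 1176) (nat_lit 0) (XT.nd (nat_lit 564) (nat_lit 1092) (nat_lit 0) (XT.nd (nat_lit 282) (nat_lit 420) (nat_lit 0) (XT.nd (nat_lit 94) (nat_lit 420) (nat_lit 0) (XT.lf (nat_lit 0) (nat_lit 5367996391) (nat_lit 504) (nat_lit 76960778) (nat_lit 84) (nat_lit 42565674297) (nat_lit 70) (nat_lit 5) (nat_lit 76) (nat_lit 5) (nat_lit 71) (nat_lit 5) (nat_lit 383) (nat_lit 348) (nat_lit 133)) (XT.nd (nat_lit 94) (nat_lit 0) (nat_lit 0) (XT.lf (nat_lit 0) (nat_lit 9774328873) (nat_lit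 504) (nat_lit 30185797812) (nat_lit 84) (nat_lit 9025415074) (nat_lit 65) (nat_lit 5) (nat_lit 71) (nat_lit 5) (nat_lit 66) (nat_lit 5) (nat_lit 384) (nat_lit 348) (nat_lit 132)) (XT.lf (nat_lit 0) (nat_lit 14372426239) (nat_lit 504) (nat_lit 11784618401) (nat_lit 84) (nat_lit 23831923558) (nat_lit 65) (nat_lit 5) (nat_lit 71) (nat_lit 5) (nat_lit 66) (nat_lit 5) (nat_lit 385) (nat_lit 348) (nat_lit 131)))) (XT.nd (nat_lit 94) (nat_lit 0) (nat_lit 0) (XT.lf (nat_lit 0) (nat_lit 7333262706) (nat_lit 420) (nat_lit 11851256788) (nat_lit 504) (nat_lit 31836770292) (nat_lit 60) (nat_lit 5) (nat_lit 65) (nat_lit 5) (nat_lit 66) (nat_lit 5) (nat_lit 386) (nat_lit 348) (nat_lit 130)) (XT.nd (nat_lit 94) (nat_lit 0) (nat_lit 0) (XT.lf (nat_lit 0) (nat_lit 24297531866) (nat_lit 504) (nat_lit 24819690929) (nat_lit 84) (nat_lit 2963690386) (nat_lit 60) (nat_lit 5) (nat_lit 66) (nat_lit 5) (nat_lit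 61) (nat_lit 5) (nat_lit 387) (nat_lit 348) (nat_lit 129)) (XT.lf (nat_lit 0) (nat_lit 29689026558) (nat_lit 504) (nat_lit 5489111391) (nat_lit 84) (nat_lit 17991531395) (nat_lit 60) (nat_lit 5) (nat_lit 66) (nat_lit 5) (nat_lit 61) (nat_lit 5) (nat_lit 388) (nat_lit 348) (nat_lit 128))))) (XT.nd (nat_lit 282) (nat_lit 420) (nat_lit 0) (XT.nd (nat_lit 94) (nat_lit 336) (nat_lit 0) (XT.lf (nat_lit 0) (nat_lit 14736197122) (nat_lit 336) (nat_lit 20656450852) (nat_lit 420) (nat_lit 18895037951) (nat_lit 56) (nat_lit 5) (nat_lit 60) (nat_lit 5) (nat_lit 61) (nat_lit 5) (nat_lit 389) (nat_lit 348) (nat_lit 127)) (XT.nd (nat_lit 94) (nat_lit 336) (nat_lit 0) (XT.lf (nat_lit 0) (nat_lit 35703450338) (nat_lit 336) (nat_lit 5625753836) (nat_lit 420) (nat_lit 14109420612) (nat_lit 56) (nat_lit 5) (nat_lit 60) (nat_lit 5) (nat_lit 61) (nat_lit 5) (nat_lit 390) (nat_lit 348) (nat_lit 126)) (XT.lf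 (nat_lit 0) (nat_lit 608382374) (nat_lit 336) (nat_lit 46944227435) (nat_lit 420) (nat_lit 9069449102) (nat_lit 52) (nat_lit 5) (nat_lit 56) (nat_lit 5) (nat_lit 57) (nat_lit 5) (nat_lit 391) (nat_lit 348) (nat_lit 125)))) (XT.nd (nat_lit 94) (nat_lit 420) (nat_lit 0) (XT.lf (nat_lit 0) (nat_lit 21940857304) (nat_lit 336) (nat_lit 32289915141) (nat_lit 420) (nat_lit 3603293628) (nat_lit 52) (nat_lit 5) (nat_lit 56) (nat_lit 5) (nat_lit 57) (nat_lit 5) (nat_lit 392) (nat_lit 348) (nat_lit 124)) (XT.nd (nat_lit 94) (nat_lit 336) (nat_lit 0) (XT.lf (nat_lit 0) (nat_lit 1990266427) (nat_lit 420) (nat_lit 15170537533) (nat_lit 84) (nat_lit 41922253760) (nat_lit 51) (nat_lit 5) (nat_lit 56) (nat_lit 5) (nat_lit 52) (nat_lit 5) (nat_lit 393) (nat_lit 348) (nat_lit 123)) (XT.lf (nat_lit 0) (nat_lit 6282941524) (nat_lit 336) (nat_lit 1460697392) (nat_lit 420) (nat_lit 52624090714) (nat_lit 47)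 (nat_lit 5) (nat_lit 51) (nat_lit 5) (nat_lit 52) (nat_lit 5) (nat_lit 394) (nat_lit 348) (nat_lit 122)))))) (XT.nd (nat_lit 564) (nat_lit 588) (nat_lit 0) (XT.nd (nat_lit 282) (nat_lit 252) (nat_lit 0) (XT.nd (nat_lit 94) (nat_lit 336) (nat_lit 0) (XT.lf (nat_lit 0) (nat_lit 13980369410) (nat_lit 420) (nat_lit 33113284454) (nat_lit 84) (nat_lit 14589120367) (nat_lit 47) (nat_lit 5) (nat_lit 52) (nat_lit 5) (nat_lit 48) (nat_lit 5) (nat_lit 395) (nat_lit 348) (nat_lit 121)) (XT.nd (nat_lit 94) (nat_lit 336) (nat_lit 0) (XT.lf (nat_lit 0) (nat_lit 20424359385) (nat_lit 420) (nat_lit 11507911513) (nat_lit 84) (nat_lit 31105885651) (nat_lit 47) (nat_lit 5) (nat_lit 52) (nat_lit 5) (nat_lit 48) (nat_lit 5) (nat_lit 396) (nat_lit 348) (nat_lit 120)) (XT.lf (nat_lit 0) (nat_lit 10987329692) (nat_lit 336) (nat_lit 16188790996) (nat_lit 420) (nat_lit 37256089589) (nat_lit 43) (nat_lit 5) (nat_lit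 47) (nat_lit 5) (nat_lit 48) (nat_lit 5) (nat_lit 397) (nat_lit 348) (nat_lit 119)))) (XT.nd (nat_lit 94) (nat_lit 252) (nat_lit 0) (XT.lf (nat_lit 0) (nat_lit 34257984467) (nat_lit 420) (nat_lit 31444809055) (nat_lit 84) (nat_lit 162944122) (nat_lit 43) (nat_lit 5) (nat_lit 48) (nat_lit 5) (nat_lit 44) (nat_lit 5) (nat_lit 398) (nat_lit 348) (nat_lit 118)) (XT.nd (nat_lit 94) (nat_lit 252) (nat_lit 0) (XT.lf (nat_lit 0) (nat_lit 41724014941) (nat_lit 420) (nat_lit 8929555541) (nat_lit 84) (nat_lit 16685033011) (nat_lit 43) (nat_lit 5) (nat_lit 48) (nat_lit 5) (nat_lit 44) (nat_lit 5) (nat_lit 399) (nat_lit 348) (nat_lit 117)) (XT.lf (nat_lit 0) (nat_lit 14576138042) (nat_lit 252) (nat_lit 34989035473) (nat_lit 336) (nat_lit 19287503101) (nat_lit 40) (nat_lit 5) (nat_lit 43) (nat_lit 5) (nat_lit 44) (nat_lit 5) (nat_lit 400) (nat_lit 348) (nat_lit 116))))) (XT.nd (nat_lit 282) (nat_lit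 252) (nat_lit 0) (XT.nd (nat_lit 94) (nat_lit 336) (nat_lit 0) (XT.lf (nat_lit 0) (nat_lit 38998612768) (nat_lit 252) (nat_lit 18743101206) (nat_lit 336) (nat_lit 12669113018) (nat_lit 40) (nat_lit 5) (nat_lit 43) (nat_lit 5) (nat_lit 44) (nat_lit 5) (nat_lit 401) (nat_lit 348) (nat_lit 115)) (XT.nd (nat_lit 94) (nat_lit 336) (nat_lit 0) (XT.lf (nat_lit 0) (nat_lit 64177022967) (nat_lit 252) (nat_lit 1993831016) (nat_lit 336) (nat_lit 5846455515) (nat_lit 40) (nat_lit 5) (nat_lit 43) (nat_lit 5) (nat_lit 44) (nat_lit 5) (nat_lit 402) (nat_lit 348) (nat_lit 114)) (XT.lf (nat_lit 0) (nat_lit 1482800210) (nat_lit 336) (nat_lit 57033764657) (nat_lit 84) (nat_lit 15146775315) (nat_lit 36) (nat_lit 5) (nat_lit 40) (nat_lit 5) (nat_lit 37) (nat_lit 5) (nat_lit 403) (nat_lit 348) (nat_lit 113)))) (XT.nd (nat_lit 94) (nat_lit 252) (nat_lit 0) (XT.lf (nat_lit 0) (nat_lit 9020037695) (nat_lit 336)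 (nat_lit 33415832370) (nat_lit 84) (nat_lit 32919507477) (nat_lit 36) (nat_lit 5) (nat_lit 40) (nat_lit 5) (nat_lit 37) (nat_lit 5) (nat_lit 404) (nat_lit 348) (nat_lit 112)) (XT.nd (nat_lit 94) (nat_lit 252) (nat_lit 0) (XT.lf (nat_lit 0) (nat_lit 16790108746) (nat_lit 336) (nat_lit 9066869363) (nat_lit 84) (nat_lit 51242917519) (nat_lit 36) (nat_lit 5) (nat_lit 40) (nat_lit 5) (nat_lit 37) (nat_lit 5) (nat_lit 405) (nat_lit 348) (nat_lit 111)) (XT.lf (nat_lit 0) (nat_lit 16365549497) (nat_lit 252) (nat_lit 8597054661) (nat_lit 336) (nat_lit 53930883557) (nat_lit 33) (nat_lit 5) (nat_lit 36) (nat_lit 5) (nat_lit 37) (nat_lit 5) (nat_lit 406) (nat_lit 348) (nat_lit 110))))))))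
noncomputable def xc208 : XT := (XT.nd (nat_lit 49632) (nat_lit 0) (nat_lit 4536) (XT.nd (nat_lit 1034) (nat_lit 168) (nat_lit 0) (XT.nd (nat_lit 470) (nat_lit 504) (nat_lit 0) (XT.nd (nat_lit 188) (nat_lit 252) (nat_lit 0) (XT.nd (nat_lit 94) (nat_lit 0) (nat_lit 0) (XT.lf (nat_lit 0) (nat_lit 33574513111) (nat_lit 336) (nat_lit 38054477250) (nat_lit 84) (nat_lit 9107924741) (nat_lit 33) (nat_lit 5) (nat_lit 37) (nat_lit 5) (nat_lit 34) (nat_lit 5) (nat_lit 407) (nat_lit 348) (nat_lit 109)) (XT.lf (nat_lit 0) (nat_lit 42540556669) (nat_lit 336) (nat_lit 12911337072) (nat_lit 84) (nat_lit 27182894806) (nat_lit 33) (nat_lit 5) (nat_lit 37) (nat_lit 5) (nat_lit 34) (nat_lit 5) (nat_lit 408) (nat_lit 348) (nat_lit 108))) (XT.nd (nat_lit 94) (nat_lit 0) (nat_lit 0) (XT.lf (nat_lit 0) (nat_lit 13277718643) (nat_lit 252) (nat_lit 38637806247) (nat_lit 336) (nat_lit 32671912761) (nat_lit 30)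 (nat_lit 5) (nat_lit 33) (nat_lit 5) (nat_lit 34) (nat_lit 5) (nat_lit 409) (nat_lit 348) (nat_lit 107)) (XT.nd (nat_lit 94) (nat_lit 0) (nat_lit 0) (XT.lf (nat_lit 0) (nat_lit 40551320911) (nat_lit 252) (nat_lit 21163836828) (nat_lit 336) (nat_lit 24881307700) (nat_lit 30) (nat_lit 5) (nat_lit 33) (nat_lit 5) (nat_lit 34) (nat_lit 5) (nat_lit 410) (nat_lit 348) (nat_lit 106)) (XT.lf (nat_lit 0) (nat_lit 68669408014) (nat_lit 252) (nat_lit 3148465793) (nat_lit 336) (nat_lit 16849922916) (nat_lit 30) (nat_lit 5) (nat_lit 33) (nat_lit 5) (nat_lit 34) (nat_lit 5) (nat_lit 411) (nat_lit 348) (nat_lit 105))))) (XT.nd (nat_lit 282) (nat_lit 252) (nat_lit 0) (XT.nd (nat_lit 94) (nat_lit 84) (nat_lit 0) (XT.lf (nat_lit 0) (nat_lit 6839610774) (nat_lit 168) (nat_lit 75614347790) (nat_lit 252) (nat_lit 8342556709) (nat_lit 28) (nat_lit 5) (nat_lit 30) (nat_lit 5) (nat_lit 31) (nat_lit 5) (nat_lit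 412) (nat_lit 348) (nat_lit 104)) (XT.nd (nat_lit 94) (nat_lit 0) (nat_lit 0) (XT.lf (nat_lit 0) (nat_lit 662297698) (nat_lit 252) (nat_lit 58090789684) (nat_lit 84) (nat_lit 34230492331) (nat_lit 27) (nat_lit 5) (nat_lit 30) (nat_lit 5) (nat_lit 28) (nat_lit 5) (nat_lit 413) (nat_lit 348) (nat_lit 103)) (XT.lf (nat_lit 0) (nat_lit 9772344077) (nat_lit 252) (nat_lit 31509112869) (nat_lit 84) (nat_lit 53954363285) (nat_lit 27) (nat_lit 5) (nat_lit 30) (nat_lit 5) (nat_lit 28) (nat_lit 5) (nat_lit 414) (nat_lit 348) (nat_lit 102)))) (XT.nd (nat_lit 94) (nat_lit 252) (nat_lit 0) (XT.lf (nat_lit 0) (nat_lit 19164157870) (nat_lit 252) (nat_lit 4104337954) (nat_lit 84) (nat_lit 74289405862) (nat_lit 27) (nat_lit 5) (nat_lit 30) (nat_lit 5) (nat_lit 28) (nat_lit 5) (nat_lit 415) (nat_lit 348) (nat_lit 101)) (XT.nd (nat_lit 94) (nat_lit 0) (nat_lit 0) (XT.lf (nat_lit 0) (nat_lit 24645633778)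 (nat_lit 252) (nat_lit 4445347192) (nat_lit 336) (nat_lit 70853428413) (nat_lit 24) (nat_lit 5) (nat_lit 27) (nat_lit 5) (nat_lit 28) (nat_lit 5) (nat_lit 416) (nat_lit 348) (nat_lit 100)) (XT.lf (nat_lit 0) (nat_lit 39516615190) (nat_lit 336) (nat_lit 48179476927) (nat_lit 84) (nat_lit 14702884661) (nat_lit 24) (nat_lit 5) (nat_lit 28) (nat_lit 5) (nat_lit 25) (nat_lit 5) (nat_lit 417) (nat_lit 348) (nat_lit 99)))))) (XT.nd (nat_lit 48034) (nat_lit 0) (nat_lit 7728) (XT.nd (nat_lit 47752) (nat_lit 0) (nat_lit 7728) (XT.nd (nat_lit 94) (nat_lit 168) (nat_lit 0) (XT.lf (nat_lit 0) (nat_lit 50310310516) (nat_lit 336) (nat_lit 20265832262) (nat_lit 84) (nat_lit 34352103510) (nat_lit 24) (nat_lit 5) (nat_lit 28) (nat_lit 5) (nat_lit 25) (nat_lit 5) (nat_lit 418) (nat_lit 348) (nat_lit 98)) (XT.nd (nat_lit 94) (nat_lit 0) (nat_lit 0) (XT.lf (nat_lit 0) (nat_lit 8687305062) (nat_lit 168) (nat_lit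 52836903489) (nat_lit 252) (nat_lit 46009062400) (nat_lit 22) (nat_lit 5) (nat_lit 24) (nat_lit 5) (nat_lit 25) (nat_lit 5) (nat_lit 419) (nat_lit 348) (nat_lit 97)) (XT.lf (nat_lit 0) (nat_lit 38966763183) (nat_lit 168) (nat_lit 34329936001) (nat_lit 252) (nat_lit 36915813682) (nat_lit 22) (nat_lit 5) (nat_lit 24) (nat_lit 5) (nat_lit 25) (nat_lit 5) (nat_lit 420) (nat_lit 348) (nat_lit 96)))) (XT.nd (nat_lit 94) (nat_lit 0) (nat_lit 0) (XT.lf (nat_lit 0) (nat_lit 2635833583) (nat_lit 0) (nat_lit 2635833583) (nat_lit 1092) (nat_lit 8067143779) (nat_lit 114) (nat_lit 5) (nat_lit 114) (nat_lit 3) (nat_lit 127) (nat_lit 3) (nat_lit 349) (nat_lit 349) (nat_lit 166)) (XT.nd (nat_lit 94) (nat_lit 0) (nat_lit 0) (XT.lf (nat_lit 0) (nat_lit 10837485795) (nat_lit 1092) (nat_lit 11259851148) (nat_lit 1176) (nat_lit 4989435322) (nat_lit 114) (nat_lit 5) (nat_lit 127) (nat_lit 3) (nat_lit 128)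 (nat_lit 5) (nat_lit 350) (nat_lit 349) (nat_lit 165)) (XT.lf (nat_lit 0) (nat_lit 11191456383) (nat_lit 1092) (nat_lit 854879622) (nat_lit 1176) (nat_lit 15460710677) (nat_lit 114) (nat_lit 5) (nat_lit 127) (nat_lit 3) (nat_lit 128) (nat_lit 5) (nat_lit 351) (nat_lit 349) (nat_lit 164))))) (XT.nd (nat_lit 282) (nat_lit 0) (nat_lit 168) (XT.nd (nat_lit 94) (nat_lit 0) (nat_lit 84) (XT.lf (nat_lit 84) (nat_lit 10073921023) (nat_lit 0) (nat_lit 1579293963) (nat_lit 1176) (nat_lit 16284145088) (nat_lit 115) (nat_lit 5) (nat_lit 114) (nat_lit 5) (nat_lit 128) (nat_lit 5) (nat_lit 352) (nat_lit 349) (nat_lit 163)) (XT.nd (nat_lit 94) (nat_lit 0) (nat_lit 0) (XT.lf (nat_lit 0) (nat_lit 12226660122) (nat_lit 1092) (nat_lit 7114370946) (nat_lit 1176) (nat_lit 9036974959) (nat_lit 115) (nat_lit 5) (nat_lit 128) (nat_lit 5) (nat_lit 129) (nat_lit 5) (nat_lit 353) (nat_lit 349) (nat_lit 162)) (XT.lf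 (nat_lit 84) (nat_lit 4031246198) (nat_lit 0) (nat_lit 8839840987) (nat_lit 1176) (nat_lit 15959586495) (nat_lit 116) (nat_lit 5) (nat_lit 115) (nat_lit 5) (nat_lit 129) (nat_lit 5) (nat_lit 354) (nat_lit 349) (nat_lit 161)))) (XT.nd (nat_lit 94) (nat_lit 0) (nat_lit 0) (XT.lf (nat_lit 0) (nat_lit 13627365384) (nat_lit 1092) (nat_lit 13644176775) (nat_lit 1176) (nat_lit 2022994485) (nat_lit 116) (nat_lit 5) (nat_lit 129) (nat_lit 5) (nat_lit 130) (nat_lit 5) (nat_lit 355) (nat_lit 349) (nat_lit 160)) (XT.nd (nat_lit 94) (nat_lit 0) (nat_lit 0) (XT.lf (nat_lit 0) (nat_lit 14494729635) (nat_lit 1092) (nat_lit 2235302477) (nat_lit 1176) (nat_lit 13040040746) (nat_lit 116) (nat_lit 5) (nat_lit 129) (nat_lit 5) (nat_lit 130) (nat_lit 5) (nat_lit 356) (nat_lit 349) (nat_lit 159)) (XT.lf (nat_lit 84) (nat_lit 9721386262) (nat_lit 0) (nat_lit 5761347187) (nat_lit 1176) (nat_lit 14774721027)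 (nat_lit 117) (nat_lit 5) (nat_lit 116) (nat_lit 5) (nat_lit 130) (nat_lit 5) (nat_lit 357) (nat_lit 349) (nat_lit 158))))))) (XT.nd (nat_lit 1128) (nat_lit 2016) (nat_lit 0) (XT.nd (nat_lit 564) (nat_lit 1428) (nat_lit 0) (XT.nd (nat_lit 282) (nat_lit 0) (nat_lit 84) (XT.nd (nat_lit 94) (nat_lit 0) (nat_lit 0) (XT.lf (nat_lit 0) (nat_lit 16577353374) (nat_lit 1092) (nat_lit 8720178838) (nat_lit 1176) (nat_lit 5460066851) (nat_lit 117) (nat_lit 5) (nat_lit 130) (nat_lit 5) (nat_lit 131) (nat_lit 5) (nat_lit 358) (nat_lit 349) (nat_lit 157)) (XT.nd (nat_lit 94) (nat_lit 0) (nat_lit 0) (XT.lf (nat_lit 84) (nat_lit 3471263046) (nat_lit 0) (nat_lit 14325469249) (nat_lit 1176) (nat_lit 13473709712) (nat_lit 118) (nat_lit 5) (nat_lit 117) (nat_lit 5) (nat_lit 131) (nat_lit 5) (nat_lit 359) (nat_lit 349) (nat_lit 156)) (XT.lf (nat_lit 84) (nat_lit 16223767342) (nat_lit 0) (nat_lit 2918689790)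 (nat_lit 1176) (nat_lit 12653990238) (nat_lit 118) (nat_lit 5) (nat_lit 117) (nat_lit 5) (nat_lit 131) (nat_lit 5) (nat_lit 360) (nat_lit 349) (nat_lit 155)))) (XT.nd (nat_lit 94) (nat_lit 0) (nat_lit 0) (XT.lf (nat_lit 0) (nat_lit 20615216139) (nat_lit 1092) (nat_lit 3056644172) (nat_lit 1176) (nat_lit 8664262683) (nat_lit 118) (nat_lit 5) (nat_lit 131) (nat_lit 5) (nat_lit 132) (nat_lit 5) (nat_lit 361) (nat_lit 349) (nat_lit 154)) (XT.nd (nat_lit 94) (nat_lit 0) (nat_lit 0) (XT.lf (nat_lit 84) (nat_lit 10017650344) (nat_lit 0) (nat_lit 12242885921) (nat_lit 1176) (nat_lit 10628066869) (nat_lit 119) (nat_lit 5) (nat_lit 118) (nat_lit 5) (nat_lit 132) (nat_lit 5) (nat_lit 362) (nat_lit 349) (nat_lit 153)) (XT.lf (nat_lit 84) (nat_lit 23560344207) (nat_lit 0) (nat_lit 426153058) (nat_lit 1176) (nat_lit 9470802563) (nat_lit 119) (nat_lit 5) (nat_lit 118) (nat_lit 5) (nat_lit 132) (nat_lit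 5) (nat_lit 363) (nat_lit 349) (nat_lit 152))))) (XT.nd (nat_lit 282) (nat_lit 1596) (nat_lit 0) (XT.nd (nat_lit 94) (nat_lit 0) (nat_lit 0) (XT.lf (nat_lit 84) (nat_lit 3429978356) (nat_lit 0) (nat_lit 22484444928) (nat_lit 1176) (nat_lit 8124608702) (nat_lit 120) (nat_lit 5) (nat_lit 119) (nat_lit 5) (nat_lit 133) (nat_lit 5) (nat_lit 364) (nat_lit 349) (nat_lit 151)) (XT.nd (nat_lit 94) (nat_lit 0) (nat_lit 84) (XT.lf (nat_lit 84) (nat_lit 17373693300) (nat_lit 0) (nat_lit 10633893564) (nat_lit 1176) (nat_lit 6627949237) (nat_lit 120) (nat_lit 5) (nat_lit 119) (nat_lit 5) (nat_lit 133) (nat_lit 5) (nat_lit 365) (nat_lit 349) (nat_lit 150)) (XT.lf (nat_lit 0) (nat_lit 30179274437) (nat_lit 1092) (nat_lit 3518322976) (nat_lit 84) (nat_lit 1552519367) (nat_lit 120) (nat_lit 5) (nat_lit 133) (nat_lit 5) (nat_lit 121) (nat_lit 5) (nat_lit 366) (nat_lit 349) (nat_lit 149)))) (XT.nd (nat_lit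 94) (nat_lit 588) (nat_lit 0) (XT.lf (nat_lit 0) (nat_lit 10757538195) (nat_lit 1092) (nat_lit 21874206632) (nat_lit 1176) (nat_lit 3245394779) (nat_lit 107) (nat_lit 5) (nat_lit 120) (nat_lit 5) (nat_lit 121) (nat_lit 5) (nat_lit 367) (nat_lit 349) (nat_lit 148)) (XT.nd (nat_lit 94) (nat_lit 588) (nat_lit 0) (XT.lf (nat_lit 0) (nat_lit 25548866282) (nat_lit 1092) (nat_lit 9646128284) (nat_lit 1176) (nat_lit 1327535435) (nat_lit 107) (nat_lit 5) (nat_lit 120) (nat_lit 5) (nat_lit 121) (nat_lit 5) (nat_lit 368) (nat_lit 349) (nat_lit 147)) (XT.lf (nat_lit 0) (nat_lit 701036835) (nat_lit 588) (nat_lit 33539716196) (nat_lit 84) (nat_lit 2944986540) (nat_lit 100) (nat_lit 5) (nat_lit 107) (nat_lit 5) (nat_lit 101) (nat_lit 5) (nat_lit 369) (nat_lit 349) (nat_lit 146)))))) (XT.nd (nat_lit 564) (nat_lit 924) (nat_lit 0) (XT.nd (nat_lit 282) (nat_lit 504) (nat_lit 0) (XT.nd (nat_lit 94) (nat_lit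 588) (nat_lit 0) (XT.lf (nat_lit 0) (nat_lit 2977395969) (nat_lit 588) (nat_lit 19029526077) (nat_lit 84) (nat_lit 15855585462) (nat_lit 100) (nat_lit 5) (nat_lit 107) (nat_lit 5) (nat_lit 101) (nat_lit 5) (nat_lit 370) (nat_lit 349) (nat_lit 145)) (XT.nd (nat_lit 94) (nat_lit 588) (nat_lit 0) (XT.lf (nat_lit 0) (nat_lit 5322485101) (nat_lit 588) (nat_lit 4071187054) (nat_lit 84) (nat_lit 29166646418) (nat_lit 100) (nat_lit 5) (nat_lit 107) (nat_lit 5) (nat_lit 101) (nat_lit 5) (nat_lit 371) (nat_lit 349) (nat_lit 144)) (XT.lf (nat_lit 0) (nat_lit 7890385285) (nat_lit 672) (nat_lit 27730648223) (nat_lit 84) (nat_lit 3654080941) (nat_lit 93) (nat_lit 5) (nat_lit 101) (nat_lit 5) (nat_lit 94) (nat_lit 5) (nat_lit 372) (nat_lit 349) (nat_lit 143)))) (XT.nd (nat_lit 94) (nat_lit 504) (nat_lit 0) (XT.lf (nat_lit 0) (nat_lit 10675152238) (nat_lit 672) (nat_lit 12378411647) (nat_lit 84) (nat_lit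 16954255985) (nat_lit 93) (nat_lit 5) (nat_lit 101) (nat_lit 5) (nat_lit 94) (nat_lit 5) (nat_lit 373) (nat_lit 349) (nat_lit 142)) (XT.nd (nat_lit 94) (nat_lit 0) (nat_lit 0) (XT.lf (nat_lit 0) (nat_lit 3519032920) (nat_lit 504) (nat_lit 10060432920) (nat_lit 588) (nat_lit 27182749349) (nat_lit 87) (nat_lit 5) (nat_lit 93) (nat_lit 5) (nat_lit 94) (nat_lit 5) (nat_lit 374) (nat_lit 349) (nat_lit 141)) (XT.lf (nat_lit 0) (nat_lit 16735773503) (nat_lit 588) (nat_lit 21400340438) (nat_lit 84) (nat_lit 3398867687) (nat_lit 87) (nat_lit 5) (nat_lit 94) (nat_lit 5) (nat_lit 88) (nat_lit 5) (nat_lit 375) (nat_lit 349) (nat_lit 140))))) (XT.nd (nat_lit 282) (nat_lit 420) (nat_lit 0) (XT.nd (nat_lit 94) (nat_lit 504) (nat_lit 0) (XT.lf (nat_lit 0) (nat_lit 20091216241) (nat_lit 588) (nat_lit 5170868604) (nat_lit 84) (nat_lit 17066484475) (nat_lit 87) (nat_lit 5) (nat_lit 94) (nat_lit 5) (nat_lit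 88) (nat_lit 5) (nat_lit 376) (nat_lit 349) (nat_lit 139)) (XT.nd (nat_lit 94) (nat_lit 0) (nat_lit 0) (XT.lf (nat_lit 0) (nat_lit 11797862172) (nat_lit 504) (nat_lit 11868295020) (nat_lit 588) (nat_lit 19477026480) (nat_lit 81) (nat_lit 5) (nat_lit 87) (nat_lit 5) (nat_lit 88) (nat_lit 5) (nat_lit 377) (nat_lit 349) (nat_lit 138)) (XT.lf (nat_lit 0) (nat_lit 27424173231) (nat_lit 588) (nat_lit 14600530477) (nat_lit 84) (nat_lit 1956112695) (nat_lit 81) (nat_lit 5) (nat_lit 88) (nat_lit 5) (nat_lit 82) (nat_lit 5) (nat_lit 378) (nat_lit 349) (nat_lit 137)))) (XT.nd (nat_lit 94) (nat_lit 0) (nat_lit 0) (XT.lf (nat_lit 0) (nat_lit 2592656591) (nat_lit 420) (nat_lit 28851655882) (nat_lit 504) (nat_lit 13395593898) (nat_lit 76) (nat_lit 5) (nat_lit 81) (nat_lit 5) (nat_lit 82) (nat_lit 5) (nat_lit 379) (nat_lit 349) (nat_lit 136)) (XT.nd (nat_lit 94) (nat_lit 0) (nat_lit 0) (XT.lf (nat_lit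 0) (nat_lit 20626827674) (nat_lit 420) (nat_lit 15113197768) (nat_lit 504) (nat_lit 9980928095) (nat_lit 76) (nat_lit 5) (nat_lit 81) (nat_lit 5) (nat_lit 82) (nat_lit 5) (nat_lit 380) (nat_lit 349) (nat_lit 135)) (XT.lf (nat_lit 0) (nat_lit 39218575658) (nat_lit 420) (nat_lit 948923277) (nat_lit 504) (nat_lit 6461862530) (nat_lit 76) (nat_lit 5) (nat_lit 81) (nat_lit 5) (nat_lit 82) (nat_lit 5) (nat_lit 381) (nat_lit 349) (nat_lit 134))))))))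
noncomputable def xc209 : XT := (XT.nd (nat_lit 2256) (nat_lit 1176) (nat_lit 0) (XT.nd (nat_lit 1128) (nat_lit 1344) (nat_lit 0) (XT.nd (nat_lit 564) (nat_lit 672) (nat_lit 0) (XT.nd (nat_lit 282) (nat_lit 840) (nat_lit 0) (XT.nd (nat_lit 94) (nat_lit 84) (nat_lit 0) (XT.lf (nat_lit 0) (nat_lit 10903480912) (nat_lit 420) (nat_lit 34070995830) (nat_lit 504) (nat_lit 2583948016) (nat_lit 71) (nat_lit 5) (nat_lit 76) (nat_lit 5) (nat_lit 77) (nat_lit 5) (nat_lit 382) (nat_lit 349) (nat_lit 133)) (XT.nd (nat_lit 94) (nat_lit 0) (nat_lit 0) (XT.lf (nat_lit 0) (nat_lit 1472182474) (nat_lit 504) (nat_lit 18597322749) (nat_lit 84) (nat_lit 28443671890) (nat_lit 70) (nat_lit 5) (nat_lit 76) (nat_lit 5) (nat_lit 71) (nat_lit 5) (nat_lit 383) (nat_lit 349) (nat_lit 132)) (XT.lf (nat_lit 0) (nat_lit 5599062558) (nat_lit 504) (nat_lit 7799073) (nat_lit 84) (nat_lit 43889890843) (nat_lit 70) (nat_lit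 5) (nat_lit 76) (nat_lit 5) (nat_lit 71) (nat_lit 5) (nat_lit 384) (nat_lit 349) (nat_lit 131)))) (XT.nd (nat_lit 94) (nat_lit 420) (nat_lit 0) (XT.lf (nat_lit 0) (nat_lit 10140823255) (nat_lit 504) (nat_lit 31048643940) (nat_lit 84) (nat_lit 9312460139) (nat_lit 65) (nat_lit 5) (nat_lit 71) (nat_lit 5) (nat_lit 66) (nat_lit 5) (nat_lit 385) (nat_lit 349) (nat_lit 130)) (XT.nd (nat_lit 94) (nat_lit 420) (nat_lit 0) (XT.lf (nat_lit 0) (nat_lit 14879552623) (nat_lit 504) (nat_lit 12079220326) (nat_lit 84) (nat_lit 24577752178) (nat_lit 65) (nat_lit 5) (nat_lit 71) (nat_lit 5) (nat_lit 66) (nat_lit 5) (nat_lit 386) (nat_lit 349) (nat_lit 129)) (XT.lf (nat_lit 0) (nat_lit 7630599106) (nat_lit 420) (nat_lit 12209064508) (nat_lit 504) (nat_lit 32761226717) (nat_lit 60) (nat_lit 5) (nat_lit 65) (nat_lit 5) (nat_lit 66) (nat_lit 5) (nat_lit 387) (nat_lit 349) (nat_lit 128))))) (XT.nd (nat_lit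 282) (nat_lit 336) (nat_lit 0) (XT.nd (nat_lit 94) (nat_lit 336) (nat_lit 0) (XT.lf (nat_lit 0) (nat_lit 25109454735) (nat_lit 504) (nat_lit 25519295676) (nat_lit 84) (nat_lit 3064670704) (nat_lit 60) (nat_lit 5) (nat_lit 66) (nat_lit 5) (nat_lit 61) (nat_lit 5) (nat_lit 388) (nat_lit 349) (nat_lit 127)) (XT.nd (nat_lit 94) (nat_lit 336) (nat_lit 0) (XT.lf (nat_lit 0) (nat_lit 30666320796) (nat_lit 504) (nat_lit 5591567083) (nat_lit 84) (nat_lit 18558100989) (nat_lit 60) (nat_lit 5) (nat_lit 66) (nat_lit 5) (nat_lit 61) (nat_lit 5) (nat_lit 389) (nat_lit 349) (nat_lit 126)) (XT.lf (nat_lit 0) (nat_lit 15260040524) (nat_lit 336) (nat_lit 21285666913) (nat_lit 420) (nat_lit 19422994252) (nat_lit 56) (nat_lit 5) (nat_lit 60) (nat_lit 5) (nat_lit 61) (nat_lit 5) (nat_lit 390) (nat_lit 349) (nat_lit 125)))) (XT.nd (nat_lit 94) (nat_lit 336) (nat_lit 0) (XT.lf (nat_lit 0) (nat_lit 36875263401)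 (nat_lit 336) (nat_lit 5789353064) (nat_lit 420) (nat_lit 14490760396) (nat_lit 56) (nat_lit 5) (nat_lit 60) (nat_lit 5) (nat_lit 61) (nat_lit 5) (nat_lit 391) (nat_lit 349) (nat_lit 124)) (XT.nd (nat_lit 94) (nat_lit 0) (nat_lit 0) (XT.lf (nat_lit 0) (nat_lit 693310769) (nat_lit 336) (nat_lit 48386766331) (nat_lit 420) (nat_lit 9295452288) (nat_lit 52) (nat_lit 5) (nat_lit 56) (nat_lit 5) (nat_lit 57) (nat_lit 5) (nat_lit 392) (nat_lit 349) (nat_lit 123)) (XT.lf (nat_lit 0) (nat_lit 22685105881) (nat_lit 336) (nat_lit 33278553185) (nat_lit 420) (nat_lit 3661504231) (nat_lit 52) (nat_lit 5) (nat_lit 56) (nat_lit 5) (nat_lit 57) (nat_lit 5) (nat_lit 393) (nat_lit 349) (nat_lit 122)))))) (XT.nd (nat_lit 564) (nat_lit 588) (nat_lit 0) (XT.nd (nat_lit 282) (nat_lit 336) (nat_lit 0) (XT.nd (nat_lit 94) (nat_lit 336) (nat_lit 0) (XT.lf (nat_lit 0) (nat_lit 2102802480) (nat_lit 420) (nat_lit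 15577477754) (nat_lit 84) (nat_lit 43232630379) (nat_lit 51) (nat_lit 5) (nat_lit 56) (nat_lit 5) (nat_lit 52) (nat_lit 5) (nat_lit 394) (nat_lit 349) (nat_lit 121)) (XT.nd (nat_lit 94) (nat_lit 0) (nat_lit 0) (XT.lf (nat_lit 0) (nat_lit 6540417828) (nat_lit 336) (nat_lit 1493205145) (nat_lit 420) (nat_lit 54203816870) (nat_lit 47) (nat_lit 5) (nat_lit 51) (nat_lit 5) (nat_lit 52) (nat_lit 5) (nat_lit 395) (nat_lit 349) (nat_lit 120)) (XT.lf (nat_lit 0) (nat_lit 14462313693) (nat_lit 420) (nat_lit 34077460865) (nat_lit 84) (nat_lit 15053523255) (nat_lit 47) (nat_lit 5) (nat_lit 52) (nat_lit 5) (nat_lit 48) (nat_lit 5) (nat_lit 396) (nat_lit 349) (nat_lit 119)))) (XT.nd (nat_lit 94) (nat_lit 336) (nat_lit 0) (XT.lf (nat_lit 0) (nat_lit 21104607476) (nat_lit 420) (nat_lit 11804195658) (nat_lit 84) (nat_lit 32081943234) (nat_lit 47) (nat_lit 5) (nat_lit 52) (nat_lit 5) (nat_lit 48) (nat_lit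 5) (nat_lit 397) (nat_lit 349) (nat_lit 118)) (XT.nd (nat_lit 94) (nat_lit 0) (nat_lit 0) (XT.lf (nat_lit 0) (nat_lit 11387785911) (nat_lit 336) (nat_lit 16677065192) (nat_lit 420) (nat_lit 38363194152) (nat_lit 43) (nat_lit 5) (nat_lit 47) (nat_lit 5) (nat_lit 48) (nat_lit 5) (nat_lit 398) (nat_lit 349) (nat_lit 117)) (XT.lf (nat_lit 0) (nat_lit 35364992046) (nat_lit 420) (nat_lit 32360162792) (nat_lit 84) (nat_lit 180900095) (nat_lit 43) (nat_lit 5) (nat_lit 48) (nat_lit 5) (nat_lit 44) (nat_lit 5) (nat_lit 399) (nat_lit 349) (nat_lit 116))))) (XT.nd (nat_lit 282) (nat_lit 336) (nat_lit 0) (XT.nd (nat_lit 94) (nat_lit 252) (nat_lit 0) (XT.lf (nat_lit 0) (nat_lit 43061116107) (nat_lit 420) (nat_lit 9148723514) (nat_lit 84) (nat_lit 17214785722) (nat_lit 43) (nat_lit 5) (nat_lit 48) (nat_lit 5) (nat_lit 44) (nat_lit 5) (nat_lit 400) (nat_lit 349) (nat_lit 115)) (XT.nd (nat_lit 94) (nat_lit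 0) (nat_lit 0) (XT.lf (nat_lit 0) (nat_lit 15085062933) (nat_lit 252) (nat_lit 36059541086) (nat_lit 336) (nat_lit 19841057511) (nat_lit 40) (nat_lit 5) (nat_lit 43) (nat_lit 5) (nat_lit 44) (nat_lit 5) (nat_lit 401) (nat_lit 349) (nat_lit 114)) (XT.lf (nat_lit 0) (nat_lit 40262918563) (nat_lit 252) (nat_lit 19310408453) (nat_lit 336) (nat_lit 13018831093) (nat_lit 40) (nat_lit 5) (nat_lit 43) (nat_lit 5) (nat_lit 44) (nat_lit 5) (nat_lit 402) (nat_lit 349) (nat_lit 113)))) (XT.nd (nat_lit 94) (nat_lit 336) (nat_lit 0) (XT.lf (nat_lit 0) (nat_lit 66220195256) (nat_lit 252) (nat_lit 2042323686) (nat_lit 336) (nat_lit 5985964862) (nat_lit 40) (nat_lit 5) (nat_lit 43) (nat_lit 5) (nat_lit 44) (nat_lit 5) (nat_lit 403) (nat_lit 349) (nat_lit 112)) (XT.nd (nat_lit 94) (nat_lit 0) (nat_lit 0) (XT.lf (nat_lit 0) (nat_lit 1569101730) (nat_lit 336) (nat_lit 58746518891) (nat_lit 84) (nat_lit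 15629928431) (nat_lit 36) (nat_lit 5) (nat_lit 40) (nat_lit 5) (nat_lit 37) (nat_lit 5) (nat_lit 404) (nat_lit 349) (nat_lit 111)) (XT.lf (nat_lit 0) (nat_lit 9338780798) (nat_lit 336) (nat_lit 34398093230) (nat_lit 84) (nat_lit 33953206275) (nat_lit 36) (nat_lit 5) (nat_lit 40) (nat_lit 5) (nat_lit 37) (nat_lit 5) (nat_lit 405) (nat_lit 349) (nat_lit 110))))))) (XT.nd (nat_lit 1128) (nat_lit 168) (nat_lit 0) (XT.nd (nat_lit 564) (nat_lit 504) (nat_lit 0) (XT.nd (nat_lit 282) (nat_lit 252) (nat_lit 0) (XT.nd (nat_lit 94) (nat_lit 252) (nat_lit 0) (XT.lf (nat_lit 0) (nat_lit 17348547736) (nat_lit 336) (nat_lit 9295924910) (nat_lit 84) (nat_lit 52844245310) (nat_lit 36) (nat_lit 5) (nat_lit 40) (nat_lit 5) (nat_lit 37) (nat_lit 5) (nat_lit 406) (nat_lit 349) (nat_lit 109)) (XT.nd (nat_lit 94) (nat_lit 0) (nat_lit 0) (XT.lf (nat_lit 0) (nat_lit 16924372305) (nat_lit 252) (nat_lit 8849388051)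 (nat_lit 336) (nat_lit 55564173527) (nat_lit 33) (nat_lit 5) (nat_lit 36) (nat_lit 5) (nat_lit 37) (nat_lit 5) (nat_lit 407) (nat_lit 349) (nat_lit 108)) (XT.lf (nat_lit 0) (nat_lit 34651652882) (nat_lit 336) (nat_lit 39183145576) (nat_lit 84) (nat_lit 9403742477) (nat_lit 33) (nat_lit 5) (nat_lit 37) (nat_lit 5) (nat_lit 34) (nat_lit 5) (nat_lit 408) (nat_lit 349) (nat_lit 107)))) (XT.nd (nat_lit 94) (nat_lit 252) (nat_lit 0) (XT.lf (nat_lit 0) (nat_lit 43894551428) (nat_lit 336) (nat_lit 13262102130) (nat_lit 84) (nat_lit 28038631538) (nat_lit 33) (nat_lit 5) (nat_lit 37) (nat_lit 5) (nat_lit 34) (nat_lit 5) (nat_lit 409) (nat_lit 349) (nat_lit 106)) (XT.nd (nat_lit 94) (nat_lit 0) (nat_lit 0) (XT.lf (nat_lit 0) (nat_lit 13738313307) (nat_lit 252) (nat_lit 39821256780) (nat_lit 336) (nat_lit 33648916707) (nat_lit 30) (nat_lit 5) (nat_lit 33) (nat_lit 5) (nat_lit 34) (nat_lit 5) (nat_lit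 410) (nat_lit 349) (nat_lit 105)) (XT.lf (nat_lit 0) (nat_lit 41855924358) (nat_lit 252) (nat_lit 21806024925) (nat_lit 336) (nat_lit 25617880082) (nat_lit 30) (nat_lit 5) (nat_lit 33) (nat_lit 5) (nat_lit 34) (nat_lit 5) (nat_lit 411) (nat_lit 349) (nat_lit 104))))) (XT.nd (nat_lit 282) (nat_lit 252) (nat_lit 0) (XT.nd (nat_lit 94) (nat_lit 252) (nat_lit 0) (XT.lf (nat_lit 0) (nat_lit 70844243560) (nat_lit 252) (nat_lit 3232595057) (nat_lit 336) (nat_lit 17338567174) (nat_lit 30) (nat_lit 5) (nat_lit 33) (nat_lit 5) (nat_lit 34) (nat_lit 5) (nat_lit 412) (nat_lit 349) (nat_lit 103)) (XT.nd (nat_lit 94) (nat_lit 84) (nat_lit 0) (XT.lf (nat_lit 0) (nat_lit 7098205314) (nat_lit 168) (nat_lit 77944047735) (nat_lit 252) (nat_lit 8567876081) (nat_lit 28) (nat_lit 5) (nat_lit 30) (nat_lit 5) (nat_lit 31) (nat_lit 5) (nat_lit 413) (nat_lit 349) (nat_lit 102)) (XT.lf (nat_lit 0) (nat_lit 714476810)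 (nat_lit 252) (nat_lit 59845712423) (nat_lit 84) (nat_lit 35304825818) (nat_lit 27) (nat_lit 5) (nat_lit 30) (nat_lit 5) (nat_lit 28) (nat_lit 5) (nat_lit 414) (nat_lit 349) (nat_lit 101)))) (XT.nd (nat_lit 94) (nat_lit 252) (nat_lit 0) (XT.lf (nat_lit 0) (nat_lit 10105983041) (nat_lit 252) (nat_lit 32441383496) (nat_lit 84) (nat_lit 55639740229) (nat_lit 27) (nat_lit 5) (nat_lit 30) (nat_lit 5) (nat_lit 28) (nat_lit 5) (nat_lit 415) (nat_lit 349) (nat_lit 100)) (XT.nd (nat_lit 94) (nat_lit 252) (nat_lit 0) (XT.lf (nat_lit 0) (nat_lit 19788020089) (nat_lit 252) (nat_lit 4188398937) (nat_lit 84) (nat_lit 76604784507) (nat_lit 27) (nat_lit 5) (nat_lit 30) (nat_lit 5) (nat_lit 28) (nat_lit 5) (nat_lit 416) (nat_lit 349) (nat_lit 99)) (XT.lf (nat_lit 0) (nat_lit 25452384827) (nat_lit 252) (nat_lit 4569718608) (nat_lit 336) (nat_lit 73019606252) (nat_lit 24) (nat_lit 5) (nat_lit 27) (nat_lit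 5) (nat_lit 28) (nat_lit 5) (nat_lit 417) (nat_lit 349) (nat_lit 98)))))) (XT.nd (nat_lit 48128) (nat_lit 0) (nat_lit 7728) (XT.nd (nat_lit 47846) (nat_lit 0) (nat_lit 7728) (XT.nd (nat_lit 94) (nat_lit 168) (nat_lit 0) (XT.lf (nat_lit 0) (nat_lit 40770180527) (nat_lit 336) (nat_lit 49630771538) (nat_lit 84) (nat_lit 15171441957) (nat_lit 24) (nat_lit 5) (nat_lit 28) (nat_lit 5) (nat_lit 25) (nat_lit 5) (nat_lit 418) (nat_lit 349) (nat_lit 97)) (XT.nd (nat_lit 94) (nat_lit 168) (nat_lit 0) (XT.lf (nat_lit 0) (nat_lit 51897621962) (nat_lit 336) (nat_lit 20853074833) (nat_lit 84) (nat_lit 35429402686) (nat_lit 24) (nat_lit 5) (nat_lit 28) (nat_lit 5) (nat_lit 25) (nat_lit 5) (nat_lit 419) (nat_lit 349) (nat_lit 96)) (XT.lf (nat_lit 0) (nat_lit 8997194677) (nat_lit 168) (nat_lit 54461526114) (nat_lit 252) (nat_lit 47407174374) (nat_lit 22) (nat_lit 5) (nat_lit 24) (nat_lit 5) (nat_lit 25)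 (nat_lit 5) (nat_lit 420) (nat_lit 349) (nat_lit 95)))) (XT.nd (nat_lit 94) (nat_lit 0) (nat_lit 0) (XT.lf (nat_lit 0) (nat_lit 2757254661) (nat_lit 0) (nat_lit 2757254661) (nat_lit 1092) (nat_lit 8235045564) (nat_lit 114) (nat_lit 5) (nat_lit 114) (nat_lit 3) (nat_lit 127) (nat_lit 3) (nat_lit 350) (nat_lit 350) (nat_lit 164)) (XT.nd (nat_lit 94) (nat_lit 0) (nat_lit 0) (XT.lf (nat_lit 0) (nat_lit 11326748616) (nat_lit 1092) (nat_lit 11525757424) (nat_lit 1176) (nat_lit 5068627383) (nat_lit 114) (nat_lit 5) (nat_lit 127) (nat_lit 3) (nat_lit 128) (nat_lit 5) (nat_lit 351) (nat_lit 350) (nat_lit 163)) (XT.lf (nat_lit 0) (nat_lit 11687082861) (nat_lit 1092) (nat_lit 800731899) (nat_lit 1176) (nat_lit 15866781812) (nat_lit 114) (nat_lit 5) (nat_lit 127) (nat_lit 3) (nat_lit 128) (nat_lit 5) (nat_lit 352) (nat_lit 350) (nat_lit 162))))) (XT.nd (nat_lit 282) (nat_lit 0) (nat_lit 168) (XT.nd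 (nat_lit 94) (nat_lit 0) (nat_lit 84) (XT.lf (nat_lit 84) (nat_lit 10466045068) (nat_lit 0) (nat_lit 1693432026) (nat_lit 1176) (nat_lit 16638903442) (nat_lit 115) (nat_lit 5) (nat_lit 114) (nat_lit 5) (nat_lit 128) (nat_lit 5) (nat_lit 353) (nat_lit 350) (nat_lit 161)) (XT.nd (nat_lit 94) (nat_lit 0) (nat_lit 0) (XT.lf (nat_lit 0) (nat_lit 12745711658) (nat_lit 1092) (nat_lit 7251970969) (nat_lit 1176) (nat_lit 9255174801) (nat_lit 115) (nat_lit 5) (nat_lit 128) (nat_lit 5) (nat_lit 129) (nat_lit 5) (nat_lit 354) (nat_lit 350) (nat_lit 160)) (XT.lf (nat_lit 84) (nat_lit 4238320559) (nat_lit 0) (nat_lit 9168399642) (nat_lit 1176) (nat_lit 16312958662) (nat_lit 116) (nat_lit 5) (nat_lit 115) (nat_lit 5) (nat_lit 129) (nat_lit 5) (nat_lit 355) (nat_lit 350) (nat_lit 159)))) (XT.nd (nat_lit 94) (nat_lit 0) (nat_lit 0) (XT.lf (nat_lit 0) (nat_lit 14181810250) (nat_lit 1092) (nat_lit 13982381648)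 (nat_lit 1176) (nat_lit 2033888637) (nat_lit 116) (nat_lit 5) (nat_lit 129) (nat_lit 5) (nat_lit 130) (nat_lit 5) (nat_lit 356) (nat_lit 350) (nat_lit 158)) (XT.nd (nat_lit 94) (nat_lit 0) (nat_lit 0) (XT.lf (nat_lit 0) (nat_lit 15072093934) (nat_lit 1092) (nat_lit 2222380940) (nat_lit 1176) (nat_lit 13394021411) (nat_lit 116) (nat_lit 5) (nat_lit 129) (nat_lit 5) (nat_lit 130) (nat_lit 5) (nat_lit 357) (nat_lit 350) (nat_lit 157)) (XT.lf (nat_lit 84) (nat_lit 10104132788) (nat_lit 0) (nat_lit 5983550892) (nat_lit 1176) (nat_lit 15103411794) (nat_lit 117) (nat_lit 5) (nat_lit 116) (nat_lit 5) (nat_lit 130) (nat_lit 5) (nat_lit 358) (nat_lit 350) (nat_lit 156))))))))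
noncomputable def xc210 : XT := (XT.nd (nat_lit 2256) (nat_lit 3360) (nat_lit 0) (XT.nd (nat_lit 1128) (nat_lit 2016) (nat_lit 0) (XT.nd (nat_lit 564) (nat_lit 1428) (nat_lit 0) (XT.nd (nat_lit 282) (nat_lit 0) (nat_lit 84) (XT.nd (nat_lit 94) (nat_lit 0) (nat_lit 0) (XT.lf (nat_lit 0) (nat_lit 17212059239) (nat_lit 1092) (nat_lit 8906938737) (nat_lit 1176) (nat_lit 5587890069) (nat_lit 117) (nat_lit 5) (nat_lit 130) (nat_lit 5) (nat_lit 131) (nat_lit 5) (nat_lit 359) (nat_lit 350) (nat_lit 155)) (XT.nd (nat_lit 94) (nat_lit 0) (nat_lit 0) (XT.lf (nat_lit 84) (nat_lit 3661591818) (nat_lit 0) (nat_lit 14804835238) (nat_lit 1176) (nat_lit 13769302808) (nat_lit 118) (nat_lit 5) (nat_lit 117) (nat_lit 5) (nat_lit 131) (nat_lit 5) (nat_lit 360) (nat_lit 350) (nat_lit 154)) (XT.lf (nat_lit 84) (nat_lit 16806936542) (nat_lit 0) (nat_lit 3043384928) (nat_lit 1176) (nat_lit 12927843078) (nat_lit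 118) (nat_lit 5) (nat_lit 117) (nat_lit 5) (nat_lit 131) (nat_lit 5) (nat_lit 361) (nat_lit 350) (nat_lit 153)))) (XT.nd (nat_lit 94) (nat_lit 0) (nat_lit 0) (XT.lf (nat_lit 0) (nat_lit 21364965572) (nat_lit 1092) (nat_lit 3069397689) (nat_lit 1176) (nat_lit 8900336511) (nat_lit 118) (nat_lit 5) (nat_lit 131) (nat_lit 5) (nat_lit 132) (nat_lit 5) (nat_lit 362) (nat_lit 350) (nat_lit 152)) (XT.nd (nat_lit 94) (nat_lit 0) (nat_lit 0) (XT.lf (nat_lit 84) (nat_lit 10409369755) (nat_lit 0) (nat_lit 12649398260) (nat_lit 1176) (nat_lit 10845629372) (nat_lit 119) (nat_lit 5) (nat_lit 118) (nat_lit 5) (nat_lit 132) (nat_lit 5) (nat_lit 363) (nat_lit 350) (nat_lit 151)) (XT.lf (nat_lit 84) (nat_lit 24369446450) (nat_lit 0) (nat_lit 465535359) (nat_lit 1176) (nat_lit 9655854698) (nat_lit 119) (nat_lit 5) (nat_lit 118) (nat_lit 5) (nat_lit 132) (nat_lit 5) (nat_lit 364) (nat_lit 350) (nat_lit 150)))))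 (XT.nd (nat_lit 282) (nat_lit 1596) (nat_lit 0) (XT.nd (nat_lit 94) (nat_lit 0) (nat_lit 0) (XT.lf (nat_lit 84) (nat_lit 3618101936) (nat_lit 0) (nat_lit 23201976972) (nat_lit 1176) (nat_lit 8270615541) (nat_lit 120) (nat_lit 5) (nat_lit 119) (nat_lit 5) (nat_lit 133) (nat_lit 5) (nat_lit 365) (nat_lit 350) (nat_lit 149)) (XT.nd (nat_lit 94) (nat_lit 0) (nat_lit 84) (XT.lf (nat_lit 84) (nat_lit 17991612662) (nat_lit 0) (nat_lit 10983441695) (nat_lit 1176) (nat_lit 6730742501) (nat_lit 120) (nat_lit 5) (nat_lit 119) (nat_lit 5) (nat_lit 133) (nat_lit 5) (nat_lit 366) (nat_lit 350) (nat_lit 148)) (XT.lf (nat_lit 0) (nat_lit 31210889089) (nat_lit 1092) (nat_lit 3546912698) (nat_lit 84) (nat_lit 1581737145) (nat_lit 120) (nat_lit 5) (nat_lit 133) (nat_lit 5) (nat_lit 121) (nat_lit 5) (nat_lit 367) (nat_lit 350) (nat_lit 147)))) (XT.nd (nat_lit 94) (nat_lit 588) (nat_lit 0) (XT.lf (nat_lit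 0) (nat_lit 11170685398) (nat_lit 1092) (nat_lit 22566602698) (nat_lit 1176) (nat_lit 3248787041) (nat_lit 107) (nat_lit 5) (nat_lit 120) (nat_lit 5) (nat_lit 121) (nat_lit 5) (nat_lit 368) (nat_lit 350) (nat_lit 146)) (XT.nd (nat_lit 94) (nat_lit 588) (nat_lit 0) (XT.lf (nat_lit 0) (nat_lit 26418149342) (nat_lit 1092) (nat_lit 9959024081) (nat_lit 1176) (nat_lit 1274397107) (nat_lit 107) (nat_lit 5) (nat_lit 120) (nat_lit 5) (nat_lit 121) (nat_lit 5) (nat_lit 369) (nat_lit 350) (nat_lit 145)) (XT.lf (nat_lit 0) (nat_lit 813047515) (nat_lit 588) (nat_lit 34497530028) (nat_lit 84) (nat_lit 3024808282) (nat_lit 100) (nat_lit 5) (nat_lit 107) (nat_lit 5) (nat_lit 101) (nat_lit 5) (nat_lit 370) (nat_lit 350) (nat_lit 144)))))) (XT.nd (nat_lit 564) (nat_lit 924) (nat_lit 0) (XT.nd (nat_lit 282) (nat_lit 504) (nat_lit 0) (XT.nd (nat_lit 94) (nat_lit 588) (nat_lit 0) (XT.lf (nat_lit 0) (nat_lit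 3157259297) (nat_lit 588) (nat_lit 19539987098) (nat_lit 84) (nat_lit 16335980735) (nat_lit 100) (nat_lit 5) (nat_lit 107) (nat_lit 5) (nat_lit 101) (nat_lit 5) (nat_lit 371) (nat_lit 350) (nat_lit 143)) (XT.nd (nat_lit 94) (nat_lit 588) (nat_lit 0) (XT.lf (nat_lit 0) (nat_lit 5572413325) (nat_lit 588) (nat_lit 4120328589) (nat_lit 84) (nat_lit 30060019173) (nat_lit 100) (nat_lit 5) (nat_lit 107) (nat_lit 5) (nat_lit 101) (nat_lit 5) (nat_lit 372) (nat_lit 350) (nat_lit 142)) (XT.lf (nat_lit 0) (nat_lit 8218053525) (nat_lit 672) (nat_lit 28511082523) (nat_lit 84) (nat_lit 3760646252) (nat_lit 93) (nat_lit 5) (nat_lit 101) (nat_lit 5) (nat_lit 94) (nat_lit 5) (nat_lit 373) (nat_lit 350) (nat_lit 141)))) (XT.nd (nat_lit 94) (nat_lit 504) (nat_lit 0) (XT.lf (nat_lit 0) (nat_lit 11086650625) (nat_lit 672) (nat_lit 12685308466) (nat_lit 84) (nat_lit 17473328515) (nat_lit 93) (nat_lit 5) (nat_lit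 101) (nat_lit 5) (nat_lit 94) (nat_lit 5) (nat_lit 374) (nat_lit 350) (nat_lit 140)) (XT.nd (nat_lit 94) (nat_lit 0) (nat_lit 0) (XT.lf (nat_lit 0) (nat_lit 3704179007) (nat_lit 504) (nat_lit 10375150896) (nat_lit 588) (nat_lit 27943799315) (nat_lit 87) (nat_lit 5) (nat_lit 93) (nat_lit 5) (nat_lit 94) (nat_lit 5) (nat_lit 375) (nat_lit 350) (nat_lit 139)) (XT.lf (nat_lit 0) (nat_lit 17331083359) (nat_lit 588) (nat_lit 21987321384) (nat_lit 84) (nat_lit 3501529147) (nat_lit 87) (nat_lit 5) (nat_lit 94) (nat_lit 5) (nat_lit 88) (nat_lit 5) (nat_lit 376) (nat_lit 350) (nat_lit 138))))) (XT.nd (nat_lit 282) (nat_lit 420) (nat_lit 0) (XT.nd (nat_lit 94) (nat_lit 504) (nat_lit 0) (XT.lf (nat_lit 0) (nat_lit 20788244602) (nat_lit 588) (nat_lit 5257034000) (nat_lit 84) (nat_lit 17592923343) (nat_lit 87) (nat_lit 5) (nat_lit 94) (nat_lit 5) (nat_lit 88) (nat_lit 5) (nat_lit 377) (nat_lit 350)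 (nat_lit 137)) (XT.nd (nat_lit 94) (nat_lit 0) (nat_lit 0) (XT.lf (nat_lit 0) (nat_lit 12236976915) (nat_lit 504) (nat_lit 12235528699) (nat_lit 588) (nat_lit 20005617925) (nat_lit 81) (nat_lit 5) (nat_lit 87) (nat_lit 5) (nat_lit 88) (nat_lit 5) (nat_lit 378) (nat_lit 350) (nat_lit 136)) (XT.lf (nat_lit 0) (nat_lit 28344840863) (nat_lit 588) (nat_lit 14979555202) (nat_lit 84) (nat_lit 2017401749) (nat_lit 81) (nat_lit 5) (nat_lit 88) (nat_lit 5) (nat_lit 82) (nat_lit 5) (nat_lit 379) (nat_lit 350) (nat_lit 135)))) (XT.nd (nat_lit 94) (nat_lit 0) (nat_lit 0) (XT.lf (nat_lit 0) (nat_lit 2745875614) (nat_lit 420) (nat_lit 29742331120) (nat_lit 504) (nat_lit 13739363318) (nat_lit 76) (nat_lit 5) (nat_lit 81) (nat_lit 5) (nat_lit 82) (nat_lit 5) (nat_lit 380) (nat_lit 350) (nat_lit 134)) (XT.nd (nat_lit 94) (nat_lit 0) (nat_lit 0) (XT.lf (nat_lit 0) (nat_lit 21336915655) (nat_lit 420) (nat_lit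 15578092840) (nat_lit 504) (nat_lit 10220992549) (nat_lit 76) (nat_lit 5) (nat_lit 81) (nat_lit 5) (nat_lit 82) (nat_lit 5) (nat_lit 381) (nat_lit 350) (nat_lit 133)) (XT.lf (nat_lit 0) (nat_lit 40502883339) (nat_lit 420) (nat_lit 974834507) (nat_lit 504) (nat_lit 6594920988) (nat_lit 76) (nat_lit 5) (nat_lit 81) (nat_lit 5) (nat_lit 82) (nat_lit 5) (nat_lit 382) (nat_lit 350) (nat_lit 132))))))) (XT.nd (nat_lit 1128) (nat_lit 1344) (nat_lit 0) (XT.nd (nat_lit 564) (nat_lit 672) (nat_lit 0) (XT.nd (nat_lit 282) (nat_lit 420) (nat_lit 0) (XT.nd (nat_lit 94) (nat_lit 504) (nat_lit 0) (XT.lf (nat_lit 0) (nat_lit 11311502642) (nat_lit 420) (nat_lit 35120982390) (nat_lit 504) (nat_lit 2598062618) (nat_lit 71) (nat_lit 5) (nat_lit 76) (nat_lit 5) (nat_lit 77) (nat_lit 5) (nat_lit 383) (nat_lit 350) (nat_lit 131)) (XT.nd (nat_lit 94) (nat_lit 420) (nat_lit 0) (XT.lf (nat_lit 0) (nat_lit 1580534271)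 (nat_lit 504) (nat_lit 19104443547) (nat_lit 84) (nat_lit 29329965624) (nat_lit 70) (nat_lit 5) (nat_lit 76) (nat_lit 5) (nat_lit 71) (nat_lit 5) (nat_lit 384) (nat_lit 350) (nat_lit 130)) (XT.lf (nat_lit 0) (nat_lit 60487451) (nat_lit 420) (nat_lit 5773574547) (nat_lit 504) (nat_lit 45194993450) (nat_lit 65) (nat_lit 5) (nat_lit 70) (nat_lit 5) (nat_lit 71) (nat_lit 5) (nat_lit 385) (nat_lit 350) (nat_lit 129)))) (XT.nd (nat_lit 94) (nat_lit 420) (nat_lit 0) (XT.lf (nat_lit 0) (nat_lit 10514918331) (nat_lit 504) (nat_lit 31942557096) (nat_lit 84) (nat_lit 9607973745) (nat_lit 65) (nat_lit 5) (nat_lit 71) (nat_lit 5) (nat_lit 66) (nat_lit 5) (nat_lit 386) (nat_lit 350) (nat_lit 128)) (XT.nd (nat_lit 94) (nat_lit 420) (nat_lit 0) (XT.lf (nat_lit 0) (nat_lit 15398752367) (nat_lit 504) (nat_lit 12387143851) (nat_lit 84) (nat_lit 25346284553) (nat_lit 65) (nat_lit 5) (nat_lit 71) (nat_lit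 5) (nat_lit 66) (nat_lit 5) (nat_lit 387) (nat_lit 350) (nat_lit 127)) (XT.lf (nat_lit 0) (nat_lit 7933006403) (nat_lit 420) (nat_lit 12578531780) (nat_lit 504) (nat_lit 33718042294) (nat_lit 60) (nat_lit 5) (nat_lit 65) (nat_lit 5) (nat_lit 66) (nat_lit 5) (nat_lit 388) (nat_lit 350) (nat_lit 126))))) (XT.nd (nat_lit 282) (nat_lit 336) (nat_lit 0) (XT.nd (nat_lit 94) (nat_lit 336) (nat_lit 0) (XT.lf (nat_lit 0) (nat_lit 25943070349) (nat_lit 504) (nat_lit 26244722880) (nat_lit 84) (nat_lit 3168242054) (nat_lit 60) (nat_lit 5) (nat_lit 66) (nat_lit 5) (nat_lit 61) (nat_lit 5) (nat_lit 389) (nat_lit 350) (nat_lit 125)) (XT.nd (nat_lit 94) (nat_lit 336) (nat_lit 0) (XT.lf (nat_lit 0) (nat_lit 31670538833) (nat_lit 504) (nat_lit 5701209288) (nat_lit 84) (nat_lit 19141711099) (nat_lit 60) (nat_lit 5) (nat_lit 66) (nat_lit 5) (nat_lit 61) (nat_lit 5) (nat_lit 390) (nat_lit 350) (nat_lit 124))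 (XT.lf (nat_lit 0) (nat_lit 15796153286) (nat_lit 336) (nat_lit 21935048153) (nat_lit 420) (nat_lit 19970740193) (nat_lit 56) (nat_lit 5) (nat_lit 60) (nat_lit 5) (nat_lit 61) (nat_lit 5) (nat_lit 391) (nat_lit 350) (nat_lit 123)))) (XT.nd (nat_lit 94) (nat_lit 336) (nat_lit 0) (XT.lf (nat_lit 0) (nat_lit 38079552246) (nat_lit 336) (nat_lit 5958663519) (nat_lit 420) (nat_lit 14887241784) (nat_lit 56) (nat_lit 5) (nat_lit 60) (nat_lit 5) (nat_lit 61) (nat_lit 5) (nat_lit 392) (nat_lit 350) (nat_lit 122)) (XT.nd (nat_lit 94) (nat_lit 0) (nat_lit 0) (XT.lf (nat_lit 0) (nat_lit 776958592) (nat_lit 336) (nat_lit 49874778080) (nat_lit 420) (nat_lit 9531728186) (nat_lit 52) (nat_lit 5) (nat_lit 56) (nat_lit 5) (nat_lit 57) (nat_lit 5) (nat_lit 393) (nat_lit 350) (nat_lit 121)) (XT.lf (nat_lit 0) (nat_lit 23448630476) (nat_lit 336) (nat_lit 34298570480) (nat_lit 420) (nat_lit 3724687756) (nat_lit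 52) (nat_lit 5) (nat_lit 56) (nat_lit 5) (nat_lit 57) (nat_lit 5) (nat_lit 394) (nat_lit 350) (nat_lit 120)))))) (XT.nd (nat_lit 564) (nat_lit 588) (nat_lit 0) (XT.nd (nat_lit 282) (nat_lit 336) (nat_lit 0) (XT.nd (nat_lit 94) (nat_lit 336) (nat_lit 0) (XT.lf (nat_lit 0) (nat_lit 2215815940) (nat_lit 420) (nat_lit 16000785240) (nat_lit 84) (nat_lit 44582989757) (nat_lit 51) (nat_lit 5) (nat_lit 56) (nat_lit 5) (nat_lit 52) (nat_lit 5) (nat_lit 395) (nat_lit 350) (nat_lit 119)) (XT.nd (nat_lit 94) (nat_lit 0) (nat_lit 0) (XT.lf (nat_lit 0) (nat_lit 6802161766) (nat_lit 336) (nat_lit 1527477256) (nat_lit 420) (nat_lit 55835572117) (nat_lit 47) (nat_lit 5) (nat_lit 51) (nat_lit 5) (nat_lit 52) (nat_lit 5) (nat_lit 396) (nat_lit 350) (nat_lit 118)) (XT.lf (nat_lit 0) (nat_lit 14956322381) (nat_lit 420) (nat_lit 35075218978) (nat_lit 84) (nat_lit 15531603551) (nat_lit 47) (nat_lit 5) (nat_lit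 52) (nat_lit 5) (nat_lit 48) (nat_lit 5) (nat_lit 397) (nat_lit 350) (nat_lit 117)))) (XT.nd (nat_lit 94) (nat_lit 336) (nat_lit 0) (XT.lf (nat_lit 0) (nat_lit 21803153861) (nat_lit 420) (nat_lit 12113245826) (nat_lit 84) (nat_lit 33087561141) (nat_lit 47) (nat_lit 5) (nat_lit 52) (nat_lit 5) (nat_lit 48) (nat_lit 5) (nat_lit 398) (nat_lit 350) (nat_lit 116)) (XT.nd (nat_lit 94) (nat_lit 0) (nat_lit 0) (XT.lf (nat_lit 0) (nat_lit 11797111313) (nat_lit 336) (nat_lit 17181280155) (nat_lit 420) (nat_lit 39507452259) (nat_lit 43) (nat_lit 5) (nat_lit 47) (nat_lit 5) (nat_lit 48) (nat_lit 5) (nat_lit 399) (nat_lit 350) (nat_lit 115)) (XT.lf (nat_lit 0) (nat_lit 36503650837) (nat_lit 420) (nat_lit 33307412951) (nat_lit 84) (nat_lit 198648336) (nat_lit 43) (nat_lit 5) (nat_lit 48) (nat_lit 5) (nat_lit 44) (nat_lit 5) (nat_lit 400) (nat_lit 350) (nat_lit 114))))) (XT.nd (nat_lit 282) (nat_lit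 336) (nat_lit 0) (XT.nd (nat_lit 94) (nat_lit 252) (nat_lit 0) (XT.lf (nat_lit 0) (nat_lit 44437081547) (nat_lit 420) (nat_lit 9378100299) (nat_lit 84) (nat_lit 17760219383) (nat_lit 43) (nat_lit 5) (nat_lit 48) (nat_lit 5) (nat_lit 44) (nat_lit 5) (nat_lit 401) (nat_lit 350) (nat_lit 113)) (XT.nd (nat_lit 94) (nat_lit 0) (nat_lit 0) (XT.lf (nat_lit 0) (nat_lit 15606384461) (nat_lit 252) (nat_lit 37164070767) (nat_lit 336) (nat_lit 20414399520) (nat_lit 40) (nat_lit 5) (nat_lit 43) (nat_lit 5) (nat_lit 44) (nat_lit 5) (nat_lit 402) (nat_lit 350) (nat_lit 112)) (XT.lf (nat_lit 0) (nat_lit 41563139434) (nat_lit 252) (nat_lit 19896115409) (nat_lit 336) (nat_lit 13381938839) (nat_lit 40) (nat_lit 5) (nat_lit 43) (nat_lit 5) (nat_lit 44) (nat_lit 5) (nat_lit 403) (nat_lit 350) (nat_lit 111)))) (XT.nd (nat_lit 94) (nat_lit 336) (nat_lit 0) (XT.lf (nat_lit 0) (nat_lit 68323526057) (nat_lit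 252) (nat_lit 2093108362) (nat_lit 336) (nat_lit 6132270783) (nat_lit 40) (nat_lit 5) (nat_lit 43) (nat_lit 5) (nat_lit 44) (nat_lit 5) (nat_lit 404) (nat_lit 350) (nat_lit 110)) (XT.nd (nat_lit 94) (nat_lit 0) (nat_lit 0) (XT.lf (nat_lit 0) (nat_lit 1655689503) (nat_lit 336) (nat_lit 60515643573) (nat_lit 84) (nat_lit 16127253560) (nat_lit 36) (nat_lit 5) (nat_lit 40) (nat_lit 5) (nat_lit 37) (nat_lit 5) (nat_lit 405) (nat_lit 350) (nat_lit 109)) (XT.lf (nat_lit 0) (nat_lit 9665087677) (nat_lit 336) (nat_lit 35413980771) (nat_lit 84) (nat_lit 35018168228) (nat_lit 36) (nat_lit 5) (nat_lit 40) (nat_lit 5) (nat_lit 37) (nat_lit 5) (nat_lit 406) (nat_lit 350) (nat_lit 108))))))))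
noncomputable def xc211 : XT := (XT.nd (nat_lit 49914) (nat_lit 0) (nat_lit 3948) (XT.nd (nat_lit 1128) (nat_lit 0) (nat_lit 0) (XT.nd (nat_lit 564) (nat_lit 504) (nat_lit 0) (XT.nd (nat_lit 282) (nat_lit 252) (nat_lit 0) (XT.nd (nat_lit 94) (nat_lit 252) (nat_lit 0) (XT.lf (nat_lit 0) (nat_lit 17922050752) (nat_lit 336) (nat_lit 9535162259) (nat_lit 84) (nat_lit 54494456253) (nat_lit 36) (nat_lit 5) (nat_lit 40) (nat_lit 5) (nat_lit 37) (nat_lit 5) (nat_lit 407) (nat_lit 350) (nat_lit 107)) (XT.nd (nat_lit 94) (nat_lit 0) (nat_lit 0) (XT.lf (nat_lit 0) (nat_lit 17497468733) (nat_lit 252) (nat_lit 9110383404) (nat_lit 336) (nat_lit 57250379900) (nat_lit 33) (nat_lit 5) (nat_lit 36) (nat_lit 5) (nat_lit 37) (nat_lit 5) (nat_lit 408) (nat_lit 350) (nat_lit 106)) (XT.lf (nat_lit 0) (nat_lit 35760032106) (nat_lit 336) (nat_lit 40349824649) (nat_lit 84) (nat_lit 9707932590) (nat_lit 33) (nat_lit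 5) (nat_lit 37) (nat_lit 5) (nat_lit 34) (nat_lit 5) (nat_lit 409) (nat_lit 350) (nat_lit 105)))) (XT.nd (nat_lit 94) (nat_lit 252) (nat_lit 0) (XT.lf (nat_lit 0) (nat_lit 45288432846) (nat_lit 336) (nat_lit 13626672068) (nat_lit 84) (nat_lit 28920122128) (nat_lit 33) (nat_lit 5) (nat_lit 37) (nat_lit 5) (nat_lit 34) (nat_lit 5) (nat_lit 410) (nat_lit 350) (nat_lit 104)) (XT.nd (nat_lit 94) (nat_lit 0) (nat_lit 0) (XT.lf (nat_lit 0) (nat_lit 14210284918) (nat_lit 252) (nat_lit 41042242564) (nat_lit 336) (nat_lit 34658329772) (nat_lit 30) (nat_lit 5) (nat_lit 33) (nat_lit 5) (nat_lit 34) (nat_lit 5) (nat_lit 411) (nat_lit 350) (nat_lit 103)) (XT.lf (nat_lit 0) (nat_lit 43198156265) (nat_lit 252) (nat_lit 22468943631) (nat_lit 336) (nat_lit 26379344401) (nat_lit 30) (nat_lit 5) (nat_lit 33) (nat_lit 5) (nat_lit 34) (nat_lit 5) (nat_lit 412) (nat_lit 350) (nat_lit 102))))) (XT.nd (nat_lit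 282) (nat_lit 252) (nat_lit 0) (XT.nd (nat_lit 94) (nat_lit 252) (nat_lit 0) (XT.lf (nat_lit 0) (nat_lit 73083769381) (nat_lit 252) (nat_lit 3320130367) (nat_lit 336) (nat_lit 17844355711) (nat_lit 30) (nat_lit 5) (nat_lit 33) (nat_lit 5) (nat_lit 34) (nat_lit 5) (nat_lit 413) (nat_lit 350) (nat_lit 101)) (XT.nd (nat_lit 94) (nat_lit 84) (nat_lit 0) (XT.lf (nat_lit 0) (nat_lit 7362058065) (nat_lit 168) (nat_lit 80346818047) (nat_lit 252) (nat_lit 8802152763) (nat_lit 28) (nat_lit 5) (nat_lit 30) (nat_lit 5) (nat_lit 31) (nat_lit 5) (nat_lit 414) (nat_lit 350) (nat_lit 100)) (XT.lf (nat_lit 0) (nat_lit 766398916) (nat_lit 252) (nat_lit 61657756015) (nat_lit 84) (nat_lit 36411682481) (nat_lit 27) (nat_lit 5) (nat_lit 30) (nat_lit 5) (nat_lit 28) (nat_lit 5) (nat_lit 415) (nat_lit 350) (nat_lit 99)))) (XT.nd (nat_lit 94) (nat_lit 252) (nat_lit 0) (XT.lf (nat_lit 0) (nat_lit 10448146619)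 (nat_lit 252) (nat_lit 33405191026) (nat_lit 84) (nat_lit 57376606185) (nat_lit 27) (nat_lit 5) (nat_lit 30) (nat_lit 5) (nat_lit 28) (nat_lit 5) (nat_lit 416) (nat_lit 350) (nat_lit 98)) (XT.nd (nat_lit 94) (nat_lit 252) (nat_lit 0) (XT.lf (nat_lit 0) (nat_lit 20429458512) (nat_lit 252) (nat_lit 4277623050) (nat_lit 84) (nat_lit 78991204998) (nat_lit 27) (nat_lit 5) (nat_lit 30) (nat_lit 5) (nat_lit 28) (nat_lit 5) (nat_lit 417) (nat_lit 350) (nat_lit 97)) (XT.lf (nat_lit 0) (nat_lit 26281613807) (nat_lit 252) (nat_lit 4698741278) (nat_lit 336) (nat_lit 75254729048) (nat_lit 24) (nat_lit 5) (nat_lit 27) (nat_lit 5) (nat_lit 28) (nat_lit 5) (nat_lit 418) (nat_lit 350) (nat_lit 96)))))) (XT.nd (nat_lit 48222) (nat_lit 0) (nat_lit 7644) (XT.nd (nat_lit 47940) (nat_lit 0) (nat_lit 7560) (XT.nd (nat_lit 94) (nat_lit 0) (nat_lit 0) (XT.lf (nat_lit 0) (nat_lit 42060915309) (nat_lit 336) (nat_lit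 51129559957) (nat_lit 84) (nat_lit 15653768265) (nat_lit 24) (nat_lit 5) (nat_lit 28) (nat_lit 5) (nat_lit 25) (nat_lit 5) (nat_lit 419) (nat_lit 350) (nat_lit 95)) (XT.nd (nat_lit 47752) (nat_lit 0) (nat_lit 7560) (XT.lf (nat_lit 0) (nat_lit 53532499829) (nat_lit 336) (nat_lit 21460950319) (nat_lit 84) (nat_lit 36539364614) (nat_lit 24) (nat_lit 5) (nat_lit 28) (nat_lit 5) (nat_lit 25) (nat_lit 5) (nat_lit 420) (nat_lit 350) (nat_lit 94)) (XT.lf (nat_lit 0) (nat_lit 2880087686) (nat_lit 0) (nat_lit 2880087686) (nat_lit 1092) (nat_lit 8413019947) (nat_lit 114) (nat_lit 5) (nat_lit 114) (nat_lit 3) (nat_lit 127) (nat_lit 3) (nat_lit 351) (nat_lit 351) (nat_lit 162)))) (XT.nd (nat_lit 94) (nat_lit 0) (nat_lit 0) (XT.lf (nat_lit 0) (nat_lit 11822098319) (nat_lit 1092) (nat_lit 11804831858) (nat_lit 1176) (nat_lit 5154745233) (nat_lit 114) (nat_lit 5) (nat_lit 127) (nat_lit 3) (nat_lit 128)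 (nat_lit 5) (nat_lit 352) (nat_lit 351) (nat_lit 161)) (XT.nd (nat_lit 94) (nat_lit 0) (nat_lit 0) (XT.lf (nat_lit 0) (nat_lit 12189266518) (nat_lit 1092) (nat_lit 749682574) (nat_lit 1176) (nat_lit 16289777559) (nat_lit 114) (nat_lit 5) (nat_lit 127) (nat_lit 3) (nat_lit 128) (nat_lit 5) (nat_lit 353) (nat_lit 351) (nat_lit 160)) (XT.lf (nat_lit 84) (nat_lit 10865596343) (nat_lit 0) (nat_lit 1807247649) (nat_lit 1176) (nat_lit 17013547032) (nat_lit 115) (nat_lit 5) (nat_lit 114) (nat_lit 5) (nat_lit 128) (nat_lit 5) (nat_lit 354) (nat_lit 351) (nat_lit 159))))) (XT.nd (nat_lit 282) (nat_lit 0) (nat_lit 84) (XT.nd (nat_lit 94) (nat_lit 0) (nat_lit 0) (XT.lf (nat_lit 0) (nat_lit 13272559868) (nat_lit 1092) (nat_lit 7398749595) (nat_lit 1176) (nat_lit 9483808028) (nat_lit 115) (nat_lit 5) (nat_lit 128) (nat_lit 5) (nat_lit 129) (nat_lit 5) (nat_lit 355) (nat_lit 351) (nat_lit 158)) (XT.nd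 (nat_lit 94) (nat_lit 0) (nat_lit 84) (XT.lf (nat_lit 84) (nat_lit 4446950961) (nat_lit 0) (nat_lit 9503914090) (nat_lit 1176) (nat_lit 16685659251) (nat_lit 116) (nat_lit 5) (nat_lit 115) (nat_lit 5) (nat_lit 129) (nat_lit 5) (nat_lit 356) (nat_lit 351) (nat_lit 157)) (XT.lf (nat_lit 0) (nat_lit 14745624526) (nat_lit 1092) (nat_lit 14336091625) (nat_lit 1176) (nat_lit 2048189817) (nat_lit 116) (nat_lit 5) (nat_lit 129) (nat_lit 5) (nat_lit 130) (nat_lit 5) (nat_lit 357) (nat_lit 351) (nat_lit 156)))) (XT.nd (nat_lit 94) (nat_lit 0) (nat_lit 0) (XT.lf (nat_lit 0) (nat_lit 15659773229) (nat_lit 1092) (nat_lit 2213928625) (nat_lit 1176) (nat_lit 13761952498) (nat_lit 116) (nat_lit 5) (nat_lit 129) (nat_lit 5) (nat_lit 130) (nat_lit 5) (nat_lit 358) (nat_lit 351) (nat_lit 155)) (XT.nd (nat_lit 94) (nat_lit 0) (nat_lit 84) (XT.lf (nat_lit 84) (nat_lit 10493923968) (nat_lit 0) (nat_lit 6210060293)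 (nat_lit 1176) (nat_lit 15449952151) (nat_lit 117) (nat_lit 5) (nat_lit 116) (nat_lit 5) (nat_lit 130) (nat_lit 5) (nat_lit 359) (nat_lit 351) (nat_lit 154)) (XT.lf (nat_lit 0) (nat_lit 17859285328) (nat_lit 1092) (nat_lit 9104437930) (nat_lit 1176) (nat_lit 5722130300) (nat_lit 117) (nat_lit 5) (nat_lit 130) (nat_lit 5) (nat_lit 131) (nat_lit 5) (nat_lit 360) (nat_lit 351) (nat_lit 153))))))) (XT.nd (nat_lit 1128) (nat_lit 2436) (nat_lit 0) (XT.nd (nat_lit 564) (nat_lit 1428) (nat_lit 0) (XT.nd (nat_lit 282) (nat_lit 0) (nat_lit 84) (XT.nd (nat_lit 94) (nat_lit 0) (nat_lit 0) (XT.lf (nat_lit 84) (nat_lit 3852921157) (nat_lit 0) (nat_lit 15296972090) (nat_lit 1176) (nat_lit 14081291003) (nat_lit 118) (nat_lit 5) (nat_lit 117) (nat_lit 5) (nat_lit 131) (nat_lit 5) (nat_lit 361) (nat_lit 351) (nat_lit 152)) (XT.nd (nat_lit 94) (nat_lit 0) (nat_lit 84) (XT.lf (nat_lit 84) (nat_lit 17403431684)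 (nat_lit 0) (nat_lit 3169918958) (nat_lit 1176) (nat_lit 13217199626) (nat_lit 118) (nat_lit 5) (nat_lit 117) (nat_lit 5) (nat_lit 131) (nat_lit 5) (nat_lit 362) (nat_lit 351) (nat_lit 151)) (XT.lf (nat_lit 0) (nat_lit 22131401606) (nat_lit 1092) (nat_lit 3087403712) (nat_lit 1176) (nat_lit 9145654743) (nat_lit 118) (nat_lit 5) (nat_lit 131) (nat_lit 5) (nat_lit 132) (nat_lit 5) (nat_lit 363) (nat_lit 351) (nat_lit 150)))) (XT.nd (nat_lit 94) (nat_lit 0) (nat_lit 0) (XT.lf (nat_lit 84) (nat_lit 10808424496) (nat_lit 0) (nat_lit 13066914239) (nat_lit 1176) (nat_lit 11076564789) (nat_lit 119) (nat_lit 5) (nat_lit 118) (nat_lit 5) (nat_lit 132) (nat_lit 5) (nat_lit 364) (nat_lit 351) (nat_lit 149)) (XT.nd (nat_lit 94) (nat_lit 0) (nat_lit 84) (XT.lf (nat_lit 84) (nat_lit 25198967456) (nat_lit 0) (nat_lit 504588325) (nat_lit 1176) (nat_lit 9853072621) (nat_lit 119) (nat_lit 5) (nat_lit 118)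 (nat_lit 5) (nat_lit 132) (nat_lit 5) (nat_lit 365) (nat_lit 351) (nat_lit 148)) (XT.lf (nat_lit 84) (nat_lit 3807212533) (nat_lit 0) (nat_lit 23940537416) (nat_lit 1176) (nat_lit 8427418626) (nat_lit 120) (nat_lit 5) (nat_lit 119) (nat_lit 5) (nat_lit 133) (nat_lit 5) (nat_lit 366) (nat_lit 351) (nat_lit 147))))) (XT.nd (nat_lit 282) (nat_lit 588) (nat_lit 0) (XT.nd (nat_lit 94) (nat_lit 1008) (nat_lit 0) (XT.lf (nat_lit 84) (nat_lit 18623988384) (nat_lit 0) (nat_lit 11342647260) (nat_lit 1176) (nat_lit 6842803863) (nat_lit 120) (nat_lit 5) (nat_lit 119) (nat_lit 5) (nat_lit 133) (nat_lit 5) (nat_lit 367) (nat_lit 351) (nat_lit 146)) (XT.nd (nat_lit 94) (nat_lit 1092) (nat_lit 0) (XT.lf (nat_lit 0) (nat_lit 32268794166) (nat_lit 1092) (nat_lit 3581155569) (nat_lit 84) (nat_lit 1612980765) (nat_lit 120) (nat_lit 5) (nat_lit 133) (nat_lit 5) (nat_lit 121) (nat_lit 5) (nat_lit 368) (nat_lit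 351) (nat_lit 145)) (XT.lf (nat_lit 0) (nat_lit 11591921558) (nat_lit 1092) (nat_lit 23279616287) (nat_lit 1176) (nat_lit 3258042673) (nat_lit 107) (nat_lit 5) (nat_lit 120) (nat_lit 5) (nat_lit 121) (nat_lit 5) (nat_lit 369) (nat_lit 351) (nat_lit 144)))) (XT.nd (nat_lit 94) (nat_lit 588) (nat_lit 0) (XT.lf (nat_lit 0) (nat_lit 27309803448) (nat_lit 1092) (nat_lit 10280798352) (nat_lit 1176) (nat_lit 1225196563) (nat_lit 107) (nat_lit 5) (nat_lit 120) (nat_lit 5) (nat_lit 121) (nat_lit 5) (nat_lit 370) (nat_lit 351) (nat_lit 143)) (XT.nd (nat_lit 94) (nat_lit 0) (nat_lit 0) (XT.lf (nat_lit 0) (nat_lit 923183174) (nat_lit 588) (nat_lit 35489888195) (nat_lit 84) (nat_lit 3107784055) (nat_lit 100) (nat_lit 5) (nat_lit 107) (nat_lit 5) (nat_lit 101) (nat_lit 5) (nat_lit 371) (nat_lit 351) (nat_lit 142)) (XT.lf (nat_lit 0) (nat_lit 3337511820) (nat_lit 588) (nat_lit 20070978625) (nat_lit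 84) (nat_lit 16831927385) (nat_lit 100) (nat_lit 5) (nat_lit 107) (nat_lit 5) (nat_lit 101) (nat_lit 5) (nat_lit 372) (nat_lit 351) (nat_lit 141)))))) (XT.nd (nat_lit 564) (nat_lit 1344) (nat_lit 0) (XT.nd (nat_lit 282) (nat_lit 504) (nat_lit 0) (XT.nd (nat_lit 94) (nat_lit 588) (nat_lit 0) (XT.lf (nat_lit 0) (nat_lit 5825058705) (nat_lit 588) (nat_lit 4175558218) (nat_lit 84) (nat_lit 30981725789) (nat_lit 100) (nat_lit 5) (nat_lit 107) (nat_lit 5) (nat_lit 101) (nat_lit 5) (nat_lit 373) (nat_lit 351) (nat_lit 140)) (XT.nd (nat_lit 94) (nat_lit 0) (nat_lit 0) (XT.lf (nat_lit 0) (nat_lit 8550959322) (nat_lit 672) (nat_lit 29320402375) (nat_lit 84) (nat_lit 3870912604) (nat_lit 93) (nat_lit 5) (nat_lit 101) (nat_lit 5) (nat_lit 94) (nat_lit 5) (nat_lit 374) (nat_lit 351) (nat_lit 139)) (XT.lf (nat_lit 0) (nat_lit 11506133242) (nat_lit 672) (nat_lit 13006270093) (nat_lit 84) (nat_lit 18008877856)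 (nat_lit 93) (nat_lit 5) (nat_lit 101) (nat_lit 5) (nat_lit 94) (nat_lit 5) (nat_lit 375) (nat_lit 351) (nat_lit 138)))) (XT.nd (nat_lit 94) (nat_lit 0) (nat_lit 0) (XT.lf (nat_lit 0) (nat_lit 3890559693) (nat_lit 504) (nat_lit 10699456642) (nat_lit 588) (nat_lit 28733276042) (nat_lit 87) (nat_lit 5) (nat_lit 93) (nat_lit 5) (nat_lit 94) (nat_lit 5) (nat_lit 376) (nat_lit 351) (nat_lit 137)) (XT.nd (nat_lit 94) (nat_lit 0) (nat_lit 0) (XT.lf (nat_lit 0) (nat_lit 17940316543) (nat_lit 588) (nat_lit 22597025795) (nat_lit 84) (nat_lit 3607533242) (nat_lit 87) (nat_lit 5) (nat_lit 94) (nat_lit 5) (nat_lit 88) (nat_lit 5) (nat_lit 377) (nat_lit 351) (nat_lit 136)) (XT.lf (nat_lit 0) (nat_lit 21502485810) (nat_lit 588) (nat_lit 5350261461) (nat_lit 84) (nat_lit 18135837130) (nat_lit 87) (nat_lit 5) (nat_lit 94) (nat_lit 5) (nat_lit 88) (nat_lit 5) (nat_lit 378) (nat_lit 351) (nat_lit 135)))))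 (XT.nd (nat_lit 282) (nat_lit 420) (nat_lit 0) (XT.nd (nat_lit 94) (nat_lit 420) (nat_lit 0) (XT.lf (nat_lit 0) (nat_lit 12685357731) (nat_lit 504) (nat_lit 12614187104) (nat_lit 588) (nat_lit 20555049715) (nat_lit 81) (nat_lit 5) (nat_lit 87) (nat_lit 5) (nat_lit 88) (nat_lit 5) (nat_lit 379) (nat_lit 351) (nat_lit 134)) (XT.nd (nat_lit 94) (nat_lit 420) (nat_lit 0) (XT.lf (nat_lit 0) (nat_lit 29289872275) (nat_lit 588) (nat_lit 15374688658) (nat_lit 84) (nat_lit 2080552289) (nat_lit 81) (nat_lit 5) (nat_lit 88) (nat_lit 5) (nat_lit 82) (nat_lit 5) (nat_lit 380) (nat_lit 351) (nat_lit 133)) (XT.lf (nat_lit 0) (nat_lit 2899529595) (nat_lit 420) (nat_lit 30660837993) (nat_lit 504) (nat_lit 14098024301) (nat_lit 76) (nat_lit 5) (nat_lit 81) (nat_lit 5) (nat_lit 82) (nat_lit 5) (nat_lit 381) (nat_lit 351) (nat_lit 132)))) (XT.nd (nat_lit 94) (nat_lit 420) (nat_lit 0) (XT.lf (nat_lit 0)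 (nat_lit 22064831269) (nat_lit 420) (nat_lit 16057613726) (nat_lit 504) (nat_lit 10472606383) (nat_lit 76) (nat_lit 5) (nat_lit 81) (nat_lit 5) (nat_lit 82) (nat_lit 5) (nat_lit 382) (nat_lit 351) (nat_lit 131)) (XT.nd (nat_lit 94) (nat_lit 420) (nat_lit 0) (XT.lf (nat_lit 0) (nat_lit 41822945301) (nat_lit 420) (nat_lit 1001756615) (nat_lit 504) (nat_lit 6736088141) (nat_lit 76) (nat_lit 5) (nat_lit 81) (nat_lit 5) (nat_lit 82) (nat_lit 5) (nat_lit 383) (nat_lit 351) (nat_lit 130)) (XT.lf (nat_lit 0) (nat_lit 11728026007) (nat_lit 420) (nat_lit 36203886617) (nat_lit 504) (nat_lit 2616523343) (nat_lit 71) (nat_lit 5) (nat_lit 76) (nat_lit 5) (nat_lit 77) (nat_lit 5) (nat_lit 384) (nat_lit 351) (nat_lit 129))))))))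
noncomputable def xc212 : XT := (XT.nd (nat_lit 2256) (nat_lit 1008) (nat_lit 0) (XT.nd (nat_lit 1128) (nat_lit 1260) (nat_lit 0) (XT.nd (nat_lit 564) (nat_lit 756) (nat_lit 0) (XT.nd (nat_lit 282) (nat_lit 420) (nat_lit 0) (XT.nd (nat_lit 94) (nat_lit 420) (nat_lit 0) (XT.lf (nat_lit 0) (nat_lit 1688530308) (nat_lit 504) (nat_lit 19631395546) (nat_lit 84) (nat_lit 30243465557) (nat_lit 70) (nat_lit 5) (nat_lit 76) (nat_lit 5) (nat_lit 71) (nat_lit 5) (nat_lit 385) (nat_lit 351) (nat_lit 128)) (XT.nd (nat_lit 94) (nat_lit 0) (nat_lit 0) (XT.lf (nat_lit 0) (nat_lit 126987354) (nat_lit 420) (nat_lit 5945797137) (nat_lit 504) (nat_lit 46536197121) (nat_lit 65) (nat_lit 5) (nat_lit 70) (nat_lit 5) (nat_lit 71) (nat_lit 5) (nat_lit 386) (nat_lit 351) (nat_lit 127)) (XT.lf (nat_lit 0) (nat_lit 10897072470) (nat_lit 504) (nat_lit 32868244548) (nat_lit 84) (nat_lit 9912243877) (nat_lit 65) (nat_lit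 5) (nat_lit 71) (nat_lit 5) (nat_lit 66) (nat_lit 5) (nat_lit 387) (nat_lit 351) (nat_lit 126)))) (XT.nd (nat_lit 94) (nat_lit 420) (nat_lit 0) (XT.lf (nat_lit 0) (nat_lit 15930615797) (nat_lit 504) (nat_lit 12708553828) (nat_lit 84) (nat_lit 26138249196) (nat_lit 65) (nat_lit 5) (nat_lit 71) (nat_lit 5) (nat_lit 66) (nat_lit 5) (nat_lit 388) (nat_lit 351) (nat_lit 125)) (XT.nd (nat_lit 94) (nat_lit 0) (nat_lit 0) (XT.lf (nat_lit 0) (nat_lit 8240887402) (nat_lit 420) (nat_lit 12959986437) (nat_lit 504) (nat_lit 34708000938) (nat_lit 60) (nat_lit 5) (nat_lit 65) (nat_lit 5) (nat_lit 66) (nat_lit 5) (nat_lit 389) (nat_lit 351) (nat_lit 124)) (XT.lf (nat_lit 0) (nat_lit 26799257123) (nat_lit 504) (nat_lit 26996528131) (nat_lit 84) (nat_lit 3274516703) (nat_lit 60) (nat_lit 5) (nat_lit 66) (nat_lit 5) (nat_lit 61) (nat_lit 5) (nat_lit 390) (nat_lit 351) (nat_lit 123))))) (XT.nd (nat_lit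 282) (nat_lit 420) (nat_lit 0) (XT.nd (nat_lit 94) (nat_lit 336) (nat_lit 0) (XT.lf (nat_lit 0) (nat_lit 32702715055) (nat_lit 504) (nat_lit 5818023247) (nat_lit 84) (nat_lit 19742920967) (nat_lit 60) (nat_lit 5) (nat_lit 66) (nat_lit 5) (nat_lit 61) (nat_lit 5) (nat_lit 391) (nat_lit 351) (nat_lit 122)) (XT.nd (nat_lit 94) (nat_lit 0) (nat_lit 0) (XT.lf (nat_lit 0) (nat_lit 16345150895) (nat_lit 336) (nat_lit 22605180630) (nat_lit 420) (nat_lit 20538686501) (nat_lit 56) (nat_lit 5) (nat_lit 60) (nat_lit 5) (nat_lit 61) (nat_lit 5) (nat_lit 392) (nat_lit 351) (nat_lit 121)) (XT.lf (nat_lit 0) (nat_lit 39317551690) (nat_lit 336) (nat_lit 6133824362) (nat_lit 420) (nat_lit 15299137513) (nat_lit 56) (nat_lit 5) (nat_lit 60) (nat_lit 5) (nat_lit 61) (nat_lit 5) (nat_lit 393) (nat_lit 351) (nat_lit 120)))) (XT.nd (nat_lit 94) (nat_lit 84) (nat_lit 0) (XT.lf (nat_lit 0) (nat_lit 859517939)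 (nat_lit 336) (nat_lit 51409627672) (nat_lit 420) (nat_lit 9778401763) (nat_lit 52) (nat_lit 5) (nat_lit 56) (nat_lit 5) (nat_lit 57) (nat_lit 5) (nat_lit 394) (nat_lit 351) (nat_lit 119)) (XT.nd (nat_lit 94) (nat_lit 84) (nat_lit 0) (XT.lf (nat_lit 0) (nat_lit 24232253473) (nat_lit 336) (nat_lit 35350896457) (nat_lit 420) (nat_lit 3792810693) (nat_lit 52) (nat_lit 5) (nat_lit 56) (nat_lit 5) (nat_lit 57) (nat_lit 5) (nat_lit 395) (nat_lit 351) (nat_lit 118)) (XT.lf (nat_lit 0) (nat_lit 2329499968) (nat_lit 420) (nat_lit 16440745131) (nat_lit 84) (nat_lit 45974609201) (nat_lit 51) (nat_lit 5) (nat_lit 56) (nat_lit 5) (nat_lit 52) (nat_lit 5) (nat_lit 396) (nat_lit 351) (nat_lit 117)))))) (XT.nd (nat_lit 564) (nat_lit 588) (nat_lit 0) (XT.nd (nat_lit 282) (nat_lit 336) (nat_lit 0) (XT.nd (nat_lit 94) (nat_lit 0) (nat_lit 0) (XT.lf (nat_lit 0) (nat_lit 7068525630) (nat_lit 336) (nat_lit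 1563523604) (nat_lit 420) (nat_lit 57520788250) (nat_lit 47) (nat_lit 5) (nat_lit 51) (nat_lit 5) (nat_lit 52) (nat_lit 5) (nat_lit 397) (nat_lit 351) (nat_lit 116)) (XT.nd (nat_lit 94) (nat_lit 0) (nat_lit 0) (XT.lf (nat_lit 0) (nat_lit 15462939814) (nat_lit 420) (nat_lit 36107381128) (nat_lit 84) (nat_lit 16023827846) (nat_lit 47) (nat_lit 5) (nat_lit 52) (nat_lit 5) (nat_lit 48) (nat_lit 5) (nat_lit 398) (nat_lit 351) (nat_lit 115)) (XT.lf (nat_lit 0) (nat_lit 22520731009) (nat_lit 420) (nat_lit 12435245643) (nat_lit 84) (nat_lit 34123697054) (nat_lit 47) (nat_lit 5) (nat_lit 52) (nat_lit 5) (nat_lit 48) (nat_lit 5) (nat_lit 399) (nat_lit 351) (nat_lit 114)))) (XT.nd (nat_lit 94) (nat_lit 0) (nat_lit 0) (XT.lf (nat_lit 0) (nat_lit 12215790819) (nat_lit 336) (nat_lit 17701882412) (nat_lit 420) (nat_lit 40689847849) (nat_lit 43) (nat_lit 5) (nat_lit 47) (nat_lit 5) (nat_lit 48) (nat_lit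 5) (nat_lit 400) (nat_lit 351) (nat_lit 113)) (XT.nd (nat_lit 94) (nat_lit 0) (nat_lit 0) (XT.lf (nat_lit 0) (nat_lit 37675099940) (nat_lit 420) (nat_lit 34287339800) (nat_lit 84) (nat_lit 216227680) (nat_lit 43) (nat_lit 5) (nat_lit 48) (nat_lit 5) (nat_lit 44) (nat_lit 5) (nat_lit 401) (nat_lit 351) (nat_lit 112)) (XT.lf (nat_lit 0) (nat_lit 45853269220) (nat_lit 420) (nat_lit 9617800115) (nat_lit 84) (nat_lit 18321864017) (nat_lit 43) (nat_lit 5) (nat_lit 48) (nat_lit 5) (nat_lit 44) (nat_lit 5) (nat_lit 402) (nat_lit 351) (nat_lit 111))))) (XT.nd (nat_lit 282) (nat_lit 336) (nat_lit 0) (XT.nd (nat_lit 94) (nat_lit 0) (nat_lit 0) (XT.lf (nat_lit 0) (nat_lit 16140687127) (nat_lit 252) (nat_lit 38303629603) (nat_lit 336) (nat_lit 21007986915) (nat_lit 40) (nat_lit 5) (nat_lit 43) (nat_lit 5) (nat_lit 44) (nat_lit 5) (nat_lit 403) (nat_lit 351) (nat_lit 110)) (XT.nd (nat_lit 94) (nat_lit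 0) (nat_lit 0) (XT.lf (nat_lit 0) (nat_lit 42900582932) (nat_lit 252) (nat_lit 20500744301) (nat_lit 336) (nat_lit 13758700388) (nat_lit 40) (nat_lit 5) (nat_lit 43) (nat_lit 5) (nat_lit 44) (nat_lit 5) (nat_lit 404) (nat_lit 351) (nat_lit 109)) (XT.lf (nat_lit 0) (nat_lit 70489068630) (nat_lit 252) (nat_lit 2146209381) (nat_lit 336) (nat_lit 6285437565) (nat_lit 40) (nat_lit 5) (nat_lit 43) (nat_lit 5) (nat_lit 44) (nat_lit 5) (nat_lit 405) (nat_lit 351) (nat_lit 108)))) (XT.nd (nat_lit 94) (nat_lit 0) (nat_lit 0) (XT.lf (nat_lit 0) (nat_lit 1742713913) (nat_lit 336) (nat_lit 62342692200) (nat_lit 84) (nat_lit 16639237760) (nat_lit 36) (nat_lit 5) (nat_lit 40) (nat_lit 5) (nat_lit 37) (nat_lit 5) (nat_lit 406) (nat_lit 351) (nat_lit 107)) (XT.nd (nat_lit 94) (nat_lit 0) (nat_lit 0) (XT.lf (nat_lit 0) (nat_lit 9999330066) (nat_lit 336) (nat_lit 36464349264) (nat_lit 84) (nat_lit 36115408784)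 (nat_lit 36) (nat_lit 5) (nat_lit 40) (nat_lit 5) (nat_lit 37) (nat_lit 5) (nat_lit 407) (nat_lit 351) (nat_lit 106)) (XT.lf (nat_lit 0) (nat_lit 18511217905) (nat_lit 336) (nat_lit 9784714547) (nat_lit 84) (nat_lit 56195110625) (nat_lit 36) (nat_lit 5) (nat_lit 40) (nat_lit 5) (nat_lit 37) (nat_lit 5) (nat_lit 408) (nat_lit 351) (nat_lit 105))))))) (XT.nd (nat_lit 48880) (nat_lit 0) (nat_lit 7560) (XT.nd (nat_lit 564) (nat_lit 504) (nat_lit 0) (XT.nd (nat_lit 282) (nat_lit 252) (nat_lit 0) (XT.nd (nat_lit 94) (nat_lit 0) (nat_lit 0) (XT.lf (nat_lit 0) (nat_lit 18085461915) (nat_lit 252) (nat_lit 9380259508) (nat_lit 336) (nat_lit 58991007775) (nat_lit 33) (nat_lit 5) (nat_lit 36) (nat_lit 5) (nat_lit 37) (nat_lit 5) (nat_lit 409) (nat_lit 351) (nat_lit 104)) (XT.nd (nat_lit 94) (nat_lit 0) (nat_lit 0) (XT.lf (nat_lit 0) (nat_lit 36900746665) (nat_lit 336) (nat_lit 41555513803) (nat_lit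 84) (nat_lit 10020801887) (nat_lit 33) (nat_lit 5) (nat_lit 37) (nat_lit 5) (nat_lit 34) (nat_lit 5) (nat_lit 410) (nat_lit 351) (nat_lit 103)) (XT.lf (nat_lit 0) (nat_lit 46723561038) (nat_lit 336) (nat_lit 14005301220) (nat_lit 84) (nat_lit 29828210790) (nat_lit 33) (nat_lit 5) (nat_lit 37) (nat_lit 5) (nat_lit 34) (nat_lit 5) (nat_lit 411) (nat_lit 351) (nat_lit 102)))) (XT.nd (nat_lit 94) (nat_lit 0) (nat_lit 0) (XT.lf (nat_lit 0) (nat_lit 14694158020) (nat_lit 252) (nat_lit 42301876946) (nat_lit 336) (nat_lit 35701030950) (nat_lit 30) (nat_lit 5) (nat_lit 33) (nat_lit 5) (nat_lit 34) (nat_lit 5) (nat_lit 412) (nat_lit 351) (nat_lit 101)) (XT.nd (nat_lit 94) (nat_lit 0) (nat_lit 0) (XT.lf (nat_lit 0) (nat_lit 44579349808) (nat_lit 252) (nat_lit 23153186862) (nat_lit 336) (nat_lit 27166350397) (nat_lit 30) (nat_lit 5) (nat_lit 33) (nat_lit 5) (nat_lit 34) (nat_lit 5) (nat_lit 413)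 (nat_lit 351) (nat_lit 100)) (XT.lf (nat_lit 0) (nat_lit 75390152554) (nat_lit 252) (nat_lit 3411130041) (nat_lit 336) (nat_lit 18367701755) (nat_lit 30) (nat_lit 5) (nat_lit 33) (nat_lit 5) (nat_lit 34) (nat_lit 5) (nat_lit 414) (nat_lit 351) (nat_lit 99))))) (XT.nd (nat_lit 282) (nat_lit 252) (nat_lit 0) (XT.nd (nat_lit 94) (nat_lit 84) (nat_lit 0) (XT.lf (nat_lit 0) (nat_lit 7631495406) (nat_lit 168) (nat_lit 82824873580) (nat_lit 252) (nat_lit 9045547602) (nat_lit 28) (nat_lit 5) (nat_lit 30) (nat_lit 5) (nat_lit 31) (nat_lit 5) (nat_lit 415) (nat_lit 351) (nat_lit 98)) (XT.nd (nat_lit 94) (nat_lit 0) (nat_lit 0) (XT.lf (nat_lit 0) (nat_lit 818167082) (nat_lit 252) (nat_lit 63528530197) (nat_lit 84) (nat_lit 37552116810) (nat_lit 27) (nat_lit 5) (nat_lit 30) (nat_lit 5) (nat_lit 28) (nat_lit 5) (nat_lit 416) (nat_lit 351) (nat_lit 97)) (XT.lf (nat_lit 0) (nat_lit 10799206769) (nat_lit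 252) (nat_lit 34401356939) (nat_lit 84) (nat_lit 59166602190) (nat_lit 27) (nat_lit 5) (nat_lit 30) (nat_lit 5) (nat_lit 28) (nat_lit 5) (nat_lit 417) (nat_lit 351) (nat_lit 96)))) (XT.nd (nat_lit 94) (nat_lit 252) (nat_lit 0) (XT.lf (nat_lit 0) (nat_lit 21089122458) (nat_lit 252) (nat_lit 4372018881) (nat_lit 84) (nat_lit 81450913162) (nat_lit 27) (nat_lit 5) (nat_lit 30) (nat_lit 5) (nat_lit 28) (nat_lit 5) (nat_lit 418) (nat_lit 351) (nat_lit 95)) (XT.nd (nat_lit 94) (nat_lit 0) (nat_lit 0) (XT.lf (nat_lit 0) (nat_lit 27134167472) (nat_lit 252) (nat_lit 4832512256) (nat_lit 336) (nat_lit 77560827865) (nat_lit 24) (nat_lit 5) (nat_lit 27) (nat_lit 5) (nat_lit 28) (nat_lit 5) (nat_lit 419) (nat_lit 351) (nat_lit 94)) (XT.lf (nat_lit 0) (nat_lit 43390071953) (nat_lit 336) (nat_lit 52677166196) (nat_lit 84) (nat_lit 16150335221) (nat_lit 24) (nat_lit 5) (nat_lit 28) (nat_lit 5) (nat_lit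 25) (nat_lit 5) (nat_lit 420) (nat_lit 351) (nat_lit 93)))))) (XT.nd (nat_lit 564) (nat_lit 0) (nat_lit 168) (XT.nd (nat_lit 282) (nat_lit 0) (nat_lit 0) (XT.nd (nat_lit 94) (nat_lit 0) (nat_lit 0) (XT.lf (nat_lit 0) (nat_lit 3004515750) (nat_lit 0) (nat_lit 3004515750) (nat_lit 1092) (nat_lit 8601090859) (nat_lit 114) (nat_lit 5) (nat_lit 114) (nat_lit 3) (nat_lit 127) (nat_lit 3) (nat_lit 352) (nat_lit 352) (nat_lit 160)) (XT.nd (nat_lit 94) (nat_lit 0) (nat_lit 0) (XT.lf (nat_lit 0) (nat_lit 12324261435) (nat_lit 1092) (nat_lit 12097190943) (nat_lit 1176) (nat_lit 5247738757) (nat_lit 114) (nat_lit 5) (nat_lit 127) (nat_lit 3) (nat_lit 128) (nat_lit 5) (nat_lit 353) (nat_lit 352) (nat_lit 159)) (XT.lf (nat_lit 0) (nat_lit 12698732294) (nat_lit 1092) (nat_lit 701544750) (nat_lit 1176) (nat_lit 16729965727) (nat_lit 114) (nat_lit 5) (nat_lit 127) (nat_lit 3) (nat_lit 128) (nat_lit 5)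 (nat_lit 354) (nat_lit 352) (nat_lit 158)))) (XT.nd (nat_lit 94) (nat_lit 0) (nat_lit 84) (XT.lf (nat_lit 84) (nat_lit 11273085176) (nat_lit 0) (nat_lit 1920959513) (nat_lit 1176) (nat_lit 17408165865) (nat_lit 115) (nat_lit 5) (nat_lit 114) (nat_lit 5) (nat_lit 128) (nat_lit 5) (nat_lit 355) (nat_lit 352) (nat_lit 157)) (XT.nd (nat_lit 94) (nat_lit 0) (nat_lit 0) (XT.lf (nat_lit 0) (nat_lit 13807937710) (nat_lit 1092) (nat_lit 7554700355) (nat_lit 1176) (nat_lit 9722980743) (nat_lit 115) (nat_lit 5) (nat_lit 128) (nat_lit 5) (nat_lit 129) (nat_lit 5) (nat_lit 356) (nat_lit 352) (nat_lit 156)) (XT.lf (nat_lit 84) (nat_lit 4657473703) (nat_lit 0) (nat_lit 9846791251) (nat_lit 1176) (nat_lit 17077791443) (nat_lit 116) (nat_lit 5) (nat_lit 115) (nat_lit 5) (nat_lit 129) (nat_lit 5) (nat_lit 357) (nat_lit 352) (nat_lit 155))))) (XT.nd (nat_lit 282) (nat_lit 0) (nat_lit 84) (XT.nd (nat_lit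 94) (nat_lit 0) (nat_lit 0) (XT.lf (nat_lit 0) (nat_lit 15319561760) (nat_lit 1092) (nat_lit 14705489976) (nat_lit 1176) (nat_lit 2065821842) (nat_lit 116) (nat_lit 5) (nat_lit 129) (nat_lit 5) (nat_lit 130) (nat_lit 5) (nat_lit 358) (nat_lit 352) (nat_lit 154)) (XT.nd (nat_lit 94) (nat_lit 0) (nat_lit 0) (XT.lf (nat_lit 0) (nat_lit 16258536454) (nat_lit 1092) (nat_lit 2209795631) (nat_lit 1176) (nat_lit 14144090136) (nat_lit 116) (nat_lit 5) (nat_lit 129) (nat_lit 5) (nat_lit 130) (nat_lit 5) (nat_lit 359) (nat_lit 352) (nat_lit 153)) (XT.lf (nat_lit 84) (nat_lit 10891263714) (nat_lit 0) (nat_lit 6441161841) (nat_lit 1176) (nat_lit 15814441710) (nat_lit 117) (nat_lit 5) (nat_lit 116) (nat_lit 5) (nat_lit 130) (nat_lit 5) (nat_lit 360) (nat_lit 352) (nat_lit 152)))) (XT.nd (nat_lit 94) (nat_lit 0) (nat_lit 0) (XT.lf (nat_lit 0) (nat_lit 18519843607) (nat_lit 1092) (nat_lit 9312716152)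 (nat_lit 1176) (nat_lit 5862841089) (nat_lit 117) (nat_lit 5) (nat_lit 130) (nat_lit 5) (nat_lit 131) (nat_lit 5) (nat_lit 361) (nat_lit 352) (nat_lit 151)) (XT.nd (nat_lit 94) (nat_lit 0) (nat_lit 0) (XT.lf (nat_lit 84) (nat_lit 4045572295) (nat_lit 0) (nat_lit 15802399463) (nat_lit 1176) (nat_lit 14409754198) (nat_lit 118) (nat_lit 5) (nat_lit 117) (nat_lit 5) (nat_lit 131) (nat_lit 5) (nat_lit 362) (nat_lit 352) (nat_lit 150)) (XT.lf (nat_lit 84) (nat_lit 18013947359) (nat_lit 0) (nat_lit 3298468927) (nat_lit 1176) (nat_lit 13522125029) (nat_lit 118) (nat_lit 5) (nat_lit 117) (nat_lit 5) (nat_lit 131) (nat_lit 5) (nat_lit 363) (nat_lit 352) (nat_lit 149))))))))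
noncomputable def xc213 : XT := (XT.nd (nat_lit 2256) (nat_lit 2688) (nat_lit 0) (XT.nd (nat_lit 1128) (nat_lit 2352) (nat_lit 0) (XT.nd (nat_lit 564) (nat_lit 2100) (nat_lit 0) (XT.nd (nat_lit 282) (nat_lit 0) (nat_lit 84) (XT.nd (nat_lit 94) (nat_lit 0) (nat_lit 0) (XT.lf (nat_lit 0) (nat_lit 22915429827) (nat_lit 1092) (nat_lit 3110537369) (nat_lit 1176) (nat_lit 9400389868) (nat_lit 118) (nat_lit 5) (nat_lit 131) (nat_lit 5) (nat_lit 132) (nat_lit 5) (nat_lit 364) (nat_lit 352) (nat_lit 148)) (XT.nd (nat_lit 94) (nat_lit 0) (nat_lit 0) (XT.lf (nat_lit 84) (nat_lit 11215326748) (nat_lit 0) (nat_lit 13495869638) (nat_lit 1176) (nat_lit 11320895066) (nat_lit 119) (nat_lit 5) (nat_lit 118) (nat_lit 5) (nat_lit 132) (nat_lit 5) (nat_lit 365) (nat_lit 352) (nat_lit 147)) (XT.lf (nat_lit 84) (nat_lit 26049816429) (nat_lit 0) (nat_lit 543393568) (nat_lit 1176) (nat_lit 10062452662) (nat_lit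 119) (nat_lit 5) (nat_lit 118) (nat_lit 5) (nat_lit 132) (nat_lit 5) (nat_lit 366) (nat_lit 352) (nat_lit 146)))) (XT.nd (nat_lit 94) (nat_lit 0) (nat_lit 0) (XT.lf (nat_lit 84) (nat_lit 3997627712) (nat_lit 0) (nat_lit 24700850111) (nat_lit 1176) (nat_lit 8594981255) (nat_lit 120) (nat_lit 5) (nat_lit 119) (nat_lit 5) (nat_lit 133) (nat_lit 5) (nat_lit 367) (nat_lit 352) (nat_lit 145)) (XT.nd (nat_lit 94) (nat_lit 0) (nat_lit 84) (XT.lf (nat_lit 84) (nat_lit 19271546952) (nat_lit 0) (nat_lit 11711879447) (nat_lit 1176) (nat_lit 6964060416) (nat_lit 120) (nat_lit 5) (nat_lit 119) (nat_lit 5) (nat_lit 133) (nat_lit 5) (nat_lit 368) (nat_lit 352) (nat_lit 144)) (XT.lf (nat_lit 0) (nat_lit 33354141678) (nat_lit 1092) (nat_lit 3620944486) (nat_lit 84) (nat_lit 1646246684) (nat_lit 120) (nat_lit 5) (nat_lit 133) (nat_lit 5) (nat_lit 121) (nat_lit 5) (nat_lit 369) (nat_lit 352) (nat_lit 143)))))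 (XT.nd (nat_lit 282) (nat_lit 588) (nat_lit 0) (XT.nd (nat_lit 94) (nat_lit 588) (nat_lit 0) (XT.lf (nat_lit 0) (nat_lit 12021776924) (nat_lit 1092) (nat_lit 24013936695) (nat_lit 1176) (nat_lit 3273002370) (nat_lit 107) (nat_lit 5) (nat_lit 120) (nat_lit 5) (nat_lit 121) (nat_lit 5) (nat_lit 370) (nat_lit 352) (nat_lit 142)) (XT.nd (nat_lit 94) (nat_lit 588) (nat_lit 0) (XT.lf (nat_lit 0) (nat_lit 28224793191) (nat_lit 1092) (nat_lit 10611774976) (nat_lit 1176) (nat_lit 1179725062) (nat_lit 107) (nat_lit 5) (nat_lit 120) (nat_lit 5) (nat_lit 121) (nat_lit 5) (nat_lit 371) (nat_lit 352) (nat_lit 141)) (XT.lf (nat_lit 0) (nat_lit 1031702419) (nat_lit 588) (nat_lit 36517574172) (nat_lit 84) (nat_lit 3193971382) (nat_lit 100) (nat_lit 5) (nat_lit 107) (nat_lit 5) (nat_lit 101) (nat_lit 5) (nat_lit 372) (nat_lit 352) (nat_lit 140)))) (XT.nd (nat_lit 94) (nat_lit 588) (nat_lit 0) (XT.lf (nat_lit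 0) (nat_lit 3518472811) (nat_lit 588) (nat_lit 20622858345) (nat_lit 84) (nat_lit 17343868464) (nat_lit 100) (nat_lit 5) (nat_lit 107) (nat_lit 5) (nat_lit 101) (nat_lit 5) (nat_lit 373) (nat_lit 352) (nat_lit 139)) (XT.nd (nat_lit 94) (nat_lit 588) (nat_lit 0) (XT.lf (nat_lit 0) (nat_lit 6080803444) (nat_lit 588) (nat_lit 4236794299) (nat_lit 84) (nat_lit 31932606746) (nat_lit 100) (nat_lit 5) (nat_lit 107) (nat_lit 5) (nat_lit 101) (nat_lit 5) (nat_lit 374) (nat_lit 352) (nat_lit 138)) (XT.lf (nat_lit 0) (nat_lit 8889556469) (nat_lit 672) (nat_lit 30159225308) (nat_lit 84) (nat_lit 3984971183) (nat_lit 93) (nat_lit 5) (nat_lit 101) (nat_lit 5) (nat_lit 94) (nat_lit 5) (nat_lit 375) (nat_lit 352) (nat_lit 137)))))) (XT.nd (nat_lit 564) (nat_lit 1344) (nat_lit 0) (XT.nd (nat_lit 282) (nat_lit 504) (nat_lit 0) (XT.nd (nat_lit 94) (nat_lit 504) (nat_lit 0) (XT.lf (nat_lit 0) (nat_lit 11934130267)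 (nat_lit 672) (nat_lit 13341462972) (nat_lit 84) (nat_lit 18561391952) (nat_lit 93) (nat_lit 5) (nat_lit 101) (nat_lit 5) (nat_lit 94) (nat_lit 5) (nat_lit 376) (nat_lit 352) (nat_lit 136)) (XT.nd (nat_lit 94) (nat_lit 0) (nat_lit 0) (XT.lf (nat_lit 0) (nat_lit 4078480083) (nat_lit 504) (nat_lit 11033657358) (nat_lit 588) (nat_lit 29551774421) (nat_lit 87) (nat_lit 5) (nat_lit 93) (nat_lit 5) (nat_lit 94) (nat_lit 5) (nat_lit 377) (nat_lit 352) (nat_lit 135)) (XT.lf (nat_lit 0) (nat_lit 18564173073) (nat_lit 588) (nat_lit 23229889955) (nat_lit 84) (nat_lit 3716974109) (nat_lit 87) (nat_lit 5) (nat_lit 94) (nat_lit 5) (nat_lit 88) (nat_lit 5) (nat_lit 378) (nat_lit 352) (nat_lit 134)))) (XT.nd (nat_lit 94) (nat_lit 504) (nat_lit 0) (XT.lf (nat_lit 0) (nat_lit 22234733788) (nat_lit 588) (nat_lit 5450509828) (nat_lit 84) (nat_lit 18695727359) (nat_lit 87) (nat_lit 5) (nat_lit 94) (nat_lit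 5) (nat_lit 88) (nat_lit 5) (nat_lit 379) (nat_lit 352) (nat_lit 133)) (XT.nd (nat_lit 94) (nat_lit 0) (nat_lit 0) (XT.lf (nat_lit 0) (nat_lit 13143549320) (nat_lit 504) (nat_lit 13004622005) (nat_lit 588) (nat_lit 21125704083) (nat_lit 81) (nat_lit 5) (nat_lit 87) (nat_lit 5) (nat_lit 88) (nat_lit 5) (nat_lit 380) (nat_lit 352) (nat_lit 132)) (XT.lf (nat_lit 0) (nat_lit 30260270149) (nat_lit 588) (nat_lit 15786172025) (nat_lit 84) (nat_lit 2145624300) (nat_lit 81) (nat_lit 5) (nat_lit 88) (nat_lit 5) (nat_lit 82) (nat_lit 5) (nat_lit 381) (nat_lit 352) (nat_lit 131))))) (XT.nd (nat_lit 282) (nat_lit 924) (nat_lit 0) (XT.nd (nat_lit 94) (nat_lit 0) (nat_lit 0) (XT.lf (nat_lit 0) (nat_lit 3053887590) (nat_lit 420) (nat_lit 31608026209) (nat_lit 504) (nat_lit 14471787656) (nat_lit 76) (nat_lit 5) (nat_lit 81) (nat_lit 5) (nat_lit 82) (nat_lit 5) (nat_lit 382) (nat_lit 352) (nat_lit 130))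 (XT.nd (nat_lit 94) (nat_lit 0) (nat_lit 0) (XT.lf (nat_lit 0) (nat_lit 22811375062) (nat_lit 420) (nat_lit 16552201147) (nat_lit 504) (nat_lit 10735884341) (nat_lit 76) (nat_lit 5) (nat_lit 81) (nat_lit 5) (nat_lit 82) (nat_lit 5) (nat_lit 383) (nat_lit 352) (nat_lit 129)) (XT.lf (nat_lit 0) (nat_lit 43180110363) (nat_lit 420) (nat_lit 1029708641) (nat_lit 504) (nat_lit 6885379386) (nat_lit 76) (nat_lit 5) (nat_lit 81) (nat_lit 5) (nat_lit 82) (nat_lit 5) (nat_lit 384) (nat_lit 352) (nat_lit 128)))) (XT.nd (nat_lit 94) (nat_lit 504) (nat_lit 0) (XT.lf (nat_lit 0) (nat_lit 12153560193) (nat_lit 420) (nat_lit 37320707158) (nat_lit 504) (nat_lit 2639233409) (nat_lit 71) (nat_lit 5) (nat_lit 76) (nat_lit 5) (nat_lit 77) (nat_lit 5) (nat_lit 385) (nat_lit 352) (nat_lit 127)) (XT.nd (nat_lit 94) (nat_lit 420) (nat_lit 0) (XT.lf (nat_lit 0) (nat_lit 1796379582) (nat_lit 504) (nat_lit 20178550043)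 (nat_lit 84) (nat_lit 31185031010) (nat_lit 70) (nat_lit 5) (nat_lit 76) (nat_lit 5) (nat_lit 71) (nat_lit 5) (nat_lit 386) (nat_lit 352) (nat_lit 126)) (XT.lf (nat_lit 0) (nat_lit 191720916) (nat_lit 420) (nat_lit 6123758928) (nat_lit 504) (nat_lit 47922522597) (nat_lit 65) (nat_lit 5) (nat_lit 70) (nat_lit 5) (nat_lit 71) (nat_lit 5) (nat_lit 387) (nat_lit 352) (nat_lit 125))))))) (XT.nd (nat_lit 1128) (nat_lit 1176) (nat_lit 0) (XT.nd (nat_lit 564) (nat_lit 756) (nat_lit 0) (XT.nd (nat_lit 282) (nat_lit 336) (nat_lit 0) (XT.nd (nat_lit 94) (nat_lit 420) (nat_lit 0) (XT.lf (nat_lit 0) (nat_lit 11287745059) (nat_lit 504) (nat_lit 33826450640) (nat_lit 84) (nat_lit 10225565942) (nat_lit 65) (nat_lit 5) (nat_lit 71) (nat_lit 5) (nat_lit 66) (nat_lit 5) (nat_lit 388) (nat_lit 352) (nat_lit 124)) (XT.nd (nat_lit 94) (nat_lit 420) (nat_lit 0) (XT.lf (nat_lit 0) (nat_lit 16475738739) (nat_lit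 504) (nat_lit 13043634915) (nat_lit 84) (nat_lit 26954395740) (nat_lit 65) (nat_lit 5) (nat_lit 71) (nat_lit 5) (nat_lit 66) (nat_lit 5) (nat_lit 389) (nat_lit 352) (nat_lit 123)) (XT.lf (nat_lit 0) (nat_lit 8554642844) (nat_lit 420) (nat_lit 13353768463) (nat_lit 504) (nat_lit 35731923854) (nat_lit 60) (nat_lit 5) (nat_lit 65) (nat_lit 5) (nat_lit 66) (nat_lit 5) (nat_lit 390) (nat_lit 352) (nat_lit 122)))) (XT.nd (nat_lit 94) (nat_lit 336) (nat_lit 0) (XT.lf (nat_lit 0) (nat_lit 27678908505) (nat_lit 504) (nat_lit 27775298748) (nat_lit 84) (nat_lit 3383608509) (nat_lit 60) (nat_lit 5) (nat_lit 66) (nat_lit 5) (nat_lit 61) (nat_lit 5) (nat_lit 391) (nat_lit 352) (nat_lit 121)) (XT.nd (nat_lit 94) (nat_lit 336) (nat_lit 0) (XT.lf (nat_lit 0) (nat_lit 33763904082) (nat_lit 504) (nat_lit 5942007812) (nat_lit 84) (nat_lit 20362305337) (nat_lit 60) (nat_lit 5) (nat_lit 66) (nat_lit 5) (nat_lit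 61) (nat_lit 5) (nat_lit 392) (nat_lit 352) (nat_lit 120)) (XT.lf (nat_lit 0) (nat_lit 16907653991) (nat_lit 336) (nat_lit 23296670885) (nat_lit 420) (nat_lit 21127268647) (nat_lit 56) (nat_lit 5) (nat_lit 60) (nat_lit 5) (nat_lit 61) (nat_lit 5) (nat_lit 393) (nat_lit 352) (nat_lit 119))))) (XT.nd (nat_lit 282) (nat_lit 420) (nat_lit 0) (XT.nd (nat_lit 94) (nat_lit 336) (nat_lit 0) (XT.lf (nat_lit 0) (nat_lit 40590521319) (nat_lit 336) (nat_lit 6314981311) (nat_lit 420) (nat_lit 15726740422) (nat_lit 56) (nat_lit 5) (nat_lit 60) (nat_lit 5) (nat_lit 61) (nat_lit 5) (nat_lit 394) (nat_lit 352) (nat_lit 118)) (XT.nd (nat_lit 94) (nat_lit 0) (nat_lit 0) (XT.lf (nat_lit 0) (nat_lit 941173133) (nat_lit 336) (nat_lit 52992725054) (nat_lit 420) (nat_lit 10035613321) (nat_lit 52) (nat_lit 5) (nat_lit 56) (nat_lit 5) (nat_lit 57) (nat_lit 5) (nat_lit 395) (nat_lit 352) (nat_lit 117)) (XT.lf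 (nat_lit 0) (nat_lit 25036809429) (nat_lit 336) (nat_lit 36436491924) (nat_lit 420) (nat_lit 3865849613) (nat_lit 52) (nat_lit 5) (nat_lit 56) (nat_lit 5) (nat_lit 57) (nat_lit 5) (nat_lit 396) (nat_lit 352) (nat_lit 116)))) (XT.nd (nat_lit 94) (nat_lit 336) (nat_lit 0) (XT.lf (nat_lit 0) (nat_lit 2444043145) (nat_lit 420) (nat_lit 16897664573) (nat_lit 84) (nat_lit 47408803377) (nat_lit 51) (nat_lit 5) (nat_lit 56) (nat_lit 5) (nat_lit 52) (nat_lit 5) (nat_lit 397) (nat_lit 352) (nat_lit 115)) (XT.nd (nat_lit 94) (nat_lit 0) (nat_lit 0) (XT.lf (nat_lit 0) (nat_lit 7339859599) (nat_lit 336) (nat_lit 1601357030) (nat_lit 420) (nat_lit 59260952179) (nat_lit 47) (nat_lit 5) (nat_lit 51) (nat_lit 5) (nat_lit 52) (nat_lit 5) (nat_lit 398) (nat_lit 352) (nat_lit 114)) (XT.lf (nat_lit 0) (nat_lit 15982717115) (nat_lit 420) (nat_lit 37174808097) (nat_lit 84) (nat_lit 16530674673) (nat_lit 47)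 (nat_lit 5) (nat_lit 52) (nat_lit 5) (nat_lit 48) (nat_lit 5) (nat_lit 399) (nat_lit 352) (nat_lit 113)))))) (XT.nd (nat_lit 564) (nat_lit 588) (nat_lit 0) (XT.nd (nat_lit 282) (nat_lit 252) (nat_lit 0) (XT.nd (nat_lit 94) (nat_lit 336) (nat_lit 0) (XT.lf (nat_lit 0) (nat_lit 23258084308) (nat_lit 420) (nat_lit 12770396991) (nat_lit 84) (nat_lit 35191335896) (nat_lit 47) (nat_lit 5) (nat_lit 52) (nat_lit 5) (nat_lit 48) (nat_lit 5) (nat_lit 400) (nat_lit 352) (nat_lit 112)) (XT.nd (nat_lit 94) (nat_lit 0) (nat_lit 0) (XT.lf (nat_lit 0) (nat_lit 12644311941) (nat_lit 336) (nat_lit 18239335152) (nat_lit 420) (nat_lit 41911405301) (nat_lit 43) (nat_lit 5) (nat_lit 47) (nat_lit 5) (nat_lit 48) (nat_lit 5) (nat_lit 401) (nat_lit 352) (nat_lit 111)) (XT.lf (nat_lit 0) (nat_lit 38880504415) (nat_lit 420) (nat_lit 35300760144) (nat_lit 84) (nat_lit 233675483) (nat_lit 43) (nat_lit 5) (nat_lit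 48) (nat_lit 5) (nat_lit 44) (nat_lit 5) (nat_lit 402) (nat_lit 352) (nat_lit 110)))) (XT.nd (nat_lit 94) (nat_lit 252) (nat_lit 0) (XT.lf (nat_lit 0) (nat_lit 47311070107) (nat_lit 420) (nat_lit 9867952705) (nat_lit 84) (nat_lit 18900263474) (nat_lit 43) (nat_lit 5) (nat_lit 48) (nat_lit 5) (nat_lit 44) (nat_lit 5) (nat_lit 403) (nat_lit 352) (nat_lit 109)) (XT.nd (nat_lit 94) (nat_lit 0) (nat_lit 0) (XT.lf (nat_lit 0) (nat_lit 16688561693) (nat_lit 252) (nat_lit 39479256781) (nat_lit 336) (nat_lit 21622300897) (nat_lit 40) (nat_lit 5) (nat_lit 43) (nat_lit 5) (nat_lit 44) (nat_lit 5) (nat_lit 404) (nat_lit 352) (nat_lit 108)) (XT.lf (nat_lit 0) (nat_lit 44276585645) (nat_lit 252) (nat_lit 21124836394) (nat_lit 336) (nat_lit 14149397004) (nat_lit 40) (nat_lit 5) (nat_lit 43) (nat_lit 5) (nat_lit 44) (nat_lit 5) (nat_lit 405) (nat_lit 352) (nat_lit 107))))) (XT.nd (nat_lit 282) (nat_lit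 252) (nat_lit 0) (XT.nd (nat_lit 94) (nat_lit 336) (nat_lit 0) (XT.lf (nat_lit 0) (nat_lit 72718928730) (nat_lit 252) (nat_lit 2201654597) (nat_lit 336) (nat_lit 6445540158) (nat_lit 40) (nat_lit 5) (nat_lit 43) (nat_lit 5) (nat_lit 44) (nat_lit 5) (nat_lit 406) (nat_lit 352) (nat_lit 106)) (XT.nd (nat_lit 94) (nat_lit 0) (nat_lit 0) (XT.lf (nat_lit 0) (nat_lit 1830321624) (nat_lit 336) (nat_lit 64229277917) (nat_lit 84) (nat_lit 17166380359) (nat_lit 36) (nat_lit 5) (nat_lit 40) (nat_lit 5) (nat_lit 37) (nat_lit 5) (nat_lit 407) (nat_lit 352) (nat_lit 105)) (XT.lf (nat_lit 0) (nat_lit 10341883090) (nat_lit 336) (nat_lit 37550090607) (nat_lit 84) (nat_lit 37245972129) (nat_lit 36) (nat_lit 5) (nat_lit 40) (nat_lit 5) (nat_lit 37) (nat_lit 5) (nat_lit 408) (nat_lit 352) (nat_lit 104)))) (XT.nd (nat_lit 94) (nat_lit 252) (nat_lit 0) (XT.lf (nat_lit 0) (nat_lit 19116660027) (nat_lit 336)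 (nat_lit 10044729851) (nat_lit 84) (nat_lit 57947814411) (nat_lit 36) (nat_lit 5) (nat_lit 40) (nat_lit 5) (nat_lit 37) (nat_lit 5) (nat_lit 409) (nat_lit 352) (nat_lit 103)) (XT.nd (nat_lit 94) (nat_lit 0) (nat_lit 0) (XT.lf (nat_lit 0) (nat_lit 18688983598) (nat_lit 252) (nat_lit 9659244879) (nat_lit 336) (nat_lit 60787616924) (nat_lit 33) (nat_lit 5) (nat_lit 36) (nat_lit 5) (nat_lit 37) (nat_lit 5) (nat_lit 410) (nat_lit 352) (nat_lit 102)) (XT.lf (nat_lit 0) (nat_lit 38074918865) (nat_lit 336) (nat_lit 42801253953) (nat_lit 84) (nat_lit 10342663891) (nat_lit 33) (nat_lit 5) (nat_lit 37) (nat_lit 5) (nat_lit 34) (nat_lit 5) (nat_lit 411) (nat_lit 352) (nat_lit 101))))))))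
noncomputable def xc214 : XT := (XT.nd (nat_lit 50102) (nat_lit 0) (nat_lit 3024) (XT.nd (nat_lit 48974) (nat_lit 0) (nat_lit 7560) (XT.nd (nat_lit 564) (nat_lit 252) (nat_lit 0) (XT.nd (nat_lit 282) (nat_lit 252) (nat_lit 0) (XT.nd (nat_lit 94) (nat_lit 252) (nat_lit 0) (XT.lf (nat_lit 0) (nat_lit 48201330958) (nat_lit 336) (nat_lit 14398262088) (nat_lit 84) (nat_lit 30763765193) (nat_lit 33) (nat_lit 5) (nat_lit 37) (nat_lit 5) (nat_lit 34) (nat_lit 5) (nat_lit 412) (nat_lit 352) (nat_lit 100)) (XT.nd (nat_lit 94) (nat_lit 0) (nat_lit 0) (XT.lf (nat_lit 0) (nat_lit 15190463241) (nat_lit 252) (nat_lit 43601310765) (nat_lit 336) (nat_lit 36777933926) (nat_lit 30) (nat_lit 5) (nat_lit 33) (nat_lit 5) (nat_lit 34) (nat_lit 5) (nat_lit 413) (nat_lit 352) (nat_lit 99)) (XT.lf (nat_lit 0) (nat_lit 46000869615) (nat_lit 252) (nat_lit 23859369828) (nat_lit 336) (nat_lit 27979575171) (nat_lit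 30) (nat_lit 5) (nat_lit 33) (nat_lit 5) (nat_lit 34) (nat_lit 5) (nat_lit 414) (nat_lit 352) (nat_lit 98)))) (XT.nd (nat_lit 94) (nat_lit 252) (nat_lit 0) (XT.lf (nat_lit 0) (nat_lit 77765617761) (nat_lit 252) (nat_lit 3505657006) (nat_lit 336) (nat_lit 18909038349) (nat_lit 30) (nat_lit 5) (nat_lit 33) (nat_lit 5) (nat_lit 34) (nat_lit 5) (nat_lit 415) (nat_lit 352) (nat_lit 97)) (XT.nd (nat_lit 94) (nat_lit 84) (nat_lit 0) (XT.lf (nat_lit 0) (nat_lit 7906844156) (nat_lit 168) (nat_lit 85380500831) (nat_lit 252) (nat_lit 9298233351) (nat_lit 28) (nat_lit 5) (nat_lit 30) (nat_lit 5) (nat_lit 31) (nat_lit 5) (nat_lit 416) (nat_lit 352) (nat_lit 96)) (XT.lf (nat_lit 0) (nat_lit 869880993) (nat_lit 252) (nat_lit 65459704150) (nat_lit 84) (nat_lit 38727213240) (nat_lit 27) (nat_lit 5) (nat_lit 30) (nat_lit 5) (nat_lit 28) (nat_lit 5) (nat_lit 417) (nat_lit 352) (nat_lit 95))))) (XT.nd (nat_lit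 48128) (nat_lit 0) (nat_lit 7560) (XT.nd (nat_lit 94) (nat_lit 252) (nat_lit 0) (XT.lf (nat_lit 0) (nat_lit 11159540599) (nat_lit 252) (nat_lit 35430737430) (nat_lit 84) (nat_lit 61011417497) (nat_lit 27) (nat_lit 5) (nat_lit 30) (nat_lit 5) (nat_lit 28) (nat_lit 5) (nat_lit 418) (nat_lit 352) (nat_lit 94)) (XT.nd (nat_lit 94) (nat_lit 252) (nat_lit 0) (XT.lf (nat_lit 0) (nat_lit 21767675186) (nat_lit 252) (nat_lit 4471604255) (nat_lit 84) (nat_lit 83986221867) (nat_lit 27) (nat_lit 5) (nat_lit 30) (nat_lit 5) (nat_lit 28) (nat_lit 5) (nat_lit 419) (nat_lit 352) (nat_lit 93)) (XT.lf (nat_lit 0) (nat_lit 28010909942) (nat_lit 252) (nat_lit 4971134400) (nat_lit 336) (nat_lit 79940003025) (nat_lit 24) (nat_lit 5) (nat_lit 27) (nat_lit 5) (nat_lit 28) (nat_lit 5) (nat_lit 420) (nat_lit 352) (nat_lit 92)))) (XT.nd (nat_lit 94) (nat_lit 0) (nat_lit 0) (XT.lf (nat_lit 0) (nat_lit 3130719364)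 (nat_lit 0) (nat_lit 3130719364) (nat_lit 1092) (nat_lit 8799300053) (nat_lit 114) (nat_lit 5) (nat_lit 114) (nat_lit 3) (nat_lit 127) (nat_lit 3) (nat_lit 353) (nat_lit 353) (nat_lit 158)) (XT.nd (nat_lit 94) (nat_lit 0) (nat_lit 0) (XT.lf (nat_lit 0) (nat_lit 12833955163) (nat_lit 1092) (nat_lit 12402972064) (nat_lit 1176) (nat_lit 5347571970) (nat_lit 114) (nat_lit 5) (nat_lit 127) (nat_lit 3) (nat_lit 128) (nat_lit 5) (nat_lit 354) (nat_lit 353) (nat_lit 157)) (XT.lf (nat_lit 0) (nat_lit 13216196704) (nat_lit 1092) (nat_lit 656142493) (nat_lit 1176) (nat_lit 17187637644) (nat_lit 114) (nat_lit 5) (nat_lit 127) (nat_lit 3) (nat_lit 128) (nat_lit 5) (nat_lit 355) (nat_lit 353) (nat_lit 156)))))) (XT.nd (nat_lit 564) (nat_lit 0) (nat_lit 252) (XT.nd (nat_lit 282) (nat_lit 0) (nat_lit 168) (XT.nd (nat_lit 94) (nat_lit 0) (nat_lit 84) (XT.lf (nat_lit 84) (nat_lit 11689021126) (nat_lit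 0) (nat_lit 2034779534) (nat_lit 1176) (nat_lit 17822883920) (nat_lit 115) (nat_lit 5) (nat_lit 114) (nat_lit 5) (nat_lit 128) (nat_lit 5) (nat_lit 356) (nat_lit 353) (nat_lit 155)) (XT.nd (nat_lit 94) (nat_lit 0) (nat_lit 0) (XT.lf (nat_lit 0) (nat_lit 14352571769) (nat_lit 1092) (nat_lit 7719833817) (nat_lit 1176) (nat_lit 9972815211) (nat_lit 115) (nat_lit 5) (nat_lit 128) (nat_lit 5) (nat_lit 129) (nat_lit 5) (nat_lit 357) (nat_lit 353) (nat_lit 154)) (XT.lf (nat_lit 84) (nat_lit 4870218443) (nat_lit 0) (nat_lit 10197439329) (nat_lit 1176) (nat_lit 17489490997) (nat_lit 116) (nat_lit 5) (nat_lit 115) (nat_lit 5) (nat_lit 129) (nat_lit 5) (nat_lit 358) (nat_lit 353) (nat_lit 153)))) (XT.nd (nat_lit 94) (nat_lit 0) (nat_lit 0) (XT.lf (nat_lit 0) (nat_lit 15904371429) (nat_lit 1092) (nat_lit 15090783268) (nat_lit 1176) (nat_lit 2086716937) (nat_lit 116) (nat_lit 5) (nat_lit 129) (nat_lit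 5) (nat_lit 130) (nat_lit 5) (nat_lit 359) (nat_lit 353) (nat_lit 152)) (XT.nd (nat_lit 94) (nat_lit 0) (nat_lit 0) (XT.lf (nat_lit 0) (nat_lit 16869149779) (nat_lit 1092) (nat_lit 2209844497) (nat_lit 1176) (nat_lit 14540708839) (nat_lit 116) (nat_lit 5) (nat_lit 129) (nat_lit 5) (nat_lit 130) (nat_lit 5) (nat_lit 360) (nat_lit 353) (nat_lit 151)) (XT.lf (nat_lit 84) (nat_lit 11296654645) (nat_lit 0) (nat_lit 6677141805) (nat_lit 1176) (nat_lit 16197010045) (nat_lit 117) (nat_lit 5) (nat_lit 116) (nat_lit 5) (nat_lit 130) (nat_lit 5) (nat_lit 361) (nat_lit 353) (nat_lit 150))))) (XT.nd (nat_lit 282) (nat_lit 0) (nat_lit 84) (XT.nd (nat_lit 94) (nat_lit 0) (nat_lit 0) (XT.lf (nat_lit 0) (nat_lit 19194546113) (nat_lit 1092) (nat_lit 9531831739) (nat_lit 1176) (nat_lit 6010086250) (nat_lit 117) (nat_lit 5) (nat_lit 130) (nat_lit 5) (nat_lit 131) (nat_lit 5) (nat_lit 362) (nat_lit 353)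 (nat_lit 149)) (XT.nd (nat_lit 94) (nat_lit 0) (nat_lit 0) (XT.lf (nat_lit 84) (nat_lit 4239859229) (nat_lit 0) (nat_lit 16321645797) (nat_lit 1176) (nat_lit 14754800143) (nat_lit 118) (nat_lit 5) (nat_lit 117) (nat_lit 5) (nat_lit 131) (nat_lit 5) (nat_lit 363) (nat_lit 353) (nat_lit 148)) (XT.lf (nat_lit 84) (nat_lit 18639183019) (nat_lit 0) (nat_lit 3429210262) (nat_lit 1176) (nat_lit 13842711065) (nat_lit 118) (nat_lit 5) (nat_lit 117) (nat_lit 5) (nat_lit 131) (nat_lit 5) (nat_lit 364) (nat_lit 353) (nat_lit 147)))) (XT.nd (nat_lit 94) (nat_lit 0) (nat_lit 0) (XT.lf (nat_lit 0) (nat_lit 23717960894) (nat_lit 1092) (nat_lit 3138686962) (nat_lit 1176) (nat_lit 9664726481) (nat_lit 118) (nat_lit 5) (nat_lit 131) (nat_lit 5) (nat_lit 132) (nat_lit 5) (nat_lit 365) (nat_lit 353) (nat_lit 146)) (XT.nd (nat_lit 94) (nat_lit 0) (nat_lit 0) (XT.lf (nat_lit 84) (nat_lit 11630587699) (nat_lit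 0) (nat_lit 13936708138) (nat_lit 1176) (nat_lit 11578666081) (nat_lit 119) (nat_lit 5) (nat_lit 118) (nat_lit 5) (nat_lit 132) (nat_lit 5) (nat_lit 366) (nat_lit 353) (nat_lit 145)) (XT.lf (nat_lit 84) (nat_lit 26922914396) (nat_lit 0) (nat_lit 582029789) (nat_lit 1176) (nat_lit 10284013590) (nat_lit 119) (nat_lit 5) (nat_lit 118) (nat_lit 5) (nat_lit 132) (nat_lit 5) (nat_lit 367) (nat_lit 353) (nat_lit 144))))))) (XT.nd (nat_lit 1128) (nat_lit 2268) (nat_lit 0) (XT.nd (nat_lit 564) (nat_lit 1092) (nat_lit 0) (XT.nd (nat_lit 282) (nat_lit 1596) (nat_lit 0) (XT.nd (nat_lit 94) (nat_lit 0) (nat_lit 0) (XT.lf (nat_lit 84) (nat_lit 4189657884) (nat_lit 0) (nat_lit 25483657086) (nat_lit 1176) (nat_lit 8773287588) (nat_lit 120) (nat_lit 5) (nat_lit 119) (nat_lit 5) (nat_lit 133) (nat_lit 5) (nat_lit 368) (nat_lit 353) (nat_lit 143)) (XT.nd (nat_lit 94) (nat_lit 0) (nat_lit 84) (XT.lf (nat_lit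 84) (nat_lit 19935020885) (nat_lit 0) (nat_lit 12091514753) (nat_lit 1176) (nat_lit 7094458330) (nat_lit 120) (nat_lit 5) (nat_lit 119) (nat_lit 5) (nat_lit 133) (nat_lit 5) (nat_lit 369) (nat_lit 353) (nat_lit 142)) (XT.lf (nat_lit 0) (nat_lit 34468099386) (nat_lit 1092) (nat_lit 3666185751) (nat_lit 84) (nat_lit 1681535176) (nat_lit 120) (nat_lit 5) (nat_lit 133) (nat_lit 5) (nat_lit 121) (nat_lit 5) (nat_lit 370) (nat_lit 353) (nat_lit 141)))) (XT.nd (nat_lit 94) (nat_lit 588) (nat_lit 0) (XT.lf (nat_lit 0) (nat_lit 12460781626) (nat_lit 1092) (nat_lit 24770271618) (nat_lit 1176) (nat_lit 3293522093) (nat_lit 107) (nat_lit 5) (nat_lit 120) (nat_lit 5) (nat_lit 121) (nat_lit 5) (nat_lit 371) (nat_lit 353) (nat_lit 140)) (XT.nd (nat_lit 94) (nat_lit 588) (nat_lit 0) (XT.lf (nat_lit 0) (nat_lit 29164097006) (nat_lit 1092) (nat_lit 10952284991) (nat_lit 1176) (nat_lit 1137786984) (nat_lit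 107) (nat_lit 5) (nat_lit 120) (nat_lit 5) (nat_lit 121) (nat_lit 5) (nat_lit 372) (nat_lit 353) (nat_lit 139)) (XT.lf (nat_lit 0) (nat_lit 1138853113) (nat_lit 588) (nat_lit 37581412747) (nat_lit 84) (nat_lit 3283431953) (nat_lit 100) (nat_lit 5) (nat_lit 107) (nat_lit 5) (nat_lit 101) (nat_lit 5) (nat_lit 373) (nat_lit 353) (nat_lit 138))))) (XT.nd (nat_lit 282) (nat_lit 504) (nat_lit 0) (XT.nd (nat_lit 94) (nat_lit 588) (nat_lit 0) (XT.lf (nat_lit 0) (nat_lit 3700453246) (nat_lit 588) (nat_lit 21196011547) (nat_lit 84) (nat_lit 17872263070) (nat_lit 100) (nat_lit 5) (nat_lit 107) (nat_lit 5) (nat_lit 101) (nat_lit 5) (nat_lit 374) (nat_lit 353) (nat_lit 137)) (XT.nd (nat_lit 94) (nat_lit 588) (nat_lit 0) (XT.lf (nat_lit 0) (nat_lit 6340023945) (nat_lit 588) (nat_lit 4303968669) (nat_lit 84) (nat_lit 32913530827) (nat_lit 100) (nat_lit 5) (nat_lit 107) (nat_lit 5) (nat_lit 101) (nat_lit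 5) (nat_lit 375) (nat_lit 353) (nat_lit 136)) (XT.lf (nat_lit 0) (nat_lit 9234295566) (nat_lit 672) (nat_lit 31028204461) (nat_lit 84) (nat_lit 4102917397) (nat_lit 93) (nat_lit 5) (nat_lit 101) (nat_lit 5) (nat_lit 94) (nat_lit 5) (nat_lit 376) (nat_lit 353) (nat_lit 135)))) (XT.nd (nat_lit 94) (nat_lit 504) (nat_lit 0) (XT.lf (nat_lit 0) (nat_lit 12371171570) (nat_lit 672) (nat_lit 13691074675) (nat_lit 84) (nat_lit 19131375226) (nat_lit 93) (nat_lit 5) (nat_lit 101) (nat_lit 5) (nat_lit 94) (nat_lit 5) (nat_lit 377) (nat_lit 353) (nat_lit 134)) (XT.nd (nat_lit 94) (nat_lit 0) (nat_lit 0) (XT.lf (nat_lit 0) (nat_lit 4268238939) (nat_lit 504) (nat_lit 11378069176) (nat_lit 588) (nat_lit 30399924744) (nat_lit 87) (nat_lit 5) (nat_lit 93) (nat_lit 5) (nat_lit 94) (nat_lit 5) (nat_lit 378) (nat_lit 353) (nat_lit 133)) (XT.lf (nat_lit 0) (nat_lit 19203358770) (nat_lit 588) (nat_lit 23886379551)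 (nat_lit 84) (nat_lit 3829949364) (nat_lit 87) (nat_lit 5) (nat_lit 94) (nat_lit 5) (nat_lit 88) (nat_lit 5) (nat_lit 379) (nat_lit 353) (nat_lit 132)))))) (XT.nd (nat_lit 564) (nat_lit 1344) (nat_lit 0) (XT.nd (nat_lit 282) (nat_lit 420) (nat_lit 0) (XT.nd (nat_lit 94) (nat_lit 504) (nat_lit 0) (XT.lf (nat_lit 0) (nat_lit 22985791653) (nat_lit 588) (nat_lit 5557752071) (nat_lit 84) (nat_lit 19273111646) (nat_lit 87) (nat_lit 5) (nat_lit 94) (nat_lit 5) (nat_lit 88) (nat_lit 5) (nat_lit 380) (nat_lit 353) (nat_lit 131)) (XT.nd (nat_lit 94) (nat_lit 0) (nat_lit 0) (XT.lf (nat_lit 0) (nat_lit 13612098014) (nat_lit 504) (nat_lit 13407196217) (nat_lit 588) (nat_lit 21717990734) (nat_lit 81) (nat_lit 5) (nat_lit 87) (nat_lit 5) (nat_lit 88) (nat_lit 5) (nat_lit 381) (nat_lit 353) (nat_lit 130)) (XT.lf (nat_lit 0) (nat_lit 31257053597) (nat_lit 588) (nat_lit 16214269256) (nat_lit 84) (nat_lit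 2212679492) (nat_lit 81) (nat_lit 5) (nat_lit 88) (nat_lit 5) (nat_lit 82) (nat_lit 5) (nat_lit 382) (nat_lit 353) (nat_lit 129)))) (XT.nd (nat_lit 94) (nat_lit 0) (nat_lit 0) (XT.lf (nat_lit 0) (nat_lit 3209211863) (nat_lit 420) (nat_lit 32584772592) (nat_lit 504) (nat_lit 14860885586) (nat_lit 76) (nat_lit 5) (nat_lit 81) (nat_lit 5) (nat_lit 82) (nat_lit 5) (nat_lit 383) (nat_lit 353) (nat_lit 128)) (XT.nd (nat_lit 94) (nat_lit 0) (nat_lit 0) (XT.lf (nat_lit 0) (nat_lit 23577357715) (nat_lit 420) (nat_lit 17062310237) (nat_lit 504) (nat_lit 11010959134) (nat_lit 76) (nat_lit 5) (nat_lit 81) (nat_lit 5) (nat_lit 82) (nat_lit 5) (nat_lit 384) (nat_lit 353) (nat_lit 127)) (XT.lf (nat_lit 0) (nat_lit 44575754915) (nat_lit 420) (nat_lit 1058710942) (nat_lit 504) (nat_lit 7042824574) (nat_lit 76) (nat_lit 5) (nat_lit 81) (nat_lit 5) (nat_lit 82) (nat_lit 5) (nat_lit 385) (nat_lit 353) (nat_lit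 126))))) (XT.nd (nat_lit 282) (nat_lit 420) (nat_lit 0) (XT.nd (nat_lit 94) (nat_lit 504) (nat_lit 0) (XT.lf (nat_lit 0) (nat_lit 12588615624) (nat_lit 420) (nat_lit 38472474906) (nat_lit 504) (nat_lit 2666106747) (nat_lit 71) (nat_lit 5) (nat_lit 76) (nat_lit 5) (nat_lit 77) (nat_lit 5) (nat_lit 386) (nat_lit 353) (nat_lit 125)) (XT.nd (nat_lit 94) (nat_lit 420) (nat_lit 0) (XT.lf (nat_lit 0) (nat_lit 1904284538) (nat_lit 504) (nat_lit 20746304269) (nat_lit 84) (nat_lit 32155546997) (nat_lit 70) (nat_lit 5) (nat_lit 76) (nat_lit 5) (nat_lit 71) (nat_lit 5) (nat_lit 387) (nat_lit 353) (nat_lit 124)) (XT.lf (nat_lit 0) (nat_lit 254860111) (nat_lit 420) (nat_lit 6307614126) (nat_lit 504) (nat_lit 49355158710) (nat_lit 65) (nat_lit 5) (nat_lit 70) (nat_lit 5) (nat_lit 71) (nat_lit 5) (nat_lit 388) (nat_lit 353) (nat_lit 123)))) (XT.nd (nat_lit 94) (nat_lit 420) (nat_lit 0) (XT.lf (nat_lit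 0) (nat_lit 11687397312) (nat_lit 504) (nat_lit 34817957049) (nat_lit 84) (nat_lit 10548243083) (nat_lit 65) (nat_lit 5) (nat_lit 71) (nat_lit 5) (nat_lit 66) (nat_lit 5) (nat_lit 389) (nat_lit 353) (nat_lit 122)) (XT.nd (nat_lit 94) (nat_lit 420) (nat_lit 0) (XT.lf (nat_lit 0) (nat_lit 17034723455) (nat_lit 504) (nat_lit 13392591321) (nat_lit 84) (nat_lit 27795495681) (nat_lit 65) (nat_lit 5) (nat_lit 71) (nat_lit 5) (nat_lit 66) (nat_lit 5) (nat_lit 390) (nat_lit 353) (nat_lit 121)) (XT.lf (nat_lit 0) (nat_lit 8874672212) (nat_lit 420) (nat_lit 13760230255) (nat_lit 504) (nat_lit 36790669917) (nat_lit 60) (nat_lit 5) (nat_lit 65) (nat_lit 5) (nat_lit 66) (nat_lit 5) (nat_lit 391) (nat_lit 353) (nat_lit 120))))))))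
noncomputable def xc215 : XT := (XT.nd (nat_lit 2256) (nat_lit 672) (nat_lit 0) (XT.nd (nat_lit 1128) (nat_lit 1092) (nat_lit 0) (XT.nd (nat_lit 564) (nat_lit 756) (nat_lit 0) (XT.nd (nat_lit 282) (nat_lit 336) (nat_lit 0) (XT.nd (nat_lit 94) (nat_lit 336) (nat_lit 0) (XT.lf (nat_lit 0) (nat_lit 28582934164) (nat_lit 504) (nat_lit 28581653906) (nat_lit 84) (nat_lit 3495633079) (nat_lit 60) (nat_lit 5) (nat_lit 66) (nat_lit 5) (nat_lit 61) (nat_lit 5) (nat_lit 392) (nat_lit 353) (nat_lit 119)) (XT.nd (nat_lit 94) (nat_lit 336) (nat_lit 0) (XT.lf (nat_lit 0) (nat_lit 34855182098) (nat_lit 504) (nat_lit 6073175036) (nat_lit 84) (nat_lit 21000455043) (nat_lit 60) (nat_lit 5) (nat_lit 66) (nat_lit 5) (nat_lit 61) (nat_lit 5) (nat_lit 393) (nat_lit 353) (nat_lit 118)) (XT.lf (nat_lit 0) (nat_lit 17484289351) (nat_lit 336) (nat_lit 24010146435) (nat_lit 420) (nat_lit 21736946900) (nat_lit 56)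 (nat_lit 5) (nat_lit 60) (nat_lit 5) (nat_lit 61) (nat_lit 5) (nat_lit 394) (nat_lit 353) (nat_lit 117)))) (XT.nd (nat_lit 94) (nat_lit 336) (nat_lit 0) (XT.lf (nat_lit 0) (nat_lit 41899747059) (nat_lit 336) (nat_lit 6502286715) (nat_lit 420) (nat_lit 16170363386) (nat_lit 56) (nat_lit 5) (nat_lit 60) (nat_lit 5) (nat_lit 61) (nat_lit 5) (nat_lit 395) (nat_lit 353) (nat_lit 116)) (XT.nd (nat_lit 94) (nat_lit 0) (nat_lit 0) (XT.lf (nat_lit 0) (nat_lit 1022101292) (nat_lit 336) (nat_lit 54625526376) (nat_lit 420) (nat_lit 10303518292) (nat_lit 52) (nat_lit 5) (nat_lit 56) (nat_lit 5) (nat_lit 57) (nat_lit 5) (nat_lit 396) (nat_lit 353) (nat_lit 115)) (XT.lf (nat_lit 0) (nat_lit 25863146246) (nat_lit 336) (nat_lit 37556349890) (nat_lit 420) (nat_lit 3943790813) (nat_lit 52) (nat_lit 5) (nat_lit 56) (nat_lit 5) (nat_lit 57) (nat_lit 5) (nat_lit 397) (nat_lit 353) (nat_lit 114))))) (XT.nd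 (nat_lit 282) (nat_lit 336) (nat_lit 0) (XT.nd (nat_lit 94) (nat_lit 336) (nat_lit 0) (XT.lf (nat_lit 0) (nat_lit 2559629960) (nat_lit 420) (nat_lit 17371872615) (nat_lit 84) (nat_lit 48886925595) (nat_lit 51) (nat_lit 5) (nat_lit 56) (nat_lit 5) (nat_lit 52) (nat_lit 5) (nat_lit 398) (nat_lit 353) (nat_lit 113)) (XT.nd (nat_lit 94) (nat_lit 0) (nat_lit 0) (XT.lf (nat_lit 0) (nat_lit 7616512454) (nat_lit 336) (nat_lit 1640993270) (nat_lit 420) (nat_lit 61057606999) (nat_lit 47) (nat_lit 5) (nat_lit 51) (nat_lit 5) (nat_lit 52) (nat_lit 5) (nat_lit 399) (nat_lit 353) (nat_lit 112)) (XT.lf (nat_lit 0) (nat_lit 16516213002) (nat_lit 420) (nat_lit 38278399536) (nat_lit 84) (nat_lit 17052635029) (nat_lit 47) (nat_lit 5) (nat_lit 52) (nat_lit 5) (nat_lit 48) (nat_lit 5) (nat_lit 400) (nat_lit 353) (nat_lit 111)))) (XT.nd (nat_lit 94) (nat_lit 336) (nat_lit 0) (XT.lf (nat_lit 0) (nat_lit 24015973046)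 (nat_lit 420) (nat_lit 13118919830) (nat_lit 84) (nat_lit 36291490821) (nat_lit 47) (nat_lit 5) (nat_lit 52) (nat_lit 5) (nat_lit 48) (nat_lit 5) (nat_lit 401) (nat_lit 353) (nat_lit 110)) (XT.nd (nat_lit 94) (nat_lit 0) (nat_lit 0) (XT.lf (nat_lit 0) (nat_lit 13083165606) (nat_lit 336) (nat_lit 18794118577) (nat_lit 420) (nat_lit 43173190106) (nat_lit 43) (nat_lit 5) (nat_lit 47) (nat_lit 5) (nat_lit 48) (nat_lit 5) (nat_lit 402) (nat_lit 353) (nat_lit 109)) (XT.lf (nat_lit 0) (nat_lit 40121056639) (nat_lit 420) (nat_lit 36348527730) (nat_lit 84) (nat_lit 251027738) (nat_lit 43) (nat_lit 5) (nat_lit 48) (nat_lit 5) (nat_lit 44) (nat_lit 5) (nat_lit 403) (nat_lit 353) (nat_lit 108)))))) (XT.nd (nat_lit 564) (nat_lit 504) (nat_lit 0) (XT.nd (nat_lit 282) (nat_lit 336) (nat_lit 0) (XT.nd (nat_lit 94) (nat_lit 252) (nat_lit 0) (XT.lf (nat_lit 0) (nat_lit 48811909776) (nat_lit 420) (nat_lit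 10128703100) (nat_lit 84) (nat_lit 19495976022) (nat_lit 43) (nat_lit 5) (nat_lit 48) (nat_lit 5) (nat_lit 44) (nat_lit 5) (nat_lit 404) (nat_lit 353) (nat_lit 107)) (XT.nd (nat_lit 94) (nat_lit 0) (nat_lit 0) (XT.lf (nat_lit 0) (nat_lit 17250606079) (nat_lit 252) (nat_lit 40692026466) (nat_lit 336) (nat_lit 22257846254) (nat_lit 40) (nat_lit 5) (nat_lit 43) (nat_lit 5) (nat_lit 44) (nat_lit 5) (nat_lit 405) (nat_lit 353) (nat_lit 106)) (XT.lf (nat_lit 0) (nat_lit 45692514769) (nat_lit 252) (nat_lit 21768952419) (nat_lit 336) (nat_lit 14554327078) (nat_lit 40) (nat_lit 5) (nat_lit 43) (nat_lit 5) (nat_lit 44) (nat_lit 5) (nat_lit 406) (nat_lit 353) (nat_lit 105)))) (XT.nd (nat_lit 94) (nat_lit 336) (nat_lit 0) (XT.lf (nat_lit 0) (nat_lit 75015266897) (nat_lit 252) (nat_lit 2259475334) (nat_lit 336) (nat_lit 6612663996) (nat_lit 40) (nat_lit 5) (nat_lit 43) (nat_lit 5) (nat_lit 44) (nat_lit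 5) (nat_lit 407) (nat_lit 353) (nat_lit 104)) (XT.nd (nat_lit 94) (nat_lit 0) (nat_lit 0) (XT.lf (nat_lit 0) (nat_lit 1918655961) (nat_lit 336) (nat_lit 66177074686) (nat_lit 84) (nat_lit 17709193506) (nat_lit 36) (nat_lit 5) (nat_lit 40) (nat_lit 5) (nat_lit 37) (nat_lit 5) (nat_lit 408) (nat_lit 353) (nat_lit 103)) (XT.lf (nat_lit 0) (nat_lit 10693125856) (nat_lit 336) (nat_lit 38672134835) (nat_lit 84) (nat_lit 38410932237) (nat_lit 36) (nat_lit 5) (nat_lit 40) (nat_lit 5) (nat_lit 37) (nat_lit 5) (nat_lit 409) (nat_lit 353) (nat_lit 102))))) (XT.nd (nat_lit 282) (nat_lit 252) (nat_lit 0) (XT.nd (nat_lit 94) (nat_lit 252) (nat_lit 0) (XT.lf (nat_lit 0) (nat_lit 19738999466) (nat_lit 336) (nat_lit 10315371005) (nat_lit 84) (nat_lit 59754220879) (nat_lit 36) (nat_lit 5) (nat_lit 40) (nat_lit 5) (nat_lit 37) (nat_lit 5) (nat_lit 410) (nat_lit 353) (nat_lit 101)) (XT.nd (nat_lit 94) (nat_lit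 0) (nat_lit 0) (XT.lf (nat_lit 0) (nat_lit 19308675049) (nat_lit 252) (nat_lit 9947577889) (nat_lit 336) (nat_lit 62641823011) (nat_lit 33) (nat_lit 5) (nat_lit 36) (nat_lit 5) (nat_lit 37) (nat_lit 5) (nat_lit 411) (nat_lit 353) (nat_lit 100)) (XT.lf (nat_lit 0) (nat_lit 39283698699) (nat_lit 336) (nat_lit 44088128257) (nat_lit 84) (nat_lit 10673839205) (nat_lit 33) (nat_lit 5) (nat_lit 37) (nat_lit 5) (nat_lit 34) (nat_lit 5) (nat_lit 412) (nat_lit 353) (nat_lit 99)))) (XT.nd (nat_lit 94) (nat_lit 252) (nat_lit 0) (XT.lf (nat_lit 0) (nat_lit 49723173915) (nat_lit 336) (nat_lit 14805845294) (nat_lit 84) (nat_lit 31727677350) (nat_lit 33) (nat_lit 5) (nat_lit 37) (nat_lit 5) (nat_lit 34) (nat_lit 5) (nat_lit 413) (nat_lit 353) (nat_lit 98)) (XT.nd (nat_lit 94) (nat_lit 0) (nat_lit 0) (XT.lf (nat_lit 0) (nat_lit 15699738080) (nat_lit 252) (nat_lit 44941733332) (nat_lit 336) (nat_lit 37889987717)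 (nat_lit 30) (nat_lit 5) (nat_lit 33) (nat_lit 5) (nat_lit 34) (nat_lit 5) (nat_lit 414) (nat_lit 353) (nat_lit 97)) (XT.lf (nat_lit 0) (nat_lit 47464113332) (nat_lit 252) (nat_lit 24588129530) (nat_lit 336) (nat_lit 28819723610) (nat_lit 30) (nat_lit 5) (nat_lit 33) (nat_lit 5) (nat_lit 34) (nat_lit 5) (nat_lit 415) (nat_lit 353) (nat_lit 96))))))) (XT.nd (nat_lit 48504) (nat_lit 0) (nat_lit 7728) (XT.nd (nat_lit 564) (nat_lit 168) (nat_lit 0) (XT.nd (nat_lit 282) (nat_lit 252) (nat_lit 0) (XT.nd (nat_lit 94) (nat_lit 252) (nat_lit 0) (XT.lf (nat_lit 0) (nat_lit 80212449641) (nat_lit 252) (nat_lit 3603778773) (nat_lit 336) (nat_lit 19468818546) (nat_lit 30) (nat_lit 5) (nat_lit 33) (nat_lit 5) (nat_lit 34) (nat_lit 5) (nat_lit 416) (nat_lit 353) (nat_lit 95)) (XT.nd (nat_lit 94) (nat_lit 84) (nat_lit 0) (XT.lf (nat_lit 0) (nat_lit 8188432162) (nat_lit 168) (nat_lit 88016059980) (nat_lit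 252) (nat_lit 9560394631) (nat_lit 28) (nat_lit 5) (nat_lit 30) (nat_lit 5) (nat_lit 31) (nat_lit 5) (nat_lit 417) (nat_lit 353) (nat_lit 94)) (XT.lf (nat_lit 0) (nat_lit 921637236) (nat_lit 252) (nat_lit 67453007767) (nat_lit 84) (nat_lit 39938087247) (nat_lit 27) (nat_lit 5) (nat_lit 30) (nat_lit 5) (nat_lit 28) (nat_lit 5) (nat_lit 418) (nat_lit 353) (nat_lit 93)))) (XT.nd (nat_lit 94) (nat_lit 252) (nat_lit 0) (XT.lf (nat_lit 0) (nat_lit 11529530909) (nat_lit 252) (nat_lit 36494223936) (nat_lit 84) (nat_lit 62912791223) (nat_lit 27) (nat_lit 5) (nat_lit 30) (nat_lit 5) (nat_lit 28) (nat_lit 5) (nat_lit 419) (nat_lit 353) (nat_lit 92)) (XT.nd (nat_lit 94) (nat_lit 252) (nat_lit 0) (XT.lf (nat_lit 0) (nat_lit 22465794700) (nat_lit 252) (nat_lit 4576405990) (nat_lit 84) (nat_lit 86599513254) (nat_lit 27) (nat_lit 5) (nat_lit 30) (nat_lit 5) (nat_lit 28) (nat_lit 5) (nat_lit 420) (nat_lit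 353) (nat_lit 91)) (XT.lf (nat_lit 0) (nat_lit 28912723770) (nat_lit 252) (nat_lit 5114716381) (nat_lit 336) (nat_lit 82394425876) (nat_lit 24) (nat_lit 5) (nat_lit 27) (nat_lit 5) (nat_lit 28) (nat_lit 5) (nat_lit 421) (nat_lit 353) (nat_lit 90))))) (XT.nd (nat_lit 282) (nat_lit 0) (nat_lit 0) (XT.nd (nat_lit 94) (nat_lit 168) (nat_lit 0) (XT.lf (nat_lit 0) (nat_lit 46168826334) (nat_lit 336) (nat_lit 55924378342) (nat_lit 84) (nat_lit 17188137978) (nat_lit 24) (nat_lit 5) (nat_lit 28) (nat_lit 5) (nat_lit 25) (nat_lit 5) (nat_lit 422) (nat_lit 353) (nat_lit 89)) (XT.nd (nat_lit 94) (nat_lit 168) (nat_lit 0) (XT.lf (nat_lit 0) (nat_lit 58738465599) (nat_lit 336) (nat_lit 23413451773) (nat_lit 84) (nat_lit 40075938731) (nat_lit 24) (nat_lit 5) (nat_lit 28) (nat_lit 5) (nat_lit 25) (nat_lit 5) (nat_lit 423) (nat_lit 353) (nat_lit 88)) (XT.lf (nat_lit 0) (nat_lit 10312452597) (nat_lit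 168) (nat_lit 61487183756) (nat_lit 252) (nat_lit 53462918053) (nat_lit 22) (nat_lit 5) (nat_lit 24) (nat_lit 5) (nat_lit 25) (nat_lit 5) (nat_lit 424) (nat_lit 353) (nat_lit 87)))) (XT.nd (nat_lit 94) (nat_lit 0) (nat_lit 0) (XT.lf (nat_lit 0) (nat_lit 45579585433) (nat_lit 168) (nat_lit 39930084898) (nat_lit 252) (nat_lit 42874096010) (nat_lit 22) (nat_lit 5) (nat_lit 24) (nat_lit 5) (nat_lit 25) (nat_lit 5) (nat_lit 425) (nat_lit 353) (nat_lit 86)) (XT.nd (nat_lit 47470) (nat_lit 0) (nat_lit 7728) (XT.lf (nat_lit 0) (nat_lit 81939390810) (nat_lit 168) (nat_lit 17704915741) (nat_lit 252) (nat_lit 31957442899) (nat_lit 22) (nat_lit 5) (nat_lit 24) (nat_lit 5) (nat_lit 25) (nat_lit 5) (nat_lit 426) (nat_lit 353) (nat_lit 85)) (XT.lf (nat_lit 0) (nat_lit 3258876876) (nat_lit 0) (nat_lit 3258876876) (nat_lit 1092) (nat_lit 9007706639) (nat_lit 114) (nat_lit 5) (nat_lit 114) (nat_lit 3)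 (nat_lit 127) (nat_lit 3) (nat_lit 354) (nat_lit 354) (nat_lit 156)))))) (XT.nd (nat_lit 564) (nat_lit 0) (nat_lit 168) (XT.nd (nat_lit 282) (nat_lit 0) (nat_lit 84) (XT.nd (nat_lit 94) (nat_lit 0) (nat_lit 0) (XT.lf (nat_lit 0) (nat_lit 13351888965) (nat_lit 1092) (nat_lit 12722333117) (nat_lit 1176) (nat_lit 5454222530) (nat_lit 114) (nat_lit 5) (nat_lit 127) (nat_lit 3) (nat_lit 128) (nat_lit 5) (nat_lit 355) (nat_lit 354) (nat_lit 155)) (XT.nd (nat_lit 94) (nat_lit 0) (nat_lit 0) (XT.lf (nat_lit 0) (nat_lit 13742369406) (nat_lit 1092) (nat_lit 613310184) (nat_lit 1176) (nat_lit 17663107979) (nat_lit 114) (nat_lit 5) (nat_lit 127) (nat_lit 3) (nat_lit 128) (nat_lit 5) (nat_lit 356) (nat_lit 354) (nat_lit 154)) (XT.lf (nat_lit 84) (nat_lit 12113913940) (nat_lit 0) (nat_lit 2148913455) (nat_lit 1176) (nat_lit 18257858354) (nat_lit 115) (nat_lit 5) (nat_lit 114) (nat_lit 5) (nat_lit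 128) (nat_lit 5) (nat_lit 357) (nat_lit 354) (nat_lit 153)))) (XT.nd (nat_lit 94) (nat_lit 0) (nat_lit 0) (XT.lf (nat_lit 0) (nat_lit 14907183778) (nat_lit 1092) (nat_lit 7894177092) (nat_lit 1176) (nat_lit 10233449597) (nat_lit 115) (nat_lit 5) (nat_lit 128) (nat_lit 5) (nat_lit 129) (nat_lit 5) (nat_lit 358) (nat_lit 354) (nat_lit 152)) (XT.nd (nat_lit 94) (nat_lit 0) (nat_lit 84) (XT.lf (nat_lit 84) (nat_lit 5085509010) (nat_lit 0) (nat_lit 10556268523) (nat_lit 1176) (nat_lit 17920925520) (nat_lit 116) (nat_lit 5) (nat_lit 115) (nat_lit 5) (nat_lit 129) (nat_lit 5) (nat_lit 359) (nat_lit 354) (nat_lit 151)) (XT.lf (nat_lit 0) (nat_lit 16500800440) (nat_lit 1092) (nat_lit 15492201043) (nat_lit 1176) (nat_lit 2110815354) (nat_lit 116) (nat_lit 5) (nat_lit 129) (nat_lit 5) (nat_lit 130) (nat_lit 5) (nat_lit 360) (nat_lit 354) (nat_lit 150))))) (XT.nd (nat_lit 282) (nat_lit 0) (nat_lit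 84) (XT.nd (nat_lit 94) (nat_lit 0) (nat_lit 0) (XT.lf (nat_lit 0) (nat_lit 17492378094) (nat_lit 1092) (nat_lit 2213949573) (nat_lit 1176) (nat_lit 14952101455) (nat_lit 116) (nat_lit 5) (nat_lit 129) (nat_lit 5) (nat_lit 130) (nat_lit 5) (nat_lit 361) (nat_lit 354) (nat_lit 149)) (XT.nd (nat_lit 94) (nat_lit 0) (nat_lit 84) (XT.lf (nat_lit 84) (nat_lit 11710599049) (nat_lit 0) (nat_lit 6918286802) (nat_lit 1176) (nat_lit 16597816031) (nat_lit 117) (nat_lit 5) (nat_lit 116) (nat_lit 5) (nat_lit 130) (nat_lit 5) (nat_lit 362) (nat_lit 354) (nat_lit 148)) (XT.lf (nat_lit 0) (nat_lit 19884206435) (nat_lit 1092) (nat_lit 9761861169) (nat_lit 1176) (nat_lit 6163939678) (nat_lit 117) (nat_lit 5) (nat_lit 130) (nat_lit 5) (nat_lit 131) (nat_lit 5) (nat_lit 363) (nat_lit 354) (nat_lit 147)))) (XT.nd (nat_lit 94) (nat_lit 0) (nat_lit 0) (XT.lf (nat_lit 84) (nat_lit 4436089522) (nat_lit 0) (nat_lit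 16855249017) (nat_lit 1176) (nat_lit 15116563797) (nat_lit 118) (nat_lit 5) (nat_lit 117) (nat_lit 5) (nat_lit 131) (nat_lit 5) (nat_lit 364) (nat_lit 354) (nat_lit 146)) (XT.nd (nat_lit 94) (nat_lit 0) (nat_lit 84) (XT.lf (nat_lit 84) (nat_lit 19279844110) (nat_lit 0) (nat_lit 3562317138) (nat_lit 1176) (nat_lit 14179075505) (nat_lit 118) (nat_lit 5) (nat_lit 117) (nat_lit 5) (nat_lit 131) (nat_lit 5) (nat_lit 365) (nat_lit 354) (nat_lit 145)) (XT.lf (nat_lit 0) (nat_lit 24539912059) (nat_lit 1092) (nat_lit 3171753360) (nat_lit 1176) (nat_lit 9938861256) (nat_lit 118) (nat_lit 5) (nat_lit 131) (nat_lit 5) (nat_lit 132) (nat_lit 5) (nat_lit 366) (nat_lit 354) (nat_lit 144))))))))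
noncomputable def xc216 : XT := (XT.nd (nat_lit 2256) (nat_lit 2688) (nat_lit 0) (XT.nd (nat_lit 1128) (nat_lit 2352) (nat_lit 0) (XT.nd (nat_lit 564) (nat_lit 1176) (nat_lit 0) (XT.nd (nat_lit 282) (nat_lit 924) (nat_lit 0) (XT.nd (nat_lit 94) (nat_lit 0) (nat_lit 0) (XT.lf (nat_lit 84) (nat_lit 12054718515) (nat_lit 0) (nat_lit 14389881900) (nat_lit 1176) (nat_lit 11849947015) (nat_lit 119) (nat_lit 5) (nat_lit 118) (nat_lit 5) (nat_lit 132) (nat_lit 5) (nat_lit 367) (nat_lit 354) (nat_lit 143)) (XT.nd (nat_lit 94) (nat_lit 0) (nat_lit 84) (XT.lf (nat_lit 84) (nat_lit 27819195545) (nat_lit 0) (nat_lit 620573013) (nat_lit 1176) (nat_lit 10517795980) (nat_lit 119) (nat_lit 5) (nat_lit 118) (nat_lit 5) (nat_lit 132) (nat_lit 5) (nat_lit 368) (nat_lit 354) (nat_lit 142)) (XT.lf (nat_lit 84) (nat_lit 4383607091) (nat_lit 0) (nat_lit 26289719364) (nat_lit 1176) (nat_lit 8962341988) (nat_lit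 120) (nat_lit 5) (nat_lit 119) (nat_lit 5) (nat_lit 133) (nat_lit 5) (nat_lit 369) (nat_lit 354) (nat_lit 141)))) (XT.nd (nat_lit 94) (nat_lit 1008) (nat_lit 0) (XT.lf (nat_lit 84) (nat_lit 20615149901) (nat_lit 0) (nat_lit 12481937460) (nat_lit 1176) (nat_lit 7233962177) (nat_lit 120) (nat_lit 5) (nat_lit 119) (nat_lit 5) (nat_lit 133) (nat_lit 5) (nat_lit 370) (nat_lit 354) (nat_lit 140)) (XT.nd (nat_lit 94) (nat_lit 1092) (nat_lit 0) (XT.lf (nat_lit 0) (nat_lit 35611852470) (nat_lit 1092) (nat_lit 3716798495) (nat_lit 84) (nat_lit 1718850224) (nat_lit 120) (nat_lit 5) (nat_lit 133) (nat_lit 5) (nat_lit 121) (nat_lit 5) (nat_lit 371) (nat_lit 354) (nat_lit 139)) (XT.lf (nat_lit 0) (nat_lit 12909466658) (nat_lit 1092) (nat_lit 25549347895) (nat_lit 1176) (nat_lit 3319472339) (nat_lit 107) (nat_lit 5) (nat_lit 120) (nat_lit 5) (nat_lit 121) (nat_lit 5) (nat_lit 372) (nat_lit 354) (nat_lit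 138))))) (XT.nd (nat_lit 282) (nat_lit 588) (nat_lit 0) (XT.nd (nat_lit 94) (nat_lit 588) (nat_lit 0) (XT.lf (nat_lit 0) (nat_lit 30128708554) (nat_lit 1092) (nat_lit 11302666987) (nat_lit 1176) (nat_lit 1099199080) (nat_lit 107) (nat_lit 5) (nat_lit 120) (nat_lit 5) (nat_lit 121) (nat_lit 5) (nat_lit 373) (nat_lit 354) (nat_lit 137)) (XT.nd (nat_lit 94) (nat_lit 0) (nat_lit 0) (XT.lf (nat_lit 0) (nat_lit 1244873155) (nat_lit 588) (nat_lit 38682270289) (nat_lit 84) (nat_lit 3376231616) (nat_lit 100) (nat_lit 5) (nat_lit 107) (nat_lit 5) (nat_lit 101) (nat_lit 5) (nat_lit 374) (nat_lit 354) (nat_lit 136)) (XT.lf (nat_lit 0) (nat_lit 3883756622) (nat_lit 588) (nat_lit 21790850996) (nat_lit 84) (nat_lit 18417586709) (nat_lit 100) (nat_lit 5) (nat_lit 107) (nat_lit 5) (nat_lit 101) (nat_lit 5) (nat_lit 375) (nat_lit 354) (nat_lit 135)))) (XT.nd (nat_lit 94) (nat_lit 588) (nat_lit 0) (XT.lf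 (nat_lit 0) (nat_lit 6603091677) (nat_lit 588) (nat_lit 4377026122) (nat_lit 84) (nat_lit 33925395854) (nat_lit 100) (nat_lit 5) (nat_lit 107) (nat_lit 5) (nat_lit 101) (nat_lit 5) (nat_lit 376) (nat_lit 354) (nat_lit 134)) (XT.nd (nat_lit 94) (nat_lit 0) (nat_lit 0) (XT.lf (nat_lit 0) (nat_lit 9585624940) (nat_lit 672) (nat_lit 31928028703) (nat_lit 84) (nat_lit 4224850924) (nat_lit 93) (nat_lit 5) (nat_lit 101) (nat_lit 5) (nat_lit 94) (nat_lit 5) (nat_lit 377) (nat_lit 354) (nat_lit 133)) (XT.lf (nat_lit 0) (nat_lit 12817787697) (nat_lit 672) (nat_lit 14055313610) (nat_lit 84) (nat_lit 19719349010) (nat_lit 93) (nat_lit 5) (nat_lit 101) (nat_lit 5) (nat_lit 94) (nat_lit 5) (nat_lit 378) (nat_lit 354) (nat_lit 132)))))) (XT.nd (nat_lit 564) (nat_lit 924) (nat_lit 0) (XT.nd (nat_lit 282) (nat_lit 924) (nat_lit 0) (XT.nd (nat_lit 94) (nat_lit 0) (nat_lit 0) (XT.lf (nat_lit 0) (nat_lit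 4460129413) (nat_lit 504) (nat_lit 11733017475) (nat_lit 588) (nat_lit 31278392800) (nat_lit 87) (nat_lit 5) (nat_lit 93) (nat_lit 5) (nat_lit 94) (nat_lit 5) (nat_lit 379) (nat_lit 354) (nat_lit 131)) (XT.nd (nat_lit 94) (nat_lit 0) (nat_lit 0) (XT.lf (nat_lit 0) (nat_lit 19858586381) (nat_lit 588) (nat_lit 24566989654) (nat_lit 84) (nat_lit 3946560179) (nat_lit 87) (nat_lit 5) (nat_lit 94) (nat_lit 5) (nat_lit 88) (nat_lit 5) (nat_lit 380) (nat_lit 354) (nat_lit 130)) (XT.lf (nat_lit 0) (nat_lit 23756472911) (nat_lit 588) (nat_lit 5671974816) (nat_lit 84) (nat_lit 19868524164) (nat_lit 87) (nat_lit 5) (nat_lit 94) (nat_lit 5) (nat_lit 88) (nat_lit 5) (nat_lit 381) (nat_lit 354) (nat_lit 129)))) (XT.nd (nat_lit 94) (nat_lit 420) (nat_lit 0) (XT.lf (nat_lit 0) (nat_lit 14091552740) (nat_lit 504) (nat_lit 13822283937) (nat_lit 588) (nat_lit 22332346780) (nat_lit 81) (nat_lit 5) (nat_lit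 87) (nat_lit 5) (nat_lit 88) (nat_lit 5) (nat_lit 382) (nat_lit 354) (nat_lit 128)) (XT.nd (nat_lit 94) (nat_lit 420) (nat_lit 0) (XT.lf (nat_lit 0) (nat_lit 32281259538) (nat_lit 588) (nat_lit 16659266870) (nat_lit 84) (nat_lit 2281781360) (nat_lit 81) (nat_lit 5) (nat_lit 88) (nat_lit 5) (nat_lit 82) (nat_lit 5) (nat_lit 383) (nat_lit 354) (nat_lit 127)) (XT.lf (nat_lit 0) (nat_lit 3365758562) (nat_lit 420) (nat_lit 33591981876) (nat_lit 504) (nat_lit 15265571466) (nat_lit 76) (nat_lit 5) (nat_lit 81) (nat_lit 5) (nat_lit 82) (nat_lit 5) (nat_lit 384) (nat_lit 354) (nat_lit 126))))) (XT.nd (nat_lit 282) (nat_lit 504) (nat_lit 0) (XT.nd (nat_lit 94) (nat_lit 420) (nat_lit 0) (XT.lf (nat_lit 0) (nat_lit 24363601227) (nat_lit 420) (nat_lit 17588410945) (nat_lit 504) (nat_lit 11297981144) (nat_lit 76) (nat_lit 5) (nat_lit 81) (nat_lit 5) (nat_lit 82) (nat_lit 5) (nat_lit 385) (nat_lit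 354) (nat_lit 125)) (XT.nd (nat_lit 94) (nat_lit 420) (nat_lit 0) (XT.lf (nat_lit 0) (nat_lit 46011284620) (nat_lit 420) (nat_lit 1088785191) (nat_lit 504) (nat_lit 7208467632) (nat_lit 76) (nat_lit 5) (nat_lit 81) (nat_lit 5) (nat_lit 82) (nat_lit 5) (nat_lit 386) (nat_lit 354) (nat_lit 124)) (XT.lf (nat_lit 0) (nat_lit 13033704857) (nat_lit 420) (nat_lit 39660253930) (nat_lit 504) (nat_lit 2697067520) (nat_lit 71) (nat_lit 5) (nat_lit 76) (nat_lit 5) (nat_lit 77) (nat_lit 5) (nat_lit 387) (nat_lit 354) (nat_lit 123)))) (XT.nd (nat_lit 94) (nat_lit 420) (nat_lit 0) (XT.lf (nat_lit 0) (nat_lit 2012441633) (nat_lit 504) (nat_lit 21335081333) (nat_lit 84) (nat_lit 33155925083) (nat_lit 70) (nat_lit 5) (nat_lit 76) (nat_lit 5) (nat_lit 71) (nat_lit 5) (nat_lit 388) (nat_lit 354) (nat_lit 122)) (XT.nd (nat_lit 94) (nat_lit 0) (nat_lit 0) (XT.lf (nat_lit 0) (nat_lit 316568813) (nat_lit 420)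 (nat_lit 6497523119) (nat_lit 504) (nat_lit 50835343577) (nat_lit 65) (nat_lit 5) (nat_lit 70) (nat_lit 5) (nat_lit 71) (nat_lit 5) (nat_lit 389) (nat_lit 354) (nat_lit 121)) (XT.lf (nat_lit 0) (nat_lit 12096493064) (nat_lit 504) (nat_lit 35843583090) (nat_lit 84) (nat_lit 10880586506) (nat_lit 65) (nat_lit 5) (nat_lit 71) (nat_lit 5) (nat_lit 66) (nat_lit 5) (nat_lit 390) (nat_lit 354) (nat_lit 120))))))) (XT.nd (nat_lit 1128) (nat_lit 1176) (nat_lit 0) (XT.nd (nat_lit 564) (nat_lit 756) (nat_lit 0) (XT.nd (nat_lit 282) (nat_lit 336) (nat_lit 0) (XT.nd (nat_lit 94) (nat_lit 420) (nat_lit 0) (XT.lf (nat_lit 0) (nat_lit 17608179547) (nat_lit 504) (nat_lit 13755646591) (nat_lit 84) (nat_lit 28662343135) (nat_lit 65) (nat_lit 5) (nat_lit 71) (nat_lit 5) (nat_lit 66) (nat_lit 5) (nat_lit 391) (nat_lit 354) (nat_lit 119)) (XT.nd (nat_lit 94) (nat_lit 0) (nat_lit 0) (XT.lf (nat_lit 0) (nat_lit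 9201374493) (nat_lit 420) (nat_lit 14179736899) (nat_lit 504) (nat_lit 37885136119) (nat_lit 60) (nat_lit 5) (nat_lit 65) (nat_lit 5) (nat_lit 66) (nat_lit 5) (nat_lit 392) (nat_lit 354) (nat_lit 118)) (XT.lf (nat_lit 0) (nat_lit 29512261175) (nat_lit 504) (nat_lit 29416244810) (nat_lit 84) (nat_lit 3610707929) (nat_lit 60) (nat_lit 5) (nat_lit 66) (nat_lit 5) (nat_lit 61) (nat_lit 5) (nat_lit 393) (nat_lit 354) (nat_lit 117)))) (XT.nd (nat_lit 94) (nat_lit 336) (nat_lit 0) (XT.lf (nat_lit 0) (nat_lit 35977648176) (nat_lit 504) (nat_lit 6211549799) (nat_lit 84) (nat_lit 21657977611) (nat_lit 60) (nat_lit 5) (nat_lit 66) (nat_lit 5) (nat_lit 61) (nat_lit 5) (nat_lit 394) (nat_lit 354) (nat_lit 116)) (XT.nd (nat_lit 94) (nat_lit 0) (nat_lit 0) (XT.lf (nat_lit 0) (nat_lit 18075690856) (nat_lit 336) (nat_lit 24746256302) (nat_lit 420) (nat_lit 22368206426) (nat_lit 56) (nat_lit 5) (nat_lit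 60) (nat_lit 5) (nat_lit 61) (nat_lit 5) (nat_lit 395) (nat_lit 354) (nat_lit 115)) (XT.lf (nat_lit 0) (nat_lit 43246542743) (nat_lit 336) (nat_lit 6695899628) (nat_lit 420) (nat_lit 16630339289) (nat_lit 56) (nat_lit 5) (nat_lit 60) (nat_lit 5) (nat_lit 61) (nat_lit 5) (nat_lit 396) (nat_lit 354) (nat_lit 114))))) (XT.nd (nat_lit 282) (nat_lit 336) (nat_lit 0) (XT.nd (nat_lit 94) (nat_lit 84) (nat_lit 0) (XT.lf (nat_lit 0) (nat_lit 1102472878) (nat_lit 336) (nat_lit 56309535265) (nat_lit 420) (nat_lit 10582287070) (nat_lit 52) (nat_lit 5) (nat_lit 56) (nat_lit 5) (nat_lit 57) (nat_lit 5) (nat_lit 397) (nat_lit 354) (nat_lit 113)) (XT.nd (nat_lit 94) (nat_lit 84) (nat_lit 0) (XT.lf (nat_lit 0) (nat_lit 26712126327) (nat_lit 336) (nat_lit 38711496418) (nat_lit 420) (nat_lit 4026630007) (nat_lit 52) (nat_lit 5) (nat_lit 56) (nat_lit 5) (nat_lit 57) (nat_lit 5) (nat_lit 398) (nat_lit 354)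 (nat_lit 112)) (XT.lf (nat_lit 0) (nat_lit 2676441272) (nat_lit 420) (nat_lit 17863720157) (nat_lit 84) (nat_lit 50410369134) (nat_lit 51) (nat_lit 5) (nat_lit 56) (nat_lit 5) (nat_lit 52) (nat_lit 5) (nat_lit 399) (nat_lit 354) (nat_lit 111)))) (XT.nd (nat_lit 94) (nat_lit 0) (nat_lit 0) (XT.lf (nat_lit 0) (nat_lit 7898832250) (nat_lit 336) (nat_lit 1682450895) (nat_lit 420) (nat_lit 62912353135) (nat_lit 47) (nat_lit 5) (nat_lit 51) (nat_lit 5) (nat_lit 52) (nat_lit 5) (nat_lit 400) (nat_lit 354) (nat_lit 110)) (XT.nd (nat_lit 94) (nat_lit 0) (nat_lit 0) (XT.lf (nat_lit 0) (nat_lit 17063994581) (nat_lit 420) (nat_lit 39419094454) (nat_lit 84) (nat_lit 17590212895) (nat_lit 47) (nat_lit 5) (nat_lit 52) (nat_lit 5) (nat_lit 48) (nat_lit 5) (nat_lit 401) (nat_lit 354) (nat_lit 109)) (XT.lf (nat_lit 0) (nat_lit 24795171388) (nat_lit 420) (nat_lit 13481052060) (nat_lit 84) (nat_lit 37425204223)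 (nat_lit 47) (nat_lit 5) (nat_lit 52) (nat_lit 5) (nat_lit 48) (nat_lit 5) (nat_lit 402) (nat_lit 354) (nat_lit 108)))))) (XT.nd (nat_lit 564) (nat_lit 588) (nat_lit 0) (XT.nd (nat_lit 282) (nat_lit 252) (nat_lit 0) (XT.nd (nat_lit 94) (nat_lit 0) (nat_lit 0) (XT.lf (nat_lit 0) (nat_lit 13532846953) (nat_lit 336) (nat_lit 19366730276) (nat_lit 420) (nat_lit 44476309578) (nat_lit 43) (nat_lit 5) (nat_lit 47) (nat_lit 5) (nat_lit 48) (nat_lit 5) (nat_lit 403) (nat_lit 354) (nat_lit 107)) (XT.nd (nat_lit 94) (nat_lit 0) (nat_lit 0) (XT.lf (nat_lit 0) (nat_lit 41397977674) (nat_lit 420) (nat_lit 37431533701) (nat_lit 84) (nat_lit 268319181) (nat_lit 43) (nat_lit 5) (nat_lit 48) (nat_lit 5) (nat_lit 44) (nat_lit 5) (nat_lit 404) (nat_lit 354) (nat_lit 106)) (XT.lf (nat_lit 0) (nat_lit 50357249958) (nat_lit 420) (nat_lit 10400211433) (nat_lit 84) (nat_lit 20109574928) (nat_lit 43) (nat_lit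 5) (nat_lit 48) (nat_lit 5) (nat_lit 44) (nat_lit 5) (nat_lit 405) (nat_lit 354) (nat_lit 105)))) (XT.nd (nat_lit 94) (nat_lit 0) (nat_lit 0) (XT.lf (nat_lit 0) (nat_lit 17827426244) (nat_lit 252) (nat_lit 41943048730) (nat_lit 336) (nat_lit 22915151580) (nat_lit 40) (nat_lit 5) (nat_lit 43) (nat_lit 5) (nat_lit 44) (nat_lit 5) (nat_lit 406) (nat_lit 354) (nat_lit 104)) (XT.nd (nat_lit 94) (nat_lit 0) (nat_lit 0) (XT.lf (nat_lit 0) (nat_lit 47149769706) (nat_lit 252) (nat_lit 22433673012) (nat_lit 336) (nat_lit 14973806167) (nat_lit 40) (nat_lit 5) (nat_lit 43) (nat_lit 5) (nat_lit 44) (nat_lit 5) (nat_lit 407) (nat_lit 354) (nat_lit 103)) (XT.lf (nat_lit 0) (nat_lit 77380300773) (nat_lit 252) (nat_lit 2319706332) (nat_lit 336) (nat_lit 6786904832) (nat_lit 40) (nat_lit 5) (nat_lit 43) (nat_lit 5) (nat_lit 44) (nat_lit 5) (nat_lit 408) (nat_lit 354) (nat_lit 102))))) (XT.nd (nat_lit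 282) (nat_lit 252) (nat_lit 0) (XT.nd (nat_lit 94) (nat_lit 0) (nat_lit 0) (XT.lf (nat_lit 0) (nat_lit 2007857275) (nat_lit 336) (nat_lit 68187818530) (nat_lit 84) (nat_lit 18268202726) (nat_lit 36) (nat_lit 5) (nat_lit 40) (nat_lit 5) (nat_lit 37) (nat_lit 5) (nat_lit 409) (nat_lit 354) (nat_lit 101)) (XT.nd (nat_lit 94) (nat_lit 0) (nat_lit 0) (XT.lf (nat_lit 0) (nat_lit 11053442029) (nat_lit 336) (nat_lit 39831450674) (nat_lit 84) (nat_lit 39611393950) (nat_lit 36) (nat_lit 5) (nat_lit 40) (nat_lit 5) (nat_lit 37) (nat_lit 5) (nat_lit 410) (nat_lit 354) (nat_lit 100)) (XT.lf (nat_lit 0) (nat_lit 20378870885) (nat_lit 336) (nat_lit 10596815459) (nat_lit 84) (nat_lit 61616032196) (nat_lit 36) (nat_lit 5) (nat_lit 40) (nat_lit 5) (nat_lit 37) (nat_lit 5) (nat_lit 411) (nat_lit 354) (nat_lit 99)))) (XT.nd (nat_lit 94) (nat_lit 0) (nat_lit 0) (XT.lf (nat_lit 0) (nat_lit 19945187946) (nat_lit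 252) (nat_lit 10245506906) (nat_lit 336) (nat_lit 64555298878) (nat_lit 33) (nat_lit 5) (nat_lit 36) (nat_lit 5) (nat_lit 37) (nat_lit 5) (nat_lit 412) (nat_lit 354) (nat_lit 98)) (XT.nd (nat_lit 94) (nat_lit 0) (nat_lit 0) (XT.lf (nat_lit 0) (nat_lit 40528265131) (nat_lit 336) (nat_lit 45417262834) (nat_lit 84) (nat_lit 11014655898) (nat_lit 33) (nat_lit 5) (nat_lit 37) (nat_lit 5) (nat_lit 34) (nat_lit 5) (nat_lit 413) (nat_lit 354) (nat_lit 97)) (XT.lf (nat_lit 0) (nat_lit 51290559108) (nat_lit 336) (nat_lit 15228359574) (nat_lit 84) (nat_lit 32720864521) (nat_lit 33) (nat_lit 5) (nat_lit 37) (nat_lit 5) (nat_lit 34) (nat_lit 5) (nat_lit 414) (nat_lit 354) (nat_lit 96))))))))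
noncomputable def xc217 : XT := (XT.nd (nat_lit 49820) (nat_lit 0) (nat_lit 3612) (XT.nd (nat_lit 48692) (nat_lit 0) (nat_lit 7728) (XT.nd (nat_lit 564) (nat_lit 420) (nat_lit 0) (XT.nd (nat_lit 282) (nat_lit 252) (nat_lit 0) (XT.nd (nat_lit 94) (nat_lit 0) (nat_lit 0) (XT.lf (nat_lit 0) (nat_lit 16222527690) (nat_lit 252) (nat_lit 46324373465) (nat_lit 336) (nat_lit 39038177345) (nat_lit 30) (nat_lit 5) (nat_lit 33) (nat_lit 5) (nat_lit 34) (nat_lit 5) (nat_lit 415) (nat_lit 354) (nat_lit 95)) (XT.nd (nat_lit 94) (nat_lit 0) (nat_lit 0) (XT.lf (nat_lit 0) (nat_lit 48970513192) (nat_lit 252) (nat_lit 25340125270) (nat_lit 336) (nat_lit 29687528843) (nat_lit 30) (nat_lit 5) (nat_lit 33) (nat_lit 5) (nat_lit 34) (nat_lit 5) (nat_lit 416) (nat_lit 354) (nat_lit 94)) (XT.lf (nat_lit 0) (nat_lit 82732995179) (nat_lit 252) (nat_lit 3705567422) (nat_lit 336) (nat_lit 20047515647) (nat_lit 30)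 (nat_lit 5) (nat_lit 33) (nat_lit 5) (nat_lit 34) (nat_lit 5) (nat_lit 417) (nat_lit 354) (nat_lit 93)))) (XT.nd (nat_lit 94) (nat_lit 84) (nat_lit 0) (XT.lf (nat_lit 0) (nat_lit 8476588870) (nat_lit 168) (nat_lit 90733987012) (nat_lit 252) (nat_lit 9832227908) (nat_lit 28) (nat_lit 5) (nat_lit 30) (nat_lit 5) (nat_lit 31) (nat_lit 5) (nat_lit 418) (nat_lit 354) (nat_lit 92)) (XT.nd (nat_lit 94) (nat_lit 0) (nat_lit 0) (XT.lf (nat_lit 0) (nat_lit 973529573) (nat_lit 252) (nat_lit 69510233011) (nat_lit 84) (nat_lit 41185886461) (nat_lit 27) (nat_lit 5) (nat_lit 30) (nat_lit 5) (nat_lit 28) (nat_lit 5) (nat_lit 419) (nat_lit 354) (nat_lit 91)) (XT.lf (nat_lit 0) (nat_lit 11909566719) (nat_lit 252) (nat_lit 37592743717) (nat_lit 84) (nat_lit 64872514046) (nat_lit 27) (nat_lit 5) (nat_lit 30) (nat_lit 5) (nat_lit 28) (nat_lit 5) (nat_lit 420) (nat_lit 354) (nat_lit 90))))) (XT.nd (nat_lit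 282) (nat_lit 168) (nat_lit 0) (XT.nd (nat_lit 94) (nat_lit 252) (nat_lit 0) (XT.lf (nat_lit 0) (nat_lit 23184174541) (nat_lit 252) (nat_lit 4686459677) (nat_lit 84) (nat_lit 89293241031) (nat_lit 27) (nat_lit 5) (nat_lit 30) (nat_lit 5) (nat_lit 28) (nat_lit 5) (nat_lit 421) (nat_lit 354) (nat_lit 89)) (XT.nd (nat_lit 94) (nat_lit 0) (nat_lit 0) (XT.lf (nat_lit 0) (nat_lit 29840511008) (nat_lit 252) (nat_lit 5263372709) (nat_lit 336) (nat_lit 84926340648) (nat_lit 24) (nat_lit 5) (nat_lit 27) (nat_lit 5) (nat_lit 28) (nat_lit 5) (nat_lit 422) (nat_lit 354) (nat_lit 88)) (XT.lf (nat_lit 0) (nat_lit 47621098874) (nat_lit 336) (nat_lit 57626885573) (nat_lit 84) (nat_lit 17730379003) (nat_lit 24) (nat_lit 5) (nat_lit 28) (nat_lit 5) (nat_lit 25) (nat_lit 5) (nat_lit 423) (nat_lit 354) (nat_lit 87)))) (XT.nd (nat_lit 94) (nat_lit 168) (nat_lit 0) (XT.lf (nat_lit 0) (nat_lit 60579764360)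 (nat_lit 336) (nat_lit 24109056849) (nat_lit 84) (nat_lit 41327418679) (nat_lit 24) (nat_lit 5) (nat_lit 28) (nat_lit 5) (nat_lit 25) (nat_lit 5) (nat_lit 424) (nat_lit 354) (nat_lit 86)) (XT.nd (nat_lit 47658) (nat_lit 0) (nat_lit 7728) (XT.lf (nat_lit 0) (nat_lit 10662044687) (nat_lit 168) (nat_lit 63383469817) (nat_lit 252) (nat_lit 55099510577) (nat_lit 22) (nat_lit 5) (nat_lit 24) (nat_lit 5) (nat_lit 25) (nat_lit 5) (nat_lit 425) (nat_lit 354) (nat_lit 85)) (XT.lf (nat_lit 0) (nat_lit 3389164855) (nat_lit 0) (nat_lit 3389164855) (nat_lit 1092) (nat_lit 9226386676) (nat_lit 114) (nat_lit 5) (nat_lit 114) (nat_lit 3) (nat_lit 127) (nat_lit 3) (nat_lit 355) (nat_lit 355) (nat_lit 154)))))) (XT.nd (nat_lit 564) (nat_lit 0) (nat_lit 168) (XT.nd (nat_lit 282) (nat_lit 0) (nat_lit 84) (XT.nd (nat_lit 94) (nat_lit 0) (nat_lit 0) (XT.lf (nat_lit 0) (nat_lit 13878766101) (nat_lit 1092) (nat_lit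 13055452188) (nat_lit 1176) (nat_lit 5567681283) (nat_lit 114) (nat_lit 5) (nat_lit 127) (nat_lit 3) (nat_lit 128) (nat_lit 5) (nat_lit 356) (nat_lit 355) (nat_lit 153)) (XT.nd (nat_lit 94) (nat_lit 0) (nat_lit 0) (XT.lf (nat_lit 0) (nat_lit 14277954707) (nat_lit 1092) (nat_lit 572891902) (nat_lit 1176) (nat_lit 18156714622) (nat_lit 114) (nat_lit 5) (nat_lit 127) (nat_lit 3) (nat_lit 128) (nat_lit 5) (nat_lit 357) (nat_lit 355) (nat_lit 152)) (XT.lf (nat_lit 84) (nat_lit 12548274485) (nat_lit 0) (nat_lit 2263561407) (nat_lit 1176) (nat_lit 18713278792) (nat_lit 115) (nat_lit 5) (nat_lit 114) (nat_lit 5) (nat_lit 128) (nat_lit 5) (nat_lit 358) (nat_lit 355) (nat_lit 151)))) (XT.nd (nat_lit 94) (nat_lit 0) (nat_lit 0) (XT.lf (nat_lit 0) (nat_lit 15472492090) (nat_lit 1092) (nat_lit 8077773386) (nat_lit 1176) (nat_lit 10505037742) (nat_lit 115) (nat_lit 5) (nat_lit 128) (nat_lit 5) (nat_lit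 129) (nat_lit 5) (nat_lit 359) (nat_lit 355) (nat_lit 150)) (XT.nd (nat_lit 94) (nat_lit 0) (nat_lit 84) (XT.lf (nat_lit 84) (nat_lit 5303664168) (nat_lit 0) (nat_lit 10923691720) (nat_lit 1176) (nat_lit 18372293814) (nat_lit 116) (nat_lit 5) (nat_lit 115) (nat_lit 5) (nat_lit 129) (nat_lit 5) (nat_lit 360) (nat_lit 355) (nat_lit 149)) (XT.lf (nat_lit 0) (nat_lit 17109594576) (nat_lit 1092) (nat_lit 15909995547) (nat_lit 1176) (nat_lit 2138065026) (nat_lit 116) (nat_lit 5) (nat_lit 129) (nat_lit 5) (nat_lit 130) (nat_lit 5) (nat_lit 361) (nat_lit 355) (nat_lit 148))))) (XT.nd (nat_lit 282) (nat_lit 0) (nat_lit 84) (XT.nd (nat_lit 94) (nat_lit 0) (nat_lit 0) (XT.lf (nat_lit 0) (nat_lit 18128986454) (nat_lit 1092) (nat_lit 2221996435) (nat_lit 1176) (nat_lit 15378579157) (nat_lit 116) (nat_lit 5) (nat_lit 129) (nat_lit 5) (nat_lit 130) (nat_lit 5) (nat_lit 362) (nat_lit 355) (nat_lit 147))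 (XT.nd (nat_lit 94) (nat_lit 0) (nat_lit 84) (XT.lf (nat_lit 84) (nat_lit 12133599820) (nat_lit 0) (nat_lit 7164884318) (nat_lit 1176) (nat_lit 17017047254) (nat_lit 117) (nat_lit 5) (nat_lit 116) (nat_lit 5) (nat_lit 130) (nat_lit 5) (nat_lit 363) (nat_lit 355) (nat_lit 146)) (XT.lf (nat_lit 0) (nat_lit 20589641166) (nat_lit 1092) (nat_lit 10002898663) (nat_lit 1176) (nat_lit 6324485179) (nat_lit 117) (nat_lit 5) (nat_lit 130) (nat_lit 5) (nat_lit 131) (nat_lit 5) (nat_lit 364) (nat_lit 355) (nat_lit 145)))) (XT.nd (nat_lit 94) (nat_lit 0) (nat_lit 0) (XT.lf (nat_lit 84) (nat_lit 4634565056) (nat_lit 0) (nat_lit 17403757234) (nat_lit 1176) (nat_lit 15495206758) (nat_lit 118) (nat_lit 5) (nat_lit 117) (nat_lit 5) (nat_lit 131) (nat_lit 5) (nat_lit 365) (nat_lit 355) (nat_lit 144)) (XT.nd (nat_lit 94) (nat_lit 0) (nat_lit 84) (XT.lf (nat_lit 84) (nat_lit 19936643195) (nat_lit 0) (nat_lit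 3697962837) (nat_lit 1176) (nat_lit 14531361553) (nat_lit 118) (nat_lit 5) (nat_lit 117) (nat_lit 5) (nat_lit 131) (nat_lit 5) (nat_lit 366) (nat_lit 355) (nat_lit 143)) (XT.lf (nat_lit 0) (nat_lit 25382208654) (nat_lit 1092) (nat_lit 3209649441) (nat_lit 1176) (nat_lit 10223002944) (nat_lit 118) (nat_lit 5) (nat_lit 131) (nat_lit 5) (nat_lit 132) (nat_lit 5) (nat_lit 367) (nat_lit 355) (nat_lit 142))))))) (XT.nd (nat_lit 1128) (nat_lit 2352) (nat_lit 0) (XT.nd (nat_lit 564) (nat_lit 1176) (nat_lit 0) (XT.nd (nat_lit 282) (nat_lit 924) (nat_lit 0) (XT.nd (nat_lit 94) (nat_lit 0) (nat_lit 0) (XT.lf (nat_lit 84) (nat_lit 12488231280) (nat_lit 0) (nat_lit 14855852139) (nat_lit 1176) (nat_lit 12134829774) (nat_lit 119) (nat_lit 5) (nat_lit 118) (nat_lit 5) (nat_lit 132) (nat_lit 5) (nat_lit 368) (nat_lit 355) (nat_lit 141)) (XT.nd (nat_lit 94) (nat_lit 0) (nat_lit 84) (XT.lf (nat_lit 84)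 (nat_lit 28739608542) (nat_lit 0) (nat_lit 659096809) (nat_lit 1176) (nat_lit 10763861624) (nat_lit 119) (nat_lit 5) (nat_lit 118) (nat_lit 5) (nat_lit 132) (nat_lit 5) (nat_lit 369) (nat_lit 355) (nat_lit 140)) (XT.lf (nat_lit 84) (nat_lit 4579773760) (nat_lit 0) (nat_lit 27119817783) (nat_lit 1176) (nat_lit 9162168420) (nat_lit 120) (nat_lit 5) (nat_lit 119) (nat_lit 5) (nat_lit 133) (nat_lit 5) (nat_lit 370) (nat_lit 355) (nat_lit 139)))) (XT.nd (nat_lit 94) (nat_lit 1008) (nat_lit 0) (XT.lf (nat_lit 84) (nat_lit 21312682058) (nat_lit 0) (nat_lit 12883540100) (nat_lit 1176) (nat_lit 7382554317) (nat_lit 120) (nat_lit 5) (nat_lit 119) (nat_lit 5) (nat_lit 133) (nat_lit 5) (nat_lit 371) (nat_lit 355) (nat_lit 138)) (XT.nd (nat_lit 94) (nat_lit 1092) (nat_lit 0) (XT.lf (nat_lit 0) (nat_lit 36786605187) (nat_lit 1092) (nat_lit 3772714142) (nat_lit 84) (nat_lit 1758199411) (nat_lit 120)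 (nat_lit 5) (nat_lit 133) (nat_lit 5) (nat_lit 121) (nat_lit 5) (nat_lit 372) (nat_lit 355) (nat_lit 137)) (XT.lf (nat_lit 0) (nat_lit 13368364819) (nat_lit 1092) (nat_lit 26351912268) (nat_lit 1176) (nat_lit 3350737476) (nat_lit 107) (nat_lit 5) (nat_lit 120) (nat_lit 5) (nat_lit 121) (nat_lit 5) (nat_lit 373) (nat_lit 355) (nat_lit 136))))) (XT.nd (nat_lit 282) (nat_lit 588) (nat_lit 0) (XT.nd (nat_lit 94) (nat_lit 588) (nat_lit 0) (XT.lf (nat_lit 0) (nat_lit 31119638088) (nat_lit 1092) (nat_lit 11663267499) (nat_lit 1176) (nat_lit 1063789765) (nat_lit 107) (nat_lit 5) (nat_lit 120) (nat_lit 5) (nat_lit 121) (nat_lit 5) (nat_lit 374) (nat_lit 355) (nat_lit 135)) (XT.nd (nat_lit 94) (nat_lit 0) (nat_lit 0) (XT.lf (nat_lit 0) (nat_lit 1349991211) (nat_lit 588) (nat_lit 39821055093) (nat_lit 84) (nat_lit 3472440367) (nat_lit 100) (nat_lit 5) (nat_lit 107) (nat_lit 5) (nat_lit 101) (nat_lit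 5) (nat_lit 375) (nat_lit 355) (nat_lit 134)) (XT.lf (nat_lit 0) (nat_lit 4068679740) (nat_lit 588) (nat_lit 22407816867) (nat_lit 84) (nat_lit 18980331675) (nat_lit 100) (nat_lit 5) (nat_lit 107) (nat_lit 5) (nat_lit 101) (nat_lit 5) (nat_lit 376) (nat_lit 355) (nat_lit 133)))) (XT.nd (nat_lit 94) (nat_lit 588) (nat_lit 0) (XT.lf (nat_lit 0) (nat_lit 6870374000) (nat_lit 588) (nat_lit 4455923912) (nat_lit 84) (nat_lit 34969129467) (nat_lit 100) (nat_lit 5) (nat_lit 107) (nat_lit 5) (nat_lit 101) (nat_lit 5) (nat_lit 377) (nat_lit 355) (nat_lit 132)) (XT.nd (nat_lit 94) (nat_lit 0) (nat_lit 0) (XT.lf (nat_lit 0) (nat_lit 9943991543) (nat_lit 672) (nat_lit 32859422831) (nat_lit 84) (nat_lit 4350875766) (nat_lit 93) (nat_lit 5) (nat_lit 101) (nat_lit 5) (nat_lit 94) (nat_lit 5) (nat_lit 378) (nat_lit 355) (nat_lit 131)) (XT.lf (nat_lit 0) (nat_lit 13274510822) (nat_lit 672) (nat_lit 14434408775)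 (nat_lit 84) (nat_lit 20325851995) (nat_lit 93) (nat_lit 5) (nat_lit 101) (nat_lit 5) (nat_lit 94) (nat_lit 5) (nat_lit 379) (nat_lit 355) (nat_lit 130)))))) (XT.nd (nat_lit 564) (nat_lit 924) (nat_lit 0) (XT.nd (nat_lit 282) (nat_lit 924) (nat_lit 0) (XT.nd (nat_lit 94) (nat_lit 0) (nat_lit 0) (XT.lf (nat_lit 0) (nat_lit 4654439759) (nat_lit 504) (nat_lit 12098837193) (nat_lit 588) (nat_lit 32187880025) (nat_lit 87) (nat_lit 5) (nat_lit 93) (nat_lit 5) (nat_lit 94) (nat_lit 5) (nat_lit 380) (nat_lit 355) (nat_lit 129)) (XT.nd (nat_lit 94) (nat_lit 0) (nat_lit 0) (XT.lf (nat_lit 0) (nat_lit 20530576678) (nat_lit 588) (nat_lit 25272244734) (nat_lit 84) (nat_lit 4066911359) (nat_lit 87) (nat_lit 5) (nat_lit 94) (nat_lit 5) (nat_lit 88) (nat_lit 5) (nat_lit 381) (nat_lit 355) (nat_lit 128)) (XT.lf (nat_lit 0) (nat_lit 24547602638) (nat_lit 588) (nat_lit 5793177908) (nat_lit 84) (nat_lit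 20482516128) (nat_lit 87) (nat_lit 5) (nat_lit 94) (nat_lit 5) (nat_lit 88) (nat_lit 5) (nat_lit 382) (nat_lit 355) (nat_lit 127)))) (XT.nd (nat_lit 94) (nat_lit 420) (nat_lit 0) (XT.lf (nat_lit 0) (nat_lit 14582465942) (nat_lit 504) (nat_lit 14250271087) (nat_lit 588) (nat_lit 22969236710) (nat_lit 81) (nat_lit 5) (nat_lit 87) (nat_lit 5) (nat_lit 88) (nat_lit 5) (nat_lit 383) (nat_lit 355) (nat_lit 126)) (XT.nd (nat_lit 94) (nat_lit 420) (nat_lit 0) (XT.lf (nat_lit 0) (nat_lit 33333944064) (nat_lit 588) (nat_lit 17121473807) (nat_lit 84) (nat_lit 2352995248) (nat_lit 81) (nat_lit 5) (nat_lit 88) (nat_lit 5) (nat_lit 82) (nat_lit 5) (nat_lit 384) (nat_lit 355) (nat_lit 125)) (XT.lf (nat_lit 0) (nat_lit 3523778380) (nat_lit 420) (nat_lit 34630587524) (nat_lit 504) (nat_lit 15686119678) (nat_lit 76) (nat_lit 5) (nat_lit 81) (nat_lit 5) (nat_lit 82) (nat_lit 5) (nat_lit 385) (nat_lit 355)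 (nat_lit 124))))) (XT.nd (nat_lit 282) (nat_lit 504) (nat_lit 0) (XT.nd (nat_lit 94) (nat_lit 420) (nat_lit 0) (XT.lf (nat_lit 0) (nat_lit 25170940084) (nat_lit 420) (nat_lit 18130988455) (nat_lit 504) (nat_lit 11597118168) (nat_lit 76) (nat_lit 5) (nat_lit 81) (nat_lit 5) (nat_lit 82) (nat_lit 5) (nat_lit 386) (nat_lit 355) (nat_lit 123)) (XT.nd (nat_lit 94) (nat_lit 420) (nat_lit 0) (XT.lf (nat_lit 0) (nat_lit 47488136111) (nat_lit 420) (nat_lit 1119954381) (nat_lit 504) (nat_lit 7382366219) (nat_lit 76) (nat_lit 5) (nat_lit 81) (nat_lit 5) (nat_lit 82) (nat_lit 5) (nat_lit 387) (nat_lit 355) (nat_lit 122)) (XT.lf (nat_lit 0) (nat_lit 13489343461) (nat_lit 420) (nat_lit 40885142426) (nat_lit 504) (nat_lit 2732049677) (nat_lit 71) (nat_lit 5) (nat_lit 76) (nat_lit 5) (nat_lit 77) (nat_lit 5) (nat_lit 388) (nat_lit 355) (nat_lit 121)))) (XT.nd (nat_lit 94) (nat_lit 420) (nat_lit 0) (XT.lf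 (nat_lit 0) (nat_lit 2121041884) (nat_lit 504) (nat_lit 21945330225) (nat_lit 84) (nat_lit 34187104254) (nat_lit 70) (nat_lit 5) (nat_lit 76) (nat_lit 5) (nat_lit 71) (nat_lit 5) (nat_lit 389) (nat_lit 355) (nat_lit 120)) (XT.nd (nat_lit 94) (nat_lit 0) (nat_lit 0) (XT.lf (nat_lit 0) (nat_lit 377003343) (nat_lit 420) (nat_lit 6693652590) (nat_lit 504) (nat_lit 52364365399) (nat_lit 65) (nat_lit 5) (nat_lit 70) (nat_lit 5) (nat_lit 71) (nat_lit 5) (nat_lit 390) (nat_lit 355) (nat_lit 119)) (XT.lf (nat_lit 0) (nat_lit 12515499543) (nat_lit 504) (nat_lit 36904186095) (nat_lit 84) (nat_lit 11222915811) (nat_lit 65) (nat_lit 5) (nat_lit 71) (nat_lit 5) (nat_lit 66) (nat_lit 5) (nat_lit 391) (nat_lit 355) (nat_lit 118))))))))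
noncomputable def xc218 : XT := (XT.nd (nat_lit 2256) (nat_lit 756) (nat_lit 0) (XT.nd (nat_lit 1128) (nat_lit 1176) (nat_lit 0) (XT.nd (nat_lit 564) (nat_lit 756) (nat_lit 0) (XT.nd (nat_lit 282) (nat_lit 336) (nat_lit 0) (XT.nd (nat_lit 94) (nat_lit 420) (nat_lit 0) (XT.lf (nat_lit 0) (nat_lit 18196724864) (nat_lit 504) (nat_lit 14133043439) (nat_lit 84) (nat_lit 29555755621) (nat_lit 65) (nat_lit 5) (nat_lit 71) (nat_lit 5) (nat_lit 66) (nat_lit 5) (nat_lit 392) (nat_lit 355) (nat_lit 117)) (XT.nd (nat_lit 94) (nat_lit 0) (nat_lit 0) (XT.lf (nat_lit 0) (nat_lit 9535148932) (nat_lit 420) (nat_lit 14612666454) (nat_lit 504) (nat_lit 39016258072) (nat_lit 60) (nat_lit 5) (nat_lit 65) (nat_lit 5) (nat_lit 66) (nat_lit 5) (nat_lit 393) (nat_lit 355) (nat_lit 116)) (XT.lf (nat_lit 0) (nat_lit 30467835193) (nat_lit 504) (nat_lit 30279754934) (nat_lit 84) (nat_lit 3728952640) (nat_lit 60)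 (nat_lit 5) (nat_lit 66) (nat_lit 5) (nat_lit 61) (nat_lit 5) (nat_lit 394) (nat_lit 355) (nat_lit 115)))) (XT.nd (nat_lit 94) (nat_lit 336) (nat_lit 0) (XT.lf (nat_lit 0) (nat_lit 37132425611) (nat_lit 504) (nat_lit 6357169467) (nat_lit 84) (nat_lit 22335497871) (nat_lit 60) (nat_lit 5) (nat_lit 66) (nat_lit 5) (nat_lit 61) (nat_lit 5) (nat_lit 395) (nat_lit 355) (nat_lit 114)) (XT.nd (nat_lit 94) (nat_lit 0) (nat_lit 0) (XT.lf (nat_lit 0) (nat_lit 18682500439) (nat_lit 336) (nat_lit 25505671552) (nat_lit 420) (nat_lit 23021557428) (nat_lit 56) (nat_lit 5) (nat_lit 60) (nat_lit 5) (nat_lit 61) (nat_lit 5) (nat_lit 396) (nat_lit 355) (nat_lit 113)) (XT.lf (nat_lit 0) (nat_lit 44632251686) (nat_lit 336) (nat_lit 6895985905) (nat_lit 420) (nat_lit 17107021032) (nat_lit 56) (nat_lit 5) (nat_lit 60) (nat_lit 5) (nat_lit 61) (nat_lit 5) (nat_lit 397) (nat_lit 355) (nat_lit 112))))) (XT.nd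 (nat_lit 282) (nat_lit 336) (nat_lit 0) (XT.nd (nat_lit 94) (nat_lit 84) (nat_lit 0) (XT.lf (nat_lit 0) (nat_lit 1182452201) (nat_lit 336) (nat_lit 58046304168) (nat_lit 420) (nat_lit 10872104874) (nat_lit 52) (nat_lit 5) (nat_lit 56) (nat_lit 5) (nat_lit 57) (nat_lit 5) (nat_lit 398) (nat_lit 355) (nat_lit 111)) (XT.nd (nat_lit 94) (nat_lit 84) (nat_lit 0) (XT.lf (nat_lit 0) (nat_lit 27584627717) (nat_lit 336) (nat_lit 39902991516) (nat_lit 420) (nat_lit 4114372031) (nat_lit 52) (nat_lit 5) (nat_lit 56) (nat_lit 5) (nat_lit 57) (nat_lit 5) (nat_lit 399) (nat_lit 355) (nat_lit 110)) (XT.lf (nat_lit 0) (nat_lit 2794654750) (nat_lit 420) (nat_lit 18373579940) (nat_lit 84) (nat_lit 51980568600) (nat_lit 51) (nat_lit 5) (nat_lit 56) (nat_lit 5) (nat_lit 52) (nat_lit 5) (nat_lit 400) (nat_lit 355) (nat_lit 109)))) (XT.nd (nat_lit 94) (nat_lit 0) (nat_lit 0) (XT.lf (nat_lit 0) (nat_lit 8187166987)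 (nat_lit 336) (nat_lit 1725751265) (nat_lit 420) (nat_lit 64826849556) (nat_lit 47) (nat_lit 5) (nat_lit 51) (nat_lit 5) (nat_lit 52) (nat_lit 5) (nat_lit 401) (nat_lit 355) (nat_lit 108)) (XT.nd (nat_lit 94) (nat_lit 0) (nat_lit 0) (XT.lf (nat_lit 0) (nat_lit 17626638139) (nat_lit 420) (nat_lit 40597871751) (nat_lit 84) (nat_lit 18143925777) (nat_lit 47) (nat_lit 5) (nat_lit 52) (nat_lit 5) (nat_lit 48) (nat_lit 5) (nat_lit 402) (nat_lit 355) (nat_lit 107)) (XT.lf (nat_lit 0) (nat_lit 25596469350) (nat_lit 420) (nat_lit 13857049415) (nat_lit 84) (nat_lit 38593548777) (nat_lit 47) (nat_lit 5) (nat_lit 52) (nat_lit 5) (nat_lit 48) (nat_lit 5) (nat_lit 403) (nat_lit 355) (nat_lit 106)))))) (XT.nd (nat_lit 564) (nat_lit 588) (nat_lit 0) (XT.nd (nat_lit 282) (nat_lit 252) (nat_lit 0) (XT.nd (nat_lit 94) (nat_lit 0) (nat_lit 0) (XT.lf (nat_lit 0) (nat_lit 13993856113) (nat_lit 336) (nat_lit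 19957685607) (nat_lit 420) (nat_lit 45821913637) (nat_lit 43) (nat_lit 5) (nat_lit 47) (nat_lit 5) (nat_lit 48) (nat_lit 5) (nat_lit 404) (nat_lit 355) (nat_lit 105)) (XT.nd (nat_lit 94) (nat_lit 0) (nat_lit 0) (XT.lf (nat_lit 0) (nat_lit 42712518647) (nat_lit 420) (nat_lit 38550707111) (nat_lit 84) (nat_lit 285583389) (nat_lit 43) (nat_lit 5) (nat_lit 48) (nat_lit 5) (nat_lit 44) (nat_lit 5) (nat_lit 405) (nat_lit 355) (nat_lit 104)) (XT.lf (nat_lit 0) (nat_lit 51948590143) (nat_lit 420) (nat_lit 10682652775) (nat_lit 84) (nat_lit 20741649068) (nat_lit 43) (nat_lit 5) (nat_lit 48) (nat_lit 5) (nat_lit 44) (nat_lit 5) (nat_lit 406) (nat_lit 355) (nat_lit 103)))) (XT.nd (nat_lit 94) (nat_lit 0) (nat_lit 0) (XT.lf (nat_lit 0) (nat_lit 18419637059) (nat_lit 252) (nat_lit 43233470504) (nat_lit 336) (nat_lit 23594769532) (nat_lit 40) (nat_lit 5) (nat_lit 43) (nat_lit 5) (nat_lit 44) (nat_lit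 5) (nat_lit 407) (nat_lit 355) (nat_lit 102)) (XT.nd (nat_lit 94) (nat_lit 0) (nat_lit 0) (XT.lf (nat_lit 0) (nat_lit 48649783665) (nat_lit 252) (nat_lit 23119599187) (nat_lit 336) (nat_lit 15408167051) (nat_lit 40) (nat_lit 5) (nat_lit 43) (nat_lit 5) (nat_lit 44) (nat_lit 5) (nat_lit 408) (nat_lit 355) (nat_lit 101)) (XT.lf (nat_lit 0) (nat_lit 79816307456) (nat_lit 252) (nat_lit 2382385717) (nat_lit 336) (nat_lit 6968368614) (nat_lit 40) (nat_lit 5) (nat_lit 43) (nat_lit 5) (nat_lit 44) (nat_lit 5) (nat_lit 409) (nat_lit 355) (nat_lit 100))))) (XT.nd (nat_lit 282) (nat_lit 252) (nat_lit 0) (XT.nd (nat_lit 94) (nat_lit 0) (nat_lit 0) (XT.lf (nat_lit 0) (nat_lit 2098063286) (nat_lit 336) (nat_lit 70263308857) (nat_lit 84) (nat_lit 18843947480) (nat_lit 36) (nat_lit 5) (nat_lit 40) (nat_lit 5) (nat_lit 37) (nat_lit 5) (nat_lit 410) (nat_lit 355) (nat_lit 99)) (XT.nd (nat_lit 94) (nat_lit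 0) (nat_lit 0) (XT.lf (nat_lit 0) (nat_lit 11423220395) (nat_lit 336) (nat_lit 41029046162) (nat_lit 84) (nat_lit 40848494078) (nat_lit 36) (nat_lit 5) (nat_lit 40) (nat_lit 5) (nat_lit 37) (nat_lit 5) (nat_lit 411) (nat_lit 355) (nat_lit 98)) (XT.lf (nat_lit 0) (nat_lit 21036922055) (nat_lit 336) (nat_lit 10889255164) (nat_lit 84) (nat_lit 63535001081) (nat_lit 36) (nat_lit 5) (nat_lit 40) (nat_lit 5) (nat_lit 37) (nat_lit 5) (nat_lit 412) (nat_lit 355) (nat_lit 97)))) (XT.nd (nat_lit 94) (nat_lit 0) (nat_lit 0) (XT.lf (nat_lit 0) (nat_lit 20599185255) (nat_lit 252) (nat_lit 10553290452) (nat_lit 336) (nat_lit 66529775901) (nat_lit 33) (nat_lit 5) (nat_lit 36) (nat_lit 5) (nat_lit 37) (nat_lit 5) (nat_lit 413) (nat_lit 355) (nat_lit 96)) (XT.nd (nat_lit 94) (nat_lit 0) (nat_lit 0) (XT.lf (nat_lit 0) (nat_lit 41809827385) (nat_lit 336) (nat_lit 46789827541) (nat_lit 84) (nat_lit 11365449875)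 (nat_lit 33) (nat_lit 5) (nat_lit 37) (nat_lit 5) (nat_lit 34) (nat_lit 5) (nat_lit 414) (nat_lit 355) (nat_lit 95)) (XT.lf (nat_lit 0) (nat_lit 52904995184) (nat_lit 336) (nat_lit 15666131795) (nat_lit 84) (nat_lit 33744270142) (nat_lit 33) (nat_lit 5) (nat_lit 37) (nat_lit 5) (nat_lit 34) (nat_lit 5) (nat_lit 415) (nat_lit 355) (nat_lit 94))))))) (XT.nd (nat_lit 48880) (nat_lit 0) (nat_lit 7560) (XT.nd (nat_lit 564) (nat_lit 252) (nat_lit 0) (XT.nd (nat_lit 282) (nat_lit 252) (nat_lit 0) (XT.nd (nat_lit 94) (nat_lit 0) (nat_lit 0) (XT.lf (nat_lit 0) (nat_lit 16759385647) (nat_lit 252) (nat_lit 47750500549) (nat_lit 336) (nat_lit 40223524568) (nat_lit 30) (nat_lit 5) (nat_lit 33) (nat_lit 5) (nat_lit 34) (nat_lit 5) (nat_lit 416) (nat_lit 355) (nat_lit 93)) (XT.nd (nat_lit 94) (nat_lit 0) (nat_lit 0) (XT.lf (nat_lit 0) (nat_lit 50521537606) (nat_lit 252) (nat_lit 26116039189) (nat_lit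 336) (nat_lit 30583752737) (nat_lit 30) (nat_lit 5) (nat_lit 33) (nat_lit 5) (nat_lit 34) (nat_lit 5) (nat_lit 417) (nat_lit 355) (nat_lit 92)) (XT.lf (nat_lit 0) (nat_lit 85329666143) (nat_lit 252) (nat_lit 3811099600) (nat_lit 336) (nat_lit 20645623452) (nat_lit 30) (nat_lit 5) (nat_lit 33) (nat_lit 5) (nat_lit 34) (nat_lit 5) (nat_lit 418) (nat_lit 355) (nat_lit 91)))) (XT.nd (nat_lit 94) (nat_lit 84) (nat_lit 0) (XT.lf (nat_lit 0) (nat_lit 8771645881) (nat_lit 168) (nat_lit 93536795911) (nat_lit 252) (nat_lit 10113941501) (nat_lit 28) (nat_lit 5) (nat_lit 30) (nat_lit 5) (nat_lit 31) (nat_lit 5) (nat_lit 419) (nat_lit 355) (nat_lit 90)) (XT.nd (nat_lit 94) (nat_lit 0) (nat_lit 0) (XT.lf (nat_lit 0) (nat_lit 1025649195) (nat_lit 252) (nat_lit 71633235336) (nat_lit 84) (nat_lit 42471791807) (nat_lit 27) (nat_lit 5) (nat_lit 30) (nat_lit 5) (nat_lit 28) (nat_lit 5) (nat_lit 420) (nat_lit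 355) (nat_lit 89)) (XT.lf (nat_lit 0) (nat_lit 12300043796) (nat_lit 252) (nat_lit 38727260481) (nat_lit 84) (nat_lit 66892429940) (nat_lit 27) (nat_lit 5) (nat_lit 30) (nat_lit 5) (nat_lit 28) (nat_lit 5) (nat_lit 421) (nat_lit 355) (nat_lit 88))))) (XT.nd (nat_lit 48034) (nat_lit 0) (nat_lit 7560) (XT.nd (nat_lit 94) (nat_lit 252) (nat_lit 0) (XT.lf (nat_lit 0) (nat_lit 23923524601) (nat_lit 252) (nat_lit 4801809479) (nat_lit 84) (nat_lit 92069932821) (nat_lit 27) (nat_lit 5) (nat_lit 30) (nat_lit 5) (nat_lit 28) (nat_lit 5) (nat_lit 422) (nat_lit 355) (nat_lit 87)) (XT.nd (nat_lit 94) (nat_lit 0) (nat_lit 0) (XT.lf (nat_lit 0) (nat_lit 30795194278) (nat_lit 252) (nat_lit 5417223771) (nat_lit 336) (nat_lit 87538066382) (nat_lit 24) (nat_lit 5) (nat_lit 27) (nat_lit 5) (nat_lit 28) (nat_lit 5) (nat_lit 423) (nat_lit 355) (nat_lit 86)) (XT.lf (nat_lit 0) (nat_lit 49117145691) (nat_lit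 336) (nat_lit 59384015506) (nat_lit 84) (nat_lit 18288872203) (nat_lit 24) (nat_lit 5) (nat_lit 28) (nat_lit 5) (nat_lit 25) (nat_lit 5) (nat_lit 424) (nat_lit 355) (nat_lit 85)))) (XT.nd (nat_lit 94) (nat_lit 0) (nat_lit 0) (XT.lf (nat_lit 0) (nat_lit 3521758476) (nat_lit 0) (nat_lit 3521758476) (nat_lit 1092) (nat_lit 9455432800) (nat_lit 114) (nat_lit 5) (nat_lit 114) (nat_lit 3) (nat_lit 127) (nat_lit 3) (nat_lit 356) (nat_lit 356) (nat_lit 152)) (XT.nd (nat_lit 94) (nat_lit 0) (nat_lit 0) (XT.lf (nat_lit 0) (nat_lit 14415285105) (nat_lit 1092) (nat_lit 13402527271) (nat_lit 1176) (nat_lit 5687951852) (nat_lit 114) (nat_lit 5) (nat_lit 127) (nat_lit 3) (nat_lit 128) (nat_lit 5) (nat_lit 357) (nat_lit 356) (nat_lit 151)) (XT.lf (nat_lit 0) (nat_lit 14823653025) (nat_lit 1092) (nat_lit 534740847) (nat_lit 1176) (nat_lit 18668818604) (nat_lit 114) (nat_lit 5) (nat_lit 127) (nat_lit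 3) (nat_lit 128) (nat_lit 5) (nat_lit 358) (nat_lit 356) (nat_lit 150)))))) (XT.nd (nat_lit 564) (nat_lit 0) (nat_lit 252) (XT.nd (nat_lit 282) (nat_lit 0) (nat_lit 168) (XT.nd (nat_lit 94) (nat_lit 0) (nat_lit 84) (XT.lf (nat_lit 84) (nat_lit 12992615652) (nat_lit 0) (nat_lit 2378918450) (nat_lit 1176) (nat_lit 19189366703) (nat_lit 115) (nat_lit 5) (nat_lit 114) (nat_lit 5) (nat_lit 128) (nat_lit 5) (nat_lit 359) (nat_lit 356) (nat_lit 149)) (XT.nd (nat_lit 94) (nat_lit 0) (nat_lit 0) (XT.lf (nat_lit 0) (nat_lit 16049213098) (nat_lit 1092) (nat_lit 8270681596) (nat_lit 1176) (nat_lit 10787748976) (nat_lit 115) (nat_lit 5) (nat_lit 128) (nat_lit 5) (nat_lit 129) (nat_lit 5) (nat_lit 360) (nat_lit 356) (nat_lit 148)) (XT.lf (nat_lit 84) (nat_lit 5524998358) (nat_lit 0) (nat_lit 11300125172) (nat_lit 1176) (nat_lit 18843825309) (nat_lit 116) (nat_lit 5) (nat_lit 115) (nat_lit 5) (nat_lit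 129) (nat_lit 5) (nat_lit 361) (nat_lit 356) (nat_lit 147)))) (XT.nd (nat_lit 94) (nat_lit 0) (nat_lit 0) (XT.lf (nat_lit 0) (nat_lit 17731499902) (nat_lit 1092) (nat_lit 16344441514) (nat_lit 1176) (nat_lit 2168421236) (nat_lit 116) (nat_lit 5) (nat_lit 129) (nat_lit 5) (nat_lit 130) (nat_lit 5) (nat_lit 362) (nat_lit 356) (nat_lit 146)) (XT.nd (nat_lit 94) (nat_lit 0) (nat_lit 0) (XT.lf (nat_lit 0) (nat_lit 18779741478) (nat_lit 1092) (nat_lit 2233881337) (nat_lit 1176) (nat_lit 15820471458) (nat_lit 116) (nat_lit 5) (nat_lit 129) (nat_lit 5) (nat_lit 130) (nat_lit 5) (nat_lit 363) (nat_lit 356) (nat_lit 145)) (XT.lf (nat_lit 84) (nat_lit 12566161359) (nat_lit 0) (nat_lit 7417223205) (nat_lit 1176) (nat_lit 17454919490) (nat_lit 117) (nat_lit 5) (nat_lit 116) (nat_lit 5) (nat_lit 130) (nat_lit 5) (nat_lit 364) (nat_lit 356) (nat_lit 144))))) (XT.nd (nat_lit 282) (nat_lit 0) (nat_lit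 84) (XT.nd (nat_lit 94) (nat_lit 0) (nat_lit 0) (XT.lf (nat_lit 0) (nat_lit 21311671310) (nat_lit 1092) (nat_lit 10255055819) (nat_lit 1176) (nat_lit 6491816327) (nat_lit 117) (nat_lit 5) (nat_lit 130) (nat_lit 5) (nat_lit 131) (nat_lit 5) (nat_lit 365) (nat_lit 356) (nat_lit 143)) (XT.nd (nat_lit 94) (nat_lit 0) (nat_lit 0) (XT.lf (nat_lit 84) (nat_lit 4835582758) (nat_lit 0) (nat_lit 17967729448) (nat_lit 1176) (nat_lit 15890916758) (nat_lit 118) (nat_lit 5) (nat_lit 117) (nat_lit 5) (nat_lit 131) (nat_lit 5) (nat_lit 366) (nat_lit 356) (nat_lit 142)) (XT.lf (nat_lit 84) (nat_lit 20610301040) (nat_lit 0) (nat_lit 3836320092) (nat_lit 1176) (nat_lit 14899737341) (nat_lit 118) (nat_lit 5) (nat_lit 117) (nat_lit 5) (nat_lit 131) (nat_lit 5) (nat_lit 367) (nat_lit 356) (nat_lit 141)))) (XT.nd (nat_lit 94) (nat_lit 0) (nat_lit 0) (XT.lf (nat_lit 0) (nat_lit 26245785545) (nat_lit 1092) (nat_lit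 3252299571) (nat_lit 1176) (nat_lit 10517372394) (nat_lit 118) (nat_lit 5) (nat_lit 131) (nat_lit 5) (nat_lit 132) (nat_lit 5) (nat_lit 368) (nat_lit 356) (nat_lit 140)) (XT.nd (nat_lit 94) (nat_lit 0) (nat_lit 0) (XT.lf (nat_lit 84) (nat_lit 12931639908) (nat_lit 0) (nat_lit 15335089697) (nat_lit 1176) (nat_lit 12433428477) (nat_lit 119) (nat_lit 5) (nat_lit 118) (nat_lit 5) (nat_lit 132) (nat_lit 5) (nat_lit 369) (nat_lit 356) (nat_lit 139)) (XT.lf (nat_lit 84) (nat_lit 29685117840) (nat_lit 0) (nat_lit 697672498) (nat_lit 1176) (nat_lit 11022293013) (nat_lit 119) (nat_lit 5) (nat_lit 118) (nat_lit 5) (nat_lit 132) (nat_lit 5) (nat_lit 370) (nat_lit 356) (nat_lit 138))))))))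
noncomputable def xc219 : XT := (XT.nd (nat_lit 2256) (nat_lit 2520) (nat_lit 0) (XT.nd (nat_lit 1128) (nat_lit 2268) (nat_lit 0) (XT.nd (nat_lit 564) (nat_lit 1092) (nat_lit 0) (XT.nd (nat_lit 282) (nat_lit 1596) (nat_lit 0) (XT.nd (nat_lit 94) (nat_lit 0) (nat_lit 0) (XT.lf (nat_lit 84) (nat_lit 4778451412) (nat_lit 0) (nat_lit 27974753840) (nat_lit 1176) (nat_lit 9372809910) (nat_lit 120) (nat_lit 5) (nat_lit 119) (nat_lit 5) (nat_lit 133) (nat_lit 5) (nat_lit 371) (nat_lit 356) (nat_lit 137)) (XT.nd (nat_lit 94) (nat_lit 0) (nat_lit 84) (XT.lf (nat_lit 84) (nat_lit 22028374878) (nat_lit 0) (nat_lit 13296723932) (nat_lit 1176) (nat_lit 7540234324) (nat_lit 120) (nat_lit 5) (nat_lit 119) (nat_lit 5) (nat_lit 133) (nat_lit 5) (nat_lit 372) (nat_lit 356) (nat_lit 136)) (XT.lf (nat_lit 0) (nat_lit 37993582505) (nat_lit 1092) (nat_lit 3833875918) (nat_lit 84) (nat_lit 1799593826) (nat_lit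 120) (nat_lit 5) (nat_lit 133) (nat_lit 5) (nat_lit 121) (nat_lit 5) (nat_lit 373) (nat_lit 356) (nat_lit 135)))) (XT.nd (nat_lit 94) (nat_lit 588) (nat_lit 0) (XT.lf (nat_lit 0) (nat_lit 13838011644) (nat_lit 1092) (nat_lit 27178732156) (nat_lit 1176) (nat_lit 3387215103) (nat_lit 107) (nat_lit 5) (nat_lit 120) (nat_lit 5) (nat_lit 121) (nat_lit 5) (nat_lit 374) (nat_lit 356) (nat_lit 134)) (XT.nd (nat_lit 94) (nat_lit 588) (nat_lit 0) (XT.lf (nat_lit 0) (nat_lit 32137913808) (nat_lit 1092) (nat_lit 12034441408) (nat_lit 1176) (nat_lit 1031398446) (nat_lit 107) (nat_lit 5) (nat_lit 120) (nat_lit 5) (nat_lit 121) (nat_lit 5) (nat_lit 375) (nat_lit 356) (nat_lit 133)) (XT.lf (nat_lit 0) (nat_lit 1454427420) (nat_lit 588) (nat_lit 40998717781) (nat_lit 84) (nat_lit 3572132359) (nat_lit 100) (nat_lit 5) (nat_lit 107) (nat_lit 5) (nat_lit 101) (nat_lit 5) (nat_lit 376) (nat_lit 356) (nat_lit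 132))))) (XT.nd (nat_lit 282) (nat_lit 504) (nat_lit 0) (XT.nd (nat_lit 94) (nat_lit 588) (nat_lit 0) (XT.lf (nat_lit 0) (nat_lit 4255513449) (nat_lit 588) (nat_lit 23047376726) (nat_lit 84) (nat_lit 19561007448) (nat_lit 100) (nat_lit 5) (nat_lit 107) (nat_lit 5) (nat_lit 101) (nat_lit 5) (nat_lit 377) (nat_lit 356) (nat_lit 131)) (XT.nd (nat_lit 94) (nat_lit 588) (nat_lit 0) (XT.lf (nat_lit 0) (nat_lit 7142234971) (nat_lit 588) (nat_lit 4540631304) (nat_lit 84) (nat_lit 36045689931) (nat_lit 100) (nat_lit 5) (nat_lit 107) (nat_lit 5) (nat_lit 101) (nat_lit 5) (nat_lit 378) (nat_lit 356) (nat_lit 130)) (XT.lf (nat_lit 0) (nat_lit 10309841804) (nat_lit 672) (nat_lit 33823147813) (nat_lit 84) (nat_lit 4481100312) (nat_lit 93) (nat_lit 5) (nat_lit 101) (nat_lit 5) (nat_lit 94) (nat_lit 5) (nat_lit 379) (nat_lit 356) (nat_lit 129)))) (XT.nd (nat_lit 94) (nat_lit 504) (nat_lit 0) (XT.lf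 (nat_lit 0) (nat_lit 13741875676) (nat_lit 672) (nat_lit 14828609565) (nat_lit 84) (nat_lit 20951440698) (nat_lit 93) (nat_lit 5) (nat_lit 101) (nat_lit 5) (nat_lit 94) (nat_lit 5) (nat_lit 380) (nat_lit 356) (nat_lit 128)) (XT.nd (nat_lit 94) (nat_lit 0) (nat_lit 0) (XT.lf (nat_lit 0) (nat_lit 4851454005) (nat_lit 504) (nat_lit 12475873162) (nat_lit 588) (nat_lit 33129123725) (nat_lit 87) (nat_lit 5) (nat_lit 93) (nat_lit 5) (nat_lit 94) (nat_lit 5) (nat_lit 381) (nat_lit 356) (nat_lit 127)) (XT.lf (nat_lit 0) (nat_lit 21220059537) (nat_lit 588) (nat_lit 26002698746) (nat_lit 84) (nat_lit 4191111426) (nat_lit 87) (nat_lit 5) (nat_lit 94) (nat_lit 5) (nat_lit 88) (nat_lit 5) (nat_lit 382) (nat_lit 356) (nat_lit 126)))))) (XT.nd (nat_lit 564) (nat_lit 1344) (nat_lit 0) (XT.nd (nat_lit 282) (nat_lit 420) (nat_lit 0) (XT.nd (nat_lit 94) (nat_lit 504) (nat_lit 0) (XT.lf (nat_lit 0) (nat_lit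 25360018653) (nat_lit 588) (nat_lit 5921374013) (nat_lit 84) (nat_lit 21115656296) (nat_lit 87) (nat_lit 5) (nat_lit 94) (nat_lit 5) (nat_lit 88) (nat_lit 5) (nat_lit 383) (nat_lit 356) (nat_lit 125)) (XT.nd (nat_lit 94) (nat_lit 0) (nat_lit 0) (XT.lf (nat_lit 0) (nat_lit 15085394494) (nat_lit 504) (nat_lit 14691555670) (nat_lit 588) (nat_lit 23629152424) (nat_lit 81) (nat_lit 5) (nat_lit 87) (nat_lit 5) (nat_lit 88) (nat_lit 5) (nat_lit 384) (nat_lit 356) (nat_lit 124)) (XT.lf (nat_lit 0) (nat_lit 34416183807) (nat_lit 588) (nat_lit 17601221315) (nat_lit 84) (nat_lit 2426388415) (nat_lit 81) (nat_lit 5) (nat_lit 88) (nat_lit 5) (nat_lit 82) (nat_lit 5) (nat_lit 385) (nat_lit 356) (nat_lit 123)))) (XT.nd (nat_lit 94) (nat_lit 0) (nat_lit 0) (XT.lf (nat_lit 0) (nat_lit 3683517177) (nat_lit 420) (nat_lit 35701552586) (nat_lit 504) (nat_lit 16122825478) (nat_lit 76) (nat_lit 5) (nat_lit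 81) (nat_lit 5) (nat_lit 82) (nat_lit 5) (nat_lit 386) (nat_lit 356) (nat_lit 122)) (XT.nd (nat_lit 94) (nat_lit 0) (nat_lit 0) (XT.lf (nat_lit 0) (nat_lit 26000222415) (nat_lit 420) (nat_lit 18690543615) (nat_lit 504) (nat_lit 11908555203) (nat_lit 76) (nat_lit 5) (nat_lit 81) (nat_lit 5) (nat_lit 82) (nat_lit 5) (nat_lit 387) (nat_lit 356) (nat_lit 121)) (XT.lf (nat_lit 0) (nat_lit 49007778697) (nat_lit 420) (nat_lit 1152242819) (nat_lit 504) (nat_lit 7564591416) (nat_lit 76) (nat_lit 5) (nat_lit 81) (nat_lit 5) (nat_lit 82) (nat_lit 5) (nat_lit 388) (nat_lit 356) (nat_lit 120))))) (XT.nd (nat_lit 282) (nat_lit 420) (nat_lit 0) (XT.nd (nat_lit 94) (nat_lit 504) (nat_lit 0) (XT.lf (nat_lit 0) (nat_lit 13956050876) (nat_lit 420) (nat_lit 42148273709) (nat_lit 504) (nat_lit 2770996538) (nat_lit 71) (nat_lit 5) (nat_lit 76) (nat_lit 5) (nat_lit 77) (nat_lit 5) (nat_lit 389) (nat_lit 356)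 (nat_lit 119)) (XT.nd (nat_lit 94) (nat_lit 420) (nat_lit 0) (XT.lf (nat_lit 0) (nat_lit 2230271375) (nat_lit 504) (nat_lit 22577525862) (nat_lit 84) (nat_lit 35250051820) (nat_lit 70) (nat_lit 5) (nat_lit 76) (nat_lit 5) (nat_lit 71) (nat_lit 5) (nat_lit 390) (nat_lit 356) (nat_lit 118)) (XT.lf (nat_lit 0) (nat_lit 436312981) (nat_lit 420) (nat_lit 6896175632) (nat_lit 504) (nat_lit 53943563313) (nat_lit 65) (nat_lit 5) (nat_lit 70) (nat_lit 5) (nat_lit 71) (nat_lit 5) (nat_lit 391) (nat_lit 356) (nat_lit 117)))) (XT.nd (nat_lit 94) (nat_lit 420) (nat_lit 0) (XT.lf (nat_lit 0) (nat_lit 12944888128) (nat_lit 504) (nat_lit 38000661843) (nat_lit 84) (nat_lit 11575559323) (nat_lit 65) (nat_lit 5) (nat_lit 71) (nat_lit 5) (nat_lit 66) (nat_lit 5) (nat_lit 392) (nat_lit 356) (nat_lit 116)) (XT.nd (nat_lit 94) (nat_lit 420) (nat_lit 0) (XT.lf (nat_lit 0) (nat_lit 18800986379) (nat_lit 504)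 (nat_lit 14525043614) (nat_lit 84) (nat_lit 30476574851) (nat_lit 65) (nat_lit 5) (nat_lit 71) (nat_lit 5) (nat_lit 66) (nat_lit 5) (nat_lit 393) (nat_lit 356) (nat_lit 115)) (XT.lf (nat_lit 0) (nat_lit 9876395755) (nat_lit 420) (nat_lit 15059410260) (nat_lit 504) (nat_lit 40185010562) (nat_lit 60) (nat_lit 5) (nat_lit 65) (nat_lit 5) (nat_lit 66) (nat_lit 5) (nat_lit 394) (nat_lit 356) (nat_lit 114))))))) (XT.nd (nat_lit 1128) (nat_lit 1092) (nat_lit 0) (XT.nd (nat_lit 564) (nat_lit 756) (nat_lit 0) (XT.nd (nat_lit 282) (nat_lit 336) (nat_lit 0) (XT.nd (nat_lit 94) (nat_lit 336) (nat_lit 0) (XT.lf (nat_lit 0) (nat_lit 31450621636) (nat_lit 504) (nat_lit 31172900299) (nat_lit 84) (nat_lit 3850489022) (nat_lit 60) (nat_lit 5) (nat_lit 66) (nat_lit 5) (nat_lit 61) (nat_lit 5) (nat_lit 395) (nat_lit 356) (nat_lit 113)) (XT.nd (nat_lit 94) (nat_lit 336) (nat_lit 0) (XT.lf (nat_lit 0) (nat_lit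 38320663250) (nat_lit 504) (nat_lit 6510083584) (nat_lit 84) (nat_lit 23033658586) (nat_lit 60) (nat_lit 5) (nat_lit 66) (nat_lit 5) (nat_lit 61) (nat_lit 5) (nat_lit 396) (nat_lit 356) (nat_lit 112)) (XT.lf (nat_lit 0) (nat_lit 19305369027) (nat_lit 336) (nat_lit 26289085866) (nat_lit 420) (nat_lit 23697535335) (nat_lit 56) (nat_lit 5) (nat_lit 60) (nat_lit 5) (nat_lit 61) (nat_lit 5) (nat_lit 397) (nat_lit 356) (nat_lit 111)))) (XT.nd (nat_lit 94) (nat_lit 336) (nat_lit 0) (XT.lf (nat_lit 0) (nat_lit 46058248262) (nat_lit 336) (nat_lit 7102718302) (nat_lit 420) (nat_lit 17600781581) (nat_lit 56) (nat_lit 5) (nat_lit 60) (nat_lit 5) (nat_lit 61) (nat_lit 5) (nat_lit 398) (nat_lit 356) (nat_lit 110)) (XT.nd (nat_lit 94) (nat_lit 0) (nat_lit 0) (XT.lf (nat_lit 0) (nat_lit 1262197913) (nat_lit 336) (nat_lit 59837435726) (nat_lit 420) (nat_lit 11173171642) (nat_lit 52) (nat_lit 5) (nat_lit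 56) (nat_lit 5) (nat_lit 57) (nat_lit 5) (nat_lit 399) (nat_lit 356) (nat_lit 109)) (XT.lf (nat_lit 0) (nat_lit 28481545254) (nat_lit 336) (nat_lit 41131930063) (nat_lit 420) (nat_lit 4207030578) (nat_lit 52) (nat_lit 5) (nat_lit 56) (nat_lit 5) (nat_lit 57) (nat_lit 5) (nat_lit 400) (nat_lit 356) (nat_lit 108))))) (XT.nd (nat_lit 282) (nat_lit 336) (nat_lit 0) (XT.nd (nat_lit 94) (nat_lit 336) (nat_lit 0) (XT.lf (nat_lit 0) (nat_lit 2914445295) (nat_lit 420) (nat_lit 18901846568) (nat_lit 84) (nat_lit 53599001313) (nat_lit 51) (nat_lit 5) (nat_lit 56) (nat_lit 5) (nat_lit 52) (nat_lit 5) (nat_lit 401) (nat_lit 356) (nat_lit 107)) (XT.nd (nat_lit 94) (nat_lit 0) (nat_lit 0) (XT.lf (nat_lit 0) (nat_lit 8481865242) (nat_lit 336) (nat_lit 1770918479) (nat_lit 420) (nat_lit 66802815064) (nat_lit 47) (nat_lit 5) (nat_lit 51) (nat_lit 5) (nat_lit 52) (nat_lit 5) (nat_lit 402) (nat_lit 356)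 (nat_lit 106)) (XT.lf (nat_lit 0) (nat_lit 18204729924) (nat_lit 420) (nat_lit 41815750820) (nat_lit 84) (nat_lit 18714305248) (nat_lit 47) (nat_lit 5) (nat_lit 52) (nat_lit 5) (nat_lit 48) (nat_lit 5) (nat_lit 403) (nat_lit 356) (nat_lit 105)))) (XT.nd (nat_lit 94) (nat_lit 336) (nat_lit 0) (XT.lf (nat_lit 0) (nat_lit 26420673772) (nat_lit 420) (nat_lit 14247185401) (nat_lit 84) (nat_lit 39797628490) (nat_lit 47) (nat_lit 5) (nat_lit 52) (nat_lit 5) (nat_lit 48) (nat_lit 5) (nat_lit 404) (nat_lit 356) (nat_lit 104)) (XT.nd (nat_lit 94) (nat_lit 0) (nat_lit 0) (XT.lf (nat_lit 0) (nat_lit 14466698980) (nat_lit 336) (nat_lit 20567518121) (nat_lit 420) (nat_lit 47211195637) (nat_lit 43) (nat_lit 5) (nat_lit 47) (nat_lit 5) (nat_lit 48) (nat_lit 5) (nat_lit 405) (nat_lit 356) (nat_lit 103)) (XT.lf (nat_lit 0) (nat_lit 44065962144) (nat_lit 420) (nat_lit 39707015488) (nat_lit 84) (nat_lit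 302852883) (nat_lit 43) (nat_lit 5) (nat_lit 48) (nat_lit 5) (nat_lit 44) (nat_lit 5) (nat_lit 406) (nat_lit 356) (nat_lit 102)))))) (XT.nd (nat_lit 564) (nat_lit 504) (nat_lit 0) (XT.nd (nat_lit 282) (nat_lit 336) (nat_lit 0) (XT.nd (nat_lit 94) (nat_lit 252) (nat_lit 0) (XT.lf (nat_lit 0) (nat_lit 53587469201) (nat_lit 420) (nat_lit 10976217005) (nat_lit 84) (nat_lit 21392803533) (nat_lit 43) (nat_lit 5) (nat_lit 48) (nat_lit 5) (nat_lit 44) (nat_lit 5) (nat_lit 407) (nat_lit 356) (nat_lit 101)) (XT.nd (nat_lit 94) (nat_lit 0) (nat_lit 0) (XT.lf (nat_lit 0) (nat_lit 19027863167) (nat_lit 252) (nat_lit 44564476579) (nat_lit 336) (nat_lit 24297277119) (nat_lit 40) (nat_lit 5) (nat_lit 43) (nat_lit 5) (nat_lit 44) (nat_lit 5) (nat_lit 408) (nat_lit 356) (nat_lit 100)) (XT.lf (nat_lit 0) (nat_lit 50194025270) (nat_lit 252) (nat_lit 23827352823) (nat_lit 336) (nat_lit 15857759834) (nat_lit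 40) (nat_lit 5) (nat_lit 43) (nat_lit 5) (nat_lit 44) (nat_lit 5) (nat_lit 409) (nat_lit 356) (nat_lit 99)))) (XT.nd (nat_lit 94) (nat_lit 336) (nat_lit 0) (XT.lf (nat_lit 0) (nat_lit 82325625898) (nat_lit 252) (nat_lit 2447554961) (nat_lit 336) (nat_lit 7157171362) (nat_lit 40) (nat_lit 5) (nat_lit 43) (nat_lit 5) (nat_lit 44) (nat_lit 5) (nat_lit 410) (nat_lit 356) (nat_lit 98)) (XT.nd (nat_lit 94) (nat_lit 0) (nat_lit 0) (XT.lf (nat_lit 0) (nat_lit 2189409420) (nat_lit 336) (nat_lit 72405409857) (nat_lit 84) (nat_lit 19436981739) (nat_lit 36) (nat_lit 5) (nat_lit 40) (nat_lit 5) (nat_lit 37) (nat_lit 5) (nat_lit 411) (nat_lit 356) (nat_lit 97)) (XT.lf (nat_lit 0) (nat_lit 11802855429) (nat_lit 336) (nat_lit 42265969314) (nat_lit 84) (nat_lit 42123402522) (nat_lit 36) (nat_lit 5) (nat_lit 40) (nat_lit 5) (nat_lit 37) (nat_lit 5) (nat_lit 412) (nat_lit 356) (nat_lit 96))))) (XT.nd (nat_lit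 282) (nat_lit 252) (nat_lit 0) (XT.nd (nat_lit 94) (nat_lit 252) (nat_lit 0) (XT.lf (nat_lit 0) (nat_lit 21713814651) (nat_lit 336) (nat_lit 11192896488) (nat_lit 84) (nat_lit 65512932504) (nat_lit 36) (nat_lit 5) (nat_lit 40) (nat_lit 5) (nat_lit 37) (nat_lit 5) (nat_lit 413) (nat_lit 356) (nat_lit 95)) (XT.nd (nat_lit 94) (nat_lit 0) (nat_lit 0) (XT.lf (nat_lit 0) (nat_lit 21271342118) (nat_lit 252) (nat_lit 10871197367) (nat_lit 336) (nat_lit 68567045405) (nat_lit 33) (nat_lit 5) (nat_lit 36) (nat_lit 5) (nat_lit 37) (nat_lit 5) (nat_lit 414) (nat_lit 356) (nat_lit 94)) (XT.lf (nat_lit 0) (nat_lit 43129626256) (nat_lit 336) (nat_lit 48207036806) (nat_lit 84) (nat_lit 11726565262) (nat_lit 33) (nat_lit 5) (nat_lit 37) (nat_lit 5) (nat_lit 34) (nat_lit 5) (nat_lit 415) (nat_lit 356) (nat_lit 93)))) (XT.nd (nat_lit 94) (nat_lit 252) (nat_lit 0) (XT.lf (nat_lit 0) (nat_lit 54568031822)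 (nat_lit 336) (nat_lit 16119507013) (nat_lit 84) (nat_lit 34798864767) (nat_lit 33) (nat_lit 5) (nat_lit 37) (nat_lit 5) (nat_lit 34) (nat_lit 5) (nat_lit 416) (nat_lit 356) (nat_lit 92)) (XT.nd (nat_lit 94) (nat_lit 0) (nat_lit 0) (XT.lf (nat_lit 0) (nat_lit 17310874716) (nat_lit 252) (nat_lit 49221425655) (nat_lit 336) (nat_lit 41447088651) (nat_lit 30) (nat_lit 5) (nat_lit 33) (nat_lit 5) (nat_lit 34) (nat_lit 5) (nat_lit 417) (nat_lit 356) (nat_lit 91)) (XT.lf (nat_lit 0) (nat_lit 52118692773) (nat_lit 252) (nat_lit 26916576839) (nat_lit 336) (nat_lit 31509186434) (nat_lit 30) (nat_lit 5) (nat_lit 33) (nat_lit 5) (nat_lit 34) (nat_lit 5) (nat_lit 418) (nat_lit 356) (nat_lit 90))))))))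
noncomputable def xc220 : XT := (XT.nd (nat_lit 50196) (nat_lit 0) (nat_lit 2436) (XT.nd (nat_lit 49068) (nat_lit 0) (nat_lit 6720) (XT.nd (nat_lit 48504) (nat_lit 0) (nat_lit 7308) (XT.nd (nat_lit 282) (nat_lit 0) (nat_lit 0) (XT.nd (nat_lit 94) (nat_lit 252) (nat_lit 0) (XT.lf (nat_lit 0) (nat_lit 88004941566) (nat_lit 252) (nat_lit 3920456525) (nat_lit 336) (nat_lit 21263656560) (nat_lit 30) (nat_lit 5) (nat_lit 33) (nat_lit 5) (nat_lit 34) (nat_lit 5) (nat_lit 419) (nat_lit 356) (nat_lit 89)) (XT.nd (nat_lit 94) (nat_lit 84) (nat_lit 0) (XT.lf (nat_lit 0) (nat_lit 9073937496) (nat_lit 168) (nat_lit 96427080927) (nat_lit 252) (nat_lit 10405755607) (nat_lit 28) (nat_lit 5) (nat_lit 30) (nat_lit 5) (nat_lit 31) (nat_lit 5) (nat_lit 420) (nat_lit 356) (nat_lit 88)) (XT.lf (nat_lit 0) (nat_lit 1078084970) (nat_lit 252) (nat_lit 73823935184) (nat_lit 84) (nat_lit 43797018672) (nat_lit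 27) (nat_lit 5) (nat_lit 30) (nat_lit 5) (nat_lit 28) (nat_lit 5) (nat_lit 421) (nat_lit 356) (nat_lit 87)))) (XT.nd (nat_lit 94) (nat_lit 0) (nat_lit 0) (XT.lf (nat_lit 0) (nat_lit 12701365183) (nat_lit 252) (nat_lit 39898775054) (nat_lit 84) (nat_lit 68974437963) (nat_lit 27) (nat_lit 5) (nat_lit 30) (nat_lit 5) (nat_lit 28) (nat_lit 5) (nat_lit 422) (nat_lit 356) (nat_lit 86)) (XT.nd (nat_lit 48034) (nat_lit 0) (nat_lit 7308) (XT.lf (nat_lit 0) (nat_lit 24684571931) (nat_lit 252) (nat_lit 4922507957) (nat_lit 84) (nat_lit 94932192586) (nat_lit 27) (nat_lit 5) (nat_lit 30) (nat_lit 5) (nat_lit 28) (nat_lit 5) (nat_lit 423) (nat_lit 356) (nat_lit 85)) (XT.lf (nat_lit 0) (nat_lit 3656831879) (nat_lit 0) (nat_lit 3656831879) (nat_lit 1092) (nat_lit 9694953894) (nat_lit 114) (nat_lit 5) (nat_lit 114) (nat_lit 3) (nat_lit 127) (nat_lit 3) (nat_lit 357) (nat_lit 357) (nat_lit 150))))) (XT.nd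 (nat_lit 282) (nat_lit 0) (nat_lit 84) (XT.nd (nat_lit 94) (nat_lit 0) (nat_lit 0) (XT.lf (nat_lit 0) (nat_lit 14962141214) (nat_lit 1092) (nat_lit 13763776029) (nat_lit 1176) (nat_lit 5815050260) (nat_lit 114) (nat_lit 5) (nat_lit 127) (nat_lit 3) (nat_lit 128) (nat_lit 5) (nat_lit 358) (nat_lit 357) (nat_lit 149)) (XT.nd (nat_lit 94) (nat_lit 0) (nat_lit 0) (XT.lf (nat_lit 0) (nat_lit 15380162284) (nat_lit 1092) (nat_lit 498718796) (nat_lit 1176) (nat_lit 19199804066) (nat_lit 114) (nat_lit 5) (nat_lit 127) (nat_lit 3) (nat_lit 128) (nat_lit 5) (nat_lit 359) (nat_lit 357) (nat_lit 148)) (XT.lf (nat_lit 84) (nat_lit 13447453237) (nat_lit 0) (nat_lit 2495175079) (nat_lit 1176) (nat_lit 19686374842) (nat_lit 115) (nat_lit 5) (nat_lit 114) (nat_lit 5) (nat_lit 128) (nat_lit 5) (nat_lit 360) (nat_lit 357) (nat_lit 147)))) (XT.nd (nat_lit 94) (nat_lit 0) (nat_lit 0) (XT.lf (nat_lit 0) (nat_lit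 16638062613) (nat_lit 1092) (nat_lit 8472975949) (nat_lit 1176) (nat_lit 11081767961) (nat_lit 115) (nat_lit 5) (nat_lit 128) (nat_lit 5) (nat_lit 129) (nat_lit 5) (nat_lit 361) (nat_lit 357) (nat_lit 146)) (XT.nd (nat_lit 94) (nat_lit 0) (nat_lit 84) (XT.lf (nat_lit 84) (nat_lit 5749822403) (nat_lit 0) (nat_lit 11685989161) (nat_lit 1176) (nat_lit 19335779557) (nat_lit 116) (nat_lit 5) (nat_lit 115) (nat_lit 5) (nat_lit 129) (nat_lit 5) (nat_lit 362) (nat_lit 357) (nat_lit 145)) (XT.lf (nat_lit 0) (nat_lit 18367264124) (nat_lit 1092) (nat_lit 16795835993) (nat_lit 1176) (nat_lit 2201846318) (nat_lit 116) (nat_lit 5) (nat_lit 129) (nat_lit 5) (nat_lit 130) (nat_lit 5) (nat_lit 363) (nat_lit 357) (nat_lit 144)))))) (XT.nd (nat_lit 564) (nat_lit 756) (nat_lit 0) (XT.nd (nat_lit 282) (nat_lit 0) (nat_lit 84) (XT.nd (nat_lit 94) (nat_lit 0) (nat_lit 0) (XT.lf (nat_lit 0) (nat_lit 19445412712)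 (nat_lit 1092) (nat_lit 2249510699) (nat_lit 1176) (nat_lit 16278126271) (nat_lit 116) (nat_lit 5) (nat_lit 129) (nat_lit 5) (nat_lit 130) (nat_lit 5) (nat_lit 364) (nat_lit 357) (nat_lit 143)) (XT.nd (nat_lit 94) (nat_lit 0) (nat_lit 84) (XT.lf (nat_lit 84) (nat_lit 13008790456) (nat_lit 0) (nat_lit 7675594173) (nat_lit 1176) (nat_lit 17911676257) (nat_lit 117) (nat_lit 5) (nat_lit 116) (nat_lit 5) (nat_lit 130) (nat_lit 5) (nat_lit 365) (nat_lit 357) (nat_lit 142)) (XT.lf (nat_lit 0) (nat_lit 22051123658) (nat_lit 1092) (nat_lit 10518461301) (nat_lit 1176) (nat_lit 6666036343) (nat_lit 117) (nat_lit 5) (nat_lit 130) (nat_lit 5) (nat_lit 131) (nat_lit 5) (nat_lit 366) (nat_lit 357) (nat_lit 141)))) (XT.nd (nat_lit 94) (nat_lit 0) (nat_lit 0) (XT.lf (nat_lit 84) (nat_lit 5039435296) (nat_lit 0) (nat_lit 18547736246) (nat_lit 1176) (nat_lit 16303907225) (nat_lit 118) (nat_lit 5) (nat_lit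 117) (nat_lit 5) (nat_lit 131) (nat_lit 5) (nat_lit 367) (nat_lit 357) (nat_lit 140)) (XT.nd (nat_lit 94) (nat_lit 0) (nat_lit 84) (XT.lf (nat_lit 84) (nat_lit 21301547698) (nat_lit 0) (nat_lit 3977561422) (nat_lit 1176) (nat_lit 15284395490) (nat_lit 118) (nat_lit 5) (nat_lit 117) (nat_lit 5) (nat_lit 131) (nat_lit 5) (nat_lit 368) (nat_lit 357) (nat_lit 139)) (XT.lf (nat_lit 0) (nat_lit 27131588564) (nat_lit 1092) (nat_lit 3299639118) (nat_lit 1176) (nat_lit 10822202596) (nat_lit 118) (nat_lit 5) (nat_lit 131) (nat_lit 5) (nat_lit 132) (nat_lit 5) (nat_lit 369) (nat_lit 357) (nat_lit 138))))) (XT.nd (nat_lit 282) (nat_lit 924) (nat_lit 0) (XT.nd (nat_lit 94) (nat_lit 0) (nat_lit 0) (XT.lf (nat_lit 84) (nat_lit 13385461030) (nat_lit 0) (nat_lit 15828075623) (nat_lit 1176) (nat_lit 12745878997) (nat_lit 119) (nat_lit 5) (nat_lit 118) (nat_lit 5) (nat_lit 132) (nat_lit 5) (nat_lit 370)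 (nat_lit 357) (nat_lit 137)) (XT.nd (nat_lit 94) (nat_lit 0) (nat_lit 84) (XT.lf (nat_lit 84) (nat_lit 30656704975) (nat_lit 0) (nat_lit 736369351) (nat_lit 1176) (nat_lit 11293192862) (nat_lit 119) (nat_lit 5) (nat_lit 118) (nat_lit 5) (nat_lit 132) (nat_lit 5) (nat_lit 371) (nat_lit 357) (nat_lit 136)) (XT.lf (nat_lit 84) (nat_lit 4979929357) (nat_lit 0) (nat_lit 28855350539) (nat_lit 1176) (nat_lit 9594328049) (nat_lit 120) (nat_lit 5) (nat_lit 119) (nat_lit 5) (nat_lit 133) (nat_lit 5) (nat_lit 372) (nat_lit 357) (nat_lit 135)))) (XT.nd (nat_lit 94) (nat_lit 1008) (nat_lit 0) (XT.lf (nat_lit 84) (nat_lit 22762996450) (nat_lit 0) (nat_lit 13721899416) (nat_lit 1176) (nat_lit 7707018477) (nat_lit 120) (nat_lit 5) (nat_lit 119) (nat_lit 5) (nat_lit 133) (nat_lit 5) (nat_lit 373) (nat_lit 357) (nat_lit 134)) (XT.nd (nat_lit 94) (nat_lit 1092) (nat_lit 0) (XT.lf (nat_lit 0) (nat_lit 39234031728)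 (nat_lit 1092) (nat_lit 3900238386) (nat_lit 84) (nat_lit 1843047983) (nat_lit 120) (nat_lit 5) (nat_lit 133) (nat_lit 5) (nat_lit 121) (nat_lit 5) (nat_lit 374) (nat_lit 357) (nat_lit 133)) (XT.lf (nat_lit 0) (nat_lit 14318946300) (nat_lit 1092) (nat_lit 28030596438) (nat_lit 1176) (nat_lit 3428815472) (nat_lit 107) (nat_lit 5) (nat_lit 120) (nat_lit 5) (nat_lit 121) (nat_lit 5) (nat_lit 375) (nat_lit 357) (nat_lit 132))))))) (XT.nd (nat_lit 1128) (nat_lit 1680) (nat_lit 0) (XT.nd (nat_lit 564) (nat_lit 1428) (nat_lit 0) (XT.nd (nat_lit 282) (nat_lit 588) (nat_lit 0) (XT.nd (nat_lit 94) (nat_lit 588) (nat_lit 0) (XT.lf (nat_lit 0) (nat_lit 33184583215) (nat_lit 1092) (nat_lit 12416552336) (nat_lit 1176) (nat_lit 1001874902) (nat_lit 107) (nat_lit 5) (nat_lit 120) (nat_lit 5) (nat_lit 121) (nat_lit 5) (nat_lit 376) (nat_lit 357) (nat_lit 131)) (XT.nd (nat_lit 94) (nat_lit 0) (nat_lit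 0) (XT.lf (nat_lit 0) (nat_lit 1558394047) (nat_lit 588) (nat_lit 42216251783) (nat_lit 84) (nat_lit 3675385913) (nat_lit 100) (nat_lit 5) (nat_lit 107) (nat_lit 5) (nat_lit 101) (nat_lit 5) (nat_lit 377) (nat_lit 357) (nat_lit 130)) (XT.lf (nat_lit 0) (nat_lit 4444543364) (nat_lit 588) (nat_lit 23710025570) (nat_lit 84) (nat_lit 20160141113) (nat_lit 100) (nat_lit 5) (nat_lit 107) (nat_lit 5) (nat_lit 101) (nat_lit 5) (nat_lit 378) (nat_lit 357) (nat_lit 129)))) (XT.nd (nat_lit 94) (nat_lit 588) (nat_lit 0) (XT.lf (nat_lit 0) (nat_lit 7419036106) (nat_lit 588) (nat_lit 4631129153) (nat_lit 84) (nat_lit 37156066973) (nat_lit 100) (nat_lit 5) (nat_lit 107) (nat_lit 5) (nat_lit 101) (nat_lit 5) (nat_lit 379) (nat_lit 357) (nat_lit 128)) (XT.nd (nat_lit 94) (nat_lit 0) (nat_lit 0) (XT.lf (nat_lit 0) (nat_lit 10683622476) (nat_lit 672) (nat_lit 34820001105) (nat_lit 84) (nat_lit 4615637399)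 (nat_lit 93) (nat_lit 5) (nat_lit 101) (nat_lit 5) (nat_lit 94) (nat_lit 5) (nat_lit 380) (nat_lit 357) (nat_lit 127)) (XT.lf (nat_lit 0) (nat_lit 14220420452) (nat_lit 672) (nat_lit 15238185607) (nat_lit 84) (nat_lit 21596689945) (nat_lit 93) (nat_lit 5) (nat_lit 101) (nat_lit 5) (nat_lit 94) (nat_lit 5) (nat_lit 381) (nat_lit 357) (nat_lit 126))))) (XT.nd (nat_lit 282) (nat_lit 924) (nat_lit 0) (XT.nd (nat_lit 94) (nat_lit 0) (nat_lit 0) (XT.lf (nat_lit 0) (nat_lit 5051452606) (nat_lit 504) (nat_lit 12864480440) (nat_lit 588) (nat_lit 34102897344) (nat_lit 87) (nat_lit 5) (nat_lit 93) (nat_lit 5) (nat_lit 94) (nat_lit 5) (nat_lit 382) (nat_lit 357) (nat_lit 125)) (XT.nd (nat_lit 94) (nat_lit 0) (nat_lit 0) (XT.lf (nat_lit 0) (nat_lit 21927775013) (nat_lit 588) (nat_lit 26758935258) (nat_lit 84) (nat_lit 4319272707) (nat_lit 87) (nat_lit 5) (nat_lit 94) (nat_lit 5) (nat_lit 88) (nat_lit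 5) (nat_lit 383) (nat_lit 357) (nat_lit 124)) (XT.lf (nat_lit 0) (nat_lit 26194572665) (nat_lit 588) (nat_lit 6056588258) (nat_lit 84) (nat_lit 21768531483) (nat_lit 87) (nat_lit 5) (nat_lit 94) (nat_lit 5) (nat_lit 88) (nat_lit 5) (nat_lit 384) (nat_lit 357) (nat_lit 123)))) (XT.nd (nat_lit 94) (nat_lit 420) (nat_lit 0) (XT.lf (nat_lit 0) (nat_lit 15600900589) (nat_lit 504) (nat_lit 15146548141) (nat_lit 588) (nat_lit 24312613312) (nat_lit 81) (nat_lit 5) (nat_lit 87) (nat_lit 5) (nat_lit 88) (nat_lit 5) (nat_lit 385) (nat_lit 357) (nat_lit 122)) (XT.nd (nat_lit 94) (nat_lit 420) (nat_lit 0) (XT.lf (nat_lit 0) (nat_lit 35529077292) (nat_lit 588) (nat_lit 18098862889) (nat_lit 84) (nat_lit 2502030098) (nat_lit 81) (nat_lit 5) (nat_lit 88) (nat_lit 5) (nat_lit 82) (nat_lit 5) (nat_lit 386) (nat_lit 357) (nat_lit 121)) (XT.lf (nat_lit 0) (nat_lit 3845216576) (nat_lit 420) (nat_lit 36805870569)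 (nat_lit 504) (nat_lit 16576004913) (nat_lit 76) (nat_lit 5) (nat_lit 81) (nat_lit 5) (nat_lit 82) (nat_lit 5) (nat_lit 387) (nat_lit 357) (nat_lit 120)))))) (XT.nd (nat_lit 564) (nat_lit 756) (nat_lit 0) (XT.nd (nat_lit 282) (nat_lit 504) (nat_lit 0) (XT.nd (nat_lit 94) (nat_lit 420) (nat_lit 0) (XT.lf (nat_lit 0) (nat_lit 26852311140) (nat_lit 420) (nat_lit 19267593390) (nat_lit 504) (nat_lit 12232494270) (nat_lit 76) (nat_lit 5) (nat_lit 81) (nat_lit 5) (nat_lit 82) (nat_lit 5) (nat_lit 388) (nat_lit 357) (nat_lit 119)) (XT.nd (nat_lit 94) (nat_lit 420) (nat_lit 0) (XT.lf (nat_lit 0) (nat_lit 50571716083) (nat_lit 420) (nat_lit 1185676141) (nat_lit 504) (nat_lit 7755227461) (nat_lit 76) (nat_lit 5) (nat_lit 81) (nat_lit 5) (nat_lit 82) (nat_lit 5) (nat_lit 389) (nat_lit 357) (nat_lit 118)) (XT.lf (nat_lit 0) (nat_lit 14434351246) (nat_lit 420) (nat_lit 43450817240) (nat_lit 504) (nat_lit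 2813860406) (nat_lit 71) (nat_lit 5) (nat_lit 76) (nat_lit 5) (nat_lit 77) (nat_lit 5) (nat_lit 390) (nat_lit 357) (nat_lit 117)))) (XT.nd (nat_lit 94) (nat_lit 420) (nat_lit 0) (XT.lf (nat_lit 0) (nat_lit 2340311751) (nat_lit 504) (nat_lit 23232169177) (nat_lit 84) (nat_lit 36345764338) (nat_lit 70) (nat_lit 5) (nat_lit 76) (nat_lit 5) (nat_lit 71) (nat_lit 5) (nat_lit 391) (nat_lit 357) (nat_lit 116)) (XT.nd (nat_lit 94) (nat_lit 0) (nat_lit 0) (XT.lf (nat_lit 0) (nat_lit 494640453) (nat_lit 420) (nat_lit 7105271874) (nat_lit 504) (nat_lit 55574328329) (nat_lit 65) (nat_lit 5) (nat_lit 70) (nat_lit 5) (nat_lit 71) (nat_lit 5) (nat_lit 392) (nat_lit 357) (nat_lit 115)) (XT.lf (nat_lit 0) (nat_lit 13385135087) (nat_lit 504) (nat_lit 39133945044) (nat_lit 84) (nat_lit 11938854433) (nat_lit 65) (nat_lit 5) (nat_lit 71) (nat_lit 5) (nat_lit 66) (nat_lit 5) (nat_lit 393) (nat_lit 357) (nat_lit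 114))))) (XT.nd (nat_lit 282) (nat_lit 336) (nat_lit 0) (XT.nd (nat_lit 94) (nat_lit 420) (nat_lit 0) (XT.lf (nat_lit 0) (nat_lit 19421601076) (nat_lit 504) (nat_lit 14931927807) (nat_lit 84) (nat_lit 31425667557) (nat_lit 65) (nat_lit 5) (nat_lit 71) (nat_lit 5) (nat_lit 66) (nat_lit 5) (nat_lit 394) (nat_lit 357) (nat_lit 113)) (XT.nd (nat_lit 94) (nat_lit 0) (nat_lit 0) (XT.lf (nat_lit 0) (nat_lit 10225516876) (nat_lit 420) (nat_lit 15520373253) (nat_lit 504) (nat_lit 41392408160) (nat_lit 60) (nat_lit 5) (nat_lit 65) (nat_lit 5) (nat_lit 66) (nat_lit 5) (nat_lit 395) (nat_lit 357) (nat_lit 112)) (XT.lf (nat_lit 0) (nat_lit 32461606857) (nat_lit 504) (nat_lit 32096429815) (nat_lit 84) (nat_lit 3975441263) (nat_lit 60) (nat_lit 5) (nat_lit 66) (nat_lit 5) (nat_lit 61) (nat_lit 5) (nat_lit 396) (nat_lit 357) (nat_lit 111)))) (XT.nd (nat_lit 94) (nat_lit 336) (nat_lit 0) (XT.lf (nat_lit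 0) (nat_lit 39543536838) (nat_lit 504) (nat_lit 6670353602) (nat_lit 84) (nat_lit 23753121092) (nat_lit 60) (nat_lit 5) (nat_lit 66) (nat_lit 5) (nat_lit 61) (nat_lit 5) (nat_lit 397) (nat_lit 357) (nat_lit 110)) (XT.nd (nat_lit 94) (nat_lit 0) (nat_lit 0) (XT.lf (nat_lit 0) (nat_lit 19944957459) (nat_lit 336) (nat_lit 27097216135) (nat_lit 420) (nat_lit 24396701023) (nat_lit 56) (nat_lit 5) (nat_lit 60) (nat_lit 5) (nat_lit 61) (nat_lit 5) (nat_lit 398) (nat_lit 357) (nat_lit 109)) (XT.lf (nat_lit 0) (nat_lit 47525939499) (nat_lit 336) (nat_lit 7316276583) (nat_lit 420) (nat_lit 18112014047) (nat_lit 56) (nat_lit 5) (nat_lit 60) (nat_lit 5) (nat_lit 61) (nat_lit 5) (nat_lit 399) (nat_lit 357) (nat_lit 108))))))))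
noncomputable def xc221 : XT := (XT.nd (nat_lit 50384) (nat_lit 0) (nat_lit 5544) (XT.nd (nat_lit 1128) (nat_lit 1092) (nat_lit 0) (XT.nd (nat_lit 564) (nat_lit 588) (nat_lit 0) (XT.nd (nat_lit 282) (nat_lit 336) (nat_lit 0) (XT.nd (nat_lit 94) (nat_lit 84) (nat_lit 0) (XT.lf (nat_lit 0) (nat_lit 1341863466) (nat_lit 336) (nat_lit 61684584215) (nat_lit 420) (nat_lit 11485701955) (nat_lit 52) (nat_lit 5) (nat_lit 56) (nat_lit 5) (nat_lit 57) (nat_lit 5) (nat_lit 400) (nat_lit 357) (nat_lit 107)) (XT.nd (nat_lit 94) (nat_lit 84) (nat_lit 0) (XT.lf (nat_lit 0) (nat_lit 29403791699) (nat_lit 336) (nat_lit 42399442767) (nat_lit 420) (nat_lit 4304627955) (nat_lit 52) (nat_lit 5) (nat_lit 56) (nat_lit 5) (nat_lit 57) (nat_lit 5) (nat_lit 401) (nat_lit 357) (nat_lit 106)) (XT.lf (nat_lit 0) (nat_lit 3035985446) (nat_lit 420) (nat_lit 19448936582) (nat_lit 84) (nat_lit 55267188740) (nat_lit 51)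 (nat_lit 5) (nat_lit 56) (nat_lit 5) (nat_lit 52) (nat_lit 5) (nat_lit 402) (nat_lit 357) (nat_lit 105)))) (XT.nd (nat_lit 94) (nat_lit 0) (nat_lit 0) (XT.lf (nat_lit 0) (nat_lit 8783276799) (nat_lit 336) (nat_lit 1817979340) (nat_lit 420) (nat_lit 68842029646) (nat_lit 47) (nat_lit 5) (nat_lit 51) (nat_lit 5) (nat_lit 52) (nat_lit 5) (nat_lit 403) (nat_lit 357) (nat_lit 104)) (XT.nd (nat_lit 94) (nat_lit 0) (nat_lit 0) (XT.lf (nat_lit 0) (nat_lit 18798866923) (nat_lit 420) (nat_lit 43073792203) (nat_lit 84) (nat_lit 19301897500) (nat_lit 47) (nat_lit 5) (nat_lit 52) (nat_lit 5) (nat_lit 48) (nat_lit 5) (nat_lit 404) (nat_lit 357) (nat_lit 103)) (XT.lf (nat_lit 0) (nat_lit 27268609296) (nat_lit 420) (nat_lit 14651751259) (nat_lit 84) (nat_lit 41038579793) (nat_lit 47) (nat_lit 5) (nat_lit 52) (nat_lit 5) (nat_lit 48) (nat_lit 5) (nat_lit 405) (nat_lit 357) (nat_lit 102))))) (XT.nd (nat_lit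 282) (nat_lit 252) (nat_lit 0) (XT.nd (nat_lit 94) (nat_lit 0) (nat_lit 0) (XT.lf (nat_lit 0) (nat_lit 14951887964) (nat_lit 336) (nat_lit 21196779983) (nat_lit 420) (nat_lit 48645393250) (nat_lit 43) (nat_lit 5) (nat_lit 47) (nat_lit 5) (nat_lit 48) (nat_lit 5) (nat_lit 406) (nat_lit 357) (nat_lit 101)) (XT.nd (nat_lit 94) (nat_lit 0) (nat_lit 0) (XT.lf (nat_lit 0) (nat_lit 45459623617) (nat_lit 420) (nat_lit 40901465456) (nat_lit 84) (nat_lit 320159212) (nat_lit 43) (nat_lit 5) (nat_lit 48) (nat_lit 5) (nat_lit 44) (nat_lit 5) (nat_lit 407) (nat_lit 357) (nat_lit 100)) (XT.lf (nat_lit 0) (nat_lit 55275467018) (nat_lit 420) (nat_lit 11281108722) (nat_lit 84) (nat_lit 22063660259) (nat_lit 43) (nat_lit 5) (nat_lit 48) (nat_lit 5) (nat_lit 44) (nat_lit 5) (nat_lit 408) (nat_lit 357) (nat_lit 99)))) (XT.nd (nat_lit 94) (nat_lit 0) (nat_lit 0) (XT.lf (nat_lit 0) (nat_lit 19652739836) (nat_lit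 252) (nat_lit 45937290639) (nat_lit 336) (nat_lit 25023276031) (nat_lit 40) (nat_lit 5) (nat_lit 43) (nat_lit 5) (nat_lit 44) (nat_lit 5) (nat_lit 409) (nat_lit 357) (nat_lit 98)) (XT.nd (nat_lit 94) (nat_lit 0) (nat_lit 0) (XT.lf (nat_lit 0) (nat_lit 51784000200) (nat_lit 252) (nat_lit 24557577178) (nat_lit 336) (nat_lit 16322952058) (nat_lit 40) (nat_lit 5) (nat_lit 43) (nat_lit 5) (nat_lit 44) (nat_lit 5) (nat_lit 410) (nat_lit 357) (nat_lit 97)) (XT.lf (nat_lit 0) (nat_lit 84910659338) (nat_lit 252) (nat_lit 2515258862) (nat_lit 336) (nat_lit 7353439085) (nat_lit 40) (nat_lit 5) (nat_lit 43) (nat_lit 5) (nat_lit 44) (nat_lit 5) (nat_lit 411) (nat_lit 357) (nat_lit 96)))))) (XT.nd (nat_lit 564) (nat_lit 504) (nat_lit 0) (XT.nd (nat_lit 282) (nat_lit 252) (nat_lit 0) (XT.nd (nat_lit 94) (nat_lit 0) (nat_lit 0) (XT.lf (nat_lit 0) (nat_lit 2282029125) (nat_lit 336) (nat_lit 74616051977)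 (nat_lit 84) (nat_lit 20047874563) (nat_lit 36) (nat_lit 5) (nat_lit 40) (nat_lit 5) (nat_lit 37) (nat_lit 5) (nat_lit 412) (nat_lit 357) (nat_lit 95)) (XT.nd (nat_lit 94) (nat_lit 0) (nat_lit 0) (XT.lf (nat_lit 0) (nat_lit 12192747839) (nat_lit 336) (nat_lit 43543308848) (nat_lit 84) (nat_lit 43437323432) (nat_lit 36) (nat_lit 5) (nat_lit 40) (nat_lit 5) (nat_lit 37) (nat_lit 5) (nat_lit 413) (nat_lit 357) (nat_lit 94)) (XT.lf (nat_lit 0) (nat_lit 22410225051) (nat_lit 336) (nat_lit 11507960164) (nat_lit 84) (nat_lit 67551685430) (nat_lit 36) (nat_lit 5) (nat_lit 40) (nat_lit 5) (nat_lit 37) (nat_lit 5) (nat_lit 414) (nat_lit 357) (nat_lit 93)))) (XT.nd (nat_lit 94) (nat_lit 0) (nat_lit 0) (XT.lf (nat_lit 0) (nat_lit 21962346717) (nat_lit 252) (nat_lit 11199506999) (nat_lit 336) (nat_lit 70668960150) (nat_lit 33) (nat_lit 5) (nat_lit 36) (nat_lit 5) (nat_lit 37) (nat_lit 5) (nat_lit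 415) (nat_lit 357) (nat_lit 92)) (XT.nd (nat_lit 94) (nat_lit 0) (nat_lit 0) (XT.lf (nat_lit 0) (nat_lit 44488935444) (nat_lit 336) (nat_lit 49670150517) (nat_lit 84) (nat_lit 12098354791) (nat_lit 33) (nat_lit 5) (nat_lit 37) (nat_lit 5) (nat_lit 34) (nat_lit 5) (nat_lit 416) (nat_lit 357) (nat_lit 91)) (XT.lf (nat_lit 0) (nat_lit 56281261345) (nat_lit 336) (nat_lit 16588848558) (nat_lit 84) (nat_lit 35885647039) (nat_lit 33) (nat_lit 5) (nat_lit 37) (nat_lit 5) (nat_lit 34) (nat_lit 5) (nat_lit 417) (nat_lit 357) (nat_lit 90))))) (XT.nd (nat_lit 282) (nat_lit 252) (nat_lit 0) (XT.nd (nat_lit 94) (nat_lit 0) (nat_lit 0) (XT.lf (nat_lit 0) (nat_lit 17877567604) (nat_lit 252) (nat_lit 50738502687) (nat_lit 336) (nat_lit 42709967179) (nat_lit 30) (nat_lit 5) (nat_lit 33) (nat_lit 5) (nat_lit 34) (nat_lit 5) (nat_lit 418) (nat_lit 357) (nat_lit 89)) (XT.nd (nat_lit 94) (nat_lit 0) (nat_lit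 0) (XT.lf (nat_lit 0) (nat_lit 53763524308) (nat_lit 252) (nat_lit 27742467769) (nat_lit 336) (nat_lit 32464650923) (nat_lit 30) (nat_lit 5) (nat_lit 33) (nat_lit 5) (nat_lit 34) (nat_lit 5) (nat_lit 419) (nat_lit 357) (nat_lit 88)) (XT.lf (nat_lit 0) (nat_lit 90761370272) (nat_lit 252) (nat_lit 4033723993) (nat_lit 336) (nat_lit 21902150678) (nat_lit 30) (nat_lit 5) (nat_lit 33) (nat_lit 5) (nat_lit 34) (nat_lit 5) (nat_lit 420) (nat_lit 357) (nat_lit 87)))) (XT.nd (nat_lit 94) (nat_lit 84) (nat_lit 0) (XT.lf (nat_lit 0) (nat_lit 9383801250) (nat_lit 168) (nat_lit 99407518930) (nat_lit 252) (nat_lit 10707902350) (nat_lit 28) (nat_lit 5) (nat_lit 30) (nat_lit 5) (nat_lit 31) (nat_lit 5) (nat_lit 421) (nat_lit 357) (nat_lit 86)) (XT.nd (nat_lit 48222) (nat_lit 0) (nat_lit 7308) (XT.lf (nat_lit 0) (nat_lit 1130923672) (nat_lit 252) (nat_lit 76084319558) (nat_lit 84) (nat_lit 45162818098)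 (nat_lit 27) (nat_lit 5) (nat_lit 30) (nat_lit 5) (nat_lit 28) (nat_lit 5) (nat_lit 422) (nat_lit 357) (nat_lit 85)) (XT.lf (nat_lit 0) (nat_lit 3794558522) (nat_lit 0) (nat_lit 3794558522) (nat_lit 1092) (nat_lit 9945074804) (nat_lit 114) (nat_lit 5) (nat_lit 114) (nat_lit 3) (nat_lit 127) (nat_lit 3) (nat_lit 358) (nat_lit 358) (nat_lit 148))))))) (XT.nd (nat_lit 1128) (nat_lit 1764) (nat_lit 0) (XT.nd (nat_lit 564) (nat_lit 0) (nat_lit 168) (XT.nd (nat_lit 282) (nat_lit 0) (nat_lit 84) (XT.nd (nat_lit 94) (nat_lit 0) (nat_lit 0) (XT.lf (nat_lit 0) (nat_lit 15520027742) (nat_lit 1092) (nat_lit 14139435611) (nat_lit 1176) (nat_lit 5949004582) (nat_lit 114) (nat_lit 5) (nat_lit 127) (nat_lit 3) (nat_lit 128) (nat_lit 5) (nat_lit 359) (nat_lit 358) (nat_lit 147)) (XT.nd (nat_lit 94) (nat_lit 0) (nat_lit 0) (XT.lf (nat_lit 0) (nat_lit 15948179274) (nat_lit 1092) (nat_lit 464695592) (nat_lit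 1176) (nat_lit 19750078268) (nat_lit 114) (nat_lit 5) (nat_lit 127) (nat_lit 3) (nat_lit 128) (nat_lit 5) (nat_lit 360) (nat_lit 358) (nat_lit 146)) (XT.lf (nat_lit 84) (nat_lit 13913306798) (nat_lit 0) (nat_lit 2612517714) (nat_lit 1176) (nat_lit 20204586781) (nat_lit 115) (nat_lit 5) (nat_lit 114) (nat_lit 5) (nat_lit 128) (nat_lit 5) (nat_lit 361) (nat_lit 358) (nat_lit 145)))) (XT.nd (nat_lit 94) (nat_lit 0) (nat_lit 0) (XT.lf (nat_lit 0) (nat_lit 17239757192) (nat_lit 1092) (nat_lit 8684745671) (nat_lit 1176) (nat_lit 11387294568) (nat_lit 115) (nat_lit 5) (nat_lit 128) (nat_lit 5) (nat_lit 129) (nat_lit 5) (nat_lit 362) (nat_lit 358) (nat_lit 144)) (XT.nd (nat_lit 94) (nat_lit 0) (nat_lit 84) (XT.lf (nat_lit 84) (nat_lit 5978444188) (nat_lit 0) (nat_lit 12081708648) (nat_lit 1176) (nat_lit 19848445808) (nat_lit 116) (nat_lit 5) (nat_lit 115) (nat_lit 5) (nat_lit 129) (nat_lit 5)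 (nat_lit 363) (nat_lit 358) (nat_lit 143)) (XT.lf (nat_lit 0) (nat_lit 19017637913) (nat_lit 1092) (nat_lit 17264498219) (nat_lit 1176) (nat_lit 2238309370) (nat_lit 116) (nat_lit 5) (nat_lit 129) (nat_lit 5) (nat_lit 130) (nat_lit 5) (nat_lit 364) (nat_lit 358) (nat_lit 142))))) (XT.nd (nat_lit 282) (nat_lit 0) (nat_lit 84) (XT.nd (nat_lit 94) (nat_lit 0) (nat_lit 0) (XT.lf (nat_lit 0) (nat_lit 20126773951) (nat_lit 1092) (nat_lit 2268800634) (nat_lit 1176) (nat_lit 16751909986) (nat_lit 116) (nat_lit 5) (nat_lit 129) (nat_lit 5) (nat_lit 130) (nat_lit 5) (nat_lit 365) (nat_lit 358) (nat_lit 141)) (XT.nd (nat_lit 94) (nat_lit 0) (nat_lit 84) (XT.lf (nat_lit 84) (nat_lit 13461997148) (nat_lit 0) (nat_lit 7940290265) (nat_lit 1176) (nat_lit 18387588427) (nat_lit 117) (nat_lit 5) (nat_lit 116) (nat_lit 5) (nat_lit 130) (nat_lit 5) (nat_lit 366) (nat_lit 358) (nat_lit 140)) (XT.lf (nat_lit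 0) (nat_lit 22808832130) (nat_lit 1092) (nat_lit 10793260555) (nat_lit 1176) (nat_lit 6847257993) (nat_lit 117) (nat_lit 5) (nat_lit 130) (nat_lit 5) (nat_lit 131) (nat_lit 5) (nat_lit 367) (nat_lit 358) (nat_lit 139)))) (XT.nd (nat_lit 94) (nat_lit 0) (nat_lit 0) (XT.lf (nat_lit 84) (nat_lit 5246411743) (nat_lit 0) (nat_lit 19144360499) (nat_lit 1176) (nat_lit 16734416895) (nat_lit 118) (nat_lit 5) (nat_lit 117) (nat_lit 5) (nat_lit 131) (nat_lit 5) (nat_lit 368) (nat_lit 358) (nat_lit 138)) (XT.nd (nat_lit 94) (nat_lit 0) (nat_lit 84) (XT.lf (nat_lit 84) (nat_lit 22011123565) (nat_lit 0) (nat_lit 4121859453) (nat_lit 1176) (nat_lit 15685552727) (nat_lit 118) (nat_lit 5) (nat_lit 117) (nat_lit 5) (nat_lit 131) (nat_lit 5) (nat_lit 369) (nat_lit 358) (nat_lit 137)) (XT.lf (nat_lit 0) (nat_lit 28040575915) (nat_lit 1092) (nat_lit 3351614006) (nat_lit 1176) (nat_lit 11137738740) (nat_lit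 118) (nat_lit 5) (nat_lit 131) (nat_lit 5) (nat_lit 132) (nat_lit 5) (nat_lit 370) (nat_lit 358) (nat_lit 136)))))) (XT.nd (nat_lit 564) (nat_lit 1176) (nat_lit 0) (XT.nd (nat_lit 282) (nat_lit 924) (nat_lit 0) (XT.nd (nat_lit 94) (nat_lit 0) (nat_lit 0) (XT.lf (nat_lit 84) (nat_lit 13850214863) (nat_lit 0) (nat_lit 16335301745) (nat_lit 1176) (nat_lit 13072338555) (nat_lit 119) (nat_lit 5) (nat_lit 118) (nat_lit 5) (nat_lit 132) (nat_lit 5) (nat_lit 371) (nat_lit 358) (nat_lit 135)) (XT.nd (nat_lit 94) (nat_lit 0) (nat_lit 84) (XT.lf (nat_lit 84) (nat_lit 31655369853) (nat_lit 0) (nat_lit 775254781) (nat_lit 1176) (nat_lit 11576683692) (nat_lit 119) (nat_lit 5) (nat_lit 118) (nat_lit 5) (nat_lit 132) (nat_lit 5) (nat_lit 372) (nat_lit 358) (nat_lit 134)) (XT.lf (nat_lit 84) (nat_lit 5184493347) (nat_lit 0) (nat_lit 29762453255) (nat_lit 1176) (nat_lit 9826802547) (nat_lit 120) (nat_lit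 5) (nat_lit 119) (nat_lit 5) (nat_lit 133) (nat_lit 5) (nat_lit 373) (nat_lit 358) (nat_lit 133)))) (XT.nd (nat_lit 94) (nat_lit 1008) (nat_lit 0) (XT.lf (nat_lit 84) (nat_lit 23517326527) (nat_lit 0) (nat_lit 14159486687) (nat_lit 1176) (nat_lit 7882939277) (nat_lit 120) (nat_lit 5) (nat_lit 119) (nat_lit 5) (nat_lit 133) (nat_lit 5) (nat_lit 374) (nat_lit 358) (nat_lit 132)) (XT.nd (nat_lit 94) (nat_lit 1092) (nat_lit 0) (XT.lf (nat_lit 0) (nat_lit 40509224119) (nat_lit 1092) (nat_lit 3971767026) (nat_lit 84) (nat_lit 1888579737) (nat_lit 120) (nat_lit 5) (nat_lit 133) (nat_lit 5) (nat_lit 121) (nat_lit 5) (nat_lit 375) (nat_lit 358) (nat_lit 131)) (XT.lf (nat_lit 0) (nat_lit 14811712470) (nat_lit 1092) (nat_lit 28908316260) (nat_lit 1176) (nat_lit 3475460938) (nat_lit 107) (nat_lit 5) (nat_lit 120) (nat_lit 5) (nat_lit 121) (nat_lit 5) (nat_lit 376) (nat_lit 358) (nat_lit 130)))))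 (XT.nd (nat_lit 282) (nat_lit 588) (nat_lit 0) (XT.nd (nat_lit 94) (nat_lit 588) (nat_lit 0) (XT.lf (nat_lit 0) (nat_lit 34260714446) (nat_lit 1092) (nat_lit 12809973056) (nat_lit 1176) (nat_lit 975078695) (nat_lit 107) (nat_lit 5) (nat_lit 120) (nat_lit 5) (nat_lit 121) (nat_lit 5) (nat_lit 377) (nat_lit 358) (nat_lit 129)) (XT.nd (nat_lit 94) (nat_lit 0) (nat_lit 0) (XT.lf (nat_lit 0) (nat_lit 1662096114) (nat_lit 588) (nat_lit 43474693867) (nat_lit 84) (nat_lit 3782283531) (nat_lit 100) (nat_lit 5) (nat_lit 107) (nat_lit 5) (nat_lit 101) (nat_lit 5) (nat_lit 378) (nat_lit 358) (nat_lit 128)) (XT.lf (nat_lit 0) (nat_lit 4636050543) (nat_lit 588) (nat_lit 24396285906) (nat_lit 84) (nat_lit 20778277800) (nat_lit 100) (nat_lit 5) (nat_lit 107) (nat_lit 5) (nat_lit 101) (nat_lit 5) (nat_lit 379) (nat_lit 358) (nat_lit 127)))) (XT.nd (nat_lit 94) (nat_lit 588) (nat_lit 0) (XT.lf (nat_lit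 0) (nat_lit 7701137122) (nat_lit 588) (nat_lit 4727409524) (nat_lit 84) (nat_lit 38301282656) (nat_lit 100) (nat_lit 5) (nat_lit 107) (nat_lit 5) (nat_lit 101) (nat_lit 5) (nat_lit 380) (nat_lit 358) (nat_lit 126)) (XT.nd (nat_lit 94) (nat_lit 0) (nat_lit 0) (XT.lf (nat_lit 0) (nat_lit 11065781436) (nat_lit 672) (nat_lit 35850817014) (nat_lit 84) (nat_lit 4754604395) (nat_lit 93) (nat_lit 5) (nat_lit 101) (nat_lit 5) (nat_lit 94) (nat_lit 5) (nat_lit 381) (nat_lit 358) (nat_lit 125)) (XT.lf (nat_lit 0) (nat_lit 14710687689) (nat_lit 672) (nat_lit 15663426659) (nat_lit 84) (nat_lit 22262193382) (nat_lit 93) (nat_lit 5) (nat_lit 101) (nat_lit 5) (nat_lit 94) (nat_lit 5) (nat_lit 382) (nat_lit 358) (nat_lit 124))))))))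
noncomputable def xc222 : XT := (XT.nd (nat_lit 2256) (nat_lit 1428) (nat_lit 0) (XT.nd (nat_lit 1128) (nat_lit 1512) (nat_lit 0) (XT.nd (nat_lit 564) (nat_lit 924) (nat_lit 0) (XT.nd (nat_lit 282) (nat_lit 924) (nat_lit 0) (XT.nd (nat_lit 94) (nat_lit 0) (nat_lit 0) (XT.lf (nat_lit 0) (nat_lit 5254713061) (nat_lit 504) (nat_lit 13265024657) (nat_lit 588) (nat_lit 35110010803) (nat_lit 87) (nat_lit 5) (nat_lit 93) (nat_lit 5) (nat_lit 94) (nat_lit 5) (nat_lit 383) (nat_lit 358) (nat_lit 123)) (XT.nd (nat_lit 94) (nat_lit 0) (nat_lit 0) (XT.lf (nat_lit 0) (nat_lit 22654474384) (nat_lit 588) (nat_lit 27541567635) (nat_lit 84) (nat_lit 4451511423) (nat_lit 87) (nat_lit 5) (nat_lit 94) (nat_lit 5) (nat_lit 88) (nat_lit 5) (nat_lit 384) (nat_lit 358) (nat_lit 122)) (XT.lf (nat_lit 0) (nat_lit 27052131425) (nat_lit 588) (nat_lit 6198857900) (nat_lit 84) (nat_lit 22441747096) (nat_lit 87) (nat_lit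 5) (nat_lit 94) (nat_lit 5) (nat_lit 88) (nat_lit 5) (nat_lit 385) (nat_lit 358) (nat_lit 121)))) (XT.nd (nat_lit 94) (nat_lit 420) (nat_lit 0) (XT.lf (nat_lit 0) (nat_lit 16129552611) (nat_lit 504) (nat_lit 15615671781) (nat_lit 588) (nat_lit 25020166378) (nat_lit 81) (nat_lit 5) (nat_lit 87) (nat_lit 5) (nat_lit 88) (nat_lit 5) (nat_lit 386) (nat_lit 358) (nat_lit 120)) (XT.nd (nat_lit 94) (nat_lit 420) (nat_lit 0) (XT.lf (nat_lit 0) (nat_lit 36673746303) (nat_lit 588) (nat_lit 18614774255) (nat_lit 84) (nat_lit 2579991579) (nat_lit 81) (nat_lit 5) (nat_lit 88) (nat_lit 5) (nat_lit 82) (nat_lit 5) (nat_lit 387) (nat_lit 358) (nat_lit 119)) (XT.lf (nat_lit 0) (nat_lit 4009114537) (nat_lit 420) (nat_lit 37944566351) (nat_lit 504) (nat_lit 17045994776) (nat_lit 76) (nat_lit 5) (nat_lit 81) (nat_lit 5) (nat_lit 82) (nat_lit 5) (nat_lit 388) (nat_lit 358) (nat_lit 118))))) (XT.nd (nat_lit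 282) (nat_lit 504) (nat_lit 0) (XT.nd (nat_lit 94) (nat_lit 420) (nat_lit 0) (XT.lf (nat_lit 0) (nat_lit 27728085110) (nat_lit 420) (nat_lit 19862671321) (nat_lit 504) (nat_lit 12569154270) (nat_lit 76) (nat_lit 5) (nat_lit 81) (nat_lit 5) (nat_lit 82) (nat_lit 5) (nat_lit 389) (nat_lit 358) (nat_lit 117)) (XT.nd (nat_lit 94) (nat_lit 420) (nat_lit 0) (XT.lf (nat_lit 0) (nat_lit 52181488093) (nat_lit 420) (nat_lit 1220281312) (nat_lit 504) (nat_lit 7954371498) (nat_lit 76) (nat_lit 5) (nat_lit 81) (nat_lit 5) (nat_lit 82) (nat_lit 5) (nat_lit 390) (nat_lit 358) (nat_lit 116)) (XT.lf (nat_lit 0) (nat_lit 14924774241) (nat_lit 420) (nat_lit 44793979684) (nat_lit 504) (nat_lit 2860602210) (nat_lit 71) (nat_lit 5) (nat_lit 76) (nat_lit 5) (nat_lit 77) (nat_lit 5) (nat_lit 391) (nat_lit 358) (nat_lit 115)))) (XT.nd (nat_lit 94) (nat_lit 420) (nat_lit 0) (XT.lf (nat_lit 0) (nat_lit 2451340686)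 (nat_lit 504) (nat_lit 23909787261) (nat_lit 84) (nat_lit 37475268564) (nat_lit 70) (nat_lit 5) (nat_lit 76) (nat_lit 5) (nat_lit 71) (nat_lit 5) (nat_lit 392) (nat_lit 358) (nat_lit 114)) (XT.nd (nat_lit 94) (nat_lit 0) (nat_lit 0) (XT.lf (nat_lit 0) (nat_lit 552122391) (nat_lit 420) (nat_lit 7321127612) (nat_lit 504) (nat_lit 57258104314) (nat_lit 65) (nat_lit 5) (nat_lit 70) (nat_lit 5) (nat_lit 71) (nat_lit 5) (nat_lit 393) (nat_lit 358) (nat_lit 113)) (XT.lf (nat_lit 0) (nat_lit 13836722305) (nat_lit 504) (nat_lit 40305009893) (nat_lit 84) (nat_lit 12313147945) (nat_lit 65) (nat_lit 5) (nat_lit 71) (nat_lit 5) (nat_lit 66) (nat_lit 5) (nat_lit 394) (nat_lit 358) (nat_lit 112)))))) (XT.nd (nat_lit 564) (nat_lit 756) (nat_lit 0) (XT.nd (nat_lit 282) (nat_lit 336) (nat_lit 0) (XT.nd (nat_lit 94) (nat_lit 420) (nat_lit 0) (XT.lf (nat_lit 0) (nat_lit 20059216810) (nat_lit 504) (nat_lit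 15353995603) (nat_lit 84) (nat_lit 32403926321) (nat_lit 65) (nat_lit 5) (nat_lit 71) (nat_lit 5) (nat_lit 66) (nat_lit 5) (nat_lit 395) (nat_lit 358) (nat_lit 111)) (XT.nd (nat_lit 94) (nat_lit 0) (nat_lit 0) (XT.lf (nat_lit 0) (nat_lit 10582916580) (nat_lit 420) (nat_lit 15995974307) (nat_lit 504) (nat_lit 42639505893) (nat_lit 60) (nat_lit 5) (nat_lit 65) (nat_lit 5) (nat_lit 66) (nat_lit 5) (nat_lit 396) (nat_lit 358) (nat_lit 110)) (XT.lf (nat_lit 0) (nat_lit 33501799334) (nat_lit 504) (nat_lit 33051125663) (nat_lit 84) (nat_lit 4103936092) (nat_lit 60) (nat_lit 5) (nat_lit 66) (nat_lit 5) (nat_lit 61) (nat_lit 5) (nat_lit 397) (nat_lit 358) (nat_lit 109)))) (XT.nd (nat_lit 94) (nat_lit 336) (nat_lit 0) (XT.lf (nat_lit 0) (nat_lit 40802250364) (nat_lit 504) (nat_lit 6838052628) (nat_lit 84) (nat_lit 24494565954) (nat_lit 60) (nat_lit 5) (nat_lit 66) (nat_lit 5) (nat_lit 61) (nat_lit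 5) (nat_lit 398) (nat_lit 358) (nat_lit 108)) (XT.nd (nat_lit 94) (nat_lit 0) (nat_lit 0) (XT.lf (nat_lit 0) (nat_lit 20601937407) (nat_lit 336) (nat_lit 27930803077) (nat_lit 420) (nat_lit 25119641079) (nat_lit 56) (nat_lit 5) (nat_lit 60) (nat_lit 5) (nat_lit 61) (nat_lit 5) (nat_lit 399) (nat_lit 358) (nat_lit 107)) (XT.lf (nat_lit 0) (nat_lit 49036766675) (nat_lit 336) (nat_lit 7536847638) (nat_lit 420) (nat_lit 18641131802) (nat_lit 56) (nat_lit 5) (nat_lit 60) (nat_lit 5) (nat_lit 61) (nat_lit 5) (nat_lit 400) (nat_lit 358) (nat_lit 106))))) (XT.nd (nat_lit 282) (nat_lit 336) (nat_lit 0) (XT.nd (nat_lit 94) (nat_lit 84) (nat_lit 0) (XT.lf (nat_lit 0) (nat_lit 1421597550) (nat_lit 336) (nat_lit 63589457027) (nat_lit 420) (nat_lit 11809924990) (nat_lit 52) (nat_lit 5) (nat_lit 56) (nat_lit 5) (nat_lit 57) (nat_lit 5) (nat_lit 401) (nat_lit 358) (nat_lit 105)) (XT.nd (nat_lit 94)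 (nat_lit 84) (nat_lit 0) (XT.lf (nat_lit 0) (nat_lit 30352298880) (nat_lit 336) (nat_lit 43706697172) (nat_lit 420) (nat_lit 4407194869) (nat_lit 52) (nat_lit 5) (nat_lit 56) (nat_lit 5) (nat_lit 57) (nat_lit 5) (nat_lit 402) (nat_lit 358) (nat_lit 104)) (XT.lf (nat_lit 0) (nat_lit 3159445765) (nat_lit 420) (nat_lit 20015288559) (nat_lit 84) (nat_lit 56986697958) (nat_lit 51) (nat_lit 5) (nat_lit 56) (nat_lit 5) (nat_lit 52) (nat_lit 5) (nat_lit 403) (nat_lit 358) (nat_lit 103)))) (XT.nd (nat_lit 94) (nat_lit 0) (nat_lit 0) (XT.lf (nat_lit 0) (nat_lit 9091753249) (nat_lit 336) (nat_lit 1866963323) (nat_lit 420) (nat_lit 70946335908) (nat_lit 47) (nat_lit 5) (nat_lit 51) (nat_lit 5) (nat_lit 52) (nat_lit 5) (nat_lit 404) (nat_lit 358) (nat_lit 102)) (XT.nd (nat_lit 94) (nat_lit 0) (nat_lit 0) (XT.lf (nat_lit 0) (nat_lit 19409657634) (nat_lit 420) (nat_lit 44373098298) (nat_lit 84) (nat_lit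 19907263906) (nat_lit 47) (nat_lit 5) (nat_lit 52) (nat_lit 5) (nat_lit 48) (nat_lit 5) (nat_lit 405) (nat_lit 358) (nat_lit 101)) (XT.lf (nat_lit 0) (nat_lit 28141119343) (nat_lit 420) (nat_lit 15071055972) (nat_lit 84) (nat_lit 42317572647) (nat_lit 47) (nat_lit 5) (nat_lit 52) (nat_lit 5) (nat_lit 48) (nat_lit 5) (nat_lit 406) (nat_lit 358) (nat_lit 100))))))) (XT.nd (nat_lit 49726) (nat_lit 0) (nat_lit 7056) (XT.nd (nat_lit 564) (nat_lit 840) (nat_lit 0) (XT.nd (nat_lit 282) (nat_lit 252) (nat_lit 0) (XT.nd (nat_lit 94) (nat_lit 0) (nat_lit 0) (XT.lf (nat_lit 0) (nat_lit 15449942741) (nat_lit 336) (nat_lit 21846042434) (nat_lit 420) (nat_lit 50125789407) (nat_lit 43) (nat_lit 5) (nat_lit 47) (nat_lit 5) (nat_lit 48) (nat_lit 5) (nat_lit 407) (nat_lit 358) (nat_lit 99)) (XT.nd (nat_lit 94) (nat_lit 0) (nat_lit 0) (XT.lf (nat_lit 0) (nat_lit 46894852815) (nat_lit 420) (nat_lit 42135103406)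 (nat_lit 84) (nat_lit 337533047) (nat_lit 43) (nat_lit 5) (nat_lit 48) (nat_lit 5) (nat_lit 44) (nat_lit 5) (nat_lit 408) (nat_lit 358) (nat_lit 98)) (XT.lf (nat_lit 0) (nat_lit 57014206172) (nat_lit 420) (nat_lit 11597547166) (nat_lit 84) (nat_lit 22754858654) (nat_lit 43) (nat_lit 5) (nat_lit 48) (nat_lit 5) (nat_lit 44) (nat_lit 5) (nat_lit 409) (nat_lit 358) (nat_lit 97)))) (XT.nd (nat_lit 94) (nat_lit 0) (nat_lit 0) (XT.lf (nat_lit 0) (nat_lit 20294913808) (nat_lit 252) (nat_lit 47353176346) (nat_lit 336) (nat_lit 25773393000) (nat_lit 40) (nat_lit 5) (nat_lit 43) (nat_lit 5) (nat_lit 44) (nat_lit 5) (nat_lit 410) (nat_lit 358) (nat_lit 96)) (XT.nd (nat_lit 94) (nat_lit 0) (nat_lit 0) (XT.lf (nat_lit 0) (nat_lit 53421252835) (nat_lit 252) (nat_lit 25310937432) (nat_lit 336) (nat_lit 16804128859) (nat_lit 40) (nat_lit 5) (nat_lit 43) (nat_lit 5) (nat_lit 44) (nat_lit 5) (nat_lit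 411) (nat_lit 358) (nat_lit 95)) (XT.lf (nat_lit 0) (nat_lit 87573877778) (nat_lit 252) (nat_lit 2585545525) (nat_lit 336) (nat_lit 7557307712) (nat_lit 40) (nat_lit 5) (nat_lit 43) (nat_lit 5) (nat_lit 44) (nat_lit 5) (nat_lit 412) (nat_lit 358) (nat_lit 94))))) (XT.nd (nat_lit 282) (nat_lit 504) (nat_lit 0) (XT.nd (nat_lit 94) (nat_lit 0) (nat_lit 0) (XT.lf (nat_lit 0) (nat_lit 2376054173) (nat_lit 336) (nat_lit 76897233473) (nat_lit 84) (nat_lit 20677210693) (nat_lit 36) (nat_lit 5) (nat_lit 40) (nat_lit 5) (nat_lit 37) (nat_lit 5) (nat_lit 413) (nat_lit 358) (nat_lit 93)) (XT.nd (nat_lit 94) (nat_lit 0) (nat_lit 0) (XT.lf (nat_lit 0) (nat_lit 12593305123) (nat_lit 336) (nat_lit 44862194958) (nat_lit 84) (nat_lit 44791496383) (nat_lit 36) (nat_lit 5) (nat_lit 40) (nat_lit 5) (nat_lit 37) (nat_lit 5) (nat_lit 414) (nat_lit 358) (nat_lit 92)) (XT.lf (nat_lit 0) (nat_lit 23126845132)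 (nat_lit 336) (nat_lit 11834681260) (nat_lit 84) (nat_lit 69653174609) (nat_lit 36) (nat_lit 5) (nat_lit 40) (nat_lit 5) (nat_lit 37) (nat_lit 5) (nat_lit 415) (nat_lit 358) (nat_lit 91)))) (XT.nd (nat_lit 376) (nat_lit 252) (nat_lit 0) (XT.lf (nat_lit 0) (nat_lit 22672901151) (nat_lit 252) (nat_lit 11538509397) (nat_lit 336) (nat_lit 72837435893) (nat_lit 33) (nat_lit 5) (nat_lit 36) (nat_lit 5) (nat_lit 37) (nat_lit 5) (nat_lit 416) (nat_lit 358) (nat_lit 90)) (XT.nd (nat_lit 94) (nat_lit 0) (nat_lit 0) (XT.lf (nat_lit 0) (nat_lit 55457618893) (nat_lit 252) (nat_lit 28594466148) (nat_lit 336) (nat_lit 33450997648) (nat_lit 30) (nat_lit 5) (nat_lit 33) (nat_lit 5) (nat_lit 34) (nat_lit 5) (nat_lit 420) (nat_lit 358) (nat_lit 86)) (XT.lf (nat_lit 0) (nat_lit 93601573461) (nat_lit 252) (nat_lit 4150992403) (nat_lit 336) (nat_lit 22561662981) (nat_lit 30) (nat_lit 5) (nat_lit 33) (nat_lit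 5) (nat_lit 34) (nat_lit 5) (nat_lit 421) (nat_lit 358) (nat_lit 85)))))) (XT.nd (nat_lit 564) (nat_lit 0) (nat_lit 168) (XT.nd (nat_lit 282) (nat_lit 0) (nat_lit 0) (XT.nd (nat_lit 94) (nat_lit 0) (nat_lit 0) (XT.lf (nat_lit 0) (nat_lit 3935111519) (nat_lit 0) (nat_lit 3935111519) (nat_lit 1092) (nat_lit 10205936082) (nat_lit 114) (nat_lit 5) (nat_lit 114) (nat_lit 3) (nat_lit 127) (nat_lit 3) (nat_lit 359) (nat_lit 359) (nat_lit 146)) (XT.nd (nat_lit 94) (nat_lit 0) (nat_lit 0) (XT.lf (nat_lit 0) (nat_lit 16089637409) (nat_lit 1092) (nat_lit 14529762492) (nat_lit 1176) (nat_lit 6089854642) (nat_lit 114) (nat_lit 5) (nat_lit 127) (nat_lit 3) (nat_lit 128) (nat_lit 5) (nat_lit 360) (nat_lit 359) (nat_lit 145)) (XT.lf (nat_lit 0) (nat_lit 16528400966) (nat_lit 1092) (nat_lit 432548660) (nat_lit 1176) (nat_lit 20320071643) (nat_lit 114) (nat_lit 5) (nat_lit 127) (nat_lit 3) (nat_lit 128)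 (nat_lit 5) (nat_lit 361) (nat_lit 359) (nat_lit 144)))) (XT.nd (nat_lit 94) (nat_lit 0) (nat_lit 84) (XT.lf (nat_lit 84) (nat_lit 14390700502) (nat_lit 0) (nat_lit 2731129164) (nat_lit 1176) (nat_lit 20744316498) (nat_lit 115) (nat_lit 5) (nat_lit 114) (nat_lit 5) (nat_lit 128) (nat_lit 5) (nat_lit 362) (nat_lit 359) (nat_lit 143)) (XT.nd (nat_lit 94) (nat_lit 0) (nat_lit 0) (XT.lf (nat_lit 0) (nat_lit 17855015431) (nat_lit 1092) (nat_lit 8906094706) (nat_lit 1176) (nat_lit 11704543790) (nat_lit 115) (nat_lit 5) (nat_lit 128) (nat_lit 5) (nat_lit 129) (nat_lit 5) (nat_lit 363) (nat_lit 359) (nat_lit 142)) (XT.lf (nat_lit 84) (nat_lit 6211169316) (nat_lit 0) (nat_lit 12487713912) (nat_lit 1176) (nat_lit 20382142644) (nat_lit 116) (nat_lit 5) (nat_lit 115) (nat_lit 5) (nat_lit 129) (nat_lit 5) (nat_lit 364) (nat_lit 359) (nat_lit 141))))) (XT.nd (nat_lit 282) (nat_lit 0) (nat_lit 84)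 (XT.nd (nat_lit 94) (nat_lit 0) (nat_lit 0) (XT.lf (nat_lit 0) (nat_lit 19683376197) (nat_lit 1092) (nat_lit 17750769539) (nat_lit 1176) (nat_lit 2277786002) (nat_lit 116) (nat_lit 5) (nat_lit 129) (nat_lit 5) (nat_lit 130) (nat_lit 5) (nat_lit 365) (nat_lit 359) (nat_lit 140)) (XT.nd (nat_lit 94) (nat_lit 0) (nat_lit 0) (XT.lf (nat_lit 0) (nat_lit 20824604533) (nat_lit 1092) (nat_lit 2291676493) (nat_lit 1176) (nat_lit 17242207596) (nat_lit 116) (nat_lit 5) (nat_lit 129) (nat_lit 5) (nat_lit 130) (nat_lit 5) (nat_lit 366) (nat_lit 359) (nat_lit 139)) (XT.lf (nat_lit 84) (nat_lit 13926295561) (nat_lit 0) (nat_lit 8211607330) (nat_lit 1176) (nat_lit 18882953898) (nat_lit 117) (nat_lit 5) (nat_lit 116) (nat_lit 5) (nat_lit 130) (nat_lit 5) (nat_lit 367) (nat_lit 359) (nat_lit 138)))) (XT.nd (nat_lit 94) (nat_lit 0) (nat_lit 0) (XT.lf (nat_lit 0) (nat_lit 23585639095) (nat_lit 1092) (nat_lit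 11079615576) (nat_lit 1176) (nat_lit 7035603509) (nat_lit 117) (nat_lit 5) (nat_lit 130) (nat_lit 5) (nat_lit 131) (nat_lit 5) (nat_lit 368) (nat_lit 359) (nat_lit 137)) (XT.nd (nat_lit 94) (nat_lit 0) (nat_lit 0) (XT.lf (nat_lit 84) (nat_lit 5456798216) (nat_lit 0) (nat_lit 19758198067) (nat_lit 1176) (nat_lit 17182709499) (nat_lit 118) (nat_lit 5) (nat_lit 117) (nat_lit 5) (nat_lit 131) (nat_lit 5) (nat_lit 369) (nat_lit 359) (nat_lit 136)) (XT.lf (nat_lit 84) (nat_lit 22739780432) (nat_lit 0) (nat_lit 4269387235) (nat_lit 1176) (nat_lit 16103449556) (nat_lit 118) (nat_lit 5) (nat_lit 117) (nat_lit 5) (nat_lit 131) (nat_lit 5) (nat_lit 370) (nat_lit 359) (nat_lit 135))))))))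
noncomputable def xc223 : XT := (XT.nd (nat_lit 2256) (nat_lit 2940) (nat_lit 0) (XT.nd (nat_lit 1128) (nat_lit 2352) (nat_lit 0) (XT.nd (nat_lit 564) (nat_lit 2100) (nat_lit 0) (XT.nd (nat_lit 282) (nat_lit 0) (nat_lit 84) (XT.nd (nat_lit 94) (nat_lit 0) (nat_lit 0) (XT.lf (nat_lit 0) (nat_lit 28973719559) (nat_lit 1092) (nat_lit 3408180296) (nat_lit 1176) (nat_lit 11464238304) (nat_lit 118) (nat_lit 5) (nat_lit 131) (nat_lit 5) (nat_lit 132) (nat_lit 5) (nat_lit 371) (nat_lit 359) (nat_lit 134)) (XT.nd (nat_lit 94) (nat_lit 0) (nat_lit 0) (XT.lf (nat_lit 84) (nat_lit 14326426056) (nat_lit 0) (nat_lit 16857271249) (nat_lit 1176) (nat_lit 13412985368) (nat_lit 119) (nat_lit 5) (nat_lit 118) (nat_lit 5) (nat_lit 132) (nat_lit 5) (nat_lit 372) (nat_lit 359) (nat_lit 133)) (XT.lf (nat_lit 84) (nat_lit 32682132034) (nat_lit 0) (nat_lit 814394517) (nat_lit 1176) (nat_lit 11872907460) (nat_lit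 119) (nat_lit 5) (nat_lit 118) (nat_lit 5) (nat_lit 132) (nat_lit 5) (nat_lit 373) (nat_lit 359) (nat_lit 132)))) (XT.nd (nat_lit 94) (nat_lit 0) (nat_lit 0) (XT.lf (nat_lit 84) (nat_lit 5392426207) (nat_lit 0) (nat_lit 30696930614) (nat_lit 1176) (nat_lit 10070330834) (nat_lit 120) (nat_lit 5) (nat_lit 119) (nat_lit 5) (nat_lit 133) (nat_lit 5) (nat_lit 374) (nat_lit 359) (nat_lit 131)) (XT.nd (nat_lit 94) (nat_lit 0) (nat_lit 84) (XT.lf (nat_lit 84) (nat_lit 24292157603) (nat_lit 0) (nat_lit 14609916039) (nat_lit 1176) (nat_lit 8068045030) (nat_lit 120) (nat_lit 5) (nat_lit 119) (nat_lit 5) (nat_lit 133) (nat_lit 5) (nat_lit 375) (nat_lit 359) (nat_lit 130)) (XT.lf (nat_lit 0) (nat_lit 41820456511) (nat_lit 1092) (nat_lit 4048437841) (nat_lit 84) (nat_lit 1936210226) (nat_lit 120) (nat_lit 5) (nat_lit 133) (nat_lit 5) (nat_lit 121) (nat_lit 5) (nat_lit 376) (nat_lit 359) (nat_lit 129)))))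 (XT.nd (nat_lit 282) (nat_lit 588) (nat_lit 0) (XT.nd (nat_lit 94) (nat_lit 588) (nat_lit 0) (XT.lf (nat_lit 0) (nat_lit 15316859214) (nat_lit 1092) (nat_lit 29812725856) (nat_lit 1176) (nat_lit 3527085456) (nat_lit 107) (nat_lit 5) (nat_lit 120) (nat_lit 5) (nat_lit 121) (nat_lit 5) (nat_lit 377) (nat_lit 359) (nat_lit 128)) (XT.nd (nat_lit 94) (nat_lit 588) (nat_lit 0) (XT.lf (nat_lit 0) (nat_lit 35367397620) (nat_lit 1092) (nat_lit 13215085898) (nat_lit 1176) (nat_lit 950878616) (nat_lit 107) (nat_lit 5) (nat_lit 120) (nat_lit 5) (nat_lit 121) (nat_lit 5) (nat_lit 378) (nat_lit 359) (nat_lit 127)) (XT.lf (nat_lit 0) (nat_lit 1765731990) (nat_lit 588) (nat_lit 44775124743) (nat_lit 84) (nat_lit 3892911927) (nat_lit 100) (nat_lit 5) (nat_lit 107) (nat_lit 5) (nat_lit 101) (nat_lit 5) (nat_lit 379) (nat_lit 359) (nat_lit 126)))) (XT.nd (nat_lit 94) (nat_lit 588) (nat_lit 0) (XT.lf (nat_lit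 0) (nat_lit 4830312141) (nat_lit 588) (nat_lit 25106707885) (nat_lit 84) (nat_lit 21415981141) (nat_lit 100) (nat_lit 5) (nat_lit 107) (nat_lit 5) (nat_lit 101) (nat_lit 5) (nat_lit 380) (nat_lit 359) (nat_lit 125)) (XT.nd (nat_lit 94) (nat_lit 588) (nat_lit 0) (XT.lf (nat_lit 0) (nat_lit 7988896651) (nat_lit 588) (nat_lit 4829475335) (nat_lit 84) (nat_lit 39482392281) (nat_lit 100) (nat_lit 5) (nat_lit 107) (nat_lit 5) (nat_lit 101) (nat_lit 5) (nat_lit 381) (nat_lit 359) (nat_lit 124)) (XT.lf (nat_lit 0) (nat_lit 11456768481) (nat_lit 672) (nat_lit 36916467121) (nat_lit 84) (nat_lit 4898123270) (nat_lit 93) (nat_lit 5) (nat_lit 101) (nat_lit 5) (nat_lit 94) (nat_lit 5) (nat_lit 382) (nat_lit 359) (nat_lit 123)))))) (XT.nd (nat_lit 564) (nat_lit 1344) (nat_lit 0) (XT.nd (nat_lit 282) (nat_lit 504) (nat_lit 0) (XT.nd (nat_lit 94) (nat_lit 504) (nat_lit 0) (XT.lf (nat_lit 0) (nat_lit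 15213225138) (nat_lit 672) (nat_lit 16104642527) (nat_lit 84) (nat_lit 22948563995) (nat_lit 93) (nat_lit 5) (nat_lit 101) (nat_lit 5) (nat_lit 94) (nat_lit 5) (nat_lit 383) (nat_lit 359) (nat_lit 122)) (XT.nd (nat_lit 94) (nat_lit 0) (nat_lit 0) (XT.lf (nat_lit 0) (nat_lit 5461510517) (nat_lit 504) (nat_lit 13677882366) (nat_lit 588) (nat_lit 36151310887) (nat_lit 87) (nat_lit 5) (nat_lit 93) (nat_lit 5) (nat_lit 94) (nat_lit 5) (nat_lit 384) (nat_lit 359) (nat_lit 121)) (XT.lf (nat_lit 0) (nat_lit 23400921196) (nat_lit 588) (nat_lit 28351239263) (nat_lit 84) (nat_lit 4587947789) (nat_lit 87) (nat_lit 5) (nat_lit 94) (nat_lit 5) (nat_lit 88) (nat_lit 5) (nat_lit 385) (nat_lit 359) (nat_lit 120)))) (XT.nd (nat_lit 94) (nat_lit 504) (nat_lit 0) (XT.lf (nat_lit 0) (nat_lit 27933577864) (nat_lit 588) (nat_lit 6348232031) (nat_lit 84) (nat_lit 23135927688) (nat_lit 87) (nat_lit 5) (nat_lit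 94) (nat_lit 5) (nat_lit 88) (nat_lit 5) (nat_lit 386) (nat_lit 359) (nat_lit 119)) (XT.nd (nat_lit 94) (nat_lit 0) (nat_lit 0) (XT.lf (nat_lit 0) (nat_lit 16671925991) (nat_lit 504) (nat_lit 16099363093) (nat_lit 588) (nat_lit 25752386418) (nat_lit 81) (nat_lit 5) (nat_lit 87) (nat_lit 5) (nat_lit 88) (nat_lit 5) (nat_lit 387) (nat_lit 359) (nat_lit 118)) (XT.lf (nat_lit 0) (nat_lit 37851337239) (nat_lit 588) (nat_lit 19149353385) (nat_lit 84) (nat_lit 2660346259) (nat_lit 81) (nat_lit 5) (nat_lit 88) (nat_lit 5) (nat_lit 82) (nat_lit 5) (nat_lit 388) (nat_lit 359) (nat_lit 117))))) (XT.nd (nat_lit 282) (nat_lit 924) (nat_lit 0) (XT.nd (nat_lit 94) (nat_lit 0) (nat_lit 0) (XT.lf (nat_lit 0) (nat_lit 4175445899) (nat_lit 420) (nat_lit 39118697119) (nat_lit 504) (nat_lit 17533152600) (nat_lit 76) (nat_lit 5) (nat_lit 81) (nat_lit 5) (nat_lit 82) (nat_lit 5) (nat_lit 389) (nat_lit 359)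 (nat_lit 116)) (XT.nd (nat_lit 94) (nat_lit 0) (nat_lit 0) (XT.lf (nat_lit 0) (nat_lit 28628440241) (nat_lit 420) (nat_lit 20476328012) (nat_lit 504) (nat_lit 12918770881) (nat_lit 76) (nat_lit 5) (nat_lit 81) (nat_lit 5) (nat_lit 82) (nat_lit 5) (nat_lit 390) (nat_lit 359) (nat_lit 115)) (XT.lf (nat_lit 0) (nat_lit 53838672412) (nat_lit 420) (nat_lit 1256086638) (nat_lit 504) (nat_lit 8162133376) (nat_lit 76) (nat_lit 5) (nat_lit 81) (nat_lit 5) (nat_lit 82) (nat_lit 5) (nat_lit 391) (nat_lit 359) (nat_lit 114)))) (XT.nd (nat_lit 94) (nat_lit 504) (nat_lit 0) (XT.lf (nat_lit 0) (nat_lit 15427855868) (nat_lit 420) (nat_lit 46179006008) (nat_lit 504) (nat_lit 2911191176) (nat_lit 71) (nat_lit 5) (nat_lit 76) (nat_lit 5) (nat_lit 77) (nat_lit 5) (nat_lit 392) (nat_lit 359) (nat_lit 113)) (XT.nd (nat_lit 94) (nat_lit 420) (nat_lit 0) (XT.lf (nat_lit 0) (nat_lit 2563532325) (nat_lit 504)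 (nat_lit 24610933543) (nat_lit 84) (nat_lit 38639622430) (nat_lit 70) (nat_lit 5) (nat_lit 76) (nat_lit 5) (nat_lit 71) (nat_lit 5) (nat_lit 393) (nat_lit 359) (nat_lit 112)) (XT.lf (nat_lit 0) (nat_lit 608889767) (nat_lit 420) (nat_lit 7543935953) (nat_lit 504) (nat_lit 58996389061) (nat_lit 65) (nat_lit 5) (nat_lit 70) (nat_lit 5) (nat_lit 71) (nat_lit 5) (nat_lit 394) (nat_lit 359) (nat_lit 111))))))) (XT.nd (nat_lit 1128) (nat_lit 1428) (nat_lit 0) (XT.nd (nat_lit 564) (nat_lit 756) (nat_lit 0) (XT.nd (nat_lit 282) (nat_lit 336) (nat_lit 0) (XT.nd (nat_lit 94) (nat_lit 420) (nat_lit 0) (XT.lf (nat_lit 0) (nat_lit 14300138001) (nat_lit 504) (nat_lit 41514870664) (nat_lit 84) (nat_lit 12698796434) (nat_lit 65) (nat_lit 5) (nat_lit 71) (nat_lit 5) (nat_lit 66) (nat_lit 5) (nat_lit 395) (nat_lit 359) (nat_lit 110)) (XT.nd (nat_lit 94) (nat_lit 420) (nat_lit 0) (XT.lf (nat_lit 0) (nat_lit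 20714493176) (nat_lit 504) (nat_lit 15791565455) (nat_lit 84) (nat_lit 33412270445) (nat_lit 65) (nat_lit 5) (nat_lit 71) (nat_lit 5) (nat_lit 66) (nat_lit 5) (nat_lit 396) (nat_lit 359) (nat_lit 109)) (XT.lf (nat_lit 0) (nat_lit 10949002199) (nat_lit 420) (nat_lit 16486646575) (nat_lit 504) (nat_lit 43927399962) (nat_lit 60) (nat_lit 5) (nat_lit 65) (nat_lit 5) (nat_lit 66) (nat_lit 5) (nat_lit 397) (nat_lit 359) (nat_lit 108)))) (XT.nd (nat_lit 94) (nat_lit 336) (nat_lit 0) (XT.lf (nat_lit 0) (nat_lit 34572230849) (nat_lit 504) (nat_lit 34037803735) (nat_lit 84) (nat_lit 4236102929) (nat_lit 60) (nat_lit 5) (nat_lit 66) (nat_lit 5) (nat_lit 61) (nat_lit 5) (nat_lit 398) (nat_lit 359) (nat_lit 107)) (XT.nd (nat_lit 94) (nat_lit 336) (nat_lit 0) (XT.lf (nat_lit 0) (nat_lit 42098037425) (nat_lit 504) (nat_lit 7013265213) (nat_lit 84) (nat_lit 25258693637) (nat_lit 60) (nat_lit 5) (nat_lit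 66) (nat_lit 5) (nat_lit 61) (nat_lit 5) (nat_lit 399) (nat_lit 359) (nat_lit 106)) (XT.lf (nat_lit 0) (nat_lit 21276992279) (nat_lit 336) (nat_lit 28790611883) (nat_lit 420) (nat_lit 25866968109) (nat_lit 56) (nat_lit 5) (nat_lit 60) (nat_lit 5) (nat_lit 61) (nat_lit 5) (nat_lit 400) (nat_lit 359) (nat_lit 105))))) (XT.nd (nat_lit 282) (nat_lit 420) (nat_lit 0) (XT.nd (nat_lit 94) (nat_lit 336) (nat_lit 0) (XT.lf (nat_lit 0) (nat_lit 50592206940) (nat_lit 336) (nat_lit 7764625618) (nat_lit 420) (nat_lit 19188568631) (nat_lit 56) (nat_lit 5) (nat_lit 60) (nat_lit 5) (nat_lit 61) (nat_lit 5) (nat_lit 401) (nat_lit 359) (nat_lit 104)) (XT.nd (nat_lit 94) (nat_lit 0) (nat_lit 0) (XT.lf (nat_lit 0) (nat_lit 1501544512) (nat_lit 336) (nat_lit 65553816207) (nat_lit 420) (nat_lit 12146084506) (nat_lit 52) (nat_lit 5) (nat_lit 56) (nat_lit 5) (nat_lit 57) (nat_lit 5) (nat_lit 402) (nat_lit 359)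 (nat_lit 103)) (XT.lf (nat_lit 0) (nat_lit 31328018824) (nat_lit 336) (nat_lit 45054898686) (nat_lit 420) (nat_lit 4514770229) (nat_lit 52) (nat_lit 5) (nat_lit 56) (nat_lit 5) (nat_lit 57) (nat_lit 5) (nat_lit 403) (nat_lit 359) (nat_lit 102)))) (XT.nd (nat_lit 94) (nat_lit 336) (nat_lit 0) (XT.lf (nat_lit 0) (nat_lit 3284995213) (nat_lit 420) (nat_lit 20601363258) (nat_lit 84) (nat_lit 58759143164) (nat_lit 51) (nat_lit 5) (nat_lit 56) (nat_lit 5) (nat_lit 52) (nat_lit 5) (nat_lit 404) (nat_lit 359) (nat_lit 101)) (XT.nd (nat_lit 94) (nat_lit 0) (nat_lit 0) (XT.lf (nat_lit 0) (nat_lit 9407648584) (nat_lit 336) (nat_lit 1917902548) (nat_lit 420) (nat_lit 73117640571) (nat_lit 47) (nat_lit 5) (nat_lit 51) (nat_lit 5) (nat_lit 52) (nat_lit 5) (nat_lit 405) (nat_lit 359) (nat_lit 100)) (XT.lf (nat_lit 0) (nat_lit 20037722839) (nat_lit 420) (nat_lit 45714814125) (nat_lit 84) (nat_lit 20530981600)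 (nat_lit 47) (nat_lit 5) (nat_lit 52) (nat_lit 5) (nat_lit 48) (nat_lit 5) (nat_lit 406) (nat_lit 359) (nat_lit 99)))))) (XT.nd (nat_lit 564) (nat_lit 840) (nat_lit 0) (XT.nd (nat_lit 282) (nat_lit 252) (nat_lit 0) (XT.nd (nat_lit 94) (nat_lit 336) (nat_lit 0) (XT.lf (nat_lit 0) (nat_lit 29039067096) (nat_lit 420) (nat_lit 15505426292) (nat_lit 84) (nat_lit 43635811689) (nat_lit 47) (nat_lit 5) (nat_lit 52) (nat_lit 5) (nat_lit 48) (nat_lit 5) (nat_lit 407) (nat_lit 359) (nat_lit 98)) (XT.nd (nat_lit 94) (nat_lit 0) (nat_lit 0) (XT.lf (nat_lit 0) (nat_lit 15961390982) (nat_lit 336) (nat_lit 22515896263) (nat_lit 420) (nat_lit 51653713293) (nat_lit 43) (nat_lit 5) (nat_lit 47) (nat_lit 5) (nat_lit 48) (nat_lit 5) (nat_lit 408) (nat_lit 359) (nat_lit 97)) (XT.lf (nat_lit 0) (nat_lit 48373035227) (nat_lit 420) (nat_lit 43409016223) (nat_lit 84) (nat_lit 355004261) (nat_lit 43) (nat_lit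 5) (nat_lit 48) (nat_lit 5) (nat_lit 44) (nat_lit 5) (nat_lit 409) (nat_lit 359) (nat_lit 96)))) (XT.nd (nat_lit 94) (nat_lit 252) (nat_lit 0) (XT.lf (nat_lit 0) (nat_lit 58805353619) (nat_lit 420) (nat_lit 11925766193) (nat_lit 84) (nat_lit 23467056254) (nat_lit 43) (nat_lit 5) (nat_lit 48) (nat_lit 5) (nat_lit 44) (nat_lit 5) (nat_lit 410) (nat_lit 359) (nat_lit 95)) (XT.nd (nat_lit 94) (nat_lit 0) (nat_lit 0) (XT.lf (nat_lit 0) (nat_lit 20955044137) (nat_lit 252) (nat_lit 48813438451) (nat_lit 336) (nat_lit 26548280198) (nat_lit 40) (nat_lit 5) (nat_lit 43) (nat_lit 5) (nat_lit 44) (nat_lit 5) (nat_lit 411) (nat_lit 359) (nat_lit 94)) (XT.lf (nat_lit 0) (nat_lit 55107367930) (nat_lit 252) (nat_lit 26088121243) (nat_lit 336) (nat_lit 17301693144) (nat_lit 40) (nat_lit 5) (nat_lit 43) (nat_lit 5) (nat_lit 44) (nat_lit 5) (nat_lit 412) (nat_lit 359) (nat_lit 93))))) (XT.nd (nat_lit 282)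 (nat_lit 504) (nat_lit 0) (XT.nd (nat_lit 94) (nat_lit 336) (nat_lit 0) (XT.lf (nat_lit 0) (nat_lit 90317820518) (nat_lit 252) (nat_lit 2658466351) (nat_lit 336) (nat_lit 7768923039) (nat_lit 40) (nat_lit 5) (nat_lit 43) (nat_lit 5) (nat_lit 44) (nat_lit 5) (nat_lit 413) (nat_lit 359) (nat_lit 92)) (XT.nd (nat_lit 94) (nat_lit 0) (nat_lit 0) (XT.lf (nat_lit 0) (nat_lit 2471614957) (nat_lit 336) (nat_lit 79251022041) (nat_lit 84) (nat_lit 21325591154) (nat_lit 36) (nat_lit 5) (nat_lit 40) (nat_lit 5) (nat_lit 37) (nat_lit 5) (nat_lit 414) (nat_lit 359) (nat_lit 91)) (XT.lf (nat_lit 0) (nat_lit 13004942106) (nat_lit 336) (nat_lit 46223800141) (nat_lit 84) (nat_lit 46187197592) (nat_lit 36) (nat_lit 5) (nat_lit 40) (nat_lit 5) (nat_lit 37) (nat_lit 5) (nat_lit 415) (nat_lit 359) (nat_lit 90)))) (XT.nd (nat_lit 376) (nat_lit 504) (nat_lit 0) (XT.lf (nat_lit 0) (nat_lit 23864383077) (nat_lit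 336) (nat_lit 12173309182) (nat_lit 84) (nat_lit 71819372412) (nat_lit 36) (nat_lit 5) (nat_lit 40) (nat_lit 5) (nat_lit 37) (nat_lit 5) (nat_lit 416) (nat_lit 359) (nat_lit 89)) (XT.nd (nat_lit 48598) (nat_lit 0) (nat_lit 7056) (XT.lf (nat_lit 0) (nat_lit 19058909907) (nat_lit 252) (nat_lit 53916749569) (nat_lit 336) (nat_lit 45358254763) (nat_lit 30) (nat_lit 5) (nat_lit 33) (nat_lit 5) (nat_lit 34) (nat_lit 5) (nat_lit 420) (nat_lit 359) (nat_lit 85)) (XT.lf (nat_lit 0) (nat_lit 4078663969) (nat_lit 0) (nat_lit 4078663969) (nat_lit 1092) (nat_lit 10477693778) (nat_lit 114) (nat_lit 5) (nat_lit 114) (nat_lit 3) (nat_lit 127) (nat_lit 3) (nat_lit 360) (nat_lit 360) (nat_lit 144))))))))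
noncomputable def xc224 : XT := (XT.nd (nat_lit 2162) (nat_lit 3864) (nat_lit 0) (XT.nd (nat_lit 1034) (nat_lit 1764) (nat_lit 0) (XT.nd (nat_lit 470) (nat_lit 0) (nat_lit 168) (XT.nd (nat_lit 188) (nat_lit 0) (nat_lit 0) (XT.nd (nat_lit 94) (nat_lit 0) (nat_lit 0) (XT.lf (nat_lit 0) (nat_lit 16671663631) (nat_lit 1092) (nat_lit 14935032370) (nat_lit 1176) (nat_lit 6237651725) (nat_lit 114) (nat_lit 5) (nat_lit 127) (nat_lit 3) (nat_lit 128) (nat_lit 5) (nat_lit 361) (nat_lit 360) (nat_lit 143)) (XT.lf (nat_lit 0) (nat_lit 17121525783) (nat_lit 1092) (nat_lit 402162557) (nat_lit 1176) (nat_lit 20910237888) (nat_lit 114) (nat_lit 5) (nat_lit 127) (nat_lit 3) (nat_lit 128) (nat_lit 5) (nat_lit 362) (nat_lit 360) (nat_lit 142))) (XT.nd (nat_lit 94) (nat_lit 0) (nat_lit 84) (XT.lf (nat_lit 84) (nat_lit 14880163943) (nat_lit 0) (nat_lit 2851189071) (nat_lit 1176) (nat_lit 21305908041) (nat_lit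 115) (nat_lit 5) (nat_lit 114) (nat_lit 5) (nat_lit 128) (nat_lit 5) (nat_lit 363) (nat_lit 360) (nat_lit 141)) (XT.nd (nat_lit 94) (nat_lit 0) (nat_lit 0) (XT.lf (nat_lit 0) (nat_lit 18484559228) (nat_lit 1092) (nat_lit 9137141462) (nat_lit 1176) (nat_lit 12033745682) (nat_lit 115) (nat_lit 5) (nat_lit 128) (nat_lit 5) (nat_lit 129) (nat_lit 5) (nat_lit 364) (nat_lit 360) (nat_lit 140)) (XT.lf (nat_lit 84) (nat_lit 6448301734) (nat_lit 0) (nat_lit 12904441181) (nat_lit 1176) (nat_lit 20937217685) (nat_lit 116) (nat_lit 5) (nat_lit 115) (nat_lit 5) (nat_lit 129) (nat_lit 5) (nat_lit 365) (nat_lit 360) (nat_lit 139))))) (XT.nd (nat_lit 282) (nat_lit 0) (nat_lit 84) (XT.nd (nat_lit 94) (nat_lit 0) (nat_lit 0) (XT.lf (nat_lit 0) (nat_lit 20365239413) (nat_lit 1092) (nat_lit 18255013365) (nat_lit 1176) (nat_lit 2320258086) (nat_lit 116) (nat_lit 5) (nat_lit 129) (nat_lit 5) (nat_lit 130)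 (nat_lit 5) (nat_lit 366) (nat_lit 360) (nat_lit 138)) (XT.nd (nat_lit 94) (nat_lit 0) (nat_lit 0) (XT.lf (nat_lit 0) (nat_lit 21539690605) (nat_lit 1092) (nat_lit 2318072462) (nat_lit 1176) (nat_lit 17749422838) (nat_lit 116) (nat_lit 5) (nat_lit 129) (nat_lit 5) (nat_lit 130) (nat_lit 5) (nat_lit 367) (nat_lit 360) (nat_lit 137)) (XT.lf (nat_lit 84) (nat_lit 14402204725) (nat_lit 0) (nat_lit 8489844476) (nat_lit 1176) (nat_lit 19398097333) (nat_lit 117) (nat_lit 5) (nat_lit 116) (nat_lit 5) (nat_lit 130) (nat_lit 5) (nat_lit 368) (nat_lit 360) (nat_lit 136)))) (XT.nd (nat_lit 94) (nat_lit 0) (nat_lit 0) (XT.lf (nat_lit 0) (nat_lit 24382396661) (nat_lit 1092) (nat_lit 11377704707) (nat_lit 1176) (nat_lit 7231204528) (nat_lit 117) (nat_lit 5) (nat_lit 130) (nat_lit 5) (nat_lit 131) (nat_lit 5) (nat_lit 369) (nat_lit 360) (nat_lit 135)) (XT.nd (nat_lit 94) (nat_lit 0) (nat_lit 0) (XT.lf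 (nat_lit 84) (nat_lit 5670878492) (nat_lit 0) (nat_lit 20389858501) (nat_lit 1176) (nat_lit 17649073488) (nat_lit 118) (nat_lit 5) (nat_lit 117) (nat_lit 5) (nat_lit 131) (nat_lit 5) (nat_lit 370) (nat_lit 360) (nat_lit 134)) (XT.lf (nat_lit 84) (nat_lit 23488282520) (nat_lit 0) (nat_lit 4420318543) (nat_lit 1176) (nat_lit 16538349989) (nat_lit 118) (nat_lit 5) (nat_lit 117) (nat_lit 5) (nat_lit 131) (nat_lit 5) (nat_lit 371) (nat_lit 360) (nat_lit 133)))))) (XT.nd (nat_lit 564) (nat_lit 2100) (nat_lit 0) (XT.nd (nat_lit 282) (nat_lit 0) (nat_lit 84) (XT.nd (nat_lit 94) (nat_lit 0) (nat_lit 0) (XT.lf (nat_lit 0) (nat_lit 29932006592) (nat_lit 1092) (nat_lit 3469303799) (nat_lit 1176) (nat_lit 11801971154) (nat_lit 118) (nat_lit 5) (nat_lit 131) (nat_lit 5) (nat_lit 132) (nat_lit 5) (nat_lit 372) (nat_lit 360) (nat_lit 132)) (XT.nd (nat_lit 94) (nat_lit 0) (nat_lit 0) (XT.lf (nat_lit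 84) (nat_lit 14814624523) (nat_lit 0) (nat_lit 17394499265) (nat_lit 1176) (nat_lit 13768018345) (nat_lit 119) (nat_lit 5) (nat_lit 118) (nat_lit 5) (nat_lit 132) (nat_lit 5) (nat_lit 373) (nat_lit 360) (nat_lit 131)) (XT.lf (nat_lit 84) (nat_lit 33738032015) (nat_lit 0) (nat_lit 853852782) (nat_lit 1176) (nat_lit 12182025235) (nat_lit 119) (nat_lit 5) (nat_lit 118) (nat_lit 5) (nat_lit 132) (nat_lit 5) (nat_lit 374) (nat_lit 360) (nat_lit 130)))) (XT.nd (nat_lit 94) (nat_lit 0) (nat_lit 0) (XT.lf (nat_lit 84) (nat_lit 5604008445) (nat_lit 0) (nat_lit 31659675391) (nat_lit 1176) (nat_lit 10325027710) (nat_lit 120) (nat_lit 5) (nat_lit 119) (nat_lit 5) (nat_lit 133) (nat_lit 5) (nat_lit 375) (nat_lit 360) (nat_lit 129)) (XT.nd (nat_lit 94) (nat_lit 0) (nat_lit 84) (XT.lf (nat_lit 84) (nat_lit 25088295988) (nat_lit 0) (nat_lit 15073628410) (nat_lit 1176) (nat_lit 8262399450) (nat_lit 120)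 (nat_lit 5) (nat_lit 119) (nat_lit 5) (nat_lit 133) (nat_lit 5) (nat_lit 376) (nat_lit 360) (nat_lit 128)) (XT.lf (nat_lit 0) (nat_lit 43169052918) (nat_lit 1092) (nat_lit 4130237000) (nat_lit 84) (nat_lit 1985963803) (nat_lit 120) (nat_lit 5) (nat_lit 133) (nat_lit 5) (nat_lit 121) (nat_lit 5) (nat_lit 377) (nat_lit 360) (nat_lit 127))))) (XT.nd (nat_lit 282) (nat_lit 588) (nat_lit 0) (XT.nd (nat_lit 94) (nat_lit 588) (nat_lit 0) (XT.lf (nat_lit 0) (nat_lit 15834941817) (nat_lit 1092) (nat_lit 30744683382) (nat_lit 1176) (nat_lit 3583634107) (nat_lit 107) (nat_lit 5) (nat_lit 120) (nat_lit 5) (nat_lit 121) (nat_lit 5) (nat_lit 378) (nat_lit 360) (nat_lit 126)) (XT.nd (nat_lit 94) (nat_lit 588) (nat_lit 0) (XT.lf (nat_lit 0) (nat_lit 36505746176) (nat_lit 1092) (nat_lit 13632283168) (nat_lit 1176) (nat_lit 929152170) (nat_lit 107) (nat_lit 5) (nat_lit 120) (nat_lit 5) (nat_lit 121) (nat_lit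 5) (nat_lit 379) (nat_lit 360) (nat_lit 125)) (XT.lf (nat_lit 0) (nat_lit 1869493960) (nat_lit 588) (nat_lit 46118669727) (nat_lit 84) (nat_lit 4007362059) (nat_lit 100) (nat_lit 5) (nat_lit 107) (nat_lit 5) (nat_lit 101) (nat_lit 5) (nat_lit 380) (nat_lit 360) (nat_lit 124)))) (XT.nd (nat_lit 94) (nat_lit 588) (nat_lit 0) (XT.lf (nat_lit 0) (nat_lit 5027602040) (nat_lit 588) (nat_lit 25841869483) (nat_lit 84) (nat_lit 22073833746) (nat_lit 100) (nat_lit 5) (nat_lit 107) (nat_lit 5) (nat_lit 101) (nat_lit 5) (nat_lit 381) (nat_lit 360) (nat_lit 123)) (XT.nd (nat_lit 94) (nat_lit 588) (nat_lit 0) (XT.lf (nat_lit 0) (nat_lit 8282672935) (nat_lit 588) (nat_lit 4937340044) (nat_lit 84) (nat_lit 40700485326) (nat_lit 100) (nat_lit 5) (nat_lit 107) (nat_lit 5) (nat_lit 101) (nat_lit 5) (nat_lit 382) (nat_lit 360) (nat_lit 122)) (XT.lf (nat_lit 0) (nat_lit 11857036093) (nat_lit 672) (nat_lit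 38017860765) (nat_lit 84) (nat_lit 5046320686) (nat_lit 93) (nat_lit 5) (nat_lit 101) (nat_lit 5) (nat_lit 94) (nat_lit 5) (nat_lit 383) (nat_lit 360) (nat_lit 121))))))) (XT.nd (nat_lit 1128) (nat_lit 1512) (nat_lit 0) (XT.nd (nat_lit 564) (nat_lit 1344) (nat_lit 0) (XT.nd (nat_lit 282) (nat_lit 504) (nat_lit 0) (XT.nd (nat_lit 94) (nat_lit 504) (nat_lit 0) (XT.lf (nat_lit 0) (nat_lit 15728586610) (nat_lit 672) (nat_lit 16562163034) (nat_lit 84) (nat_lit 23656434653) (nat_lit 93) (nat_lit 5) (nat_lit 101) (nat_lit 5) (nat_lit 94) (nat_lit 5) (nat_lit 384) (nat_lit 360) (nat_lit 120)) (XT.nd (nat_lit 94) (nat_lit 0) (nat_lit 0) (XT.lf (nat_lit 0) (nat_lit 5672118342) (nat_lit 504) (nat_lit 14103441409) (nat_lit 588) (nat_lit 37227681695) (nat_lit 87) (nat_lit 5) (nat_lit 93) (nat_lit 5) (nat_lit 94) (nat_lit 5) (nat_lit 385) (nat_lit 360) (nat_lit 119)) (XT.lf (nat_lit 0) (nat_lit 24167892299)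 (nat_lit 588) (nat_lit 29188623836) (nat_lit 84) (nat_lit 4728706113) (nat_lit 87) (nat_lit 5) (nat_lit 94) (nat_lit 5) (nat_lit 88) (nat_lit 5) (nat_lit 386) (nat_lit 360) (nat_lit 118)))) (XT.nd (nat_lit 94) (nat_lit 504) (nat_lit 0) (XT.lf (nat_lit 0) (nat_lit 28839812227) (nat_lit 588) (nat_lit 6504771313) (nat_lit 84) (nat_lit 23851717531) (nat_lit 87) (nat_lit 5) (nat_lit 94) (nat_lit 5) (nat_lit 88) (nat_lit 5) (nat_lit 387) (nat_lit 360) (nat_lit 117)) (XT.nd (nat_lit 94) (nat_lit 0) (nat_lit 0) (XT.lf (nat_lit 0) (nat_lit 17228604053) (nat_lit 504) (nat_lit 16598072203) (nat_lit 588) (nat_lit 26509876239) (nat_lit 81) (nat_lit 5) (nat_lit 87) (nat_lit 5) (nat_lit 88) (nat_lit 5) (nat_lit 388) (nat_lit 360) (nat_lit 116)) (XT.lf (nat_lit 0) (nat_lit 39063022478) (nat_lit 588) (nat_lit 19703020564) (nat_lit 84) (nat_lit 2743169727) (nat_lit 81) (nat_lit 5) (nat_lit 88) (nat_lit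 5) (nat_lit 82) (nat_lit 5) (nat_lit 389) (nat_lit 360) (nat_lit 115))))) (XT.nd (nat_lit 282) (nat_lit 924) (nat_lit 0) (XT.nd (nat_lit 94) (nat_lit 0) (nat_lit 0) (XT.lf (nat_lit 0) (nat_lit 4344442910) (nat_lit 420) (nat_lit 40329353335) (nat_lit 504) (nat_lit 18037856691) (nat_lit 76) (nat_lit 5) (nat_lit 81) (nat_lit 5) (nat_lit 82) (nat_lit 5) (nat_lit 390) (nat_lit 360) (nat_lit 114)) (XT.nd (nat_lit 94) (nat_lit 0) (nat_lit 0) (XT.lf (nat_lit 0) (nat_lit 29554290645) (nat_lit 420) (nat_lit 21109131625) (nat_lit 504) (nat_lit 13281596484) (nat_lit 76) (nat_lit 5) (nat_lit 81) (nat_lit 5) (nat_lit 82) (nat_lit 5) (nat_lit 391) (nat_lit 360) (nat_lit 113)) (XT.lf (nat_lit 0) (nat_lit 55544886346) (nat_lit 420) (nat_lit 1293121779) (nat_lit 504) (nat_lit 8378635462) (nat_lit 76) (nat_lit 5) (nat_lit 81) (nat_lit 5) (nat_lit 82) (nat_lit 5) (nat_lit 392) (nat_lit 360) (nat_lit 112))))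 (XT.nd (nat_lit 94) (nat_lit 504) (nat_lit 0) (XT.lf (nat_lit 0) (nat_lit 15944139256) (nat_lit 420) (nat_lit 47607180615) (nat_lit 504) (nat_lit 2965604519) (nat_lit 71) (nat_lit 5) (nat_lit 76) (nat_lit 5) (nat_lit 77) (nat_lit 5) (nat_lit 393) (nat_lit 360) (nat_lit 111)) (XT.nd (nat_lit 94) (nat_lit 420) (nat_lit 0) (XT.lf (nat_lit 0) (nat_lit 2677057712) (nat_lit 504) (nat_lit 25336188011) (nat_lit 84) (nat_lit 39839916047) (nat_lit 70) (nat_lit 5) (nat_lit 76) (nat_lit 5) (nat_lit 71) (nat_lit 5) (nat_lit 394) (nat_lit 360) (nat_lit 110)) (XT.lf (nat_lit 0) (nat_lit 665068300) (nat_lit 420) (nat_lit 7773896963) (nat_lit 504) (nat_lit 60790735416) (nat_lit 65) (nat_lit 5) (nat_lit 70) (nat_lit 5) (nat_lit 71) (nat_lit 5) (nat_lit 395) (nat_lit 360) (nat_lit 109)))))) (XT.nd (nat_lit 564) (nat_lit 756) (nat_lit 0) (XT.nd (nat_lit 282) (nat_lit 336) (nat_lit 0) (XT.nd (nat_lit 94)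 (nat_lit 420) (nat_lit 0) (XT.lf (nat_lit 0) (nat_lit 14775877433) (nat_lit 504) (nat_lit 42764582370) (nat_lit 84) (nat_lit 13096166599) (nat_lit 65) (nat_lit 5) (nat_lit 71) (nat_lit 5) (nat_lit 66) (nat_lit 5) (nat_lit 396) (nat_lit 360) (nat_lit 108)) (XT.nd (nat_lit 94) (nat_lit 420) (nat_lit 0) (XT.lf (nat_lit 0) (nat_lit 21388102362) (nat_lit 504) (nat_lit 16244974707) (nat_lit 84) (nat_lit 34451646828) (nat_lit 65) (nat_lit 5) (nat_lit 71) (nat_lit 5) (nat_lit 66) (nat_lit 5) (nat_lit 397) (nat_lit 360) (nat_lit 107)) (XT.lf (nat_lit 0) (nat_lit 11324184767) (nat_lit 420) (nat_lit 16992837862) (nat_lit 504) (nat_lit 45257228515) (nat_lit 60) (nat_lit 5) (nat_lit 65) (nat_lit 5) (nat_lit 66) (nat_lit 5) (nat_lit 398) (nat_lit 360) (nat_lit 106)))) (XT.nd (nat_lit 94) (nat_lit 336) (nat_lit 0) (XT.lf (nat_lit 0) (nat_lit 35673957688) (nat_lit 504) (nat_lit 35057314112) (nat_lit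 84) (nat_lit 4372074048) (nat_lit 60) (nat_lit 5) (nat_lit 66) (nat_lit 5) (nat_lit 61) (nat_lit 5) (nat_lit 399) (nat_lit 360) (nat_lit 105)) (XT.nd (nat_lit 94) (nat_lit 336) (nat_lit 0) (XT.lf (nat_lit 0) (nat_lit 43432162600) (nat_lit 504) (nat_lit 7196087164) (nat_lit 84) (nat_lit 26046225194) (nat_lit 60) (nat_lit 5) (nat_lit 66) (nat_lit 5) (nat_lit 61) (nat_lit 5) (nat_lit 400) (nat_lit 360) (nat_lit 104)) (XT.lf (nat_lit 0) (nat_lit 21970818125) (nat_lit 336) (nat_lit 29677432882) (nat_lit 420) (nat_lit 26639321078) (nat_lit 56) (nat_lit 5) (nat_lit 60) (nat_lit 5) (nat_lit 61) (nat_lit 5) (nat_lit 401) (nat_lit 360) (nat_lit 103))))) (XT.nd (nat_lit 282) (nat_lit 420) (nat_lit 0) (XT.nd (nat_lit 94) (nat_lit 336) (nat_lit 0) (XT.lf (nat_lit 0) (nat_lit 52193774943) (nat_lit 336) (nat_lit 7999812068) (nat_lit 420) (nat_lit 19754778911) (nat_lit 56) (nat_lit 5) (nat_lit 60) (nat_lit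 5) (nat_lit 61) (nat_lit 5) (nat_lit 402) (nat_lit 360) (nat_lit 102)) (XT.nd (nat_lit 94) (nat_lit 0) (nat_lit 0) (XT.lf (nat_lit 0) (nat_lit 1581844747) (nat_lit 336) (nat_lit 67579480049) (nat_lit 420) (nat_lit 12494438847) (nat_lit 52) (nat_lit 5) (nat_lit 56) (nat_lit 5) (nat_lit 57) (nat_lit 5) (nat_lit 403) (nat_lit 360) (nat_lit 101)) (XT.lf (nat_lit 0) (nat_lit 32331924900) (nat_lit 336) (nat_lit 46445291660) (nat_lit 420) (nat_lit 4627400969) (nat_lit 52) (nat_lit 5) (nat_lit 56) (nat_lit 5) (nat_lit 57) (nat_lit 5) (nat_lit 404) (nat_lit 360) (nat_lit 100)))) (XT.nd (nat_lit 94) (nat_lit 336) (nat_lit 0) (XT.lf (nat_lit 0) (nat_lit 3412801506) (nat_lit 420) (nat_lit 21207643799) (nat_lit 84) (nat_lit 60586187218) (nat_lit 51) (nat_lit 5) (nat_lit 56) (nat_lit 5) (nat_lit 52) (nat_lit 5) (nat_lit 405) (nat_lit 360) (nat_lit 99)) (XT.nd (nat_lit 94) (nat_lit 0) (nat_lit 0) (XT.lf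 (nat_lit 0) (nat_lit 9731319777) (nat_lit 336) (nat_lit 1970831757) (nat_lit 420) (nat_lit 75357916046) (nat_lit 47) (nat_lit 5) (nat_lit 51) (nat_lit 5) (nat_lit 52) (nat_lit 5) (nat_lit 406) (nat_lit 360) (nat_lit 98)) (XT.lf (nat_lit 0) (nat_lit 20683696372) (nat_lit 420) (nat_lit 47100128150) (nat_lit 84) (nat_lit 21173644057) (nat_lit 47) (nat_lit 5) (nat_lit 52) (nat_lit 5) (nat_lit 48) (nat_lit 5) (nat_lit 407) (nat_lit 360) (nat_lit 97))))))))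
noncomputable def xc225 : XT := (XT.nd (nat_lit 51230) (nat_lit 0) (nat_lit 2016) (XT.nd (nat_lit 50102) (nat_lit 0) (nat_lit 6552) (XT.nd (nat_lit 564) (nat_lit 336) (nat_lit 0) (XT.nd (nat_lit 282) (nat_lit 252) (nat_lit 0) (XT.nd (nat_lit 94) (nat_lit 336) (nat_lit 0) (XT.lf (nat_lit 0) (nat_lit 29963336494) (nat_lit 420) (nat_lit 15955206812) (nat_lit 84) (nat_lit 44994537397) (nat_lit 47) (nat_lit 5) (nat_lit 52) (nat_lit 5) (nat_lit 48) (nat_lit 5) (nat_lit 408) (nat_lit 360) (nat_lit 96)) (XT.nd (nat_lit 94) (nat_lit 0) (nat_lit 0) (XT.lf (nat_lit 0) (nat_lit 16486769087) (nat_lit 336) (nat_lit 23206952305) (nat_lit 420) (nat_lit 53230541399) (nat_lit 43) (nat_lit 5) (nat_lit 47) (nat_lit 5) (nat_lit 48) (nat_lit 5) (nat_lit 409) (nat_lit 360) (nat_lit 95)) (XT.lf (nat_lit 0) (nat_lit 49895593554) (nat_lit 420) (nat_lit 44724332064) (nat_lit 84) (nat_lit 372602004) (nat_lit 43)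 (nat_lit 5) (nat_lit 48) (nat_lit 5) (nat_lit 44) (nat_lit 5) (nat_lit 410) (nat_lit 360) (nat_lit 94)))) (XT.nd (nat_lit 94) (nat_lit 252) (nat_lit 0) (XT.lf (nat_lit 0) (nat_lit 60650622427) (nat_lit 420) (nat_lit 12266014255) (nat_lit 84) (nat_lit 24200929384) (nat_lit 43) (nat_lit 5) (nat_lit 48) (nat_lit 5) (nat_lit 44) (nat_lit 5) (nat_lit 411) (nat_lit 360) (nat_lit 93)) (XT.nd (nat_lit 94) (nat_lit 0) (nat_lit 0) (XT.lf (nat_lit 0) (nat_lit 21633803034) (nat_lit 252) (nat_lit 50319423958) (nat_lit 336) (nat_lit 27348615671) (nat_lit 40) (nat_lit 5) (nat_lit 43) (nat_lit 5) (nat_lit 44) (nat_lit 5) (nat_lit 412) (nat_lit 360) (nat_lit 92)) (XT.lf (nat_lit 0) (nat_lit 56843972310) (nat_lit 252) (nat_lit 26889839340) (nat_lit 336) (nat_lit 17816065794) (nat_lit 40) (nat_lit 5) (nat_lit 43) (nat_lit 5) (nat_lit 44) (nat_lit 5) (nat_lit 413) (nat_lit 360) (nat_lit 91))))) (XT.nd (nat_lit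 49256) (nat_lit 0) (nat_lit 6552) (XT.nd (nat_lit 94) (nat_lit 336) (nat_lit 0) (XT.lf (nat_lit 0) (nat_lit 93145098729) (nat_lit 252) (nat_lit 2734076032) (nat_lit 336) (nat_lit 7988440703) (nat_lit 40) (nat_lit 5) (nat_lit 43) (nat_lit 5) (nat_lit 44) (nat_lit 5) (nat_lit 414) (nat_lit 360) (nat_lit 90)) (XT.nd (nat_lit 94) (nat_lit 0) (nat_lit 0) (XT.lf (nat_lit 0) (nat_lit 2568840767) (nat_lit 336) (nat_lit 81679556527) (nat_lit 84) (nat_lit 21993633870) (nat_lit 36) (nat_lit 5) (nat_lit 40) (nat_lit 5) (nat_lit 37) (nat_lit 5) (nat_lit 415) (nat_lit 360) (nat_lit 89)) (XT.lf (nat_lit 0) (nat_lit 13428081486) (nat_lit 336) (nat_lit 47629340082) (nat_lit 84) (nat_lit 47625741154) (nat_lit 36) (nat_lit 5) (nat_lit 40) (nat_lit 5) (nat_lit 37) (nat_lit 5) (nat_lit 416) (nat_lit 360) (nat_lit 88)))) (XT.nd (nat_lit 94) (nat_lit 0) (nat_lit 0) (XT.lf (nat_lit 0) (nat_lit 4225389272) (nat_lit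 0) (nat_lit 4225389272) (nat_lit 1092) (nat_lit 10760519257) (nat_lit 114) (nat_lit 5) (nat_lit 114) (nat_lit 3) (nat_lit 127) (nat_lit 3) (nat_lit 361) (nat_lit 361) (nat_lit 142)) (XT.nd (nat_lit 94) (nat_lit 0) (nat_lit 0) (XT.lf (nat_lit 0) (nat_lit 17266801777) (nat_lit 1092) (nat_lit 15355540089) (nat_lit 1176) (nat_lit 6392458331) (nat_lit 114) (nat_lit 5) (nat_lit 127) (nat_lit 3) (nat_lit 128) (nat_lit 5) (nat_lit 362) (nat_lit 361) (nat_lit 141)) (XT.lf (nat_lit 0) (nat_lit 17728254841) (nat_lit 1092) (nat_lit 373428544) (nat_lit 1176) (nat_lit 21521054101) (nat_lit 114) (nat_lit 5) (nat_lit 127) (nat_lit 3) (nat_lit 128) (nat_lit 5) (nat_lit 363) (nat_lit 361) (nat_lit 140)))))) (XT.nd (nat_lit 564) (nat_lit 0) (nat_lit 252) (XT.nd (nat_lit 282) (nat_lit 0) (nat_lit 168) (XT.nd (nat_lit 94) (nat_lit 0) (nat_lit 84) (XT.lf (nat_lit 84) (nat_lit 15382232954) (nat_lit 0) (nat_lit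 2972874334) (nat_lit 1176) (nat_lit 21889735257) (nat_lit 115) (nat_lit 5) (nat_lit 114) (nat_lit 5) (nat_lit 128) (nat_lit 5) (nat_lit 364) (nat_lit 361) (nat_lit 139)) (XT.nd (nat_lit 94) (nat_lit 0) (nat_lit 0) (XT.lf (nat_lit 0) (nat_lit 19129115002) (nat_lit 1092) (nat_lit 9378018592) (nat_lit 1176) (nat_lit 12375145326) (nat_lit 115) (nat_lit 5) (nat_lit 128) (nat_lit 5) (nat_lit 129) (nat_lit 5) (nat_lit 365) (nat_lit 361) (nat_lit 138)) (XT.lf (nat_lit 84) (nat_lit 6690144341) (nat_lit 0) (nat_lit 13332333255) (nat_lit 1176) (nat_lit 21514047352) (nat_lit 116) (nat_lit 5) (nat_lit 115) (nat_lit 5) (nat_lit 129) (nat_lit 5) (nat_lit 366) (nat_lit 361) (nat_lit 137)))) (XT.nd (nat_lit 94) (nat_lit 0) (nat_lit 0) (XT.lf (nat_lit 0) (nat_lit 21063994746) (nat_lit 1092) (nat_lit 18777615188) (nat_lit 1176) (nat_lit 2365713542) (nat_lit 116) (nat_lit 5) (nat_lit 129) (nat_lit 5) (nat_lit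 130) (nat_lit 5) (nat_lit 367) (nat_lit 361) (nat_lit 136)) (XT.nd (nat_lit 94) (nat_lit 0) (nat_lit 0) (XT.lf (nat_lit 0) (nat_lit 22272826359) (nat_lit 1092) (nat_lit 2347931164) (nat_lit 1176) (nat_lit 18273978376) (nat_lit 116) (nat_lit 5) (nat_lit 129) (nat_lit 5) (nat_lit 130) (nat_lit 5) (nat_lit 368) (nat_lit 361) (nat_lit 135)) (XT.lf (nat_lit 84) (nat_lit 14890249388) (nat_lit 0) (nat_lit 8775304526) (nat_lit 1176) (nat_lit 19933369947) (nat_lit 117) (nat_lit 5) (nat_lit 116) (nat_lit 5) (nat_lit 130) (nat_lit 5) (nat_lit 369) (nat_lit 361) (nat_lit 134))))) (XT.nd (nat_lit 282) (nat_lit 0) (nat_lit 84) (XT.nd (nat_lit 94) (nat_lit 0) (nat_lit 0) (XT.lf (nat_lit 0) (nat_lit 25199967948) (nat_lit 1092) (nat_lit 11687722474) (nat_lit 1176) (nat_lit 7434202051) (nat_lit 117) (nat_lit 5) (nat_lit 130) (nat_lit 5) (nat_lit 131) (nat_lit 5) (nat_lit 370) (nat_lit 361) (nat_lit 133))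 (XT.nd (nat_lit 94) (nat_lit 0) (nat_lit 0) (XT.lf (nat_lit 84) (nat_lit 5888934595) (nat_lit 0) (nat_lit 21039965748) (nat_lit 1176) (nat_lit 18133821824) (nat_lit 118) (nat_lit 5) (nat_lit 117) (nat_lit 5) (nat_lit 131) (nat_lit 5) (nat_lit 371) (nat_lit 361) (nat_lit 132)) (XT.lf (nat_lit 84) (nat_lit 24257407513) (nat_lit 0) (nat_lit 4574828179) (nat_lit 1176) (nat_lit 16990541319) (nat_lit 118) (nat_lit 5) (nat_lit 117) (nat_lit 5) (nat_lit 131) (nat_lit 5) (nat_lit 372) (nat_lit 361) (nat_lit 131)))) (XT.nd (nat_lit 94) (nat_lit 0) (nat_lit 0) (XT.lf (nat_lit 0) (nat_lit 30916440595) (nat_lit 1092) (nat_lit 3534959725) (nat_lit 1176) (nat_lit 12151219668) (nat_lit 118) (nat_lit 5) (nat_lit 131) (nat_lit 5) (nat_lit 132) (nat_lit 5) (nat_lit 373) (nat_lit 361) (nat_lit 130)) (XT.nd (nat_lit 94) (nat_lit 0) (nat_lit 0) (XT.lf (nat_lit 84) (nat_lit 15315346252) (nat_lit 0) (nat_lit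 17947513451) (nat_lit 1176) (nat_lit 14137656829) (nat_lit 119) (nat_lit 5) (nat_lit 118) (nat_lit 5) (nat_lit 132) (nat_lit 5) (nat_lit 374) (nat_lit 361) (nat_lit 129)) (XT.lf (nat_lit 84) (nat_lit 34824132510) (nat_lit 0) (nat_lit 893692449) (nat_lit 1176) (nat_lit 12504216918) (nat_lit 119) (nat_lit 5) (nat_lit 118) (nat_lit 5) (nat_lit 132) (nat_lit 5) (nat_lit 375) (nat_lit 361) (nat_lit 128))))))) (XT.nd (nat_lit 1128) (nat_lit 2268) (nat_lit 0) (XT.nd (nat_lit 564) (nat_lit 1092) (nat_lit 0) (XT.nd (nat_lit 282) (nat_lit 1596) (nat_lit 0) (XT.nd (nat_lit 94) (nat_lit 0) (nat_lit 0) (XT.lf (nat_lit 84) (nat_lit 5819518836) (nat_lit 0) (nat_lit 32651605419) (nat_lit 1176) (nat_lit 10591025027) (nat_lit 120) (nat_lit 5) (nat_lit 119) (nat_lit 5) (nat_lit 133) (nat_lit 5) (nat_lit 376) (nat_lit 361) (nat_lit 127)) (XT.nd (nat_lit 94) (nat_lit 0) (nat_lit 84) (XT.lf (nat_lit 84) (nat_lit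 25906562872) (nat_lit 0) (nat_lit 15551075867) (nat_lit 1176) (nat_lit 8466081319) (nat_lit 120) (nat_lit 5) (nat_lit 119) (nat_lit 5) (nat_lit 133) (nat_lit 5) (nat_lit 377) (nat_lit 361) (nat_lit 126)) (XT.lf (nat_lit 0) (nat_lit 44556366155) (nat_lit 1092) (nat_lit 4217160501) (nat_lit 84) (nat_lit 2037867988) (nat_lit 120) (nat_lit 5) (nat_lit 133) (nat_lit 5) (nat_lit 121) (nat_lit 5) (nat_lit 378) (nat_lit 361) (nat_lit 125)))) (XT.nd (nat_lit 94) (nat_lit 588) (nat_lit 0) (XT.lf (nat_lit 0) (nat_lit 16366522618) (nat_lit 1092) (nat_lit 31705071774) (nat_lit 1176) (nat_lit 3645062668) (nat_lit 107) (nat_lit 5) (nat_lit 120) (nat_lit 5) (nat_lit 121) (nat_lit 5) (nat_lit 379) (nat_lit 361) (nat_lit 124)) (XT.nd (nat_lit 94) (nat_lit 588) (nat_lit 0) (XT.lf (nat_lit 0) (nat_lit 37676898222) (nat_lit 1092) (nat_lit 14061967561) (nat_lit 1176) (nat_lit 909785086) (nat_lit 107) (nat_lit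 5) (nat_lit 120) (nat_lit 5) (nat_lit 121) (nat_lit 5) (nat_lit 380) (nat_lit 361) (nat_lit 123)) (XT.lf (nat_lit 0) (nat_lit 1973568760) (nat_lit 588) (nat_lit 47506499461) (nat_lit 84) (nat_lit 4125729167) (nat_lit 100) (nat_lit 5) (nat_lit 107) (nat_lit 5) (nat_lit 101) (nat_lit 5) (nat_lit 381) (nat_lit 361) (nat_lit 122))))) (XT.nd (nat_lit 282) (nat_lit 504) (nat_lit 0) (XT.nd (nat_lit 94) (nat_lit 588) (nat_lit 0) (XT.lf (nat_lit 0) (nat_lit 5228191444) (nat_lit 588) (nat_lit 26602376722) (nat_lit 84) (nat_lit 22752437708) (nat_lit 100) (nat_lit 5) (nat_lit 107) (nat_lit 5) (nat_lit 101) (nat_lit 5) (nat_lit 382) (nat_lit 361) (nat_lit 121)) (XT.nd (nat_lit 94) (nat_lit 588) (nat_lit 0) (XT.lf (nat_lit 0) (nat_lit 8582824487) (nat_lit 588) (nat_lit 5051027348) (nat_lit 84) (nat_lit 41956686419) (nat_lit 100) (nat_lit 5) (nat_lit 107) (nat_lit 5) (nat_lit 101) (nat_lit 5) (nat_lit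 383) (nat_lit 361) (nat_lit 120)) (XT.lf (nat_lit 0) (nat_lit 12267040190) (nat_lit 672) (nat_lit 39155945573) (nat_lit 84) (nat_lit 5199328086) (nat_lit 93) (nat_lit 5) (nat_lit 101) (nat_lit 5) (nat_lit 94) (nat_lit 5) (nat_lit 384) (nat_lit 361) (nat_lit 119)))) (XT.nd (nat_lit 94) (nat_lit 504) (nat_lit 0) (XT.lf (nat_lit 0) (nat_lit 16257332812) (nat_lit 672) (nat_lit 17036338026) (nat_lit 84) (nat_lit 24386458674) (nat_lit 93) (nat_lit 5) (nat_lit 101) (nat_lit 5) (nat_lit 94) (nat_lit 5) (nat_lit 385) (nat_lit 361) (nat_lit 118)) (XT.nd (nat_lit 94) (nat_lit 0) (nat_lit 0) (XT.lf (nat_lit 0) (nat_lit 5886808681) (nat_lit 504) (nat_lit 14542101287) (nat_lit 588) (nat_lit 38340045138) (nat_lit 87) (nat_lit 5) (nat_lit 93) (nat_lit 5) (nat_lit 94) (nat_lit 5) (nat_lit 386) (nat_lit 361) (nat_lit 117)) (XT.lf (nat_lit 0) (nat_lit 24956178870) (nat_lit 588) (nat_lit 30054425674) (nat_lit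 84) (nat_lit 4873914900) (nat_lit 87) (nat_lit 5) (nat_lit 94) (nat_lit 5) (nat_lit 88) (nat_lit 5) (nat_lit 387) (nat_lit 361) (nat_lit 116)))))) (XT.nd (nat_lit 564) (nat_lit 1344) (nat_lit 0) (XT.nd (nat_lit 282) (nat_lit 420) (nat_lit 0) (XT.nd (nat_lit 94) (nat_lit 504) (nat_lit 0) (XT.lf (nat_lit 0) (nat_lit 29771753206) (nat_lit 588) (nat_lit 6668547739) (nat_lit 84) (nat_lit 24589781199) (nat_lit 87) (nat_lit 5) (nat_lit 94) (nat_lit 5) (nat_lit 88) (nat_lit 5) (nat_lit 388) (nat_lit 361) (nat_lit 115)) (XT.nd (nat_lit 94) (nat_lit 0) (nat_lit 0) (XT.lf (nat_lit 0) (nat_lit 17800178848) (nat_lit 504) (nat_lit 17112263279) (nat_lit 588) (nat_lit 27293266922) (nat_lit 81) (nat_lit 5) (nat_lit 87) (nat_lit 5) (nat_lit 88) (nat_lit 5) (nat_lit 389) (nat_lit 361) (nat_lit 114)) (XT.lf (nat_lit 0) (nat_lit 40310001754) (nat_lit 588) (nat_lit 20276218490) (nat_lit 84) (nat_lit 2828539828)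 (nat_lit 81) (nat_lit 5) (nat_lit 88) (nat_lit 5) (nat_lit 82) (nat_lit 5) (nat_lit 390) (nat_lit 361) (nat_lit 113)))) (XT.nd (nat_lit 94) (nat_lit 0) (nat_lit 0) (XT.lf (nat_lit 0) (nat_lit 4516335729) (nat_lit 420) (nat_lit 41577659743) (nat_lit 504) (nat_lit 18560506201) (nat_lit 76) (nat_lit 5) (nat_lit 81) (nat_lit 5) (nat_lit 82) (nat_lit 5) (nat_lit 391) (nat_lit 361) (nat_lit 112)) (XT.nd (nat_lit 94) (nat_lit 0) (nat_lit 0) (XT.lf (nat_lit 0) (nat_lit 30506569765) (nat_lit 420) (nat_lit 21761668396) (nat_lit 504) (nat_lit 13657900128) (nat_lit 76) (nat_lit 5) (nat_lit 81) (nat_lit 5) (nat_lit 82) (nat_lit 5) (nat_lit 392) (nat_lit 361) (nat_lit 111)) (XT.lf (nat_lit 0) (nat_lit 57301788599) (nat_lit 420) (nat_lit 1331417759) (nat_lit 504) (nat_lit 8604012495) (nat_lit 76) (nat_lit 5) (nat_lit 81) (nat_lit 5) (nat_lit 82) (nat_lit 5) (nat_lit 393) (nat_lit 361) (nat_lit 110)))))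 (XT.nd (nat_lit 282) (nat_lit 420) (nat_lit 0) (XT.nd (nat_lit 94) (nat_lit 504) (nat_lit 0) (XT.lf (nat_lit 0) (nat_lit 16474175449) (nat_lit 420) (nat_lit 49079828517) (nat_lit 504) (nat_lit 3023827159) (nat_lit 71) (nat_lit 5) (nat_lit 76) (nat_lit 5) (nat_lit 77) (nat_lit 5) (nat_lit 394) (nat_lit 361) (nat_lit 109)) (XT.nd (nat_lit 94) (nat_lit 420) (nat_lit 0) (XT.lf (nat_lit 0) (nat_lit 2792085197) (nat_lit 504) (nat_lit 26086157484) (nat_lit 84) (nat_lit 41077272740) (nat_lit 70) (nat_lit 5) (nat_lit 76) (nat_lit 5) (nat_lit 71) (nat_lit 5) (nat_lit 395) (nat_lit 361) (nat_lit 108)) (XT.lf (nat_lit 0) (nat_lit 720778849) (nat_lit 420) (nat_lit 8011217828) (nat_lit 504) (nat_lit 62642752472) (nat_lit 65) (nat_lit 5) (nat_lit 70) (nat_lit 5) (nat_lit 71) (nat_lit 5) (nat_lit 396) (nat_lit 361) (nat_lit 107)))) (XT.nd (nat_lit 94) (nat_lit 420) (nat_lit 0) (XT.lf (nat_lit 0) (nat_lit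 15264443599) (nat_lit 504) (nat_lit 44055241479) (nat_lit 84) (nat_lit 13505635639) (nat_lit 65) (nat_lit 5) (nat_lit 71) (nat_lit 5) (nat_lit 66) (nat_lit 5) (nat_lit 397) (nat_lit 361) (nat_lit 106)) (XT.nd (nat_lit 94) (nat_lit 420) (nat_lit 0) (XT.lf (nat_lit 0) (nat_lit 22080730009) (nat_lit 504) (nat_lit 16714579646) (nat_lit 84) (nat_lit 35523030883) (nat_lit 65) (nat_lit 5) (nat_lit 71) (nat_lit 5) (nat_lit 66) (nat_lit 5) (nat_lit 398) (nat_lit 361) (nat_lit 105)) (XT.lf (nat_lit 0) (nat_lit 11708879662) (nat_lit 420) (nat_lit 17515011004) (nat_lit 504) (nat_lit 46630172479) (nat_lit 60) (nat_lit 5) (nat_lit 65) (nat_lit 5) (nat_lit 66) (nat_lit 5) (nat_lit 399) (nat_lit 361) (nat_lit 104))))))))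
noncomputable def xc226 : XT := (XT.nd (nat_lit 51324) (nat_lit 0) (nat_lit 3360) (XT.nd (nat_lit 1128) (nat_lit 588) (nat_lit 0) (XT.nd (nat_lit 564) (nat_lit 756) (nat_lit 0) (XT.nd (nat_lit 282) (nat_lit 336) (nat_lit 0) (XT.nd (nat_lit 94) (nat_lit 336) (nat_lit 0) (XT.lf (nat_lit 0) (nat_lit 36808061836) (nat_lit 504) (nat_lit 36110541605) (nat_lit 84) (nat_lit 4511984730) (nat_lit 60) (nat_lit 5) (nat_lit 66) (nat_lit 5) (nat_lit 61) (nat_lit 5) (nat_lit 400) (nat_lit 361) (nat_lit 103)) (XT.nd (nat_lit 94) (nat_lit 336) (nat_lit 0) (XT.lf (nat_lit 0) (nat_lit 44805922841) (nat_lit 504) (nat_lit 7386625377) (nat_lit 84) (nat_lit 26857902973) (nat_lit 60) (nat_lit 5) (nat_lit 66) (nat_lit 5) (nat_lit 61) (nat_lit 5) (nat_lit 401) (nat_lit 361) (nat_lit 102)) (XT.lf (nat_lit 0) (nat_lit 22684124533) (nat_lit 336) (nat_lit 30592082240) (nat_lit 420) (nat_lit 27437365689) (nat_lit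 56) (nat_lit 5) (nat_lit 60) (nat_lit 5) (nat_lit 61) (nat_lit 5) (nat_lit 402) (nat_lit 361) (nat_lit 101)))) (XT.nd (nat_lit 94) (nat_lit 336) (nat_lit 0) (XT.lf (nat_lit 0) (nat_lit 53843024494) (nat_lit 336) (nat_lit 8242616076) (nat_lit 420) (nat_lit 20340237831) (nat_lit 56) (nat_lit 5) (nat_lit 60) (nat_lit 5) (nat_lit 61) (nat_lit 5) (nat_lit 403) (nat_lit 361) (nat_lit 100)) (XT.nd (nat_lit 94) (nat_lit 0) (nat_lit 0) (XT.lf (nat_lit 0) (nat_lit 1662635080) (nat_lit 336) (nat_lit 69668324741) (nat_lit 420) (nat_lit 12855260983) (nat_lit 52) (nat_lit 5) (nat_lit 56) (nat_lit 5) (nat_lit 57) (nat_lit 5) (nat_lit 404) (nat_lit 361) (nat_lit 99)) (XT.lf (nat_lit 0) (nat_lit 33365012968) (nat_lit 336) (nat_lit 47879160503) (nat_lit 420) (nat_lit 4745141895) (nat_lit 52) (nat_lit 5) (nat_lit 56) (nat_lit 5) (nat_lit 57) (nat_lit 5) (nat_lit 405) (nat_lit 361) (nat_lit 98))))) (XT.nd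 (nat_lit 282) (nat_lit 336) (nat_lit 0) (XT.nd (nat_lit 94) (nat_lit 336) (nat_lit 0) (XT.lf (nat_lit 0) (nat_lit 3543031462) (nat_lit 420) (nat_lit 21834635876) (nat_lit 84) (nat_lit 62469543234) (nat_lit 51) (nat_lit 5) (nat_lit 56) (nat_lit 5) (nat_lit 52) (nat_lit 5) (nat_lit 406) (nat_lit 361) (nat_lit 97)) (XT.nd (nat_lit 94) (nat_lit 0) (nat_lit 0) (XT.lf (nat_lit 0) (nat_lit 10063127343) (nat_lit 336) (nat_lit 2025788305) (nat_lit 420) (nat_lit 77669202084) (nat_lit 47) (nat_lit 5) (nat_lit 51) (nat_lit 5) (nat_lit 52) (nat_lit 5) (nat_lit 407) (nat_lit 361) (nat_lit 96)) (XT.lf (nat_lit 0) (nat_lit 21348225895) (nat_lit 420) (nat_lit 48530273155) (nat_lit 84) (nat_lit 21835861693) (nat_lit 47) (nat_lit 5) (nat_lit 52) (nat_lit 5) (nat_lit 48) (nat_lit 5) (nat_lit 408) (nat_lit 361) (nat_lit 95)))) (XT.nd (nat_lit 94) (nat_lit 336) (nat_lit 0) (XT.lf (nat_lit 0) (nat_lit 30914833228)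 (nat_lit 420) (nat_lit 16420760059) (nat_lit 84) (nat_lit 46395027290) (nat_lit 47) (nat_lit 5) (nat_lit 52) (nat_lit 5) (nat_lit 48) (nat_lit 5) (nat_lit 409) (nat_lit 361) (nat_lit 94)) (XT.nd (nat_lit 94) (nat_lit 0) (nat_lit 0) (XT.lf (nat_lit 0) (nat_lit 17026622905) (nat_lit 336) (nat_lit 23919841959) (nat_lit 420) (nat_lit 54857698621) (nat_lit 43) (nat_lit 5) (nat_lit 47) (nat_lit 5) (nat_lit 48) (nat_lit 5) (nat_lit 410) (nat_lit 361) (nat_lit 93)) (XT.lf (nat_lit 0) (nat_lit 51463989200) (nat_lit 420) (nat_lit 46082221188) (nat_lit 84) (nat_lit 390354786) (nat_lit 43) (nat_lit 5) (nat_lit 48) (nat_lit 5) (nat_lit 44) (nat_lit 5) (nat_lit 411) (nat_lit 361) (nat_lit 92)))))) (XT.nd (nat_lit 49632) (nat_lit 0) (nat_lit 6552) (XT.nd (nat_lit 282) (nat_lit 336) (nat_lit 0) (XT.nd (nat_lit 94) (nat_lit 252) (nat_lit 0) (XT.lf (nat_lit 0) (nat_lit 62551773533) (nat_lit 420) (nat_lit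 12618554421) (nat_lit 84) (nat_lit 24957173829) (nat_lit 43) (nat_lit 5) (nat_lit 48) (nat_lit 5) (nat_lit 44) (nat_lit 5) (nat_lit 412) (nat_lit 361) (nat_lit 91)) (XT.nd (nat_lit 94) (nat_lit 0) (nat_lit 0) (XT.lf (nat_lit 0) (nat_lit 22331876702) (nat_lit 252) (nat_lit 51872523325) (nat_lit 336) (nat_lit 28175103807) (nat_lit 40) (nat_lit 5) (nat_lit 43) (nat_lit 5) (nat_lit 44) (nat_lit 5) (nat_lit 413) (nat_lit 361) (nat_lit 90)) (XT.lf (nat_lit 0) (nat_lit 58632736591) (nat_lit 252) (nat_lit 27716826129) (nat_lit 336) (nat_lit 18347685900) (nat_lit 40) (nat_lit 5) (nat_lit 43) (nat_lit 5) (nat_lit 44) (nat_lit 5) (nat_lit 414) (nat_lit 361) (nat_lit 89)))) (XT.nd (nat_lit 94) (nat_lit 336) (nat_lit 0) (XT.lf (nat_lit 0) (nat_lit 96058398088) (nat_lit 252) (nat_lit 2812432554) (nat_lit 336) (nat_lit 8216026173) (nat_lit 40) (nat_lit 5) (nat_lit 43) (nat_lit 5) (nat_lit 44) (nat_lit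 5) (nat_lit 415) (nat_lit 361) (nat_lit 88)) (XT.nd (nat_lit 49162) (nat_lit 0) (nat_lit 6552) (XT.lf (nat_lit 0) (nat_lit 2667860063) (nat_lit 336) (nat_lit 84185048712) (nat_lit 84) (nat_lit 22681974285) (nat_lit 36) (nat_lit 5) (nat_lit 40) (nat_lit 5) (nat_lit 37) (nat_lit 5) (nat_lit 416) (nat_lit 361) (nat_lit 87)) (XT.lf (nat_lit 0) (nat_lit 4375461442) (nat_lit 0) (nat_lit 4375461442) (nat_lit 1092) (nat_lit 11054599051) (nat_lit 114) (nat_lit 5) (nat_lit 114) (nat_lit 3) (nat_lit 127) (nat_lit 3) (nat_lit 362) (nat_lit 362) (nat_lit 140))))) (XT.nd (nat_lit 282) (nat_lit 0) (nat_lit 84) (XT.nd (nat_lit 94) (nat_lit 0) (nat_lit 0) (XT.lf (nat_lit 0) (nat_lit 17875750381) (nat_lit 1092) (nat_lit 15791599608) (nat_lit 1176) (nat_lit 6554347952) (nat_lit 114) (nat_lit 5) (nat_lit 127) (nat_lit 3) (nat_lit 128) (nat_lit 5) (nat_lit 363) (nat_lit 362) (nat_lit 139)) (XT.nd (nat_lit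 94) (nat_lit 0) (nat_lit 0) (XT.lf (nat_lit 0) (nat_lit 18349293154) (nat_lit 1092) (nat_lit 346244186) (nat_lit 1176) (nat_lit 22153020952) (nat_lit 114) (nat_lit 5) (nat_lit 127) (nat_lit 3) (nat_lit 128) (nat_lit 5) (nat_lit 364) (nat_lit 362) (nat_lit 138)) (XT.lf (nat_lit 84) (nat_lit 15897450402) (nat_lit 0) (nat_lit 3096359519) (nat_lit 1176) (nat_lit 22496201578) (nat_lit 115) (nat_lit 5) (nat_lit 114) (nat_lit 5) (nat_lit 128) (nat_lit 5) (nat_lit 365) (nat_lit 362) (nat_lit 137)))) (XT.nd (nat_lit 94) (nat_lit 0) (nat_lit 0) (XT.lf (nat_lit 0) (nat_lit 19789414898) (nat_lit 1092) (nat_lit 9628872814) (nat_lit 1176) (nat_lit 12729002833) (nat_lit 115) (nat_lit 5) (nat_lit 128) (nat_lit 5) (nat_lit 129) (nat_lit 5) (nat_lit 366) (nat_lit 362) (nat_lit 136)) (XT.nd (nat_lit 94) (nat_lit 0) (nat_lit 84) (XT.lf (nat_lit 84) (nat_lit 6936999579) (nat_lit 0) (nat_lit 13771840119)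 (nat_lit 1176) (nat_lit 22113036695) (nat_lit 116) (nat_lit 5) (nat_lit 115) (nat_lit 5) (nat_lit 129) (nat_lit 5) (nat_lit 367) (nat_lit 362) (nat_lit 135)) (XT.lf (nat_lit 0) (nat_lit 21780417328) (nat_lit 1092) (nat_lit 19318982614) (nat_lit 1176) (nat_lit 2414146132) (nat_lit 116) (nat_lit 5) (nat_lit 129) (nat_lit 5) (nat_lit 130) (nat_lit 5) (nat_lit 368) (nat_lit 362) (nat_lit 134))))))) (XT.nd (nat_lit 1128) (nat_lit 2604) (nat_lit 0) (XT.nd (nat_lit 564) (nat_lit 756) (nat_lit 0) (XT.nd (nat_lit 282) (nat_lit 0) (nat_lit 84) (XT.nd (nat_lit 94) (nat_lit 0) (nat_lit 0) (XT.lf (nat_lit 0) (nat_lit 23024815251) (nat_lit 1092) (nat_lit 2381203310) (nat_lit 1176) (nat_lit 18816316002) (nat_lit 116) (nat_lit 5) (nat_lit 129) (nat_lit 5) (nat_lit 130) (nat_lit 5) (nat_lit 369) (nat_lit 362) (nat_lit 133)) (XT.nd (nat_lit 94) (nat_lit 0) (nat_lit 84) (XT.lf (nat_lit 84) (nat_lit 15390960798)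 (nat_lit 0) (nat_lit 9068294458) (nat_lit 1176) (nat_lit 20489149356) (nat_lit 117) (nat_lit 5) (nat_lit 116) (nat_lit 5) (nat_lit 130) (nat_lit 5) (nat_lit 370) (nat_lit 362) (nat_lit 132)) (XT.lf (nat_lit 0) (nat_lit 26039228341) (nat_lit 1092) (nat_lit 12009879457) (nat_lit 1176) (nat_lit 7644746421) (nat_lit 117) (nat_lit 5) (nat_lit 130) (nat_lit 5) (nat_lit 131) (nat_lit 5) (nat_lit 371) (nat_lit 362) (nat_lit 131)))) (XT.nd (nat_lit 94) (nat_lit 0) (nat_lit 0) (XT.lf (nat_lit 84) (nat_lit 6111247372) (nat_lit 0) (nat_lit 21709158867) (nat_lit 1176) (nat_lit 18637291814) (nat_lit 118) (nat_lit 5) (nat_lit 117) (nat_lit 5) (nat_lit 131) (nat_lit 5) (nat_lit 372) (nat_lit 362) (nat_lit 130)) (XT.nd (nat_lit 94) (nat_lit 0) (nat_lit 84) (XT.lf (nat_lit 84) (nat_lit 25047947577) (nat_lit 0) (nat_lit 4733092257) (nat_lit 1176) (nat_lit 17460333952) (nat_lit 118) (nat_lit 5) (nat_lit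 117) (nat_lit 5) (nat_lit 131) (nat_lit 5) (nat_lit 373) (nat_lit 362) (nat_lit 129)) (XT.lf (nat_lit 0) (nat_lit 31928042985) (nat_lit 1092) (nat_lit 3605132348) (nat_lit 1176) (nat_lit 12512278877) (nat_lit 118) (nat_lit 5) (nat_lit 131) (nat_lit 5) (nat_lit 132) (nat_lit 5) (nat_lit 374) (nat_lit 362) (nat_lit 128))))) (XT.nd (nat_lit 282) (nat_lit 924) (nat_lit 0) (XT.nd (nat_lit 94) (nat_lit 0) (nat_lit 0) (XT.lf (nat_lit 84) (nat_lit 15829134112) (nat_lit 0) (nat_lit 18516854584) (nat_lit 1176) (nat_lit 14522140389) (nat_lit 119) (nat_lit 5) (nat_lit 118) (nat_lit 5) (nat_lit 132) (nat_lit 5) (nat_lit 375) (nat_lit 362) (nat_lit 127)) (XT.nd (nat_lit 94) (nat_lit 0) (nat_lit 84) (XT.lf (nat_lit 84) (nat_lit 35941519731) (nat_lit 0) (nat_lit 933975204) (nat_lit 1176) (nat_lit 12839681006) (nat_lit 119) (nat_lit 5) (nat_lit 118) (nat_lit 5) (nat_lit 132) (nat_lit 5) (nat_lit 376)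 (nat_lit 362) (nat_lit 126)) (XT.lf (nat_lit 84) (nat_lit 6039234985) (nat_lit 0) (nat_lit 33673664524) (nat_lit 1176) (nat_lit 10868471426) (nat_lit 120) (nat_lit 5) (nat_lit 119) (nat_lit 5) (nat_lit 133) (nat_lit 5) (nat_lit 377) (nat_lit 362) (nat_lit 125)))) (XT.nd (nat_lit 94) (nat_lit 1008) (nat_lit 0) (XT.lf (nat_lit 84) (nat_lit 26747795385) (nat_lit 0) (nat_lit 16042722106) (nat_lit 1176) (nat_lit 8679184179) (nat_lit 120) (nat_lit 5) (nat_lit 119) (nat_lit 5) (nat_lit 133) (nat_lit 5) (nat_lit 378) (nat_lit 362) (nat_lit 124)) (XT.nd (nat_lit 94) (nat_lit 1092) (nat_lit 0) (XT.lf (nat_lit 0) (nat_lit 45983779449) (nat_lit 1092) (nat_lit 4309213874) (nat_lit 84) (nat_lit 2091953422) (nat_lit 120) (nat_lit 5) (nat_lit 133) (nat_lit 5) (nat_lit 121) (nat_lit 5) (nat_lit 379) (nat_lit 362) (nat_lit 123)) (XT.lf (nat_lit 0) (nat_lit 16912171836) (nat_lit 1092) (nat_lit 32694799625)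 (nat_lit 1176) (nat_lit 3711337204) (nat_lit 107) (nat_lit 5) (nat_lit 120) (nat_lit 5) (nat_lit 121) (nat_lit 5) (nat_lit 380) (nat_lit 362) (nat_lit 122)))))) (XT.nd (nat_lit 564) (nat_lit 1428) (nat_lit 0) (XT.nd (nat_lit 282) (nat_lit 588) (nat_lit 0) (XT.nd (nat_lit 94) (nat_lit 588) (nat_lit 0) (XT.lf (nat_lit 0) (nat_lit 38882017873) (nat_lit 1092) (nat_lit 14504552595) (nat_lit 1176) (nat_lit 892670861) (nat_lit 107) (nat_lit 5) (nat_lit 120) (nat_lit 5) (nat_lit 121) (nat_lit 5) (nat_lit 381) (nat_lit 362) (nat_lit 121)) (XT.nd (nat_lit 94) (nat_lit 0) (nat_lit 0) (XT.lf (nat_lit 0) (nat_lit 2078138083) (nat_lit 588) (nat_lit 48939830707) (nat_lit 84) (nat_lit 4248112820) (nat_lit 100) (nat_lit 5) (nat_lit 107) (nat_lit 5) (nat_lit 101) (nat_lit 5) (nat_lit 382) (nat_lit 362) (nat_lit 120)) (XT.lf (nat_lit 0) (nat_lit 5432349464) (nat_lit 588) (nat_lit 27388863943) (nat_lit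 84) (nat_lit 23452415118) (nat_lit 100) (nat_lit 5) (nat_lit 107) (nat_lit 5) (nat_lit 101) (nat_lit 5) (nat_lit 383) (nat_lit 362) (nat_lit 119)))) (XT.nd (nat_lit 94) (nat_lit 588) (nat_lit 0) (XT.lf (nat_lit 0) (nat_lit 8889710751) (nat_lit 588) (nat_lit 5170570924) (nat_lit 84) (nat_lit 43252156347) (nat_lit 100) (nat_lit 5) (nat_lit 107) (nat_lit 5) (nat_lit 101) (nat_lit 5) (nat_lit 384) (nat_lit 362) (nat_lit 118)) (XT.nd (nat_lit 94) (nat_lit 0) (nat_lit 0) (XT.lf (nat_lit 0) (nat_lit 12687240858) (nat_lit 672) (nat_lit 40331708050) (nat_lit 84) (nat_lit 5357281793) (nat_lit 93) (nat_lit 5) (nat_lit 101) (nat_lit 5) (nat_lit 94) (nat_lit 5) (nat_lit 385) (nat_lit 362) (nat_lit 117)) (XT.lf (nat_lit 0) (nat_lit 16800032168) (nat_lit 672) (nat_lit 17527537409) (nat_lit 84) (nat_lit 25139310413) (nat_lit 93) (nat_lit 5) (nat_lit 101) (nat_lit 5) (nat_lit 94) (nat_lit 5) (nat_lit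 386) (nat_lit 362) (nat_lit 116))))) (XT.nd (nat_lit 282) (nat_lit 924) (nat_lit 0) (XT.nd (nat_lit 94) (nat_lit 0) (nat_lit 0) (XT.lf (nat_lit 0) (nat_lit 6105852992) (nat_lit 504) (nat_lit 14994273547) (nat_lit 588) (nat_lit 39489361495) (nat_lit 87) (nat_lit 5) (nat_lit 93) (nat_lit 5) (nat_lit 94) (nat_lit 5) (nat_lit 387) (nat_lit 362) (nat_lit 115)) (XT.nd (nat_lit 94) (nat_lit 0) (nat_lit 0) (XT.lf (nat_lit 0) (nat_lit 25766587437) (nat_lit 588) (nat_lit 30949380101) (nat_lit 84) (nat_lit 5023706965) (nat_lit 87) (nat_lit 5) (nat_lit 94) (nat_lit 5) (nat_lit 88) (nat_lit 5) (nat_lit 388) (nat_lit 362) (nat_lit 114)) (XT.lf (nat_lit 0) (nat_lit 30730339070) (nat_lit 588) (nat_lit 6839644427) (nat_lit 84) (nat_lit 25350804186) (nat_lit 87) (nat_lit 5) (nat_lit 94) (nat_lit 5) (nat_lit 88) (nat_lit 5) (nat_lit 389) (nat_lit 362) (nat_lit 113)))) (XT.nd (nat_lit 94) (nat_lit 420)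 (nat_lit 0) (XT.lf (nat_lit 0) (nat_lit 18387251980) (nat_lit 504) (nat_lit 17642414960) (nat_lit 588) (nat_lit 28103218131) (nat_lit 81) (nat_lit 5) (nat_lit 87) (nat_lit 5) (nat_lit 88) (nat_lit 5) (nat_lit 390) (nat_lit 362) (nat_lit 112)) (XT.nd (nat_lit 94) (nat_lit 420) (nat_lit 0) (XT.lf (nat_lit 0) (nat_lit 41593503530) (nat_lit 588) (nat_lit 20869412410) (nat_lit 84) (nat_lit 2916536748) (nat_lit 81) (nat_lit 5) (nat_lit 88) (nat_lit 5) (nat_lit 82) (nat_lit 5) (nat_lit 391) (nat_lit 362) (nat_lit 111)) (XT.lf (nat_lit 0) (nat_lit 4691352913) (nat_lit 420) (nat_lit 42864776400) (nat_lit 504) (nat_lit 19101521226) (nat_lit 76) (nat_lit 5) (nat_lit 81) (nat_lit 5) (nat_lit 82) (nat_lit 5) (nat_lit 392) (nat_lit 362) (nat_lit 110))))))))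
noncomputable def xc227 : XT := (XT.nd (nat_lit 51418) (nat_lit 0) (nat_lit 4452) (XT.nd (nat_lit 1128) (nat_lit 1344) (nat_lit 0) (XT.nd (nat_lit 564) (nat_lit 756) (nat_lit 0) (XT.nd (nat_lit 282) (nat_lit 504) (nat_lit 0) (XT.nd (nat_lit 94) (nat_lit 420) (nat_lit 0) (XT.lf (nat_lit 0) (nat_lit 31486231503) (nat_lit 420) (nat_lit 22434543166) (nat_lit 504) (nat_lit 14047967519) (nat_lit 76) (nat_lit 5) (nat_lit 81) (nat_lit 5) (nat_lit 82) (nat_lit 5) (nat_lit 393) (nat_lit 362) (nat_lit 109)) (XT.nd (nat_lit 94) (nat_lit 420) (nat_lit 0) (XT.lf (nat_lit 0) (nat_lit 59111081073) (nat_lit 420) (nat_lit 1371006986) (nat_lit 504) (nat_lit 8838411457) (nat_lit 76) (nat_lit 5) (nat_lit 81) (nat_lit 5) (nat_lit 82) (nat_lit 5) (nat_lit 394) (nat_lit 362) (nat_lit 108)) (XT.lf (nat_lit 0) (nat_lit 17018524171) (nat_lit 420) (nat_lit 50598316546) (nat_lit 504) (nat_lit 3085851468) (nat_lit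 71) (nat_lit 5) (nat_lit 76) (nat_lit 5) (nat_lit 77) (nat_lit 5) (nat_lit 395) (nat_lit 362) (nat_lit 107)))) (XT.nd (nat_lit 94) (nat_lit 420) (nat_lit 0) (XT.lf (nat_lit 0) (nat_lit 2908780828) (nat_lit 504) (nat_lit 26861475914) (nat_lit 84) (nat_lit 42352850115) (nat_lit 70) (nat_lit 5) (nat_lit 76) (nat_lit 5) (nat_lit 71) (nat_lit 5) (nat_lit 396) (nat_lit 362) (nat_lit 106)) (XT.nd (nat_lit 94) (nat_lit 0) (nat_lit 0) (XT.lf (nat_lit 0) (nat_lit 776137782) (nat_lit 420) (nat_lit 8256113017) (nat_lit 504) (nat_lit 64554106836) (nat_lit 65) (nat_lit 5) (nat_lit 70) (nat_lit 5) (nat_lit 71) (nat_lit 5) (nat_lit 397) (nat_lit 362) (nat_lit 105)) (XT.lf (nat_lit 0) (nat_lit 15766347921) (nat_lit 504) (nat_lit 45387986673) (nat_lit 84) (nat_lit 13927591627) (nat_lit 65) (nat_lit 5) (nat_lit 71) (nat_lit 5) (nat_lit 66) (nat_lit 5) (nat_lit 398) (nat_lit 362) (nat_lit 104))))) (XT.nd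 (nat_lit 282) (nat_lit 336) (nat_lit 0) (XT.nd (nat_lit 94) (nat_lit 420) (nat_lit 0) (XT.lf (nat_lit 0) (nat_lit 22793076064) (nat_lit 504) (nat_lit 17200755581) (nat_lit 84) (nat_lit 36627427461) (nat_lit 65) (nat_lit 5) (nat_lit 71) (nat_lit 5) (nat_lit 66) (nat_lit 5) (nat_lit 399) (nat_lit 362) (nat_lit 103)) (XT.nd (nat_lit 94) (nat_lit 0) (nat_lit 0) (XT.lf (nat_lit 0) (nat_lit 12103507237) (nat_lit 420) (nat_lit 18053644265) (nat_lit 504) (nat_lit 48047456442) (nat_lit 60) (nat_lit 5) (nat_lit 65) (nat_lit 5) (nat_lit 66) (nat_lit 5) (nat_lit 400) (nat_lit 362) (nat_lit 102)) (XT.lf (nat_lit 0) (nat_lit 37975652200) (nat_lit 504) (nat_lit 37198406330) (nat_lit 84) (nat_lit 4655973423) (nat_lit 60) (nat_lit 5) (nat_lit 66) (nat_lit 5) (nat_lit 61) (nat_lit 5) (nat_lit 401) (nat_lit 362) (nat_lit 101)))) (XT.nd (nat_lit 94) (nat_lit 336) (nat_lit 0) (XT.lf (nat_lit 0) (nat_lit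 46220648881) (nat_lit 504) (nat_lit 7584997704) (nat_lit 84) (nat_lit 27694491337) (nat_lit 60) (nat_lit 5) (nat_lit 66) (nat_lit 5) (nat_lit 61) (nat_lit 5) (nat_lit 402) (nat_lit 362) (nat_lit 100)) (XT.nd (nat_lit 94) (nat_lit 0) (nat_lit 0) (XT.lf (nat_lit 0) (nat_lit 23417635524) (nat_lit 336) (nat_lit 31535402680) (nat_lit 420) (nat_lit 28261794805) (nat_lit 56) (nat_lit 5) (nat_lit 60) (nat_lit 5) (nat_lit 61) (nat_lit 5) (nat_lit 403) (nat_lit 362) (nat_lit 99)) (XT.lf (nat_lit 0) (nat_lit 55541550232) (nat_lit 336) (nat_lit 8493254430) (nat_lit 420) (nat_lit 20945441634) (nat_lit 56) (nat_lit 5) (nat_lit 60) (nat_lit 5) (nat_lit 61) (nat_lit 5) (nat_lit 404) (nat_lit 362) (nat_lit 98)))))) (XT.nd (nat_lit 564) (nat_lit 588) (nat_lit 0) (XT.nd (nat_lit 282) (nat_lit 336) (nat_lit 0) (XT.nd (nat_lit 94) (nat_lit 84) (nat_lit 0) (XT.lf (nat_lit 0) (nat_lit 1744049120) (nat_lit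 336) (nat_lit 71822286068) (nat_lit 420) (nat_lit 13228838570) (nat_lit 52) (nat_lit 5) (nat_lit 56) (nat_lit 5) (nat_lit 57) (nat_lit 5) (nat_lit 405) (nat_lit 362) (nat_lit 97)) (XT.nd (nat_lit 94) (nat_lit 84) (nat_lit 0) (XT.lf (nat_lit 0) (nat_lit 34428302523) (nat_lit 336) (nat_lit 49357830832) (nat_lit 420) (nat_lit 4868055549) (nat_lit 52) (nat_lit 5) (nat_lit 56) (nat_lit 5) (nat_lit 57) (nat_lit 5) (nat_lit 406) (nat_lit 362) (nat_lit 96)) (XT.lf (nat_lit 0) (nat_lit 3675851331) (nat_lit 420) (nat_lit 22482868011) (nat_lit 84) (nat_lit 64410976217) (nat_lit 51) (nat_lit 5) (nat_lit 56) (nat_lit 5) (nat_lit 52) (nat_lit 5) (nat_lit 407) (nat_lit 362) (nat_lit 95)))) (XT.nd (nat_lit 94) (nat_lit 0) (nat_lit 0) (XT.lf (nat_lit 0) (nat_lit 10403435898) (nat_lit 336) (nat_lit 2082812142) (nat_lit 420) (nat_lit 80053607490) (nat_lit 47) (nat_lit 5) (nat_lit 51) (nat_lit 5) (nat_lit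 52) (nat_lit 5) (nat_lit 408) (nat_lit 362) (nat_lit 94)) (XT.nd (nat_lit 94) (nat_lit 0) (nat_lit 0) (XT.lf (nat_lit 0) (nat_lit 22031973664) (nat_lit 420) (nat_lit 50006527177) (nat_lit 84) (nat_lit 22518262479) (nat_lit 47) (nat_lit 5) (nat_lit 52) (nat_lit 5) (nat_lit 48) (nat_lit 5) (nat_lit 409) (nat_lit 362) (nat_lit 93)) (XT.lf (nat_lit 0) (nat_lit 31894485751) (nat_lit 420) (nat_lit 16902466622) (nat_lit 84) (nat_lit 47838597164) (nat_lit 47) (nat_lit 5) (nat_lit 52) (nat_lit 5) (nat_lit 48) (nat_lit 5) (nat_lit 410) (nat_lit 362) (nat_lit 92))))) (XT.nd (nat_lit 282) (nat_lit 252) (nat_lit 0) (XT.nd (nat_lit 94) (nat_lit 0) (nat_lit 0) (XT.lf (nat_lit 0) (nat_lit 17581508451) (nat_lit 336) (nat_lit 24655217731) (nat_lit 420) (nat_lit 56536659429) (nat_lit 43) (nat_lit 5) (nat_lit 47) (nat_lit 5) (nat_lit 48) (nat_lit 5) (nat_lit 411) (nat_lit 362) (nat_lit 91)) (XT.nd (nat_lit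 94) (nat_lit 0) (nat_lit 0) (XT.lf (nat_lit 0) (nat_lit 53079723797) (nat_lit 420) (nat_lit 47483896838) (nat_lit 84) (nat_lit 408290542) (nat_lit 43) (nat_lit 5) (nat_lit 48) (nat_lit 5) (nat_lit 44) (nat_lit 5) (nat_lit 412) (nat_lit 362) (nat_lit 90)) (XT.lf (nat_lit 0) (nat_lit 64510617535) (nat_lit 420) (nat_lit 12983664422) (nat_lit 84) (nat_lit 25736505537) (nat_lit 43) (nat_lit 5) (nat_lit 48) (nat_lit 5) (nat_lit 44) (nat_lit 5) (nat_lit 413) (nat_lit 362) (nat_lit 89)))) (XT.nd (nat_lit 94) (nat_lit 0) (nat_lit 0) (XT.lf (nat_lit 0) (nat_lit 23049966179) (nat_lit 252) (nat_lit 53474171712) (nat_lit 336) (nat_lit 29028475833) (nat_lit 40) (nat_lit 5) (nat_lit 43) (nat_lit 5) (nat_lit 44) (nat_lit 5) (nat_lit 414) (nat_lit 362) (nat_lit 88)) (XT.nd (nat_lit 94) (nat_lit 0) (nat_lit 0) (XT.lf (nat_lit 0) (nat_lit 60475376933) (nat_lit 252) (nat_lit 28569840332) (nat_lit 336) (nat_lit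 18897011018) (nat_lit 40) (nat_lit 5) (nat_lit 43) (nat_lit 5) (nat_lit 44) (nat_lit 5) (nat_lit 415) (nat_lit 362) (nat_lit 87)) (XT.lf (nat_lit 0) (nat_lit 99060481473) (nat_lit 252) (nat_lit 2893597200) (nat_lit 336) (nat_lit 8451854755) (nat_lit 40) (nat_lit 5) (nat_lit 43) (nat_lit 5) (nat_lit 44) (nat_lit 5) (nat_lit 416) (nat_lit 362) (nat_lit 86))))))) (XT.nd (nat_lit 1128) (nat_lit 1764) (nat_lit 0) (XT.nd (nat_lit 564) (nat_lit 0) (nat_lit 168) (XT.nd (nat_lit 282) (nat_lit 0) (nat_lit 0) (XT.nd (nat_lit 94) (nat_lit 0) (nat_lit 0) (XT.lf (nat_lit 0) (nat_lit 4529055407) (nat_lit 0) (nat_lit 4529055407) (nat_lit 1092) (nat_lit 11360134753) (nat_lit 114) (nat_lit 5) (nat_lit 114) (nat_lit 3) (nat_lit 127) (nat_lit 3) (nat_lit 363) (nat_lit 363) (nat_lit 138)) (XT.nd (nat_lit 94) (nat_lit 0) (nat_lit 0) (XT.lf (nat_lit 0) (nat_lit 18499212332) (nat_lit 1092) (nat_lit 16243544004)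 (nat_lit 1176) (nat_lit 6723404876) (nat_lit 114) (nat_lit 5) (nat_lit 127) (nat_lit 3) (nat_lit 128) (nat_lit 5) (nat_lit 364) (nat_lit 363) (nat_lit 137)) (XT.lf (nat_lit 0) (nat_lit 18985350815) (nat_lit 1092) (nat_lit 320512972) (nat_lit 1176) (nat_lit 22806662891) (nat_lit 114) (nat_lit 5) (nat_lit 127) (nat_lit 3) (nat_lit 128) (nat_lit 5) (nat_lit 365) (nat_lit 363) (nat_lit 136)))) (XT.nd (nat_lit 94) (nat_lit 0) (nat_lit 84) (XT.lf (nat_lit 84) (nat_lit 16426366975) (nat_lit 0) (nat_lit 3221817247) (nat_lit 1176) (nat_lit 23125739878) (nat_lit 115) (nat_lit 5) (nat_lit 114) (nat_lit 5) (nat_lit 128) (nat_lit 5) (nat_lit 366) (nat_lit 363) (nat_lit 135)) (XT.nd (nat_lit 94) (nat_lit 0) (nat_lit 0) (XT.lf (nat_lit 0) (nat_lit 20466197955) (nat_lit 1092) (nat_lit 9889864750) (nat_lit 1176) (nat_lit 13095593369) (nat_lit 115) (nat_lit 5) (nat_lit 128) (nat_lit 5) (nat_lit 129) (nat_lit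 5) (nat_lit 367) (nat_lit 363) (nat_lit 134)) (XT.lf (nat_lit 84) (nat_lit 7189170002) (nat_lit 0) (nat_lit 14223419557) (nat_lit 1176) (nat_lit 22734619273) (nat_lit 116) (nat_lit 5) (nat_lit 115) (nat_lit 5) (nat_lit 129) (nat_lit 5) (nat_lit 368) (nat_lit 363) (nat_lit 133))))) (XT.nd (nat_lit 282) (nat_lit 0) (nat_lit 84) (XT.nd (nat_lit 94) (nat_lit 0) (nat_lit 0) (XT.lf (nat_lit 0) (nat_lit 22515291424) (nat_lit 1092) (nat_lit 19879545449) (nat_lit 1176) (nat_lit 2465555270) (nat_lit 116) (nat_lit 5) (nat_lit 129) (nat_lit 5) (nat_lit 130) (nat_lit 5) (nat_lit 369) (nat_lit 363) (nat_lit 132)) (XT.nd (nat_lit 94) (nat_lit 0) (nat_lit 0) (XT.lf (nat_lit 0) (nat_lit 23796471196) (nat_lit 1092) (nat_lit 2417847358) (nat_lit 1176) (nat_lit 19376896879) (nat_lit 116) (nat_lit 5) (nat_lit 129) (nat_lit 5) (nat_lit 130) (nat_lit 5) (nat_lit 370) (nat_lit 363) (nat_lit 131)) (XT.lf (nat_lit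 84) (nat_lit 15904877492) (nat_lit 0) (nat_lit 9369125849) (nat_lit 1176) (nat_lit 21065839478) (nat_lit 117) (nat_lit 5) (nat_lit 116) (nat_lit 5) (nat_lit 130) (nat_lit 5) (nat_lit 371) (nat_lit 363) (nat_lit 130)))) (XT.nd (nat_lit 94) (nat_lit 0) (nat_lit 0) (XT.lf (nat_lit 0) (nat_lit 26901066732) (nat_lit 1092) (nat_lit 12344402196) (nat_lit 1176) (nat_lit 7862997320) (nat_lit 117) (nat_lit 5) (nat_lit 130) (nat_lit 5) (nat_lit 131) (nat_lit 5) (nat_lit 372) (nat_lit 363) (nat_lit 129)) (XT.nd (nat_lit 94) (nat_lit 0) (nat_lit 0) (XT.lf (nat_lit 84) (nat_lit 6338097041) (nat_lit 0) (nat_lit 22398092748) (nat_lit 1176) (nat_lit 19159845002) (nat_lit 118) (nat_lit 5) (nat_lit 117) (nat_lit 5) (nat_lit 131) (nat_lit 5) (nat_lit 373) (nat_lit 363) (nat_lit 128)) (XT.lf (nat_lit 84) (nat_lit 25860710383) (nat_lit 0) (nat_lit 4895288491) (nat_lit 1176) (nat_lit 17948061280) (nat_lit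 118) (nat_lit 5) (nat_lit 117) (nat_lit 5) (nat_lit 131) (nat_lit 5) (nat_lit 374) (nat_lit 363) (nat_lit 127)))))) (XT.nd (nat_lit 564) (nat_lit 2100) (nat_lit 0) (XT.nd (nat_lit 282) (nat_lit 0) (nat_lit 84) (XT.nd (nat_lit 94) (nat_lit 0) (nat_lit 0) (XT.lf (nat_lit 0) (nat_lit 32967854352) (nat_lit 1092) (nat_lit 3679814711) (nat_lit 1176) (nat_lit 12885456631) (nat_lit 118) (nat_lit 5) (nat_lit 131) (nat_lit 5) (nat_lit 132) (nat_lit 5) (nat_lit 375) (nat_lit 363) (nat_lit 126)) (XT.nd (nat_lit 94) (nat_lit 0) (nat_lit 0) (XT.lf (nat_lit 84) (nat_lit 16356538640) (nat_lit 0) (nat_lit 19103077163) (nat_lit 1176) (nat_lit 14921728646) (nat_lit 119) (nat_lit 5) (nat_lit 118) (nat_lit 5) (nat_lit 132) (nat_lit 5) (nat_lit 376) (nat_lit 363) (nat_lit 125)) (XT.lf (nat_lit 84) (nat_lit 37091304681) (nat_lit 0) (nat_lit 974761692) (nat_lit 1176) (nat_lit 13188634400) (nat_lit 119) (nat_lit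 5) (nat_lit 118) (nat_lit 5) (nat_lit 132) (nat_lit 5) (nat_lit 377) (nat_lit 363) (nat_lit 124)))) (XT.nd (nat_lit 94) (nat_lit 0) (nat_lit 0) (XT.lf (nat_lit 84) (nat_lit 6263433873) (nat_lit 0) (nat_lit 34726823475) (nat_lit 1176) (nat_lit 11157532099) (nat_lit 120) (nat_lit 5) (nat_lit 119) (nat_lit 5) (nat_lit 133) (nat_lit 5) (nat_lit 378) (nat_lit 363) (nat_lit 123)) (XT.nd (nat_lit 94) (nat_lit 0) (nat_lit 84) (XT.lf (nat_lit 84) (nat_lit 27612847656) (nat_lit 0) (nat_lit 16549042953) (nat_lit 1176) (nat_lit 8901816055) (nat_lit 120) (nat_lit 5) (nat_lit 119) (nat_lit 5) (nat_lit 133) (nat_lit 5) (nat_lit 379) (nat_lit 363) (nat_lit 122)) (XT.lf (nat_lit 0) (nat_lit 47452708066) (nat_lit 1092) (nat_lit 4406411902) (nat_lit 84) (nat_lit 2148253830) (nat_lit 120) (nat_lit 5) (nat_lit 133) (nat_lit 5) (nat_lit 121) (nat_lit 5) (nat_lit 380) (nat_lit 363) (nat_lit 121))))) (XT.nd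 (nat_lit 282) (nat_lit 588) (nat_lit 0) (XT.nd (nat_lit 94) (nat_lit 588) (nat_lit 0) (XT.lf (nat_lit 0) (nat_lit 17472468373) (nat_lit 1092) (nat_lit 33714802079) (nat_lit 1176) (nat_lit 3782433699) (nat_lit 107) (nat_lit 5) (nat_lit 120) (nat_lit 5) (nat_lit 121) (nat_lit 5) (nat_lit 381) (nat_lit 363) (nat_lit 120)) (XT.nd (nat_lit 94) (nat_lit 588) (nat_lit 0) (XT.lf (nat_lit 0) (nat_lit 40122296616) (nat_lit 1092) (nat_lit 14960463044) (nat_lit 1176) (nat_lit 877710332) (nat_lit 107) (nat_lit 5) (nat_lit 120) (nat_lit 5) (nat_lit 121) (nat_lit 5) (nat_lit 382) (nat_lit 363) (nat_lit 119)) (XT.lf (nat_lit 0) (nat_lit 2183379069) (nat_lit 588) (nat_lit 50419927188) (nat_lit 84) (nat_lit 4374616966) (nat_lit 100) (nat_lit 5) (nat_lit 107) (nat_lit 5) (nat_lit 101) (nat_lit 5) (nat_lit 383) (nat_lit 363) (nat_lit 118)))) (XT.nd (nat_lit 94) (nat_lit 588) (nat_lit 0) (XT.lf (nat_lit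 0) (nat_lit 5640343670) (nat_lit 588) (nat_lit 28201994117) (nat_lit 84) (nat_lit 24174408608) (nat_lit 100) (nat_lit 5) (nat_lit 107) (nat_lit 5) (nat_lit 101) (nat_lit 5) (nat_lit 384) (nat_lit 363) (nat_lit 117)) (XT.nd (nat_lit 94) (nat_lit 588) (nat_lit 0) (XT.lf (nat_lit 0) (nat_lit 9203692728) (nat_lit 588) (nat_lit 5296014192) (nat_lit 84) (nat_lit 44588093099) (nat_lit 100) (nat_lit 5) (nat_lit 107) (nat_lit 5) (nat_lit 101) (nat_lit 5) (nat_lit 385) (nat_lit 363) (nat_lit 116)) (XT.lf (nat_lit 0) (nat_lit 13118103073) (nat_lit 672) (nat_lit 41546174224) (nat_lit 84) (nat_lit 5520323116) (nat_lit 93) (nat_lit 5) (nat_lit 101) (nat_lit 5) (nat_lit 94) (nat_lit 5) (nat_lit 386) (nat_lit 363) (nat_lit 115))))))))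
noncomputable def xc228 : XT := (XT.nd (nat_lit 2256) (nat_lit 588) (nat_lit 0) (XT.nd (nat_lit 1128) (nat_lit 1512) (nat_lit 0) (XT.nd (nat_lit 564) (nat_lit 1344) (nat_lit 0) (XT.nd (nat_lit 282) (nat_lit 504) (nat_lit 0) (XT.nd (nat_lit 94) (nat_lit 504) (nat_lit 0) (XT.lf (nat_lit 0) (nat_lit 17357261631) (nat_lit 672) (nat_lit 18036151229) (nat_lit 84) (nat_lit 25915685861) (nat_lit 93) (nat_lit 5) (nat_lit 101) (nat_lit 5) (nat_lit 94) (nat_lit 5) (nat_lit 387) (nat_lit 363) (nat_lit 114)) (XT.nd (nat_lit 94) (nat_lit 0) (nat_lit 0) (XT.lf (nat_lit 0) (nat_lit 6329522565) (nat_lit 504) (nat_lit 15460382170) (nat_lit 588) (nat_lit 40676630025) (nat_lit 87) (nat_lit 5) (nat_lit 93) (nat_lit 5) (nat_lit 94) (nat_lit 5) (nat_lit 388) (nat_lit 363) (nat_lit 113)) (XT.lf (nat_lit 0) (nat_lit 26599940896) (nat_lit 588) (nat_lit 31874253860) (nat_lit 84) (nat_lit 5178219544) (nat_lit 87)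 (nat_lit 5) (nat_lit 94) (nat_lit 5) (nat_lit 88) (nat_lit 5) (nat_lit 389) (nat_lit 363) (nat_lit 112)))) (XT.nd (nat_lit 94) (nat_lit 504) (nat_lit 0) (XT.lf (nat_lit 0) (nat_lit 31716528803) (nat_lit 588) (nat_lit 7018155437) (nat_lit 84) (nat_lit 26135493532) (nat_lit 87) (nat_lit 5) (nat_lit 94) (nat_lit 5) (nat_lit 88) (nat_lit 5) (nat_lit 390) (nat_lit 363) (nat_lit 111)) (XT.nd (nat_lit 94) (nat_lit 0) (nat_lit 0) (XT.lf (nat_lit 0) (nat_lit 18990435419) (nat_lit 504) (nat_lit 18189020800) (nat_lit 588) (nat_lit 28940418465) (nat_lit 81) (nat_lit 5) (nat_lit 87) (nat_lit 5) (nat_lit 88) (nat_lit 5) (nat_lit 391) (nat_lit 363) (nat_lit 110)) (XT.lf (nat_lit 0) (nat_lit 42914786397) (nat_lit 588) (nat_lit 21483090299) (nat_lit 84) (nat_lit 3007243080) (nat_lit 81) (nat_lit 5) (nat_lit 88) (nat_lit 5) (nat_lit 82) (nat_lit 5) (nat_lit 392) (nat_lit 363) (nat_lit 109))))) (XT.nd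 (nat_lit 282) (nat_lit 924) (nat_lit 0) (XT.nd (nat_lit 94) (nat_lit 0) (nat_lit 0) (XT.lf (nat_lit 0) (nat_lit 4869721880) (nat_lit 420) (nat_lit 44191899745) (nat_lit 504) (nat_lit 19661342959) (nat_lit 76) (nat_lit 5) (nat_lit 81) (nat_lit 5) (nat_lit 82) (nat_lit 5) (nat_lit 393) (nat_lit 363) (nat_lit 108)) (XT.nd (nat_lit 94) (nat_lit 0) (nat_lit 0) (XT.lf (nat_lit 0) (nat_lit 32494251360) (nat_lit 420) (nat_lit 23128379937) (nat_lit 504) (nat_lit 14452101044) (nat_lit 76) (nat_lit 5) (nat_lit 81) (nat_lit 5) (nat_lit 82) (nat_lit 5) (nat_lit 394) (nat_lit 363) (nat_lit 107)) (XT.lf (nat_lit 0) (nat_lit 60974510697) (nat_lit 420) (nat_lit 1411923268) (nat_lit 504) (nat_lit 9081991477) (nat_lit 76) (nat_lit 5) (nat_lit 81) (nat_lit 5) (nat_lit 82) (nat_lit 5) (nat_lit 395) (nat_lit 363) (nat_lit 106)))) (XT.nd (nat_lit 94) (nat_lit 504) (nat_lit 0) (XT.lf (nat_lit 0) (nat_lit 17577754598)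 (nat_lit 420) (nat_lit 52164054609) (nat_lit 504) (nat_lit 3151677024) (nat_lit 71) (nat_lit 5) (nat_lit 76) (nat_lit 5) (nat_lit 77) (nat_lit 5) (nat_lit 396) (nat_lit 363) (nat_lit 105)) (XT.nd (nat_lit 94) (nat_lit 420) (nat_lit 0) (XT.lf (nat_lit 0) (nat_lit 3027308721) (nat_lit 504) (nat_lit 27662804738) (nat_lit 84) (nat_lit 43667841150) (nat_lit 70) (nat_lit 5) (nat_lit 76) (nat_lit 5) (nat_lit 71) (nat_lit 5) (nat_lit 397) (nat_lit 363) (nat_lit 104)) (XT.lf (nat_lit 0) (nat_lit 831257319) (nat_lit 420) (nat_lit 8508804457) (nat_lit 504) (nat_lit 66526523955) (nat_lit 65) (nat_lit 5) (nat_lit 70) (nat_lit 5) (nat_lit 71) (nat_lit 5) (nat_lit 398) (nat_lit 363) (nat_lit 103)))))) (XT.nd (nat_lit 564) (nat_lit 756) (nat_lit 0) (XT.nd (nat_lit 282) (nat_lit 336) (nat_lit 0) (XT.nd (nat_lit 94) (nat_lit 420) (nat_lit 0) (XT.lf (nat_lit 0) (nat_lit 16282110937) (nat_lit 504) (nat_lit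 46763999678) (nat_lit 84) (nat_lit 14362433894) (nat_lit 65) (nat_lit 5) (nat_lit 71) (nat_lit 5) (nat_lit 66) (nat_lit 5) (nat_lit 399) (nat_lit 363) (nat_lit 102)) (XT.nd (nat_lit 94) (nat_lit 420) (nat_lit 0) (XT.lf (nat_lit 0) (nat_lit 23525855633) (nat_lit 504) (nat_lit 17703896964) (nat_lit 84) (nat_lit 37765871822) (nat_lit 65) (nat_lit 5) (nat_lit 71) (nat_lit 5) (nat_lit 66) (nat_lit 5) (nat_lit 400) (nat_lit 363) (nat_lit 101)) (XT.lf (nat_lit 0) (nat_lit 12508493447) (nat_lit 420) (nat_lit 18609231754) (nat_lit 504) (nat_lit 49510349585) (nat_lit 60) (nat_lit 5) (nat_lit 65) (nat_lit 5) (nat_lit 66) (nat_lit 5) (nat_lit 401) (nat_lit 363) (nat_lit 100)))) (XT.nd (nat_lit 94) (nat_lit 336) (nat_lit 0) (XT.lf (nat_lit 0) (nat_lit 39177865829) (nat_lit 504) (nat_lit 38321864336) (nat_lit 84) (nat_lit 4804181898) (nat_lit 60) (nat_lit 5) (nat_lit 66) (nat_lit 5) (nat_lit 61) (nat_lit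 5) (nat_lit 402) (nat_lit 363) (nat_lit 99)) (XT.nd (nat_lit 94) (nat_lit 336) (nat_lit 0) (XT.lf (nat_lit 0) (nat_lit 47677706660) (nat_lit 504) (nat_lit 7791332836) (nat_lit 84) (nat_lit 28556777405) (nat_lit 60) (nat_lit 5) (nat_lit 66) (nat_lit 5) (nat_lit 61) (nat_lit 5) (nat_lit 403) (nat_lit 363) (nat_lit 98)) (XT.lf (nat_lit 0) (nat_lit 24172090450) (nat_lit 336) (nat_lit 32508264233) (nat_lit 420) (nat_lit 29113328902) (nat_lit 56) (nat_lit 5) (nat_lit 60) (nat_lit 5) (nat_lit 61) (nat_lit 5) (nat_lit 404) (nat_lit 363) (nat_lit 97))))) (XT.nd (nat_lit 282) (nat_lit 420) (nat_lit 0) (XT.nd (nat_lit 94) (nat_lit 336) (nat_lit 0) (XT.lf (nat_lit 0) (nat_lit 57290989331) (nat_lit 336) (nat_lit 8751951787) (nat_lit 420) (nat_lit 21570907898) (nat_lit 56) (nat_lit 5) (nat_lit 60) (nat_lit 5) (nat_lit 61) (nat_lit 5) (nat_lit 405) (nat_lit 363) (nat_lit 96)) (XT.nd (nat_lit 94) (nat_lit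 0) (nat_lit 0) (XT.lf (nat_lit 0) (nat_lit 1826217605) (nat_lit 336) (nat_lit 74043361178) (nat_lit 420) (nat_lit 13615474035) (nat_lit 52) (nat_lit 5) (nat_lit 56) (nat_lit 5) (nat_lit 57) (nat_lit 5) (nat_lit 406) (nat_lit 363) (nat_lit 95)) (XT.lf (nat_lit 0) (nat_lit 35522837867) (nat_lit 336) (nat_lit 50882670670) (nat_lit 420) (nat_lit 4996212088) (nat_lit 52) (nat_lit 5) (nat_lit 56) (nat_lit 5) (nat_lit 57) (nat_lit 5) (nat_lit 407) (nat_lit 363) (nat_lit 94)))) (XT.nd (nat_lit 94) (nat_lit 336) (nat_lit 0) (XT.lf (nat_lit 0) (nat_lit 3811427122) (nat_lit 420) (nat_lit 23152891831) (nat_lit 84) (nat_lit 66412304741) (nat_lit 51) (nat_lit 5) (nat_lit 56) (nat_lit 5) (nat_lit 52) (nat_lit 5) (nat_lit 408) (nat_lit 363) (nat_lit 93)) (XT.nd (nat_lit 94) (nat_lit 0) (nat_lit 0) (XT.lf (nat_lit 0) (nat_lit 10752614704) (nat_lit 336) (nat_lit 2141945818) (nat_lit 420) (nat_lit 82513311923)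 (nat_lit 47) (nat_lit 5) (nat_lit 51) (nat_lit 5) (nat_lit 52) (nat_lit 5) (nat_lit 409) (nat_lit 363) (nat_lit 92)) (XT.lf (nat_lit 0) (nat_lit 22735617314) (nat_lit 420) (nat_lit 51530214487) (nat_lit 84) (nat_lit 23221492561) (nat_lit 47) (nat_lit 5) (nat_lit 52) (nat_lit 5) (nat_lit 48) (nat_lit 5) (nat_lit 410) (nat_lit 363) (nat_lit 91))))))) (XT.nd (nat_lit 50384) (nat_lit 0) (nat_lit 6384) (XT.nd (nat_lit 49820) (nat_lit 0) (nat_lit 6216) (XT.nd (nat_lit 282) (nat_lit 252) (nat_lit 0) (XT.nd (nat_lit 94) (nat_lit 336) (nat_lit 0) (XT.lf (nat_lit 0) (nat_lit 32903246300) (nat_lit 420) (nat_lit 17400725306) (nat_lit 84) (nat_lit 49326602353) (nat_lit 47) (nat_lit 5) (nat_lit 52) (nat_lit 5) (nat_lit 48) (nat_lit 5) (nat_lit 411) (nat_lit 363) (nat_lit 90)) (XT.nd (nat_lit 94) (nat_lit 0) (nat_lit 0) (XT.lf (nat_lit 0) (nat_lit 18151992626) (nat_lit 336) (nat_lit 25413753795) (nat_lit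 420) (nat_lit 58268949076) (nat_lit 43) (nat_lit 5) (nat_lit 47) (nat_lit 5) (nat_lit 48) (nat_lit 5) (nat_lit 412) (nat_lit 363) (nat_lit 89)) (XT.lf (nat_lit 0) (nat_lit 54744340746) (nat_lit 420) (nat_lit 48930616180) (nat_lit 84) (nat_lit 426436703) (nat_lit 43) (nat_lit 5) (nat_lit 48) (nat_lit 5) (nat_lit 44) (nat_lit 5) (nat_lit 413) (nat_lit 363) (nat_lit 88)))) (XT.nd (nat_lit 94) (nat_lit 252) (nat_lit 0) (XT.lf (nat_lit 0) (nat_lit 66529016524) (nat_lit 420) (nat_lit 13361636720) (nat_lit 84) (nat_lit 26539661316) (nat_lit 43) (nat_lit 5) (nat_lit 48) (nat_lit 5) (nat_lit 44) (nat_lit 5) (nat_lit 414) (nat_lit 363) (nat_lit 87)) (XT.nd (nat_lit 94) (nat_lit 0) (nat_lit 0) (XT.lf (nat_lit 0) (nat_lit 23788788174) (nat_lit 252) (nat_lit 55125850273) (nat_lit 336) (nat_lit 29909490355) (nat_lit 40) (nat_lit 5) (nat_lit 43) (nat_lit 5) (nat_lit 44) (nat_lit 5) (nat_lit 415) (nat_lit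 363) (nat_lit 86)) (XT.lf (nat_lit 0) (nat_lit 62373656823) (nat_lit 252) (nat_lit 29449665652) (nat_lit 336) (nat_lit 19464517458) (nat_lit 40) (nat_lit 5) (nat_lit 43) (nat_lit 5) (nat_lit 44) (nat_lit 5) (nat_lit 416) (nat_lit 363) (nat_lit 85))))) (XT.nd (nat_lit 282) (nat_lit 0) (nat_lit 0) (XT.nd (nat_lit 94) (nat_lit 0) (nat_lit 0) (XT.lf (nat_lit 0) (nat_lit 4686347299) (nat_lit 0) (nat_lit 4686347299) (nat_lit 1092) (nat_lit 11677342926) (nat_lit 114) (nat_lit 5) (nat_lit 114) (nat_lit 3) (nat_lit 127) (nat_lit 3) (nat_lit 364) (nat_lit 364) (nat_lit 136)) (XT.nd (nat_lit 94) (nat_lit 0) (nat_lit 0) (XT.lf (nat_lit 0) (nat_lit 19137896035) (nat_lit 1092) (nat_lit 16711725503) (nat_lit 1176) (nat_lit 6899724016) (nat_lit 114) (nat_lit 5) (nat_lit 127) (nat_lit 3) (nat_lit 128) (nat_lit 5) (nat_lit 365) (nat_lit 364) (nat_lit 135)) (XT.lf (nat_lit 0) (nat_lit 19637144140) (nat_lit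 1092) (nat_lit 296143962) (nat_lit 1176) (nat_lit 23482528402) (nat_lit 114) (nat_lit 5) (nat_lit 127) (nat_lit 3) (nat_lit 128) (nat_lit 5) (nat_lit 366) (nat_lit 364) (nat_lit 134)))) (XT.nd (nat_lit 94) (nat_lit 0) (nat_lit 84) (XT.lf (nat_lit 84) (nat_lit 16969541957) (nat_lit 0) (nat_lit 3349418571) (nat_lit 1176) (nat_lit 23778812379) (nat_lit 115) (nat_lit 5) (nat_lit 114) (nat_lit 5) (nat_lit 128) (nat_lit 5) (nat_lit 367) (nat_lit 364) (nat_lit 133)) (XT.nd (nat_lit 94) (nat_lit 0) (nat_lit 0) (XT.lf (nat_lit 0) (nat_lit 21160211256) (nat_lit 1092) (nat_lit 10161168811) (nat_lit 1176) (nat_lit 13475207207) (nat_lit 115) (nat_lit 5) (nat_lit 128) (nat_lit 5) (nat_lit 129) (nat_lit 5) (nat_lit 368) (nat_lit 364) (nat_lit 132)) (XT.lf (nat_lit 84) (nat_lit 7446958823) (nat_lit 0) (nat_lit 14687537754) (nat_lit 1176) (nat_lit 23379257094) (nat_lit 116) (nat_lit 5) (nat_lit 115)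 (nat_lit 5) (nat_lit 129) (nat_lit 5) (nat_lit 369) (nat_lit 364) (nat_lit 131)))))) (XT.nd (nat_lit 564) (nat_lit 0) (nat_lit 168) (XT.nd (nat_lit 282) (nat_lit 0) (nat_lit 84) (XT.nd (nat_lit 94) (nat_lit 0) (nat_lit 0) (XT.lf (nat_lit 0) (nat_lit 23269411599) (nat_lit 1092) (nat_lit 20459755824) (nat_lit 1176) (nat_lit 2519945854) (nat_lit 116) (nat_lit 5) (nat_lit 129) (nat_lit 5) (nat_lit 130) (nat_lit 5) (nat_lit 370) (nat_lit 364) (nat_lit 130)) (XT.nd (nat_lit 94) (nat_lit 0) (nat_lit 0) (XT.lf (nat_lit 0) (nat_lit 24588619748) (nat_lit 1092) (nat_lit 2457829207) (nat_lit 1176) (nat_lit 19956201798) (nat_lit 116) (nat_lit 5) (nat_lit 129) (nat_lit 5) (nat_lit 130) (nat_lit 5) (nat_lit 371) (nat_lit 364) (nat_lit 129)) (XT.lf (nat_lit 84) (nat_lit 16432546059) (nat_lit 0) (nat_lit 9678115303) (nat_lit 1176) (nat_lit 21663870479) (nat_lit 117) (nat_lit 5) (nat_lit 116) (nat_lit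 5) (nat_lit 130) (nat_lit 5) (nat_lit 372) (nat_lit 364) (nat_lit 128)))) (XT.nd (nat_lit 94) (nat_lit 0) (nat_lit 0) (XT.lf (nat_lit 0) (nat_lit 27786386739) (nat_lit 1092) (nat_lit 12691533122) (nat_lit 1176) (nat_lit 8089123776) (nat_lit 117) (nat_lit 5) (nat_lit 130) (nat_lit 5) (nat_lit 131) (nat_lit 5) (nat_lit 373) (nat_lit 364) (nat_lit 127)) (XT.nd (nat_lit 94) (nat_lit 0) (nat_lit 0) (XT.lf (nat_lit 84) (nat_lit 6569763725) (nat_lit 0) (nat_lit 23107438836) (nat_lit 1176) (nat_lit 19701867098) (nat_lit 118) (nat_lit 5) (nat_lit 117) (nat_lit 5) (nat_lit 131) (nat_lit 5) (nat_lit 374) (nat_lit 364) (nat_lit 126)) (XT.lf (nat_lit 84) (nat_lit 26696520121) (nat_lit 0) (nat_lit 5061596472) (nat_lit 1176) (nat_lit 18454079599) (nat_lit 118) (nat_lit 5) (nat_lit 117) (nat_lit 5) (nat_lit 131) (nat_lit 5) (nat_lit 375) (nat_lit 364) (nat_lit 125))))) (XT.nd (nat_lit 282) (nat_lit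 0) (nat_lit 84) (XT.nd (nat_lit 94) (nat_lit 0) (nat_lit 0) (XT.lf (nat_lit 0) (nat_lit 34036935796) (nat_lit 1092) (nat_lit 3759008346) (nat_lit 1176) (nat_lit 13271073773) (nat_lit 118) (nat_lit 5) (nat_lit 131) (nat_lit 5) (nat_lit 132) (nat_lit 5) (nat_lit 376) (nat_lit 364) (nat_lit 124)) (XT.nd (nat_lit 94) (nat_lit 0) (nat_lit 0) (XT.lf (nat_lit 84) (nat_lit 16898118824) (nat_lit 0) (nat_lit 19706750010) (nat_lit 1176) (nat_lit 15336701151) (nat_lit 119) (nat_lit 5) (nat_lit 118) (nat_lit 5) (nat_lit 132) (nat_lit 5) (nat_lit 377) (nat_lit 364) (nat_lit 123)) (XT.lf (nat_lit 84) (nat_lit 38274624444) (nat_lit 0) (nat_lit 1016111656) (nat_lit 1176) (nat_lit 13551312247) (nat_lit 119) (nat_lit 5) (nat_lit 118) (nat_lit 5) (nat_lit 132) (nat_lit 5) (nat_lit 378) (nat_lit 364) (nat_lit 122)))) (XT.nd (nat_lit 94) (nat_lit 0) (nat_lit 0) (XT.lf (nat_lit 84) (nat_lit 6492392384) (nat_lit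 0) (nat_lit 35812080960) (nat_lit 1176) (nat_lit 11458388598) (nat_lit 120) (nat_lit 5) (nat_lit 119) (nat_lit 5) (nat_lit 133) (nat_lit 5) (nat_lit 379) (nat_lit 364) (nat_lit 121)) (XT.nd (nat_lit 94) (nat_lit 0) (nat_lit 84) (XT.lf (nat_lit 84) (nat_lit 28502591870) (nat_lit 0) (nat_lit 17070526870) (nat_lit 1176) (nat_lit 9134099223) (nat_lit 120) (nat_lit 5) (nat_lit 119) (nat_lit 5) (nat_lit 133) (nat_lit 5) (nat_lit 380) (nat_lit 364) (nat_lit 120)) (XT.lf (nat_lit 0) (nat_lit 48964600951) (nat_lit 1092) (nat_lit 4508778368) (nat_lit 84) (nat_lit 2206805990) (nat_lit 120) (nat_lit 5) (nat_lit 133) (nat_lit 5) (nat_lit 121) (nat_lit 5) (nat_lit 381) (nat_lit 364) (nat_lit 119))))))))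
noncomputable def xc229 : XT := (XT.nd (nat_lit 2256) (nat_lit 1344) (nat_lit 0) (XT.nd (nat_lit 1128) (nat_lit 2100) (nat_lit 0) (XT.nd (nat_lit 564) (nat_lit 1008) (nat_lit 0) (XT.nd (nat_lit 282) (nat_lit 588) (nat_lit 0) (XT.nd (nat_lit 94) (nat_lit 588) (nat_lit 0) (XT.lf (nat_lit 0) (nat_lit 18048000624) (nat_lit 1092) (nat_lit 34766041757) (nat_lit 1176) (nat_lit 3858337713) (nat_lit 107) (nat_lit 5) (nat_lit 120) (nat_lit 5) (nat_lit 121) (nat_lit 5) (nat_lit 382) (nat_lit 364) (nat_lit 118)) (XT.nd (nat_lit 94) (nat_lit 588) (nat_lit 0) (XT.lf (nat_lit 0) (nat_lit 41398954669) (nat_lit 1092) (nat_lit 15430135373) (nat_lit 1176) (nat_lit 864811272) (nat_lit 107) (nat_lit 5) (nat_lit 120) (nat_lit 5) (nat_lit 121) (nat_lit 5) (nat_lit 383) (nat_lit 364) (nat_lit 117)) (XT.lf (nat_lit 0) (nat_lit 2289464763) (nat_lit 588) (nat_lit 51948100500) (nat_lit 84) (nat_lit 4505349997)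 (nat_lit 100) (nat_lit 5) (nat_lit 107) (nat_lit 5) (nat_lit 101) (nat_lit 5) (nat_lit 384) (nat_lit 364) (nat_lit 116)))) (XT.nd (nat_lit 94) (nat_lit 588) (nat_lit 0) (XT.lf (nat_lit 0) (nat_lit 5852440631) (nat_lit 588) (nat_lit 29042459203) (nat_lit 84) (nat_lit 24919081914) (nat_lit 100) (nat_lit 5) (nat_lit 107) (nat_lit 5) (nat_lit 101) (nat_lit 5) (nat_lit 385) (nat_lit 364) (nat_lit 115)) (XT.nd (nat_lit 94) (nat_lit 588) (nat_lit 0) (XT.lf (nat_lit 0) (nat_lit 9525133592) (nat_lit 588) (nat_lit 5427410097) (nat_lit 84) (nat_lit 45965732946) (nat_lit 100) (nat_lit 5) (nat_lit 107) (nat_lit 5) (nat_lit 101) (nat_lit 5) (nat_lit 386) (nat_lit 364) (nat_lit 114)) (XT.lf (nat_lit 0) (nat_lit 13560097407) (nat_lit 672) (nat_lit 42800410339) (nat_lit 84) (nat_lit 5688598452) (nat_lit 93) (nat_lit 5) (nat_lit 101) (nat_lit 5) (nat_lit 94) (nat_lit 5) (nat_lit 387) (nat_lit 364) (nat_lit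 113))))) (XT.nd (nat_lit 282) (nat_lit 504) (nat_lit 0) (XT.nd (nat_lit 94) (nat_lit 504) (nat_lit 0) (XT.lf (nat_lit 0) (nat_lit 17929607487) (nat_lit 672) (nat_lit 18562589777) (nat_lit 84) (nat_lit 26716303277) (nat_lit 93) (nat_lit 5) (nat_lit 101) (nat_lit 5) (nat_lit 94) (nat_lit 5) (nat_lit 388) (nat_lit 364) (nat_lit 112)) (XT.nd (nat_lit 94) (nat_lit 0) (nat_lit 0) (XT.lf (nat_lit 0) (nat_lit 6558089028) (nat_lit 504) (nat_lit 15940863979) (nat_lit 588) (nat_lit 41902889629) (nat_lit 87) (nat_lit 5) (nat_lit 93) (nat_lit 5) (nat_lit 94) (nat_lit 5) (nat_lit 389) (nat_lit 364) (nat_lit 111)) (XT.lf (nat_lit 0) (nat_lit 27457079531) (nat_lit 588) (nat_lit 32829845578) (nat_lit 84) (nat_lit 5337594413) (nat_lit 87) (nat_lit 5) (nat_lit 94) (nat_lit 5) (nat_lit 88) (nat_lit 5) (nat_lit 390) (nat_lit 364) (nat_lit 110)))) (XT.nd (nat_lit 94) (nat_lit 504) (nat_lit 0) (XT.lf (nat_lit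 0) (nat_lit 32731303240) (nat_lit 588) (nat_lit 7204185615) (nat_lit 84) (nat_lit 26944578471) (nat_lit 87) (nat_lit 5) (nat_lit 94) (nat_lit 5) (nat_lit 88) (nat_lit 5) (nat_lit 391) (nat_lit 364) (nat_lit 109)) (XT.nd (nat_lit 94) (nat_lit 0) (nat_lit 0) (XT.lf (nat_lit 0) (nat_lit 19610352318) (nat_lit 504) (nat_lit 18752589724) (nat_lit 588) (nat_lit 29805585854) (nat_lit 81) (nat_lit 5) (nat_lit 87) (nat_lit 5) (nat_lit 88) (nat_lit 5) (nat_lit 392) (nat_lit 364) (nat_lit 108)) (XT.lf (nat_lit 0) (nat_lit 44275140473) (nat_lit 588) (nat_lit 22117763072) (nat_lit 84) (nat_lit 3100743913) (nat_lit 81) (nat_lit 5) (nat_lit 88) (nat_lit 5) (nat_lit 82) (nat_lit 5) (nat_lit 393) (nat_lit 364) (nat_lit 107)))))) (XT.nd (nat_lit 564) (nat_lit 756) (nat_lit 0) (XT.nd (nat_lit 282) (nat_lit 924) (nat_lit 0) (XT.nd (nat_lit 94) (nat_lit 0) (nat_lit 0) (XT.lf (nat_lit 0) (nat_lit 5051669370)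 (nat_lit 420) (nat_lit 45560263702) (nat_lit 504) (nat_lit 20240433856) (nat_lit 76) (nat_lit 5) (nat_lit 81) (nat_lit 5) (nat_lit 82) (nat_lit 5) (nat_lit 394) (nat_lit 364) (nat_lit 106)) (XT.nd (nat_lit 94) (nat_lit 0) (nat_lit 0) (XT.lf (nat_lit 0) (nat_lit 33531627576) (nat_lit 420) (nat_lit 23843822437) (nat_lit 504) (nat_lit 14870619828) (nat_lit 76) (nat_lit 5) (nat_lit 81) (nat_lit 5) (nat_lit 82) (nat_lit 5) (nat_lit 395) (nat_lit 364) (nat_lit 105)) (XT.lf (nat_lit 0) (nat_lit 62893871279) (nat_lit 420) (nat_lit 1454201834) (nat_lit 504) (nat_lit 9334923758) (nat_lit 76) (nat_lit 5) (nat_lit 81) (nat_lit 5) (nat_lit 82) (nat_lit 5) (nat_lit 396) (nat_lit 364) (nat_lit 104)))) (XT.nd (nat_lit 94) (nat_lit 504) (nat_lit 0) (XT.lf (nat_lit 0) (nat_lit 18152446119) (nat_lit 420) (nat_lit 53778496978) (nat_lit 504) (nat_lit 3221310400) (nat_lit 71) (nat_lit 5) (nat_lit 76) (nat_lit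 5) (nat_lit 77) (nat_lit 5) (nat_lit 397) (nat_lit 364) (nat_lit 103)) (XT.nd (nat_lit 94) (nat_lit 420) (nat_lit 0) (XT.lf (nat_lit 0) (nat_lit 3147831423) (nat_lit 504) (nat_lit 28490833265) (nat_lit 84) (nat_lit 45023475323) (nat_lit 70) (nat_lit 5) (nat_lit 76) (nat_lit 5) (nat_lit 71) (nat_lit 5) (nat_lit 398) (nat_lit 364) (nat_lit 102)) (XT.lf (nat_lit 0) (nat_lit 886245869) (nat_lit 420) (nat_lit 8769521721) (nat_lit 504) (nat_lit 68561789520) (nat_lit 65) (nat_lit 5) (nat_lit 70) (nat_lit 5) (nat_lit 71) (nat_lit 5) (nat_lit 399) (nat_lit 364) (nat_lit 101))))) (XT.nd (nat_lit 282) (nat_lit 336) (nat_lit 0) (XT.nd (nat_lit 94) (nat_lit 420) (nat_lit 0) (XT.lf (nat_lit 0) (nat_lit 16812262982) (nat_lit 504) (nat_lit 48184506132) (nat_lit 84) (nat_lit 14810573428) (nat_lit 65) (nat_lit 5) (nat_lit 71) (nat_lit 5) (nat_lit 66) (nat_lit 5) (nat_lit 400) (nat_lit 364) (nat_lit 100))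 (XT.nd (nat_lit 94) (nat_lit 420) (nat_lit 0) (XT.lf (nat_lit 0) (nat_lit 24279799840) (nat_lit 504) (nat_lit 18224417542) (nat_lit 84) (nat_lit 38939430612) (nat_lit 65) (nat_lit 5) (nat_lit 71) (nat_lit 5) (nat_lit 66) (nat_lit 5) (nat_lit 401) (nat_lit 364) (nat_lit 99)) (XT.lf (nat_lit 0) (nat_lit 12924270458) (nat_lit 420) (nat_lit 19182283853) (nat_lit 504) (nat_lit 51020166677) (nat_lit 60) (nat_lit 5) (nat_lit 65) (nat_lit 5) (nat_lit 66) (nat_lit 5) (nat_lit 402) (nat_lit 364) (nat_lit 98)))) (XT.nd (nat_lit 94) (nat_lit 336) (nat_lit 0) (XT.lf (nat_lit 0) (nat_lit 40415869158) (nat_lit 504) (nat_lit 39481908284) (nat_lit 84) (nat_lit 4956755414) (nat_lit 60) (nat_lit 5) (nat_lit 66) (nat_lit 5) (nat_lit 61) (nat_lit 5) (nat_lit 403) (nat_lit 364) (nat_lit 97)) (XT.nd (nat_lit 94) (nat_lit 336) (nat_lit 0) (XT.lf (nat_lit 0) (nat_lit 49178498776) (nat_lit 504) (nat_lit 8005770219)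 (nat_lit 84) (nat_lit 29445571818) (nat_lit 60) (nat_lit 5) (nat_lit 66) (nat_lit 5) (nat_lit 61) (nat_lit 5) (nat_lit 404) (nat_lit 364) (nat_lit 96)) (XT.lf (nat_lit 0) (nat_lit 24948244887) (nat_lit 336) (nat_lit 33511565012) (nat_lit 420) (nat_lit 29992716562) (nat_lit 56) (nat_lit 5) (nat_lit 60) (nat_lit 5) (nat_lit 61) (nat_lit 5) (nat_lit 405) (nat_lit 364) (nat_lit 95))))))) (XT.nd (nat_lit 50478) (nat_lit 0) (nat_lit 6216) (XT.nd (nat_lit 564) (nat_lit 588) (nat_lit 0) (XT.nd (nat_lit 282) (nat_lit 420) (nat_lit 0) (XT.nd (nat_lit 94) (nat_lit 336) (nat_lit 0) (XT.lf (nat_lit 0) (nat_lit 59093023224) (nat_lit 336) (nat_lit 9018940845) (nat_lit 420) (nat_lit 22217175843) (nat_lit 56) (nat_lit 5) (nat_lit 60) (nat_lit 5) (nat_lit 61) (nat_lit 5) (nat_lit 406) (nat_lit 364) (nat_lit 94)) (XT.nd (nat_lit 94) (nat_lit 0) (nat_lit 0) (XT.lf (nat_lit 0) (nat_lit 1909268726) (nat_lit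 336) (nat_lit 76333610401) (nat_lit 420) (nat_lit 14015484688) (nat_lit 52) (nat_lit 5) (nat_lit 56) (nat_lit 5) (nat_lit 57) (nat_lit 5) (nat_lit 407) (nat_lit 364) (nat_lit 93)) (XT.lf (nat_lit 0) (nat_lit 36649689270) (nat_lit 336) (nat_lit 52455091682) (nat_lit 420) (nat_lit 5129689191) (nat_lit 52) (nat_lit 5) (nat_lit 56) (nat_lit 5) (nat_lit 57) (nat_lit 5) (nat_lit 408) (nat_lit 364) (nat_lit 92)))) (XT.nd (nat_lit 94) (nat_lit 336) (nat_lit 0) (XT.lf (nat_lit 0) (nat_lit 3949924912) (nat_lit 420) (nat_lit 23845282394) (nat_lit 84) (nat_lit 68475402678) (nat_lit 51) (nat_lit 5) (nat_lit 56) (nat_lit 5) (nat_lit 52) (nat_lit 5) (nat_lit 409) (nat_lit 364) (nat_lit 91)) (XT.nd (nat_lit 94) (nat_lit 0) (nat_lit 0) (XT.lf (nat_lit 0) (nat_lit 11111038207) (nat_lit 336) (nat_lit 2203234473) (nat_lit 420) (nat_lit 85050567768) (nat_lit 47) (nat_lit 5) (nat_lit 51) (nat_lit 5) (nat_lit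 52) (nat_lit 5) (nat_lit 410) (nat_lit 364) (nat_lit 90)) (XT.lf (nat_lit 0) (nat_lit 23459850637) (nat_lit 420) (nat_lit 53102706634) (nat_lit 84) (nat_lit 23946216907) (nat_lit 47) (nat_lit 5) (nat_lit 52) (nat_lit 5) (nat_lit 48) (nat_lit 5) (nat_lit 411) (nat_lit 364) (nat_lit 89))))) (XT.nd (nat_lit 282) (nat_lit 252) (nat_lit 0) (XT.nd (nat_lit 94) (nat_lit 336) (nat_lit 0) (XT.lf (nat_lit 0) (nat_lit 33942091926) (nat_lit 420) (nat_lit 17915953317) (nat_lit 84) (nat_lit 50860439030) (nat_lit 47) (nat_lit 5) (nat_lit 52) (nat_lit 5) (nat_lit 48) (nat_lit 5) (nat_lit 412) (nat_lit 364) (nat_lit 88)) (XT.nd (nat_lit 94) (nat_lit 0) (nat_lit 0) (XT.lf (nat_lit 0) (nat_lit 18738653923) (nat_lit 336) (nat_lit 26196146581) (nat_lit 420) (nat_lit 60056144878) (nat_lit 43) (nat_lit 5) (nat_lit 47) (nat_lit 5) (nat_lit 48) (nat_lit 5) (nat_lit 413) (nat_lit 364) (nat_lit 87)) (XT.lf (nat_lit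 0) (nat_lit 56459426799) (nat_lit 420) (nat_lit 50423681286) (nat_lit 84) (nat_lit 444820264) (nat_lit 43) (nat_lit 5) (nat_lit 48) (nat_lit 5) (nat_lit 44) (nat_lit 5) (nat_lit 414) (nat_lit 364) (nat_lit 86)))) (XT.nd (nat_lit 94) (nat_lit 252) (nat_lit 0) (XT.lf (nat_lit 0) (nat_lit 68608885959) (nat_lit 420) (nat_lit 13752778597) (nat_lit 84) (nat_lit 27367399568) (nat_lit 43) (nat_lit 5) (nat_lit 48) (nat_lit 5) (nat_lit 44) (nat_lit 5) (nat_lit 415) (nat_lit 364) (nat_lit 85)) (XT.nd (nat_lit 49444) (nat_lit 0) (nat_lit 6216) (XT.lf (nat_lit 0) (nat_lit 24549075918) (nat_lit 252) (nat_lit 56829087489) (nat_lit 336) (nat_lit 30818933924) (nat_lit 40) (nat_lit 5) (nat_lit 43) (nat_lit 5) (nat_lit 44) (nat_lit 5) (nat_lit 416) (nat_lit 364) (nat_lit 84)) (XT.lf (nat_lit 0) (nat_lit 4847514746) (nat_lit 0) (nat_lit 4847514746) (nat_lit 1092) (nat_lit 12006455057) (nat_lit 114) (nat_lit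 5) (nat_lit 114) (nat_lit 3) (nat_lit 127) (nat_lit 3) (nat_lit 365) (nat_lit 365) (nat_lit 134)))))) (XT.nd (nat_lit 564) (nat_lit 0) (nat_lit 168) (XT.nd (nat_lit 282) (nat_lit 0) (nat_lit 84) (XT.nd (nat_lit 94) (nat_lit 0) (nat_lit 0) (XT.lf (nat_lit 0) (nat_lit 19792516544) (nat_lit 1092) (nat_lit 17196515558) (nat_lit 1176) (nat_lit 7083410767) (nat_lit 114) (nat_lit 5) (nat_lit 127) (nat_lit 3) (nat_lit 128) (nat_lit 5) (nat_lit 366) (nat_lit 365) (nat_lit 133)) (XT.nd (nat_lit 94) (nat_lit 0) (nat_lit 0) (XT.lf (nat_lit 0) (nat_lit 20305396803) (nat_lit 1092) (nat_lit 273051451) (nat_lit 1176) (nat_lit 24181190281) (nat_lit 114) (nat_lit 5) (nat_lit 127) (nat_lit 3) (nat_lit 128) (nat_lit 5) (nat_lit 367) (nat_lit 365) (nat_lit 132)) (XT.lf (nat_lit 84) (nat_lit 17527543997) (nat_lit 0) (nat_lit 3479333338) (nat_lit 1176) (nat_lit 24455910617) (nat_lit 115) (nat_lit 5) (nat_lit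 114) (nat_lit 5) (nat_lit 128) (nat_lit 5) (nat_lit 368) (nat_lit 365) (nat_lit 131)))) (XT.nd (nat_lit 94) (nat_lit 0) (nat_lit 0) (XT.lf (nat_lit 0) (nat_lit 21872211059) (nat_lit 1092) (nat_lit 10442973095) (nat_lit 1176) (nat_lit 13868149803) (nat_lit 115) (nat_lit 5) (nat_lit 128) (nat_lit 5) (nat_lit 129) (nat_lit 5) (nat_lit 369) (nat_lit 365) (nat_lit 130)) (XT.nd (nat_lit 94) (nat_lit 0) (nat_lit 84) (XT.lf (nat_lit 84) (nat_lit 7710670456) (nat_lit 0) (nat_lit 15164669902) (nat_lit 1176) (nat_lit 24047440609) (nat_lit 116) (nat_lit 5) (nat_lit 115) (nat_lit 5) (nat_lit 129) (nat_lit 5) (nat_lit 370) (nat_lit 365) (nat_lit 129)) (XT.lf (nat_lit 0) (nat_lit 24043583868) (nat_lit 1092) (nat_lit 21060088352) (nat_lit 1176) (nat_lit 2577328110) (nat_lit 116) (nat_lit 5) (nat_lit 129) (nat_lit 5) (nat_lit 130) (nat_lit 5) (nat_lit 371) (nat_lit 365) (nat_lit 128))))) (XT.nd (nat_lit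 282) (nat_lit 0) (nat_lit 84) (XT.nd (nat_lit 94) (nat_lit 0) (nat_lit 0) (XT.lf (nat_lit 0) (nat_lit 25402099268) (nat_lit 1092) (nat_lit 2501121910) (nat_lit 1176) (nat_lit 20554731478) (nat_lit 116) (nat_lit 5) (nat_lit 129) (nat_lit 5) (nat_lit 130) (nat_lit 5) (nat_lit 372) (nat_lit 365) (nat_lit 127)) (XT.nd (nat_lit 94) (nat_lit 0) (nat_lit 84) (XT.lf (nat_lit 84) (nat_lit 16974521907) (nat_lit 0) (nat_lit 9995584886) (nat_lit 1176) (nat_lit 22283698780) (nat_lit 117) (nat_lit 5) (nat_lit 116) (nat_lit 5) (nat_lit 130) (nat_lit 5) (nat_lit 373) (nat_lit 365) (nat_lit 126)) (XT.lf (nat_lit 0) (nat_lit 28696107931) (nat_lit 1092) (nat_lit 13051530530) (nat_lit 1176) (nat_lit 8323304198) (nat_lit 117) (nat_lit 5) (nat_lit 130) (nat_lit 5) (nat_lit 131) (nat_lit 5) (nat_lit 374) (nat_lit 365) (nat_lit 125)))) (XT.nd (nat_lit 94) (nat_lit 0) (nat_lit 0) (XT.lf (nat_lit 84) (nat_lit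 6806527968) (nat_lit 0) (nat_lit 23837885869) (nat_lit 1176) (nat_lit 20263767965) (nat_lit 118) (nat_lit 5) (nat_lit 117) (nat_lit 5) (nat_lit 131) (nat_lit 5) (nat_lit 375) (nat_lit 365) (nat_lit 124)) (XT.nd (nat_lit 94) (nat_lit 0) (nat_lit 84) (XT.lf (nat_lit 84) (nat_lit 27556218518) (nat_lit 0) (nat_lit 5232197940) (nat_lit 1176) (nat_lit 18978768081) (nat_lit 118) (nat_lit 5) (nat_lit 117) (nat_lit 5) (nat_lit 131) (nat_lit 5) (nat_lit 376) (nat_lit 365) (nat_lit 123)) (XT.lf (nat_lit 0) (nat_lit 35136370256) (nat_lit 1092) (nat_lit 3842723022) (nat_lit 1176) (nat_lit 13669464340) (nat_lit 118) (nat_lit 5) (nat_lit 131) (nat_lit 5) (nat_lit 132) (nat_lit 5) (nat_lit 377) (nat_lit 365) (nat_lit 122))))))))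
noncomputable def xc230 : XT := (XT.nd (nat_lit 2256) (nat_lit 1848) (nat_lit 0) (XT.nd (nat_lit 1128) (nat_lit 2352) (nat_lit 0) (XT.nd (nat_lit 564) (nat_lit 1176) (nat_lit 0) (XT.nd (nat_lit 282) (nat_lit 924) (nat_lit 0) (XT.nd (nat_lit 94) (nat_lit 0) (nat_lit 0) (XT.lf (nat_lit 84) (nat_lit 17454442872) (nat_lit 0) (nat_lit 20328456885) (nat_lit 1176) (nat_lit 15767357296) (nat_lit 119) (nat_lit 5) (nat_lit 118) (nat_lit 5) (nat_lit 132) (nat_lit 5) (nat_lit 378) (nat_lit 365) (nat_lit 121)) (XT.nd (nat_lit 94) (nat_lit 0) (nat_lit 84) (XT.lf (nat_lit 84) (nat_lit 39492643489) (nat_lit 0) (nat_lit 1058084081) (nat_lit 1176) (nat_lit 13927967825) (nat_lit 119) (nat_lit 5) (nat_lit 118) (nat_lit 5) (nat_lit 132) (nat_lit 5) (nat_lit 379) (nat_lit 365) (nat_lit 120)) (XT.lf (nat_lit 84) (nat_lit 6726387815) (nat_lit 0) (nat_lit 36930464573) (nat_lit 1176) (nat_lit 11771238674) (nat_lit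 120) (nat_lit 5) (nat_lit 119) (nat_lit 5) (nat_lit 133) (nat_lit 5) (nat_lit 380) (nat_lit 365) (nat_lit 119)))) (XT.nd (nat_lit 94) (nat_lit 1008) (nat_lit 0) (XT.lf (nat_lit 84) (nat_lit 29417919325) (nat_lit 0) (nat_lit 17607675476) (nat_lit 1176) (nat_lit 9376170004) (nat_lit 120) (nat_lit 5) (nat_lit 119) (nat_lit 5) (nat_lit 133) (nat_lit 5) (nat_lit 381) (nat_lit 365) (nat_lit 118)) (XT.nd (nat_lit 94) (nat_lit 1092) (nat_lit 0) (XT.lf (nat_lit 0) (nat_lit 50520942371) (nat_lit 1092) (nat_lit 4616345833) (nat_lit 84) (nat_lit 2267649711) (nat_lit 120) (nat_lit 5) (nat_lit 133) (nat_lit 5) (nat_lit 121) (nat_lit 5) (nat_lit 382) (nat_lit 365) (nat_lit 117)) (XT.lf (nat_lit 0) (nat_lit 18639367264) (nat_lit 1092) (nat_lit 35849509687) (nat_lit 1176) (nat_lit 3939044067) (nat_lit 107) (nat_lit 5) (nat_lit 120) (nat_lit 5) (nat_lit 121) (nat_lit 5) (nat_lit 383) (nat_lit 365) (nat_lit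 116))))) (XT.nd (nat_lit 282) (nat_lit 588) (nat_lit 0) (XT.nd (nat_lit 94) (nat_lit 588) (nat_lit 0) (XT.lf (nat_lit 0) (nat_lit 42713242362) (nat_lit 1092) (nat_lit 15914018198) (nat_lit 1176) (nat_lit 853888011) (nat_lit 107) (nat_lit 5) (nat_lit 120) (nat_lit 5) (nat_lit 121) (nat_lit 5) (nat_lit 384) (nat_lit 365) (nat_lit 115)) (XT.nd (nat_lit 94) (nat_lit 0) (nat_lit 0) (XT.lf (nat_lit 0) (nat_lit 2396564560) (nat_lit 588) (nat_lit 53525711080) (nat_lit 84) (nat_lit 4640424808) (nat_lit 100) (nat_lit 5) (nat_lit 107) (nat_lit 5) (nat_lit 101) (nat_lit 5) (nat_lit 385) (nat_lit 365) (nat_lit 114)) (XT.lf (nat_lit 0) (nat_lit 6068906436) (nat_lit 588) (nat_lit 29910980544) (nat_lit 84) (nat_lit 25687120457) (nat_lit 100) (nat_lit 5) (nat_lit 107) (nat_lit 5) (nat_lit 101) (nat_lit 5) (nat_lit 386) (nat_lit 365) (nat_lit 113)))) (XT.nd (nat_lit 94) (nat_lit 588) (nat_lit 0) (XT.lf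 (nat_lit 0) (nat_lit 9854399295) (nat_lit 588) (nat_lit 5564820922) (nat_lit 84) (nat_lit 47386351564) (nat_lit 100) (nat_lit 5) (nat_lit 107) (nat_lit 5) (nat_lit 101) (nat_lit 5) (nat_lit 387) (nat_lit 365) (nat_lit 112)) (XT.nd (nat_lit 94) (nat_lit 0) (nat_lit 0) (XT.lf (nat_lit 0) (nat_lit 14013700723) (nat_lit 672) (nat_lit 44095523603) (nat_lit 84) (nat_lit 5862259412) (nat_lit 93) (nat_lit 5) (nat_lit 101) (nat_lit 5) (nat_lit 94) (nat_lit 5) (nat_lit 388) (nat_lit 365) (nat_lit 111)) (XT.lf (nat_lit 0) (nat_lit 18517666150) (nat_lit 672) (nat_lit 19107283739) (nat_lit 84) (nat_lit 27541903837) (nat_lit 93) (nat_lit 5) (nat_lit 101) (nat_lit 5) (nat_lit 94) (nat_lit 5) (nat_lit 389) (nat_lit 365) (nat_lit 110)))))) (XT.nd (nat_lit 564) (nat_lit 924) (nat_lit 0) (XT.nd (nat_lit 282) (nat_lit 924) (nat_lit 0) (XT.nd (nat_lit 94) (nat_lit 0) (nat_lit 0) (XT.lf (nat_lit 0) (nat_lit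 6791824829) (nat_lit 504) (nat_lit 16436169057) (nat_lit 588) (nat_lit 43169219565) (nat_lit 87) (nat_lit 5) (nat_lit 93) (nat_lit 5) (nat_lit 94) (nat_lit 5) (nat_lit 390) (nat_lit 365) (nat_lit 109)) (XT.nd (nat_lit 94) (nat_lit 0) (nat_lit 0) (XT.lf (nat_lit 0) (nat_lit 28338862036) (nat_lit 588) (nat_lit 33816986270) (nat_lit 84) (nat_lit 5501978017) (nat_lit 87) (nat_lit 5) (nat_lit 94) (nat_lit 5) (nat_lit 88) (nat_lit 5) (nat_lit 391) (nat_lit 365) (nat_lit 108)) (XT.lf (nat_lit 0) (nat_lit 33775666211) (nat_lit 588) (nat_lit 7397850461) (nat_lit 84) (nat_lit 27778811108) (nat_lit 87) (nat_lit 5) (nat_lit 94) (nat_lit 5) (nat_lit 88) (nat_lit 5) (nat_lit 392) (nat_lit 365) (nat_lit 107)))) (XT.nd (nat_lit 94) (nat_lit 420) (nat_lit 0) (XT.lf (nat_lit 0) (nat_lit 20247637817) (nat_lit 504) (nat_lit 19333646506) (nat_lit 588) (nat_lit 30699467993) (nat_lit 81) (nat_lit 5) (nat_lit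 87) (nat_lit 5) (nat_lit 88) (nat_lit 5) (nat_lit 393) (nat_lit 365) (nat_lit 106)) (XT.nd (nat_lit 94) (nat_lit 420) (nat_lit 0) (XT.lf (nat_lit 0) (nat_lit 45675888830) (nat_lit 588) (nat_lit 22773964833) (nat_lit 84) (nat_lit 3197126907) (nat_lit 81) (nat_lit 5) (nat_lit 88) (nat_lit 5) (nat_lit 82) (nat_lit 5) (nat_lit 394) (nat_lit 365) (nat_lit 105)) (XT.lf (nat_lit 0) (nat_lit 5237421871) (nat_lit 420) (nat_lit 46971140821) (nat_lit 504) (nat_lit 20839277850) (nat_lit 76) (nat_lit 5) (nat_lit 81) (nat_lit 5) (nat_lit 82) (nat_lit 5) (nat_lit 395) (nat_lit 365) (nat_lit 104))))) (XT.nd (nat_lit 282) (nat_lit 504) (nat_lit 0) (XT.nd (nat_lit 94) (nat_lit 420) (nat_lit 0) (XT.lf (nat_lit 0) (nat_lit 34599382279) (nat_lit 420) (nat_lit 24581534709) (nat_lit 504) (nat_lit 15303859814) (nat_lit 76) (nat_lit 5) (nat_lit 81) (nat_lit 5) (nat_lit 82) (nat_lit 5) (nat_lit 396) (nat_lit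 365) (nat_lit 103)) (XT.nd (nat_lit 94) (nat_lit 420) (nat_lit 0) (XT.lf (nat_lit 0) (nat_lit 64871005390) (nat_lit 420) (nat_lit 1497879353) (nat_lit 504) (nat_lit 9597391526) (nat_lit 76) (nat_lit 5) (nat_lit 81) (nat_lit 5) (nat_lit 82) (nat_lit 5) (nat_lit 397) (nat_lit 365) (nat_lit 102)) (XT.lf (nat_lit 0) (nat_lit 18743189091) (nat_lit 420) (nat_lit 55443143629) (nat_lit 504) (nat_lit 3294764963) (nat_lit 71) (nat_lit 5) (nat_lit 76) (nat_lit 5) (nat_lit 77) (nat_lit 5) (nat_lit 398) (nat_lit 365) (nat_lit 101)))) (XT.nd (nat_lit 94) (nat_lit 420) (nat_lit 0) (XT.lf (nat_lit 0) (nat_lit 3270510255) (nat_lit 504) (nat_lit 29346279103) (nat_lit 84) (nat_lit 46421019773) (nat_lit 70) (nat_lit 5) (nat_lit 76) (nat_lit 5) (nat_lit 71) (nat_lit 5) (nat_lit 399) (nat_lit 365) (nat_lit 100)) (XT.nd (nat_lit 94) (nat_lit 0) (nat_lit 0) (XT.lf (nat_lit 0) (nat_lit 941208338) (nat_lit 420)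 (nat_lit 9038502213) (nat_lit 504) (nat_lit 70661750931) (nat_lit 65) (nat_lit 5) (nat_lit 70) (nat_lit 5) (nat_lit 71) (nat_lit 5) (nat_lit 400) (nat_lit 365) (nat_lit 99)) (XT.lf (nat_lit 0) (nat_lit 17357344864) (nat_lit 504) (nat_lit 49650776522) (nat_lit 84) (nat_lit 15272433273) (nat_lit 65) (nat_lit 5) (nat_lit 71) (nat_lit 5) (nat_lit 66) (nat_lit 5) (nat_lit 401) (nat_lit 365) (nat_lit 98))))))) (XT.nd (nat_lit 1128) (nat_lit 336) (nat_lit 0) (XT.nd (nat_lit 564) (nat_lit 756) (nat_lit 0) (XT.nd (nat_lit 282) (nat_lit 336) (nat_lit 0) (XT.nd (nat_lit 94) (nat_lit 420) (nat_lit 0) (XT.lf (nat_lit 0) (nat_lit 25055656689) (nat_lit 504) (nat_lit 18762750528) (nat_lit 84) (nat_lit 40149202882) (nat_lit 65) (nat_lit 5) (nat_lit 71) (nat_lit 5) (nat_lit 66) (nat_lit 5) (nat_lit 402) (nat_lit 365) (nat_lit 97)) (XT.nd (nat_lit 94) (nat_lit 0) (nat_lit 0) (XT.lf (nat_lit 0) (nat_lit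 13351277256) (nat_lit 420) (nat_lit 19773327667) (nat_lit 504) (nat_lit 52578269113) (nat_lit 60) (nat_lit 5) (nat_lit 65) (nat_lit 5) (nat_lit 66) (nat_lit 5) (nat_lit 403) (nat_lit 365) (nat_lit 96)) (XT.lf (nat_lit 0) (nat_lit 41690859269) (nat_lit 504) (nat_lit 40679568163) (nat_lit 84) (nat_lit 5113842876) (nat_lit 60) (nat_lit 5) (nat_lit 66) (nat_lit 5) (nat_lit 61) (nat_lit 5) (nat_lit 404) (nat_lit 365) (nat_lit 95)))) (XT.nd (nat_lit 94) (nat_lit 336) (nat_lit 0) (XT.lf (nat_lit 0) (nat_lit 50724465959) (nat_lit 504) (nat_lit 8228459981) (nat_lit 84) (nat_lit 30361709514) (nat_lit 60) (nat_lit 5) (nat_lit 66) (nat_lit 5) (nat_lit 61) (nat_lit 5) (nat_lit 405) (nat_lit 365) (nat_lit 94)) (XT.nd (nat_lit 94) (nat_lit 0) (nat_lit 0) (XT.lf (nat_lit 0) (nat_lit 25746871539) (nat_lit 336) (nat_lit 34546232016) (nat_lit 420) (nat_lit 30900735005) (nat_lit 56) (nat_lit 5) (nat_lit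 60) (nat_lit 5) (nat_lit 61) (nat_lit 5) (nat_lit 406) (nat_lit 365) (nat_lit 93)) (XT.lf (nat_lit 0) (nat_lit 60949379359) (nat_lit 336) (nat_lit 9294462530) (nat_lit 420) (nat_lit 22884806675) (nat_lit 56) (nat_lit 5) (nat_lit 60) (nat_lit 5) (nat_lit 61) (nat_lit 5) (nat_lit 407) (nat_lit 365) (nat_lit 92))))) (XT.nd (nat_lit 282) (nat_lit 336) (nat_lit 0) (XT.nd (nat_lit 94) (nat_lit 84) (nat_lit 0) (XT.lf (nat_lit 0) (nat_lit 1993328441) (nat_lit 336) (nat_lit 78695159134) (nat_lit 420) (nat_lit 14429202859) (nat_lit 52) (nat_lit 5) (nat_lit 56) (nat_lit 5) (nat_lit 57) (nat_lit 5) (nat_lit 408) (nat_lit 365) (nat_lit 91)) (XT.nd (nat_lit 94) (nat_lit 84) (nat_lit 0) (XT.lf (nat_lit 0) (nat_lit 37809954162) (nat_lit 336) (nat_lit 54076550455) (nat_lit 420) (nat_lit 5268571966) (nat_lit 52) (nat_lit 5) (nat_lit 56) (nat_lit 5) (nat_lit 57) (nat_lit 5) (nat_lit 409) (nat_lit 365)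 (nat_lit 90)) (XT.lf (nat_lit 0) (nat_lit 4091511151) (nat_lit 420) (nat_lit 24560638534) (nat_lit 84) (nat_lit 70602200978) (nat_lit 51) (nat_lit 5) (nat_lit 56) (nat_lit 5) (nat_lit 52) (nat_lit 5) (nat_lit 410) (nat_lit 365) (nat_lit 89)))) (XT.nd (nat_lit 94) (nat_lit 0) (nat_lit 0) (XT.lf (nat_lit 0) (nat_lit 11479086571) (nat_lit 336) (nat_lit 2266725849) (nat_lit 420) (nat_lit 87667702084) (nat_lit 47) (nat_lit 5) (nat_lit 51) (nat_lit 5) (nat_lit 52) (nat_lit 5) (nat_lit 411) (nat_lit 365) (nat_lit 88)) (XT.nd (nat_lit 94) (nat_lit 0) (nat_lit 0) (XT.lf (nat_lit 0) (nat_lit 24205384368) (nat_lit 420) (nat_lit 54725423543) (nat_lit 84) (nat_lit 24693119955) (nat_lit 47) (nat_lit 5) (nat_lit 52) (nat_lit 5) (nat_lit 48) (nat_lit 5) (nat_lit 412) (nat_lit 365) (nat_lit 87)) (XT.lf (nat_lit 0) (nat_lit 35012025546) (nat_lit 420) (nat_lit 18448586476) (nat_lit 84) (nat_lit 52441545544)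 (nat_lit 47) (nat_lit 5) (nat_lit 52) (nat_lit 5) (nat_lit 48) (nat_lit 5) (nat_lit 413) (nat_lit 365) (nat_lit 86)))))) (XT.nd (nat_lit 50008) (nat_lit 0) (nat_lit 5964) (XT.nd (nat_lit 49726) (nat_lit 0) (nat_lit 5964) (XT.nd (nat_lit 94) (nat_lit 0) (nat_lit 0) (XT.lf (nat_lit 0) (nat_lit 19342083150) (nat_lit 336) (nat_lit 27003115383) (nat_lit 420) (nat_lit 61899877540) (nat_lit 43) (nat_lit 5) (nat_lit 47) (nat_lit 5) (nat_lit 48) (nat_lit 5) (nat_lit 414) (nat_lit 365) (nat_lit 85)) (XT.nd (nat_lit 94) (nat_lit 0) (nat_lit 0) (XT.lf (nat_lit 0) (nat_lit 58226613668) (nat_lit 420) (nat_lit 51964440176) (nat_lit 84) (nat_lit 463467841) (nat_lit 43) (nat_lit 5) (nat_lit 48) (nat_lit 5) (nat_lit 44) (nat_lit 5) (nat_lit 415) (nat_lit 365) (nat_lit 84)) (XT.lf (nat_lit 0) (nat_lit 70752196572) (nat_lit 420) (nat_lit 14157412280) (nat_lit 84) (nat_lit 28220501030) (nat_lit 43) (nat_lit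 5) (nat_lit 48) (nat_lit 5) (nat_lit 44) (nat_lit 5) (nat_lit 416) (nat_lit 365) (nat_lit 83)))) (XT.nd (nat_lit 94) (nat_lit 0) (nat_lit 0) (XT.lf (nat_lit 0) (nat_lit 5012737152) (nat_lit 0) (nat_lit 5012737152) (nat_lit 1092) (nat_lit 12347717529) (nat_lit 114) (nat_lit 5) (nat_lit 114) (nat_lit 3) (nat_lit 127) (nat_lit 3) (nat_lit 366) (nat_lit 366) (nat_lit 132)) (XT.nd (nat_lit 94) (nat_lit 0) (nat_lit 0) (XT.lf (nat_lit 0) (nat_lit 20463796676) (nat_lit 1092) (nat_lit 17698304947) (nat_lit 1176) (nat_lit 7274580883) (nat_lit 114) (nat_lit 5) (nat_lit 127) (nat_lit 3) (nat_lit 128) (nat_lit 5) (nat_lit 367) (nat_lit 366) (nat_lit 131)) (XT.lf (nat_lit 0) (nat_lit 20990840941) (nat_lit 1092) (nat_lit 251154656) (nat_lit 1176) (nat_lit 24903245960) (nat_lit 114) (nat_lit 5) (nat_lit 127) (nat_lit 3) (nat_lit 128) (nat_lit 5) (nat_lit 368) (nat_lit 366) (nat_lit 130))))) (XT.nd (nat_lit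 282) (nat_lit 0) (nat_lit 168) (XT.nd (nat_lit 94) (nat_lit 0) (nat_lit 84) (XT.lf (nat_lit 84) (nat_lit 18100951869) (nat_lit 0) (nat_lit 3611730535) (nat_lit 1176) (nat_lit 25157555465) (nat_lit 115) (nat_lit 5) (nat_lit 114) (nat_lit 5) (nat_lit 128) (nat_lit 5) (nat_lit 369) (nat_lit 366) (nat_lit 129)) (XT.nd (nat_lit 94) (nat_lit 0) (nat_lit 0) (XT.lf (nat_lit 0) (nat_lit 22602963911) (nat_lit 1092) (nat_lit 10735479328) (nat_lit 1176) (nat_lit 14274741904) (nat_lit 115) (nat_lit 5) (nat_lit 128) (nat_lit 5) (nat_lit 129) (nat_lit 5) (nat_lit 370) (nat_lit 366) (nat_lit 128)) (XT.lf (nat_lit 84) (nat_lit 7980611038) (nat_lit 0) (nat_lit 15655300800) (nat_lit 1176) (nat_lit 24739688756) (nat_lit 116) (nat_lit 5) (nat_lit 115) (nat_lit 5) (nat_lit 129) (nat_lit 5) (nat_lit 371) (nat_lit 366) (nat_lit 127)))) (XT.nd (nat_lit 94) (nat_lit 0) (nat_lit 0) (XT.lf (nat_lit 0) (nat_lit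 24838626829) (nat_lit 1092) (nat_lit 21681040323) (nat_lit 1176) (nat_lit 2637717448) (nat_lit 116) (nat_lit 5) (nat_lit 129) (nat_lit 5) (nat_lit 130) (nat_lit 5) (nat_lit 372) (nat_lit 366) (nat_lit 126)) (XT.nd (nat_lit 94) (nat_lit 0) (nat_lit 0) (XT.lf (nat_lit 0) (nat_lit 26237762076) (nat_lit 1092) (nat_lit 2547705410) (nat_lit 1176) (nat_lit 21173006880) (nat_lit 116) (nat_lit 5) (nat_lit 129) (nat_lit 5) (nat_lit 130) (nat_lit 5) (nat_lit 373) (nat_lit 366) (nat_lit 125)) (XT.lf (nat_lit 84) (nat_lit 17531370011) (nat_lit 0) (nat_lit 10321862551) (nat_lit 1176) (nat_lit 22925807098) (nat_lit 117) (nat_lit 5) (nat_lit 116) (nat_lit 5) (nat_lit 130) (nat_lit 5) (nat_lit 374) (nat_lit 366) (nat_lit 124))))))))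
noncomputable def xc231 : XT := (XT.nd (nat_lit 2256) (nat_lit 2772) (nat_lit 0) (XT.nd (nat_lit 1128) (nat_lit 2016) (nat_lit 0) (XT.nd (nat_lit 564) (nat_lit 1428) (nat_lit 0) (XT.nd (nat_lit 282) (nat_lit 0) (nat_lit 84) (XT.nd (nat_lit 94) (nat_lit 0) (nat_lit 0) (XT.lf (nat_lit 0) (nat_lit 29631167028) (nat_lit 1092) (nat_lit 13424668574) (nat_lit 1176) (nat_lit 8565726418) (nat_lit 117) (nat_lit 5) (nat_lit 130) (nat_lit 5) (nat_lit 131) (nat_lit 5) (nat_lit 375) (nat_lit 366) (nat_lit 123)) (XT.nd (nat_lit 94) (nat_lit 0) (nat_lit 0) (XT.lf (nat_lit 84) (nat_lit 7048671240) (nat_lit 0) (nat_lit 24590140619) (nat_lit 1176) (nat_lit 20845981643) (nat_lit 118) (nat_lit 5) (nat_lit 117) (nat_lit 5) (nat_lit 131) (nat_lit 5) (nat_lit 376) (nat_lit 366) (nat_lit 122)) (XT.lf (nat_lit 84) (nat_lit 28440665856) (nat_lit 0) (nat_lit 5407277054) (nat_lit 1176) (nat_lit 19522528778) (nat_lit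 118) (nat_lit 5) (nat_lit 117) (nat_lit 5) (nat_lit 131) (nat_lit 5) (nat_lit 377) (nat_lit 366) (nat_lit 121)))) (XT.nd (nat_lit 94) (nat_lit 0) (nat_lit 0) (XT.lf (nat_lit 0) (nat_lit 36267263845) (nat_lit 1092) (nat_lit 3930976517) (nat_lit 1176) (nat_lit 14080975780) (nat_lit 118) (nat_lit 5) (nat_lit 131) (nat_lit 5) (nat_lit 132) (nat_lit 5) (nat_lit 378) (nat_lit 366) (nat_lit 120)) (XT.nd (nat_lit 94) (nat_lit 0) (nat_lit 0) (XT.lf (nat_lit 84) (nat_lit 18026088979) (nat_lit 0) (nat_lit 20968797112) (nat_lit 1176) (nat_lit 16214016273) (nat_lit 119) (nat_lit 5) (nat_lit 118) (nat_lit 5) (nat_lit 132) (nat_lit 5) (nat_lit 379) (nat_lit 366) (nat_lit 119)) (XT.lf (nat_lit 84) (nat_lit 40746554989) (nat_lit 0) (nat_lit 1100737319) (nat_lit 1176) (nat_lit 14318872462) (nat_lit 119) (nat_lit 5) (nat_lit 118) (nat_lit 5) (nat_lit 132) (nat_lit 5) (nat_lit 380) (nat_lit 366) (nat_lit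 118))))) (XT.nd (nat_lit 282) (nat_lit 1596) (nat_lit 0) (XT.nd (nat_lit 94) (nat_lit 0) (nat_lit 0) (XT.lf (nat_lit 84) (nat_lit 6965698376) (nat_lit 0) (nat_lit 38083031838) (nat_lit 1176) (nat_lit 12096296156) (nat_lit 120) (nat_lit 5) (nat_lit 119) (nat_lit 5) (nat_lit 133) (nat_lit 5) (nat_lit 381) (nat_lit 366) (nat_lit 117)) (XT.nd (nat_lit 94) (nat_lit 0) (nat_lit 84) (XT.lf (nat_lit 84) (nat_lit 30359741496) (nat_lit 0) (nat_lit 18161004069) (nat_lit 1176) (nat_lit 9628178590) (nat_lit 120) (nat_lit 5) (nat_lit 119) (nat_lit 5) (nat_lit 133) (nat_lit 5) (nat_lit 382) (nat_lit 366) (nat_lit 116)) (XT.lf (nat_lit 0) (nat_lit 52123253580) (nat_lit 1092) (nat_lit 4729155427) (nat_lit 84) (nat_lit 2330827808) (nat_lit 120) (nat_lit 5) (nat_lit 133) (nat_lit 5) (nat_lit 121) (nat_lit 5) (nat_lit 383) (nat_lit 366) (nat_lit 115)))) (XT.nd (nat_lit 94) (nat_lit 588) (nat_lit 0) (XT.lf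 (nat_lit 0) (nat_lit 19247178046) (nat_lit 1092) (nat_lit 36966226280) (nat_lit 1176) (nat_lit 4024556557) (nat_lit 107) (nat_lit 5) (nat_lit 120) (nat_lit 5) (nat_lit 121) (nat_lit 5) (nat_lit 384) (nat_lit 366) (nat_lit 114)) (XT.nd (nat_lit 94) (nat_lit 588) (nat_lit 0) (XT.lf (nat_lit 0) (nat_lit 44066441523) (nat_lit 1092) (nat_lit 16412572736) (nat_lit 1176) (nat_lit 844861084) (nat_lit 107) (nat_lit 5) (nat_lit 120) (nat_lit 5) (nat_lit 121) (nat_lit 5) (nat_lit 385) (nat_lit 366) (nat_lit 113)) (XT.lf (nat_lit 0) (nat_lit 2504844624) (nat_lit 588) (nat_lit 55154169236) (nat_lit 84) (nat_lit 4779958873) (nat_lit 100) (nat_lit 5) (nat_lit 107) (nat_lit 5) (nat_lit 101) (nat_lit 5) (nat_lit 386) (nat_lit 366) (nat_lit 112)))))) (XT.nd (nat_lit 564) (nat_lit 924) (nat_lit 0) (XT.nd (nat_lit 282) (nat_lit 504) (nat_lit 0) (XT.nd (nat_lit 94) (nat_lit 588) (nat_lit 0) (XT.lf (nat_lit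 0) (nat_lit 6290007193) (nat_lit 588) (nat_lit 30808309313) (nat_lit 84) (nat_lit 26479231954) (nat_lit 100) (nat_lit 5) (nat_lit 107) (nat_lit 5) (nat_lit 101) (nat_lit 5) (nat_lit 387) (nat_lit 366) (nat_lit 111)) (XT.nd (nat_lit 94) (nat_lit 588) (nat_lit 0) (XT.lf (nat_lit 0) (nat_lit 10191859153) (nat_lit 588) (nat_lit 5708318122) (nat_lit 84) (nat_lit 48851265186) (nat_lit 100) (nat_lit 5) (nat_lit 107) (nat_lit 5) (nat_lit 101) (nat_lit 5) (nat_lit 388) (nat_lit 366) (nat_lit 110)) (XT.lf (nat_lit 0) (nat_lit 14479396862) (nat_lit 672) (nat_lit 45432662991) (nat_lit 84) (nat_lit 6041462934) (nat_lit 93) (nat_lit 5) (nat_lit 101) (nat_lit 5) (nat_lit 94) (nat_lit 5) (nat_lit 389) (nat_lit 366) (nat_lit 109)))) (XT.nd (nat_lit 94) (nat_lit 504) (nat_lit 0) (XT.lf (nat_lit 0) (nat_lit 19122044952) (nat_lit 672) (nat_lit 19670684371) (nat_lit 84) (nat_lit 28393252303) (nat_lit 93)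 (nat_lit 5) (nat_lit 101) (nat_lit 5) (nat_lit 94) (nat_lit 5) (nat_lit 390) (nat_lit 366) (nat_lit 108)) (XT.nd (nat_lit 94) (nat_lit 0) (nat_lit 0) (XT.lf (nat_lit 0) (nat_lit 7031003722) (nat_lit 504) (nat_lit 16946761169) (nat_lit 588) (nat_lit 44476740216) (nat_lit 87) (nat_lit 5) (nat_lit 93) (nat_lit 5) (nat_lit 94) (nat_lit 5) (nat_lit 391) (nat_lit 366) (nat_lit 107)) (XT.lf (nat_lit 0) (nat_lit 29246166537) (nat_lit 588) (nat_lit 34836539898) (nat_lit 84) (nat_lit 5671521590) (nat_lit 87) (nat_lit 5) (nat_lit 94) (nat_lit 5) (nat_lit 88) (nat_lit 5) (nat_lit 392) (nat_lit 366) (nat_lit 106))))) (XT.nd (nat_lit 282) (nat_lit 420) (nat_lit 0) (XT.nd (nat_lit 94) (nat_lit 504) (nat_lit 0) (XT.lf (nat_lit 0) (nat_lit 34850645692) (nat_lit 588) (nat_lit 7599276020) (nat_lit 84) (nat_lit 28638967109) (nat_lit 87) (nat_lit 5) (nat_lit 94) (nat_lit 5) (nat_lit 88) (nat_lit 5) (nat_lit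 393) (nat_lit 366) (nat_lit 105)) (XT.nd (nat_lit 94) (nat_lit 0) (nat_lit 0) (XT.lf (nat_lit 0) (nat_lit 20902939853) (nat_lit 504) (nat_lit 19932732247) (nat_lit 588) (nat_lit 31622842820) (nat_lit 81) (nat_lit 5) (nat_lit 87) (nat_lit 5) (nat_lit 88) (nat_lit 5) (nat_lit 394) (nat_lit 366) (nat_lit 104)) (XT.lf (nat_lit 0) (nat_lit 47118388925) (nat_lit 588) (nat_lit 23452253157) (nat_lit 84) (nat_lit 3296482377) (nat_lit 81) (nat_lit 5) (nat_lit 88) (nat_lit 5) (nat_lit 82) (nat_lit 5) (nat_lit 395) (nat_lit 366) (nat_lit 103)))) (XT.nd (nat_lit 94) (nat_lit 0) (nat_lit 0) (XT.lf (nat_lit 0) (nat_lit 5427206050) (nat_lit 420) (nat_lit 48425843449) (nat_lit 504) (nat_lit 21458380595) (nat_lit 76) (nat_lit 5) (nat_lit 81) (nat_lit 5) (nat_lit 82) (nat_lit 5) (nat_lit 396) (nat_lit 366) (nat_lit 102)) (XT.nd (nat_lit 94) (nat_lit 0) (nat_lit 0) (XT.lf (nat_lit 0) (nat_lit 35698562647)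 (nat_lit 420) (nat_lit 25342201724) (nat_lit 504) (nat_lit 15752173873) (nat_lit 76) (nat_lit 5) (nat_lit 81) (nat_lit 5) (nat_lit 82) (nat_lit 5) (nat_lit 397) (nat_lit 366) (nat_lit 101)) (XT.lf (nat_lit 0) (nat_lit 66907806283) (nat_lit 420) (nat_lit 1542993961) (nat_lit 504) (nat_lit 9869590009) (nat_lit 76) (nat_lit 5) (nat_lit 81) (nat_lit 5) (nat_lit 82) (nat_lit 5) (nat_lit 398) (nat_lit 366) (nat_lit 100))))))) (XT.nd (nat_lit 1128) (nat_lit 756) (nat_lit 0) (XT.nd (nat_lit 564) (nat_lit 672) (nat_lit 0) (XT.nd (nat_lit 282) (nat_lit 420) (nat_lit 0) (XT.nd (nat_lit 94) (nat_lit 504) (nat_lit 0) (XT.lf (nat_lit 0) (nat_lit 19350585591) (nat_lit 420) (nat_lit 57159541622) (nat_lit 504) (nat_lit 3372060694) (nat_lit 71) (nat_lit 5) (nat_lit 76) (nat_lit 5) (nat_lit 77) (nat_lit 5) (nat_lit 399) (nat_lit 366) (nat_lit 99)) (XT.nd (nat_lit 94) (nat_lit 420) (nat_lit 0) (XT.lf (nat_lit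 0) (nat_lit 3395505649) (nat_lit 504) (nat_lit 30229888626) (nat_lit 84) (nat_lit 47861780494) (nat_lit 70) (nat_lit 5) (nat_lit 76) (nat_lit 5) (nat_lit 71) (nat_lit 5) (nat_lit 400) (nat_lit 366) (nat_lit 98)) (XT.lf (nat_lit 0) (nat_lit 996246432) (nat_lit 420) (nat_lit 9315991372) (nat_lit 504) (nat_lit 72828318834) (nat_lit 65) (nat_lit 5) (nat_lit 70) (nat_lit 5) (nat_lit 71) (nat_lit 5) (nat_lit 401) (nat_lit 366) (nat_lit 97)))) (XT.nd (nat_lit 94) (nat_lit 420) (nat_lit 0) (XT.lf (nat_lit 0) (nat_lit 17917908543) (nat_lit 504) (nat_lit 51164127163) (nat_lit 84) (nat_lit 15748448948) (nat_lit 65) (nat_lit 5) (nat_lit 71) (nat_lit 5) (nat_lit 66) (nat_lit 5) (nat_lit 402) (nat_lit 366) (nat_lit 96)) (XT.nd (nat_lit 94) (nat_lit 420) (nat_lit 0) (XT.lf (nat_lit 0) (nat_lit 25854191929) (nat_lit 504) (nat_lit 19319348820) (nat_lit 84) (nat_lit 41396321134) (nat_lit 65) (nat_lit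 5) (nat_lit 71) (nat_lit 5) (nat_lit 66) (nat_lit 5) (nat_lit 403) (nat_lit 366) (nat_lit 95)) (XT.lf (nat_lit 0) (nat_lit 13789960247) (nat_lit 420) (nat_lit 20382907487) (nat_lit 504) (nat_lit 54186066017) (nat_lit 60) (nat_lit 5) (nat_lit 65) (nat_lit 5) (nat_lit 66) (nat_lit 5) (nat_lit 404) (nat_lit 366) (nat_lit 94))))) (XT.nd (nat_lit 282) (nat_lit 336) (nat_lit 0) (XT.nd (nat_lit 94) (nat_lit 336) (nat_lit 0) (XT.lf (nat_lit 0) (nat_lit 43004065160) (nat_lit 504) (nat_lit 41915912065) (nat_lit 84) (nat_lit 5275597000) (nat_lit 60) (nat_lit 5) (nat_lit 66) (nat_lit 5) (nat_lit 61) (nat_lit 5) (nat_lit 405) (nat_lit 366) (nat_lit 93)) (XT.nd (nat_lit 94) (nat_lit 336) (nat_lit 0) (XT.lf (nat_lit 0) (nat_lit 52317088568) (nat_lit 504) (nat_lit 8459562889) (nat_lit 84) (nat_lit 31306050535) (nat_lit 60) (nat_lit 5) (nat_lit 66) (nat_lit 5) (nat_lit 61) (nat_lit 5) (nat_lit 406) (nat_lit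 366) (nat_lit 92)) (XT.lf (nat_lit 0) (nat_lit 26568761138) (nat_lit 336) (nat_lit 35613221968) (nat_lit 420) (nat_lit 31838190652) (nat_lit 56) (nat_lit 5) (nat_lit 60) (nat_lit 5) (nat_lit 61) (nat_lit 5) (nat_lit 407) (nat_lit 366) (nat_lit 91)))) (XT.nd (nat_lit 94) (nat_lit 336) (nat_lit 0) (XT.lf (nat_lit 0) (nat_lit 62861832992) (nat_lit 336) (nat_lit 9578766193) (nat_lit 420) (nat_lit 23574383946) (nat_lit 56) (nat_lit 5) (nat_lit 60) (nat_lit 5) (nat_lit 61) (nat_lit 5) (nat_lit 408) (nat_lit 366) (nat_lit 90)) (XT.nd (nat_lit 94) (nat_lit 0) (nat_lit 0) (XT.lf (nat_lit 0) (nat_lit 2078520774) (nat_lit 336) (nat_lit 81130199786) (nat_lit 420) (nat_lit 14856976053) (nat_lit 52) (nat_lit 5) (nat_lit 56) (nat_lit 5) (nat_lit 57) (nat_lit 5) (nat_lit 409) (nat_lit 366) (nat_lit 89)) (XT.lf (nat_lit 0) (nat_lit 39004758329) (nat_lit 336) (nat_lit 55748549823) (nat_lit 420) (nat_lit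 5412952892) (nat_lit 52) (nat_lit 5) (nat_lit 56) (nat_lit 5) (nat_lit 57) (nat_lit 5) (nat_lit 410) (nat_lit 366) (nat_lit 88)))))) (XT.nd (nat_lit 50102) (nat_lit 0) (nat_lit 5964) (XT.nd (nat_lit 282) (nat_lit 336) (nat_lit 0) (XT.nd (nat_lit 94) (nat_lit 336) (nat_lit 0) (XT.lf (nat_lit 0) (nat_lit 4236352953) (nat_lit 420) (nat_lit 25299583249) (nat_lit 84) (nat_lit 72794689497) (nat_lit 51) (nat_lit 5) (nat_lit 56) (nat_lit 5) (nat_lit 52) (nat_lit 5) (nat_lit 411) (nat_lit 366) (nat_lit 87)) (XT.nd (nat_lit 94) (nat_lit 0) (nat_lit 0) (XT.lf (nat_lit 0) (nat_lit 11857146199) (nat_lit 336) (nat_lit 2332470297) (nat_lit 420) (nat_lit 90367118629) (nat_lit 47) (nat_lit 5) (nat_lit 51) (nat_lit 5) (nat_lit 52) (nat_lit 5) (nat_lit 412) (nat_lit 366) (nat_lit 86)) (XT.lf (nat_lit 0) (nat_lit 24972946987) (nat_lit 420) (nat_lit 56399834667) (nat_lit 84) (nat_lit 25462906290) (nat_lit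 47) (nat_lit 5) (nat_lit 52) (nat_lit 5) (nat_lit 48) (nat_lit 5) (nat_lit 413) (nat_lit 366) (nat_lit 85)))) (XT.nd (nat_lit 94) (nat_lit 336) (nat_lit 0) (XT.lf (nat_lit 0) (nat_lit 36114077002) (nat_lit 420) (nat_lit 18999079460) (nat_lit 84) (nat_lit 54071403792) (nat_lit 47) (nat_lit 5) (nat_lit 52) (nat_lit 5) (nat_lit 48) (nat_lit 5) (nat_lit 414) (nat_lit 366) (nat_lit 84)) (XT.nd (nat_lit 94) (nat_lit 0) (nat_lit 0) (XT.lf (nat_lit 0) (nat_lit 19962884135) (nat_lit 336) (nat_lit 27835402996) (nat_lit 420) (nat_lit 63801832550) (nat_lit 43) (nat_lit 5) (nat_lit 47) (nat_lit 5) (nat_lit 48) (nat_lit 5) (nat_lit 415) (nat_lit 366) (nat_lit 83)) (XT.lf (nat_lit 0) (nat_lit 60047579670) (nat_lit 420) (nat_lit 53554287915) (nat_lit 84) (nat_lit 482405736) (nat_lit 43) (nat_lit 5) (nat_lit 48) (nat_lit 5) (nat_lit 44) (nat_lit 5) (nat_lit 416) (nat_lit 366) (nat_lit 82))))) (XT.nd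 (nat_lit 282) (nat_lit 0) (nat_lit 0) (XT.nd (nat_lit 94) (nat_lit 0) (nat_lit 0) (XT.lf (nat_lit 0) (nat_lit 5182195972) (nat_lit 0) (nat_lit 5182195972) (nat_lit 1092) (nat_lit 12701391626) (nat_lit 114) (nat_lit 5) (nat_lit 114) (nat_lit 3) (nat_lit 127) (nat_lit 3) (nat_lit 367) (nat_lit 367) (nat_lit 130)) (XT.nd (nat_lit 94) (nat_lit 0) (nat_lit 0) (XT.lf (nat_lit 0) (nat_lit 21152468105) (nat_lit 1092) (nat_lit 18217503914) (nat_lit 1176) (nat_lit 7473360379) (nat_lit 114) (nat_lit 5) (nat_lit 127) (nat_lit 3) (nat_lit 128) (nat_lit 5) (nat_lit 368) (nat_lit 367) (nat_lit 129)) (XT.lf (nat_lit 0) (nat_lit 21694218244) (nat_lit 1092) (nat_lit 230377417) (nat_lit 1176) (nat_lit 25649317863) (nat_lit 114) (nat_lit 5) (nat_lit 127) (nat_lit 3) (nat_lit 128) (nat_lit 5) (nat_lit 369) (nat_lit 367) (nat_lit 128)))) (XT.nd (nat_lit 94) (nat_lit 0) (nat_lit 84) (XT.lf (nat_lit 84) (nat_lit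 18690355235) (nat_lit 0) (nat_lit 3746778624) (nat_lit 1176) (nat_lit 25884297207) (nat_lit 115) (nat_lit 5) (nat_lit 114) (nat_lit 5) (nat_lit 128) (nat_lit 5) (nat_lit 370) (nat_lit 367) (nat_lit 127)) (XT.nd (nat_lit 94) (nat_lit 0) (nat_lit 0) (XT.lf (nat_lit 0) (nat_lit 23353247743) (nat_lit 1092) (nat_lit 11038902821) (nat_lit 1176) (nat_lit 14695319676) (nat_lit 115) (nat_lit 5) (nat_lit 128) (nat_lit 5) (nat_lit 129) (nat_lit 5) (nat_lit 371) (nat_lit 367) (nat_lit 126)) (XT.lf (nat_lit 84) (nat_lit 8257088939) (nat_lit 0) (nat_lit 16159925459) (nat_lit 1176) (nat_lit 25456549056) (nat_lit 116) (nat_lit 5) (nat_lit 115) (nat_lit 5) (nat_lit 129) (nat_lit 5) (nat_lit 372) (nat_lit 367) (nat_lit 125))))))))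
noncomputable def xc232 : XT := (XT.nd (nat_lit 2256) (nat_lit 3192) (nat_lit 0) (XT.nd (nat_lit 1128) (nat_lit 2940) (nat_lit 0) (XT.nd (nat_lit 564) (nat_lit 0) (nat_lit 168) (XT.nd (nat_lit 282) (nat_lit 0) (nat_lit 84) (XT.nd (nat_lit 94) (nat_lit 0) (nat_lit 0) (XT.lf (nat_lit 0) (nat_lit 25655372787) (nat_lit 1092) (nat_lit 22323131933) (nat_lit 1176) (nat_lit 2701134339) (nat_lit 116) (nat_lit 5) (nat_lit 129) (nat_lit 5) (nat_lit 130) (nat_lit 5) (nat_lit 373) (nat_lit 367) (nat_lit 124)) (XT.nd (nat_lit 94) (nat_lit 0) (nat_lit 0) (XT.lf (nat_lit 0) (nat_lit 27096475597) (nat_lit 1092) (nat_lit 2597566296) (nat_lit 1176) (nat_lit 21811569560) (nat_lit 116) (nat_lit 5) (nat_lit 129) (nat_lit 5) (nat_lit 130) (nat_lit 5) (nat_lit 374) (nat_lit 367) (nat_lit 123)) (XT.lf (nat_lit 84) (nat_lit 18103665670) (nat_lit 0) (nat_lit 10657282562) (nat_lit 1176) (nat_lit 23590704550) (nat_lit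 117) (nat_lit 5) (nat_lit 116) (nat_lit 5) (nat_lit 130) (nat_lit 5) (nat_lit 375) (nat_lit 367) (nat_lit 122)))) (XT.nd (nat_lit 94) (nat_lit 0) (nat_lit 0) (XT.lf (nat_lit 0) (nat_lit 30592519115) (nat_lit 1092) (nat_lit 13811237291) (nat_lit 1176) (nat_lit 8816587753) (nat_lit 117) (nat_lit 5) (nat_lit 130) (nat_lit 5) (nat_lit 131) (nat_lit 5) (nat_lit 376) (nat_lit 367) (nat_lit 121)) (XT.nd (nat_lit 94) (nat_lit 0) (nat_lit 0) (XT.lf (nat_lit 84) (nat_lit 7296476424) (nat_lit 0) (nat_lit 25364928652) (nat_lit 1176) (nat_lit 21448966421) (nat_lit 118) (nat_lit 5) (nat_lit 117) (nat_lit 5) (nat_lit 131) (nat_lit 5) (nat_lit 377) (nat_lit 367) (nat_lit 120)) (XT.lf (nat_lit 84) (nat_lit 29350741992) (nat_lit 0) (nat_lit 5587020658) (nat_lit 1176) (nat_lit 20085786672) (nat_lit 118) (nat_lit 5) (nat_lit 117) (nat_lit 5) (nat_lit 131) (nat_lit 5) (nat_lit 378) (nat_lit 367) (nat_lit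 119))))) (XT.nd (nat_lit 282) (nat_lit 0) (nat_lit 84) (XT.nd (nat_lit 94) (nat_lit 0) (nat_lit 0) (XT.lf (nat_lit 0) (nat_lit 37430747180) (nat_lit 1092) (nat_lit 4023794409) (nat_lit 1176) (nat_lit 14505969187) (nat_lit 118) (nat_lit 5) (nat_lit 131) (nat_lit 5) (nat_lit 132) (nat_lit 5) (nat_lit 379) (nat_lit 367) (nat_lit 118)) (XT.nd (nat_lit 94) (nat_lit 0) (nat_lit 0) (XT.lf (nat_lit 84) (nat_lit 18613646090) (nat_lit 0) (nat_lit 21628386207) (nat_lit 1176) (nat_lit 16677017057) (nat_lit 119) (nat_lit 5) (nat_lit 118) (nat_lit 5) (nat_lit 132) (nat_lit 5) (nat_lit 380) (nat_lit 367) (nat_lit 117)) (XT.lf (nat_lit 84) (nat_lit 42037582144) (nat_lit 0) (nat_lit 1144129220) (nat_lit 1176) (nat_lit 14724315490) (nat_lit 119) (nat_lit 5) (nat_lit 118) (nat_lit 5) (nat_lit 132) (nat_lit 5) (nat_lit 381) (nat_lit 367) (nat_lit 116)))) (XT.nd (nat_lit 94) (nat_lit 0) (nat_lit 0) (XT.lf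 (nat_lit 84) (nat_lit 7210603669) (nat_lit 0) (nat_lit 39270871251) (nat_lit 1176) (nat_lit 12433790859) (nat_lit 120) (nat_lit 5) (nat_lit 119) (nat_lit 5) (nat_lit 133) (nat_lit 5) (nat_lit 382) (nat_lit 367) (nat_lit 115)) (XT.nd (nat_lit 94) (nat_lit 0) (nat_lit 84) (XT.lf (nat_lit 84) (nat_lit 31328991100) (nat_lit 0) (nat_lit 18731042165) (nat_lit 1176) (nat_lit 9890288908) (nat_lit 120) (nat_lit 5) (nat_lit 119) (nat_lit 5) (nat_lit 133) (nat_lit 5) (nat_lit 383) (nat_lit 367) (nat_lit 114)) (XT.lf (nat_lit 0) (nat_lit 53773094499) (nat_lit 1092) (nat_lit 4847256669) (nat_lit 84) (nat_lit 2396386100) (nat_lit 120) (nat_lit 5) (nat_lit 133) (nat_lit 5) (nat_lit 121) (nat_lit 5) (nat_lit 384) (nat_lit 367) (nat_lit 113)))))) (XT.nd (nat_lit 564) (nat_lit 1008) (nat_lit 0) (XT.nd (nat_lit 282) (nat_lit 588) (nat_lit 0) (XT.nd (nat_lit 94) (nat_lit 588) (nat_lit 0) (XT.lf (nat_lit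 0) (nat_lit 19872054578) (nat_lit 1092) (nat_lit 38117242314) (nat_lit 1176) (nat_lit 4114887688) (nat_lit 107) (nat_lit 5) (nat_lit 120) (nat_lit 5) (nat_lit 121) (nat_lit 5) (nat_lit 385) (nat_lit 367) (nat_lit 112)) (XT.nd (nat_lit 94) (nat_lit 588) (nat_lit 0) (XT.lf (nat_lit 0) (nat_lit 45459866888) (nat_lit 1092) (nat_lit 16926273276) (nat_lit 1176) (nat_lit 837656898) (nat_lit 107) (nat_lit 5) (nat_lit 120) (nat_lit 5) (nat_lit 121) (nat_lit 5) (nat_lit 386) (nat_lit 367) (nat_lit 111)) (XT.lf (nat_lit 0) (nat_lit 2614468286) (nat_lit 588) (nat_lit 56834936234) (nat_lit 84) (nat_lit 4924074322) (nat_lit 100) (nat_lit 5) (nat_lit 107) (nat_lit 5) (nat_lit 101) (nat_lit 5) (nat_lit 387) (nat_lit 367) (nat_lit 110)))) (XT.nd (nat_lit 94) (nat_lit 588) (nat_lit 0) (XT.lf (nat_lit 0) (nat_lit 6516009520) (nat_lit 588) (nat_lit 31735226991) (nat_lit 84) (nat_lit 27296147043) (nat_lit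 100) (nat_lit 5) (nat_lit 107) (nat_lit 5) (nat_lit 101) (nat_lit 5) (nat_lit 388) (nat_lit 367) (nat_lit 109)) (XT.nd (nat_lit 94) (nat_lit 588) (nat_lit 0) (XT.lf (nat_lit 0) (nat_lit 10537886422) (nat_lit 588) (nat_lit 5857982181) (nat_lit 84) (nat_lit 50361831806) (nat_lit 100) (nat_lit 5) (nat_lit 107) (nat_lit 5) (nat_lit 101) (nat_lit 5) (nat_lit 389) (nat_lit 367) (nat_lit 108)) (XT.lf (nat_lit 0) (nat_lit 14957677322) (nat_lit 672) (nat_lit 46813020098) (nat_lit 84) (nat_lit 6226371415) (nat_lit 93) (nat_lit 5) (nat_lit 101) (nat_lit 5) (nat_lit 94) (nat_lit 5) (nat_lit 390) (nat_lit 367) (nat_lit 107))))) (XT.nd (nat_lit 282) (nat_lit 504) (nat_lit 0) (XT.nd (nat_lit 94) (nat_lit 504) (nat_lit 0) (XT.lf (nat_lit 0) (nat_lit 19743362931) (nat_lit 672) (nat_lit 20253263710) (nat_lit 84) (nat_lit 29271137722) (nat_lit 93) (nat_lit 5) (nat_lit 101) (nat_lit 5) (nat_lit 94) (nat_lit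 5) (nat_lit 391) (nat_lit 367) (nat_lit 106)) (XT.nd (nat_lit 94) (nat_lit 0) (nat_lit 0) (XT.lf (nat_lit 0) (nat_lit 7275901218) (nat_lit 504) (nat_lit 17473118207) (nat_lit 588) (nat_lit 45826613910) (nat_lit 87) (nat_lit 5) (nat_lit 93) (nat_lit 5) (nat_lit 94) (nat_lit 5) (nat_lit 392) (nat_lit 367) (nat_lit 105)) (XT.lf (nat_lit 0) (nat_lit 30179891616) (nat_lit 588) (nat_lit 35889403959) (nat_lit 84) (nat_lit 5846381297) (nat_lit 87) (nat_lit 5) (nat_lit 94) (nat_lit 5) (nat_lit 88) (nat_lit 5) (nat_lit 393) (nat_lit 367) (nat_lit 104)))) (XT.nd (nat_lit 94) (nat_lit 504) (nat_lit 0) (XT.lf (nat_lit 0) (nat_lit 35957294968) (nat_lit 588) (nat_lit 7808598799) (nat_lit 84) (nat_lit 29525846416) (nat_lit 87) (nat_lit 5) (nat_lit 94) (nat_lit 5) (nat_lit 88) (nat_lit 5) (nat_lit 394) (nat_lit 367) (nat_lit 103)) (XT.nd (nat_lit 94) (nat_lit 0) (nat_lit 0) (XT.lf (nat_lit 0) (nat_lit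 21576919961) (nat_lit 504) (nat_lit 20550404887) (nat_lit 588) (nat_lit 32576519040) (nat_lit 81) (nat_lit 5) (nat_lit 87) (nat_lit 5) (nat_lit 88) (nat_lit 5) (nat_lit 395) (nat_lit 367) (nat_lit 102)) (XT.lf (nat_lit 0) (nat_lit 48604034067) (nat_lit 588) (nat_lit 24153209409) (nat_lit 84) (nat_lit 3398903382) (nat_lit 81) (nat_lit 5) (nat_lit 88) (nat_lit 5) (nat_lit 82) (nat_lit 5) (nat_lit 396) (nat_lit 367) (nat_lit 101))))))) (XT.nd (nat_lit 1128) (nat_lit 1092) (nat_lit 0) (XT.nd (nat_lit 564) (nat_lit 756) (nat_lit 0) (XT.nd (nat_lit 282) (nat_lit 924) (nat_lit 0) (XT.nd (nat_lit 94) (nat_lit 0) (nat_lit 0) (XT.lf (nat_lit 0) (nat_lit 5621249163) (nat_lit 420) (nat_lit 49925724944) (nat_lit 504) (nat_lit 22098269740) (nat_lit 76) (nat_lit 5) (nat_lit 81) (nat_lit 5) (nat_lit 82) (nat_lit 5) (nat_lit 397) (nat_lit 367) (nat_lit 100)) (XT.nd (nat_lit 94) (nat_lit 0) (nat_lit 0)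 (XT.lf (nat_lit 0) (nat_lit 36830242070) (nat_lit 420) (nat_lit 26126530005) (nat_lit 504) (nat_lit 16215931948) (nat_lit 76) (nat_lit 5) (nat_lit 81) (nat_lit 5) (nat_lit 82) (nat_lit 5) (nat_lit 398) (nat_lit 367) (nat_lit 99)) (XT.lf (nat_lit 0) (nat_lit 69006219841) (nat_lit 420) (nat_lit 1589585287) (nat_lit 504) (nat_lit 10151726431) (nat_lit 76) (nat_lit 5) (nat_lit 81) (nat_lit 5) (nat_lit 82) (nat_lit 5) (nat_lit 399) (nat_lit 367) (nat_lit 98)))) (XT.nd (nat_lit 94) (nat_lit 504) (nat_lit 0) (XT.lf (nat_lit 0) (nat_lit 19975250174) (nat_lit 420) (nat_lit 58929286522) (nat_lit 504) (nat_lit 3453224025) (nat_lit 71) (nat_lit 5) (nat_lit 76) (nat_lit 5) (nat_lit 77) (nat_lit 5) (nat_lit 400) (nat_lit 367) (nat_lit 97)) (XT.nd (nat_lit 94) (nat_lit 420) (nat_lit 0) (XT.lf (nat_lit 0) (nat_lit 3522977465) (nat_lit 504) (nat_lit 31142437481) (nat_lit 84) (nat_lit 49347103564) (nat_lit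 70) (nat_lit 5) (nat_lit 76) (nat_lit 5) (nat_lit 71) (nat_lit 5) (nat_lit 401) (nat_lit 367) (nat_lit 96)) (XT.lf (nat_lit 0) (nat_lit 1051458937) (nat_lit 420) (nat_lit 9602242882) (nat_lit 504) (nat_lit 75063468727) (nat_lit 65) (nat_lit 5) (nat_lit 70) (nat_lit 5) (nat_lit 71) (nat_lit 5) (nat_lit 402) (nat_lit 367) (nat_lit 95))))) (XT.nd (nat_lit 282) (nat_lit 336) (nat_lit 0) (XT.nd (nat_lit 94) (nat_lit 420) (nat_lit 0) (XT.lf (nat_lit 0) (nat_lit 18494517813) (nat_lit 504) (nat_lit 52725921241) (nat_lit 84) (nat_lit 16239068870) (nat_lit 65) (nat_lit 5) (nat_lit 71) (nat_lit 5) (nat_lit 66) (nat_lit 5) (nat_lit 403) (nat_lit 367) (nat_lit 94)) (XT.nd (nat_lit 94) (nat_lit 420) (nat_lit 0) (XT.lf (nat_lit 0) (nat_lit 26676189925) (nat_lit 504) (nat_lit 19894685234) (nat_lit 84) (nat_lit 42681952389) (nat_lit 65) (nat_lit 5) (nat_lit 71) (nat_lit 5) (nat_lit 66) (nat_lit 5) (nat_lit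 404) (nat_lit 367) (nat_lit 93)) (XT.lf (nat_lit 0) (nat_lit 14240773856) (nat_lit 420) (nat_lit 21011585274) (nat_lit 504) (nat_lit 55845015389) (nat_lit 60) (nat_lit 5) (nat_lit 65) (nat_lit 5) (nat_lit 66) (nat_lit 5) (nat_lit 405) (nat_lit 367) (nat_lit 92)))) (XT.nd (nat_lit 94) (nat_lit 336) (nat_lit 0) (XT.lf (nat_lit 0) (nat_lit 44356749051) (nat_lit 504) (nat_lit 43192046997) (nat_lit 84) (nat_lit 5442174480) (nat_lit 60) (nat_lit 5) (nat_lit 66) (nat_lit 5) (nat_lit 61) (nat_lit 5) (nat_lit 406) (nat_lit 367) (nat_lit 91)) (XT.nd (nat_lit 94) (nat_lit 336) (nat_lit 0) (XT.lf (nat_lit 0) (nat_lit 53957888121) (nat_lit 504) (nat_lit 8699250326) (nat_lit 84) (nat_lit 32279480850) (nat_lit 60) (nat_lit 5) (nat_lit 66) (nat_lit 5) (nat_lit 61) (nat_lit 5) (nat_lit 407) (nat_lit 367) (nat_lit 90)) (XT.lf (nat_lit 0) (nat_lit 27414723356) (nat_lit 336) (nat_lit 36713522173) (nat_lit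 420) (nat_lit 32805919727) (nat_lit 56) (nat_lit 5) (nat_lit 60) (nat_lit 5) (nat_lit 61) (nat_lit 5) (nat_lit 408) (nat_lit 367) (nat_lit 89)))))) (XT.nd (nat_lit 564) (nat_lit 336) (nat_lit 0) (XT.nd (nat_lit 282) (nat_lit 420) (nat_lit 0) (XT.nd (nat_lit 94) (nat_lit 336) (nat_lit 0) (XT.lf (nat_lit 0) (nat_lit 64832209003) (nat_lit 336) (nat_lit 9872109811) (nat_lit 420) (nat_lit 24286513966) (nat_lit 56) (nat_lit 5) (nat_lit 60) (nat_lit 5) (nat_lit 61) (nat_lit 5) (nat_lit 409) (nat_lit 367) (nat_lit 88)) (XT.nd (nat_lit 94) (nat_lit 0) (nat_lit 0) (XT.lf (nat_lit 0) (nat_lit 2164968098) (nat_lit 336) (nat_lit 83640993791) (nat_lit 420) (nat_lit 15299167136) (nat_lit 52) (nat_lit 5) (nat_lit 56) (nat_lit 5) (nat_lit 57) (nat_lit 5) (nat_lit 410) (nat_lit 367) (nat_lit 87)) (XT.lf (nat_lit 0) (nat_lit 40235257126) (nat_lit 336) (nat_lit 57472640233) (nat_lit 420) (nat_lit 5562931759)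 (nat_lit 52) (nat_lit 5) (nat_lit 56) (nat_lit 5) (nat_lit 57) (nat_lit 5) (nat_lit 411) (nat_lit 367) (nat_lit 86)))) (XT.nd (nat_lit 94) (nat_lit 336) (nat_lit 0) (XT.lf (nat_lit 0) (nat_lit 4384618387) (nat_lit 420) (nat_lit 26062764118) (nat_lit 84) (nat_lit 75054918877) (nat_lit 51) (nat_lit 5) (nat_lit 56) (nat_lit 5) (nat_lit 52) (nat_lit 5) (nat_lit 412) (nat_lit 367) (nat_lit 85)) (XT.nd (nat_lit 94) (nat_lit 0) (nat_lit 0) (XT.lf (nat_lit 0) (nat_lit 12245610261) (nat_lit 336) (nat_lit 2400520789) (nat_lit 420) (nat_lit 93151299975) (nat_lit 47) (nat_lit 5) (nat_lit 51) (nat_lit 5) (nat_lit 52) (nat_lit 5) (nat_lit 413) (nat_lit 367) (nat_lit 84)) (XT.lf (nat_lit 0) (nat_lit 25763285516) (nat_lit 420) (nat_lit 58127460194) (nat_lit 84) (nat_lit 26256301327) (nat_lit 47) (nat_lit 5) (nat_lit 52) (nat_lit 5) (nat_lit 48) (nat_lit 5) (nat_lit 414) (nat_lit 367) (nat_lit 83)))))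 (XT.nd (nat_lit 49914) (nat_lit 0) (nat_lit 5964) (XT.nd (nat_lit 94) (nat_lit 336) (nat_lit 0) (XT.lf (nat_lit 0) (nat_lit 37249304148) (nat_lit 420) (nat_lit 19567906067) (nat_lit 84) (nat_lit 55751540629) (nat_lit 47) (nat_lit 5) (nat_lit 52) (nat_lit 5) (nat_lit 48) (nat_lit 5) (nat_lit 415) (nat_lit 367) (nat_lit 82)) (XT.nd (nat_lit 49726) (nat_lit 0) (nat_lit 5964) (XT.lf (nat_lit 0) (nat_lit 20601674451) (nat_lit 336) (nat_lit 28693776367) (nat_lit 420) (nat_lit 65763751620) (nat_lit 43) (nat_lit 5) (nat_lit 47) (nat_lit 5) (nat_lit 48) (nat_lit 5) (nat_lit 416) (nat_lit 367) (nat_lit 81)) (XT.lf (nat_lit 0) (nat_lit 5356074982) (nat_lit 0) (nat_lit 5356074982) (nat_lit 1092) (nat_lit 13067753568) (nat_lit 114) (nat_lit 5) (nat_lit 114) (nat_lit 3) (nat_lit 127) (nat_lit 3) (nat_lit 368) (nat_lit 368) (nat_lit 128)))) (XT.nd (nat_lit 94) (nat_lit 0) (nat_lit 0) (XT.lf (nat_lit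 0) (nat_lit 21859272438) (nat_lit 1092) (nat_lit 18754542332) (nat_lit 1176) (nat_lit 7679885451) (nat_lit 114) (nat_lit 5) (nat_lit 127) (nat_lit 3) (nat_lit 128) (nat_lit 5) (nat_lit 369) (nat_lit 368) (nat_lit 127)) (XT.nd (nat_lit 94) (nat_lit 0) (nat_lit 0) (XT.lf (nat_lit 0) (nat_lit 22416281028) (nat_lit 1092) (nat_lit 210647921) (nat_lit 1176) (nat_lit 26420053798) (nat_lit 114) (nat_lit 5) (nat_lit 127) (nat_lit 3) (nat_lit 128) (nat_lit 5) (nat_lit 370) (nat_lit 368) (nat_lit 126)) (XT.lf (nat_lit 84) (nat_lit 19296355396) (nat_lit 0) (nat_lit 3884645874) (nat_lit 1176) (nat_lit 26636715663) (nat_lit 115) (nat_lit 5) (nat_lit 114) (nat_lit 5) (nat_lit 128) (nat_lit 5) (nat_lit 371) (nat_lit 368) (nat_lit 125))))))))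
noncomputable def xc233 : XT := (XT.nd (nat_lit 2256) (nat_lit 3360) (nat_lit 0) (XT.nd (nat_lit 1128) (nat_lit 2352) (nat_lit 0) (XT.nd (nat_lit 564) (nat_lit 0) (nat_lit 168) (XT.nd (nat_lit 282) (nat_lit 0) (nat_lit 84) (XT.nd (nat_lit 94) (nat_lit 0) (nat_lit 0) (XT.lf (nat_lit 0) (nat_lit 24123852957) (nat_lit 1092) (nat_lit 11353472453) (nat_lit 1176) (nat_lit 15130234857) (nat_lit 115) (nat_lit 5) (nat_lit 128) (nat_lit 5) (nat_lit 129) (nat_lit 5) (nat_lit 372) (nat_lit 368) (nat_lit 124)) (XT.nd (nat_lit 94) (nat_lit 0) (nat_lit 84) (XT.lf (nat_lit 84) (nat_lit 8540415257) (nat_lit 0) (nat_lit 16679049697) (nat_lit 1176) (nat_lit 26198597760) (nat_lit 116) (nat_lit 5) (nat_lit 115) (nat_lit 5) (nat_lit 129) (nat_lit 5) (nat_lit 373) (nat_lit 368) (nat_lit 123)) (XT.lf (nat_lit 0) (nat_lit 26494668874) (nat_lit 1092) (nat_lit 22986906558) (nat_lit 1176) (nat_lit 2767604194) (nat_lit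 116) (nat_lit 5) (nat_lit 129) (nat_lit 5) (nat_lit 130) (nat_lit 5) (nat_lit 374) (nat_lit 368) (nat_lit 122)))) (XT.nd (nat_lit 94) (nat_lit 0) (nat_lit 0) (XT.lf (nat_lit 0) (nat_lit 27979123500) (nat_lit 1092) (nat_lit 2650697577) (nat_lit 1176) (nat_lit 22470982038) (nat_lit 116) (nat_lit 5) (nat_lit 129) (nat_lit 5) (nat_lit 130) (nat_lit 5) (nat_lit 375) (nat_lit 368) (nat_lit 121)) (XT.nd (nat_lit 94) (nat_lit 0) (nat_lit 84) (XT.lf (nat_lit 84) (nat_lit 18691995247) (nat_lit 0) (nat_lit 11002185922) (nat_lit 1176) (nat_lit 24278926787) (nat_lit 117) (nat_lit 5) (nat_lit 116) (nat_lit 5) (nat_lit 130) (nat_lit 5) (nat_lit 376) (nat_lit 368) (nat_lit 120)) (XT.lf (nat_lit 0) (nat_lit 31581138833) (nat_lit 1092) (nat_lit 14211542660) (nat_lit 1176) (nat_lit 9076095086) (nat_lit 117) (nat_lit 5) (nat_lit 130) (nat_lit 5) (nat_lit 131) (nat_lit 5) (nat_lit 377) (nat_lit 368) (nat_lit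 119))))) (XT.nd (nat_lit 282) (nat_lit 0) (nat_lit 84) (XT.nd (nat_lit 94) (nat_lit 0) (nat_lit 0) (XT.lf (nat_lit 84) (nat_lit 7550228294) (nat_lit 0) (nat_lit 26162995092) (nat_lit 1176) (nat_lit 22073204944) (nat_lit 118) (nat_lit 5) (nat_lit 117) (nat_lit 5) (nat_lit 131) (nat_lit 5) (nat_lit 378) (nat_lit 368) (nat_lit 118)) (XT.nd (nat_lit 94) (nat_lit 0) (nat_lit 84) (XT.lf (nat_lit 84) (nat_lit 30287347391) (nat_lit 0) (nat_lit 5771618543) (nat_lit 1176) (nat_lit 20668989769) (nat_lit 118) (nat_lit 5) (nat_lit 117) (nat_lit 5) (nat_lit 131) (nat_lit 5) (nat_lit 379) (nat_lit 368) (nat_lit 117)) (XT.lf (nat_lit 0) (nat_lit 38627976725) (nat_lit 1092) (nat_lit 4121209884) (nat_lit 1176) (nat_lit 14944819552) (nat_lit 118) (nat_lit 5) (nat_lit 131) (nat_lit 5) (nat_lit 132) (nat_lit 5) (nat_lit 380) (nat_lit 368) (nat_lit 116)))) (XT.nd (nat_lit 94) (nat_lit 0) (nat_lit 0) (XT.lf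 (nat_lit 84) (nat_lit 19217714658) (nat_lit 0) (nat_lit 22307856522) (nat_lit 1176) (nat_lit 17156718438) (nat_lit 119) (nat_lit 5) (nat_lit 118) (nat_lit 5) (nat_lit 132) (nat_lit 5) (nat_lit 381) (nat_lit 368) (nat_lit 115)) (XT.nd (nat_lit 94) (nat_lit 0) (nat_lit 84) (XT.lf (nat_lit 84) (nat_lit 43366979527) (nat_lit 0) (nat_lit 1188317248) (nat_lit 1176) (nat_lit 15144604238) (nat_lit 119) (nat_lit 5) (nat_lit 118) (nat_lit 5) (nat_lit 132) (nat_lit 5) (nat_lit 382) (nat_lit 368) (nat_lit 114)) (XT.lf (nat_lit 84) (nat_lit 7461385164) (nat_lit 0) (nat_lit 40495103342) (nat_lit 1176) (nat_lit 12783968522) (nat_lit 120) (nat_lit 5) (nat_lit 119) (nat_lit 5) (nat_lit 133) (nat_lit 5) (nat_lit 383) (nat_lit 368) (nat_lit 113)))))) (XT.nd (nat_lit 564) (nat_lit 1092) (nat_lit 0) (XT.nd (nat_lit 282) (nat_lit 588) (nat_lit 0) (XT.nd (nat_lit 94) (nat_lit 1008) (nat_lit 0) (XT.lf (nat_lit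 84) (nat_lit 32326623171) (nat_lit 0) (nat_lit 19318334037) (nat_lit 1176) (nat_lit 10162678501) (nat_lit 120) (nat_lit 5) (nat_lit 119) (nat_lit 5) (nat_lit 133) (nat_lit 5) (nat_lit 384) (nat_lit 368) (nat_lit 112)) (XT.nd (nat_lit 94) (nat_lit 1092) (nat_lit 0) (XT.lf (nat_lit 0) (nat_lit 55472065421) (nat_lit 1092) (nat_lit 4970707306) (nat_lit 84) (nat_lit 2464373396) (nat_lit 120) (nat_lit 5) (nat_lit 133) (nat_lit 5) (nat_lit 121) (nat_lit 5) (nat_lit 385) (nat_lit 368) (nat_lit 111)) (XT.lf (nat_lit 0) (nat_lit 20514631119) (nat_lit 1092) (nat_lit 39303639954) (nat_lit 1176) (nat_lit 4210058440) (nat_lit 107) (nat_lit 5) (nat_lit 120) (nat_lit 5) (nat_lit 121) (nat_lit 5) (nat_lit 386) (nat_lit 368) (nat_lit 110)))) (XT.nd (nat_lit 94) (nat_lit 588) (nat_lit 0) (XT.lf (nat_lit 0) (nat_lit 46894867523) (nat_lit 1092) (nat_lit 17455607659) (nat_lit 1176) (nat_lit 832207417) (nat_lit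 107) (nat_lit 5) (nat_lit 120) (nat_lit 5) (nat_lit 121) (nat_lit 5) (nat_lit 387) (nat_lit 368) (nat_lit 109)) (XT.nd (nat_lit 94) (nat_lit 0) (nat_lit 0) (XT.lf (nat_lit 0) (nat_lit 2725596439) (nat_lit 588) (nat_lit 58569525454) (nat_lit 84) (nat_lit 5072898025) (nat_lit 100) (nat_lit 5) (nat_lit 107) (nat_lit 5) (nat_lit 101) (nat_lit 5) (nat_lit 388) (nat_lit 368) (nat_lit 108)) (XT.lf (nat_lit 0) (nat_lit 6747181019) (nat_lit 588) (nat_lit 32692545892) (nat_lit 84) (nat_lit 28138619938) (nat_lit 100) (nat_lit 5) (nat_lit 107) (nat_lit 5) (nat_lit 101) (nat_lit 5) (nat_lit 389) (nat_lit 368) (nat_lit 107))))) (XT.nd (nat_lit 282) (nat_lit 504) (nat_lit 0) (XT.nd (nat_lit 94) (nat_lit 588) (nat_lit 0) (XT.lf (nat_lit 0) (nat_lit 10892858868) (nat_lit 588) (nat_lit 6013902485) (nat_lit 84) (nat_lit 51919452410) (nat_lit 100) (nat_lit 5) (nat_lit 107) (nat_lit 5) (nat_lit 101) (nat_lit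 5) (nat_lit 390) (nat_lit 368) (nat_lit 106)) (XT.nd (nat_lit 94) (nat_lit 0) (nat_lit 0) (XT.lf (nat_lit 0) (nat_lit 15449041929) (nat_lit 672) (nat_lit 48237830049) (nat_lit 84) (nat_lit 6417152845) (nat_lit 93) (nat_lit 5) (nat_lit 101) (nat_lit 5) (nat_lit 94) (nat_lit 5) (nat_lit 391) (nat_lit 368) (nat_lit 105)) (XT.lf (nat_lit 0) (nat_lit 20382251614) (nat_lit 672) (nat_lit 20855514815) (nat_lit 84) (nat_lit 30176374141) (nat_lit 93) (nat_lit 5) (nat_lit 101) (nat_lit 5) (nat_lit 94) (nat_lit 5) (nat_lit 392) (nat_lit 368) (nat_lit 104)))) (XT.nd (nat_lit 94) (nat_lit 0) (nat_lit 0) (XT.lf (nat_lit 0) (nat_lit 7526795049) (nat_lit 504) (nat_lit 18015732640) (nat_lit 588) (nat_lit 47220045796) (nat_lit 87) (nat_lit 5) (nat_lit 93) (nat_lit 5) (nat_lit 94) (nat_lit 5) (nat_lit 393) (nat_lit 368) (nat_lit 103)) (XT.nd (nat_lit 94) (nat_lit 0) (nat_lit 0) (XT.lf (nat_lit 0) (nat_lit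 31140957354) (nat_lit 588) (nat_lit 36976510129) (nat_lit 84) (nat_lit 6026718367) (nat_lit 87) (nat_lit 5) (nat_lit 94) (nat_lit 5) (nat_lit 88) (nat_lit 5) (nat_lit 394) (nat_lit 368) (nat_lit 102)) (XT.lf (nat_lit 0) (nat_lit 37096693807) (nat_lit 588) (nat_lit 8025965699) (nat_lit 84) (nat_lit 30440273988) (nat_lit 87) (nat_lit 5) (nat_lit 94) (nat_lit 5) (nat_lit 88) (nat_lit 5) (nat_lit 395) (nat_lit 368) (nat_lit 101))))))) (XT.nd (nat_lit 1128) (nat_lit 1092) (nat_lit 0) (XT.nd (nat_lit 564) (nat_lit 924) (nat_lit 0) (XT.nd (nat_lit 282) (nat_lit 420) (nat_lit 0) (XT.nd (nat_lit 94) (nat_lit 420) (nat_lit 0) (XT.lf (nat_lit 0) (nat_lit 22270254080) (nat_lit 504) (nat_lit 21187239716) (nat_lit 588) (nat_lit 33561336675) (nat_lit 81) (nat_lit 5) (nat_lit 87) (nat_lit 5) (nat_lit 88) (nat_lit 5) (nat_lit 396) (nat_lit 368) (nat_lit 100)) (XT.nd (nat_lit 94) (nat_lit 420) (nat_lit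 0) (XT.lf (nat_lit 0) (nat_lit 50134254892) (nat_lit 588) (nat_lit 24877439097) (nat_lit 84) (nat_lit 3504485812) (nat_lit 81) (nat_lit 5) (nat_lit 88) (nat_lit 5) (nat_lit 82) (nat_lit 5) (nat_lit 397) (nat_lit 368) (nat_lit 99)) (XT.lf (nat_lit 0) (nat_lit 5819779450) (nat_lit 420) (nat_lit 51472180931) (nat_lit 504) (nat_lit 22759495233) (nat_lit 76) (nat_lit 5) (nat_lit 81) (nat_lit 5) (nat_lit 82) (nat_lit 5) (nat_lit 398) (nat_lit 368) (nat_lit 98)))) (XT.nd (nat_lit 94) (nat_lit 420) (nat_lit 0) (XT.lf (nat_lit 0) (nat_lit 37995521343) (nat_lit 420) (nat_lit 26935248278) (nat_lit 504) (nat_lit 16695521213) (nat_lit 76) (nat_lit 5) (nat_lit 81) (nat_lit 5) (nat_lit 82) (nat_lit 5) (nat_lit 399) (nat_lit 368) (nat_lit 97)) (XT.nd (nat_lit 94) (nat_lit 420) (nat_lit 0) (XT.lf (nat_lit 0) (nat_lit 71168246573) (nat_lit 420) (nat_lit 1637694480) (nat_lit 504) (nat_lit 10444020032)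 (nat_lit 76) (nat_lit 5) (nat_lit 81) (nat_lit 5) (nat_lit 82) (nat_lit 5) (nat_lit 400) (nat_lit 368) (nat_lit 96)) (XT.lf (nat_lit 0) (nat_lit 20617810625) (nat_lit 420) (nat_lit 60754023876) (nat_lit 504) (nat_lit 3538287698) (nat_lit 71) (nat_lit 5) (nat_lit 76) (nat_lit 5) (nat_lit 77) (nat_lit 5) (nat_lit 401) (nat_lit 368) (nat_lit 95))))) (XT.nd (nat_lit 282) (nat_lit 420) (nat_lit 0) (XT.nd (nat_lit 94) (nat_lit 420) (nat_lit 0) (XT.lf (nat_lit 0) (nat_lit 3653085302) (nat_lit 504) (nat_lit 32084731128) (nat_lit 84) (nat_lit 50878376412) (nat_lit 70) (nat_lit 5) (nat_lit 76) (nat_lit 5) (nat_lit 71) (nat_lit 5) (nat_lit 402) (nat_lit 368) (nat_lit 94)) (XT.nd (nat_lit 94) (nat_lit 0) (nat_lit 0) (XT.lf (nat_lit 0) (nat_lit 1106941990) (nat_lit 420) (nat_lit 9897518888) (nat_lit 504) (nat_lit 77369242637) (nat_lit 65) (nat_lit 5) (nat_lit 70) (nat_lit 5) (nat_lit 71) (nat_lit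 5) (nat_lit 403) (nat_lit 368) (nat_lit 93)) (XT.lf (nat_lit 0) (nat_lit 19087748977) (nat_lit 504) (nat_lit 54337569901) (nat_lit 84) (nat_lit 16744754786) (nat_lit 65) (nat_lit 5) (nat_lit 71) (nat_lit 5) (nat_lit 66) (nat_lit 5) (nat_lit 404) (nat_lit 368) (nat_lit 92)))) (XT.nd (nat_lit 94) (nat_lit 420) (nat_lit 0) (XT.lf (nat_lit 0) (nat_lit 27522454539) (nat_lit 504) (nat_lit 20489252777) (nat_lit 84) (nat_lit 44007299296) (nat_lit 65) (nat_lit 5) (nat_lit 71) (nat_lit 5) (nat_lit 66) (nat_lit 5) (nat_lit 405) (nat_lit 368) (nat_lit 91)) (XT.nd (nat_lit 94) (nat_lit 0) (nat_lit 0) (XT.lf (nat_lit 0) (nat_lit 14704181117) (nat_lit 420) (nat_lit 21659941161) (nat_lit 504) (nat_lit 57556625317) (nat_lit 60) (nat_lit 5) (nat_lit 65) (nat_lit 5) (nat_lit 66) (nat_lit 5) (nat_lit 406) (nat_lit 368) (nat_lit 90)) (XT.lf (nat_lit 0) (nat_lit 45750207697) (nat_lit 504) (nat_lit 44509119743)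 (nat_lit 84) (nat_lit 5613736154) (nat_lit 60) (nat_lit 5) (nat_lit 66) (nat_lit 5) (nat_lit 61) (nat_lit 5) (nat_lit 407) (nat_lit 368) (nat_lit 89)))))) (XT.nd (nat_lit 564) (nat_lit 336) (nat_lit 0) (XT.nd (nat_lit 282) (nat_lit 420) (nat_lit 0) (XT.nd (nat_lit 94) (nat_lit 336) (nat_lit 0) (XT.lf (nat_lit 0) (nat_lit 55648428846) (nat_lit 504) (nat_lit 8947704282) (nat_lit 84) (nat_lit 33282913200) (nat_lit 60) (nat_lit 5) (nat_lit 66) (nat_lit 5) (nat_lit 61) (nat_lit 5) (nat_lit 408) (nat_lit 368) (nat_lit 88)) (XT.nd (nat_lit 94) (nat_lit 0) (nat_lit 0) (XT.lf (nat_lit 0) (nat_lit 28285587723) (nat_lit 336) (nat_lit 37848151415) (nat_lit 420) (nat_lit 33804788900) (nat_lit 56) (nat_lit 5) (nat_lit 60) (nat_lit 5) (nat_lit 61) (nat_lit 5) (nat_lit 409) (nat_lit 368) (nat_lit 87)) (XT.lf (nat_lit 0) (nat_lit 66862383760) (nat_lit 336) (nat_lit 10174760205) (nat_lit 420) (nat_lit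 25021826221) (nat_lit 56) (nat_lit 5) (nat_lit 60) (nat_lit 5) (nat_lit 61) (nat_lit 5) (nat_lit 410) (nat_lit 368) (nat_lit 86)))) (XT.nd (nat_lit 94) (nat_lit 84) (nat_lit 0) (XT.lf (nat_lit 0) (nat_lit 2252791410) (nat_lit 336) (nat_lit 86229873683) (nat_lit 420) (nat_lit 15756154535) (nat_lit 52) (nat_lit 5) (nat_lit 56) (nat_lit 5) (nat_lit 57) (nat_lit 5) (nat_lit 411) (nat_lit 368) (nat_lit 85)) (XT.nd (nat_lit 94) (nat_lit 84) (nat_lit 0) (XT.lf (nat_lit 0) (nat_lit 41502636713) (nat_lit 336) (nat_lit 59250421163) (nat_lit 420) (nat_lit 5718615639) (nat_lit 52) (nat_lit 5) (nat_lit 56) (nat_lit 5) (nat_lit 57) (nat_lit 5) (nat_lit 412) (nat_lit 368) (nat_lit 84)) (XT.lf (nat_lit 0) (nat_lit 4536476753) (nat_lit 420) (nat_lit 26850853751) (nat_lit 84) (nat_lit 77385002489) (nat_lit 51) (nat_lit 5) (nat_lit 56) (nat_lit 5) (nat_lit 52) (nat_lit 5) (nat_lit 413) (nat_lit 368) (nat_lit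 83))))) (XT.nd (nat_lit 50102) (nat_lit 0) (nat_lit 5628) (XT.nd (nat_lit 94) (nat_lit 0) (nat_lit 0) (XT.lf (nat_lit 0) (nat_lit 12644879209) (nat_lit 336) (nat_lit 2470932943) (nat_lit 420) (nat_lit 96022809689) (nat_lit 47) (nat_lit 5) (nat_lit 51) (nat_lit 5) (nat_lit 52) (nat_lit 5) (nat_lit 414) (nat_lit 368) (nat_lit 82)) (XT.nd (nat_lit 49914) (nat_lit 0) (nat_lit 5628) (XT.lf (nat_lit 0) (nat_lit 26577166337) (nat_lit 420) (nat_lit 59909872317) (nat_lit 84) (nat_lit 27074052022) (nat_lit 47) (nat_lit 5) (nat_lit 52) (nat_lit 5) (nat_lit 48) (nat_lit 5) (nat_lit 415) (nat_lit 368) (nat_lit 81)) (XT.lf (nat_lit 0) (nat_lit 5534560550) (nat_lit 0) (nat_lit 5534560550) (nat_lit 1092) (nat_lit 13447094565) (nat_lit 114) (nat_lit 5) (nat_lit 114) (nat_lit 3) (nat_lit 127) (nat_lit 3) (nat_lit 369) (nat_lit 369) (nat_lit 126)))) (XT.nd (nat_lit 94) (nat_lit 0) (nat_lit 0) (XT.lf (nat_lit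 0) (nat_lit 22584962277) (nat_lit 1092) (nat_lit 19309869909) (nat_lit 1176) (nat_lit 7894302425) (nat_lit 114) (nat_lit 5) (nat_lit 127) (nat_lit 3) (nat_lit 128) (nat_lit 5) (nat_lit 370) (nat_lit 369) (nat_lit 125)) (XT.nd (nat_lit 94) (nat_lit 0) (nat_lit 0) (XT.lf (nat_lit 0) (nat_lit 23157793300) (nat_lit 1092) (nat_lit 191898438) (nat_lit 1176) (nat_lit 27216127381) (nat_lit 114) (nat_lit 5) (nat_lit 127) (nat_lit 3) (nat_lit 128) (nat_lit 5) (nat_lit 371) (nat_lit 369) (nat_lit 124)) (XT.lf (nat_lit 84) (nat_lit 19919566049) (nat_lit 0) (nat_lit 4025500667) (nat_lit 1176) (nat_lit 27415420366) (nat_lit 115) (nat_lit 5) (nat_lit 114) (nat_lit 5) (nat_lit 128) (nat_lit 5) (nat_lit 372) (nat_lit 369) (nat_lit 123))))))))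
noncomputable def xc234 : XT := (XT.nd (nat_lit 2256) (nat_lit 3360) (nat_lit 0) (XT.nd (nat_lit 1128) (nat_lit 2352) (nat_lit 0) (XT.nd (nat_lit 564) (nat_lit 0) (nat_lit 168) (XT.nd (nat_lit 282) (nat_lit 0) (nat_lit 84) (XT.nd (nat_lit 94) (nat_lit 0) (nat_lit 0) (XT.lf (nat_lit 0) (nat_lit 24915583505) (nat_lit 1092) (nat_lit 11679430693) (nat_lit 1176) (nat_lit 15579854935) (nat_lit 115) (nat_lit 5) (nat_lit 128) (nat_lit 5) (nat_lit 129) (nat_lit 5) (nat_lit 373) (nat_lit 369) (nat_lit 122)) (XT.nd (nat_lit 94) (nat_lit 0) (nat_lit 84) (XT.lf (nat_lit 84) (nat_lit 8830904315) (nat_lit 0) (nat_lit 17213190752) (nat_lit 1176) (nat_lit 26966440043) (nat_lit 116) (nat_lit 5) (nat_lit 115) (nat_lit 5) (nat_lit 129) (nat_lit 5) (nat_lit 374) (nat_lit 369) (nat_lit 121)) (XT.lf (nat_lit 0) (nat_lit 27357378157) (nat_lit 1092) (nat_lit 23672931046) (nat_lit 1176) (nat_lit 2837157268) (nat_lit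 116) (nat_lit 5) (nat_lit 129) (nat_lit 5) (nat_lit 130) (nat_lit 5) (nat_lit 375) (nat_lit 369) (nat_lit 120)))) (XT.nd (nat_lit 94) (nat_lit 0) (nat_lit 0) (XT.lf (nat_lit 0) (nat_lit 28886606831) (nat_lit 1092) (nat_lit 2707098479) (nat_lit 1176) (nat_lit 23151828208) (nat_lit 116) (nat_lit 5) (nat_lit 129) (nat_lit 5) (nat_lit 130) (nat_lit 5) (nat_lit 376) (nat_lit 369) (nat_lit 119)) (XT.nd (nat_lit 94) (nat_lit 0) (nat_lit 84) (XT.lf (nat_lit 84) (nat_lit 19296956917) (nat_lit 0) (nat_lit 11356920791) (nat_lit 1176) (nat_lit 24991036185) (nat_lit 117) (nat_lit 5) (nat_lit 116) (nat_lit 5) (nat_lit 130) (nat_lit 5) (nat_lit 377) (nat_lit 369) (nat_lit 118)) (XT.lf (nat_lit 0) (nat_lit 32598021590) (nat_lit 1092) (nat_lit 14625906684) (nat_lit 1176) (nat_lit 9344464951) (nat_lit 117) (nat_lit 5) (nat_lit 130) (nat_lit 5) (nat_lit 131) (nat_lit 5) (nat_lit 378) (nat_lit 369) (nat_lit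 117))))) (XT.nd (nat_lit 282) (nat_lit 0) (nat_lit 84) (XT.nd (nat_lit 94) (nat_lit 0) (nat_lit 0) (XT.lf (nat_lit 84) (nat_lit 7810213981) (nat_lit 0) (nat_lit 26985105404) (nat_lit 1176) (nat_lit 22719204375) (nat_lit 118) (nat_lit 5) (nat_lit 117) (nat_lit 5) (nat_lit 131) (nat_lit 5) (nat_lit 379) (nat_lit 369) (nat_lit 116)) (XT.nd (nat_lit 94) (nat_lit 0) (nat_lit 84) (XT.lf (nat_lit 84) (nat_lit 31251404152) (nat_lit 0) (nat_lit 5961263707) (nat_lit 1176) (nat_lit 21272609225) (nat_lit 118) (nat_lit 5) (nat_lit 117) (nat_lit 5) (nat_lit 131) (nat_lit 5) (nat_lit 380) (nat_lit 369) (nat_lit 115)) (XT.lf (nat_lit 0) (nat_lit 39860136134) (nat_lit 1092) (nat_lit 4223263577) (nat_lit 1176) (nat_lit 15397916035) (nat_lit 118) (nat_lit 5) (nat_lit 131) (nat_lit 5) (nat_lit 132) (nat_lit 5) (nat_lit 381) (nat_lit 369) (nat_lit 114)))) (XT.nd (nat_lit 94) (nat_lit 0) (nat_lit 0) (XT.lf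 (nat_lit 84) (nat_lit 19838907397) (nat_lit 0) (nat_lit 23007857904) (nat_lit 1176) (nat_lit 17653499084) (nat_lit 119) (nat_lit 5) (nat_lit 118) (nat_lit 5) (nat_lit 132) (nat_lit 5) (nat_lit 382) (nat_lit 369) (nat_lit 113)) (XT.nd (nat_lit 94) (nat_lit 0) (nat_lit 84) (XT.lf (nat_lit 84) (nat_lit 44736034443) (nat_lit 0) (nat_lit 1233358603) (nat_lit 1176) (nat_lit 15580064055) (nat_lit 119) (nat_lit 5) (nat_lit 118) (nat_lit 5) (nat_lit 132) (nat_lit 5) (nat_lit 383) (nat_lit 369) (nat_lit 112)) (XT.lf (nat_lit 84) (nat_lit 7718326656) (nat_lit 0) (nat_lit 41756881774) (nat_lit 1176) (nat_lit 13147090786) (nat_lit 120) (nat_lit 5) (nat_lit 119) (nat_lit 5) (nat_lit 133) (nat_lit 5) (nat_lit 384) (nat_lit 369) (nat_lit 111)))))) (XT.nd (nat_lit 564) (nat_lit 1092) (nat_lit 0) (XT.nd (nat_lit 282) (nat_lit 588) (nat_lit 0) (XT.nd (nat_lit 94) (nat_lit 1008) (nat_lit 0) (XT.lf (nat_lit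 84) (nat_lit 33353616144) (nat_lit 0) (nat_lit 19923439277) (nat_lit 1176) (nat_lit 10445538450) (nat_lit 120) (nat_lit 5) (nat_lit 119) (nat_lit 5) (nat_lit 133) (nat_lit 5) (nat_lit 385) (nat_lit 369) (nat_lit 110)) (XT.nd (nat_lit 94) (nat_lit 1092) (nat_lit 0) (XT.lf (nat_lit 0) (nat_lit 57221808730) (nat_lit 1092) (nat_lit 5099573170) (nat_lit 84) (nat_lit 2534841497) (nat_lit 120) (nat_lit 5) (nat_lit 133) (nat_lit 5) (nat_lit 121) (nat_lit 5) (nat_lit 386) (nat_lit 369) (nat_lit 109)) (XT.lf (nat_lit 0) (nat_lit 21175555355) (nat_lit 1092) (nat_lit 40526533793) (nat_lit 1176) (nat_lit 4310098046) (nat_lit 107) (nat_lit 5) (nat_lit 120) (nat_lit 5) (nat_lit 121) (nat_lit 5) (nat_lit 387) (nat_lit 369) (nat_lit 108)))) (XT.nd (nat_lit 94) (nat_lit 588) (nat_lit 0) (XT.lf (nat_lit 0) (nat_lit 48372828271) (nat_lit 1092) (nat_lit 18001077762) (nat_lit 1176) (nat_lit 828449877) (nat_lit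 107) (nat_lit 5) (nat_lit 120) (nat_lit 5) (nat_lit 121) (nat_lit 5) (nat_lit 388) (nat_lit 369) (nat_lit 107)) (XT.nd (nat_lit 94) (nat_lit 0) (nat_lit 0) (XT.lf (nat_lit 0) (nat_lit 2838387896) (nat_lit 588) (nat_lit 60359503599) (nat_lit 84) (nat_lit 5226561682) (nat_lit 100) (nat_lit 5) (nat_lit 107) (nat_lit 5) (nat_lit 101) (nat_lit 5) (nat_lit 389) (nat_lit 369) (nat_lit 106)) (XT.lf (nat_lit 0) (nat_lit 6983790738) (nat_lit 588) (nat_lit 33681109728) (nat_lit 84) (nat_lit 29007429103) (nat_lit 100) (nat_lit 5) (nat_lit 107) (nat_lit 5) (nat_lit 101) (nat_lit 5) (nat_lit 390) (nat_lit 369) (nat_lit 105))))) (XT.nd (nat_lit 282) (nat_lit 504) (nat_lit 0) (XT.nd (nat_lit 94) (nat_lit 588) (nat_lit 0) (XT.lf (nat_lit 0) (nat_lit 11257159324) (nat_lit 588) (nat_lit 6176177219) (nat_lit 84) (nat_lit 53525572261) (nat_lit 100) (nat_lit 5) (nat_lit 107) (nat_lit 5) (nat_lit 101) (nat_lit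 5) (nat_lit 391) (nat_lit 369) (nat_lit 104)) (XT.nd (nat_lit 94) (nat_lit 0) (nat_lit 0) (XT.lf (nat_lit 0) (nat_lit 15953999506) (nat_lit 672) (nat_lit 49708372450) (nat_lit 84) (nat_lit 6613980946) (nat_lit 93) (nat_lit 5) (nat_lit 101) (nat_lit 5) (nat_lit 94) (nat_lit 5) (nat_lit 392) (nat_lit 369) (nat_lit 103)) (XT.lf (nat_lit 0) (nat_lit 21039355806) (nat_lit 672) (nat_lit 21477952039) (nat_lit 84) (nat_lit 31109801355) (nat_lit 93) (nat_lit 5) (nat_lit 101) (nat_lit 5) (nat_lit 94) (nat_lit 5) (nat_lit 393) (nat_lit 369) (nat_lit 102)))) (XT.nd (nat_lit 94) (nat_lit 0) (nat_lit 0) (XT.lf (nat_lit 0) (nat_lit 7783965603) (nat_lit 504) (nat_lit 18575111983) (nat_lit 588) (nat_lit 48658284767) (nat_lit 87) (nat_lit 5) (nat_lit 93) (nat_lit 5) (nat_lit 94) (nat_lit 5) (nat_lit 394) (nat_lit 369) (nat_lit 101)) (XT.nd (nat_lit 94) (nat_lit 0) (nat_lit 0) (XT.lf (nat_lit 0) (nat_lit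 32130306367) (nat_lit 588) (nat_lit 38098824948) (nat_lit 84) (nat_lit 6212699239) (nat_lit 87) (nat_lit 5) (nat_lit 94) (nat_lit 5) (nat_lit 88) (nat_lit 5) (nat_lit 395) (nat_lit 369) (nat_lit 100)) (XT.lf (nat_lit 0) (nat_lit 38269949642) (nat_lit 588) (nat_lit 8251533977) (nat_lit 84) (nat_lit 31383100564) (nat_lit 87) (nat_lit 5) (nat_lit 94) (nat_lit 5) (nat_lit 88) (nat_lit 5) (nat_lit 396) (nat_lit 369) (nat_lit 99))))))) (XT.nd (nat_lit 1128) (nat_lit 1092) (nat_lit 0) (XT.nd (nat_lit 564) (nat_lit 924) (nat_lit 0) (XT.nd (nat_lit 282) (nat_lit 420) (nat_lit 0) (XT.nd (nat_lit 94) (nat_lit 420) (nat_lit 0) (XT.lf (nat_lit 0) (nat_lit 22983633365) (nat_lit 504) (nat_lit 21843829913) (nat_lit 588) (nat_lit 34578167675) (nat_lit 81) (nat_lit 5) (nat_lit 87) (nat_lit 5) (nat_lit 88) (nat_lit 5) (nat_lit 397) (nat_lit 369) (nat_lit 98)) (XT.nd (nat_lit 94) (nat_lit 420) (nat_lit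 0) (XT.lf (nat_lit 0) (nat_lit 51710520867) (nat_lit 588) (nat_lit 25625572255) (nat_lit 84) (nat_lit 3613328478) (nat_lit 81) (nat_lit 5) (nat_lit 88) (nat_lit 5) (nat_lit 82) (nat_lit 5) (nat_lit 398) (nat_lit 369) (nat_lit 97)) (XT.lf (nat_lit 0) (nat_lit 6023026530) (nat_lit 420) (nat_lit 53066650589) (nat_lit 504) (nat_lit 23442629667) (nat_lit 76) (nat_lit 5) (nat_lit 81) (nat_lit 5) (nat_lit 82) (nat_lit 5) (nat_lit 399) (nat_lit 369) (nat_lit 96)))) (XT.nd (nat_lit 94) (nat_lit 420) (nat_lit 0) (XT.lf (nat_lit 0) (nat_lit 39195529854) (nat_lit 420) (nat_lit 27769108142) (nat_lit 504) (nat_lit 17191346272) (nat_lit 76) (nat_lit 5) (nat_lit 81) (nat_lit 5) (nat_lit 82) (nat_lit 5) (nat_lit 400) (nat_lit 369) (nat_lit 95)) (XT.nd (nat_lit 94) (nat_lit 420) (nat_lit 0) (XT.lf (nat_lit 0) (nat_lit 73395943641) (nat_lit 420) (nat_lit 1687364238) (nat_lit 504) (nat_lit 10746702113)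 (nat_lit 76) (nat_lit 5) (nat_lit 81) (nat_lit 5) (nat_lit 82) (nat_lit 5) (nat_lit 401) (nat_lit 369) (nat_lit 94)) (XT.lf (nat_lit 0) (nat_lit 21278908710) (nat_lit 420) (nat_lit 62635450730) (nat_lit 504) (nat_lit 3627290628) (nat_lit 71) (nat_lit 5) (nat_lit 76) (nat_lit 5) (nat_lit 77) (nat_lit 5) (nat_lit 402) (nat_lit 369) (nat_lit 93))))) (XT.nd (nat_lit 282) (nat_lit 420) (nat_lit 0) (XT.nd (nat_lit 94) (nat_lit 420) (nat_lit 0) (XT.lf (nat_lit 0) (nat_lit 3785988805) (nat_lit 504) (nat_lit 33057605430) (nat_lit 84) (nat_lit 52457029122) (nat_lit 70) (nat_lit 5) (nat_lit 76) (nat_lit 5) (nat_lit 71) (nat_lit 5) (nat_lit 403) (nat_lit 369) (nat_lit 92)) (XT.nd (nat_lit 94) (nat_lit 0) (nat_lit 0) (XT.lf (nat_lit 0) (nat_lit 1162789332) (nat_lit 420) (nat_lit 10202090222) (nat_lit 504) (nat_lit 79747750874) (nat_lit 65) (nat_lit 5) (nat_lit 70) (nat_lit 5) (nat_lit 71) (nat_lit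 5) (nat_lit 404) (nat_lit 369) (nat_lit 91)) (XT.lf (nat_lit 0) (nat_lit 19698191530) (nat_lit 504) (nat_lit 56000533405) (nat_lit 84) (nat_lit 17265982227) (nat_lit 65) (nat_lit 5) (nat_lit 71) (nat_lit 5) (nat_lit 66) (nat_lit 5) (nat_lit 405) (nat_lit 369) (nat_lit 90)))) (XT.nd (nat_lit 94) (nat_lit 420) (nat_lit 0) (XT.lf (nat_lit 0) (nat_lit 28393810023) (nat_lit 504) (nat_lit 21103564945) (nat_lit 84) (nat_lit 45373601270) (nat_lit 65) (nat_lit 5) (nat_lit 71) (nat_lit 5) (nat_lit 66) (nat_lit 5) (nat_lit 406) (nat_lit 369) (nat_lit 89)) (XT.nd (nat_lit 94) (nat_lit 0) (nat_lit 0) (XT.lf (nat_lit 0) (nat_lit 15180654265) (nat_lit 420) (nat_lit 22328573968) (nat_lit 504) (nat_lit 59322455238) (nat_lit 60) (nat_lit 5) (nat_lit 65) (nat_lit 5) (nat_lit 66) (nat_lit 5) (nat_lit 407) (nat_lit 369) (nat_lit 88)) (XT.lf (nat_lit 0) (nat_lit 47185773731) (nat_lit 504) (nat_lit 45868317776)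 (nat_lit 84) (nat_lit 5790447177) (nat_lit 60) (nat_lit 5) (nat_lit 66) (nat_lit 5) (nat_lit 61) (nat_lit 5) (nat_lit 408) (nat_lit 369) (nat_lit 87)))))) (XT.nd (nat_lit 564) (nat_lit 336) (nat_lit 0) (XT.nd (nat_lit 282) (nat_lit 420) (nat_lit 0) (XT.nd (nat_lit 94) (nat_lit 336) (nat_lit 0) (XT.lf (nat_lit 0) (nat_lit 57390319272) (nat_lit 504) (nat_lit 9205117374) (nat_lit 84) (nat_lit 34317287973) (nat_lit 60) (nat_lit 5) (nat_lit 66) (nat_lit 5) (nat_lit 61) (nat_lit 5) (nat_lit 409) (nat_lit 369) (nat_lit 86)) (XT.nd (nat_lit 94) (nat_lit 0) (nat_lit 0) (XT.lf (nat_lit 0) (nat_lit 29182204548) (nat_lit 336) (nat_lit 39018160879) (nat_lit 420) (nat_lit 34835695961) (nat_lit 56) (nat_lit 5) (nat_lit 60) (nat_lit 5) (nat_lit 61) (nat_lit 5) (nat_lit 410) (nat_lit 369) (nat_lit 85)) (XT.lf (nat_lit 0) (nat_lit 68954287012) (nat_lit 336) (nat_lit 10486993261) (nat_lit 420) (nat_lit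 25780973838) (nat_lit 56) (nat_lit 5) (nat_lit 60) (nat_lit 5) (nat_lit 61) (nat_lit 5) (nat_lit 411) (nat_lit 369) (nat_lit 84)))) (XT.nd (nat_lit 94) (nat_lit 84) (nat_lit 0) (XT.lf (nat_lit 0) (nat_lit 2342110597) (nat_lit 336) (nat_lit 88899245239) (nat_lit 420) (nat_lit 16228332469) (nat_lit 52) (nat_lit 5) (nat_lit 56) (nat_lit 5) (nat_lit 57) (nat_lit 5) (nat_lit 412) (nat_lit 369) (nat_lit 83)) (XT.nd (nat_lit 94) (nat_lit 84) (nat_lit 0) (XT.lf (nat_lit 0) (nat_lit 42808115302) (nat_lit 336) (nat_lit 61083542582) (nat_lit 420) (nat_lit 5880118857) (nat_lit 52) (nat_lit 5) (nat_lit 56) (nat_lit 5) (nat_lit 57) (nat_lit 5) (nat_lit 413) (nat_lit 369) (nat_lit 82)) (XT.lf (nat_lit 0) (nat_lit 4692098859) (nat_lit 420) (nat_lit 27664550271) (nat_lit 84) (nat_lit 79787118423) (nat_lit 51) (nat_lit 5) (nat_lit 56) (nat_lit 5) (nat_lit 52) (nat_lit 5) (nat_lit 414) (nat_lit 369) (nat_lit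 81))))) (XT.nd (nat_lit 50196) (nat_lit 0) (nat_lit 5628) (XT.nd (nat_lit 50008) (nat_lit 0) (nat_lit 5628) (XT.lf (nat_lit 0) (nat_lit 13055361293) (nat_lit 336) (nat_lit 2543765036) (nat_lit 420) (nat_lit 98984294607) (nat_lit 47) (nat_lit 5) (nat_lit 51) (nat_lit 5) (nat_lit 52) (nat_lit 5) (nat_lit 415) (nat_lit 369) (nat_lit 80)) (XT.nd (nat_lit 94) (nat_lit 0) (nat_lit 0) (XT.lf (nat_lit 0) (nat_lit 5717841899) (nat_lit 0) (nat_lit 5717841899) (nat_lit 1092) (nat_lit 13839720904) (nat_lit 114) (nat_lit 5) (nat_lit 114) (nat_lit 3) (nat_lit 127) (nat_lit 3) (nat_lit 370) (nat_lit 370) (nat_lit 124)) (XT.lf (nat_lit 0) (nat_lit 23330302277) (nat_lit 1092) (nat_lit 19883956411) (nat_lit 1176) (nat_lit 8116767716) (nat_lit 114) (nat_lit 5) (nat_lit 127) (nat_lit 3) (nat_lit 128) (nat_lit 5) (nat_lit 371) (nat_lit 370) (nat_lit 123)))) (XT.nd (nat_lit 94) (nat_lit 0) (nat_lit 0) (XT.lf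 (nat_lit 0) (nat_lit 23919531807) (nat_lit 1092) (nat_lit 174065073) (nat_lit 1176) (nat_lit 28038238499) (nat_lit 114) (nat_lit 5) (nat_lit 127) (nat_lit 3) (nat_lit 128) (nat_lit 5) (nat_lit 372) (nat_lit 370) (nat_lit 122)) (XT.nd (nat_lit 94) (nat_lit 0) (nat_lit 84) (XT.lf (nat_lit 84) (nat_lit 20560614040) (nat_lit 0) (nat_lit 4169511808) (nat_lit 1176) (nat_lit 28221050789) (nat_lit 115) (nat_lit 5) (nat_lit 114) (nat_lit 5) (nat_lit 128) (nat_lit 5) (nat_lit 373) (nat_lit 370) (nat_lit 121)) (XT.lf (nat_lit 0) (nat_lit 25729257954) (nat_lit 1092) (nat_lit 12017033628) (nat_lit 1176) (nat_lit 16044563349) (nat_lit 115) (nat_lit 5) (nat_lit 128) (nat_lit 5) (nat_lit 129) (nat_lit 5) (nat_lit 374) (nat_lit 370) (nat_lit 120))))))))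
noncomputable def xc235 : XT := (XT.nd (nat_lit 2256) (nat_lit 2436) (nat_lit 0) (XT.nd (nat_lit 1128) (nat_lit 2856) (nat_lit 0) (XT.nd (nat_lit 564) (nat_lit 0) (nat_lit 168) (XT.nd (nat_lit 282) (nat_lit 0) (nat_lit 84) (XT.nd (nat_lit 94) (nat_lit 0) (nat_lit 84) (XT.lf (nat_lit 84) (nat_lit 9128874136) (nat_lit 0) (nat_lit 17762877879) (nat_lit 1176) (nat_lit 27760710245) (nat_lit 116) (nat_lit 5) (nat_lit 115) (nat_lit 5) (nat_lit 129) (nat_lit 5) (nat_lit 375) (nat_lit 370) (nat_lit 119)) (XT.nd (nat_lit 94) (nat_lit 0) (nat_lit 0) (XT.lf (nat_lit 0) (nat_lit 28244380743) (nat_lit 1092) (nat_lit 24381796056) (nat_lit 1176) (nat_lit 2909828568) (nat_lit 116) (nat_lit 5) (nat_lit 129) (nat_lit 5) (nat_lit 130) (nat_lit 5) (nat_lit 376) (nat_lit 370) (nat_lit 118)) (XT.lf (nat_lit 0) (nat_lit 29819845147) (nat_lit 1092) (nat_lit 2766774253) (nat_lit 1176) (nat_lit 23854713762) (nat_lit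 116) (nat_lit 5) (nat_lit 129) (nat_lit 5) (nat_lit 130) (nat_lit 5) (nat_lit 377) (nat_lit 370) (nat_lit 117)))) (XT.nd (nat_lit 94) (nat_lit 0) (nat_lit 84) (XT.lf (nat_lit 84) (nat_lit 19919161409) (nat_lit 0) (nat_lit 11721842915) (nat_lit 1176) (nat_lit 25727622070) (nat_lit 117) (nat_lit 5) (nat_lit 116) (nat_lit 5) (nat_lit 130) (nat_lit 5) (nat_lit 378) (nat_lit 370) (nat_lit 116)) (XT.nd (nat_lit 94) (nat_lit 0) (nat_lit 0) (XT.lf (nat_lit 0) (nat_lit 33644184758) (nat_lit 1092) (nat_lit 15054667496) (nat_lit 1176) (nat_lit 9621923648) (nat_lit 117) (nat_lit 5) (nat_lit 130) (nat_lit 5) (nat_lit 131) (nat_lit 5) (nat_lit 379) (nat_lit 370) (nat_lit 115)) (XT.lf (nat_lit 84) (nat_lit 8076723429) (nat_lit 0) (nat_lit 27832046182) (nat_lit 1176) (nat_lit 23387496581) (nat_lit 118) (nat_lit 5) (nat_lit 117) (nat_lit 5) (nat_lit 131) (nat_lit 5) (nat_lit 380) (nat_lit 370) (nat_lit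 114))))) (XT.nd (nat_lit 282) (nat_lit 0) (nat_lit 84) (XT.nd (nat_lit 94) (nat_lit 0) (nat_lit 84) (XT.lf (nat_lit 84) (nat_lit 32243857054) (nat_lit 0) (nat_lit 6156152611) (nat_lit 1176) (nat_lit 21897139519) (nat_lit 118) (nat_lit 5) (nat_lit 117) (nat_lit 5) (nat_lit 131) (nat_lit 5) (nat_lit 381) (nat_lit 370) (nat_lit 113)) (XT.nd (nat_lit 94) (nat_lit 0) (nat_lit 0) (XT.lf (nat_lit 0) (nat_lit 41128437611) (nat_lit 1092) (nat_lit 4330003416) (nat_lit 1176) (nat_lit 15865662253) (nat_lit 118) (nat_lit 5) (nat_lit 131) (nat_lit 5) (nat_lit 132) (nat_lit 5) (nat_lit 382) (nat_lit 370) (nat_lit 112)) (XT.lf (nat_lit 84) (nat_lit 20477850045) (nat_lit 0) (nat_lit 23729058357) (nat_lit 1176) (nat_lit 18167757638) (nat_lit 119) (nat_lit 5) (nat_lit 118) (nat_lit 5) (nat_lit 132) (nat_lit 5) (nat_lit 383) (nat_lit 370) (nat_lit 111)))) (XT.nd (nat_lit 94) (nat_lit 0) (nat_lit 84) (XT.lf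 (nat_lit 84) (nat_lit 46146068308) (nat_lit 0) (nat_lit 1279310332) (nat_lit 1176) (nat_lit 16031038361) (nat_lit 119) (nat_lit 5) (nat_lit 118) (nat_lit 5) (nat_lit 132) (nat_lit 5) (nat_lit 384) (nat_lit 370) (nat_lit 110)) (XT.nd (nat_lit 94) (nat_lit 0) (nat_lit 0) (XT.lf (nat_lit 84) (nat_lit 7981714720) (nat_lit 0) (nat_lit 43057394463) (nat_lit 1176) (nat_lit 13523435194) (nat_lit 120) (nat_lit 5) (nat_lit 119) (nat_lit 5) (nat_lit 133) (nat_lit 5) (nat_lit 385) (nat_lit 370) (nat_lit 109)) (XT.lf (nat_lit 84) (nat_lit 34410972946) (nat_lit 0) (nat_lit 20546933359) (nat_lit 1176) (nat_lit 10739073317) (nat_lit 120) (nat_lit 5) (nat_lit 119) (nat_lit 5) (nat_lit 133) (nat_lit 5) (nat_lit 386) (nat_lit 370) (nat_lit 108)))))) (XT.nd (nat_lit 564) (nat_lit 1596) (nat_lit 0) (XT.nd (nat_lit 282) (nat_lit 588) (nat_lit 0) (XT.nd (nat_lit 94) (nat_lit 1092) (nat_lit 0) (XT.lf (nat_lit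 0) (nat_lit 59024010658) (nat_lit 1092) (nat_lit 5233928059) (nat_lit 84) (nat_lit 2607845204) (nat_lit 120) (nat_lit 5) (nat_lit 133) (nat_lit 5) (nat_lit 121) (nat_lit 5) (nat_lit 387) (nat_lit 370) (nat_lit 107)) (XT.nd (nat_lit 94) (nat_lit 0) (nat_lit 0) (XT.lf (nat_lit 0) (nat_lit 21855489186) (nat_lit 1092) (nat_lit 41787071924) (nat_lit 1176) (nat_lit 4415043801) (nat_lit 107) (nat_lit 5) (nat_lit 120) (nat_lit 5) (nat_lit 121) (nat_lit 5) (nat_lit 388) (nat_lit 370) (nat_lit 106)) (XT.lf (nat_lit 0) (nat_lit 49895171219) (nat_lit 1092) (nat_lit 18563200002) (nat_lit 1176) (nat_lit 826326503) (nat_lit 107) (nat_lit 5) (nat_lit 120) (nat_lit 5) (nat_lit 121) (nat_lit 5) (nat_lit 389) (nat_lit 370) (nat_lit 105)))) (XT.nd (nat_lit 94) (nat_lit 0) (nat_lit 0) (XT.lf (nat_lit 0) (nat_lit 2952999751) (nat_lit 588) (nat_lit 62206491968) (nat_lit 84) (nat_lit 5385201921) (nat_lit 100)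 (nat_lit 5) (nat_lit 107) (nat_lit 5) (nat_lit 101) (nat_lit 5) (nat_lit 390) (nat_lit 370) (nat_lit 104)) (XT.nd (nat_lit 94) (nat_lit 0) (nat_lit 0) (XT.lf (nat_lit 0) (nat_lit 7226109619) (nat_lit 588) (nat_lit 34701794214) (nat_lit 84) (nat_lit 29903377957) (nat_lit 100) (nat_lit 5) (nat_lit 107) (nat_lit 5) (nat_lit 101) (nat_lit 5) (nat_lit 391) (nat_lit 370) (nat_lit 103)) (XT.lf (nat_lit 0) (nat_lit 11631176236) (nat_lit 588) (nat_lit 6344913285) (nat_lit 84) (nat_lit 55181682218) (nat_lit 100) (nat_lit 5) (nat_lit 107) (nat_lit 5) (nat_lit 101) (nat_lit 5) (nat_lit 392) (nat_lit 370) (nat_lit 102))))) (XT.nd (nat_lit 282) (nat_lit 504) (nat_lit 0) (XT.nd (nat_lit 94) (nat_lit 504) (nat_lit 0) (XT.lf (nat_lit 0) (nat_lit 16473068536) (nat_lit 672) (nat_lit 51225972408) (nat_lit 84) (nat_lit 6817035321) (nat_lit 93) (nat_lit 5) (nat_lit 101) (nat_lit 5) (nat_lit 94) (nat_lit 5)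 (nat_lit 393) (nat_lit 370) (nat_lit 101)) (XT.nd (nat_lit 94) (nat_lit 504) (nat_lit 0) (XT.lf (nat_lit 0) (nat_lit 21715334366) (nat_lit 672) (nat_lit 22121111339) (nat_lit 84) (nat_lit 32072285668) (nat_lit 93) (nat_lit 5) (nat_lit 101) (nat_lit 5) (nat_lit 94) (nat_lit 5) (nat_lit 394) (nat_lit 370) (nat_lit 100)) (XT.lf (nat_lit 0) (nat_lit 8047696367) (nat_lit 504) (nat_lit 19151779273) (nat_lit 588) (nat_lit 50142624439) (nat_lit 87) (nat_lit 5) (nat_lit 93) (nat_lit 5) (nat_lit 94) (nat_lit 5) (nat_lit 395) (nat_lit 370) (nat_lit 99)))) (XT.nd (nat_lit 94) (nat_lit 504) (nat_lit 0) (XT.lf (nat_lit 0) (nat_lit 33148904863) (nat_lit 588) (nat_lit 39257350540) (nat_lit 84) (nat_lit 6404495710) (nat_lit 87) (nat_lit 5) (nat_lit 94) (nat_lit 5) (nat_lit 88) (nat_lit 5) (nat_lit 396) (nat_lit 370) (nat_lit 98)) (XT.nd (nat_lit 94) (nat_lit 504) (nat_lit 0) (XT.lf (nat_lit 0) (nat_lit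 39478198777) (nat_lit 588) (nat_lit 8485471218) (nat_lit 84) (nat_lit 32355203447) (nat_lit 87) (nat_lit 5) (nat_lit 94) (nat_lit 5) (nat_lit 88) (nat_lit 5) (nat_lit 397) (nat_lit 370) (nat_lit 97)) (XT.lf (nat_lit 0) (nat_lit 23717764995) (nat_lit 504) (nat_lit 22520787096) (nat_lit 588) (nat_lit 35627916554) (nat_lit 81) (nat_lit 5) (nat_lit 87) (nat_lit 5) (nat_lit 88) (nat_lit 5) (nat_lit 398) (nat_lit 370) (nat_lit 96))))))) (XT.nd (nat_lit 1128) (nat_lit 672) (nat_lit 0) (XT.nd (nat_lit 564) (nat_lit 840) (nat_lit 0) (XT.nd (nat_lit 282) (nat_lit 504) (nat_lit 0) (XT.nd (nat_lit 94) (nat_lit 420) (nat_lit 0) (XT.lf (nat_lit 0) (nat_lit 53334341825) (nat_lit 588) (nat_lit 26398263865) (nat_lit 84) (nat_lit 3725533207) (nat_lit 81) (nat_lit 5) (nat_lit 88) (nat_lit 5) (nat_lit 82) (nat_lit 5) (nat_lit 399) (nat_lit 370) (nat_lit 95)) (XT.nd (nat_lit 94) (nat_lit 0) (nat_lit 0) (XT.lf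 (nat_lit 0) (nat_lit 6231221778) (nat_lit 420) (nat_lit 54710617986) (nat_lit 504) (nat_lit 24148268647) (nat_lit 76) (nat_lit 5) (nat_lit 81) (nat_lit 5) (nat_lit 82) (nat_lit 5) (nat_lit 400) (nat_lit 370) (nat_lit 94)) (XT.lf (nat_lit 0) (nat_lit 40431426803) (nat_lit 420) (nat_lit 28628884761) (nat_lit 504) (nat_lit 17703829374) (nat_lit 76) (nat_lit 5) (nat_lit 81) (nat_lit 5) (nat_lit 82) (nat_lit 5) (nat_lit 401) (nat_lit 370) (nat_lit 93)))) (XT.nd (nat_lit 94) (nat_lit 504) (nat_lit 0) (XT.lf (nat_lit 0) (nat_lit 75691426938) (nat_lit 420) (nat_lit 1738638840) (nat_lit 504) (nat_lit 11060016094) (nat_lit 76) (nat_lit 5) (nat_lit 81) (nat_lit 5) (nat_lit 82) (nat_lit 5) (nat_lit 402) (nat_lit 370) (nat_lit 92)) (XT.nd (nat_lit 94) (nat_lit 84) (nat_lit 0) (XT.lf (nat_lit 0) (nat_lit 21959200939) (nat_lit 420) (nat_lit 64575317192) (nat_lit 504) (nat_lit 3720277798) (nat_lit 71)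 (nat_lit 5) (nat_lit 76) (nat_lit 5) (nat_lit 77) (nat_lit 5) (nat_lit 403) (nat_lit 370) (nat_lit 91)) (XT.lf (nat_lit 0) (nat_lit 3921847947) (nat_lit 504) (nat_lit 34061927264) (nat_lit 84) (nat_lit 54084535777) (nat_lit 70) (nat_lit 5) (nat_lit 76) (nat_lit 5) (nat_lit 71) (nat_lit 5) (nat_lit 404) (nat_lit 370) (nat_lit 90))))) (XT.nd (nat_lit 282) (nat_lit 420) (nat_lit 0) (XT.nd (nat_lit 94) (nat_lit 0) (nat_lit 0) (XT.lf (nat_lit 0) (nat_lit 1219092556) (nat_lit 420) (nat_lit 10516236643) (nat_lit 504) (nat_lit 82201173844) (nat_lit 65) (nat_lit 5) (nat_lit 70) (nat_lit 5) (nat_lit 71) (nat_lit 5) (nat_lit 405) (nat_lit 370) (nat_lit 89)) (XT.nd (nat_lit 94) (nat_lit 0) (nat_lit 0) (XT.lf (nat_lit 0) (nat_lit 20326448846) (nat_lit 504) (nat_lit 57716322328) (nat_lit 84) (nat_lit 17803240960) (nat_lit 65) (nat_lit 5) (nat_lit 71) (nat_lit 5) (nat_lit 66) (nat_lit 5) (nat_lit 406)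 (nat_lit 370) (nat_lit 88)) (XT.lf (nat_lit 0) (nat_lit 29291101915) (nat_lit 504) (nat_lit 21738156047) (nat_lit 84) (nat_lit 46782135658) (nat_lit 65) (nat_lit 5) (nat_lit 71) (nat_lit 5) (nat_lit 66) (nat_lit 5) (nat_lit 407) (nat_lit 370) (nat_lit 87)))) (XT.nd (nat_lit 94) (nat_lit 0) (nat_lit 0) (XT.lf (nat_lit 0) (nat_lit 15670675329) (nat_lit 420) (nat_lit 23018101744) (nat_lit 504) (nat_lit 61144117259) (nat_lit 60) (nat_lit 5) (nat_lit 65) (nat_lit 5) (nat_lit 66) (nat_lit 5) (nat_lit 408) (nat_lit 370) (nat_lit 86)) (XT.nd (nat_lit 94) (nat_lit 0) (nat_lit 0) (XT.lf (nat_lit 0) (nat_lit 48664817035) (nat_lit 504) (nat_lit 47270870214) (nat_lit 84) (nat_lit 5972477193) (nat_lit 60) (nat_lit 5) (nat_lit 66) (nat_lit 5) (nat_lit 61) (nat_lit 5) (nat_lit 409) (nat_lit 370) (nat_lit 85)) (XT.lf (nat_lit 0) (nat_lit 59185213853) (nat_lit 504) (nat_lit 9471692877) (nat_lit 84) (nat_lit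 35383574098) (nat_lit 60) (nat_lit 5) (nat_lit 66) (nat_lit 5) (nat_lit 61) (nat_lit 5) (nat_lit 410) (nat_lit 370) (nat_lit 84)))))) (XT.nd (nat_lit 50666) (nat_lit 0) (nat_lit 5208) (XT.nd (nat_lit 282) (nat_lit 0) (nat_lit 0) (XT.nd (nat_lit 94) (nat_lit 336) (nat_lit 0) (XT.lf (nat_lit 0) (nat_lit 30105445862) (nat_lit 336) (nat_lit 40224635108) (nat_lit 420) (nat_lit 35899570532) (nat_lit 56) (nat_lit 5) (nat_lit 60) (nat_lit 5) (nat_lit 61) (nat_lit 5) (nat_lit 411) (nat_lit 370) (nat_lit 83)) (XT.nd (nat_lit 94) (nat_lit 336) (nat_lit 0) (XT.lf (nat_lit 0) (nat_lit 71109903832) (nat_lit 336) (nat_lit 10809094166) (nat_lit 420) (nat_lit 26564634071) (nat_lit 56) (nat_lit 5) (nat_lit 60) (nat_lit 5) (nat_lit 61) (nat_lit 5) (nat_lit 412) (nat_lit 370) (nat_lit 82)) (XT.lf (nat_lit 0) (nat_lit 2433044688) (nat_lit 336) (nat_lit 91651589701) (nat_lit 420) (nat_lit 16716111196) (nat_lit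 52) (nat_lit 5) (nat_lit 56) (nat_lit 5) (nat_lit 57) (nat_lit 5) (nat_lit 413) (nat_lit 370) (nat_lit 81)))) (XT.nd (nat_lit 50196) (nat_lit 0) (nat_lit 5208) (XT.lf (nat_lit 0) (nat_lit 44152944435) (nat_lit 336) (nat_lit 62973706466) (nat_lit 420) (nat_lit 6047562988) (nat_lit 52) (nat_lit 5) (nat_lit 56) (nat_lit 5) (nat_lit 57) (nat_lit 5) (nat_lit 414) (nat_lit 370) (nat_lit 80)) (XT.nd (nat_lit 94) (nat_lit 0) (nat_lit 0) (XT.lf (nat_lit 0) (nat_lit 5906111368) (nat_lit 0) (nat_lit 5906111368) (nat_lit 1092) (nat_lit 14245954057) (nat_lit 114) (nat_lit 5) (nat_lit 114) (nat_lit 3) (nat_lit 127) (nat_lit 3) (nat_lit 371) (nat_lit 371) (nat_lit 122)) (XT.lf (nat_lit 0) (nat_lit 24096070177) (nat_lit 1092) (nat_lit 20477291924) (nat_lit 1176) (nat_lit 8347447815) (nat_lit 114) (nat_lit 5) (nat_lit 127) (nat_lit 3) (nat_lit 128) (nat_lit 5) (nat_lit 372) (nat_lit 371) (nat_lit 121)))))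 (XT.nd (nat_lit 282) (nat_lit 0) (nat_lit 84) (XT.nd (nat_lit 94) (nat_lit 0) (nat_lit 0) (XT.lf (nat_lit 0) (nat_lit 24702287079) (nat_lit 1092) (nat_lit 157087535) (nat_lit 1176) (nat_lit 28887113806) (nat_lit 114) (nat_lit 5) (nat_lit 127) (nat_lit 3) (nat_lit 128) (nat_lit 5) (nat_lit 373) (nat_lit 371) (nat_lit 120)) (XT.nd (nat_lit 94) (nat_lit 0) (nat_lit 84) (XT.lf (nat_lit 84) (nat_lit 21220140118) (nat_lit 0) (nat_lit 4316848825) (nat_lit 1176) (nat_lit 29054276617) (nat_lit 115) (nat_lit 5) (nat_lit 114) (nat_lit 5) (nat_lit 128) (nat_lit 5) (nat_lit 374) (nat_lit 371) (nat_lit 119)) (XT.lf (nat_lit 0) (nat_lit 26565710554) (nat_lit 1092) (nat_lit 12366551027) (nat_lit 1176) (nat_lit 16524759715) (nat_lit 115) (nat_lit 5) (nat_lit 128) (nat_lit 5) (nat_lit 129) (nat_lit 5) (nat_lit 375) (nat_lit 371) (nat_lit 118)))) (XT.nd (nat_lit 94) (nat_lit 0) (nat_lit 84) (XT.lf (nat_lit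 84) (nat_lit 9434646916) (nat_lit 0) (nat_lit 18328652966) (nat_lit 1176) (nat_lit 28582072161) (nat_lit 116) (nat_lit 5) (nat_lit 115) (nat_lit 5) (nat_lit 129) (nat_lit 5) (nat_lit 376) (nat_lit 371) (nat_lit 117)) (XT.nd (nat_lit 94) (nat_lit 0) (nat_lit 0) (XT.lf (nat_lit 0) (nat_lit 29156574882) (nat_lit 1092) (nat_lit 25114116429) (nat_lit 1176) (nat_lit 2985657773) (nat_lit 116) (nat_lit 5) (nat_lit 129) (nat_lit 5) (nat_lit 130) (nat_lit 5) (nat_lit 377) (nat_lit 371) (nat_lit 116)) (XT.lf (nat_lit 0) (nat_lit 30779777646) (nat_lit 1092) (nat_lit 2829736005) (nat_lit 1176) (nat_lit 24580266648) (nat_lit 116) (nat_lit 5) (nat_lit 129) (nat_lit 5) (nat_lit 130) (nat_lit 5) (nat_lit 378) (nat_lit 371) (nat_lit 115))))))))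
noncomputable def xc236 : XT := (XT.nd (nat_lit 2256) (nat_lit 1680) (nat_lit 0) (XT.nd (nat_lit 1128) (nat_lit 2604) (nat_lit 0) (XT.nd (nat_lit 564) (nat_lit 756) (nat_lit 0) (XT.nd (nat_lit 282) (nat_lit 0) (nat_lit 84) (XT.nd (nat_lit 94) (nat_lit 0) (nat_lit 84) (XT.lf (nat_lit 84) (nat_lit 20559232749) (nat_lit 0) (nat_lit 12097316048) (nat_lit 1176) (nat_lit 26489300992) (nat_lit 117) (nat_lit 5) (nat_lit 116) (nat_lit 5) (nat_lit 130) (nat_lit 5) (nat_lit 379) (nat_lit 371) (nat_lit 114)) (XT.nd (nat_lit 94) (nat_lit 0) (nat_lit 0) (XT.lf (nat_lit 0) (nat_lit 34720668884) (nat_lit 1092) (nat_lit 15498179499) (nat_lit 1176) (nat_lit 9908707359) (nat_lit 117) (nat_lit 5) (nat_lit 130) (nat_lit 5) (nat_lit 131) (nat_lit 5) (nat_lit 380) (nat_lit 371) (nat_lit 113)) (XT.lf (nat_lit 84) (nat_lit 8350049841) (nat_lit 0) (nat_lit 28704625966) (nat_lit 1176) (nat_lit 24078638372) (nat_lit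 118) (nat_lit 5) (nat_lit 117) (nat_lit 5) (nat_lit 131) (nat_lit 5) (nat_lit 381) (nat_lit 371) (nat_lit 112)))) (XT.nd (nat_lit 94) (nat_lit 0) (nat_lit 84) (XT.lf (nat_lit 84) (nat_lit 33265674611) (nat_lit 0) (nat_lit 6356485439) (nat_lit 1176) (nat_lit 22543098659) (nat_lit 118) (nat_lit 5) (nat_lit 117) (nat_lit 5) (nat_lit 131) (nat_lit 5) (nat_lit 382) (nat_lit 371) (nat_lit 111)) (XT.nd (nat_lit 94) (nat_lit 0) (nat_lit 0) (XT.lf (nat_lit 0) (nat_lit 42434123272) (nat_lit 1092) (nat_lit 4441484491) (nat_lit 1176) (nat_lit 16348476587) (nat_lit 118) (nat_lit 5) (nat_lit 131) (nat_lit 5) (nat_lit 132) (nat_lit 5) (nat_lit 383) (nat_lit 371) (nat_lit 110)) (XT.lf (nat_lit 84) (nat_lit 21135182113) (nat_lit 0) (nat_lit 24472144726) (nat_lit 1176) (nat_lit 18699912849) (nat_lit 119) (nat_lit 5) (nat_lit 118) (nat_lit 5) (nat_lit 132) (nat_lit 5) (nat_lit 384) (nat_lit 371) (nat_lit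 109))))) (XT.nd (nat_lit 282) (nat_lit 924) (nat_lit 0) (XT.nd (nat_lit 94) (nat_lit 0) (nat_lit 84) (XT.lf (nat_lit 84) (nat_lit 47598438052) (nat_lit 0) (nat_lit 1326229437) (nat_lit 1176) (nat_lit 16497888740) (nat_lit 119) (nat_lit 5) (nat_lit 118) (nat_lit 5) (nat_lit 132) (nat_lit 5) (nat_lit 385) (nat_lit 371) (nat_lit 108)) (XT.nd (nat_lit 94) (nat_lit 0) (nat_lit 0) (XT.lf (nat_lit 84) (nat_lit 8251839148) (nat_lit 0) (nat_lit 44397864733) (nat_lit 1176) (nat_lit 13913295221) (nat_lit 120) (nat_lit 5) (nat_lit 119) (nat_lit 5) (nat_lit 133) (nat_lit 5) (nat_lit 386) (nat_lit 371) (nat_lit 107)) (XT.lf (nat_lit 84) (nat_lit 35499722100) (nat_lit 0) (nat_lit 21189408216) (nat_lit 1176) (nat_lit 11043501113) (nat_lit 120) (nat_lit 5) (nat_lit 119) (nat_lit 5) (nat_lit 133) (nat_lit 5) (nat_lit 387) (nat_lit 371) (nat_lit 106)))) (XT.nd (nat_lit 94) (nat_lit 1092) (nat_lit 0) (XT.lf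 (nat_lit 0) (nat_lit 60880403057) (nat_lit 1092) (nat_lit 5373853630) (nat_lit 84) (nat_lit 2683442324) (nat_lit 120) (nat_lit 5) (nat_lit 133) (nat_lit 5) (nat_lit 121) (nat_lit 5) (nat_lit 388) (nat_lit 371) (nat_lit 105)) (XT.nd (nat_lit 94) (nat_lit 0) (nat_lit 0) (XT.lf (nat_lit 0) (nat_lit 22555109517) (nat_lit 1092) (nat_lit 43086437040) (nat_lit 1176) (nat_lit 4524940886) (nat_lit 107) (nat_lit 5) (nat_lit 120) (nat_lit 5) (nat_lit 121) (nat_lit 5) (nat_lit 389) (nat_lit 371) (nat_lit 104)) (XT.lf (nat_lit 0) (nat_lit 51463357188) (nat_lit 1092) (nat_lit 19142505843) (nat_lit 1176) (nat_lit 825784261) (nat_lit 107) (nat_lit 5) (nat_lit 120) (nat_lit 5) (nat_lit 121) (nat_lit 5) (nat_lit 390) (nat_lit 371) (nat_lit 103)))))) (XT.nd (nat_lit 564) (nat_lit 924) (nat_lit 0) (XT.nd (nat_lit 282) (nat_lit 1092) (nat_lit 0) (XT.nd (nat_lit 94) (nat_lit 0) (nat_lit 0) (XT.lf (nat_lit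 0) (nat_lit 3069587717) (nat_lit 588) (nat_lit 64112167791) (nat_lit 84) (nat_lit 5548960397) (nat_lit 100) (nat_lit 5) (nat_lit 107) (nat_lit 5) (nat_lit 101) (nat_lit 5) (nat_lit 391) (nat_lit 371) (nat_lit 102)) (XT.nd (nat_lit 94) (nat_lit 0) (nat_lit 0) (XT.lf (nat_lit 0) (nat_lit 7474410941) (nat_lit 588) (nat_lit 35755507713) (nat_lit 84) (nat_lit 30827295590) (nat_lit 100) (nat_lit 5) (nat_lit 107) (nat_lit 5) (nat_lit 101) (nat_lit 5) (nat_lit 392) (nat_lit 371) (nat_lit 101)) (XT.lf (nat_lit 0) (nat_lit 12015304216) (nat_lit 588) (nat_lit 6520226235) (nat_lit 84) (nat_lit 56889320106) (nat_lit 100) (nat_lit 5) (nat_lit 107) (nat_lit 5) (nat_lit 101) (nat_lit 5) (nat_lit 393) (nat_lit 371) (nat_lit 100)))) (XT.nd (nat_lit 94) (nat_lit 504) (nat_lit 0) (XT.lf (nat_lit 0) (nat_lit 17006777822) (nat_lit 672) (nat_lit 52792001594) (nat_lit 84) (nat_lit 7026501603) (nat_lit 93) (nat_lit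 5) (nat_lit 101) (nat_lit 5) (nat_lit 94) (nat_lit 5) (nat_lit 394) (nat_lit 371) (nat_lit 99)) (XT.nd (nat_lit 94) (nat_lit 504) (nat_lit 0) (XT.lf (nat_lit 0) (nat_lit 22410861003) (nat_lit 672) (nat_lit 22785550602) (nat_lit 84) (nat_lit 33064720691) (nat_lit 93) (nat_lit 5) (nat_lit 101) (nat_lit 5) (nat_lit 94) (nat_lit 5) (nat_lit 395) (nat_lit 371) (nat_lit 98)) (XT.lf (nat_lit 0) (nat_lit 8318274346) (nat_lit 504) (nat_lit 19746273564) (nat_lit 588) (nat_lit 51674404179) (nat_lit 87) (nat_lit 5) (nat_lit 93) (nat_lit 5) (nat_lit 94) (nat_lit 5) (nat_lit 396) (nat_lit 371) (nat_lit 97))))) (XT.nd (nat_lit 282) (nat_lit 420) (nat_lit 0) (XT.nd (nat_lit 94) (nat_lit 504) (nat_lit 0) (XT.lf (nat_lit 0) (nat_lit 34197743704) (nat_lit 588) (nat_lit 40453125388) (nat_lit 84) (nat_lit 6602285093) (nat_lit 87) (nat_lit 5) (nat_lit 94) (nat_lit 5) (nat_lit 88) (nat_lit 5) (nat_lit 397)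 (nat_lit 371) (nat_lit 96)) (XT.nd (nat_lit 94) (nat_lit 504) (nat_lit 0) (XT.lf (nat_lit 0) (nat_lit 40722607605) (nat_lit 588) (nat_lit 8727955338) (nat_lit 84) (nat_lit 33357487319) (nat_lit 87) (nat_lit 5) (nat_lit 94) (nat_lit 5) (nat_lit 88) (nat_lit 5) (nat_lit 398) (nat_lit 371) (nat_lit 95)) (XT.lf (nat_lit 0) (nat_lit 24473372992) (nat_lit 504) (nat_lit 23218741889) (nat_lit 588) (nat_lit 36711521071) (nat_lit 81) (nat_lit 5) (nat_lit 87) (nat_lit 5) (nat_lit 88) (nat_lit 5) (nat_lit 399) (nat_lit 371) (nat_lit 94)))) (XT.nd (nat_lit 94) (nat_lit 420) (nat_lit 0) (XT.lf (nat_lit 0) (nat_lit 55007269521) (nat_lit 588) (nat_lit 27196194310) (nat_lit 84) (nat_lit 3841204936) (nat_lit 81) (nat_lit 5) (nat_lit 88) (nat_lit 5) (nat_lit 82) (nat_lit 5) (nat_lit 400) (nat_lit 371) (nat_lit 93)) (XT.nd (nat_lit 94) (nat_lit 0) (nat_lit 0) (XT.lf (nat_lit 0) (nat_lit 6444598696) (nat_lit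 420) (nat_lit 56405613455) (nat_lit 504) (nat_lit 24877031190) (nat_lit 76) (nat_lit 5) (nat_lit 81) (nat_lit 5) (nat_lit 82) (nat_lit 5) (nat_lit 401) (nat_lit 371) (nat_lit 92)) (XT.lf (nat_lit 0) (nat_lit 41704402434) (nat_lit 420) (nat_lit 29515377580) (nat_lit 504) (nat_lit 18233410659) (nat_lit 76) (nat_lit 5) (nat_lit 81) (nat_lit 5) (nat_lit 82) (nat_lit 5) (nat_lit 402) (nat_lit 371) (nat_lit 91))))))) (XT.nd (nat_lit 51512) (nat_lit 0) (nat_lit 4872) (XT.nd (nat_lit 564) (nat_lit 756) (nat_lit 0) (XT.nd (nat_lit 282) (nat_lit 420) (nat_lit 0) (XT.nd (nat_lit 94) (nat_lit 504) (nat_lit 0) (XT.lf (nat_lit 0) (nat_lit 78056873200) (nat_lit 420) (nat_lit 1791564182) (nat_lit 504) (nat_lit 11384217596) (nat_lit 76) (nat_lit 5) (nat_lit 81) (nat_lit 5) (nat_lit 82) (nat_lit 5) (nat_lit 403) (nat_lit 371) (nat_lit 90)) (XT.nd (nat_lit 94) (nat_lit 84) (nat_lit 0) (XT.lf (nat_lit 0)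 (nat_lit 22659359326) (nat_lit 420) (nat_lit 66575428058) (nat_lit 504) (nat_lit 3817300150) (nat_lit 71) (nat_lit 5) (nat_lit 76) (nat_lit 5) (nat_lit 77) (nat_lit 5) (nat_lit 404) (nat_lit 371) (nat_lit 89)) (XT.lf (nat_lit 0) (nat_lit 4060823322) (nat_lit 504) (nat_lit 35098595189) (nat_lit 84) (nat_lit 55762415842) (nat_lit 70) (nat_lit 5) (nat_lit 76) (nat_lit 5) (nat_lit 71) (nat_lit 5) (nat_lit 405) (nat_lit 371) (nat_lit 88)))) (XT.nd (nat_lit 94) (nat_lit 0) (nat_lit 0) (XT.lf (nat_lit 0) (nat_lit 1275941338) (nat_lit 420) (nat_lit 10840247077) (nat_lit 504) (nat_lit 84731763954) (nat_lit 65) (nat_lit 5) (nat_lit 70) (nat_lit 5) (nat_lit 71) (nat_lit 5) (nat_lit 406) (nat_lit 371) (nat_lit 87)) (XT.nd (nat_lit 94) (nat_lit 0) (nat_lit 0) (XT.lf (nat_lit 0) (nat_lit 20973138868) (nat_lit 504) (nat_lit 59486498824) (nat_lit 84) (nat_lit 18357035463) (nat_lit 65) (nat_lit 5) (nat_lit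 71) (nat_lit 5) (nat_lit 66) (nat_lit 5) (nat_lit 407) (nat_lit 371) (nat_lit 86)) (XT.lf (nat_lit 0) (nat_lit 30215197954) (nat_lit 504) (nat_lit 22393581565) (nat_lit 84) (nat_lit 48234218948) (nat_lit 65) (nat_lit 5) (nat_lit 71) (nat_lit 5) (nat_lit 66) (nat_lit 5) (nat_lit 408) (nat_lit 371) (nat_lit 85))))) (XT.nd (nat_lit 282) (nat_lit 336) (nat_lit 0) (XT.nd (nat_lit 94) (nat_lit 0) (nat_lit 0) (XT.lf (nat_lit 0) (nat_lit 16174736720) (nat_lit 420) (nat_lit 23729162320) (nat_lit 504) (nat_lit 63023277531) (nat_lit 60) (nat_lit 5) (nat_lit 65) (nat_lit 5) (nat_lit 66) (nat_lit 5) (nat_lit 409) (nat_lit 371) (nat_lit 84)) (XT.nd (nat_lit 94) (nat_lit 0) (nat_lit 0) (XT.lf (nat_lit 0) (nat_lit 50188746133) (nat_lit 504) (nat_lit 48718048824) (nat_lit 84) (nat_lit 6160000511) (nat_lit 60) (nat_lit 5) (nat_lit 66) (nat_lit 5) (nat_lit 61) (nat_lit 5) (nat_lit 410) (nat_lit 371) (nat_lit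 83)) (XT.lf (nat_lit 0) (nat_lit 61034814620) (nat_lit 504) (nat_lit 9747644777) (nat_lit 84) (nat_lit 36482769963) (nat_lit 60) (nat_lit 5) (nat_lit 66) (nat_lit 5) (nat_lit 61) (nat_lit 5) (nat_lit 411) (nat_lit 371) (nat_lit 82)))) (XT.nd (nat_lit 50478) (nat_lit 0) (nat_lit 4872) (XT.lf (nat_lit 0) (nat_lit 31056206364) (nat_lit 336) (nat_lit 41468692990) (nat_lit 420) (nat_lit 36997374818) (nat_lit 56) (nat_lit 5) (nat_lit 60) (nat_lit 5) (nat_lit 61) (nat_lit 5) (nat_lit 412) (nat_lit 371) (nat_lit 81)) (XT.nd (nat_lit 94) (nat_lit 0) (nat_lit 0) (XT.lf (nat_lit 0) (nat_lit 6099564673) (nat_lit 0) (nat_lit 6099564673) (nat_lit 1092) (nat_lit 14666130814) (nat_lit 114) (nat_lit 5) (nat_lit 114) (nat_lit 3) (nat_lit 127) (nat_lit 3) (nat_lit 372) (nat_lit 372) (nat_lit 120)) (XT.lf (nat_lit 0) (nat_lit 24883057845) (nat_lit 1092) (nat_lit 21090387144) (nat_lit 1176) (nat_lit 8586519292)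 (nat_lit 114) (nat_lit 5) (nat_lit 127) (nat_lit 3) (nat_lit 128) (nat_lit 5) (nat_lit 373) (nat_lit 372) (nat_lit 119)))))) (XT.nd (nat_lit 564) (nat_lit 0) (nat_lit 168) (XT.nd (nat_lit 282) (nat_lit 0) (nat_lit 84) (XT.nd (nat_lit 94) (nat_lit 0) (nat_lit 0) (XT.lf (nat_lit 0) (nat_lit 25506864470) (nat_lit 1092) (nat_lit 140908917) (nat_lit 1176) (nat_lit 29763507248) (nat_lit 114) (nat_lit 5) (nat_lit 127) (nat_lit 3) (nat_lit 128) (nat_lit 5) (nat_lit 374) (nat_lit 372) (nat_lit 118)) (XT.nd (nat_lit 94) (nat_lit 0) (nat_lit 84) (XT.lf (nat_lit 84) (nat_lit 21898799698) (nat_lit 0) (nat_lit 4467682252) (nat_lit 1176) (nat_lit 29915798068) (nat_lit 115) (nat_lit 5) (nat_lit 114) (nat_lit 5) (nat_lit 128) (nat_lit 5) (nat_lit 375) (nat_lit 372) (nat_lit 117)) (XT.lf (nat_lit 0) (nat_lit 27425792292) (nat_lit 1092) (nat_lit 12728266425) (nat_lit 1176) (nat_lit 17020860072) (nat_lit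 115) (nat_lit 5) (nat_lit 128) (nat_lit 5) (nat_lit 129) (nat_lit 5) (nat_lit 376) (nat_lit 372) (nat_lit 116)))) (XT.nd (nat_lit 94) (nat_lit 0) (nat_lit 84) (XT.lf (nat_lit 84) (nat_lit 9748549491) (nat_lit 0) (nat_lit 18911071150) (nat_lit 1176) (nat_lit 29431219370) (nat_lit 116) (nat_lit 5) (nat_lit 115) (nat_lit 5) (nat_lit 129) (nat_lit 5) (nat_lit 377) (nat_lit 372) (nat_lit 115)) (XT.nd (nat_lit 94) (nat_lit 0) (nat_lit 0) (XT.lf (nat_lit 0) (nat_lit 30094878072) (nat_lit 1092) (nat_lit 25870531586) (nat_lit 1176) (nat_lit 3064689168) (nat_lit 116) (nat_lit 5) (nat_lit 129) (nat_lit 5) (nat_lit 130) (nat_lit 5) (nat_lit 378) (nat_lit 372) (nat_lit 114)) (XT.lf (nat_lit 0) (nat_lit 31767364302) (nat_lit 1092) (nat_lit 2896000544) (nat_lit 1176) (nat_lit 25329137556) (nat_lit 116) (nat_lit 5) (nat_lit 129) (nat_lit 5) (nat_lit 130) (nat_lit 5) (nat_lit 379) (nat_lit 372) (nat_lit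 113))))) (XT.nd (nat_lit 282) (nat_lit 0) (nat_lit 84) (XT.nd (nat_lit 94) (nat_lit 0) (nat_lit 84) (XT.lf (nat_lit 84) (nat_lit 21217809006) (nat_lit 0) (nat_lit 12483712382) (nat_lit 1176) (nat_lit 27276717038) (nat_lit 117) (nat_lit 5) (nat_lit 116) (nat_lit 5) (nat_lit 130) (nat_lit 5) (nat_lit 380) (nat_lit 372) (nat_lit 112)) (XT.nd (nat_lit 94) (nat_lit 0) (nat_lit 0) (XT.lf (nat_lit 0) (nat_lit 35828538903) (nat_lit 1092) (nat_lit 15956813524) (nat_lit 1176) (nat_lit 10205062288) (nat_lit 117) (nat_lit 5) (nat_lit 130) (nat_lit 5) (nat_lit 131) (nat_lit 5) (nat_lit 381) (nat_lit 372) (nat_lit 111)) (XT.lf (nat_lit 84) (nat_lit 8630490124) (nat_lit 0) (nat_lit 29603676061) (nat_lit 1176) (nat_lit 24793211772) (nat_lit 118) (nat_lit 5) (nat_lit 117) (nat_lit 5) (nat_lit 131) (nat_lit 5) (nat_lit 382) (nat_lit 372) (nat_lit 110)))) (XT.nd (nat_lit 94) (nat_lit 0) (nat_lit 84) (XT.lf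 (nat_lit 84) (nat_lit 34317850133) (nat_lit 0) (nat_lit 6562466352) (nat_lit 1176) (nat_lit 23211028424) (nat_lit 118) (nat_lit 5) (nat_lit 117) (nat_lit 5) (nat_lit 131) (nat_lit 5) (nat_lit 383) (nat_lit 372) (nat_lit 109)) (XT.nd (nat_lit 94) (nat_lit 0) (nat_lit 0) (XT.lf (nat_lit 0) (nat_lit 43778466533) (nat_lit 1092) (nat_lit 4557768944) (nat_lit 1176) (nat_lit 16846792506) (nat_lit 118) (nat_lit 5) (nat_lit 131) (nat_lit 5) (nat_lit 132) (nat_lit 5) (nat_lit 384) (nat_lit 372) (nat_lit 108)) (XT.lf (nat_lit 84) (nat_lit 21811557654) (nat_lit 0) (nat_lit 25237823390) (nat_lit 1176) (nat_lit 19250403736) (nat_lit 119) (nat_lit 5) (nat_lit 118) (nat_lit 5) (nat_lit 132) (nat_lit 5) (nat_lit 385) (nat_lit 372) (nat_lit 107))))))))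
noncomputable def xc237 : XT := (XT.nd (nat_lit 2256) (nat_lit 420) (nat_lit 0) (XT.nd (nat_lit 1128) (nat_lit 1848) (nat_lit 0) (XT.nd (nat_lit 564) (nat_lit 1680) (nat_lit 0) (XT.nd (nat_lit 282) (nat_lit 924) (nat_lit 0) (XT.nd (nat_lit 94) (nat_lit 0) (nat_lit 84) (XT.lf (nat_lit 84) (nat_lit 49094537541) (nat_lit 0) (nat_lit 1374172983) (nat_lit 1176) (nat_lit 16980995056) (nat_lit 119) (nat_lit 5) (nat_lit 118) (nat_lit 5) (nat_lit 132) (nat_lit 5) (nat_lit 386) (nat_lit 372) (nat_lit 106)) (XT.nd (nat_lit 94) (nat_lit 0) (nat_lit 0) (XT.lf (nat_lit 84) (nat_lit 8528993390) (nat_lit 0) (nat_lit 45779552491) (nat_lit 1176) (nat_lit 14316980334) (nat_lit 120) (nat_lit 5) (nat_lit 119) (nat_lit 5) (nat_lit 133) (nat_lit 5) (nat_lit 387) (nat_lit 372) (nat_lit 105)) (XT.lf (nat_lit 84) (nat_lit 36620918848) (nat_lit 0) (nat_lit 21851472840) (nat_lit 1176) (nat_lit 11359053296) (nat_lit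 120) (nat_lit 5) (nat_lit 119) (nat_lit 5) (nat_lit 133) (nat_lit 5) (nat_lit 388) (nat_lit 372) (nat_lit 104)))) (XT.nd (nat_lit 94) (nat_lit 1092) (nat_lit 0) (XT.lf (nat_lit 0) (nat_lit 62792765209) (nat_lit 1092) (nat_lit 5519439312) (nat_lit 84) (nat_lit 2761693690) (nat_lit 120) (nat_lit 5) (nat_lit 133) (nat_lit 5) (nat_lit 121) (nat_lit 5) (nat_lit 389) (nat_lit 372) (nat_lit 103)) (XT.nd (nat_lit 94) (nat_lit 0) (nat_lit 0) (XT.lf (nat_lit 0) (nat_lit 23275109048) (nat_lit 1092) (nat_lit 44425847569) (nat_lit 1176) (nat_lit 4639842218) (nat_lit 107) (nat_lit 5) (nat_lit 120) (nat_lit 5) (nat_lit 121) (nat_lit 5) (nat_lit 390) (nat_lit 372) (nat_lit 102)) (XT.lf (nat_lit 0) (nat_lit 53078887251) (nat_lit 1092) (nat_lit 19739542322) (nat_lit 1176) (nat_lit 826774615) (nat_lit 107) (nat_lit 5) (nat_lit 120) (nat_lit 5) (nat_lit 121) (nat_lit 5) (nat_lit 391) (nat_lit 372) (nat_lit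 101))))) (XT.nd (nat_lit 282) (nat_lit 1092) (nat_lit 0) (XT.nd (nat_lit 94) (nat_lit 0) (nat_lit 0) (XT.lf (nat_lit 0) (nat_lit 3188306453) (nat_lit 588) (nat_lit 66078265631) (nat_lit 84) (nat_lit 5717983909) (nat_lit 100) (nat_lit 5) (nat_lit 107) (nat_lit 5) (nat_lit 101) (nat_lit 5) (nat_lit 392) (nat_lit 372) (nat_lit 100)) (XT.nd (nat_lit 94) (nat_lit 0) (nat_lit 0) (XT.lf (nat_lit 0) (nat_lit 7728970752) (nat_lit 588) (nat_lit 36843191923) (nat_lit 84) (nat_lit 31780037524) (nat_lit 100) (nat_lit 5) (nat_lit 107) (nat_lit 5) (nat_lit 101) (nat_lit 5) (nat_lit 393) (nat_lit 372) (nat_lit 99)) (XT.lf (nat_lit 0) (nat_lit 12409944575) (nat_lit 588) (nat_lit 6702240223) (nat_lit 84) (nat_lit 58650072124) (nat_lit 100) (nat_lit 5) (nat_lit 107) (nat_lit 5) (nat_lit 101) (nat_lit 5) (nat_lit 394) (nat_lit 372) (nat_lit 98)))) (XT.nd (nat_lit 94) (nat_lit 504) (nat_lit 0) (XT.lf (nat_lit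 0) (nat_lit 17555667150) (nat_lit 672) (nat_lit 54407879358) (nat_lit 84) (nat_lit 7242571618) (nat_lit 93) (nat_lit 5) (nat_lit 101) (nat_lit 5) (nat_lit 94) (nat_lit 5) (nat_lit 395) (nat_lit 372) (nat_lit 97)) (XT.nd (nat_lit 94) (nat_lit 504) (nat_lit 0) (XT.lf (nat_lit 0) (nat_lit 23126625062) (nat_lit 672) (nat_lit 23471850018) (nat_lit 84) (nat_lit 34088028163) (nat_lit 93) (nat_lit 5) (nat_lit 101) (nat_lit 5) (nat_lit 94) (nat_lit 5) (nat_lit 396) (nat_lit 372) (nat_lit 96)) (XT.lf (nat_lit 0) (nat_lit 8595990488) (nat_lit 504) (nat_lit 20359150436) (nat_lit 588) (nat_lit 53255010193) (nat_lit 87) (nat_lit 5) (nat_lit 93) (nat_lit 5) (nat_lit 94) (nat_lit 5) (nat_lit 397) (nat_lit 372) (nat_lit 95)))))) (XT.nd (nat_lit 564) (nat_lit 924) (nat_lit 0) (XT.nd (nat_lit 282) (nat_lit 420) (nat_lit 0) (XT.nd (nat_lit 94) (nat_lit 504) (nat_lit 0) (XT.lf (nat_lit 0) (nat_lit 35277839486)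 (nat_lit 588) (nat_lit 41687225148) (nat_lit 84) (nat_lit 6806250369) (nat_lit 87) (nat_lit 5) (nat_lit 94) (nat_lit 5) (nat_lit 88) (nat_lit 5) (nat_lit 398) (nat_lit 372) (nat_lit 94)) (XT.nd (nat_lit 94) (nat_lit 504) (nat_lit 0) (XT.lf (nat_lit 0) (nat_lit 42004373841) (nat_lit 588) (nat_lit 8979174594) (nat_lit 84) (nat_lit 34390885079) (nat_lit 87) (nat_lit 5) (nat_lit 94) (nat_lit 5) (nat_lit 88) (nat_lit 5) (nat_lit 399) (nat_lit 372) (nat_lit 93)) (XT.lf (nat_lit 0) (nat_lit 25251199039) (nat_lit 504) (nat_lit 23938344511) (nat_lit 588) (nat_lit 37829952954) (nat_lit 81) (nat_lit 5) (nat_lit 87) (nat_lit 5) (nat_lit 88) (nat_lit 5) (nat_lit 400) (nat_lit 372) (nat_lit 92)))) (XT.nd (nat_lit 94) (nat_lit 420) (nat_lit 0) (XT.lf (nat_lit 0) (nat_lit 56730899220) (nat_lit 588) (nat_lit 28020069859) (nat_lit 84) (nat_lit 3960451816) (nat_lit 81) (nat_lit 5) (nat_lit 88) (nat_lit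 5) (nat_lit 82) (nat_lit 5) (nat_lit 401) (nat_lit 372) (nat_lit 91)) (XT.nd (nat_lit 94) (nat_lit 0) (nat_lit 0) (XT.lf (nat_lit 0) (nat_lit 6663393283) (nat_lit 420) (nat_lit 58153215010) (nat_lit 504) (nat_lit 25629560161) (nat_lit 76) (nat_lit 5) (nat_lit 81) (nat_lit 5) (nat_lit 82) (nat_lit 5) (nat_lit 402) (nat_lit 372) (nat_lit 90)) (XT.lf (nat_lit 0) (nat_lit 43015679285) (nat_lit 420) (nat_lit 30429411063) (nat_lit 504) (nat_lit 18780548431) (nat_lit 76) (nat_lit 5) (nat_lit 81) (nat_lit 5) (nat_lit 82) (nat_lit 5) (nat_lit 403) (nat_lit 372) (nat_lit 89))))) (XT.nd (nat_lit 282) (nat_lit 420) (nat_lit 0) (XT.nd (nat_lit 94) (nat_lit 504) (nat_lit 0) (XT.lf (nat_lit 0) (nat_lit 80494522181) (nat_lit 420) (nat_lit 1846187811) (nat_lit 504) (nat_lit 11719574550) (nat_lit 76) (nat_lit 5) (nat_lit 81) (nat_lit 5) (nat_lit 82) (nat_lit 5) (nat_lit 404) (nat_lit 372) (nat_lit 88))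 (XT.nd (nat_lit 94) (nat_lit 84) (nat_lit 0) (XT.lf (nat_lit 0) (nat_lit 23380072156) (nat_lit 420) (nat_lit 68637644474) (nat_lit 504) (nat_lit 3918414506) (nat_lit 71) (nat_lit 5) (nat_lit 76) (nat_lit 5) (nat_lit 77) (nat_lit 5) (nat_lit 405) (nat_lit 372) (nat_lit 87)) (XT.lf (nat_lit 0) (nat_lit 4203076415) (nat_lit 504) (nat_lit 36168540139) (nat_lit 84) (nat_lit 57492235589) (nat_lit 70) (nat_lit 5) (nat_lit 76) (nat_lit 5) (nat_lit 71) (nat_lit 5) (nat_lit 406) (nat_lit 372) (nat_lit 86)))) (XT.nd (nat_lit 94) (nat_lit 0) (nat_lit 0) (XT.lf (nat_lit 0) (nat_lit 1333423659) (nat_lit 420) (nat_lit 11174419878) (nat_lit 504) (nat_lit 87341847577) (nat_lit 65) (nat_lit 5) (nat_lit 70) (nat_lit 5) (nat_lit 71) (nat_lit 5) (nat_lit 407) (nat_lit 372) (nat_lit 85)) (XT.nd (nat_lit 94) (nat_lit 0) (nat_lit 0) (XT.lf (nat_lit 0) (nat_lit 21638894805) (nat_lit 504) (nat_lit 61312677941)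 (nat_lit 84) (nat_lit 18927885409) (nat_lit 65) (nat_lit 5) (nat_lit 71) (nat_lit 5) (nat_lit 66) (nat_lit 5) (nat_lit 408) (nat_lit 372) (nat_lit 84)) (XT.lf (nat_lit 0) (nat_lit 31166989005) (nat_lit 504) (nat_lit 23070418533) (nat_lit 84) (nat_lit 49731208006) (nat_lit 65) (nat_lit 5) (nat_lit 71) (nat_lit 5) (nat_lit 66) (nat_lit 5) (nat_lit 409) (nat_lit 372) (nat_lit 83))))))) (XT.nd (nat_lit 51700) (nat_lit 0) (nat_lit 3360) (XT.nd (nat_lit 51136) (nat_lit 0) (nat_lit 4620) (XT.nd (nat_lit 50854) (nat_lit 0) (nat_lit 4536) (XT.nd (nat_lit 94) (nat_lit 0) (nat_lit 0) (XT.lf (nat_lit 0) (nat_lit 16693341823) (nat_lit 420) (nat_lit 24462413887) (nat_lit 504) (nat_lit 64961657684) (nat_lit 60) (nat_lit 5) (nat_lit 65) (nat_lit 5) (nat_lit 66) (nat_lit 5) (nat_lit 410) (nat_lit 372) (nat_lit 82)) (XT.nd (nat_lit 50666) (nat_lit 0) (nat_lit 4536) (XT.lf (nat_lit 0) (nat_lit 51759009618)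 (nat_lit 504) (nat_lit 50211169076) (nat_lit 84) (nat_lit 6353196287) (nat_lit 60) (nat_lit 5) (nat_lit 66) (nat_lit 5) (nat_lit 61) (nat_lit 5) (nat_lit 411) (nat_lit 372) (nat_lit 81)) (XT.lf (nat_lit 0) (nat_lit 6298401161) (nat_lit 0) (nat_lit 6298401161) (nat_lit 1092) (nat_lit 15100603442) (nat_lit 114) (nat_lit 5) (nat_lit 114) (nat_lit 3) (nat_lit 127) (nat_lit 3) (nat_lit 373) (nat_lit 373) (nat_lit 118)))) (XT.nd (nat_lit 94) (nat_lit 0) (nat_lit 0) (XT.lf (nat_lit 0) (nat_lit 25692072300) (nat_lit 1092) (nat_lit 21723773694) (nat_lit 1176) (nat_lit 8834168815) (nat_lit 114) (nat_lit 5) (nat_lit 127) (nat_lit 3) (nat_lit 128) (nat_lit 5) (nat_lit 374) (nat_lit 373) (nat_lit 117)) (XT.nd (nat_lit 94) (nat_lit 0) (nat_lit 0) (XT.lf (nat_lit 0) (nat_lit 26334085184) (nat_lit 1092) (nat_lit 125475491) (nat_lit 1176) (nat_lit 30668200633) (nat_lit 114) (nat_lit 5) (nat_lit 127)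 (nat_lit 3) (nat_lit 128) (nat_lit 5) (nat_lit 375) (nat_lit 373) (nat_lit 116)) (XT.lf (nat_lit 84) (nat_lit 22597263617) (nat_lit 0) (nat_lit 4622183919) (nat_lit 1176) (nat_lit 30806346265) (nat_lit 115) (nat_lit 5) (nat_lit 114) (nat_lit 5) (nat_lit 128) (nat_lit 5) (nat_lit 376) (nat_lit 373) (nat_lit 115))))) (XT.nd (nat_lit 282) (nat_lit 0) (nat_lit 84) (XT.nd (nat_lit 94) (nat_lit 0) (nat_lit 0) (XT.lf (nat_lit 0) (nat_lit 28310371959) (nat_lit 1092) (nat_lit 13102477230) (nat_lit 1176) (nat_lit 17533297150) (nat_lit 115) (nat_lit 5) (nat_lit 128) (nat_lit 5) (nat_lit 129) (nat_lit 5) (nat_lit 377) (nat_lit 373) (nat_lit 114)) (XT.nd (nat_lit 94) (nat_lit 0) (nat_lit 84) (XT.lf (nat_lit 84) (nat_lit 10070913797) (nat_lit 0) (nat_lit 19510701434) (nat_lit 1176) (nat_lit 30308875616) (nat_lit 116) (nat_lit 5) (nat_lit 115) (nat_lit 5) (nat_lit 129) (nat_lit 5) (nat_lit 378) (nat_lit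 373) (nat_lit 113)) (XT.lf (nat_lit 0) (nat_lit 31060228166) (nat_lit 1092) (nat_lit 26651705963) (nat_lit 1176) (nat_lit 3146971585) (nat_lit 116) (nat_lit 5) (nat_lit 129) (nat_lit 5) (nat_lit 130) (nat_lit 5) (nat_lit 379) (nat_lit 373) (nat_lit 112)))) (XT.nd (nat_lit 94) (nat_lit 0) (nat_lit 0) (XT.lf (nat_lit 0) (nat_lit 32783587003) (nat_lit 1092) (nat_lit 2965590235) (nat_lit 1176) (nat_lit 26102000426) (nat_lit 116) (nat_lit 5) (nat_lit 129) (nat_lit 5) (nat_lit 130) (nat_lit 5) (nat_lit 380) (nat_lit 373) (nat_lit 111)) (XT.nd (nat_lit 94) (nat_lit 0) (nat_lit 84) (XT.lf (nat_lit 84) (nat_lit 21895543043) (nat_lit 0) (nat_lit 12881412972) (nat_lit 1176) (nat_lit 28090542187) (nat_lit 117) (nat_lit 5) (nat_lit 116) (nat_lit 5) (nat_lit 130) (nat_lit 5) (nat_lit 381) (nat_lit 373) (nat_lit 110)) (XT.lf (nat_lit 0) (nat_lit 36968885359) (nat_lit 1092) (nat_lit 16430957020) (nat_lit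 1176) (nat_lit 10511244812) (nat_lit 117) (nat_lit 5) (nat_lit 130) (nat_lit 5) (nat_lit 131) (nat_lit 5) (nat_lit 382) (nat_lit 373) (nat_lit 109)))))) (XT.nd (nat_lit 564) (nat_lit 1428) (nat_lit 0) (XT.nd (nat_lit 282) (nat_lit 0) (nat_lit 84) (XT.nd (nat_lit 94) (nat_lit 0) (nat_lit 0) (XT.lf (nat_lit 84) (nat_lit 8918345317) (nat_lit 0) (nat_lit 30530051380) (nat_lit 1176) (nat_lit 25531824331) (nat_lit 118) (nat_lit 5) (nat_lit 117) (nat_lit 5) (nat_lit 131) (nat_lit 5) (nat_lit 383) (nat_lit 373) (nat_lit 108)) (XT.nd (nat_lit 94) (nat_lit 0) (nat_lit 84) (XT.lf (nat_lit 84) (nat_lit 35401402808) (nat_lit 0) (nat_lit 6774303742) (nat_lit 1176) (nat_lit 23901494644) (nat_lit 118) (nat_lit 5) (nat_lit 117) (nat_lit 5) (nat_lit 131) (nat_lit 5) (nat_lit 384) (nat_lit 373) (nat_lit 107)) (XT.lf (nat_lit 0) (nat_lit 45162773502) (nat_lit 1092) (nat_lit 4678925866) (nat_lit 1176) (nat_lit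 17361058910) (nat_lit 118) (nat_lit 5) (nat_lit 131) (nat_lit 5) (nat_lit 132) (nat_lit 5) (nat_lit 385) (nat_lit 373) (nat_lit 106)))) (XT.nd (nat_lit 94) (nat_lit 0) (nat_lit 0) (XT.lf (nat_lit 84) (nat_lit 22507646018) (nat_lit 0) (nat_lit 26026820972) (nat_lit 1176) (nat_lit 19819689787) (nat_lit 119) (nat_lit 5) (nat_lit 118) (nat_lit 5) (nat_lit 132) (nat_lit 5) (nat_lit 386) (nat_lit 373) (nat_lit 105)) (XT.nd (nat_lit 94) (nat_lit 0) (nat_lit 84) (XT.lf (nat_lit 84) (nat_lit 50635799027) (nat_lit 0) (nat_lit 1423198201) (nat_lit 1176) (nat_lit 17480755596) (nat_lit 119) (nat_lit 5) (nat_lit 118) (nat_lit 5) (nat_lit 132) (nat_lit 5) (nat_lit 387) (nat_lit 373) (nat_lit 104)) (XT.lf (nat_lit 84) (nat_lit 8813474981) (nat_lit 0) (nat_lit 47203755446) (nat_lit 1176) (nat_lit 14734816083) (nat_lit 120) (nat_lit 5) (nat_lit 119) (nat_lit 5) (nat_lit 133) (nat_lit 5) (nat_lit 388)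 (nat_lit 373) (nat_lit 103))))) (XT.nd (nat_lit 282) (nat_lit 588) (nat_lit 0) (XT.nd (nat_lit 94) (nat_lit 1008) (nat_lit 0) (XT.lf (nat_lit 84) (nat_lit 37775646281) (nat_lit 0) (nat_lit 22533753879) (nat_lit 1176) (nat_lit 11685974791) (nat_lit 120) (nat_lit 5) (nat_lit 119) (nat_lit 5) (nat_lit 133) (nat_lit 5) (nat_lit 389) (nat_lit 373) (nat_lit 102)) (XT.nd (nat_lit 94) (nat_lit 1092) (nat_lit 0) (XT.lf (nat_lit 0) (nat_lit 64762925669) (nat_lit 1092) (nat_lit 5670782241) (nat_lit 84) (nat_lit 2842663177) (nat_lit 120) (nat_lit 5) (nat_lit 133) (nat_lit 5) (nat_lit 121) (nat_lit 5) (nat_lit 390) (nat_lit 373) (nat_lit 101)) (XT.lf (nat_lit 0) (nat_lit 24016197070) (nat_lit 1092) (nat_lit 45806558831) (nat_lit 1176) (nat_lit 4759808307) (nat_lit 107) (nat_lit 5) (nat_lit 120) (nat_lit 5) (nat_lit 121) (nat_lit 5) (nat_lit 391) (nat_lit 373) (nat_lit 100)))) (XT.nd (nat_lit 94)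 (nat_lit 588) (nat_lit 0) (XT.lf (nat_lit 0) (nat_lit 54743304280) (nat_lit 1092) (nat_lit 20354872584) (nat_lit 1176) (nat_lit 829253300) (nat_lit 107) (nat_lit 5) (nat_lit 120) (nat_lit 5) (nat_lit 121) (nat_lit 5) (nat_lit 392) (nat_lit 373) (nat_lit 99)) (XT.nd (nat_lit 94) (nat_lit 0) (nat_lit 0) (XT.lf (nat_lit 0) (nat_lit 3309309881) (nat_lit 588) (nat_lit 68106578841) (nat_lit 84) (nat_lit 5892424504) (nat_lit 100) (nat_lit 5) (nat_lit 107) (nat_lit 5) (nat_lit 101) (nat_lit 5) (nat_lit 393) (nat_lit 373) (nat_lit 98)) (XT.lf (nat_lit 0) (nat_lit 7990068290) (nat_lit 588) (nat_lit 37965822604) (nat_lit 84) (nat_lit 32762486480) (nat_lit 100) (nat_lit 5) (nat_lit 107) (nat_lit 5) (nat_lit 101) (nat_lit 5) (nat_lit 394) (nat_lit 373) (nat_lit 97))))))))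
noncomputable def xc238 : XT := (XT.nd (nat_lit 52922) (nat_lit 0) (nat_lit 1344) (XT.nd (nat_lit 1128) (nat_lit 924) (nat_lit 0) (XT.nd (nat_lit 564) (nat_lit 1344) (nat_lit 0) (XT.nd (nat_lit 282) (nat_lit 504) (nat_lit 0) (XT.nd (nat_lit 94) (nat_lit 588) (nat_lit 0) (XT.lf (nat_lit 0) (nat_lit 12815505859) (nat_lit 588) (nat_lit 6891087974) (nat_lit 84) (nat_lit 60465574304) (nat_lit 100) (nat_lit 5) (nat_lit 107) (nat_lit 5) (nat_lit 101) (nat_lit 5) (nat_lit 395) (nat_lit 373) (nat_lit 96)) (XT.nd (nat_lit 94) (nat_lit 0) (nat_lit 0) (XT.lf (nat_lit 0) (nat_lit 18120287951) (nat_lit 672) (nat_lit 56075073906) (nat_lit 84) (nat_lit 7465443549) (nat_lit 93) (nat_lit 5) (nat_lit 101) (nat_lit 5) (nat_lit 94) (nat_lit 5) (nat_lit 396) (nat_lit 373) (nat_lit 95)) (XT.lf (nat_lit 0) (nat_lit 23863332319) (nat_lit 672) (nat_lit 24180612468) (nat_lit 84) (nat_lit 35143158793) (nat_lit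 93) (nat_lit 5) (nat_lit 101) (nat_lit 5) (nat_lit 94) (nat_lit 5) (nat_lit 397) (nat_lit 373) (nat_lit 94)))) (XT.nd (nat_lit 94) (nat_lit 0) (nat_lit 0) (XT.lf (nat_lit 0) (nat_lit 8881140103) (nat_lit 504) (nat_lit 20990982518) (nat_lit 588) (nat_lit 54885876660) (nat_lit 87) (nat_lit 5) (nat_lit 93) (nat_lit 5) (nat_lit 94) (nat_lit 5) (nat_lit 398) (nat_lit 373) (nat_lit 93)) (XT.nd (nat_lit 94) (nat_lit 0) (nat_lit 0) (XT.lf (nat_lit 0) (nat_lit 36390235634) (nat_lit 588) (nat_lit 42960763502) (nat_lit 84) (nat_lit 7016580360) (nat_lit 87) (nat_lit 5) (nat_lit 94) (nat_lit 5) (nat_lit 88) (nat_lit 5) (nat_lit 399) (nat_lit 373) (nat_lit 92)) (XT.lf (nat_lit 0) (nat_lit 43324727784) (nat_lit 588) (nat_lit 9239327624) (nat_lit 84) (nat_lit 35456358704) (nat_lit 87) (nat_lit 5) (nat_lit 94) (nat_lit 5) (nat_lit 88) (nat_lit 5) (nat_lit 400) (nat_lit 373) (nat_lit 91))))) (XT.nd (nat_lit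 282) (nat_lit 420) (nat_lit 0) (XT.nd (nat_lit 94) (nat_lit 420) (nat_lit 0) (XT.lf (nat_lit 0) (nat_lit 26052003318) (nat_lit 504) (nat_lit 24680265381) (nat_lit 588) (nat_lit 38984218664) (nat_lit 81) (nat_lit 5) (nat_lit 87) (nat_lit 5) (nat_lit 88) (nat_lit 5) (nat_lit 401) (nat_lit 373) (nat_lit 90)) (XT.nd (nat_lit 94) (nat_lit 420) (nat_lit 0) (XT.lf (nat_lit 0) (nat_lit 58506871319) (nat_lit 588) (nat_lit 28870623181) (nat_lit 84) (nat_lit 4083385308) (nat_lit 81) (nat_lit 5) (nat_lit 88) (nat_lit 5) (nat_lit 82) (nat_lit 5) (nat_lit 402) (nat_lit 373) (nat_lit 89)) (XT.lf (nat_lit 0) (nat_lit 6887844387) (nat_lit 420) (nat_lit 59955049814) (nat_lit 504) (nat_lit 26406522734) (nat_lit 76) (nat_lit 5) (nat_lit 81) (nat_lit 5) (nat_lit 82) (nat_lit 5) (nat_lit 403) (nat_lit 373) (nat_lit 88)))) (XT.nd (nat_lit 94) (nat_lit 420) (nat_lit 0) (XT.lf (nat_lit 0) (nat_lit 44366513464)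 (nat_lit 420) (nat_lit 31371835452) (nat_lit 504) (nat_lit 19345719446) (nat_lit 76) (nat_lit 5) (nat_lit 81) (nat_lit 5) (nat_lit 82) (nat_lit 5) (nat_lit 404) (nat_lit 373) (nat_lit 87)) (XT.nd (nat_lit 94) (nat_lit 420) (nat_lit 0) (XT.lf (nat_lit 0) (nat_lit 83006678868) (nat_lit 420) (nat_lit 1902558960) (nat_lit 504) (nat_lit 12066367311) (nat_lit 76) (nat_lit 5) (nat_lit 81) (nat_lit 5) (nat_lit 82) (nat_lit 5) (nat_lit 405) (nat_lit 373) (nat_lit 86)) (XT.lf (nat_lit 0) (nat_lit 24122044761) (nat_lit 420) (nat_lit 70763885664) (nat_lit 504) (nat_lit 4023683493) (nat_lit 71) (nat_lit 5) (nat_lit 76) (nat_lit 5) (nat_lit 77) (nat_lit 5) (nat_lit 406) (nat_lit 373) (nat_lit 85)))))) (XT.nd (nat_lit 51230) (nat_lit 0) (nat_lit 4536) (XT.nd (nat_lit 282) (nat_lit 420) (nat_lit 0) (XT.nd (nat_lit 94) (nat_lit 420) (nat_lit 0) (XT.lf (nat_lit 0) (nat_lit 4348769874) (nat_lit 504) (nat_lit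 37272726156) (nat_lit 84) (nat_lit 59275609567) (nat_lit 70) (nat_lit 5) (nat_lit 76) (nat_lit 5) (nat_lit 71) (nat_lit 5) (nat_lit 407) (nat_lit 373) (nat_lit 84)) (XT.nd (nat_lit 94) (nat_lit 0) (nat_lit 0) (XT.lf (nat_lit 0) (nat_lit 1391626017) (nat_lit 420) (nat_lit 11519063088) (nat_lit 504) (nat_lit 90033827101) (nat_lit 65) (nat_lit 5) (nat_lit 70) (nat_lit 5) (nat_lit 71) (nat_lit 5) (nat_lit 408) (nat_lit 373) (nat_lit 83)) (XT.lf (nat_lit 0) (nat_lit 22324365834) (nat_lit 504) (nat_lit 63196528997) (nat_lit 84) (nat_lit 19516326162) (nat_lit 65) (nat_lit 5) (nat_lit 71) (nat_lit 5) (nat_lit 66) (nat_lit 5) (nat_lit 409) (nat_lit 373) (nat_lit 82)))) (XT.nd (nat_lit 94) (nat_lit 420) (nat_lit 0) (XT.lf (nat_lit 0) (nat_lit 32147390001) (nat_lit 504) (nat_lit 23769265950) (nat_lit 84) (nat_lit 51274501356) (nat_lit 65) (nat_lit 5) (nat_lit 71) (nat_lit 5) (nat_lit 66) (nat_lit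 5) (nat_lit 410) (nat_lit 373) (nat_lit 81)) (XT.nd (nat_lit 50760) (nat_lit 0) (nat_lit 4536) (XT.lf (nat_lit 0) (nat_lit 17227005595) (nat_lit 420) (nat_lit 25218535593) (nat_lit 504) (nat_lit 66961036322) (nat_lit 60) (nat_lit 5) (nat_lit 65) (nat_lit 5) (nat_lit 66) (nat_lit 5) (nat_lit 411) (nat_lit 373) (nat_lit 80)) (XT.lf (nat_lit 0) (nat_lit 6502824072) (nat_lit 0) (nat_lit 6502824072) (nat_lit 1092) (nat_lit 15549739864) (nat_lit 114) (nat_lit 5) (nat_lit 114) (nat_lit 3) (nat_lit 127) (nat_lit 3) (nat_lit 374) (nat_lit 374) (nat_lit 116))))) (XT.nd (nat_lit 282) (nat_lit 0) (nat_lit 84) (XT.nd (nat_lit 94) (nat_lit 0) (nat_lit 0) (XT.lf (nat_lit 0) (nat_lit 26523936741) (nat_lit 1092) (nat_lit 22378004468) (nat_lit 1176) (nat_lit 9090593188) (nat_lit 114) (nat_lit 5) (nat_lit 127) (nat_lit 3) (nat_lit 128) (nat_lit 5) (nat_lit 375) (nat_lit 374) (nat_lit 115)) (XT.nd (nat_lit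 94) (nat_lit 0) (nat_lit 0) (XT.lf (nat_lit 0) (nat_lit 27184787315) (nat_lit 1092) (nat_lit 110736512) (nat_lit 1176) (nat_lit 31602004222) (nat_lit 114) (nat_lit 5) (nat_lit 127) (nat_lit 3) (nat_lit 128) (nat_lit 5) (nat_lit 376) (nat_lit 374) (nat_lit 114)) (XT.lf (nat_lit 84) (nat_lit 23316218910) (nat_lit 0) (nat_lit 4780527221) (nat_lit 1176) (nat_lit 31726683644) (nat_lit 115) (nat_lit 5) (nat_lit 114) (nat_lit 5) (nat_lit 128) (nat_lit 5) (nat_lit 377) (nat_lit 374) (nat_lit 113)))) (XT.nd (nat_lit 94) (nat_lit 0) (nat_lit 0) (XT.lf (nat_lit 0) (nat_lit 29220337202) (nat_lit 1092) (nat_lit 13489494850) (nat_lit 1176) (nat_lit 18062520667) (nat_lit 115) (nat_lit 5) (nat_lit 128) (nat_lit 5) (nat_lit 129) (nat_lit 5) (nat_lit 378) (nat_lit 374) (nat_lit 112)) (XT.nd (nat_lit 94) (nat_lit 0) (nat_lit 84) (XT.lf (nat_lit 84) (nat_lit 10402077329) (nat_lit 0) (nat_lit 20128127317)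 (nat_lit 1176) (nat_lit 31215795231) (nat_lit 116) (nat_lit 5) (nat_lit 115) (nat_lit 5) (nat_lit 129) (nat_lit 5) (nat_lit 379) (nat_lit 374) (nat_lit 111)) (XT.lf (nat_lit 0) (nat_lit 32053584480) (nat_lit 1092) (nat_lit 27458329482) (nat_lit 1176) (nat_lit 3232558359) (nat_lit 116) (nat_lit 5) (nat_lit 129) (nat_lit 5) (nat_lit 130) (nat_lit 5) (nat_lit 380) (nat_lit 374) (nat_lit 110))))))) (XT.nd (nat_lit 1128) (nat_lit 2604) (nat_lit 0) (XT.nd (nat_lit 564) (nat_lit 756) (nat_lit 0) (XT.nd (nat_lit 282) (nat_lit 0) (nat_lit 84) (XT.nd (nat_lit 94) (nat_lit 0) (nat_lit 0) (XT.lf (nat_lit 0) (nat_lit 33829450693) (nat_lit 1092) (nat_lit 3038532877) (nat_lit 1176) (nat_lit 26899552987) (nat_lit 116) (nat_lit 5) (nat_lit 129) (nat_lit 5) (nat_lit 130) (nat_lit 5) (nat_lit 381) (nat_lit 374) (nat_lit 109)) (XT.nd (nat_lit 94) (nat_lit 0) (nat_lit 84) (XT.lf (nat_lit 84) (nat_lit 22593103270)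 (nat_lit 0) (nat_lit 13290808175) (nat_lit 1176) (nat_lit 28931476705) (nat_lit 117) (nat_lit 5) (nat_lit 116) (nat_lit 5) (nat_lit 130) (nat_lit 5) (nat_lit 382) (nat_lit 374) (nat_lit 108)) (XT.lf (nat_lit 0) (nat_lit 38142825639) (nat_lit 1092) (nat_lit 16921014264) (nat_lit 1176) (nat_lit 10827521640) (nat_lit 117) (nat_lit 5) (nat_lit 130) (nat_lit 5) (nat_lit 131) (nat_lit 5) (nat_lit 383) (nat_lit 374) (nat_lit 107)))) (XT.nd (nat_lit 94) (nat_lit 0) (nat_lit 0) (XT.lf (nat_lit 84) (nat_lit 9213921025) (nat_lit 0) (nat_lit 31484631308) (nat_lit 1176) (nat_lit 26295109468) (nat_lit 118) (nat_lit 5) (nat_lit 117) (nat_lit 5) (nat_lit 131) (nat_lit 5) (nat_lit 384) (nat_lit 374) (nat_lit 106)) (XT.nd (nat_lit 94) (nat_lit 0) (nat_lit 84) (XT.lf (nat_lit 84) (nat_lit 36517378791) (nat_lit 0) (nat_lit 6992210489) (nat_lit 1176) (nat_lit 24615087518) (nat_lit 118) (nat_lit 5) (nat_lit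 117) (nat_lit 5) (nat_lit 131) (nat_lit 5) (nat_lit 385) (nat_lit 374) (nat_lit 105)) (XT.lf (nat_lit 0) (nat_lit 46588384393) (nat_lit 1092) (nat_lit 4805031219) (nat_lit 1176) (nat_lit 17891740488) (nat_lit 118) (nat_lit 5) (nat_lit 131) (nat_lit 5) (nat_lit 132) (nat_lit 5) (nat_lit 386) (nat_lit 374) (nat_lit 104))))) (XT.nd (nat_lit 282) (nat_lit 924) (nat_lit 0) (XT.nd (nat_lit 94) (nat_lit 0) (nat_lit 0) (XT.lf (nat_lit 84) (nat_lit 23224132630) (nat_lit 0) (nat_lit 26839885065) (nat_lit 1176) (nat_lit 20408251183) (nat_lit 119) (nat_lit 5) (nat_lit 118) (nat_lit 5) (nat_lit 132) (nat_lit 5) (nat_lit 387) (nat_lit 374) (nat_lit 103)) (XT.nd (nat_lit 94) (nat_lit 0) (nat_lit 84) (XT.lf (nat_lit 84) (nat_lit 52223694621) (nat_lit 0) (nat_lit 1473362586) (nat_lit 1176) (nat_lit 17997587257) (nat_lit 119) (nat_lit 5) (nat_lit 118) (nat_lit 5) (nat_lit 132) (nat_lit 5) (nat_lit 388)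 (nat_lit 374) (nat_lit 102)) (XT.lf (nat_lit 84) (nat_lit 9105585963) (nat_lit 0) (nat_lit 48671810352) (nat_lit 1176) (nat_lit 15167144210) (nat_lit 120) (nat_lit 5) (nat_lit 119) (nat_lit 5) (nat_lit 133) (nat_lit 5) (nat_lit 389) (nat_lit 374) (nat_lit 101)))) (XT.nd (nat_lit 94) (nat_lit 1008) (nat_lit 0) (XT.lf (nat_lit 84) (nat_lit 38965016493) (nat_lit 0) (nat_lit 23236896260) (nat_lit 1176) (nat_lit 12024524033) (nat_lit 120) (nat_lit 5) (nat_lit 119) (nat_lit 5) (nat_lit 133) (nat_lit 5) (nat_lit 390) (nat_lit 374) (nat_lit 100)) (XT.nd (nat_lit 94) (nat_lit 1092) (nat_lit 0) (XT.lf (nat_lit 0) (nat_lit 66792764139) (nat_lit 1092) (nat_lit 5827987200) (nat_lit 84) (nat_lit 2926417732) (nat_lit 120) (nat_lit 5) (nat_lit 133) (nat_lit 5) (nat_lit 121) (nat_lit 5) (nat_lit 391) (nat_lit 374) (nat_lit 99)) (XT.lf (nat_lit 0) (nat_lit 24779100269) (nat_lit 1092) (nat_lit 47229864241)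 (nat_lit 1176) (nat_lit 4884907149) (nat_lit 107) (nat_lit 5) (nat_lit 120) (nat_lit 5) (nat_lit 121) (nat_lit 5) (nat_lit 392) (nat_lit 374) (nat_lit 98)))))) (XT.nd (nat_lit 564) (nat_lit 1428) (nat_lit 0) (XT.nd (nat_lit 282) (nat_lit 588) (nat_lit 0) (XT.nd (nat_lit 94) (nat_lit 588) (nat_lit 0) (XT.lf (nat_lit 0) (nat_lit 56458194521) (nat_lit 1092) (nat_lit 20989076433) (nat_lit 1176) (nat_lit 833180117) (nat_lit 107) (nat_lit 5) (nat_lit 120) (nat_lit 5) (nat_lit 121) (nat_lit 5) (nat_lit 393) (nat_lit 374) (nat_lit 97)) (XT.nd (nat_lit 94) (nat_lit 0) (nat_lit 0) (XT.lf (nat_lit 0) (nat_lit 3432751489) (nat_lit 588) (nat_lit 70198961088) (nat_lit 84) (nat_lit 6072439608) (nat_lit 100) (nat_lit 5) (nat_lit 107) (nat_lit 5) (nat_lit 101) (nat_lit 5) (nat_lit 394) (nat_lit 374) (nat_lit 96)) (XT.lf (nat_lit 0) (nat_lit 8257986403) (nat_lit 588) (nat_lit 39124410344) (nat_lit 84)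 (nat_lit 33775553186) (nat_lit 100) (nat_lit 5) (nat_lit 107) (nat_lit 5) (nat_lit 101) (nat_lit 5) (nat_lit 395) (nat_lit 374) (nat_lit 95)))) (XT.nd (nat_lit 94) (nat_lit 588) (nat_lit 0) (XT.lf (nat_lit 0) (nat_lit 13232404384) (nat_lit 588) (nat_lit 7086910769) (nat_lit 84) (nat_lit 62337514019) (nat_lit 100) (nat_lit 5) (nat_lit 107) (nat_lit 5) (nat_lit 101) (nat_lit 5) (nat_lit 396) (nat_lit 374) (nat_lit 94)) (XT.nd (nat_lit 94) (nat_lit 0) (nat_lit 0) (XT.lf (nat_lit 0) (nat_lit 18701203959) (nat_lit 672) (nat_lit 57795103525) (nat_lit 84) (nat_lit 7695322112) (nat_lit 93) (nat_lit 5) (nat_lit 101) (nat_lit 5) (nat_lit 94) (nat_lit 5) (nat_lit 397) (nat_lit 374) (nat_lit 93)) (XT.lf (nat_lit 0) (nat_lit 24621705787) (nat_lit 672) (nat_lit 24912463955) (nat_lit 84) (nat_lit 36231093139) (nat_lit 93) (nat_lit 5) (nat_lit 101) (nat_lit 5) (nat_lit 94) (nat_lit 5) (nat_lit 398)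 (nat_lit 374) (nat_lit 92))))) (XT.nd (nat_lit 282) (nat_lit 924) (nat_lit 0) (XT.nd (nat_lit 94) (nat_lit 0) (nat_lit 0) (XT.lf (nat_lit 0) (nat_lit 9174023269) (nat_lit 504) (nat_lit 21642360027) (nat_lit 588) (nat_lit 56568486922) (nat_lit 87) (nat_lit 5) (nat_lit 93) (nat_lit 5) (nat_lit 94) (nat_lit 5) (nat_lit 399) (nat_lit 374) (nat_lit 91)) (XT.nd (nat_lit 94) (nat_lit 0) (nat_lit 0) (XT.lf (nat_lit 0) (nat_lit 37536003505) (nat_lit 588) (nat_lit 44274893066) (nat_lit 84) (nat_lit 7233469897) (nat_lit 87) (nat_lit 5) (nat_lit 94) (nat_lit 5) (nat_lit 88) (nat_lit 5) (nat_lit 400) (nat_lit 374) (nat_lit 90)) (XT.lf (nat_lit 0) (nat_lit 44684933596) (nat_lit 588) (nat_lit 9508623498) (nat_lit 84) (nat_lit 36554900146) (nat_lit 87) (nat_lit 5) (nat_lit 94) (nat_lit 5) (nat_lit 88) (nat_lit 5) (nat_lit 401) (nat_lit 374) (nat_lit 89)))) (XT.nd (nat_lit 94) (nat_lit 420) (nat_lit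 0) (XT.lf (nat_lit 0) (nat_lit 26876565347) (nat_lit 504) (nat_lit 25445195737) (nat_lit 588) (nat_lit 40175360197) (nat_lit 81) (nat_lit 5) (nat_lit 87) (nat_lit 5) (nat_lit 88) (nat_lit 5) (nat_lit 402) (nat_lit 374) (nat_lit 88)) (XT.nd (nat_lit 94) (nat_lit 420) (nat_lit 0) (XT.lf (nat_lit 0) (nat_lit 60336873001) (nat_lit 588) (nat_lit 29748613905) (nat_lit 84) (nat_lit 4210120291) (nat_lit 81) (nat_lit 5) (nat_lit 88) (nat_lit 5) (nat_lit 82) (nat_lit 5) (nat_lit 403) (nat_lit 374) (nat_lit 87)) (XT.lf (nat_lit 0) (nat_lit 7118194062) (nat_lit 420) (nat_lit 61812795685) (nat_lit 504) (nat_lit 27208610888) (nat_lit 76) (nat_lit 5) (nat_lit 81) (nat_lit 5) (nat_lit 82) (nat_lit 5) (nat_lit 404) (nat_lit 374) (nat_lit 86))))))))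
noncomputable def xc239 : XT := (XT.nd (nat_lit 53016) (nat_lit 0) (nat_lit 0) (XT.nd (nat_lit 51888) (nat_lit 0) (nat_lit 4200) (XT.nd (nat_lit 564) (nat_lit 0) (nat_lit 0) (XT.nd (nat_lit 282) (nat_lit 504) (nat_lit 0) (XT.nd (nat_lit 94) (nat_lit 420) (nat_lit 0) (XT.lf (nat_lit 0) (nat_lit 45758195943) (nat_lit 420) (nat_lit 32343527558) (nat_lit 504) (nat_lit 19929419241) (nat_lit 76) (nat_lit 5) (nat_lit 81) (nat_lit 5) (nat_lit 82) (nat_lit 5) (nat_lit 405) (nat_lit 374) (nat_lit 85)) (XT.nd (nat_lit 94) (nat_lit 420) (nat_lit 0) (XT.lf (nat_lit 0) (nat_lit 85595715750) (nat_lit 420) (nat_lit 1960728595) (nat_lit 504) (nat_lit 12424888802) (nat_lit 76) (nat_lit 5) (nat_lit 81) (nat_lit 5) (nat_lit 82) (nat_lit 5) (nat_lit 406) (nat_lit 374) (nat_lit 84)) (XT.lf (nat_lit 0) (nat_lit 24886000302) (nat_lit 420) (nat_lit 72956130706) (nat_lit 504) (nat_lit 4133175483) (nat_lit 71)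 (nat_lit 5) (nat_lit 76) (nat_lit 5) (nat_lit 77) (nat_lit 5) (nat_lit 407) (nat_lit 374) (nat_lit 83)))) (XT.nd (nat_lit 94) (nat_lit 420) (nat_lit 0) (XT.lf (nat_lit 0) (nat_lit 4498067776) (nat_lit 504) (nat_lit 38412151174) (nat_lit 84) (nat_lit 61114202114) (nat_lit 70) (nat_lit 5) (nat_lit 76) (nat_lit 5) (nat_lit 71) (nat_lit 5) (nat_lit 408) (nat_lit 374) (nat_lit 82)) (XT.nd (nat_lit 94) (nat_lit 0) (nat_lit 0) (XT.lf (nat_lit 0) (nat_lit 1450633632) (nat_lit 420) (nat_lit 11874494709) (nat_lit 504) (nat_lit 92810183056) (nat_lit 65) (nat_lit 5) (nat_lit 70) (nat_lit 5) (nat_lit 71) (nat_lit 5) (nat_lit 409) (nat_lit 374) (nat_lit 81)) (XT.lf (nat_lit 0) (nat_lit 23030217816) (nat_lit 504) (nat_lit 65139777014) (nat_lit 84) (nat_lit 20122909288) (nat_lit 65) (nat_lit 5) (nat_lit 71) (nat_lit 5) (nat_lit 66) (nat_lit 5) (nat_lit 410) (nat_lit 374) (nat_lit 80))))) (XT.nd (nat_lit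 51042) (nat_lit 0) (nat_lit 4116) (XT.nd (nat_lit 50854) (nat_lit 0) (nat_lit 4116) (XT.lf (nat_lit 0) (nat_lit 33157340895) (nat_lit 504) (nat_lit 24490745220) (nat_lit 84) (nat_lit 52865540495) (nat_lit 65) (nat_lit 5) (nat_lit 71) (nat_lit 5) (nat_lit 66) (nat_lit 5) (nat_lit 411) (nat_lit 374) (nat_lit 79)) (XT.nd (nat_lit 94) (nat_lit 0) (nat_lit 0) (XT.lf (nat_lit 0) (nat_lit 6713040792) (nat_lit 0) (nat_lit 6713040792) (nat_lit 1092) (nat_lit 16013923869) (nat_lit 114) (nat_lit 5) (nat_lit 114) (nat_lit 3) (nat_lit 127) (nat_lit 3) (nat_lit 375) (nat_lit 375) (nat_lit 114)) (XT.lf (nat_lit 0) (nat_lit 27379491573) (nat_lit 1092) (nat_lit 23053654014) (nat_lit 1176) (nat_lit 9355999414) (nat_lit 114) (nat_lit 5) (nat_lit 127) (nat_lit 3) (nat_lit 128) (nat_lit 5) (nat_lit 376) (nat_lit 375) (nat_lit 113)))) (XT.nd (nat_lit 94) (nat_lit 0) (nat_lit 0) (XT.lf (nat_lit 0) (nat_lit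 28059826869) (nat_lit 1092) (nat_lit 96644035) (nat_lit 1176) (nat_lit 32565757369) (nat_lit 114) (nat_lit 5) (nat_lit 127) (nat_lit 3) (nat_lit 128) (nat_lit 5) (nat_lit 377) (nat_lit 375) (nat_lit 112)) (XT.nd (nat_lit 94) (nat_lit 0) (nat_lit 84) (XT.lf (nat_lit 84) (nat_lit 24056369577) (nat_lit 0) (nat_lit 4942887397) (nat_lit 1176) (nat_lit 32677604415) (nat_lit 115) (nat_lit 5) (nat_lit 114) (nat_lit 5) (nat_lit 128) (nat_lit 5) (nat_lit 378) (nat_lit 375) (nat_lit 111)) (XT.lf (nat_lit 0) (nat_lit 30156595595) (nat_lit 1092) (nat_lit 13889644848) (nat_lit 1176) (nat_lit 18608997642) (nat_lit 115) (nat_lit 5) (nat_lit 128) (nat_lit 5) (nat_lit 129) (nat_lit 5) (nat_lit 379) (nat_lit 375) (nat_lit 110)))))) (XT.nd (nat_lit 564) (nat_lit 0) (nat_lit 168) (XT.nd (nat_lit 282) (nat_lit 0) (nat_lit 84) (XT.nd (nat_lit 94) (nat_lit 0) (nat_lit 84) (XT.lf (nat_lit 84) (nat_lit 10742383589)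 (nat_lit 0) (nat_lit 20763947429) (nat_lit 1176) (nat_lit 32152763597) (nat_lit 116) (nat_lit 5) (nat_lit 115) (nat_lit 5) (nat_lit 129) (nat_lit 5) (nat_lit 380) (nat_lit 375) (nat_lit 109)) (XT.nd (nat_lit 94) (nat_lit 0) (nat_lit 0) (XT.lf (nat_lit 0) (nat_lit 33075928910) (nat_lit 1092) (nat_lit 28291118049) (nat_lit 1176) (nat_lit 3321507288) (nat_lit 116) (nat_lit 5) (nat_lit 129) (nat_lit 5) (nat_lit 130) (nat_lit 5) (nat_lit 381) (nat_lit 375) (nat_lit 108)) (XT.lf (nat_lit 0) (nat_lit 34905984529) (nat_lit 1092) (nat_lit 3114861590) (nat_lit 1176) (nat_lit 27722517325) (nat_lit 116) (nat_lit 5) (nat_lit 129) (nat_lit 5) (nat_lit 130) (nat_lit 5) (nat_lit 382) (nat_lit 375) (nat_lit 107)))) (XT.nd (nat_lit 94) (nat_lit 0) (nat_lit 84) (XT.lf (nat_lit 84) (nat_lit 23311174402) (nat_lit 0) (nat_lit 13712298084) (nat_lit 1176) (nat_lit 29800249579) (nat_lit 117) (nat_lit 5) (nat_lit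 116) (nat_lit 5) (nat_lit 130) (nat_lit 5) (nat_lit 383) (nat_lit 375) (nat_lit 106)) (XT.nd (nat_lit 94) (nat_lit 0) (nat_lit 0) (XT.lf (nat_lit 0) (nat_lit 39351505217) (nat_lit 1092) (nat_lit 17427406599) (nat_lit 1176) (nat_lit 11154170003) (nat_lit 117) (nat_lit 5) (nat_lit 130) (nat_lit 5) (nat_lit 131) (nat_lit 5) (nat_lit 384) (nat_lit 375) (nat_lit 105)) (XT.lf (nat_lit 84) (nat_lit 9517527840) (nat_lit 0) (nat_lit 32468320573) (nat_lit 1176) (nat_lit 27083726862) (nat_lit 118) (nat_lit 5) (nat_lit 117) (nat_lit 5) (nat_lit 131) (nat_lit 5) (nat_lit 385) (nat_lit 375) (nat_lit 104))))) (XT.nd (nat_lit 282) (nat_lit 0) (nat_lit 84) (XT.nd (nat_lit 94) (nat_lit 0) (nat_lit 84) (XT.lf (nat_lit 84) (nat_lit 37666852319) (nat_lit 0) (nat_lit 7216404218) (nat_lit 1176) (nat_lit 25352421963) (nat_lit 118) (nat_lit 5) (nat_lit 117) (nat_lit 5) (nat_lit 131) (nat_lit 5) (nat_lit 386)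 (nat_lit 375) (nat_lit 103)) (XT.nd (nat_lit 94) (nat_lit 0) (nat_lit 0) (XT.lf (nat_lit 0) (nat_lit 48056674969) (nat_lit 1092) (nat_lit 4936167767) (nat_lit 1176) (nat_lit 18439318099) (nat_lit 118) (nat_lit 5) (nat_lit 131) (nat_lit 5) (nat_lit 132) (nat_lit 5) (nat_lit 387) (nat_lit 375) (nat_lit 102)) (XT.lf (nat_lit 84) (nat_lit 23961719756) (nat_lit 0) (nat_lit 27677784976) (nat_lit 1176) (nat_lit 21016589062) (nat_lit 119) (nat_lit 5) (nat_lit 118) (nat_lit 5) (nat_lit 132) (nat_lit 5) (nat_lit 388) (nat_lit 375) (nat_lit 101)))) (XT.nd (nat_lit 94) (nat_lit 0) (nat_lit 84) (XT.lf (nat_lit 84) (nat_lit 53859737801) (nat_lit 0) (nat_lit 1524723997) (nat_lit 1176) (nat_lit 18531925743) (nat_lit 119) (nat_lit 5) (nat_lit 118) (nat_lit 5) (nat_lit 132) (nat_lit 5) (nat_lit 389) (nat_lit 375) (nat_lit 100)) (XT.nd (nat_lit 94) (nat_lit 0) (nat_lit 0) (XT.lf (nat_lit 84) (nat_lit 9405633306)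 (nat_lit 0) (nat_lit 50185094292) (nat_lit 1176) (nat_lit 15614322794) (nat_lit 120) (nat_lit 5) (nat_lit 119) (nat_lit 5) (nat_lit 133) (nat_lit 5) (nat_lit 390) (nat_lit 375) (nat_lit 99)) (XT.lf (nat_lit 84) (nat_lit 40190171750) (nat_lit 0) (nat_lit 23961563826) (nat_lit 1176) (nat_lit 12374973040) (nat_lit 120) (nat_lit 5) (nat_lit 119) (nat_lit 5) (nat_lit 133) (nat_lit 5) (nat_lit 391) (nat_lit 375) (nat_lit 98))))))) (XT.nd (nat_lit 1128) (nat_lit 1344) (nat_lit 0) (XT.nd (nat_lit 564) (nat_lit 1596) (nat_lit 0) (XT.nd (nat_lit 282) (nat_lit 588) (nat_lit 0) (XT.nd (nat_lit 94) (nat_lit 1092) (nat_lit 0) (XT.lf (nat_lit 0) (nat_lit 68884213382) (nat_lit 1092) (nat_lit 5991166589) (nat_lit 84) (nat_lit 3013027402) (nat_lit 120) (nat_lit 5) (nat_lit 133) (nat_lit 5) (nat_lit 121) (nat_lit 5) (nat_lit 392) (nat_lit 375) (nat_lit 97)) (XT.nd (nat_lit 94) (nat_lit 0) (nat_lit 0) (XT.lf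 (nat_lit 0) (nat_lit 25564563540) (nat_lit 1092) (nat_lit 48697096529) (nat_lit 1176) (nat_lit 5015214115) (nat_lit 107) (nat_lit 5) (nat_lit 120) (nat_lit 5) (nat_lit 121) (nat_lit 5) (nat_lit 393) (nat_lit 375) (nat_lit 96)) (XT.lf (nat_lit 0) (nat_lit 58225189203) (nat_lit 1092) (nat_lit 21642750894) (nat_lit 1176) (nat_lit 838518735) (nat_lit 107) (nat_lit 5) (nat_lit 120) (nat_lit 5) (nat_lit 121) (nat_lit 5) (nat_lit 394) (nat_lit 375) (nat_lit 95)))) (XT.nd (nat_lit 94) (nat_lit 0) (nat_lit 0) (XT.lf (nat_lit 0) (nat_lit 3558784628) (nat_lit 588) (nat_lit 72357327950) (nat_lit 84) (nat_lit 6258192148) (nat_lit 100) (nat_lit 5) (nat_lit 107) (nat_lit 5) (nat_lit 101) (nat_lit 5) (nat_lit 395) (nat_lit 375) (nat_lit 94)) (XT.nd (nat_lit 94) (nat_lit 0) (nat_lit 0) (XT.lf (nat_lit 0) (nat_lit 8533011958) (nat_lit 588) (nat_lit 40320001370) (nat_lit 84) (nat_lit 34820177209) (nat_lit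 100) (nat_lit 5) (nat_lit 107) (nat_lit 5) (nat_lit 101) (nat_lit 5) (nat_lit 396) (nat_lit 375) (nat_lit 93)) (XT.lf (nat_lit 0) (nat_lit 13661064764) (nat_lit 588) (nat_lit 7289858451) (nat_lit 84) (nat_lit 64267631535) (nat_lit 100) (nat_lit 5) (nat_lit 107) (nat_lit 5) (nat_lit 101) (nat_lit 5) (nat_lit 397) (nat_lit 375) (nat_lit 92))))) (XT.nd (nat_lit 282) (nat_lit 504) (nat_lit 0) (XT.nd (nat_lit 94) (nat_lit 504) (nat_lit 0) (XT.lf (nat_lit 0) (nat_lit 19298991879) (nat_lit 672) (nat_lit 59569537864) (nat_lit 84) (nat_lit 7932418731) (nat_lit 93) (nat_lit 5) (nat_lit 101) (nat_lit 5) (nat_lit 94) (nat_lit 5) (nat_lit 398) (nat_lit 375) (nat_lit 91)) (XT.nd (nat_lit 94) (nat_lit 504) (nat_lit 0) (XT.lf (nat_lit 0) (nat_lit 25402486521) (nat_lit 672) (nat_lit 25668054052) (nat_lit 84) (nat_lit 37352842510) (nat_lit 93) (nat_lit 5) (nat_lit 101) (nat_lit 5) (nat_lit 94) (nat_lit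 5) (nat_lit 399) (nat_lit 375) (nat_lit 90)) (XT.lf (nat_lit 0) (nat_lit 9474945241) (nat_lit 504) (nat_lit 22313891320) (nat_lit 588) (nat_lit 58304374734) (nat_lit 87) (nat_lit 5) (nat_lit 93) (nat_lit 5) (nat_lit 94) (nat_lit 5) (nat_lit 400) (nat_lit 375) (nat_lit 89)))) (XT.nd (nat_lit 94) (nat_lit 504) (nat_lit 0) (XT.lf (nat_lit 0) (nat_lit 38716243523) (nat_lit 588) (nat_lit 45630806329) (nat_lit 84) (nat_lit 7457119997) (nat_lit 87) (nat_lit 5) (nat_lit 94) (nat_lit 5) (nat_lit 88) (nat_lit 5) (nat_lit 401) (nat_lit 375) (nat_lit 88)) (XT.nd (nat_lit 94) (nat_lit 504) (nat_lit 0) (XT.lf (nat_lit 0) (nat_lit 46086290600) (nat_lit 588) (nat_lit 9787281785) (nat_lit 84) (nat_lit 37687532248) (nat_lit 87) (nat_lit 5) (nat_lit 94) (nat_lit 5) (nat_lit 88) (nat_lit 5) (nat_lit 402) (nat_lit 375) (nat_lit 87)) (XT.lf (nat_lit 0) (nat_lit 27725684824) (nat_lit 504) (nat_lit 26233848285)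 (nat_lit 588) (nat_lit 41404455927) (nat_lit 81) (nat_lit 5) (nat_lit 87) (nat_lit 5) (nat_lit 88) (nat_lit 5) (nat_lit 403) (nat_lit 375) (nat_lit 86)))))) (XT.nd (nat_lit 564) (nat_lit 420) (nat_lit 0) (XT.nd (nat_lit 282) (nat_lit 504) (nat_lit 0) (XT.nd (nat_lit 94) (nat_lit 420) (nat_lit 0) (XT.lf (nat_lit 0) (nat_lit 62222639930) (nat_lit 588) (nat_lit 30654829198) (nat_lit 84) (nat_lit 4340775172) (nat_lit 81) (nat_lit 5) (nat_lit 88) (nat_lit 5) (nat_lit 82) (nat_lit 5) (nat_lit 404) (nat_lit 375) (nat_lit 85)) (XT.nd (nat_lit 94) (nat_lit 0) (nat_lit 0) (XT.lf (nat_lit 0) (nat_lit 7354687915) (nat_lit 420) (nat_lit 63728182658) (nat_lit 504) (nat_lit 28036541930) (nat_lit 76) (nat_lit 5) (nat_lit 81) (nat_lit 5) (nat_lit 82) (nat_lit 5) (nat_lit 405) (nat_lit 375) (nat_lit 84)) (XT.lf (nat_lit 0) (nat_lit 47192053884) (nat_lit 420) (nat_lit 33345391564) (nat_lit 504) (nat_lit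 20532162474) (nat_lit 76) (nat_lit 5) (nat_lit 81) (nat_lit 5) (nat_lit 82) (nat_lit 5) (nat_lit 406) (nat_lit 375) (nat_lit 83)))) (XT.nd (nat_lit 94) (nat_lit 504) (nat_lit 0) (XT.lf (nat_lit 0) (nat_lit 88264075146) (nat_lit 420) (nat_lit 2020749447) (nat_lit 504) (nat_lit 12795444678) (nat_lit 76) (nat_lit 5) (nat_lit 81) (nat_lit 5) (nat_lit 82) (nat_lit 5) (nat_lit 407) (nat_lit 375) (nat_lit 82)) (XT.nd (nat_lit 94) (nat_lit 84) (nat_lit 0) (XT.lf (nat_lit 0) (nat_lit 25672680560) (nat_lit 420) (nat_lit 75216420367) (nat_lit 504) (nat_lit 4246964546) (nat_lit 71) (nat_lit 5) (nat_lit 76) (nat_lit 5) (nat_lit 77) (nat_lit 5) (nat_lit 408) (nat_lit 375) (nat_lit 81)) (XT.lf (nat_lit 0) (nat_lit 4651135880) (nat_lit 504) (nat_lit 39587847821) (nat_lit 84) (nat_lit 63009728917) (nat_lit 70) (nat_lit 5) (nat_lit 76) (nat_lit 5) (nat_lit 71) (nat_lit 5) (nat_lit 409) (nat_lit 375) (nat_lit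 80))))) (XT.nd (nat_lit 51230) (nat_lit 0) (nat_lit 4116) (XT.nd (nat_lit 51042) (nat_lit 0) (nat_lit 4116) (XT.lf (nat_lit 0) (nat_lit 1510530642) (nat_lit 420) (nat_lit 12241042997) (nat_lit 504) (nat_lit 95673476319) (nat_lit 65) (nat_lit 5) (nat_lit 70) (nat_lit 5) (nat_lit 71) (nat_lit 5) (nat_lit 410) (nat_lit 375) (nat_lit 79)) (XT.nd (nat_lit 94) (nat_lit 0) (nat_lit 0) (XT.lf (nat_lit 0) (nat_lit 6929263109) (nat_lit 0) (nat_lit 6929263109) (nat_lit 1092) (nat_lit 16493555334) (nat_lit 114) (nat_lit 5) (nat_lit 114) (nat_lit 3) (nat_lit 127) (nat_lit 3) (nat_lit 376) (nat_lit 376) (nat_lit 112)) (XT.lf (nat_lit 0) (nat_lit 28259595431) (nat_lit 1092) (nat_lit 23751318928) (nat_lit 1176) (nat_lit 9630604761) (nat_lit 114) (nat_lit 5) (nat_lit 127) (nat_lit 3) (nat_lit 128) (nat_lit 5) (nat_lit 377) (nat_lit 376) (nat_lit 111)))) (XT.nd (nat_lit 94) (nat_lit 0) (nat_lit 0) (XT.lf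 (nat_lit 0) (nat_lit 28960078805) (nat_lit 1092) (nat_lit 83152745) (nat_lit 1176) (nat_lit 33560329179) (nat_lit 114) (nat_lit 5) (nat_lit 127) (nat_lit 3) (nat_lit 128) (nat_lit 5) (nat_lit 378) (nat_lit 376) (nat_lit 110)) (XT.nd (nat_lit 94) (nat_lit 0) (nat_lit 84) (XT.lf (nat_lit 84) (nat_lit 24818437370) (nat_lit 0) (nat_lit 5109441790) (nat_lit 1176) (nat_lit 33659935063) (nat_lit 115) (nat_lit 5) (nat_lit 114) (nat_lit 5) (nat_lit 128) (nat_lit 5) (nat_lit 379) (nat_lit 376) (nat_lit 109)) (XT.lf (nat_lit 0) (nat_lit 31120075699) (nat_lit 1092) (nat_lit 14303267108) (nat_lit 1176) (nat_lit 19173212731) (nat_lit 115) (nat_lit 5) (nat_lit 128) (nat_lit 5) (nat_lit 129) (nat_lit 5) (nat_lit 380) (nat_lit 376) (nat_lit 108))))))))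
noncomputable def xc240 : XT := (XT.nd (nat_lit 2256) (nat_lit 924) (nat_lit 0) (XT.nd (nat_lit 1128) (nat_lit 2856) (nat_lit 0) (XT.nd (nat_lit 564) (nat_lit 0) (nat_lit 168) (XT.nd (nat_lit 282) (nat_lit 0) (nat_lit 84) (XT.nd (nat_lit 94) (nat_lit 0) (nat_lit 84) (XT.lf (nat_lit 84) (nat_lit 11092182539) (nat_lit 0) (nat_lit 21418776179) (nat_lit 1176) (nat_lit 33120597657) (nat_lit 116) (nat_lit 5) (nat_lit 115) (nat_lit 5) (nat_lit 129) (nat_lit 5) (nat_lit 381) (nat_lit 376) (nat_lit 107)) (XT.nd (nat_lit 94) (nat_lit 0) (nat_lit 0) (XT.lf (nat_lit 0) (nat_lit 34128267056) (nat_lit 1092) (nat_lit 29150814089) (nat_lit 1176) (nat_lit 3413880605) (nat_lit 116) (nat_lit 5) (nat_lit 129) (nat_lit 5) (nat_lit 130) (nat_lit 5) (nat_lit 382) (nat_lit 376) (nat_lit 106)) (XT.lf (nat_lit 0) (nat_lit 36014243036) (nat_lit 1092) (nat_lit 3194614715) (nat_lit 1176) (nat_lit 28571640475) (nat_lit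 116) (nat_lit 5) (nat_lit 129) (nat_lit 5) (nat_lit 130) (nat_lit 5) (nat_lit 383) (nat_lit 376) (nat_lit 105)))) (XT.nd (nat_lit 94) (nat_lit 0) (nat_lit 84) (XT.lf (nat_lit 84) (nat_lit 24050458231) (nat_lit 0) (nat_lit 14146292967) (nat_lit 1176) (nat_lit 30697618996) (nat_lit 117) (nat_lit 5) (nat_lit 116) (nat_lit 5) (nat_lit 130) (nat_lit 5) (nat_lit 384) (nat_lit 376) (nat_lit 104)) (XT.nd (nat_lit 94) (nat_lit 0) (nat_lit 0) (XT.lf (nat_lit 0) (nat_lit 40596098911) (nat_lit 1092) (nat_lit 17950572691) (nat_lit 1176) (nat_lit 11491477835) (nat_lit 117) (nat_lit 5) (nat_lit 130) (nat_lit 5) (nat_lit 131) (nat_lit 5) (nat_lit 385) (nat_lit 376) (nat_lit 103)) (XT.lf (nat_lit 84) (nat_lit 9829481761) (nat_lit 0) (nat_lit 33482050154) (nat_lit 1176) (nat_lit 27898362872) (nat_lit 118) (nat_lit 5) (nat_lit 117) (nat_lit 5) (nat_lit 131) (nat_lit 5) (nat_lit 386) (nat_lit 376) (nat_lit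 102))))) (XT.nd (nat_lit 282) (nat_lit 0) (nat_lit 84) (XT.nd (nat_lit 94) (nat_lit 0) (nat_lit 84) (XT.lf (nat_lit 84) (nat_lit 38850926833) (nat_lit 0) (nat_lit 7447107552) (nat_lit 1176) (nat_lit 26114138002) (nat_lit 118) (nat_lit 5) (nat_lit 117) (nat_lit 5) (nat_lit 131) (nat_lit 5) (nat_lit 387) (nat_lit 376) (nat_lit 101)) (XT.nd (nat_lit 94) (nat_lit 0) (nat_lit 0) (XT.lf (nat_lit 0) (nat_lit 49569057991) (nat_lit 1092) (nat_lit 5072425022) (nat_lit 1176) (nat_lit 19004289168) (nat_lit 118) (nat_lit 5) (nat_lit 131) (nat_lit 5) (nat_lit 132) (nat_lit 5) (nat_lit 388) (nat_lit 376) (nat_lit 100)) (XT.lf (nat_lit 84) (nat_lit 24721127294) (nat_lit 0) (nat_lit 28541312480) (nat_lit 1176) (nat_lit 21645225807) (nat_lit 119) (nat_lit 5) (nat_lit 118) (nat_lit 5) (nat_lit 132) (nat_lit 5) (nat_lit 389) (nat_lit 376) (nat_lit 99)))) (XT.nd (nat_lit 94) (nat_lit 0) (nat_lit 84) (XT.lf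 (nat_lit 84) (nat_lit 55545484945) (nat_lit 0) (nat_lit 1577340752) (nat_lit 1176) (nat_lit 19084225804) (nat_lit 119) (nat_lit 5) (nat_lit 118) (nat_lit 5) (nat_lit 132) (nat_lit 5) (nat_lit 390) (nat_lit 376) (nat_lit 98)) (XT.nd (nat_lit 94) (nat_lit 0) (nat_lit 0) (XT.lf (nat_lit 84) (nat_lit 9713929321) (nat_lit 0) (nat_lit 51745025989) (nat_lit 1176) (nat_lit 16076726414) (nat_lit 120) (nat_lit 5) (nat_lit 119) (nat_lit 5) (nat_lit 133) (nat_lit 5) (nat_lit 391) (nat_lit 376) (nat_lit 97)) (XT.lf (nat_lit 84) (nat_lit 41452285680) (nat_lit 0) (nat_lit 24708439981) (nat_lit 1176) (nat_lit 12737607498) (nat_lit 120) (nat_lit 5) (nat_lit 119) (nat_lit 5) (nat_lit 133) (nat_lit 5) (nat_lit 392) (nat_lit 376) (nat_lit 96)))))) (XT.nd (nat_lit 564) (nat_lit 1596) (nat_lit 0) (XT.nd (nat_lit 282) (nat_lit 588) (nat_lit 0) (XT.nd (nat_lit 94) (nat_lit 1092) (nat_lit 0) (XT.lf (nat_lit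 0) (nat_lit 71039261175) (nat_lit 1092) (nat_lit 6160440395) (nat_lit 84) (nat_lit 3102565372) (nat_lit 120) (nat_lit 5) (nat_lit 133) (nat_lit 5) (nat_lit 121) (nat_lit 5) (nat_lit 393) (nat_lit 376) (nat_lit 95)) (XT.nd (nat_lit 94) (nat_lit 0) (nat_lit 0) (XT.lf (nat_lit 0) (nat_lit 26373350802) (nat_lit 1092) (nat_lit 50209629016) (nat_lit 1176) (nat_lit 5150811877) (nat_lit 107) (nat_lit 5) (nat_lit 120) (nat_lit 5) (nat_lit 121) (nat_lit 5) (nat_lit 394) (nat_lit 376) (nat_lit 94)) (XT.lf (nat_lit 0) (nat_lit 60045966181) (nat_lit 1092) (nat_lit 22316510792) (nat_lit 1176) (nat_lit 845236505) (nat_lit 107) (nat_lit 5) (nat_lit 120) (nat_lit 5) (nat_lit 121) (nat_lit 5) (nat_lit 395) (nat_lit 376) (nat_lit 93)))) (XT.nd (nat_lit 94) (nat_lit 0) (nat_lit 0) (XT.lf (nat_lit 0) (nat_lit 3687562796) (nat_lit 588) (nat_lit 74583658565) (nat_lit 84) (nat_lit 6449850686) (nat_lit 100)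 (nat_lit 5) (nat_lit 107) (nat_lit 5) (nat_lit 101) (nat_lit 5) (nat_lit 396) (nat_lit 376) (nat_lit 92)) (XT.nd (nat_lit 94) (nat_lit 0) (nat_lit 0) (XT.lf (nat_lit 0) (nat_lit 8815436245) (nat_lit 588) (nat_lit 41553678393) (nat_lit 84) (nat_lit 35897327806) (nat_lit 100) (nat_lit 5) (nat_lit 107) (nat_lit 5) (nat_lit 101) (nat_lit 5) (nat_lit 397) (nat_lit 376) (nat_lit 91)) (XT.lf (nat_lit 0) (nat_lit 14101920445) (nat_lit 588) (nat_lit 7500089438) (nat_lit 84) (nat_lit 66257721617) (nat_lit 100) (nat_lit 5) (nat_lit 107) (nat_lit 5) (nat_lit 101) (nat_lit 5) (nat_lit 398) (nat_lit 376) (nat_lit 90))))) (XT.nd (nat_lit 282) (nat_lit 504) (nat_lit 0) (XT.nd (nat_lit 94) (nat_lit 504) (nat_lit 0) (XT.lf (nat_lit 0) (nat_lit 19914242057) (nat_lit 672) (nat_lit 61399999275) (nat_lit 84) (nat_lit 8176951726) (nat_lit 93) (nat_lit 5) (nat_lit 101) (nat_lit 5) (nat_lit 94) (nat_lit 5) (nat_lit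 399) (nat_lit 376) (nat_lit 89)) (XT.nd (nat_lit 94) (nat_lit 504) (nat_lit 0) (XT.lf (nat_lit 0) (nat_lit 26206434437) (nat_lit 672) (nat_lit 26448056392) (nat_lit 84) (nat_lit 38509449895) (nat_lit 93) (nat_lit 5) (nat_lit 101) (nat_lit 5) (nat_lit 94) (nat_lit 5) (nat_lit 400) (nat_lit 376) (nat_lit 88)) (XT.lf (nat_lit 0) (nat_lit 9784216856) (nat_lit 504) (nat_lit 23006203469) (nat_lit 588) (nat_lit 60095125559) (nat_lit 87) (nat_lit 5) (nat_lit 93) (nat_lit 5) (nat_lit 94) (nat_lit 5) (nat_lit 401) (nat_lit 376) (nat_lit 87)))) (XT.nd (nat_lit 94) (nat_lit 504) (nat_lit 0) (XT.lf (nat_lit 0) (nat_lit 39932086319) (nat_lit 588) (nat_lit 47029736649) (nat_lit 84) (nat_lit 7687738047) (nat_lit 87) (nat_lit 5) (nat_lit 94) (nat_lit 5) (nat_lit 88) (nat_lit 5) (nat_lit 402) (nat_lit 376) (nat_lit 86)) (XT.nd (nat_lit 94) (nat_lit 504) (nat_lit 0) (XT.lf (nat_lit 0) (nat_lit 47530134616)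 (nat_lit 588) (nat_lit 10075532644) (nat_lit 84) (nat_lit 38855309696) (nat_lit 87) (nat_lit 5) (nat_lit 94) (nat_lit 5) (nat_lit 88) (nat_lit 5) (nat_lit 403) (nat_lit 376) (nat_lit 85)) (XT.lf (nat_lit 0) (nat_lit 28600182500) (nat_lit 504) (nat_lit 27046957859) (nat_lit 588) (nat_lit 42672621496) (nat_lit 81) (nat_lit 5) (nat_lit 87) (nat_lit 5) (nat_lit 88) (nat_lit 5) (nat_lit 404) (nat_lit 376) (nat_lit 84))))))) (XT.nd (nat_lit 52170) (nat_lit 0) (nat_lit 3864) (XT.nd (nat_lit 51606) (nat_lit 0) (nat_lit 3696) (XT.nd (nat_lit 282) (nat_lit 504) (nat_lit 0) (XT.nd (nat_lit 94) (nat_lit 420) (nat_lit 0) (XT.lf (nat_lit 0) (nat_lit 64165957975) (nat_lit 588) (nat_lit 31590084382) (nat_lit 84) (nat_lit 4475471994) (nat_lit 81) (nat_lit 5) (nat_lit 88) (nat_lit 5) (nat_lit 82) (nat_lit 5) (nat_lit 405) (nat_lit 376) (nat_lit 83)) (XT.nd (nat_lit 94) (nat_lit 0) (nat_lit 0) (XT.lf (nat_lit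 0) (nat_lit 7597575448) (nat_lit 420) (nat_lit 65702994587) (nat_lit 504) (nat_lit 28891059053) (nat_lit 76) (nat_lit 5) (nat_lit 81) (nat_lit 5) (nat_lit 82) (nat_lit 5) (nat_lit 406) (nat_lit 376) (nat_lit 82)) (XT.lf (nat_lit 0) (nat_lit 48669451985) (nat_lit 420) (nat_lit 34378359873) (nat_lit 504) (nat_lit 21154483296) (nat_lit 76) (nat_lit 5) (nat_lit 81) (nat_lit 5) (nat_lit 82) (nat_lit 5) (nat_lit 407) (nat_lit 376) (nat_lit 81)))) (XT.nd (nat_lit 94) (nat_lit 504) (nat_lit 0) (XT.lf (nat_lit 0) (nat_lit 91014271593) (nat_lit 420) (nat_lit 2082676065) (nat_lit 504) (nat_lit 13178353497) (nat_lit 76) (nat_lit 5) (nat_lit 81) (nat_lit 5) (nat_lit 82) (nat_lit 5) (nat_lit 408) (nat_lit 376) (nat_lit 80)) (XT.nd (nat_lit 94) (nat_lit 84) (nat_lit 0) (XT.lf (nat_lit 0) (nat_lit 26482846740) (nat_lit 420) (nat_lit 77546858992) (nat_lit 504) (nat_lit 4365130415) (nat_lit 71) (nat_lit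 5) (nat_lit 76) (nat_lit 5) (nat_lit 77) (nat_lit 5) (nat_lit 409) (nat_lit 376) (nat_lit 79)) (XT.lf (nat_lit 0) (nat_lit 4808141885) (nat_lit 504) (nat_lit 40800884281) (nat_lit 84) (nat_lit 64963958617) (nat_lit 70) (nat_lit 5) (nat_lit 76) (nat_lit 5) (nat_lit 71) (nat_lit 5) (nat_lit 410) (nat_lit 376) (nat_lit 78))))) (XT.nd (nat_lit 282) (nat_lit 0) (nat_lit 0) (XT.nd (nat_lit 94) (nat_lit 0) (nat_lit 0) (XT.lf (nat_lit 0) (nat_lit 7151707472) (nat_lit 0) (nat_lit 7151707472) (nat_lit 1092) (nat_lit 16989050477) (nat_lit 114) (nat_lit 5) (nat_lit 114) (nat_lit 3) (nat_lit 127) (nat_lit 3) (nat_lit 377) (nat_lit 377) (nat_lit 110)) (XT.nd (nat_lit 94) (nat_lit 0) (nat_lit 0) (XT.lf (nat_lit 0) (nat_lit 29165126210) (nat_lit 1092) (nat_lit 24471618298) (nat_lit 1176) (nat_lit 9914636857) (nat_lit 114) (nat_lit 5) (nat_lit 127) (nat_lit 3) (nat_lit 128) (nat_lit 5) (nat_lit 378)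 (nat_lit 377) (nat_lit 109)) (XT.lf (nat_lit 0) (nat_lit 29886438067) (nat_lit 1092) (nat_lit 70219794) (nat_lit 1176) (nat_lit 34586619217) (nat_lit 114) (nat_lit 5) (nat_lit 127) (nat_lit 3) (nat_lit 128) (nat_lit 5) (nat_lit 379) (nat_lit 377) (nat_lit 108)))) (XT.nd (nat_lit 94) (nat_lit 0) (nat_lit 84) (XT.lf (nat_lit 84) (nat_lit 25603162583) (nat_lit 0) (nat_lit 5280370113) (nat_lit 1176) (nat_lit 34674534900) (nat_lit 115) (nat_lit 5) (nat_lit 114) (nat_lit 5) (nat_lit 128) (nat_lit 5) (nat_lit 380) (nat_lit 377) (nat_lit 107)) (XT.nd (nat_lit 94) (nat_lit 0) (nat_lit 0) (XT.lf (nat_lit 0) (nat_lit 32111728141) (nat_lit 1092) (nat_lit 14730716034) (nat_lit 1176) (nat_lit 19755668588) (nat_lit 115) (nat_lit 5) (nat_lit 128) (nat_lit 5) (nat_lit 129) (nat_lit 5) (nat_lit 381) (nat_lit 377) (nat_lit 106)) (XT.lf (nat_lit 84) (nat_lit 11451831049) (nat_lit 0) (nat_lit 22093244400)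 (nat_lit 1176) (nat_lit 34120146464) (nat_lit 116) (nat_lit 5) (nat_lit 115) (nat_lit 5) (nat_lit 129) (nat_lit 5) (nat_lit 382) (nat_lit 377) (nat_lit 105)))))) (XT.nd (nat_lit 564) (nat_lit 0) (nat_lit 168) (XT.nd (nat_lit 282) (nat_lit 0) (nat_lit 84) (XT.nd (nat_lit 94) (nat_lit 0) (nat_lit 0) (XT.lf (nat_lit 0) (nat_lit 35211629355) (nat_lit 1092) (nat_lit 30038187111) (nat_lit 1176) (nat_lit 3509744961) (nat_lit 116) (nat_lit 5) (nat_lit 129) (nat_lit 5) (nat_lit 130) (nat_lit 5) (nat_lit 383) (nat_lit 377) (nat_lit 104)) (XT.nd (nat_lit 94) (nat_lit 0) (nat_lit 0) (XT.lf (nat_lit 0) (nat_lit 37155307286) (nat_lit 1092) (nat_lit 3277835729) (nat_lit 1176) (nat_lit 29447695042) (nat_lit 116) (nat_lit 5) (nat_lit 129) (nat_lit 5) (nat_lit 130) (nat_lit 5) (nat_lit 384) (nat_lit 377) (nat_lit 103)) (XT.lf (nat_lit 84) (nat_lit 24811674396) (nat_lit 0) (nat_lit 14593213722) (nat_lit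 1176) (nat_lit 31624372852) (nat_lit 117) (nat_lit 5) (nat_lit 116) (nat_lit 5) (nat_lit 130) (nat_lit 5) (nat_lit 385) (nat_lit 377) (nat_lit 102)))) (XT.nd (nat_lit 94) (nat_lit 0) (nat_lit 0) (XT.lf (nat_lit 0) (nat_lit 41877812163) (nat_lit 1092) (nat_lit 18490968817) (nat_lit 1176) (nat_lit 11839743987) (nat_lit 117) (nat_lit 5) (nat_lit 130) (nat_lit 5) (nat_lit 131) (nat_lit 5) (nat_lit 386) (nat_lit 377) (nat_lit 101)) (XT.nd (nat_lit 94) (nat_lit 0) (nat_lit 0) (XT.lf (nat_lit 84) (nat_lit 10150104611) (nat_lit 0) (nat_lit 34526778193) (nat_lit 1176) (nat_lit 28739730994) (nat_lit 118) (nat_lit 5) (nat_lit 117) (nat_lit 5) (nat_lit 131) (nat_lit 5) (nat_lit 387) (nat_lit 377) (nat_lit 100)) (XT.lf (nat_lit 84) (nat_lit 40070736133) (nat_lit 0) (nat_lit 7684548376) (nat_lit 1176) (nat_lit 26900901180) (nat_lit 118) (nat_lit 5) (nat_lit 117) (nat_lit 5) (nat_lit 131) (nat_lit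 5) (nat_lit 388) (nat_lit 377) (nat_lit 99))))) (XT.nd (nat_lit 282) (nat_lit 0) (nat_lit 84) (XT.nd (nat_lit 94) (nat_lit 0) (nat_lit 0) (XT.lf (nat_lit 0) (nat_lit 51126984704) (nat_lit 1092) (nat_lit 5213899209) (nat_lit 1176) (nat_lit 19587168100) (nat_lit 118) (nat_lit 5) (nat_lit 131) (nat_lit 5) (nat_lit 132) (nat_lit 5) (nat_lit 389) (nat_lit 377) (nat_lit 98)) (XT.nd (nat_lit 94) (nat_lit 0) (nat_lit 0) (XT.lf (nat_lit 84) (nat_lit 25503093562) (nat_lit 0) (nat_lit 29431282604) (nat_lit 1176) (nat_lit 22294705365) (nat_lit 119) (nat_lit 5) (nat_lit 118) (nat_lit 5) (nat_lit 132) (nat_lit 5) (nat_lit 390) (nat_lit 377) (nat_lit 97)) (XT.lf (nat_lit 84) (nat_lit 57282536900) (nat_lit 0) (nat_lit 1631271717) (nat_lit 1176) (nat_lit 19654961497) (nat_lit 119) (nat_lit 5) (nat_lit 118) (nat_lit 5) (nat_lit 132) (nat_lit 5) (nat_lit 391) (nat_lit 377) (nat_lit 96)))) (XT.nd (nat_lit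 94) (nat_lit 0) (nat_lit 0) (XT.lf (nat_lit 84) (nat_lit 10030792077) (nat_lit 0) (nat_lit 53353067165) (nat_lit 1176) (nat_lit 16554746343) (nat_lit 120) (nat_lit 5) (nat_lit 119) (nat_lit 5) (nat_lit 133) (nat_lit 5) (nat_lit 392) (nat_lit 377) (nat_lit 95)) (XT.nd (nat_lit 94) (nat_lit 0) (nat_lit 84) (XT.lf (nat_lit 84) (nat_lit 42752564486) (nat_lit 0) (nat_lit 25478228362) (nat_lit 1176) (nat_lit 13112726882) (nat_lit 120) (nat_lit 5) (nat_lit 119) (nat_lit 5) (nat_lit 133) (nat_lit 5) (nat_lit 393) (nat_lit 377) (nat_lit 94)) (XT.lf (nat_lit 0) (nat_lit 73259952306) (nat_lit 1092) (nat_lit 6335936191) (nat_lit 84) (nat_lit 3195108001) (nat_lit 120) (nat_lit 5) (nat_lit 133) (nat_lit 5) (nat_lit 121) (nat_lit 5) (nat_lit 394) (nat_lit 377) (nat_lit 93))))))))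
noncomputable def xc241 : XT := (XT.nd (nat_lit 53392) (nat_lit 0) (nat_lit 420) (XT.nd (nat_lit 1128) (nat_lit 840) (nat_lit 0) (XT.nd (nat_lit 564) (nat_lit 1008) (nat_lit 0) (XT.nd (nat_lit 282) (nat_lit 588) (nat_lit 0) (XT.nd (nat_lit 94) (nat_lit 588) (nat_lit 0) (XT.lf (nat_lit 0) (nat_lit 27206245834) (nat_lit 1092) (nat_lit 51768876905) (nat_lit 1176) (nat_lit 5291790332) (nat_lit 107) (nat_lit 5) (nat_lit 120) (nat_lit 5) (nat_lit 121) (nat_lit 5) (nat_lit 395) (nat_lit 377) (nat_lit 92)) (XT.nd (nat_lit 94) (nat_lit 588) (nat_lit 0) (XT.lf (nat_lit 0) (nat_lit 61922251615) (nat_lit 1092) (nat_lit 23010989348) (nat_lit 1176) (nat_lit 853304295) (nat_lit 107) (nat_lit 5) (nat_lit 120) (nat_lit 5) (nat_lit 121) (nat_lit 5) (nat_lit 396) (nat_lit 377) (nat_lit 91)) (XT.lf (nat_lit 0) (nat_lit 3819239917) (nat_lit 588) (nat_lit 76879997355) (nat_lit 84) (nat_lit 6647589562) (nat_lit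 100) (nat_lit 5) (nat_lit 107) (nat_lit 5) (nat_lit 101) (nat_lit 5) (nat_lit 397) (nat_lit 377) (nat_lit 90)))) (XT.nd (nat_lit 94) (nat_lit 588) (nat_lit 0) (XT.lf (nat_lit 0) (nat_lit 9105555382) (nat_lit 588) (nat_lit 42826561507) (nat_lit 84) (nat_lit 37008004817) (nat_lit 100) (nat_lit 5) (nat_lit 107) (nat_lit 5) (nat_lit 101) (nat_lit 5) (nat_lit 398) (nat_lit 377) (nat_lit 89)) (XT.nd (nat_lit 94) (nat_lit 588) (nat_lit 0) (XT.lf (nat_lit 0) (nat_lit 14555414232) (nat_lit 588) (nat_lit 7717770759) (nat_lit 84) (nat_lit 68309635187) (nat_lit 100) (nat_lit 5) (nat_lit 107) (nat_lit 5) (nat_lit 101) (nat_lit 5) (nat_lit 399) (nat_lit 377) (nat_lit 88)) (XT.lf (nat_lit 0) (nat_lit 20547559151) (nat_lit 672) (nat_lit 63288164204) (nat_lit 84) (nat_lit 8429146510) (nat_lit 93) (nat_lit 5) (nat_lit 101) (nat_lit 5) (nat_lit 94) (nat_lit 5) (nat_lit 400) (nat_lit 377) (nat_lit 87)))))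 (XT.nd (nat_lit 282) (nat_lit 504) (nat_lit 0) (XT.nd (nat_lit 94) (nat_lit 504) (nat_lit 0) (XT.lf (nat_lit 0) (nat_lit 27034329143) (nat_lit 672) (nat_lit 27253169177) (nat_lit 84) (nat_lit 39701990931) (nat_lit 93) (nat_lit 5) (nat_lit 101) (nat_lit 5) (nat_lit 94) (nat_lit 5) (nat_lit 401) (nat_lit 377) (nat_lit 86)) (XT.nd (nat_lit 94) (nat_lit 0) (nat_lit 0) (XT.lf (nat_lit 0) (nat_lit 10102154938) (nat_lit 504) (nat_lit 23719942852) (nat_lit 588) (nat_lit 61942377928) (nat_lit 87) (nat_lit 5) (nat_lit 93) (nat_lit 5) (nat_lit 94) (nat_lit 5) (nat_lit 402) (nat_lit 377) (nat_lit 85)) (XT.lf (nat_lit 0) (nat_lit 41184693902) (nat_lit 588) (nat_lit 48472959285) (nat_lit 84) (nat_lit 7925537993) (nat_lit 87) (nat_lit 5) (nat_lit 94) (nat_lit 5) (nat_lit 88) (nat_lit 5) (nat_lit 403) (nat_lit 377) (nat_lit 84)))) (XT.nd (nat_lit 94) (nat_lit 504) (nat_lit 0) (XT.lf (nat_lit 0) (nat_lit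 49017839310) (nat_lit 588) (nat_lit 10373616930) (nat_lit 84) (nat_lit 40059319995) (nat_lit 87) (nat_lit 5) (nat_lit 94) (nat_lit 5) (nat_lit 88) (nat_lit 5) (nat_lit 404) (nat_lit 377) (nat_lit 83)) (XT.nd (nat_lit 94) (nat_lit 0) (nat_lit 0) (XT.lf (nat_lit 0) (nat_lit 29500901042) (nat_lit 504) (nat_lit 27885282106) (nat_lit 588) (nat_lit 43981010742) (nat_lit 81) (nat_lit 5) (nat_lit 87) (nat_lit 5) (nat_lit 88) (nat_lit 5) (nat_lit 405) (nat_lit 377) (nat_lit 82)) (XT.lf (nat_lit 0) (nat_lit 66168664982) (nat_lit 588) (nat_lit 32555223590) (nat_lit 84) (nat_lit 4614336551) (nat_lit 81) (nat_lit 5) (nat_lit 88) (nat_lit 5) (nat_lit 82) (nat_lit 5) (nat_lit 406) (nat_lit 377) (nat_lit 81)))))) (XT.nd (nat_lit 51700) (nat_lit 0) (nat_lit 3612) (XT.nd (nat_lit 282) (nat_lit 420) (nat_lit 0) (XT.nd (nat_lit 94) (nat_lit 0) (nat_lit 0) (XT.lf (nat_lit 0) (nat_lit 7847110405) (nat_lit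 420) (nat_lit 67739070804) (nat_lit 504) (nat_lit 29772931918) (nat_lit 76) (nat_lit 5) (nat_lit 81) (nat_lit 5) (nat_lit 82) (nat_lit 5) (nat_lit 407) (nat_lit 377) (nat_lit 80)) (XT.nd (nat_lit 94) (nat_lit 0) (nat_lit 0) (XT.lf (nat_lit 0) (nat_lit 50191793859) (nat_lit 420) (nat_lit 35443393961) (nat_lit 504) (nat_lit 21796935744) (nat_lit 76) (nat_lit 5) (nat_lit 81) (nat_lit 5) (nat_lit 82) (nat_lit 5) (nat_lit 408) (nat_lit 377) (nat_lit 79)) (XT.lf (nat_lit 0) (nat_lit 93848894287) (nat_lit 420) (nat_lit 2146564854) (nat_lit 504) (nat_lit 13573946923) (nat_lit 76) (nat_lit 5) (nat_lit 81) (nat_lit 5) (nat_lit 82) (nat_lit 5) (nat_lit 409) (nat_lit 377) (nat_lit 78)))) (XT.nd (nat_lit 51230) (nat_lit 0) (nat_lit 3612) (XT.lf (nat_lit 0) (nat_lit 27317280284) (nat_lit 420) (nat_lit 79949616464) (nat_lit 504) (nat_lit 4487758464) (nat_lit 71) (nat_lit 5) (nat_lit 76) (nat_lit 5)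 (nat_lit 77) (nat_lit 5) (nat_lit 410) (nat_lit 377) (nat_lit 77)) (XT.nd (nat_lit 94) (nat_lit 0) (nat_lit 0) (XT.lf (nat_lit 0) (nat_lit 7380595246) (nat_lit 0) (nat_lit 7380595246) (nat_lit 1092) (nat_lit 17500842131) (nat_lit 114) (nat_lit 5) (nat_lit 114) (nat_lit 3) (nat_lit 127) (nat_lit 3) (nat_lit 378) (nat_lit 378) (nat_lit 108)) (XT.lf (nat_lit 0) (nat_lit 30096982095) (nat_lit 1092) (nat_lit 25215194152) (nat_lit 1176) (nat_lit 10208333793) (nat_lit 114) (nat_lit 5) (nat_lit 127) (nat_lit 3) (nat_lit 128) (nat_lit 5) (nat_lit 379) (nat_lit 378) (nat_lit 107))))) (XT.nd (nat_lit 282) (nat_lit 0) (nat_lit 84) (XT.nd (nat_lit 94) (nat_lit 0) (nat_lit 0) (XT.lf (nat_lit 0) (nat_lit 30839820627) (nat_lit 1092) (nat_lit 57804646) (nat_lit 1176) (nat_lit 35645558238) (nat_lit 114) (nat_lit 5) (nat_lit 127) (nat_lit 3) (nat_lit 128) (nat_lit 5) (nat_lit 380) (nat_lit 378) (nat_lit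 106)) (XT.nd (nat_lit 94) (nat_lit 0) (nat_lit 84) (XT.lf (nat_lit 84) (nat_lit 26411304855) (nat_lit 0) (nat_lit 5455854708) (nat_lit 1176) (nat_lit 35722296649) (nat_lit 115) (nat_lit 5) (nat_lit 114) (nat_lit 5) (nat_lit 128) (nat_lit 5) (nat_lit 381) (nat_lit 378) (nat_lit 105)) (XT.lf (nat_lit 0) (nat_lit 33132526692) (nat_lit 1092) (nat_lit 15172360762) (nat_lit 1176) (nat_lit 20356886248) (nat_lit 115) (nat_lit 5) (nat_lit 128) (nat_lit 5) (nat_lit 129) (nat_lit 5) (nat_lit 382) (nat_lit 378) (nat_lit 104)))) (XT.nd (nat_lit 94) (nat_lit 0) (nat_lit 84) (XT.lf (nat_lit 84) (nat_lit 11821693343) (nat_lit 0) (nat_lit 22788000023) (nat_lit 1176) (nat_lit 35152291778) (nat_lit 116) (nat_lit 5) (nat_lit 115) (nat_lit 5) (nat_lit 129) (nat_lit 5) (nat_lit 383) (nat_lit 378) (nat_lit 103)) (XT.nd (nat_lit 94) (nat_lit 0) (nat_lit 0) (XT.lf (nat_lit 0) (nat_lit 36327072227) (nat_lit 1092)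 (nat_lit 30954034304) (nat_lit 1176) (nat_lit 3609171412) (nat_lit 116) (nat_lit 5) (nat_lit 129) (nat_lit 5) (nat_lit 130) (nat_lit 5) (nat_lit 384) (nat_lit 378) (nat_lit 102)) (XT.lf (nat_lit 0) (nat_lit 38330286082) (nat_lit 1092) (nat_lit 3364573169) (nat_lit 1176) (nat_lit 30351479851) (nat_lit 116) (nat_lit 5) (nat_lit 129) (nat_lit 5) (nat_lit 130) (nat_lit 5) (nat_lit 385) (nat_lit 378) (nat_lit 101))))))) (XT.nd (nat_lit 1128) (nat_lit 2604) (nat_lit 0) (XT.nd (nat_lit 564) (nat_lit 756) (nat_lit 0) (XT.nd (nat_lit 282) (nat_lit 0) (nat_lit 84) (XT.nd (nat_lit 94) (nat_lit 0) (nat_lit 84) (XT.lf (nat_lit 84) (nat_lit 25595561169) (nat_lit 0) (nat_lit 15053492322) (nat_lit 1176) (nat_lit 32581329309) (nat_lit 117) (nat_lit 5) (nat_lit 116) (nat_lit 5) (nat_lit 130) (nat_lit 5) (nat_lit 386) (nat_lit 378) (nat_lit 100)) (XT.nd (nat_lit 94) (nat_lit 0) (nat_lit 0) (XT.lf (nat_lit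 0) (nat_lit 43197882325) (nat_lit 1092) (nat_lit 19049069174) (nat_lit 1176) (nat_lit 12199278447) (nat_lit 117) (nat_lit 5) (nat_lit 130) (nat_lit 5) (nat_lit 131) (nat_lit 5) (nat_lit 387) (nat_lit 378) (nat_lit 99)) (XT.lf (nat_lit 84) (nat_lit 10479724458) (nat_lit 0) (nat_lit 35603490945) (nat_lit 1176) (nat_lit 29608572355) (nat_lit 118) (nat_lit 5) (nat_lit 117) (nat_lit 5) (nat_lit 131) (nat_lit 5) (nat_lit 388) (nat_lit 378) (nat_lit 98)))) (XT.nd (nat_lit 94) (nat_lit 0) (nat_lit 84) (XT.lf (nat_lit 84) (nat_lit 41327445543) (nat_lit 0) (nat_lit 7928960091) (nat_lit 1176) (nat_lit 27713403026) (nat_lit 118) (nat_lit 5) (nat_lit 117) (nat_lit 5) (nat_lit 131) (nat_lit 5) (nat_lit 389) (nat_lit 378) (nat_lit 97)) (XT.nd (nat_lit 94) (nat_lit 0) (nat_lit 0) (XT.lf (nat_lit 0) (nat_lit 52731946344) (nat_lit 1092) (nat_lit 5360693239) (nat_lit 1176) (nat_lit 20188486716) (nat_lit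 118) (nat_lit 5) (nat_lit 131) (nat_lit 5) (nat_lit 132) (nat_lit 5) (nat_lit 390) (nat_lit 378) (nat_lit 96)) (XT.lf (nat_lit 84) (nat_lit 26308376098) (nat_lit 0) (nat_lit 30348534423) (nat_lit 1176) (nat_lit 22965593601) (nat_lit 119) (nat_lit 5) (nat_lit 118) (nat_lit 5) (nat_lit 132) (nat_lit 5) (nat_lit 391) (nat_lit 378) (nat_lit 95))))) (XT.nd (nat_lit 282) (nat_lit 924) (nat_lit 0) (XT.nd (nat_lit 94) (nat_lit 0) (nat_lit 84) (XT.lf (nat_lit 84) (nat_lit 59072540584) (nat_lit 0) (nat_lit 1686576405) (nat_lit 1176) (nat_lit 20244626476) (nat_lit 119) (nat_lit 5) (nat_lit 118) (nat_lit 5) (nat_lit 132) (nat_lit 5) (nat_lit 392) (nat_lit 378) (nat_lit 94)) (XT.nd (nat_lit 94) (nat_lit 0) (nat_lit 0) (XT.lf (nat_lit 84) (nat_lit 10356545807) (nat_lit 0) (nat_lit 55010723926) (nat_lit 1176) (nat_lit 17048790765) (nat_lit 120) (nat_lit 5) (nat_lit 119) (nat_lit 5) (nat_lit 133) (nat_lit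 5) (nat_lit 393) (nat_lit 378) (nat_lit 93)) (XT.lf (nat_lit 84) (nat_lit 44092248181) (nat_lit 0) (nat_lit 26271653518) (nat_lit 1176) (nat_lit 13500644582) (nat_lit 120) (nat_lit 5) (nat_lit 119) (nat_lit 5) (nat_lit 133) (nat_lit 5) (nat_lit 394) (nat_lit 378) (nat_lit 92)))) (XT.nd (nat_lit 94) (nat_lit 1092) (nat_lit 0) (XT.lf (nat_lit 0) (nat_lit 75548390613) (nat_lit 1092) (nat_lit 6517789136) (nat_lit 84) (nat_lit 3290734872) (nat_lit 120) (nat_lit 5) (nat_lit 133) (nat_lit 5) (nat_lit 121) (nat_lit 5) (nat_lit 395) (nat_lit 378) (nat_lit 91)) (XT.nd (nat_lit 94) (nat_lit 0) (nat_lit 0) (XT.lf (nat_lit 0) (nat_lit 28064053113) (nat_lit 1092) (nat_lit 53376298628) (nat_lit 1176) (nat_lit 5438246559) (nat_lit 107) (nat_lit 5) (nat_lit 120) (nat_lit 5) (nat_lit 121) (nat_lit 5) (nat_lit 396) (nat_lit 378) (nat_lit 90)) (XT.lf (nat_lit 0) (nat_lit 63855821685) (nat_lit 1092) (nat_lit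 23726838785) (nat_lit 1176) (nat_lit 862696327) (nat_lit 107) (nat_lit 5) (nat_lit 120) (nat_lit 5) (nat_lit 121) (nat_lit 5) (nat_lit 397) (nat_lit 378) (nat_lit 89)))))) (XT.nd (nat_lit 564) (nat_lit 924) (nat_lit 0) (XT.nd (nat_lit 282) (nat_lit 1092) (nat_lit 0) (XT.nd (nat_lit 94) (nat_lit 0) (nat_lit 0) (XT.lf (nat_lit 0) (nat_lit 3953970606) (nat_lit 588) (nat_lit 79248455821) (nat_lit 84) (nat_lit 6851589037) (nat_lit 100) (nat_lit 5) (nat_lit 107) (nat_lit 5) (nat_lit 101) (nat_lit 5) (nat_lit 398) (nat_lit 378) (nat_lit 88)) (XT.nd (nat_lit 94) (nat_lit 0) (nat_lit 0) (XT.lf (nat_lit 0) (nat_lit 9403670715) (nat_lit 588) (nat_lit 44139809112) (nat_lit 84) (nat_lit 38153239580) (nat_lit 100) (nat_lit 5) (nat_lit 107) (nat_lit 5) (nat_lit 101) (nat_lit 5) (nat_lit 399) (nat_lit 378) (nat_lit 87)) (XT.lf (nat_lit 0) (nat_lit 15021998820) (nat_lit 588) (nat_lit 7943078101) (nat_lit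 84) (nat_lit 70425281030) (nat_lit 100) (nat_lit 5) (nat_lit 107) (nat_lit 5) (nat_lit 101) (nat_lit 5) (nat_lit 400) (nat_lit 378) (nat_lit 86)))) (XT.nd (nat_lit 94) (nat_lit 504) (nat_lit 0) (XT.lf (nat_lit 0) (nat_lit 21199562814) (nat_lit 672) (nat_lit 65235764643) (nat_lit 84) (nat_lit 8689235783) (nat_lit 93) (nat_lit 5) (nat_lit 101) (nat_lit 5) (nat_lit 94) (nat_lit 5) (nat_lit 401) (nat_lit 378) (nat_lit 85)) (XT.nd (nat_lit 94) (nat_lit 504) (nat_lit 0) (XT.lf (nat_lit 0) (nat_lit 27886970775) (nat_lit 672) (nat_lit 28084115724) (nat_lit 84) (nat_lit 40931574891) (nat_lit 93) (nat_lit 5) (nat_lit 101) (nat_lit 5) (nat_lit 94) (nat_lit 5) (nat_lit 402) (nat_lit 378) (nat_lit 84)) (XT.lf (nat_lit 0) (nat_lit 10429082697) (nat_lit 504) (nat_lit 24455775750) (nat_lit 588) (nat_lit 63847824853) (nat_lit 87) (nat_lit 5) (nat_lit 93) (nat_lit 5) (nat_lit 94) (nat_lit 5) (nat_lit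 403) (nat_lit 378) (nat_lit 83))))) (XT.nd (nat_lit 282) (nat_lit 420) (nat_lit 0) (XT.nd (nat_lit 94) (nat_lit 504) (nat_lit 0) (XT.lf (nat_lit 0) (nat_lit 42475260849) (nat_lit 588) (nat_lit 49961792481) (nat_lit 84) (nat_lit 8170740533) (nat_lit 87) (nat_lit 5) (nat_lit 94) (nat_lit 5) (nat_lit 88) (nat_lit 5) (nat_lit 404) (nat_lit 378) (nat_lit 82)) (XT.nd (nat_lit 94) (nat_lit 504) (nat_lit 0) (XT.lf (nat_lit 0) (nat_lit 50550817582) (nat_lit 588) (nat_lit 10681786309) (nat_lit 84) (nat_lit 41300684485) (nat_lit 87) (nat_lit 5) (nat_lit 94) (nat_lit 5) (nat_lit 88) (nat_lit 5) (nat_lit 405) (nat_lit 378) (nat_lit 81)) (XT.lf (nat_lit 0) (nat_lit 30428705929) (nat_lit 504) (nat_lit 28749602190) (nat_lit 588) (nat_lit 45330816664) (nat_lit 81) (nat_lit 5) (nat_lit 87) (nat_lit 5) (nat_lit 88) (nat_lit 5) (nat_lit 406) (nat_lit 378) (nat_lit 80)))) (XT.nd (nat_lit 94) (nat_lit 420)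 (nat_lit 0) (XT.lf (nat_lit 0) (nat_lit 68232652588) (nat_lit 588) (nat_lit 33551120444) (nat_lit 84) (nat_lit 4757498510) (nat_lit 81) (nat_lit 5) (nat_lit 88) (nat_lit 5) (nat_lit 82) (nat_lit 5) (nat_lit 407) (nat_lit 378) (nat_lit 79)) (XT.nd (nat_lit 94) (nat_lit 0) (nat_lit 0) (XT.lf (nat_lit 0) (nat_lit 8103551101) (nat_lit 420) (nat_lit 69838307830) (nat_lit 504) (nat_lit 30682957275) (nat_lit 76) (nat_lit 5) (nat_lit 81) (nat_lit 5) (nat_lit 82) (nat_lit 5) (nat_lit 408) (nat_lit 378) (nat_lit 78)) (XT.lf (nat_lit 0) (nat_lit 51760523440) (nat_lit 420) (nat_lit 36541485275) (nat_lit 504) (nat_lit 22460094165) (nat_lit 76) (nat_lit 5) (nat_lit 81) (nat_lit 5) (nat_lit 82) (nat_lit 5) (nat_lit 409) (nat_lit 378) (nat_lit 77))))))))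
noncomputable def xc242 : XT := (XT.nd (nat_lit 53486) (nat_lit 0) (nat_lit 0) (XT.nd (nat_lit 52358) (nat_lit 0) (nat_lit 2016) (XT.nd (nat_lit 51794) (nat_lit 0) (nat_lit 3276) (XT.nd (nat_lit 51512) (nat_lit 0) (nat_lit 3192) (XT.nd (nat_lit 51324) (nat_lit 0) (nat_lit 3192) (XT.lf (nat_lit 0) (nat_lit 96770609594) (nat_lit 420) (nat_lit 2212474128) (nat_lit 504) (nat_lit 13982569940) (nat_lit 76) (nat_lit 5) (nat_lit 81) (nat_lit 5) (nat_lit 82) (nat_lit 5) (nat_lit 410) (nat_lit 378) (nat_lit 76)) (XT.nd (nat_lit 94) (nat_lit 0) (nat_lit 0) (XT.lf (nat_lit 0) (nat_lit 7616152970) (nat_lit 0) (nat_lit 7616152970) (nat_lit 1092) (nat_lit 18029380038) (nat_lit 114) (nat_lit 5) (nat_lit 114) (nat_lit 3) (nat_lit 127) (nat_lit 3) (nat_lit 379) (nat_lit 379) (nat_lit 106)) (XT.lf (nat_lit 0) (nat_lit 31056082604) (nat_lit 1092) (nat_lit 25982711959) (nat_lit 1176) (nat_lit 10511944251)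 (nat_lit 114) (nat_lit 5) (nat_lit 127) (nat_lit 3) (nat_lit 128) (nat_lit 5) (nat_lit 380) (nat_lit 379) (nat_lit 105)))) (XT.nd (nat_lit 94) (nat_lit 0) (nat_lit 0) (XT.lf (nat_lit 0) (nat_lit 31821164537) (nat_lit 1092) (nat_lit 45868935) (nat_lit 1176) (nat_lit 36738108963) (nat_lit 114) (nat_lit 5) (nat_lit 127) (nat_lit 3) (nat_lit 128) (nat_lit 5) (nat_lit 381) (nat_lit 379) (nat_lit 104)) (XT.nd (nat_lit 94) (nat_lit 0) (nat_lit 84) (XT.lf (nat_lit 84) (nat_lit 27243643980) (nat_lit 0) (nat_lit 5636080799) (nat_lit 1176) (nat_lit 36804147085) (nat_lit 115) (nat_lit 5) (nat_lit 114) (nat_lit 5) (nat_lit 128) (nat_lit 5) (nat_lit 382) (nat_lit 379) (nat_lit 103)) (XT.lf (nat_lit 0) (nat_lit 34183469364) (nat_lit 1092) (nat_lit 15628585395) (nat_lit 1176) (nat_lit 20977405528) (nat_lit 115) (nat_lit 5) (nat_lit 128) (nat_lit 5) (nat_lit 129) (nat_lit 5) (nat_lit 383) (nat_lit 379)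 (nat_lit 102))))) (XT.nd (nat_lit 282) (nat_lit 0) (nat_lit 84) (XT.nd (nat_lit 94) (nat_lit 0) (nat_lit 84) (XT.lf (nat_lit 84) (nat_lit 12202141450) (nat_lit 0) (nat_lit 23503708747) (nat_lit 1176) (nat_lit 36217948699) (nat_lit 116) (nat_lit 5) (nat_lit 115) (nat_lit 5) (nat_lit 129) (nat_lit 5) (nat_lit 384) (nat_lit 379) (nat_lit 101)) (XT.nd (nat_lit 94) (nat_lit 0) (nat_lit 0) (XT.lf (nat_lit 0) (nat_lit 37475679236) (nat_lit 1092) (nat_lit 31899181174) (nat_lit 1176) (nat_lit 3712235418) (nat_lit 116) (nat_lit 5) (nat_lit 129) (nat_lit 5) (nat_lit 130) (nat_lit 5) (nat_lit 385) (nat_lit 379) (nat_lit 100)) (XT.lf (nat_lit 0) (nat_lit 39540317162) (nat_lit 1092) (nat_lit 3454880568) (nat_lit 1176) (nat_lit 31283820627) (nat_lit 116) (nat_lit 5) (nat_lit 129) (nat_lit 5) (nat_lit 130) (nat_lit 5) (nat_lit 386) (nat_lit 379) (nat_lit 99)))) (XT.nd (nat_lit 94) (nat_lit 0) (nat_lit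 84) (XT.lf (nat_lit 84) (nat_lit 26402876253) (nat_lit 0) (nat_lit 15527572282) (nat_lit 1176) (nat_lit 33569337384) (nat_lit 117) (nat_lit 5) (nat_lit 116) (nat_lit 5) (nat_lit 130) (nat_lit 5) (nat_lit 387) (nat_lit 379) (nat_lit 98)) (XT.nd (nat_lit 94) (nat_lit 0) (nat_lit 0) (XT.lf (nat_lit 0) (nat_lit 44557579976) (nat_lit 1092) (nat_lit 19625366206) (nat_lit 1176) (nat_lit 12570402570) (nat_lit 117) (nat_lit 5) (nat_lit 130) (nat_lit 5) (nat_lit 131) (nat_lit 5) (nat_lit 388) (nat_lit 379) (nat_lit 97)) (XT.lf (nat_lit 84) (nat_lit 10818676022) (nat_lit 0) (nat_lit 36713203738) (nat_lit 1176) (nat_lit 30505656244) (nat_lit 118) (nat_lit 5) (nat_lit 117) (nat_lit 5) (nat_lit 131) (nat_lit 5) (nat_lit 389) (nat_lit 379) (nat_lit 96)))))) (XT.nd (nat_lit 564) (nat_lit 1428) (nat_lit 0) (XT.nd (nat_lit 282) (nat_lit 0) (nat_lit 84) (XT.nd (nat_lit 94) (nat_lit 0) (nat_lit 84) (XT.lf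 (nat_lit 84) (nat_lit 42622253102) (nat_lit 0) (nat_lit 8180581883) (nat_lit 1176) (nat_lit 28552361533) (nat_lit 118) (nat_lit 5) (nat_lit 117) (nat_lit 5) (nat_lit 131) (nat_lit 5) (nat_lit 390) (nat_lit 379) (nat_lit 95)) (XT.nd (nat_lit 94) (nat_lit 0) (nat_lit 0) (XT.lf (nat_lit 0) (nat_lit 54385475673) (nat_lit 1092) (nat_lit 5512916695) (nat_lit 1176) (nat_lit 20808794704) (nat_lit 118) (nat_lit 5) (nat_lit 131) (nat_lit 5) (nat_lit 132) (nat_lit 5) (nat_lit 391) (nat_lit 379) (nat_lit 94)) (XT.lf (nat_lit 84) (nat_lit 27137752479) (nat_lit 0) (nat_lit 31293931876) (nat_lit 1176) (nat_lit 23658478674) (nat_lit 119) (nat_lit 5) (nat_lit 118) (nat_lit 5) (nat_lit 132) (nat_lit 5) (nat_lit 392) (nat_lit 379) (nat_lit 93)))) (XT.nd (nat_lit 94) (nat_lit 0) (nat_lit 84) (XT.lf (nat_lit 84) (nat_lit 60917190624) (nat_lit 0) (nat_lit 1743315061) (nat_lit 1176) (nat_lit 20853734311) (nat_lit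 119) (nat_lit 5) (nat_lit 118) (nat_lit 5) (nat_lit 132) (nat_lit 5) (nat_lit 393) (nat_lit 379) (nat_lit 92)) (XT.nd (nat_lit 94) (nat_lit 0) (nat_lit 0) (XT.lf (nat_lit 84) (nat_lit 10691521322) (nat_lit 0) (nat_lit 56719548198) (nat_lit 1176) (nat_lit 17559285012) (nat_lit 120) (nat_lit 5) (nat_lit 119) (nat_lit 5) (nat_lit 133) (nat_lit 5) (nat_lit 394) (nat_lit 379) (nat_lit 91)) (XT.lf (nat_lit 84) (nat_lit 45472611846) (nat_lit 0) (nat_lit 27089461615) (nat_lit 1176) (nat_lit 13901688068) (nat_lit 120) (nat_lit 5) (nat_lit 119) (nat_lit 5) (nat_lit 133) (nat_lit 5) (nat_lit 395) (nat_lit 379) (nat_lit 90))))) (XT.nd (nat_lit 282) (nat_lit 588) (nat_lit 0) (XT.nd (nat_lit 94) (nat_lit 1092) (nat_lit 0) (XT.lf (nat_lit 0) (nat_lit 77906741073) (nat_lit 1092) (nat_lit 6706142001) (nat_lit 84) (nat_lit 3389528836) (nat_lit 120) (nat_lit 5) (nat_lit 133) (nat_lit 5) (nat_lit 121) (nat_lit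 5) (nat_lit 396) (nat_lit 379) (nat_lit 89)) (XT.nd (nat_lit 94) (nat_lit 0) (nat_lit 0) (XT.lf (nat_lit 0) (nat_lit 28947598673) (nat_lit 1092) (nat_lit 55033397219) (nat_lit 1176) (nat_lit 5590284771) (nat_lit 107) (nat_lit 5) (nat_lit 120) (nat_lit 5) (nat_lit 121) (nat_lit 5) (nat_lit 397) (nat_lit 379) (nat_lit 88)) (XT.lf (nat_lit 0) (nat_lit 65848504352) (nat_lit 1092) (nat_lit 24464730956) (nat_lit 1176) (nat_lit 873390028) (nat_lit 107) (nat_lit 5) (nat_lit 120) (nat_lit 5) (nat_lit 121) (nat_lit 5) (nat_lit 398) (nat_lit 379) (nat_lit 87)))) (XT.nd (nat_lit 94) (nat_lit 0) (nat_lit 0) (XT.lf (nat_lit 0) (nat_lit 4091910442) (nat_lit 588) (nat_lit 81691214400) (nat_lit 84) (nat_lit 7062035450) (nat_lit 100) (nat_lit 5) (nat_lit 107) (nat_lit 5) (nat_lit 101) (nat_lit 5) (nat_lit 399) (nat_lit 379) (nat_lit 86)) (XT.nd (nat_lit 94) (nat_lit 0) (nat_lit 0) (XT.lf (nat_lit 0) (nat_lit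 9710089208) (nat_lit 588) (nat_lit 45494618896) (nat_lit 84) (nat_lit 39334095878) (nat_lit 100) (nat_lit 5) (nat_lit 107) (nat_lit 5) (nat_lit 101) (nat_lit 5) (nat_lit 400) (nat_lit 379) (nat_lit 85)) (XT.lf (nat_lit 0) (nat_lit 15502137331) (nat_lit 588) (nat_lit 8176195870) (nat_lit 84) (nat_lit 72606627565) (nat_lit 100) (nat_lit 5) (nat_lit 107) (nat_lit 5) (nat_lit 101) (nat_lit 5) (nat_lit 401) (nat_lit 379) (nat_lit 84))))))) (XT.nd (nat_lit 52452) (nat_lit 0) (nat_lit 3192) (XT.nd (nat_lit 564) (nat_lit 420) (nat_lit 0) (XT.nd (nat_lit 282) (nat_lit 504) (nat_lit 0) (XT.nd (nat_lit 94) (nat_lit 504) (nat_lit 0) (XT.lf (nat_lit 0) (nat_lit 21870888377) (nat_lit 672) (nat_lit 67244589644) (nat_lit 84) (nat_lit 8957459747) (nat_lit 93) (nat_lit 5) (nat_lit 101) (nat_lit 5) (nat_lit 94) (nat_lit 5) (nat_lit 402) (nat_lit 379) (nat_lit 83)) (XT.nd (nat_lit 94) (nat_lit 504) (nat_lit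 0) (XT.lf (nat_lit 0) (nat_lit 28765180852) (nat_lit 672) (nat_lit 28941645034) (nat_lit 84) (nat_lit 42199345716) (nat_lit 93) (nat_lit 5) (nat_lit 101) (nat_lit 5) (nat_lit 94) (nat_lit 5) (nat_lit 403) (nat_lit 379) (nat_lit 82)) (XT.lf (nat_lit 0) (nat_lit 10765330132) (nat_lit 504) (nat_lit 25214388984) (nat_lit 588) (nat_lit 65813215294) (nat_lit 87) (nat_lit 5) (nat_lit 93) (nat_lit 5) (nat_lit 94) (nat_lit 5) (nat_lit 404) (nat_lit 379) (nat_lit 81)))) (XT.nd (nat_lit 94) (nat_lit 504) (nat_lit 0) (XT.lf (nat_lit 0) (nat_lit 43805015520) (nat_lit 588) (nat_lit 51497598595) (nat_lit 84) (nat_lit 8423573324) (nat_lit 87) (nat_lit 5) (nat_lit 94) (nat_lit 5) (nat_lit 88) (nat_lit 5) (nat_lit 405) (nat_lit 379) (nat_lit 80)) (XT.nd (nat_lit 94) (nat_lit 504) (nat_lit 0) (XT.lf (nat_lit 0) (nat_lit 52130522980) (nat_lit 588) (nat_lit 11000303398) (nat_lit 84) (nat_lit 42580559375)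 (nat_lit 87) (nat_lit 5) (nat_lit 94) (nat_lit 5) (nat_lit 88) (nat_lit 5) (nat_lit 406) (nat_lit 379) (nat_lit 79)) (XT.lf (nat_lit 0) (nat_lit 31384486350) (nat_lit 504) (nat_lit 29640723522) (nat_lit 588) (nat_lit 46723272442) (nat_lit 81) (nat_lit 5) (nat_lit 87) (nat_lit 5) (nat_lit 88) (nat_lit 5) (nat_lit 407) (nat_lit 379) (nat_lit 78))))) (XT.nd (nat_lit 51606) (nat_lit 0) (nat_lit 3192) (XT.nd (nat_lit 94) (nat_lit 420) (nat_lit 0) (XT.lf (nat_lit 0) (nat_lit 70359868073) (nat_lit 588) (nat_lit 34578678775) (nat_lit 84) (nat_lit 4905091529) (nat_lit 81) (nat_lit 5) (nat_lit 88) (nat_lit 5) (nat_lit 82) (nat_lit 5) (nat_lit 408) (nat_lit 379) (nat_lit 77)) (XT.nd (nat_lit 94) (nat_lit 0) (nat_lit 0) (XT.lf (nat_lit 0) (nat_lit 8367160770) (nat_lit 420) (nat_lit 72002661136) (nat_lit 504) (nat_lit 31621959613) (nat_lit 76) (nat_lit 5) (nat_lit 81) (nat_lit 5) (nat_lit 82) (nat_lit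 5) (nat_lit 409) (nat_lit 379) (nat_lit 76)) (XT.lf (nat_lit 0) (nat_lit 53377126421) (nat_lit 420) (nat_lit 37673656153) (nat_lit 504) (nat_lit 23144553652) (nat_lit 76) (nat_lit 5) (nat_lit 81) (nat_lit 5) (nat_lit 82) (nat_lit 5) (nat_lit 410) (nat_lit 379) (nat_lit 75)))) (XT.nd (nat_lit 94) (nat_lit 0) (nat_lit 0) (XT.lf (nat_lit 0) (nat_lit 7858612620) (nat_lit 0) (nat_lit 7858612620) (nat_lit 1092) (nat_lit 18575131164) (nat_lit 114) (nat_lit 5) (nat_lit 114) (nat_lit 3) (nat_lit 127) (nat_lit 3) (nat_lit 380) (nat_lit 380) (nat_lit 104)) (XT.nd (nat_lit 94) (nat_lit 0) (nat_lit 0) (XT.lf (nat_lit 0) (nat_lit 32043369633) (nat_lit 1092) (nat_lit 26774861136) (nat_lit 1176) (nat_lit 10825727636) (nat_lit 114) (nat_lit 5) (nat_lit 127) (nat_lit 3) (nat_lit 128) (nat_lit 5) (nat_lit 381) (nat_lit 380) (nat_lit 103)) (XT.lf (nat_lit 0) (nat_lit 32831430985) (nat_lit 1092) (nat_lit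 34376330) (nat_lit 1176) (nat_lit 37865266881) (nat_lit 114) (nat_lit 5) (nat_lit 127) (nat_lit 3) (nat_lit 128) (nat_lit 5) (nat_lit 382) (nat_lit 380) (nat_lit 102)))))) (XT.nd (nat_lit 564) (nat_lit 0) (nat_lit 252) (XT.nd (nat_lit 282) (nat_lit 0) (nat_lit 168) (XT.nd (nat_lit 94) (nat_lit 0) (nat_lit 84) (XT.lf (nat_lit 84) (nat_lit 28100980738) (nat_lit 0) (nat_lit 5821236746) (nat_lit 1176) (nat_lit 37921047707) (nat_lit 115) (nat_lit 5) (nat_lit 114) (nat_lit 5) (nat_lit 128) (nat_lit 5) (nat_lit 383) (nat_lit 380) (nat_lit 101)) (XT.nd (nat_lit 94) (nat_lit 0) (nat_lit 0) (XT.lf (nat_lit 0) (nat_lit 35265579511) (nat_lit 1092) (nat_lit 16099789257) (nat_lit 1176) (nat_lit 21617785457) (nat_lit 115) (nat_lit 5) (nat_lit 128) (nat_lit 5) (nat_lit 129) (nat_lit 5) (nat_lit 384) (nat_lit 380) (nat_lit 100)) (XT.lf (nat_lit 84) (nat_lit 12593555649) (nat_lit 0) (nat_lit 24241054728)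 (nat_lit 1176) (nat_lit 37318066343) (nat_lit 116) (nat_lit 5) (nat_lit 115) (nat_lit 5) (nat_lit 129) (nat_lit 5) (nat_lit 385) (nat_lit 380) (nat_lit 99)))) (XT.nd (nat_lit 94) (nat_lit 0) (nat_lit 0) (XT.lf (nat_lit 0) (nat_lit 38658562257) (nat_lit 1092) (nat_lit 32874482203) (nat_lit 1176) (nat_lit 3819016851) (nat_lit 116) (nat_lit 5) (nat_lit 129) (nat_lit 5) (nat_lit 130) (nat_lit 5) (nat_lit 386) (nat_lit 380) (nat_lit 98)) (XT.nd (nat_lit 94) (nat_lit 0) (nat_lit 0) (XT.lf (nat_lit 0) (nat_lit 40786568415) (nat_lit 1092) (nat_lit 3548816408) (nat_lit 1176) (nat_lit 32245570700) (nat_lit 116) (nat_lit 5) (nat_lit 129) (nat_lit 5) (nat_lit 130) (nat_lit 5) (nat_lit 387) (nat_lit 380) (nat_lit 97)) (XT.lf (nat_lit 84) (nat_lit 27234397586) (nat_lit 0) (nat_lit 16015909120) (nat_lit 1176) (nat_lit 34589277585) (nat_lit 117) (nat_lit 5) (nat_lit 116) (nat_lit 5) (nat_lit 130) (nat_lit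 5) (nat_lit 388) (nat_lit 380) (nat_lit 96))))) (XT.nd (nat_lit 282) (nat_lit 0) (nat_lit 84) (XT.nd (nat_lit 94) (nat_lit 0) (nat_lit 0) (XT.lf (nat_lit 0) (nat_lit 45958210255) (nat_lit 1092) (nat_lit 20220370964) (nat_lit 1176) (nat_lit 12953449334) (nat_lit 117) (nat_lit 5) (nat_lit 130) (nat_lit 5) (nat_lit 131) (nat_lit 5) (nat_lit 389) (nat_lit 380) (nat_lit 95)) (XT.nd (nat_lit 94) (nat_lit 0) (nat_lit 0) (XT.lf (nat_lit 84) (nat_lit 11167301097) (nat_lit 0) (nat_lit 37856961967) (nat_lit 1176) (nat_lit 31431780679) (nat_lit 118) (nat_lit 5) (nat_lit 117) (nat_lit 5) (nat_lit 131) (nat_lit 5) (nat_lit 390) (nat_lit 380) (nat_lit 94)) (XT.lf (nat_lit 84) (nat_lit 43956390782) (nat_lit 0) (nat_lit 8439658984) (nat_lit 1176) (nat_lit 29418521686) (nat_lit 118) (nat_lit 5) (nat_lit 117) (nat_lit 5) (nat_lit 131) (nat_lit 5) (nat_lit 391) (nat_lit 380) (nat_lit 93)))) (XT.nd (nat_lit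 94) (nat_lit 0) (nat_lit 0) (XT.lf (nat_lit 0) (nat_lit 56089148545) (nat_lit 1092) (nat_lit 5670685837) (nat_lit 1176) (nat_lit 21448660094) (nat_lit 118) (nat_lit 5) (nat_lit 131) (nat_lit 5) (nat_lit 132) (nat_lit 5) (nat_lit 392) (nat_lit 380) (nat_lit 92)) (XT.nd (nat_lit 94) (nat_lit 0) (nat_lit 0) (XT.lf (nat_lit 84) (nat_lit 27992021139) (nat_lit 0) (nat_lit 32268364605) (nat_lit 1176) (nat_lit 24373971449) (nat_lit 119) (nat_lit 5) (nat_lit 118) (nat_lit 5) (nat_lit 132) (nat_lit 5) (nat_lit 393) (nat_lit 380) (nat_lit 91)) (XT.lf (nat_lit 84) (nat_lit 62818231034) (nat_lit 0) (nat_lit 1801548750) (nat_lit 1176) (nat_lit 21482818830) (nat_lit 119) (nat_lit 5) (nat_lit 118) (nat_lit 5) (nat_lit 132) (nat_lit 5) (nat_lit 394) (nat_lit 380) (nat_lit 90))))))))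
noncomputable def xc243 : XT := (XT.nd (nat_lit 53674) (nat_lit 0) (nat_lit 420) (XT.nd (nat_lit 1128) (nat_lit 924) (nat_lit 0) (XT.nd (nat_lit 564) (nat_lit 1092) (nat_lit 0) (XT.nd (nat_lit 282) (nat_lit 1596) (nat_lit 0) (XT.nd (nat_lit 94) (nat_lit 0) (nat_lit 0) (XT.lf (nat_lit 84) (nat_lit 11036056419) (nat_lit 0) (nat_lit 58481139195) (nat_lit 1176) (nat_lit 18086671833) (nat_lit 120) (nat_lit 5) (nat_lit 119) (nat_lit 5) (nat_lit 133) (nat_lit 5) (nat_lit 395) (nat_lit 380) (nat_lit 89)) (XT.nd (nat_lit 94) (nat_lit 0) (nat_lit 84) (XT.lf (nat_lit 84) (nat_lit 46894966922) (nat_lit 0) (nat_lit 27932421155) (nat_lit 1176) (nat_lit 14316199065) (nat_lit 120) (nat_lit 5) (nat_lit 119) (nat_lit 5) (nat_lit 133) (nat_lit 5) (nat_lit 396) (nat_lit 380) (nat_lit 88)) (XT.lf (nat_lit 0) (nat_lit 80337231939) (nat_lit 1092) (nat_lit 6901145195) (nat_lit 84) (nat_lit 3491576068) (nat_lit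 120) (nat_lit 5) (nat_lit 133) (nat_lit 5) (nat_lit 121) (nat_lit 5) (nat_lit 397) (nat_lit 380) (nat_lit 87)))) (XT.nd (nat_lit 94) (nat_lit 588) (nat_lit 0) (XT.lf (nat_lit 0) (nat_lit 29857730968) (nat_lit 1092) (nat_lit 56741721736) (nat_lit 1176) (nat_lit 5748016300) (nat_lit 107) (nat_lit 5) (nat_lit 120) (nat_lit 5) (nat_lit 121) (nat_lit 5) (nat_lit 398) (nat_lit 380) (nat_lit 86)) (XT.nd (nat_lit 94) (nat_lit 588) (nat_lit 0) (XT.lf (nat_lit 0) (nat_lit 67902181155) (nat_lit 1092) (nat_lit 25225357987) (nat_lit 1176) (nat_lit 885365896) (nat_lit 107) (nat_lit 5) (nat_lit 120) (nat_lit 5) (nat_lit 121) (nat_lit 5) (nat_lit 399) (nat_lit 380) (nat_lit 85)) (XT.lf (nat_lit 0) (nat_lit 4233216214) (nat_lit 588) (nat_lit 84210524395) (nat_lit 84) (nat_lit 7279121372) (nat_lit 100) (nat_lit 5) (nat_lit 107) (nat_lit 5) (nat_lit 101) (nat_lit 5) (nat_lit 400) (nat_lit 380) (nat_lit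 84))))) (XT.nd (nat_lit 282) (nat_lit 504) (nat_lit 0) (XT.nd (nat_lit 94) (nat_lit 588) (nat_lit 0) (XT.lf (nat_lit 0) (nat_lit 10025123844) (nat_lit 588) (nat_lit 46892228850) (nat_lit 84) (nat_lit 40551670913) (nat_lit 100) (nat_lit 5) (nat_lit 107) (nat_lit 5) (nat_lit 101) (nat_lit 5) (nat_lit 401) (nat_lit 380) (nat_lit 83)) (XT.nd (nat_lit 94) (nat_lit 588) (nat_lit 0) (XT.lf (nat_lit 0) (nat_lit 15996303850) (nat_lit 588) (nat_lit 8417317272) (nat_lit 84) (nat_lit 74855704661) (nat_lit 100) (nat_lit 5) (nat_lit 107) (nat_lit 5) (nat_lit 101) (nat_lit 5) (nat_lit 402) (nat_lit 380) (nat_lit 82)) (XT.lf (nat_lit 0) (nat_lit 22562187549) (nat_lit 672) (nat_lit 69316486882) (nat_lit 84) (nat_lit 9234066317) (nat_lit 93) (nat_lit 5) (nat_lit 101) (nat_lit 5) (nat_lit 94) (nat_lit 5) (nat_lit 403) (nat_lit 380) (nat_lit 81)))) (XT.nd (nat_lit 94) (nat_lit 504) (nat_lit 0) (XT.lf (nat_lit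 0) (nat_lit 29669803138) (nat_lit 672) (nat_lit 29826532402) (nat_lit 84) (nat_lit 43506483064) (nat_lit 93) (nat_lit 5) (nat_lit 101) (nat_lit 5) (nat_lit 94) (nat_lit 5) (nat_lit 404) (nat_lit 380) (nat_lit 80)) (XT.nd (nat_lit 94) (nat_lit 0) (nat_lit 0) (XT.lf (nat_lit 0) (nat_lit 11111234431) (nat_lit 504) (nat_lit 25996490549) (nat_lit 588) (nat_lit 67840355694) (nat_lit 87) (nat_lit 5) (nat_lit 93) (nat_lit 5) (nat_lit 94) (nat_lit 5) (nat_lit 405) (nat_lit 380) (nat_lit 79)) (XT.lf (nat_lit 0) (nat_lit 45175221294) (nat_lit 588) (nat_lit 53081785270) (nat_lit 84) (nat_lit 8684271188) (nat_lit 87) (nat_lit 5) (nat_lit 94) (nat_lit 5) (nat_lit 88) (nat_lit 5) (nat_lit 406) (nat_lit 380) (nat_lit 78)))))) (XT.nd (nat_lit 51982) (nat_lit 0) (nat_lit 3192) (XT.nd (nat_lit 282) (nat_lit 420) (nat_lit 0) (XT.nd (nat_lit 94) (nat_lit 504) (nat_lit 0) (XT.lf (nat_lit 0) (nat_lit 53758451145)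 (nat_lit 588) (nat_lit 11329441920) (nat_lit 84) (nat_lit 43900136823) (nat_lit 87) (nat_lit 5) (nat_lit 94) (nat_lit 5) (nat_lit 88) (nat_lit 5) (nat_lit 407) (nat_lit 380) (nat_lit 77)) (XT.nd (nat_lit 94) (nat_lit 0) (nat_lit 0) (XT.lf (nat_lit 0) (nat_lit 32369156129) (nat_lit 504) (nat_lit 30559476506) (nat_lit 588) (nat_lit 48159652488) (nat_lit 81) (nat_lit 5) (nat_lit 87) (nat_lit 5) (nat_lit 88) (nat_lit 5) (nat_lit 408) (nat_lit 380) (nat_lit 76)) (XT.lf (nat_lit 0) (nat_lit 72552316264) (nat_lit 588) (nat_lit 35638833375) (nat_lit 84) (nat_lit 5057253382) (nat_lit 81) (nat_lit 5) (nat_lit 88) (nat_lit 5) (nat_lit 82) (nat_lit 5) (nat_lit 409) (nat_lit 380) (nat_lit 75)))) (XT.nd (nat_lit 51512) (nat_lit 0) (nat_lit 3192) (XT.lf (nat_lit 0) (nat_lit 8638207889) (nat_lit 420) (nat_lit 74234146962) (nat_lit 504) (nat_lit 32590791833) (nat_lit 76) (nat_lit 5) (nat_lit 81) (nat_lit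 5) (nat_lit 82) (nat_lit 5) (nat_lit 410) (nat_lit 380) (nat_lit 74)) (XT.nd (nat_lit 94) (nat_lit 0) (nat_lit 0) (XT.lf (nat_lit 0) (nat_lit 8108211871) (nat_lit 0) (nat_lit 8108211871) (nat_lit 1092) (nat_lit 19138580045) (nat_lit 114) (nat_lit 5) (nat_lit 114) (nat_lit 3) (nat_lit 127) (nat_lit 3) (nat_lit 381) (nat_lit 381) (nat_lit 102)) (XT.lf (nat_lit 0) (nat_lit 33059808512) (nat_lit 1092) (nat_lit 27592355602) (nat_lit 1176) (nat_lit 11149954232) (nat_lit 114) (nat_lit 5) (nat_lit 127) (nat_lit 3) (nat_lit 128) (nat_lit 5) (nat_lit 382) (nat_lit 381) (nat_lit 101))))) (XT.nd (nat_lit 282) (nat_lit 0) (nat_lit 84) (XT.nd (nat_lit 94) (nat_lit 0) (nat_lit 0) (XT.lf (nat_lit 0) (nat_lit 33871605365) (nat_lit 1092) (nat_lit 23292404) (nat_lit 1176) (nat_lit 39028061095) (nat_lit 114) (nat_lit 5) (nat_lit 127) (nat_lit 3) (nat_lit 128) (nat_lit 5) (nat_lit 383) (nat_lit 381) (nat_lit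 100)) (XT.nd (nat_lit 94) (nat_lit 0) (nat_lit 84) (XT.lf (nat_lit 84) (nat_lit 28984137729) (nat_lit 0) (nat_lit 6011514301) (nat_lit 1176) (nat_lit 39073995464) (nat_lit 115) (nat_lit 5) (nat_lit 114) (nat_lit 5) (nat_lit 128) (nat_lit 5) (nat_lit 384) (nat_lit 381) (nat_lit 99)) (XT.lf (nat_lit 0) (nat_lit 36379906943) (nat_lit 1092) (nat_lit 16586387172) (nat_lit 1176) (nat_lit 22278604721) (nat_lit 115) (nat_lit 5) (nat_lit 128) (nat_lit 5) (nat_lit 129) (nat_lit 5) (nat_lit 385) (nat_lit 381) (nat_lit 98)))) (XT.nd (nat_lit 94) (nat_lit 0) (nat_lit 84) (XT.lf (nat_lit 84) (nat_lit 12996324920) (nat_lit 0) (nat_lit 25000741282) (nat_lit 1176) (nat_lit 38453628567) (nat_lit 116) (nat_lit 5) (nat_lit 115) (nat_lit 5) (nat_lit 129) (nat_lit 5) (nat_lit 386) (nat_lit 381) (nat_lit 97)) (XT.nd (nat_lit 94) (nat_lit 0) (nat_lit 0) (XT.lf (nat_lit 0) (nat_lit 39876862673) (nat_lit 1092)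 (nat_lit 33880821551) (nat_lit 1176) (nat_lit 3929600004) (nat_lit 116) (nat_lit 5) (nat_lit 129) (nat_lit 5) (nat_lit 130) (nat_lit 5) (nat_lit 387) (nat_lit 381) (nat_lit 96)) (XT.lf (nat_lit 0) (nat_lit 42070239122) (nat_lit 1092) (nat_lit 3646444071) (nat_lit 1176) (nat_lit 33237611744) (nat_lit 116) (nat_lit 5) (nat_lit 129) (nat_lit 5) (nat_lit 130) (nat_lit 5) (nat_lit 388) (nat_lit 381) (nat_lit 95))))))) (XT.nd (nat_lit 1128) (nat_lit 2184) (nat_lit 0) (XT.nd (nat_lit 564) (nat_lit 756) (nat_lit 0) (XT.nd (nat_lit 282) (nat_lit 0) (nat_lit 84) (XT.nd (nat_lit 94) (nat_lit 0) (nat_lit 84) (XT.lf (nat_lit 84) (nat_lit 28090924164) (nat_lit 0) (nat_lit 16518970839) (nat_lit 1176) (nat_lit 35642062577) (nat_lit 117) (nat_lit 5) (nat_lit 116) (nat_lit 5) (nat_lit 130) (nat_lit 5) (nat_lit 389) (nat_lit 381) (nat_lit 94)) (XT.nd (nat_lit 94) (nat_lit 0) (nat_lit 0) (XT.lf (nat_lit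 0) (nat_lit 47401114217) (nat_lit 1092) (nat_lit 20834613485) (nat_lit 1176) (nat_lit 13348763591) (nat_lit 117) (nat_lit 5) (nat_lit 130) (nat_lit 5) (nat_lit 131) (nat_lit 5) (nat_lit 390) (nat_lit 381) (nat_lit 93)) (XT.lf (nat_lit 84) (nat_lit 11525948958) (nat_lit 0) (nat_lit 39035842106) (nat_lit 1176) (nat_lit 32387773005) (nat_lit 118) (nat_lit 5) (nat_lit 117) (nat_lit 5) (nat_lit 131) (nat_lit 5) (nat_lit 391) (nat_lit 381) (nat_lit 92)))) (XT.nd (nat_lit 94) (nat_lit 0) (nat_lit 84) (XT.lf (nat_lit 84) (nat_lit 45331125732) (nat_lit 0) (nat_lit 8706442940) (nat_lit 1176) (nat_lit 30312656018) (nat_lit 118) (nat_lit 5) (nat_lit 117) (nat_lit 5) (nat_lit 131) (nat_lit 5) (nat_lit 392) (nat_lit 381) (nat_lit 91)) (XT.nd (nat_lit 94) (nat_lit 0) (nat_lit 0) (XT.lf (nat_lit 0) (nat_lit 57844585506) (nat_lit 1092) (nat_lit 5834123610) (nat_lit 1176) (nat_lit 22108669745) (nat_lit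 118) (nat_lit 5) (nat_lit 131) (nat_lit 5) (nat_lit 132) (nat_lit 5) (nat_lit 393) (nat_lit 381) (nat_lit 90)) (XT.lf (nat_lit 84) (nat_lit 28872002214) (nat_lit 0) (nat_lit 33272748818) (nat_lit 1176) (nat_lit 25112705936) (nat_lit 119) (nat_lit 5) (nat_lit 118) (nat_lit 5) (nat_lit 132) (nat_lit 5) (nat_lit 394) (nat_lit 381) (nat_lit 89))))) (XT.nd (nat_lit 282) (nat_lit 924) (nat_lit 0) (XT.nd (nat_lit 94) (nat_lit 0) (nat_lit 84) (XT.lf (nat_lit 84) (nat_lit 64777456933) (nat_lit 0) (nat_lit 1861339449) (nat_lit 1176) (nat_lit 22132434489) (nat_lit 119) (nat_lit 5) (nat_lit 118) (nat_lit 5) (nat_lit 132) (nat_lit 5) (nat_lit 395) (nat_lit 381) (nat_lit 88)) (XT.nd (nat_lit 94) (nat_lit 0) (nat_lit 0) (XT.lf (nat_lit 84) (nat_lit 11390496290) (nat_lit 0) (nat_lit 60297144937) (nat_lit 1176) (nat_lit 18631411683) (nat_lit 120) (nat_lit 5) (nat_lit 119) (nat_lit 5) (nat_lit 133) (nat_lit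 5) (nat_lit 396) (nat_lit 381) (nat_lit 87)) (XT.lf (nat_lit 84) (nat_lit 48360662519) (nat_lit 0) (nat_lit 28801323714) (nat_lit 1176) (nat_lit 14744533752) (nat_lit 120) (nat_lit 5) (nat_lit 119) (nat_lit 5) (nat_lit 133) (nat_lit 5) (nat_lit 397) (nat_lit 381) (nat_lit 86)))) (XT.nd (nat_lit 94) (nat_lit 1092) (nat_lit 0) (XT.lf (nat_lit 0) (nat_lit 82842156925) (nat_lit 1092) (nat_lit 7102956820) (nat_lit 84) (nat_lit 3596966128) (nat_lit 120) (nat_lit 5) (nat_lit 133) (nat_lit 5) (nat_lit 121) (nat_lit 5) (nat_lit 398) (nat_lit 381) (nat_lit 85)) (XT.nd (nat_lit 94) (nat_lit 0) (nat_lit 0) (XT.lf (nat_lit 0) (nat_lit 30795321761) (nat_lit 1092) (nat_lit 58502868720) (nat_lit 1176) (nat_lit 5911559584) (nat_lit 107) (nat_lit 5) (nat_lit 120) (nat_lit 5) (nat_lit 121) (nat_lit 5) (nat_lit 399) (nat_lit 381) (nat_lit 84)) (XT.lf (nat_lit 0) (nat_lit 70018789055) (nat_lit 1092) (nat_lit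 26009432940) (nat_lit 1176) (nat_lit 898607369) (nat_lit 107) (nat_lit 5) (nat_lit 120) (nat_lit 5) (nat_lit 121) (nat_lit 5) (nat_lit 400) (nat_lit 381) (nat_lit 83)))))) (XT.nd (nat_lit 564) (nat_lit 504) (nat_lit 0) (XT.nd (nat_lit 282) (nat_lit 1092) (nat_lit 0) (XT.nd (nat_lit 94) (nat_lit 0) (nat_lit 0) (XT.lf (nat_lit 0) (nat_lit 4378046178) (nat_lit 588) (nat_lit 86808709981) (nat_lit 84) (nat_lit 7503045777) (nat_lit 100) (nat_lit 5) (nat_lit 107) (nat_lit 5) (nat_lit 101) (nat_lit 5) (nat_lit 401) (nat_lit 381) (nat_lit 82)) (XT.nd (nat_lit 94) (nat_lit 0) (nat_lit 0) (XT.lf (nat_lit 0) (nat_lit 10349094014) (nat_lit 588) (nat_lit 48333918332) (nat_lit 84) (nat_lit 41807096322) (nat_lit 100) (nat_lit 5) (nat_lit 107) (nat_lit 5) (nat_lit 101) (nat_lit 5) (nat_lit 402) (nat_lit 381) (nat_lit 81)) (XT.lf (nat_lit 0) (nat_lit 16504983965) (nat_lit 588) (nat_lit 8666644396) (nat_lit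 84) (nat_lit 77174605522) (nat_lit 100) (nat_lit 5) (nat_lit 107) (nat_lit 5) (nat_lit 101) (nat_lit 5) (nat_lit 403) (nat_lit 381) (nat_lit 80)))) (XT.nd (nat_lit 94) (nat_lit 504) (nat_lit 0) (XT.lf (nat_lit 0) (nat_lit 23274129117) (nat_lit 672) (nat_lit 71453364291) (nat_lit 84) (nat_lit 9519311345) (nat_lit 93) (nat_lit 5) (nat_lit 101) (nat_lit 5) (nat_lit 94) (nat_lit 5) (nat_lit 404) (nat_lit 381) (nat_lit 79)) (XT.nd (nat_lit 94) (nat_lit 504) (nat_lit 0) (XT.lf (nat_lit 0) (nat_lit 30601704527) (nat_lit 672) (nat_lit 30739580044) (nat_lit 84) (nat_lit 44854203411) (nat_lit 93) (nat_lit 5) (nat_lit 101) (nat_lit 5) (nat_lit 94) (nat_lit 5) (nat_lit 405) (nat_lit 381) (nat_lit 78)) (XT.lf (nat_lit 0) (nat_lit 11467140376) (nat_lit 504) (nat_lit 26802810282) (nat_lit 588) (nat_lit 69931111562) (nat_lit 87) (nat_lit 5) (nat_lit 93) (nat_lit 5) (nat_lit 94) (nat_lit 5) (nat_lit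 406) (nat_lit 381) (nat_lit 77))))) (XT.nd (nat_lit 282) (nat_lit 0) (nat_lit 0) (XT.nd (nat_lit 94) (nat_lit 504) (nat_lit 0) (XT.lf (nat_lit 0) (nat_lit 46587177842) (nat_lit 588) (nat_lit 54715806662) (nat_lit 84) (nat_lit 8953076328) (nat_lit 87) (nat_lit 5) (nat_lit 94) (nat_lit 5) (nat_lit 88) (nat_lit 5) (nat_lit 407) (nat_lit 381) (nat_lit 76)) (XT.nd (nat_lit 94) (nat_lit 504) (nat_lit 0) (XT.lf (nat_lit 0) (nat_lit 55436141296) (nat_lit 588) (nat_lit 11669486868) (nat_lit 84) (nat_lit 45260646043) (nat_lit 87) (nat_lit 5) (nat_lit 94) (nat_lit 5) (nat_lit 88) (nat_lit 5) (nat_lit 408) (nat_lit 381) (nat_lit 75)) (XT.lf (nat_lit 0) (nat_lit 33383654656) (nat_lit 504) (nat_lit 31506717315) (nat_lit 588) (nat_lit 49641273548) (nat_lit 81) (nat_lit 5) (nat_lit 87) (nat_lit 5) (nat_lit 88) (nat_lit 5) (nat_lit 409) (nat_lit 381) (nat_lit 74)))) (XT.nd (nat_lit 51606) (nat_lit 0)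 (nat_lit 2772) (XT.lf (nat_lit 0) (nat_lit 74812061488) (nat_lit 588) (nat_lit 36732550780) (nat_lit 84) (nat_lit 5214126092) (nat_lit 81) (nat_lit 5) (nat_lit 88) (nat_lit 5) (nat_lit 82) (nat_lit 5) (nat_lit 410) (nat_lit 381) (nat_lit 73)) (XT.nd (nat_lit 94) (nat_lit 0) (nat_lit 0) (XT.lf (nat_lit 0) (nat_lit 8365194359) (nat_lit 0) (nat_lit 8365194359) (nat_lit 1092) (nat_lit 19720229140) (nat_lit 114) (nat_lit 5) (nat_lit 114) (nat_lit 3) (nat_lit 127) (nat_lit 3) (nat_lit 382) (nat_lit 382) (nat_lit 100)) (XT.lf (nat_lit 0) (nat_lit 34106389074) (nat_lit 1092) (nat_lit 28435934346) (nat_lit 1176) (nat_lit 11484905375) (nat_lit 114) (nat_lit 5) (nat_lit 127) (nat_lit 3) (nat_lit 128) (nat_lit 5) (nat_lit 383) (nat_lit 382) (nat_lit 99))))))))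
noncomputable def xc244 : XT := (XT.nd (nat_lit 2256) (nat_lit 504) (nat_lit 0) (XT.nd (nat_lit 1128) (nat_lit 2268) (nat_lit 0) (XT.nd (nat_lit 564) (nat_lit 0) (nat_lit 168) (XT.nd (nat_lit 282) (nat_lit 0) (nat_lit 84) (XT.nd (nat_lit 94) (nat_lit 0) (nat_lit 0) (XT.lf (nat_lit 0) (nat_lit 34942698360) (nat_lit 1092) (nat_lit 12584518) (nat_lit 1176) (nat_lit 40227555199) (nat_lit 114) (nat_lit 5) (nat_lit 127) (nat_lit 3) (nat_lit 128) (nat_lit 5) (nat_lit 384) (nat_lit 382) (nat_lit 98)) (XT.nd (nat_lit 94) (nat_lit 0) (nat_lit 84) (XT.lf (nat_lit 84) (nat_lit 29893960231) (nat_lit 0) (nat_lit 6207108850) (nat_lit 1176) (nat_lit 40264023518) (nat_lit 115) (nat_lit 5) (nat_lit 114) (nat_lit 5) (nat_lit 128) (nat_lit 5) (nat_lit 385) (nat_lit 382) (nat_lit 97)) (XT.lf (nat_lit 0) (nat_lit 37527529064) (nat_lit 1092) (nat_lit 17088809755) (nat_lit 1176) (nat_lit 22960462138) (nat_lit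 115) (nat_lit 5) (nat_lit 128) (nat_lit 5) (nat_lit 129) (nat_lit 5) (nat_lit 386) (nat_lit 382) (nat_lit 96)))) (XT.nd (nat_lit 94) (nat_lit 0) (nat_lit 84) (XT.lf (nat_lit 84) (nat_lit 13410847399) (nat_lit 0) (nat_lit 25783491598) (nat_lit 1176) (nat_lit 39625654727) (nat_lit 116) (nat_lit 5) (nat_lit 115) (nat_lit 5) (nat_lit 129) (nat_lit 5) (nat_lit 387) (nat_lit 382) (nat_lit 95)) (XT.nd (nat_lit 94) (nat_lit 0) (nat_lit 0) (XT.lf (nat_lit 0) (nat_lit 41131752581) (nat_lit 1092) (nat_lit 34919113784) (nat_lit 1176) (nat_lit 4044073620) (nat_lit 116) (nat_lit 5) (nat_lit 129) (nat_lit 5) (nat_lit 130) (nat_lit 5) (nat_lit 388) (nat_lit 382) (nat_lit 94)) (XT.lf (nat_lit 0) (nat_lit 43392561215) (nat_lit 1092) (nat_lit 3747831815) (nat_lit 1176) (nat_lit 34260854542) (nat_lit 116) (nat_lit 5) (nat_lit 129) (nat_lit 5) (nat_lit 130) (nat_lit 5) (nat_lit 389) (nat_lit 382) (nat_lit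 93))))) (XT.nd (nat_lit 282) (nat_lit 0) (nat_lit 84) (XT.nd (nat_lit 94) (nat_lit 0) (nat_lit 84) (XT.lf (nat_lit 84) (nat_lit 28973276869) (nat_lit 0) (nat_lit 17037238405) (nat_lit 1176) (nat_lit 36728637893) (nat_lit 117) (nat_lit 5) (nat_lit 116) (nat_lit 5) (nat_lit 130) (nat_lit 5) (nat_lit 390) (nat_lit 382) (nat_lit 92)) (XT.nd (nat_lit 94) (nat_lit 0) (nat_lit 0) (XT.lf (nat_lit 0) (nat_lit 48887670218) (nat_lit 1092) (nat_lit 21468643190) (nat_lit 1176) (nat_lit 13756702355) (nat_lit 117) (nat_lit 5) (nat_lit 130) (nat_lit 5) (nat_lit 131) (nat_lit 5) (nat_lit 391) (nat_lit 382) (nat_lit 91)) (XT.lf (nat_lit 84) (nat_lit 11894976785) (nat_lit 0) (nat_lit 40250952753) (nat_lit 1176) (nat_lit 33374490535) (nat_lit 118) (nat_lit 5) (nat_lit 117) (nat_lit 5) (nat_lit 131) (nat_lit 5) (nat_lit 392) (nat_lit 382) (nat_lit 90)))) (XT.nd (nat_lit 94) (nat_lit 0) (nat_lit 84) (XT.lf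 (nat_lit 84) (nat_lit 46747761541) (nat_lit 0) (nat_lit 8981191887) (nat_lit 1176) (nat_lit 31235565199) (nat_lit 118) (nat_lit 5) (nat_lit 117) (nat_lit 5) (nat_lit 131) (nat_lit 5) (nat_lit 393) (nat_lit 382) (nat_lit 89)) (XT.nd (nat_lit 94) (nat_lit 0) (nat_lit 0) (XT.lf (nat_lit 0) (nat_lit 59653453420) (nat_lit 1092) (nat_lit 6003359673) (nat_lit 1176) (nat_lit 22789429859) (nat_lit 118) (nat_lit 5) (nat_lit 131) (nat_lit 5) (nat_lit 132) (nat_lit 5) (nat_lit 394) (nat_lit 382) (nat_lit 88)) (XT.lf (nat_lit 84) (nat_lit 29778538392) (nat_lit 0) (nat_lit 34308028170) (nat_lit 1176) (nat_lit 25875339758) (nat_lit 119) (nat_lit 5) (nat_lit 118) (nat_lit 5) (nat_lit 132) (nat_lit 5) (nat_lit 395) (nat_lit 382) (nat_lit 87)))))) (XT.nd (nat_lit 564) (nat_lit 1680) (nat_lit 0) (XT.nd (nat_lit 282) (nat_lit 924) (nat_lit 0) (XT.nd (nat_lit 94) (nat_lit 0) (nat_lit 84) (XT.lf (nat_lit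 84) (nat_lit 66796716303) (nat_lit 0) (nat_lit 1922750127) (nat_lit 1176) (nat_lit 22803156775) (nat_lit 119) (nat_lit 5) (nat_lit 118) (nat_lit 5) (nat_lit 132) (nat_lit 5) (nat_lit 396) (nat_lit 382) (nat_lit 86)) (XT.nd (nat_lit 94) (nat_lit 0) (nat_lit 0) (XT.lf (nat_lit 84) (nat_lit 11755193938) (nat_lit 0) (nat_lit 62169263805) (nat_lit 1176) (nat_lit 19193983035) (nat_lit 120) (nat_lit 5) (nat_lit 119) (nat_lit 5) (nat_lit 133) (nat_lit 5) (nat_lit 397) (nat_lit 382) (nat_lit 85)) (XT.lf (nat_lit 84) (nat_lit 49871086765) (nat_lit 0) (nat_lit 29696984706) (nat_lit 1176) (nat_lit 15187062979) (nat_lit 120) (nat_lit 5) (nat_lit 119) (nat_lit 5) (nat_lit 133) (nat_lit 5) (nat_lit 398) (nat_lit 382) (nat_lit 84)))) (XT.nd (nat_lit 94) (nat_lit 1092) (nat_lit 0) (XT.lf (nat_lit 0) (nat_lit 85423877456) (nat_lit 1092) (nat_lit 7311742723) (nat_lit 84) (nat_lit 3705792019) (nat_lit 120)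 (nat_lit 5) (nat_lit 133) (nat_lit 5) (nat_lit 121) (nat_lit 5) (nat_lit 399) (nat_lit 382) (nat_lit 83)) (XT.nd (nat_lit 94) (nat_lit 0) (nat_lit 0) (XT.lf (nat_lit 0) (nat_lit 31761267020) (nat_lit 1092) (nat_lit 60318483698) (nat_lit 1176) (nat_lit 6081040172) (nat_lit 107) (nat_lit 5) (nat_lit 120) (nat_lit 5) (nat_lit 121) (nat_lit 5) (nat_lit 400) (nat_lit 382) (nat_lit 82)) (XT.lf (nat_lit 0) (nat_lit 72200322326) (nat_lit 1092) (nat_lit 26817690490) (nat_lit 1176) (nat_lit 913100706) (nat_lit 107) (nat_lit 5) (nat_lit 120) (nat_lit 5) (nat_lit 121) (nat_lit 5) (nat_lit 401) (nat_lit 382) (nat_lit 81))))) (XT.nd (nat_lit 282) (nat_lit 1092) (nat_lit 0) (XT.nd (nat_lit 94) (nat_lit 0) (nat_lit 0) (XT.lf (nat_lit 0) (nat_lit 4526560305) (nat_lit 588) (nat_lit 89488170279) (nat_lit 84) (nat_lit 7734014211) (nat_lit 100) (nat_lit 5) (nat_lit 107) (nat_lit 5) (nat_lit 101) (nat_lit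 5) (nat_lit 402) (nat_lit 382) (nat_lit 80)) (XT.nd (nat_lit 94) (nat_lit 0) (nat_lit 0) (XT.lf (nat_lit 0) (nat_lit 10682325914) (nat_lit 588) (nat_lit 49821009169) (nat_lit 84) (nat_lit 43101539213) (nat_lit 100) (nat_lit 5) (nat_lit 107) (nat_lit 5) (nat_lit 101) (nat_lit 5) (nat_lit 403) (nat_lit 382) (nat_lit 79)) (XT.lf (nat_lit 0) (nat_lit 17028675311) (nat_lit 588) (nat_lit 8924388324) (nat_lit 84) (nat_lit 79565488618) (nat_lit 100) (nat_lit 5) (nat_lit 107) (nat_lit 5) (nat_lit 101) (nat_lit 5) (nat_lit 404) (nat_lit 382) (nat_lit 78)))) (XT.nd (nat_lit 94) (nat_lit 504) (nat_lit 0) (XT.lf (nat_lit 0) (nat_lit 24007399662) (nat_lit 672) (nat_lit 73657191753) (nat_lit 84) (nat_lit 9813458855) (nat_lit 93) (nat_lit 5) (nat_lit 101) (nat_lit 5) (nat_lit 94) (nat_lit 5) (nat_lit 405) (nat_lit 382) (nat_lit 77)) (XT.nd (nat_lit 94) (nat_lit 504) (nat_lit 0) (XT.lf (nat_lit 0) (nat_lit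 31561775934) (nat_lit 672) (nat_lit 31681617761) (nat_lit 84) (nat_lit 46243761174) (nat_lit 93) (nat_lit 5) (nat_lit 101) (nat_lit 5) (nat_lit 94) (nat_lit 5) (nat_lit 406) (nat_lit 382) (nat_lit 76)) (XT.lf (nat_lit 0) (nat_lit 11833400748) (nat_lit 504) (nat_lit 27634100545) (nat_lit 588) (nat_lit 72087409125) (nat_lit 87) (nat_lit 5) (nat_lit 93) (nat_lit 5) (nat_lit 94) (nat_lit 5) (nat_lit 407) (nat_lit 382) (nat_lit 75))))))) (XT.nd (nat_lit 52734) (nat_lit 0) (nat_lit 1596) (XT.nd (nat_lit 52170) (nat_lit 0) (nat_lit 2772) (XT.nd (nat_lit 51888) (nat_lit 0) (nat_lit 2772) (XT.nd (nat_lit 94) (nat_lit 504) (nat_lit 0) (XT.lf (nat_lit 0) (nat_lit 48042222416) (nat_lit 588) (nat_lit 56401164709) (nat_lit 84) (nat_lit 9230238550) (nat_lit 87) (nat_lit 5) (nat_lit 94) (nat_lit 5) (nat_lit 88) (nat_lit 5) (nat_lit 408) (nat_lit 382) (nat_lit 74)) (XT.nd (nat_lit 94) (nat_lit 504) (nat_lit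 0) (XT.lf (nat_lit 0) (nat_lit 57165177739) (nat_lit 588) (nat_lit 12020734695) (nat_lit 84) (nat_lit 46663354447) (nat_lit 87) (nat_lit 5) (nat_lit 94) (nat_lit 5) (nat_lit 88) (nat_lit 5) (nat_lit 409) (nat_lit 382) (nat_lit 73)) (XT.lf (nat_lit 0) (nat_lit 34428947850) (nat_lit 504) (nat_lit 32483328687) (nat_lit 588) (nat_lit 51169495847) (nat_lit 81) (nat_lit 5) (nat_lit 87) (nat_lit 5) (nat_lit 88) (nat_lit 5) (nat_lit 410) (nat_lit 382) (nat_lit 72)))) (XT.nd (nat_lit 94) (nat_lit 0) (nat_lit 0) (XT.lf (nat_lit 0) (nat_lit 8629809952) (nat_lit 0) (nat_lit 8629809952) (nat_lit 1092) (nat_lit 20320599222) (nat_lit 114) (nat_lit 5) (nat_lit 114) (nat_lit 3) (nat_lit 127) (nat_lit 3) (nat_lit 383) (nat_lit 383) (nat_lit 98)) (XT.nd (nat_lit 94) (nat_lit 0) (nat_lit 0) (XT.lf (nat_lit 0) (nat_lit 35184126736) (nat_lit 1092) (nat_lit 29306362035) (nat_lit 1176) (nat_lit 11830873630)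 (nat_lit 114) (nat_lit 5) (nat_lit 127) (nat_lit 3) (nat_lit 128) (nat_lit 5) (nat_lit 384) (nat_lit 383) (nat_lit 97)) (XT.lf (nat_lit 0) (nat_lit 36045747034) (nat_lit 1092) (nat_lit 2221702) (nat_lit 1176) (nat_lit 41464848197) (nat_lit 114) (nat_lit 5) (nat_lit 127) (nat_lit 3) (nat_lit 128) (nat_lit 5) (nat_lit 385) (nat_lit 383) (nat_lit 96))))) (XT.nd (nat_lit 282) (nat_lit 0) (nat_lit 168) (XT.nd (nat_lit 94) (nat_lit 0) (nat_lit 84) (XT.lf (nat_lit 84) (nat_lit 30831317070) (nat_lit 0) (nat_lit 6408219672) (nat_lit 1176) (nat_lit 41492202051) (nat_lit 115) (nat_lit 5) (nat_lit 114) (nat_lit 5) (nat_lit 128) (nat_lit 5) (nat_lit 386) (nat_lit 383) (nat_lit 95)) (XT.nd (nat_lit 94) (nat_lit 0) (nat_lit 0) (XT.lf (nat_lit 0) (nat_lit 38709552017) (nat_lit 1092) (nat_lit 17607503732) (nat_lit 1176) (nat_lit 23663977149) (nat_lit 115) (nat_lit 5) (nat_lit 128) (nat_lit 5) (nat_lit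 129) (nat_lit 5) (nat_lit 387) (nat_lit 383) (nat_lit 94)) (XT.lf (nat_lit 84) (nat_lit 13837530830) (nat_lit 0) (nat_lit 26590049471) (nat_lit 1176) (nat_lit 40835200483) (nat_lit 116) (nat_lit 5) (nat_lit 115) (nat_lit 5) (nat_lit 129) (nat_lit 5) (nat_lit 388) (nat_lit 383) (nat_lit 93)))) (XT.nd (nat_lit 94) (nat_lit 0) (nat_lit 0) (XT.lf (nat_lit 0) (nat_lit 42424436018) (nat_lit 1092) (nat_lit 35990304641) (nat_lit 1176) (nat_lit 4162530915) (nat_lit 116) (nat_lit 5) (nat_lit 129) (nat_lit 5) (nat_lit 130) (nat_lit 5) (nat_lit 389) (nat_lit 383) (nat_lit 92)) (XT.nd (nat_lit 94) (nat_lit 0) (nat_lit 0) (XT.lf (nat_lit 0) (nat_lit 44754800551) (nat_lit 1092) (nat_lit 3853052748) (nat_lit 1176) (nat_lit 35316239784) (nat_lit 116) (nat_lit 5) (nat_lit 129) (nat_lit 5) (nat_lit 130) (nat_lit 5) (nat_lit 390) (nat_lit 383) (nat_lit 91)) (XT.lf (nat_lit 84) (nat_lit 29882299326) (nat_lit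 0) (nat_lit 17571206245) (nat_lit 1176) (nat_lit 37849982679) (nat_lit 117) (nat_lit 5) (nat_lit 116) (nat_lit 5) (nat_lit 130) (nat_lit 5) (nat_lit 391) (nat_lit 383) (nat_lit 90)))))) (XT.nd (nat_lit 564) (nat_lit 1428) (nat_lit 0) (XT.nd (nat_lit 282) (nat_lit 0) (nat_lit 84) (XT.nd (nat_lit 94) (nat_lit 0) (nat_lit 0) (XT.lf (nat_lit 0) (nat_lit 50419295321) (nat_lit 1092) (nat_lit 22123029316) (nat_lit 1176) (nat_lit 14177635083) (nat_lit 117) (nat_lit 5) (nat_lit 130) (nat_lit 5) (nat_lit 131) (nat_lit 5) (nat_lit 392) (nat_lit 383) (nat_lit 89)) (XT.nd (nat_lit 94) (nat_lit 0) (nat_lit 0) (XT.lf (nat_lit 84) (nat_lit 12274750077) (nat_lit 0) (nat_lit 41503435699) (nat_lit 1176) (nat_lit 34392821220) (nat_lit 118) (nat_lit 5) (nat_lit 117) (nat_lit 5) (nat_lit 131) (nat_lit 5) (nat_lit 393) (nat_lit 383) (nat_lit 88)) (XT.lf (nat_lit 84) (nat_lit 48207639542) (nat_lit 0) (nat_lit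 9264170825) (nat_lit 1176) (nat_lit 32188078660) (nat_lit 118) (nat_lit 5) (nat_lit 117) (nat_lit 5) (nat_lit 131) (nat_lit 5) (nat_lit 394) (nat_lit 383) (nat_lit 87)))) (XT.nd (nat_lit 94) (nat_lit 0) (nat_lit 0) (XT.lf (nat_lit 0) (nat_lit 61517467146) (nat_lit 1092) (nat_lit 6178530430) (nat_lit 1176) (nat_lit 23491566516) (nat_lit 118) (nat_lit 5) (nat_lit 131) (nat_lit 5) (nat_lit 132) (nat_lit 5) (nat_lit 395) (nat_lit 383) (nat_lit 86)) (XT.nd (nat_lit 94) (nat_lit 0) (nat_lit 0) (XT.lf (nat_lit 84) (nat_lit 30712495784) (nat_lit 0) (nat_lit 35375174672) (nat_lit 1176) (nat_lit 26662554647) (nat_lit 119) (nat_lit 5) (nat_lit 118) (nat_lit 5) (nat_lit 132) (nat_lit 5) (nat_lit 396) (nat_lit 383) (nat_lit 85)) (XT.lf (nat_lit 84) (nat_lit 68877911794) (nat_lit 0) (nat_lit 1985844836) (nat_lit 1176) (nat_lit 23495582624) (nat_lit 119) (nat_lit 5) (nat_lit 118) (nat_lit 5) (nat_lit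 132) (nat_lit 5) (nat_lit 397) (nat_lit 383) (nat_lit 84))))) (XT.nd (nat_lit 282) (nat_lit 1596) (nat_lit 0) (XT.nd (nat_lit 94) (nat_lit 0) (nat_lit 0) (XT.lf (nat_lit 84) (nat_lit 12130510583) (nat_lit 0) (nat_lit 64099246149) (nat_lit 1176) (nat_lit 19774882718) (nat_lit 120) (nat_lit 5) (nat_lit 119) (nat_lit 5) (nat_lit 133) (nat_lit 5) (nat_lit 398) (nat_lit 383) (nat_lit 83)) (XT.nd (nat_lit 94) (nat_lit 0) (nat_lit 84) (XT.lf (nat_lit 84) (nat_lit 51427668178) (nat_lit 0) (nat_lit 30620244158) (nat_lit 1176) (nat_lit 15644172512) (nat_lit 120) (nat_lit 5) (nat_lit 119) (nat_lit 5) (nat_lit 133) (nat_lit 5) (nat_lit 399) (nat_lit 383) (nat_lit 82)) (XT.lf (nat_lit 0) (nat_lit 88084824962) (nat_lit 1092) (nat_lit 7527676572) (nat_lit 84) (nat_lit 3818150257) (nat_lit 120) (nat_lit 5) (nat_lit 133) (nat_lit 5) (nat_lit 121) (nat_lit 5) (nat_lit 400) (nat_lit 383) (nat_lit 81))))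 (XT.nd (nat_lit 94) (nat_lit 588) (nat_lit 0) (XT.lf (nat_lit 0) (nat_lit 32756487840) (nat_lit 1092) (nat_lit 62190262734) (nat_lit 1176) (nat_lit 6256590738) (nat_lit 107) (nat_lit 5) (nat_lit 120) (nat_lit 5) (nat_lit 121) (nat_lit 5) (nat_lit 401) (nat_lit 383) (nat_lit 80)) (XT.nd (nat_lit 94) (nat_lit 588) (nat_lit 0) (XT.lf (nat_lit 0) (nat_lit 74448834493) (nat_lit 1092) (nat_lit 27650887626) (nat_lit 1176) (nat_lit 928834880) (nat_lit 107) (nat_lit 5) (nat_lit 120) (nat_lit 5) (nat_lit 121) (nat_lit 5) (nat_lit 402) (nat_lit 383) (nat_lit 79)) (XT.lf (nat_lit 0) (nat_lit 4678920518) (nat_lit 588) (nat_lit 92251381509) (nat_lit 84) (nat_lit 7972238977) (nat_lit 100) (nat_lit 5) (nat_lit 107) (nat_lit 5) (nat_lit 101) (nat_lit 5) (nat_lit 403) (nat_lit 383) (nat_lit 78))))))))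
noncomputable def xc245 : XT := (XT.nd (nat_lit 53862) (nat_lit 0) (nat_lit 504) (XT.nd (nat_lit 52734) (nat_lit 0) (nat_lit 2856) (XT.nd (nat_lit 564) (nat_lit 504) (nat_lit 0) (XT.nd (nat_lit 282) (nat_lit 504) (nat_lit 0) (XT.nd (nat_lit 94) (nat_lit 588) (nat_lit 0) (XT.lf (nat_lit 0) (nat_lit 11025152938) (nat_lit 588) (nat_lit 51354866808) (nat_lit 84) (nat_lit 44436203248) (nat_lit 100) (nat_lit 5) (nat_lit 107) (nat_lit 5) (nat_lit 101) (nat_lit 5) (nat_lit 404) (nat_lit 383) (nat_lit 77)) (XT.nd (nat_lit 94) (nat_lit 588) (nat_lit 0) (XT.lf (nat_lit 0) (nat_lit 17567888126) (nat_lit 588) (nat_lit 9190769245) (nat_lit 84) (nat_lit 82030579696) (nat_lit 100) (nat_lit 5) (nat_lit 107) (nat_lit 5) (nat_lit 101) (nat_lit 5) (nat_lit 405) (nat_lit 383) (nat_lit 76)) (XT.lf (nat_lit 0) (nat_lit 24762704286) (nat_lit 672) (nat_lit 75930002850) (nat_lit 84) (nat_lit 10116781275) (nat_lit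 93) (nat_lit 5) (nat_lit 101) (nat_lit 5) (nat_lit 94) (nat_lit 5) (nat_lit 406) (nat_lit 383) (nat_lit 75)))) (XT.nd (nat_lit 94) (nat_lit 504) (nat_lit 0) (XT.lf (nat_lit 0) (nat_lit 32550933214) (nat_lit 672) (nat_lit 32653503637) (nat_lit 84) (nat_lit 47676449870) (nat_lit 93) (nat_lit 5) (nat_lit 101) (nat_lit 5) (nat_lit 94) (nat_lit 5) (nat_lit 407) (nat_lit 383) (nat_lit 74)) (XT.nd (nat_lit 94) (nat_lit 0) (nat_lit 0) (XT.lf (nat_lit 0) (nat_lit 12210376732) (nat_lit 504) (nat_lit 28491136927) (nat_lit 588) (nat_lit 74311237039) (nat_lit 87) (nat_lit 5) (nat_lit 93) (nat_lit 5) (nat_lit 94) (nat_lit 5) (nat_lit 408) (nat_lit 383) (nat_lit 73)) (XT.lf (nat_lit 0) (nat_lit 49541731178) (nat_lit 588) (nat_lit 58139410450) (nat_lit 84) (nat_lit 9516015496) (nat_lit 87) (nat_lit 5) (nat_lit 94) (nat_lit 5) (nat_lit 88) (nat_lit 5) (nat_lit 409) (nat_lit 383) (nat_lit 72))))) (XT.nd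 (nat_lit 51888) (nat_lit 0) (nat_lit 2772) (XT.nd (nat_lit 94) (nat_lit 504) (nat_lit 0) (XT.lf (nat_lit 0) (nat_lit 58947191427) (nat_lit 588) (nat_lit 12383493509) (nat_lit 84) (nat_lit 48109568824) (nat_lit 87) (nat_lit 5) (nat_lit 94) (nat_lit 5) (nat_lit 88) (nat_lit 5) (nat_lit 410) (nat_lit 383) (nat_lit 71)) (XT.nd (nat_lit 51700) (nat_lit 0) (nat_lit 2772) (XT.lf (nat_lit 0) (nat_lit 35506029129) (nat_lit 504) (nat_lit 33490220750) (nat_lit 588) (nat_lit 52745724280) (nat_lit 81) (nat_lit 5) (nat_lit 87) (nat_lit 5) (nat_lit 88) (nat_lit 5) (nat_lit 411) (nat_lit 383) (nat_lit 70)) (XT.lf (nat_lit 0) (nat_lit 8902315023) (nat_lit 0) (nat_lit 8902315023) (nat_lit 1092) (nat_lit 20940229780) (nat_lit 114) (nat_lit 5) (nat_lit 114) (nat_lit 3) (nat_lit 127) (nat_lit 3) (nat_lit 384) (nat_lit 384) (nat_lit 96)))) (XT.nd (nat_lit 94) (nat_lit 0) (nat_lit 0) (XT.lf (nat_lit 0) (nat_lit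 36294063592) (nat_lit 1092) (nat_lit 30204429641) (nat_lit 1176) (nat_lit 12188162998) (nat_lit 114) (nat_lit 5) (nat_lit 127) (nat_lit 3) (nat_lit 128) (nat_lit 5) (nat_lit 385) (nat_lit 384) (nat_lit 95)) (XT.nd (nat_lit 94) (nat_lit 0) (nat_lit 0) (XT.lf (nat_lit 84) (nat_lit 7986352) (nat_lit 0) (nat_lit 37173908820) (nat_lit 1176) (nat_lit 42733168324) (nat_lit 115) (nat_lit 5) (nat_lit 114) (nat_lit 5) (nat_lit 128) (nat_lit 5) (nat_lit 386) (nat_lit 384) (nat_lit 94)) (XT.lf (nat_lit 84) (nat_lit 31797101504) (nat_lit 0) (nat_lit 6615050178) (nat_lit 1176) (nat_lit 42759639121) (nat_lit 115) (nat_lit 5) (nat_lit 114) (nat_lit 5) (nat_lit 128) (nat_lit 5) (nat_lit 387) (nat_lit 384) (nat_lit 93)))))) (XT.nd (nat_lit 564) (nat_lit 0) (nat_lit 168) (XT.nd (nat_lit 282) (nat_lit 0) (nat_lit 84) (XT.nd (nat_lit 94) (nat_lit 0) (nat_lit 0) (XT.lf (nat_lit 0) (nat_lit 39927111852) (nat_lit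 1092) (nat_lit 18142932272) (nat_lit 1176) (nat_lit 24389790339) (nat_lit 115) (nat_lit 5) (nat_lit 128) (nat_lit 5) (nat_lit 129) (nat_lit 5) (nat_lit 388) (nat_lit 384) (nat_lit 92)) (XT.nd (nat_lit 94) (nat_lit 0) (nat_lit 84) (XT.lf (nat_lit 84) (nat_lit 14276793029) (nat_lit 0) (nat_lit 27421180044) (nat_lit 1176) (nat_lit 42083358649) (nat_lit 116) (nat_lit 5) (nat_lit 115) (nat_lit 5) (nat_lit 129) (nat_lit 5) (nat_lit 389) (nat_lit 384) (nat_lit 91)) (XT.lf (nat_lit 0) (nat_lit 43756150216) (nat_lit 1092) (nat_lit 37095371831) (nat_lit 1176) (nat_lit 4285069617) (nat_lit 116) (nat_lit 5) (nat_lit 129) (nat_lit 5) (nat_lit 130) (nat_lit 5) (nat_lit 390) (nat_lit 384) (nat_lit 90)))) (XT.nd (nat_lit 94) (nat_lit 0) (nat_lit 0) (XT.lf (nat_lit 0) (nat_lit 46158258226) (nat_lit 1092) (nat_lit 3962184820) (nat_lit 1176) (nat_lit 36404738895) (nat_lit 116) (nat_lit 5) (nat_lit 129)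 (nat_lit 5) (nat_lit 130) (nat_lit 5) (nat_lit 391) (nat_lit 384) (nat_lit 89)) (XT.nd (nat_lit 94) (nat_lit 0) (nat_lit 84) (XT.lf (nat_lit 84) (nat_lit 30818858763) (nat_lit 0) (nat_lit 18121382748) (nat_lit 1176) (nat_lit 39007110485) (nat_lit 117) (nat_lit 5) (nat_lit 116) (nat_lit 5) (nat_lit 130) (nat_lit 5) (nat_lit 392) (nat_lit 384) (nat_lit 88)) (XT.lf (nat_lit 0) (nat_lit 51997446738) (nat_lit 1092) (nat_lit 22798361361) (nat_lit 1176) (nat_lit 14611943983) (nat_lit 117) (nat_lit 5) (nat_lit 130) (nat_lit 5) (nat_lit 131) (nat_lit 5) (nat_lit 393) (nat_lit 384) (nat_lit 87))))) (XT.nd (nat_lit 282) (nat_lit 0) (nat_lit 84) (XT.nd (nat_lit 94) (nat_lit 0) (nat_lit 0) (XT.lf (nat_lit 84) (nat_lit 12665643075) (nat_lit 0) (nat_lit 42794467025) (nat_lit 1176) (nat_lit 35443684361) (nat_lit 118) (nat_lit 5) (nat_lit 117) (nat_lit 5) (nat_lit 131) (nat_lit 5) (nat_lit 394) (nat_lit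 384) (nat_lit 86)) (XT.nd (nat_lit 94) (nat_lit 0) (nat_lit 84) (XT.lf (nat_lit 84) (nat_lit 49712140135) (nat_lit 0) (nat_lit 9555651894) (nat_lit 1176) (nat_lit 33171055251) (nat_lit 118) (nat_lit 5) (nat_lit 117) (nat_lit 5) (nat_lit 131) (nat_lit 5) (nat_lit 395) (nat_lit 384) (nat_lit 85)) (XT.lf (nat_lit 0) (nat_lit 63438391234) (nat_lit 1092) (nat_lit 6359779085) (nat_lit 1176) (nat_lit 24215726218) (nat_lit 118) (nat_lit 5) (nat_lit 131) (nat_lit 5) (nat_lit 132) (nat_lit 5) (nat_lit 396) (nat_lit 384) (nat_lit 84)))) (XT.nd (nat_lit 94) (nat_lit 0) (nat_lit 0) (XT.lf (nat_lit 84) (nat_lit 31674764807) (nat_lit 0) (nat_lit 36475189622) (nat_lit 1176) (nat_lit 27475056973) (nat_lit 119) (nat_lit 5) (nat_lit 118) (nat_lit 5) (nat_lit 132) (nat_lit 5) (nat_lit 397) (nat_lit 384) (nat_lit 83)) (XT.nd (nat_lit 94) (nat_lit 0) (nat_lit 84) (XT.lf (nat_lit 84) (nat_lit 71023002573)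 (nat_lit 0) (nat_lit 2050688795) (nat_lit 1176) (nat_lit 24210330876) (nat_lit 119) (nat_lit 5) (nat_lit 118) (nat_lit 5) (nat_lit 132) (nat_lit 5) (nat_lit 398) (nat_lit 384) (nat_lit 82)) (XT.lf (nat_lit 84) (nat_lit 12516816084) (nat_lit 0) (nat_lit 66088895938) (nat_lit 1176) (nat_lit 20374626275) (nat_lit 120) (nat_lit 5) (nat_lit 119) (nat_lit 5) (nat_lit 133) (nat_lit 5) (nat_lit 399) (nat_lit 384) (nat_lit 81))))))) (XT.nd (nat_lit 52828) (nat_lit 0) (nat_lit 2268) (XT.nd (nat_lit 564) (nat_lit 1092) (nat_lit 0) (XT.nd (nat_lit 282) (nat_lit 588) (nat_lit 0) (XT.nd (nat_lit 94) (nat_lit 1008) (nat_lit 0) (XT.lf (nat_lit 84) (nat_lit 53031877078) (nat_lit 0) (nat_lit 31571967515) (nat_lit 1176) (nat_lit 16116263288) (nat_lit 120) (nat_lit 5) (nat_lit 119) (nat_lit 5) (nat_lit 133) (nat_lit 5) (nat_lit 400) (nat_lit 384) (nat_lit 80)) (XT.nd (nat_lit 94) (nat_lit 1092) (nat_lit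 0) (XT.lf (nat_lit 0) (nat_lit 90827503243) (nat_lit 1092) (nat_lit 7750939937) (nat_lit 84) (nat_lit 3934140943) (nat_lit 120) (nat_lit 5) (nat_lit 133) (nat_lit 5) (nat_lit 121) (nat_lit 5) (nat_lit 401) (nat_lit 384) (nat_lit 79)) (XT.lf (nat_lit 0) (nat_lit 33781931373) (nat_lit 1092) (nat_lit 64119954022) (nat_lit 1176) (nat_lit 6438351115) (nat_lit 107) (nat_lit 5) (nat_lit 120) (nat_lit 5) (nat_lit 121) (nat_lit 5) (nat_lit 402) (nat_lit 384) (nat_lit 78)))) (XT.nd (nat_lit 94) (nat_lit 588) (nat_lit 0) (XT.lf (nat_lit 0) (nat_lit 76766440321) (nat_lit 1092) (nat_lit 28509804369) (nat_lit 1176) (nat_lit 945801470) (nat_lit 107) (nat_lit 5) (nat_lit 120) (nat_lit 5) (nat_lit 121) (nat_lit 5) (nat_lit 403) (nat_lit 384) (nat_lit 77)) (XT.nd (nat_lit 94) (nat_lit 0) (nat_lit 0) (XT.lf (nat_lit 0) (nat_lit 4835290934) (nat_lit 588) (nat_lit 95100899219) (nat_lit 84) (nat_lit 8217939317)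 (nat_lit 100) (nat_lit 5) (nat_lit 107) (nat_lit 5) (nat_lit 101) (nat_lit 5) (nat_lit 404) (nat_lit 384) (nat_lit 76)) (XT.lf (nat_lit 0) (nat_lit 11377916074) (nat_lit 588) (nat_lit 52936901513) (nat_lit 84) (nat_lit 45812329750) (nat_lit 100) (nat_lit 5) (nat_lit 107) (nat_lit 5) (nat_lit 101) (nat_lit 5) (nat_lit 405) (nat_lit 384) (nat_lit 75))))) (XT.nd (nat_lit 282) (nat_lit 504) (nat_lit 0) (XT.nd (nat_lit 94) (nat_lit 588) (nat_lit 0) (XT.lf (nat_lit 0) (nat_lit 18123145806) (nat_lit 588) (nat_lit 9466016588) (nat_lit 84) (nat_lit 84572173836) (nat_lit 100) (nat_lit 5) (nat_lit 107) (nat_lit 5) (nat_lit 101) (nat_lit 5) (nat_lit 406) (nat_lit 384) (nat_lit 74)) (XT.nd (nat_lit 94) (nat_lit 0) (nat_lit 0) (XT.lf (nat_lit 0) (nat_lit 25540767349) (nat_lit 672) (nat_lit 78273896688) (nat_lit 84) (nat_lit 10429559691) (nat_lit 93) (nat_lit 5) (nat_lit 101) (nat_lit 5) (nat_lit 94)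 (nat_lit 5) (nat_lit 407) (nat_lit 384) (nat_lit 73)) (XT.lf (nat_lit 0) (nat_lit 33570118089) (nat_lit 672) (nat_lit 33656124761) (nat_lit 84) (nat_lit 49153603324) (nat_lit 93) (nat_lit 5) (nat_lit 101) (nat_lit 5) (nat_lit 94) (nat_lit 5) (nat_lit 408) (nat_lit 384) (nat_lit 72)))) (XT.nd (nat_lit 94) (nat_lit 0) (nat_lit 0) (XT.lf (nat_lit 0) (nat_lit 12598438328) (nat_lit 504) (nat_lit 29374718972) (nat_lit 588) (nat_lit 76604648165) (nat_lit 87) (nat_lit 5) (nat_lit 93) (nat_lit 5) (nat_lit 94) (nat_lit 5) (nat_lit 409) (nat_lit 384) (nat_lit 71)) (XT.nd (nat_lit 94) (nat_lit 0) (nat_lit 0) (XT.lf (nat_lit 0) (nat_lit 51087120556) (nat_lit 588) (nat_lit 59932145402) (nat_lit 84) (nat_lit 9810672877) (nat_lit 87) (nat_lit 5) (nat_lit 94) (nat_lit 5) (nat_lit 88) (nat_lit 5) (nat_lit 410) (nat_lit 384) (nat_lit 70)) (XT.lf (nat_lit 0) (nat_lit 60783861550) (nat_lit 588) (nat_lit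 12758083290) (nat_lit 84) (nat_lit 49600636554) (nat_lit 87) (nat_lit 5) (nat_lit 94) (nat_lit 5) (nat_lit 88) (nat_lit 5) (nat_lit 411) (nat_lit 384) (nat_lit 69)))))) (XT.nd (nat_lit 564) (nat_lit 0) (nat_lit 168) (XT.nd (nat_lit 282) (nat_lit 0) (nat_lit 0) (XT.nd (nat_lit 94) (nat_lit 0) (nat_lit 0) (XT.lf (nat_lit 0) (nat_lit 9182972720) (nat_lit 0) (nat_lit 9182972720) (nat_lit 1092) (nat_lit 21579679447) (nat_lit 114) (nat_lit 5) (nat_lit 114) (nat_lit 3) (nat_lit 127) (nat_lit 3) (nat_lit 385) (nat_lit 385) (nat_lit 94)) (XT.nd (nat_lit 94) (nat_lit 0) (nat_lit 0) (XT.lf (nat_lit 0) (nat_lit 37437269529) (nat_lit 1092) (nat_lit 31130955106) (nat_lit 1176) (nat_lit 12557089126) (nat_lit 114) (nat_lit 5) (nat_lit 127) (nat_lit 3) (nat_lit 128) (nat_lit 5) (nat_lit 386) (nat_lit 385) (nat_lit 93)) (XT.lf (nat_lit 84) (nat_lit 17946445) (nat_lit 0) (nat_lit 38334229864) (nat_lit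 1176) (nat_lit 44039641262) (nat_lit 115) (nat_lit 5) (nat_lit 114) (nat_lit 5) (nat_lit 128) (nat_lit 5) (nat_lit 387) (nat_lit 385) (nat_lit 92)))) (XT.nd (nat_lit 94) (nat_lit 0) (nat_lit 84) (XT.lf (nat_lit 84) (nat_lit 32792232133) (nat_lit 0) (nat_lit 6827808170) (nat_lit 1176) (nat_lit 44067481551) (nat_lit 115) (nat_lit 5) (nat_lit 114) (nat_lit 5) (nat_lit 128) (nat_lit 5) (nat_lit 388) (nat_lit 385) (nat_lit 91)) (XT.nd (nat_lit 94) (nat_lit 0) (nat_lit 0) (XT.lf (nat_lit 0) (nat_lit 41181375712) (nat_lit 1092) (nat_lit 18695575349) (nat_lit 1176) (nat_lit 25138563974) (nat_lit 115) (nat_lit 5) (nat_lit 128) (nat_lit 5) (nat_lit 129) (nat_lit 5) (nat_lit 389) (nat_lit 385) (nat_lit 90)) (XT.lf (nat_lit 84) (nat_lit 14729062344) (nat_lit 0) (nat_lit 28277670578) (nat_lit 1176) (nat_lit 43371260077) (nat_lit 116) (nat_lit 5) (nat_lit 115) (nat_lit 5) (nat_lit 129) (nat_lit 5)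 (nat_lit 390) (nat_lit 385) (nat_lit 89))))) (XT.nd (nat_lit 282) (nat_lit 0) (nat_lit 84) (XT.nd (nat_lit 94) (nat_lit 0) (nat_lit 0) (XT.lf (nat_lit 0) (nat_lit 45128166874) (nat_lit 1092) (nat_lit 38235325871) (nat_lit 1176) (nat_lit 4411792010) (nat_lit 116) (nat_lit 5) (nat_lit 129) (nat_lit 5) (nat_lit 130) (nat_lit 5) (nat_lit 391) (nat_lit 385) (nat_lit 88)) (XT.nd (nat_lit 94) (nat_lit 0) (nat_lit 0) (XT.lf (nat_lit 0) (nat_lit 47604271895) (nat_lit 1092) (nat_lit 4075310816) (nat_lit 1176) (nat_lit 37527354894) (nat_lit 116) (nat_lit 5) (nat_lit 129) (nat_lit 5) (nat_lit 130) (nat_lit 5) (nat_lit 392) (nat_lit 385) (nat_lit 87)) (XT.lf (nat_lit 84) (nat_lit 31783846897) (nat_lit 0) (nat_lit 18688290777) (nat_lit 1176) (nat_lit 40201070090) (nat_lit 117) (nat_lit 5) (nat_lit 116) (nat_lit 5) (nat_lit 130) (nat_lit 5) (nat_lit 393) (nat_lit 385) (nat_lit 86)))) (XT.nd (nat_lit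 94) (nat_lit 0) (nat_lit 0) (XT.lf (nat_lit 0) (nat_lit 53623623296) (nat_lit 1092) (nat_lit 23495249558) (nat_lit 1176) (nat_lit 15060024333) (nat_lit 117) (nat_lit 5) (nat_lit 130) (nat_lit 5) (nat_lit 131) (nat_lit 5) (nat_lit 394) (nat_lit 385) (nat_lit 85)) (XT.nd (nat_lit 94) (nat_lit 0) (nat_lit 0) (XT.lf (nat_lit 84) (nat_lit 13068039181) (nat_lit 0) (nat_lit 44125258233) (nat_lit 1176) (nat_lit 36528031352) (nat_lit 118) (nat_lit 5) (nat_lit 117) (nat_lit 5) (nat_lit 131) (nat_lit 5) (nat_lit 395) (nat_lit 385) (nat_lit 84)) (XT.lf (nat_lit 84) (nat_lit 51262684153) (nat_lit 0) (nat_lit 9855914668) (nat_lit 1176) (nat_lit 34185383935) (nat_lit 118) (nat_lit 5) (nat_lit 117) (nat_lit 5) (nat_lit 131) (nat_lit 5) (nat_lit 396) (nat_lit 385) (nat_lit 83))))))))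
noncomputable def xc246 : XT := (XT.nd (nat_lit 54050) (nat_lit 0) (nat_lit 0) (XT.nd (nat_lit 1128) (nat_lit 504) (nat_lit 0) (XT.nd (nat_lit 564) (nat_lit 2100) (nat_lit 0) (XT.nd (nat_lit 282) (nat_lit 0) (nat_lit 84) (XT.nd (nat_lit 94) (nat_lit 0) (nat_lit 0) (XT.lf (nat_lit 0) (nat_lit 65418041678) (nat_lit 1092) (nat_lit 6547255693) (nat_lit 1176) (nat_lit 24962576469) (nat_lit 118) (nat_lit 5) (nat_lit 131) (nat_lit 5) (nat_lit 132) (nat_lit 5) (nat_lit 397) (nat_lit 385) (nat_lit 82)) (XT.nd (nat_lit 94) (nat_lit 0) (nat_lit 0) (XT.lf (nat_lit 84) (nat_lit 32666261094) (nat_lit 0) (nat_lit 37609104563) (nat_lit 1176) (nat_lit 28313578298) (nat_lit 119) (nat_lit 5) (nat_lit 118) (nat_lit 5) (nat_lit 132) (nat_lit 5) (nat_lit 398) (nat_lit 385) (nat_lit 81)) (XT.lf (nat_lit 84) (nat_lit 73234006223) (nat_lit 0) (nat_lit 2117348472) (nat_lit 1176) (nat_lit 24948042752) (nat_lit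 119) (nat_lit 5) (nat_lit 118) (nat_lit 5) (nat_lit 132) (nat_lit 5) (nat_lit 399) (nat_lit 385) (nat_lit 80)))) (XT.nd (nat_lit 94) (nat_lit 0) (nat_lit 0) (XT.lf (nat_lit 84) (nat_lit 12914489358) (nat_lit 0) (nat_lit 68140072457) (nat_lit 1176) (nat_lit 20993748349) (nat_lit 120) (nat_lit 5) (nat_lit 119) (nat_lit 5) (nat_lit 133) (nat_lit 5) (nat_lit 400) (nat_lit 385) (nat_lit 79)) (XT.nd (nat_lit 94) (nat_lit 0) (nat_lit 84) (XT.lf (nat_lit 84) (nat_lit 54685227028) (nat_lit 0) (nat_lit 32553046467) (nat_lit 1176) (nat_lit 16603751698) (nat_lit 120) (nat_lit 5) (nat_lit 119) (nat_lit 5) (nat_lit 133) (nat_lit 5) (nat_lit 401) (nat_lit 385) (nat_lit 78)) (XT.lf (nat_lit 0) (nat_lit 93654490884) (nat_lit 1092) (nat_lit 7981722387) (nat_lit 84) (nat_lit 4053867835) (nat_lit 120) (nat_lit 5) (nat_lit 133) (nat_lit 5) (nat_lit 121) (nat_lit 5) (nat_lit 402) (nat_lit 385) (nat_lit 77)))))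 (XT.nd (nat_lit 282) (nat_lit 588) (nat_lit 0) (XT.nd (nat_lit 94) (nat_lit 588) (nat_lit 0) (XT.lf (nat_lit 0) (nat_lit 34838571788) (nat_lit 1092) (nat_lit 66109359529) (nat_lit 1176) (nat_lit 6626468330) (nat_lit 107) (nat_lit 5) (nat_lit 120) (nat_lit 5) (nat_lit 121) (nat_lit 5) (nat_lit 403) (nat_lit 385) (nat_lit 76)) (XT.nd (nat_lit 94) (nat_lit 588) (nat_lit 0) (XT.lf (nat_lit 0) (nat_lit 79155317859) (nat_lit 1092) (nat_lit 29395244515) (nat_lit 1176) (nat_lit 963994576) (nat_lit 107) (nat_lit 5) (nat_lit 120) (nat_lit 5) (nat_lit 121) (nat_lit 5) (nat_lit 404) (nat_lit 385) (nat_lit 75)) (XT.lf (nat_lit 0) (nat_lit 4995838101) (nat_lit 588) (nat_lit 98039360591) (nat_lit 84) (nat_lit 8471341605) (nat_lit 100) (nat_lit 5) (nat_lit 107) (nat_lit 5) (nat_lit 101) (nat_lit 5) (nat_lit 405) (nat_lit 385) (nat_lit 74)))) (XT.nd (nat_lit 94) (nat_lit 588) (nat_lit 0) (XT.lf (nat_lit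 0) (nat_lit 11740964303) (nat_lit 588) (nat_lit 54568569608) (nat_lit 84) (nat_lit 47231198848) (nat_lit 100) (nat_lit 5) (nat_lit 107) (nat_lit 5) (nat_lit 101) (nat_lit 5) (nat_lit 406) (nat_lit 385) (nat_lit 73)) (XT.nd (nat_lit 94) (nat_lit 588) (nat_lit 0) (XT.lf (nat_lit 0) (nat_lit 18694985470) (nat_lit 588) (nat_lit 9750369162) (nat_lit 84) (nat_lit 87192637584) (nat_lit 100) (nat_lit 5) (nat_lit 107) (nat_lit 5) (nat_lit 101) (nat_lit 5) (nat_lit 407) (nat_lit 385) (nat_lit 72)) (XT.lf (nat_lit 0) (nat_lit 26342333217) (nat_lit 672) (nat_lit 80691039776) (nat_lit 84) (nat_lit 10752084099) (nat_lit 93) (nat_lit 5) (nat_lit 101) (nat_lit 5) (nat_lit 94) (nat_lit 5) (nat_lit 408) (nat_lit 385) (nat_lit 71)))))) (XT.nd (nat_lit 52358) (nat_lit 0) (nat_lit 2268) (XT.nd (nat_lit 52076) (nat_lit 0) (nat_lit 2268) (XT.nd (nat_lit 94) (nat_lit 504) (nat_lit 0) (XT.lf (nat_lit 0) (nat_lit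 34620299102) (nat_lit 672) (nat_lit 34690397985) (nat_lit 84) (nat_lit 50676596897) (nat_lit 93) (nat_lit 5) (nat_lit 101) (nat_lit 5) (nat_lit 94) (nat_lit 5) (nat_lit 409) (nat_lit 385) (nat_lit 70)) (XT.nd (nat_lit 94) (nat_lit 0) (nat_lit 0) (XT.lf (nat_lit 0) (nat_lit 12997964768) (nat_lit 504) (nat_lit 30285670926) (nat_lit 588) (nat_lit 78969761404) (nat_lit 87) (nat_lit 5) (nat_lit 93) (nat_lit 5) (nat_lit 94) (nat_lit 5) (nat_lit 410) (nat_lit 385) (nat_lit 69)) (XT.lf (nat_lit 0) (nat_lit 52679848634) (nat_lit 588) (nat_lit 61781022979) (nat_lit 84) (nat_lit 10114484722) (nat_lit 87) (nat_lit 5) (nat_lit 94) (nat_lit 5) (nat_lit 88) (nat_lit 5) (nat_lit 411) (nat_lit 385) (nat_lit 68)))) (XT.nd (nat_lit 94) (nat_lit 0) (nat_lit 0) (XT.lf (nat_lit 0) (nat_lit 9472053250) (nat_lit 0) (nat_lit 9472053250) (nat_lit 1092) (nat_lit 22239526450) (nat_lit 114) (nat_lit 5) (nat_lit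 114) (nat_lit 3) (nat_lit 127) (nat_lit 3) (nat_lit 386) (nat_lit 386) (nat_lit 92)) (XT.nd (nat_lit 94) (nat_lit 0) (nat_lit 0) (XT.lf (nat_lit 0) (nat_lit 38614843351) (nat_lit 1092) (nat_lit 32086784034) (nat_lit 1176) (nat_lit 12937979536) (nat_lit 114) (nat_lit 5) (nat_lit 127) (nat_lit 3) (nat_lit 128) (nat_lit 5) (nat_lit 387) (nat_lit 386) (nat_lit 91)) (XT.lf (nat_lit 84) (nat_lit 27640013) (nat_lit 0) (nat_lit 39530051161) (nat_lit 1176) (nat_lit 45387696152) (nat_lit 115) (nat_lit 5) (nat_lit 114) (nat_lit 5) (nat_lit 128) (nat_lit 5) (nat_lit 388) (nat_lit 386) (nat_lit 90))))) (XT.nd (nat_lit 282) (nat_lit 0) (nat_lit 168) (XT.nd (nat_lit 94) (nat_lit 0) (nat_lit 84) (XT.lf (nat_lit 84) (nat_lit 33817653820) (nat_lit 0) (nat_lit 7046706083) (nat_lit 1176) (nat_lit 45416915876) (nat_lit 115) (nat_lit 5) (nat_lit 114) (nat_lit 5) (nat_lit 128) (nat_lit 5) (nat_lit 389) (nat_lit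 386) (nat_lit 89)) (XT.nd (nat_lit 94) (nat_lit 0) (nat_lit 0) (XT.lf (nat_lit 0) (nat_lit 42473543044) (nat_lit 1092) (nat_lit 19265930111) (nat_lit 1176) (nat_lit 25910982568) (nat_lit 115) (nat_lit 5) (nat_lit 128) (nat_lit 5) (nat_lit 129) (nat_lit 5) (nat_lit 390) (nat_lit 386) (nat_lit 88)) (XT.lf (nat_lit 84) (nat_lit 15194778127) (nat_lit 0) (nat_lit 29160331224) (nat_lit 1176) (nat_lit 44700074593) (nat_lit 116) (nat_lit 5) (nat_lit 115) (nat_lit 5) (nat_lit 129) (nat_lit 5) (nat_lit 391) (nat_lit 386) (nat_lit 87)))) (XT.nd (nat_lit 94) (nat_lit 0) (nat_lit 0) (XT.lf (nat_lit 0) (nat_lit 46541793456) (nat_lit 1092) (nat_lit 39411210951) (nat_lit 1176) (nat_lit 4542804986) (nat_lit 116) (nat_lit 5) (nat_lit 129) (nat_lit 5) (nat_lit 130) (nat_lit 5) (nat_lit 392) (nat_lit 386) (nat_lit 86)) (XT.nd (nat_lit 94) (nat_lit 0) (nat_lit 0) (XT.lf (nat_lit 0) (nat_lit 49094217134)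 (nat_lit 1092) (nat_lit 4192518369) (nat_lit 1176) (nat_lit 38685123287) (nat_lit 116) (nat_lit 5) (nat_lit 129) (nat_lit 5) (nat_lit 130) (nat_lit 5) (nat_lit 393) (nat_lit 386) (nat_lit 85)) (XT.lf (nat_lit 84) (nat_lit 32778180830) (nat_lit 0) (nat_lit 19272468199) (nat_lit 1176) (nat_lit 41432946367) (nat_lit 117) (nat_lit 5) (nat_lit 116) (nat_lit 5) (nat_lit 130) (nat_lit 5) (nat_lit 394) (nat_lit 386) (nat_lit 84))))))) (XT.nd (nat_lit 1128) (nat_lit 1092) (nat_lit 0) (XT.nd (nat_lit 564) (nat_lit 1428) (nat_lit 0) (XT.nd (nat_lit 282) (nat_lit 0) (nat_lit 84) (XT.nd (nat_lit 94) (nat_lit 0) (nat_lit 0) (XT.lf (nat_lit 0) (nat_lit 55299366936) (nat_lit 1092) (nat_lit 24214325373) (nat_lit 1176) (nat_lit 15522284812) (nat_lit 117) (nat_lit 5) (nat_lit 130) (nat_lit 5) (nat_lit 131) (nat_lit 5) (nat_lit 395) (nat_lit 386) (nat_lit 83)) (XT.nd (nat_lit 94) (nat_lit 0) (nat_lit 0)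 (XT.lf (nat_lit 84) (nat_lit 13482331397) (nat_lit 0) (nat_lit 45497057402) (nat_lit 1176) (nat_lit 37646846465) (nat_lit 118) (nat_lit 5) (nat_lit 117) (nat_lit 5) (nat_lit 131) (nat_lit 5) (nat_lit 396) (nat_lit 386) (nat_lit 82)) (XT.lf (nat_lit 84) (nat_lit 52860734249) (nat_lit 0) (nat_lit 10165246437) (nat_lit 1176) (nat_lit 35231984513) (nat_lit 118) (nat_lit 5) (nat_lit 117) (nat_lit 5) (nat_lit 131) (nat_lit 5) (nat_lit 397) (nat_lit 386) (nat_lit 81)))) (XT.nd (nat_lit 94) (nat_lit 0) (nat_lit 0) (XT.lf (nat_lit 0) (nat_lit 67458287701) (nat_lit 1092) (nat_lit 6741117234) (nat_lit 1176) (nat_lit 25732806364) (nat_lit 118) (nat_lit 5) (nat_lit 131) (nat_lit 5) (nat_lit 132) (nat_lit 5) (nat_lit 398) (nat_lit 386) (nat_lit 80)) (XT.nd (nat_lit 94) (nat_lit 0) (nat_lit 0) (XT.lf (nat_lit 84) (nat_lit 33687926410) (nat_lit 0) (nat_lit 38777982270) (nat_lit 1176) (nat_lit 29178875966)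 (nat_lit 119) (nat_lit 5) (nat_lit 118) (nat_lit 5) (nat_lit 132) (nat_lit 5) (nat_lit 399) (nat_lit 386) (nat_lit 79)) (XT.lf (nat_lit 84) (nat_lit 75513000689) (nat_lit 0) (nat_lit 2185891673) (nat_lit 1176) (nat_lit 25709382359) (nat_lit 119) (nat_lit 5) (nat_lit 118) (nat_lit 5) (nat_lit 132) (nat_lit 5) (nat_lit 400) (nat_lit 386) (nat_lit 78))))) (XT.nd (nat_lit 282) (nat_lit 1596) (nat_lit 0) (XT.nd (nat_lit 94) (nat_lit 0) (nat_lit 0) (XT.lf (nat_lit 84) (nat_lit 13323918801) (nat_lit 0) (nat_lit 70254692064) (nat_lit 1176) (nat_lit 21632803091) (nat_lit 120) (nat_lit 5) (nat_lit 119) (nat_lit 5) (nat_lit 133) (nat_lit 5) (nat_lit 401) (nat_lit 386) (nat_lit 77)) (XT.nd (nat_lit 94) (nat_lit 0) (nat_lit 84) (XT.lf (nat_lit 84) (nat_lit 56389276314) (nat_lit 0) (nat_lit 33564399792) (nat_lit 1176) (nat_lit 17107069885) (nat_lit 120) (nat_lit 5) (nat_lit 119) (nat_lit 5) (nat_lit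 133) (nat_lit 5) (nat_lit 402) (nat_lit 386) (nat_lit 76)) (XT.lf (nat_lit 0) (nat_lit 96568443749) (nat_lit 1092) (nat_lit 8220221598) (nat_lit 84) (nat_lit 4177438435) (nat_lit 120) (nat_lit 5) (nat_lit 133) (nat_lit 5) (nat_lit 121) (nat_lit 5) (nat_lit 403) (nat_lit 386) (nat_lit 75)))) (XT.nd (nat_lit 94) (nat_lit 588) (nat_lit 0) (XT.lf (nat_lit 0) (nat_lit 35927411246) (nat_lit 1092) (nat_lit 68160336687) (nat_lit 1176) (nat_lit 6821096666) (nat_lit 107) (nat_lit 5) (nat_lit 120) (nat_lit 5) (nat_lit 121) (nat_lit 5) (nat_lit 404) (nat_lit 386) (nat_lit 74)) (XT.nd (nat_lit 94) (nat_lit 588) (nat_lit 0) (XT.lf (nat_lit 0) (nat_lit 81617710533) (nat_lit 1092) (nat_lit 30308036389) (nat_lit 1176) (nat_lit 983410724) (nat_lit 107) (nat_lit 5) (nat_lit 120) (nat_lit 5) (nat_lit 121) (nat_lit 5) (nat_lit 405) (nat_lit 386) (nat_lit 73)) (XT.lf (nat_lit 0) (nat_lit 5160731226) (nat_lit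 588) (nat_lit 101069486829) (nat_lit 84) (nat_lit 8732679553) (nat_lit 100) (nat_lit 5) (nat_lit 107) (nat_lit 5) (nat_lit 101) (nat_lit 5) (nat_lit 406) (nat_lit 386) (nat_lit 72)))))) (XT.nd (nat_lit 52452) (nat_lit 0) (nat_lit 2268) (XT.nd (nat_lit 282) (nat_lit 504) (nat_lit 0) (XT.nd (nat_lit 94) (nat_lit 588) (nat_lit 0) (XT.lf (nat_lit 0) (nat_lit 12114654995) (nat_lit 588) (nat_lit 56251374761) (nat_lit 84) (nat_lit 48694130667) (nat_lit 100) (nat_lit 5) (nat_lit 107) (nat_lit 5) (nat_lit 101) (nat_lit 5) (nat_lit 407) (nat_lit 386) (nat_lit 71)) (XT.nd (nat_lit 94) (nat_lit 588) (nat_lit 0) (XT.lf (nat_lit 0) (nat_lit 19283958534) (nat_lit 588) (nat_lit 10044075315) (nat_lit 84) (nat_lit 89894411148) (nat_lit 100) (nat_lit 5) (nat_lit 107) (nat_lit 5) (nat_lit 101) (nat_lit 5) (nat_lit 408) (nat_lit 386) (nat_lit 70)) (XT.lf (nat_lit 0) (nat_lit 27168167034) (nat_lit 672) (nat_lit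 83183667980) (nat_lit 84) (nat_lit 11084653672) (nat_lit 93) (nat_lit 5) (nat_lit 101) (nat_lit 5) (nat_lit 94) (nat_lit 5) (nat_lit 409) (nat_lit 386) (nat_lit 69)))) (XT.nd (nat_lit 94) (nat_lit 504) (nat_lit 0) (XT.lf (nat_lit 0) (nat_lit 35702472590) (nat_lit 672) (nat_lit 35757270712) (nat_lit 84) (nat_lit 52246848768) (nat_lit 93) (nat_lit 5) (nat_lit 101) (nat_lit 5) (nat_lit 94) (nat_lit 5) (nat_lit 410) (nat_lit 386) (nat_lit 68)) (XT.nd (nat_lit 51982) (nat_lit 0) (nat_lit 2268) (XT.lf (nat_lit 0) (nat_lit 13409344932) (nat_lit 504) (nat_lit 31224842509) (nat_lit 588) (nat_lit 81408763605) (nat_lit 87) (nat_lit 5) (nat_lit 93) (nat_lit 5) (nat_lit 94) (nat_lit 5) (nat_lit 411) (nat_lit 386) (nat_lit 67)) (XT.lf (nat_lit 0) (nat_lit 9769834160) (nat_lit 0) (nat_lit 9769834160) (nat_lit 1092) (nat_lit 22920369085) (nat_lit 114) (nat_lit 5) (nat_lit 114) (nat_lit 3) (nat_lit 127)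 (nat_lit 3) (nat_lit 387) (nat_lit 387) (nat_lit 90))))) (XT.nd (nat_lit 282) (nat_lit 0) (nat_lit 84) (XT.nd (nat_lit 94) (nat_lit 0) (nat_lit 0) (XT.lf (nat_lit 0) (nat_lit 39827913928) (nat_lit 1092) (nat_lit 33072790408) (nat_lit 1176) (nat_lit 13331173872) (nat_lit 114) (nat_lit 5) (nat_lit 127) (nat_lit 3) (nat_lit 128) (nat_lit 5) (nat_lit 388) (nat_lit 387) (nat_lit 89)) (XT.nd (nat_lit 94) (nat_lit 0) (nat_lit 0) (XT.lf (nat_lit 84) (nat_lit 37092868) (nat_lit 0) (nat_lit 40762501040) (nat_lit 1176) (nat_lit 46778557988) (nat_lit 115) (nat_lit 5) (nat_lit 114) (nat_lit 5) (nat_lit 128) (nat_lit 5) (nat_lit 389) (nat_lit 387) (nat_lit 88)) (XT.lf (nat_lit 84) (nat_lit 34874338638) (nat_lit 0) (nat_lit 7271961239) (nat_lit 1176) (nat_lit 46809169323) (nat_lit 115) (nat_lit 5) (nat_lit 114) (nat_lit 5) (nat_lit 128) (nat_lit 5) (nat_lit 390) (nat_lit 387) (nat_lit 87)))) (XT.nd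 (nat_lit 94) (nat_lit 0) (nat_lit 0) (XT.lf (nat_lit 0) (nat_lit 43804846824) (nat_lit 1092) (nat_lit 19854511280) (nat_lit 1176) (nat_lit 26707753468) (nat_lit 115) (nat_lit 5) (nat_lit 128) (nat_lit 5) (nat_lit 129) (nat_lit 5) (nat_lit 391) (nat_lit 387) (nat_lit 86)) (XT.nd (nat_lit 94) (nat_lit 0) (nat_lit 84) (XT.lf (nat_lit 84) (nat_lit 15674391211) (nat_lit 0) (nat_lit 30069995829) (nat_lit 1176) (nat_lit 46071011974) (nat_lit 116) (nat_lit 5) (nat_lit 115) (nat_lit 5) (nat_lit 129) (nat_lit 5) (nat_lit 392) (nat_lit 387) (nat_lit 85)) (XT.lf (nat_lit 0) (nat_lit 47998374514) (nat_lit 1092) (nat_lit 40624105840) (nat_lit 1176) (nat_lit 4678220099) (nat_lit 116) (nat_lit 5) (nat_lit 129) (nat_lit 5) (nat_lit 130) (nat_lit 5) (nat_lit 393) (nat_lit 387) (nat_lit 84))))))))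
noncomputable def xc247 : XT := (XT.nd (nat_lit 54238) (nat_lit 0) (nat_lit 0) (XT.nd (nat_lit 1128) (nat_lit 1176) (nat_lit 0) (XT.nd (nat_lit 564) (nat_lit 756) (nat_lit 0) (XT.nd (nat_lit 282) (nat_lit 0) (nat_lit 84) (XT.nd (nat_lit 94) (nat_lit 0) (nat_lit 0) (XT.lf (nat_lit 0) (nat_lit 50629508827) (nat_lit 1092) (nat_lit 4313899968) (nat_lit 1176) (nat_lit 39879112990) (nat_lit 116) (nat_lit 5) (nat_lit 129) (nat_lit 5) (nat_lit 130) (nat_lit 5) (nat_lit 394) (nat_lit 387) (nat_lit 83)) (XT.nd (nat_lit 94) (nat_lit 0) (nat_lit 84) (XT.lf (nat_lit 84) (nat_lit 33802803975) (nat_lit 0) (nat_lit 19874468415) (nat_lit 1176) (nat_lit 42703861192) (nat_lit 117) (nat_lit 5) (nat_lit 116) (nat_lit 5) (nat_lit 130) (nat_lit 5) (nat_lit 395) (nat_lit 387) (nat_lit 82)) (XT.lf (nat_lit 0) (nat_lit 57026264254) (nat_lit 1092) (nat_lit 24956242026) (nat_lit 1176) (nat_lit 15999147847) (nat_lit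 117) (nat_lit 5) (nat_lit 130) (nat_lit 5) (nat_lit 131) (nat_lit 5) (nat_lit 396) (nat_lit 387) (nat_lit 81)))) (XT.nd (nat_lit 94) (nat_lit 0) (nat_lit 0) (XT.lf (nat_lit 84) (nat_lit 13908922746) (nat_lit 0) (nat_lit 46911150384) (nat_lit 1176) (nat_lit 38801147665) (nat_lit 118) (nat_lit 5) (nat_lit 117) (nat_lit 5) (nat_lit 131) (nat_lit 5) (nat_lit 397) (nat_lit 387) (nat_lit 80)) (XT.nd (nat_lit 94) (nat_lit 0) (nat_lit 84) (XT.lf (nat_lit 84) (nat_lit 54507796328) (nat_lit 0) (nat_lit 10483942503) (nat_lit 1176) (nat_lit 36311808389) (nat_lit 118) (nat_lit 5) (nat_lit 117) (nat_lit 5) (nat_lit 131) (nat_lit 5) (nat_lit 398) (nat_lit 387) (nat_lit 79)) (XT.lf (nat_lit 0) (nat_lit 69561053587) (nat_lit 1092) (nat_lit 6941527691) (nat_lit 1176) (nat_lit 26527127212) (nat_lit 118) (nat_lit 5) (nat_lit 131) (nat_lit 5) (nat_lit 132) (nat_lit 5) (nat_lit 399) (nat_lit 387) (nat_lit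 78))))) (XT.nd (nat_lit 282) (nat_lit 924) (nat_lit 0) (XT.nd (nat_lit 94) (nat_lit 0) (nat_lit 0) (XT.lf (nat_lit 84) (nat_lit 34740729600) (nat_lit 0) (nat_lit 39982917759) (nat_lit 1176) (nat_lit 30071733712) (nat_lit 119) (nat_lit 5) (nat_lit 118) (nat_lit 5) (nat_lit 132) (nat_lit 5) (nat_lit 400) (nat_lit 387) (nat_lit 77)) (XT.nd (nat_lit 94) (nat_lit 0) (nat_lit 84) (XT.lf (nat_lit 84) (nat_lit 77862126282) (nat_lit 0) (nat_lit 2256387621) (nat_lit 1176) (nat_lit 26495037219) (nat_lit 119) (nat_lit 5) (nat_lit 118) (nat_lit 5) (nat_lit 132) (nat_lit 5) (nat_lit 401) (nat_lit 387) (nat_lit 76)) (XT.lf (nat_lit 84) (nat_lit 13745502716) (nat_lit 0) (nat_lit 72434729987) (nat_lit 1176) (nat_lit 22292364589) (nat_lit 120) (nat_lit 5) (nat_lit 119) (nat_lit 5) (nat_lit 133) (nat_lit 5) (nat_lit 402) (nat_lit 387) (nat_lit 75)))) (XT.nd (nat_lit 94) (nat_lit 1008) (nat_lit 0) (XT.lf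 (nat_lit 84) (nat_lit 58145629459) (nat_lit 0) (nat_lit 34606974235) (nat_lit 1176) (nat_lit 17626666067) (nat_lit 120) (nat_lit 5) (nat_lit 119) (nat_lit 5) (nat_lit 133) (nat_lit 5) (nat_lit 403) (nat_lit 387) (nat_lit 74)) (XT.nd (nat_lit 94) (nat_lit 1092) (nat_lit 0) (XT.lf (nat_lit 0) (nat_lit 99572097527) (nat_lit 1092) (nat_lit 8466643472) (nat_lit 84) (nat_lit 4304964070) (nat_lit 120) (nat_lit 5) (nat_lit 133) (nat_lit 5) (nat_lit 121) (nat_lit 5) (nat_lit 404) (nat_lit 387) (nat_lit 73)) (XT.lf (nat_lit 0) (nat_lit 37049480898) (nat_lit 1092) (nat_lit 70274800135) (nat_lit 1176) (nat_lit 7022397720) (nat_lit 107) (nat_lit 5) (nat_lit 120) (nat_lit 5) (nat_lit 121) (nat_lit 5) (nat_lit 405) (nat_lit 387) (nat_lit 72)))))) (XT.nd (nat_lit 52546) (nat_lit 0) (nat_lit 1764) (XT.nd (nat_lit 282) (nat_lit 588) (nat_lit 0) (XT.nd (nat_lit 94) (nat_lit 588) (nat_lit 0) (XT.lf (nat_lit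 0) (nat_lit 84155929300) (nat_lit 1092) (nat_lit 31249033636) (nat_lit 1176) (nat_lit 1004048791) (nat_lit 107) (nat_lit 5) (nat_lit 120) (nat_lit 5) (nat_lit 121) (nat_lit 5) (nat_lit 406) (nat_lit 387) (nat_lit 71)) (XT.nd (nat_lit 94) (nat_lit 0) (nat_lit 0) (XT.lf (nat_lit 0) (nat_lit 5330142409) (nat_lit 588) (nat_lit 104194085630) (nat_lit 84) (nat_lit 9002194419) (nat_lit 100) (nat_lit 5) (nat_lit 107) (nat_lit 5) (nat_lit 101) (nat_lit 5) (nat_lit 407) (nat_lit 387) (nat_lit 70)) (XT.lf (nat_lit 0) (nat_lit 12499354319) (nat_lit 588) (nat_lit 57986869327) (nat_lit 84) (nat_lit 50202486544) (nat_lit 100) (nat_lit 5) (nat_lit 107) (nat_lit 5) (nat_lit 101) (nat_lit 5) (nat_lit 408) (nat_lit 387) (nat_lit 69)))) (XT.nd (nat_lit 94) (nat_lit 588) (nat_lit 0) (XT.lf (nat_lit 0) (nat_lit 19890631296) (nat_lit 588) (nat_lit 10347393104) (nat_lit 84) (nat_lit 92680010664) (nat_lit 100)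 (nat_lit 5) (nat_lit 107) (nat_lit 5) (nat_lit 101) (nat_lit 5) (nat_lit 409) (nat_lit 387) (nat_lit 68)) (XT.nd (nat_lit 94) (nat_lit 0) (nat_lit 0) (XT.lf (nat_lit 0) (nat_lit 28019055494) (nat_lit 672) (nat_lit 85754088544) (nat_lit 84) (nat_lit 11427577031) (nat_lit 93) (nat_lit 5) (nat_lit 101) (nat_lit 5) (nat_lit 94) (nat_lit 5) (nat_lit 410) (nat_lit 387) (nat_lit 67)) (XT.lf (nat_lit 0) (nat_lit 36817663676) (nat_lit 672) (nat_lit 36857721717) (nat_lit 84) (nat_lit 53865821250) (nat_lit 93) (nat_lit 5) (nat_lit 101) (nat_lit 5) (nat_lit 94) (nat_lit 5) (nat_lit 411) (nat_lit 387) (nat_lit 66))))) (XT.nd (nat_lit 282) (nat_lit 0) (nat_lit 0) (XT.nd (nat_lit 94) (nat_lit 0) (nat_lit 0) (XT.lf (nat_lit 0) (nat_lit 10076600630) (nat_lit 0) (nat_lit 10076600630) (nat_lit 1092) (nat_lit 23622826209) (nat_lit 114) (nat_lit 5) (nat_lit 114) (nat_lit 3) (nat_lit 127) (nat_lit 3) (nat_lit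 388) (nat_lit 388) (nat_lit 88)) (XT.nd (nat_lit 94) (nat_lit 0) (nat_lit 0) (XT.lf (nat_lit 0) (nat_lit 41077641367) (nat_lit 1092) (nat_lit 34089877344) (nat_lit 1176) (nat_lit 13737024157) (nat_lit 114) (nat_lit 5) (nat_lit 127) (nat_lit 3) (nat_lit 128) (nat_lit 5) (nat_lit 389) (nat_lit 388) (nat_lit 87)) (XT.lf (nat_lit 84) (nat_lit 46329604) (nat_lit 0) (nat_lit 42032741159) (nat_lit 1176) (nat_lit 48213493533) (nat_lit 115) (nat_lit 5) (nat_lit 114) (nat_lit 5) (nat_lit 128) (nat_lit 5) (nat_lit 390) (nat_lit 388) (nat_lit 86)))) (XT.nd (nat_lit 94) (nat_lit 0) (nat_lit 84) (XT.lf (nat_lit 84) (nat_lit 35963286839) (nat_lit 0) (nat_lit 7503796098) (nat_lit 1176) (nat_lit 48245510844) (nat_lit 115) (nat_lit 5) (nat_lit 114) (nat_lit 5) (nat_lit 128) (nat_lit 5) (nat_lit 391) (nat_lit 388) (nat_lit 85)) (XT.nd (nat_lit 94) (nat_lit 0) (nat_lit 0) (XT.lf (nat_lit 0) (nat_lit 45176554821)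 (nat_lit 1092) (nat_lit 20461851570) (nat_lit 1176) (nat_lit 27529607469) (nat_lit 115) (nat_lit 5) (nat_lit 128) (nat_lit 5) (nat_lit 129) (nat_lit 5) (nat_lit 392) (nat_lit 388) (nat_lit 84)) (XT.lf (nat_lit 84) (nat_lit 16168364392) (nat_lit 0) (nat_lit 31007522752) (nat_lit 1176) (nat_lit 47485322966) (nat_lit 116) (nat_lit 5) (nat_lit 115) (nat_lit 5) (nat_lit 129) (nat_lit 5) (nat_lit 393) (nat_lit 388) (nat_lit 83))))))) (XT.nd (nat_lit 1128) (nat_lit 1932) (nat_lit 0) (XT.nd (nat_lit 564) (nat_lit 0) (nat_lit 168) (XT.nd (nat_lit 282) (nat_lit 0) (nat_lit 84) (XT.nd (nat_lit 94) (nat_lit 0) (nat_lit 0) (XT.lf (nat_lit 0) (nat_lit 49499293050) (nat_lit 1092) (nat_lit 41875124828) (nat_lit 1176) (nat_lit 4818153633) (nat_lit 116) (nat_lit 5) (nat_lit 129) (nat_lit 5) (nat_lit 130) (nat_lit 5) (nat_lit 394) (nat_lit 388) (nat_lit 82)) (XT.nd (nat_lit 94) (nat_lit 0) (nat_lit 0)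 (XT.lf (nat_lit 0) (nat_lit 52211602578) (nat_lit 1092) (nat_lit 4439552989) (nat_lit 1176) (nat_lit 41110427288) (nat_lit 116) (nat_lit 5) (nat_lit 129) (nat_lit 5) (nat_lit 130) (nat_lit 5) (nat_lit 395) (nat_lit 388) (nat_lit 81)) (XT.lf (nat_lit 84) (nat_lit 34858686996) (nat_lit 0) (nat_lit 20494860914) (nat_lit 1176) (nat_lit 44014974390) (nat_lit 117) (nat_lit 5) (nat_lit 116) (nat_lit 5) (nat_lit 130) (nat_lit 5) (nat_lit 396) (nat_lit 388) (nat_lit 80)))) (XT.nd (nat_lit 94) (nat_lit 0) (nat_lit 0) (XT.lf (nat_lit 0) (nat_lit 58805948066) (nat_lit 1092) (nat_lit 25721675036) (nat_lit 1176) (nat_lit 16491049980) (nat_lit 117) (nat_lit 5) (nat_lit 130) (nat_lit 5) (nat_lit 131) (nat_lit 5) (nat_lit 397) (nat_lit 388) (nat_lit 79)) (XT.nd (nat_lit 94) (nat_lit 0) (nat_lit 0) (XT.lf (nat_lit 84) (nat_lit 14348226720) (nat_lit 0) (nat_lit 48368862028) (nat_lit 1176) (nat_lit 39991987467)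 (nat_lit 118) (nat_lit 5) (nat_lit 117) (nat_lit 5) (nat_lit 131) (nat_lit 5) (nat_lit 398) (nat_lit 388) (nat_lit 78)) (XT.lf (nat_lit 84) (nat_lit 56205421010) (nat_lit 0) (nat_lit 10812306487) (nat_lit 1176) (nat_lit 37425839362) (nat_lit 118) (nat_lit 5) (nat_lit 117) (nat_lit 5) (nat_lit 131) (nat_lit 5) (nat_lit 399) (nat_lit 388) (nat_lit 77))))) (XT.nd (nat_lit 282) (nat_lit 0) (nat_lit 84) (XT.nd (nat_lit 94) (nat_lit 0) (nat_lit 0) (XT.lf (nat_lit 0) (nat_lit 71728320558) (nat_lit 1092) (nat_lit 7148658144) (nat_lit 1176) (nat_lit 27346273166) (nat_lit 118) (nat_lit 5) (nat_lit 131) (nat_lit 5) (nat_lit 132) (nat_lit 5) (nat_lit 400) (nat_lit 388) (nat_lit 76)) (XT.nd (nat_lit 94) (nat_lit 0) (nat_lit 0) (XT.lf (nat_lit 84) (nat_lit 35825667555) (nat_lit 0) (nat_lit 41225039331) (nat_lit 1176) (nat_lit 30992962313) (nat_lit 119) (nat_lit 5) (nat_lit 118) (nat_lit 5) (nat_lit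 132) (nat_lit 5) (nat_lit 401) (nat_lit 388) (nat_lit 75)) (XT.lf (nat_lit 84) (nat_lit 80283587732) (nat_lit 0) (nat_lit 2328907046) (nat_lit 1176) (nat_lit 27305718830) (nat_lit 119) (nat_lit 5) (nat_lit 118) (nat_lit 5) (nat_lit 132) (nat_lit 5) (nat_lit 402) (nat_lit 388) (nat_lit 74)))) (XT.nd (nat_lit 94) (nat_lit 0) (nat_lit 0) (XT.lf (nat_lit 84) (nat_lit 14179649750) (nat_lit 0) (nat_lit 74682222183) (nat_lit 1176) (nat_lit 22973027324) (nat_lit 120) (nat_lit 5) (nat_lit 119) (nat_lit 5) (nat_lit 133) (nat_lit 5) (nat_lit 403) (nat_lit 388) (nat_lit 73)) (XT.nd (nat_lit 94) (nat_lit 0) (nat_lit 84) (XT.lf (nat_lit 84) (nat_lit 59955938783) (nat_lit 0) (nat_lit 35681745399) (nat_lit 1176) (nat_lit 18163004870) (nat_lit 120) (nat_lit 5) (nat_lit 119) (nat_lit 5) (nat_lit 133) (nat_lit 5) (nat_lit 404) (nat_lit 388) (nat_lit 72)) (XT.lf (nat_lit 0) (nat_lit 102668270357) (nat_lit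 1092) (nat_lit 8721202266) (nat_lit 84) (nat_lit 4436559979) (nat_lit 120) (nat_lit 5) (nat_lit 133) (nat_lit 5) (nat_lit 121) (nat_lit 5) (nat_lit 405) (nat_lit 388) (nat_lit 71)))))) (XT.nd (nat_lit 52640) (nat_lit 0) (nat_lit 1764) (XT.nd (nat_lit 282) (nat_lit 588) (nat_lit 0) (XT.nd (nat_lit 94) (nat_lit 588) (nat_lit 0) (XT.lf (nat_lit 0) (nat_lit 38205841906) (nat_lit 1092) (nat_lit 72454723517) (nat_lit 1176) (nat_lit 7230540483) (nat_lit 107) (nat_lit 5) (nat_lit 120) (nat_lit 5) (nat_lit 121) (nat_lit 5) (nat_lit 406) (nat_lit 388) (nat_lit 70)) (XT.nd (nat_lit 94) (nat_lit 588) (nat_lit 0) (XT.lf (nat_lit 0) (nat_lit 86772354865) (nat_lit 1092) (nat_lit 32219116024) (nat_lit 1176) (nat_lit 1025909932) (nat_lit 107) (nat_lit 5) (nat_lit 120) (nat_lit 5) (nat_lit 121) (nat_lit 5) (nat_lit 407) (nat_lit 388) (nat_lit 69)) (XT.lf (nat_lit 0) (nat_lit 5504246871) (nat_lit 588)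 (nat_lit 107416053739) (nat_lit 84) (nat_lit 9280135216) (nat_lit 100) (nat_lit 5) (nat_lit 107) (nat_lit 5) (nat_lit 101) (nat_lit 5) (nat_lit 408) (nat_lit 388) (nat_lit 68)))) (XT.nd (nat_lit 94) (nat_lit 588) (nat_lit 0) (XT.lf (nat_lit 0) (nat_lit 12895437647) (nat_lit 588) (nat_lit 59776655733) (nat_lit 84) (nat_lit 51757670291) (nat_lit 100) (nat_lit 5) (nat_lit 107) (nat_lit 5) (nat_lit 101) (nat_lit 5) (nat_lit 409) (nat_lit 388) (nat_lit 67)) (XT.nd (nat_lit 94) (nat_lit 588) (nat_lit 0) (XT.lf (nat_lit 0) (nat_lit 20515585526) (nat_lit 588) (nat_lit 10660590473) (nat_lit 84) (nat_lit 95552030533) (nat_lit 100) (nat_lit 5) (nat_lit 107) (nat_lit 5) (nat_lit 101) (nat_lit 5) (nat_lit 410) (nat_lit 388) (nat_lit 66)) (XT.lf (nat_lit 0) (nat_lit 28895807645) (nat_lit 672) (nat_lit 88404682178) (nat_lit 84) (nat_lit 11781172531) (nat_lit 93) (nat_lit 5) (nat_lit 101) (nat_lit 5)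 (nat_lit 94) (nat_lit 5) (nat_lit 411) (nat_lit 388) (nat_lit 65))))) (XT.nd (nat_lit 282) (nat_lit 0) (nat_lit 0) (XT.nd (nat_lit 94) (nat_lit 0) (nat_lit 0) (XT.lf (nat_lit 0) (nat_lit 10392645761) (nat_lit 0) (nat_lit 10392645761) (nat_lit 1092) (nat_lit 24347537759) (nat_lit 114) (nat_lit 5) (nat_lit 114) (nat_lit 3) (nat_lit 127) (nat_lit 3) (nat_lit 389) (nat_lit 389) (nat_lit 86)) (XT.nd (nat_lit 94) (nat_lit 0) (nat_lit 0) (XT.lf (nat_lit 0) (nat_lit 42365218203) (nat_lit 1092) (nat_lit 35138977872) (nat_lit 1176) (nat_lit 14155895070) (nat_lit 114) (nat_lit 5) (nat_lit 127) (nat_lit 3) (nat_lit 128) (nat_lit 5) (nat_lit 390) (nat_lit 389) (nat_lit 85)) (XT.lf (nat_lit 84) (nat_lit 55373681) (nat_lit 0) (nat_lit 43341967639) (nat_lit 1176) (nat_lit 49693812388) (nat_lit 115) (nat_lit 5) (nat_lit 114) (nat_lit 5) (nat_lit 128) (nat_lit 5) (nat_lit 391) (nat_lit 389) (nat_lit 84))))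 (XT.nd (nat_lit 94) (nat_lit 0) (nat_lit 84) (XT.lf (nat_lit 84) (nat_lit 37085527838) (nat_lit 0) (nat_lit 7742438515) (nat_lit 1176) (nat_lit 49727252189) (nat_lit 115) (nat_lit 5) (nat_lit 114) (nat_lit 5) (nat_lit 128) (nat_lit 5) (nat_lit 392) (nat_lit 389) (nat_lit 83)) (XT.nd (nat_lit 94) (nat_lit 0) (nat_lit 0) (XT.lf (nat_lit 0) (nat_lit 46589970870) (nat_lit 1092) (nat_lit 21088502122) (nat_lit 1176) (nat_lit 28377299449) (nat_lit 115) (nat_lit 5) (nat_lit 128) (nat_lit 5) (nat_lit 129) (nat_lit 5) (nat_lit 393) (nat_lit 389) (nat_lit 82)) (XT.lf (nat_lit 84) (nat_lit 16677172915) (nat_lit 0) (nat_lit 31973795701) (nat_lit 1176) (nat_lit 48944300350) (nat_lit 116) (nat_lit 5) (nat_lit 115) (nat_lit 5) (nat_lit 129) (nat_lit 5) (nat_lit 394) (nat_lit 389) (nat_lit 81))))))))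
noncomputable def xc248 : XT := (XT.nd (nat_lit 54426) (nat_lit 0) (nat_lit 0) (XT.nd (nat_lit 1128) (nat_lit 1344) (nat_lit 0) (XT.nd (nat_lit 564) (nat_lit 0) (nat_lit 168) (XT.nd (nat_lit 282) (nat_lit 0) (nat_lit 84) (XT.nd (nat_lit 94) (nat_lit 0) (nat_lit 0) (XT.lf (nat_lit 0) (nat_lit 51045971888) (nat_lit 1092) (nat_lit 43165418704) (nat_lit 1176) (nat_lit 4962726672) (nat_lit 116) (nat_lit 5) (nat_lit 129) (nat_lit 5) (nat_lit 130) (nat_lit 5) (nat_lit 395) (nat_lit 389) (nat_lit 80)) (XT.nd (nat_lit 94) (nat_lit 0) (nat_lit 0) (XT.lf (nat_lit 0) (nat_lit 53841996160) (nat_lit 1092) (nat_lit 4569579719) (nat_lit 1176) (nat_lit 42380204828) (nat_lit 116) (nat_lit 5) (nat_lit 129) (nat_lit 5) (nat_lit 130) (nat_lit 5) (nat_lit 396) (nat_lit 389) (nat_lit 79)) (XT.lf (nat_lit 84) (nat_lit 35946828768) (nat_lit 0) (nat_lit 21134231834) (nat_lit 1176) (nat_lit 45367484726) (nat_lit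 117) (nat_lit 5) (nat_lit 116) (nat_lit 5) (nat_lit 130) (nat_lit 5) (nat_lit 397) (nat_lit 389) (nat_lit 78)))) (XT.nd (nat_lit 94) (nat_lit 0) (nat_lit 0) (XT.lf (nat_lit 0) (nat_lit 60640099018) (nat_lit 1092) (nat_lit 26511322792) (nat_lit 1176) (nat_lit 16998442238) (nat_lit 117) (nat_lit 5) (nat_lit 130) (nat_lit 5) (nat_lit 131) (nat_lit 5) (nat_lit 398) (nat_lit 389) (nat_lit 77)) (XT.nd (nat_lit 94) (nat_lit 0) (nat_lit 0) (XT.lf (nat_lit 84) (nat_lit 14800667719) (nat_lit 0) (nat_lit 49871557436) (nat_lit 1176) (nat_lit 41220453834) (nat_lit 118) (nat_lit 5) (nat_lit 117) (nat_lit 5) (nat_lit 131) (nat_lit 5) (nat_lit 399) (nat_lit 389) (nat_lit 76)) (XT.lf (nat_lit 84) (nat_lit 57955205134) (nat_lit 0) (nat_lit 11150650632) (nat_lit 1176) (nat_lit 38575094462) (nat_lit 118) (nat_lit 5) (nat_lit 117) (nat_lit 5) (nat_lit 131) (nat_lit 5) (nat_lit 400) (nat_lit 389) (nat_lit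 75))))) (XT.nd (nat_lit 282) (nat_lit 0) (nat_lit 84) (XT.nd (nat_lit 94) (nat_lit 0) (nat_lit 0) (XT.lf (nat_lit 0) (nat_lit 73962128701) (nat_lit 1092) (nat_lit 7362686865) (nat_lit 1176) (nat_lit 28191001889) (nat_lit 118) (nat_lit 5) (nat_lit 131) (nat_lit 5) (nat_lit 132) (nat_lit 5) (nat_lit 401) (nat_lit 389) (nat_lit 74)) (XT.nd (nat_lit 94) (nat_lit 0) (nat_lit 0) (XT.lf (nat_lit 84) (nat_lit 36943766193) (nat_lit 0) (nat_lit 42505509642) (nat_lit 1176) (nat_lit 31943400263) (nat_lit 119) (nat_lit 5) (nat_lit 118) (nat_lit 5) (nat_lit 132) (nat_lit 5) (nat_lit 402) (nat_lit 389) (nat_lit 73)) (XT.lf (nat_lit 84) (nat_lit 82779656298) (nat_lit 0) (nat_lit 2403522263) (nat_lit 1176) (nat_lit 28142163250) (nat_lit 119) (nat_lit 5) (nat_lit 118) (nat_lit 5) (nat_lit 132) (nat_lit 5) (nat_lit 403) (nat_lit 389) (nat_lit 72)))) (XT.nd (nat_lit 94) (nat_lit 0) (nat_lit 0) (XT.lf (nat_lit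 84) (nat_lit 14626779329) (nat_lit 0) (nat_lit 76999267251) (nat_lit 1176) (nat_lit 23675406646) (nat_lit 120) (nat_lit 5) (nat_lit 119) (nat_lit 5) (nat_lit 133) (nat_lit 5) (nat_lit 404) (nat_lit 389) (nat_lit 71)) (XT.nd (nat_lit 94) (nat_lit 0) (nat_lit 84) (XT.lf (nat_lit 84) (nat_lit 61821905995) (nat_lit 0) (nat_lit 36789718673) (nat_lit 1176) (nat_lit 18716567697) (nat_lit 120) (nat_lit 5) (nat_lit 119) (nat_lit 5) (nat_lit 133) (nat_lit 5) (nat_lit 405) (nat_lit 389) (nat_lit 70)) (XT.lf (nat_lit 0) (nat_lit 105859865528) (nat_lit 1092) (nat_lit 8984120737) (nat_lit 84) (nat_lit 4572345412) (nat_lit 120) (nat_lit 5) (nat_lit 133) (nat_lit 5) (nat_lit 121) (nat_lit 5) (nat_lit 406) (nat_lit 389) (nat_lit 69)))))) (XT.nd (nat_lit 52734) (nat_lit 0) (nat_lit 1176) (XT.nd (nat_lit 282) (nat_lit 0) (nat_lit 0) (XT.nd (nat_lit 94) (nat_lit 588) (nat_lit 0) (XT.lf (nat_lit 0) (nat_lit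 39397586494) (nat_lit 1092) (nat_lit 74702141328) (nat_lit 1176) (nat_lit 7445701427) (nat_lit 107) (nat_lit 5) (nat_lit 120) (nat_lit 5) (nat_lit 121) (nat_lit 5) (nat_lit 407) (nat_lit 389) (nat_lit 68)) (XT.nd (nat_lit 94) (nat_lit 588) (nat_lit 0) (XT.lf (nat_lit 0) (nat_lit 89469439949) (nat_lit 1092) (nat_lit 33219190271) (nat_lit 1176) (nat_lit 1048997513) (nat_lit 107) (nat_lit 5) (nat_lit 120) (nat_lit 5) (nat_lit 121) (nat_lit 5) (nat_lit 408) (nat_lit 389) (nat_lit 67)) (XT.lf (nat_lit 0) (nat_lit 5683223184) (nat_lit 588) (nat_lit 110738379587) (nat_lit 84) (nat_lit 9566758946) (nat_lit 100) (nat_lit 5) (nat_lit 107) (nat_lit 5) (nat_lit 101) (nat_lit 5) (nat_lit 409) (nat_lit 389) (nat_lit 66)))) (XT.nd (nat_lit 94) (nat_lit 0) (nat_lit 0) (XT.lf (nat_lit 0) (nat_lit 13303289967) (nat_lit 588) (nat_lit 61622387912) (nat_lit 84) (nat_lit 53361129494) (nat_lit 100) (nat_lit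 5) (nat_lit 107) (nat_lit 5) (nat_lit 101) (nat_lit 5) (nat_lit 410) (nat_lit 389) (nat_lit 65)) (XT.nd (nat_lit 52264) (nat_lit 0) (nat_lit 1176) (XT.lf (nat_lit 0) (nat_lit 21159419069) (nat_lit 588) (nat_lit 10983945452) (nat_lit 84) (nat_lit 98513145831) (nat_lit 100) (nat_lit 5) (nat_lit 107) (nat_lit 5) (nat_lit 101) (nat_lit 5) (nat_lit 411) (nat_lit 389) (nat_lit 64)) (XT.lf (nat_lit 0) (nat_lit 10718270880) (nat_lit 0) (nat_lit 10718270880) (nat_lit 1092) (nat_lit 25095165295) (nat_lit 114) (nat_lit 5) (nat_lit 114) (nat_lit 3) (nat_lit 127) (nat_lit 3) (nat_lit 390) (nat_lit 390) (nat_lit 84))))) (XT.nd (nat_lit 282) (nat_lit 0) (nat_lit 84) (XT.nd (nat_lit 94) (nat_lit 0) (nat_lit 0) (XT.lf (nat_lit 0) (nat_lit 43691870610) (nat_lit 1092) (nat_lit 36221055752) (nat_lit 1176) (nat_lit 14588164232) (nat_lit 114) (nat_lit 5) (nat_lit 127) (nat_lit 3) (nat_lit 128) (nat_lit 5)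 (nat_lit 391) (nat_lit 390) (nat_lit 83)) (XT.nd (nat_lit 94) (nat_lit 0) (nat_lit 0) (XT.lf (nat_lit 84) (nat_lit 64247498) (nat_lit 0) (nat_lit 44691412223) (nat_lit 1176) (nat_lit 51220868107) (nat_lit 115) (nat_lit 5) (nat_lit 114) (nat_lit 5) (nat_lit 128) (nat_lit 5) (nat_lit 392) (nat_lit 390) (nat_lit 82)) (XT.lf (nat_lit 84) (nat_lit 38242121230) (nat_lit 0) (nat_lit 7988121991) (nat_lit 1176) (nat_lit 51255749030) (nat_lit 115) (nat_lit 5) (nat_lit 114) (nat_lit 5) (nat_lit 128) (nat_lit 5) (nat_lit 393) (nat_lit 390) (nat_lit 81)))) (XT.nd (nat_lit 94) (nat_lit 0) (nat_lit 0) (XT.lf (nat_lit 0) (nat_lit 48046436190) (nat_lit 1092) (nat_lit 21735032961) (nat_lit 1176) (nat_lit 29251609033) (nat_lit 115) (nat_lit 5) (nat_lit 128) (nat_lit 5) (nat_lit 129) (nat_lit 5) (nat_lit 394) (nat_lit 390) (nat_lit 80)) (XT.nd (nat_lit 94) (nat_lit 0) (nat_lit 84) (XT.lf (nat_lit 84) (nat_lit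 17201304980) (nat_lit 0) (nat_lit 32969724600) (nat_lit 1176) (nat_lit 50449280051) (nat_lit 116) (nat_lit 5) (nat_lit 115) (nat_lit 5) (nat_lit 129) (nat_lit 5) (nat_lit 395) (nat_lit 390) (nat_lit 79)) (XT.lf (nat_lit 0) (nat_lit 52639875098) (nat_lit 1092) (nat_lit 44496175770) (nat_lit 1176) (nat_lit 5112065179) (nat_lit 116) (nat_lit 5) (nat_lit 129) (nat_lit 5) (nat_lit 130) (nat_lit 5) (nat_lit 396) (nat_lit 390) (nat_lit 78))))))) (XT.nd (nat_lit 1128) (nat_lit 588) (nat_lit 0) (XT.nd (nat_lit 564) (nat_lit 756) (nat_lit 0) (XT.nd (nat_lit 282) (nat_lit 0) (nat_lit 84) (XT.nd (nat_lit 94) (nat_lit 0) (nat_lit 0) (XT.lf (nat_lit 0) (nat_lit 55522231001) (nat_lit 1092) (nat_lit 4704087405) (nat_lit 1176) (nat_lit 43689620644) (nat_lit 116) (nat_lit 5) (nat_lit 129) (nat_lit 5) (nat_lit 130) (nat_lit 5) (nat_lit 397) (nat_lit 390) (nat_lit 77)) (XT.nd (nat_lit 94) (nat_lit 0) (nat_lit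 84) (XT.lf (nat_lit 84) (nat_lit 37068257365) (nat_lit 0) (nat_lit 21793184534) (nat_lit 1176) (nat_lit 46762630930) (nat_lit 117) (nat_lit 5) (nat_lit 116) (nat_lit 5) (nat_lit 130) (nat_lit 5) (nat_lit 398) (nat_lit 390) (nat_lit 76)) (XT.lf (nat_lit 0) (nat_lit 62530447235) (nat_lit 1092) (nat_lit 27325907143) (nat_lit 1176) (nat_lit 17521790530) (nat_lit 117) (nat_lit 5) (nat_lit 130) (nat_lit 5) (nat_lit 131) (nat_lit 5) (nat_lit 399) (nat_lit 390) (nat_lit 75)))) (XT.nd (nat_lit 94) (nat_lit 0) (nat_lit 0) (XT.lf (nat_lit 84) (nat_lit 15266681505) (nat_lit 0) (nat_lit 51420643266) (nat_lit 1176) (nat_lit 42487671103) (nat_lit 118) (nat_lit 5) (nat_lit 117) (nat_lit 5) (nat_lit 131) (nat_lit 5) (nat_lit 400) (nat_lit 390) (nat_lit 74)) (XT.nd (nat_lit 94) (nat_lit 0) (nat_lit 84) (XT.lf (nat_lit 84) (nat_lit 59758793298) (nat_lit 0) (nat_lit 11499296116) (nat_lit 1176) (nat_lit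 39760624815) (nat_lit 118) (nat_lit 5) (nat_lit 117) (nat_lit 5) (nat_lit 131) (nat_lit 5) (nat_lit 401) (nat_lit 390) (nat_lit 73)) (XT.lf (nat_lit 0) (nat_lit 76264578943) (nat_lit 1092) (nat_lit 7583799435) (nat_lit 1176) (nat_lit 29062095238) (nat_lit 118) (nat_lit 5) (nat_lit 131) (nat_lit 5) (nat_lit 132) (nat_lit 5) (nat_lit 402) (nat_lit 390) (nat_lit 72))))) (XT.nd (nat_lit 282) (nat_lit 924) (nat_lit 0) (XT.nd (nat_lit 94) (nat_lit 0) (nat_lit 0) (XT.lf (nat_lit 84) (nat_lit 38096081476) (nat_lit 0) (nat_lit 43825526803) (nat_lit 1176) (nat_lit 32923914474) (nat_lit 119) (nat_lit 5) (nat_lit 118) (nat_lit 5) (nat_lit 132) (nat_lit 5) (nat_lit 403) (nat_lit 390) (nat_lit 71)) (XT.nd (nat_lit 94) (nat_lit 0) (nat_lit 84) (XT.lf (nat_lit 84) (nat_lit 85352671940) (nat_lit 0) (nat_lit 2480307265) (nat_lit 1176) (nat_lit 29005131711) (nat_lit 119) (nat_lit 5) (nat_lit 118) (nat_lit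 5) (nat_lit 132) (nat_lit 5) (nat_lit 404) (nat_lit 390) (nat_lit 70)) (XT.lf (nat_lit 84) (nat_lit 15087322107) (nat_lit 0) (nat_lit 79388028403) (nat_lit 1176) (nat_lit 24400139282) (nat_lit 120) (nat_lit 5) (nat_lit 119) (nat_lit 5) (nat_lit 133) (nat_lit 5) (nat_lit 405) (nat_lit 390) (nat_lit 69)))) (XT.nd (nat_lit 94) (nat_lit 1008) (nat_lit 0) (XT.lf (nat_lit 84) (nat_lit 63745283839) (nat_lit 0) (nat_lit 37931930182) (nat_lit 1176) (nat_lit 19287853100) (nat_lit 120) (nat_lit 5) (nat_lit 119) (nat_lit 5) (nat_lit 133) (nat_lit 5) (nat_lit 406) (nat_lit 390) (nat_lit 68)) (XT.nd (nat_lit 94) (nat_lit 1092) (nat_lit 0) (XT.lf (nat_lit 0) (nat_lit 109149874244) (nat_lit 1092) (nat_lit 9255630293) (nat_lit 84) (nat_lit 4712443727) (nat_lit 120) (nat_lit 5) (nat_lit 133) (nat_lit 5) (nat_lit 121) (nat_lit 5) (nat_lit 407) (nat_lit 390) (nat_lit 67)) (XT.lf (nat_lit 0) (nat_lit 40625839011)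 (nat_lit 1092) (nat_lit 77019150823) (nat_lit 1176) (nat_lit 7668064605) (nat_lit 107) (nat_lit 5) (nat_lit 120) (nat_lit 5) (nat_lit 121) (nat_lit 5) (nat_lit 408) (nat_lit 390) (nat_lit 66)))))) (XT.nd (nat_lit 52828) (nat_lit 0) (nat_lit 1176) (XT.nd (nat_lit 52546) (nat_lit 0) (nat_lit 1176) (XT.nd (nat_lit 94) (nat_lit 588) (nat_lit 0) (XT.lf (nat_lit 0) (nat_lit 92249711634) (nat_lit 1092) (nat_lit 34250190906) (nat_lit 1176) (nat_lit 1073317051) (nat_lit 107) (nat_lit 5) (nat_lit 120) (nat_lit 5) (nat_lit 121) (nat_lit 5) (nat_lit 409) (nat_lit 390) (nat_lit 65)) (XT.nd (nat_lit 94) (nat_lit 0) (nat_lit 0) (XT.lf (nat_lit 0) (nat_lit 5867253494) (nat_lit 588) (nat_lit 114164146029) (nat_lit 84) (nat_lit 9862330824) (nat_lit 100) (nat_lit 5) (nat_lit 107) (nat_lit 5) (nat_lit 101) (nat_lit 5) (nat_lit 410) (nat_lit 390) (nat_lit 64)) (XT.lf (nat_lit 0) (nat_lit 13723306303) (nat_lit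 588) (nat_lit 63525772796) (nat_lit 84) (nat_lit 55014356857) (nat_lit 100) (nat_lit 5) (nat_lit 107) (nat_lit 5) (nat_lit 101) (nat_lit 5) (nat_lit 411) (nat_lit 390) (nat_lit 63)))) (XT.nd (nat_lit 94) (nat_lit 0) (nat_lit 0) (XT.lf (nat_lit 0) (nat_lit 11053785845) (nat_lit 0) (nat_lit 11053785845) (nat_lit 1092) (nat_lit 25866392563) (nat_lit 114) (nat_lit 5) (nat_lit 114) (nat_lit 3) (nat_lit 127) (nat_lit 3) (nat_lit 391) (nat_lit 391) (nat_lit 82)) (XT.nd (nat_lit 94) (nat_lit 0) (nat_lit 0) (XT.lf (nat_lit 0) (nat_lit 45058859645) (nat_lit 1092) (nat_lit 37337106317) (nat_lit 1176) (nat_lit 15034222510) (nat_lit 114) (nat_lit 5) (nat_lit 127) (nat_lit 3) (nat_lit 128) (nat_lit 5) (nat_lit 392) (nat_lit 391) (nat_lit 81)) (XT.lf (nat_lit 84) (nat_lit 72972468) (nat_lit 0) (nat_lit 46082343462) (nat_lit 1176) (nat_lit 52796059366) (nat_lit 115) (nat_lit 5) (nat_lit 114) (nat_lit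 5) (nat_lit 128) (nat_lit 5) (nat_lit 393) (nat_lit 391) (nat_lit 80))))) (XT.nd (nat_lit 282) (nat_lit 0) (nat_lit 168) (XT.nd (nat_lit 94) (nat_lit 0) (nat_lit 84) (XT.lf (nat_lit 84) (nat_lit 39434157830) (nat_lit 0) (nat_lit 8241085936) (nat_lit 1176) (nat_lit 52832402126) (nat_lit 115) (nat_lit 5) (nat_lit 114) (nat_lit 5) (nat_lit 128) (nat_lit 5) (nat_lit 394) (nat_lit 391) (nat_lit 79)) (XT.nd (nat_lit 94) (nat_lit 0) (nat_lit 0) (XT.lf (nat_lit 0) (nat_lit 49547330716) (nat_lit 1092) (nat_lit 22402033478) (nat_lit 1176) (nat_lit 30153341277) (nat_lit 115) (nat_lit 5) (nat_lit 128) (nat_lit 5) (nat_lit 129) (nat_lit 5) (nat_lit 395) (nat_lit 391) (nat_lit 78)) (XT.lf (nat_lit 84) (nat_lit 17741262242) (nat_lit 0) (nat_lit 33996246463) (nat_lit 1176) (nat_lit 52001642294) (nat_lit 116) (nat_lit 5) (nat_lit 115) (nat_lit 5) (nat_lit 129) (nat_lit 5) (nat_lit 396) (nat_lit 391)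 (nat_lit 77)))) (XT.nd (nat_lit 94) (nat_lit 0) (nat_lit 0) (XT.lf (nat_lit 0) (nat_lit 54282509442) (nat_lit 1092) (nat_lit 45868622897) (nat_lit 1176) (nat_lit 5266300079) (nat_lit 116) (nat_lit 5) (nat_lit 129) (nat_lit 5) (nat_lit 130) (nat_lit 5) (nat_lit 397) (nat_lit 391) (nat_lit 76)) (XT.nd (nat_lit 94) (nat_lit 0) (nat_lit 0) (XT.lf (nat_lit 0) (nat_lit 57253893698) (nat_lit 1092) (nat_lit 4843188293) (nat_lit 1176) (nat_lit 45039887225) (nat_lit 116) (nat_lit 5) (nat_lit 129) (nat_lit 5) (nat_lit 130) (nat_lit 5) (nat_lit 398) (nat_lit 391) (nat_lit 75)) (XT.lf (nat_lit 84) (nat_lit 38224031072) (nat_lit 0) (nat_lit 22472340190) (nat_lit 1176) (nat_lit 48201692775) (nat_lit 117) (nat_lit 5) (nat_lit 116) (nat_lit 5) (nat_lit 130) (nat_lit 5) (nat_lit 399) (nat_lit 391) (nat_lit 74))))))))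
noncomputable def xc249 : XT := (XT.nd (nat_lit 54614) (nat_lit 0) (nat_lit 588) (XT.nd (nat_lit 53486) (nat_lit 0) (nat_lit 1176) (XT.nd (nat_lit 564) (nat_lit 1428) (nat_lit 0) (XT.nd (nat_lit 282) (nat_lit 0) (nat_lit 84) (XT.nd (nat_lit 94) (nat_lit 0) (nat_lit 0) (XT.lf (nat_lit 0) (nat_lit 64478774009) (nat_lit 1092) (nat_lit 28166174026) (nat_lit 1176) (nat_lit 18061576056) (nat_lit 117) (nat_lit 5) (nat_lit 130) (nat_lit 5) (nat_lit 131) (nat_lit 5) (nat_lit 400) (nat_lit 391) (nat_lit 73)) (XT.nd (nat_lit 94) (nat_lit 0) (nat_lit 0) (XT.lf (nat_lit 84) (nat_lit 15746715659) (nat_lit 0) (nat_lit 53017569060) (nat_lit 1176) (nat_lit 43794800958) (nat_lit 118) (nat_lit 5) (nat_lit 117) (nat_lit 5) (nat_lit 131) (nat_lit 5) (nat_lit 401) (nat_lit 391) (nat_lit 72)) (XT.lf (nat_lit 84) (nat_lit 61617879448) (nat_lit 0) (nat_lit 11858573377) (nat_lit 1176) (nat_lit 40983516551) (nat_lit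 118) (nat_lit 5) (nat_lit 117) (nat_lit 5) (nat_lit 131) (nat_lit 5) (nat_lit 402) (nat_lit 391) (nat_lit 71)))) (XT.nd (nat_lit 94) (nat_lit 0) (nat_lit 0) (XT.lf (nat_lit 0) (nat_lit 78637835083) (nat_lit 1092) (nat_lit 7812188858) (nat_lit 1176) (nat_lit 29960359971) (nat_lit 118) (nat_lit 5) (nat_lit 131) (nat_lit 5) (nat_lit 132) (nat_lit 5) (nat_lit 403) (nat_lit 391) (nat_lit 70)) (XT.nd (nat_lit 94) (nat_lit 0) (nat_lit 0) (XT.lf (nat_lit 84) (nat_lit 39283700445) (nat_lit 0) (nat_lit 45186325516) (nat_lit 1176) (nat_lit 33935401022) (nat_lit 119) (nat_lit 5) (nat_lit 118) (nat_lit 5) (nat_lit 132) (nat_lit 5) (nat_lit 404) (nat_lit 391) (nat_lit 69)) (XT.lf (nat_lit 84) (nat_lit 88005045549) (nat_lit 0) (nat_lit 2559337802) (nat_lit 1176) (nat_lit 29895411259) (nat_lit 119) (nat_lit 5) (nat_lit 118) (nat_lit 5) (nat_lit 132) (nat_lit 5) (nat_lit 405) (nat_lit 391) (nat_lit 68)))))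 (XT.nd (nat_lit 282) (nat_lit 1596) (nat_lit 0) (XT.nd (nat_lit 94) (nat_lit 0) (nat_lit 0) (XT.lf (nat_lit 84) (nat_lit 15561720419) (nat_lit 0) (nat_lit 81850735489) (nat_lit 1176) (nat_lit 25147883856) (nat_lit 120) (nat_lit 5) (nat_lit 119) (nat_lit 5) (nat_lit 133) (nat_lit 5) (nat_lit 406) (nat_lit 391) (nat_lit 67)) (XT.nd (nat_lit 94) (nat_lit 0) (nat_lit 84) (XT.lf (nat_lit 84) (nat_lit 65727877770) (nat_lit 0) (nat_lit 39109447763) (nat_lit 1176) (nat_lit 19877377182) (nat_lit 120) (nat_lit 5) (nat_lit 119) (nat_lit 5) (nat_lit 133) (nat_lit 5) (nat_lit 407) (nat_lit 391) (nat_lit 66)) (XT.lf (nat_lit 0) (nat_lit 112541378474) (nat_lit 1092) (nat_lit 9535971160) (nat_lit 84) (nat_lit 4856982489) (nat_lit 120) (nat_lit 5) (nat_lit 133) (nat_lit 5) (nat_lit 121) (nat_lit 5) (nat_lit 408) (nat_lit 391) (nat_lit 65)))) (XT.nd (nat_lit 94) (nat_lit 588) (nat_lit 0) (XT.lf (nat_lit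 0) (nat_lit 41891757039) (nat_lit 1092) (nat_lit 79407913981) (nat_lit 1176) (nat_lit 7897821761) (nat_lit 107) (nat_lit 5) (nat_lit 120) (nat_lit 5) (nat_lit 121) (nat_lit 5) (nat_lit 409) (nat_lit 391) (nat_lit 64)) (XT.nd (nat_lit 94) (nat_lit 588) (nat_lit 0) (XT.lf (nat_lit 0) (nat_lit 95115773759) (nat_lit 1092) (nat_lit 35313081143) (nat_lit 1176) (nat_lit 1098876158) (nat_lit 107) (nat_lit 5) (nat_lit 120) (nat_lit 5) (nat_lit 121) (nat_lit 5) (nat_lit 410) (nat_lit 391) (nat_lit 63)) (XT.lf (nat_lit 0) (nat_lit 6056523751) (nat_lit 588) (nat_lit 117696533158) (nat_lit 84) (nat_lit 10167124523) (nat_lit 100) (nat_lit 5) (nat_lit 107) (nat_lit 5) (nat_lit 101) (nat_lit 5) (nat_lit 411) (nat_lit 391) (nat_lit 62)))))) (XT.nd (nat_lit 564) (nat_lit 0) (nat_lit 168) (XT.nd (nat_lit 282) (nat_lit 0) (nat_lit 0) (XT.nd (nat_lit 94) (nat_lit 0) (nat_lit 0) (XT.lf (nat_lit 0) (nat_lit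 11399509356) (nat_lit 0) (nat_lit 11399509356) (nat_lit 1092) (nat_lit 26661926082) (nat_lit 114) (nat_lit 5) (nat_lit 114) (nat_lit 3) (nat_lit 127) (nat_lit 3) (nat_lit 392) (nat_lit 392) (nat_lit 80)) (XT.nd (nat_lit 94) (nat_lit 0) (nat_lit 0) (XT.lf (nat_lit 0) (nat_lit 46467482513) (nat_lit 1092) (nat_lit 38488157353) (nat_lit 1176) (nat_lit 15494474339) (nat_lit 114) (nat_lit 5) (nat_lit 127) (nat_lit 3) (nat_lit 128) (nat_lit 5) (nat_lit 393) (nat_lit 392) (nat_lit 79)) (XT.lf (nat_lit 84) (nat_lit 81569087) (nat_lit 0) (nat_lit 47516067946) (nat_lit 1176) (nat_lit 54420831171) (nat_lit 115) (nat_lit 5) (nat_lit 114) (nat_lit 5) (nat_lit 128) (nat_lit 5) (nat_lit 394) (nat_lit 392) (nat_lit 78)))) (XT.nd (nat_lit 94) (nat_lit 0) (nat_lit 84) (XT.lf (nat_lit 84) (nat_lit 40662760731) (nat_lit 0) (nat_lit 8501575931) (nat_lit 1176) (nat_lit 54458658546) (nat_lit 115) (nat_lit 5)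 (nat_lit 114) (nat_lit 5) (nat_lit 128) (nat_lit 5) (nat_lit 395) (nat_lit 392) (nat_lit 77)) (XT.nd (nat_lit 94) (nat_lit 0) (nat_lit 0) (XT.lf (nat_lit 0) (nat_lit 51094074473) (nat_lit 1092) (nat_lit 23090112928) (nat_lit 1176) (nat_lit 31083327386) (nat_lit 115) (nat_lit 5) (nat_lit 128) (nat_lit 5) (nat_lit 129) (nat_lit 5) (nat_lit 396) (nat_lit 392) (nat_lit 76)) (XT.lf (nat_lit 84) (nat_lit 18297560331) (nat_lit 0) (nat_lit 35054326306) (nat_lit 1176) (nat_lit 53602812807) (nat_lit 116) (nat_lit 5) (nat_lit 115) (nat_lit 5) (nat_lit 129) (nat_lit 5) (nat_lit 397) (nat_lit 392) (nat_lit 75))))) (XT.nd (nat_lit 282) (nat_lit 0) (nat_lit 84) (XT.nd (nat_lit 94) (nat_lit 0) (nat_lit 0) (XT.lf (nat_lit 0) (nat_lit 55975425853) (nat_lit 1092) (nat_lit 47284026616) (nat_lit 1176) (nat_lit 5425567351) (nat_lit 116) (nat_lit 5) (nat_lit 129) (nat_lit 5) (nat_lit 130) (nat_lit 5) (nat_lit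 398) (nat_lit 392) (nat_lit 74)) (XT.nd (nat_lit 94) (nat_lit 0) (nat_lit 0) (XT.lf (nat_lit 0) (nat_lit 59038617573) (nat_lit 1092) (nat_lit 4986999690) (nat_lit 1176) (nat_lit 46432255611) (nat_lit 116) (nat_lit 5) (nat_lit 129) (nat_lit 5) (nat_lit 130) (nat_lit 5) (nat_lit 399) (nat_lit 392) (nat_lit 73)) (XT.lf (nat_lit 84) (nat_lit 39415239415) (nat_lit 0) (nat_lit 23172338396) (nat_lit 1176) (nat_lit 49685992193) (nat_lit 117) (nat_lit 5) (nat_lit 116) (nat_lit 5) (nat_lit 130) (nat_lit 5) (nat_lit 400) (nat_lit 392) (nat_lit 72)))) (XT.nd (nat_lit 94) (nat_lit 0) (nat_lit 0) (XT.lf (nat_lit 0) (nat_lit 66486913532) (nat_lit 1092) (nat_lit 29032894104) (nat_lit 1176) (nat_lit 18618295728) (nat_lit 117) (nat_lit 5) (nat_lit 130) (nat_lit 5) (nat_lit 131) (nat_lit 5) (nat_lit 401) (nat_lit 392) (nat_lit 71)) (XT.nd (nat_lit 94) (nat_lit 0) (nat_lit 0) (XT.lf (nat_lit 84) (nat_lit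 16241230050) (nat_lit 0) (nat_lit 54663828620) (nat_lit 1176) (nat_lit 45143043442) (nat_lit 118) (nat_lit 5) (nat_lit 117) (nat_lit 5) (nat_lit 131) (nat_lit 5) (nat_lit 402) (nat_lit 392) (nat_lit 70)) (XT.lf (nat_lit 84) (nat_lit 63534208498) (nat_lit 0) (nat_lit 12228822439) (nat_lit 1176) (nat_lit 42244891747) (nat_lit 118) (nat_lit 5) (nat_lit 117) (nat_lit 5) (nat_lit 131) (nat_lit 5) (nat_lit 403) (nat_lit 392) (nat_lit 69))))))) (XT.nd (nat_lit 53580) (nat_lit 0) (nat_lit 672) (XT.nd (nat_lit 564) (nat_lit 924) (nat_lit 0) (XT.nd (nat_lit 282) (nat_lit 0) (nat_lit 84) (XT.nd (nat_lit 94) (nat_lit 0) (nat_lit 0) (XT.lf (nat_lit 0) (nat_lit 81084125867) (nat_lit 1092) (nat_lit 8048055702) (nat_lit 1176) (nat_lit 30886628480) (nat_lit 118) (nat_lit 5) (nat_lit 131) (nat_lit 5) (nat_lit 132) (nat_lit 5) (nat_lit 404) (nat_lit 392) (nat_lit 68)) (XT.nd (nat_lit 94) (nat_lit 0) (nat_lit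 0) (XT.lf (nat_lit 84) (nat_lit 40507742277) (nat_lit 0) (nat_lit 46589178243) (nat_lit 1176) (nat_lit 34978785907) (nat_lit 119) (nat_lit 5) (nat_lit 118) (nat_lit 5) (nat_lit 132) (nat_lit 5) (nat_lit 405) (nat_lit 392) (nat_lit 67)) (XT.lf (nat_lit 84) (nat_lit 90739261241) (nat_lit 0) (nat_lit 2640691469) (nat_lit 1176) (nat_lit 30813815422) (nat_lit 119) (nat_lit 5) (nat_lit 118) (nat_lit 5) (nat_lit 132) (nat_lit 5) (nat_lit 406) (nat_lit 392) (nat_lit 66)))) (XT.nd (nat_lit 94) (nat_lit 0) (nat_lit 0) (XT.lf (nat_lit 84) (nat_lit 16050428740) (nat_lit 0) (nat_lit 84389687092) (nat_lit 1176) (nat_lit 25919321443) (nat_lit 120) (nat_lit 5) (nat_lit 119) (nat_lit 5) (nat_lit 133) (nat_lit 5) (nat_lit 407) (nat_lit 392) (nat_lit 65)) (XT.nd (nat_lit 94) (nat_lit 0) (nat_lit 84) (XT.lf (nat_lit 84) (nat_lit 67771547692) (nat_lit 0) (nat_lit 40323371974) (nat_lit 1176) (nat_lit 20485674020)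 (nat_lit 120) (nat_lit 5) (nat_lit 119) (nat_lit 5) (nat_lit 133) (nat_lit 5) (nat_lit 408) (nat_lit 392) (nat_lit 64)) (XT.lf (nat_lit 0) (nat_lit 116037553884) (nat_lit 1092) (nat_lit 9825392556) (nat_lit 84) (nat_lit 5006093584) (nat_lit 120) (nat_lit 5) (nat_lit 133) (nat_lit 5) (nat_lit 121) (nat_lit 5) (nat_lit 409) (nat_lit 392) (nat_lit 63))))) (XT.nd (nat_lit 52734) (nat_lit 0) (nat_lit 588) (XT.nd (nat_lit 94) (nat_lit 0) (nat_lit 0) (XT.lf (nat_lit 0) (nat_lit 43196532511) (nat_lit 1092) (nat_lit 81870659526) (nat_lit 1176) (nat_lit 8135172449) (nat_lit 107) (nat_lit 5) (nat_lit 120) (nat_lit 5) (nat_lit 121) (nat_lit 5) (nat_lit 410) (nat_lit 392) (nat_lit 62)) (XT.nd (nat_lit 52546) (nat_lit 0) (nat_lit 588) (XT.lf (nat_lit 0) (nat_lit 98070309404) (nat_lit 1092) (nat_lit 36408853789) (nat_lit 1176) (nat_lit 1125684495) (nat_lit 107) (nat_lit 5) (nat_lit 120) (nat_lit 5)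 (nat_lit 121) (nat_lit 5) (nat_lit 411) (nat_lit 392) (nat_lit 61)) (XT.lf (nat_lit 0) (nat_lit 11755769274) (nat_lit 0) (nat_lit 11755769274) (nat_lit 1092) (nat_lit 27482495760) (nat_lit 114) (nat_lit 5) (nat_lit 114) (nat_lit 3) (nat_lit 127) (nat_lit 3) (nat_lit 393) (nat_lit 393) (nat_lit 78)))) (XT.nd (nat_lit 94) (nat_lit 0) (nat_lit 0) (XT.lf (nat_lit 0) (nat_lit 47919073860) (nat_lit 1092) (nat_lit 39675270010) (nat_lit 1176) (nat_lit 15969338056) (nat_lit 114) (nat_lit 5) (nat_lit 127) (nat_lit 3) (nat_lit 128) (nat_lit 5) (nat_lit 394) (nat_lit 393) (nat_lit 77)) (XT.nd (nat_lit 94) (nat_lit 0) (nat_lit 0) (XT.lf (nat_lit 84) (nat_lit 90057000) (nat_lit 0) (nat_lit 48993931553) (nat_lit 1176) (nat_lit 56096676116) (nat_lit 115) (nat_lit 5) (nat_lit 114) (nat_lit 5) (nat_lit 128) (nat_lit 5) (nat_lit 395) (nat_lit 393) (nat_lit 76)) (XT.lf (nat_lit 84) (nat_lit 41929086402)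 (nat_lit 0) (nat_lit 8769843989) (nat_lit 1176) (nat_lit 56136012924) (nat_lit 115) (nat_lit 5) (nat_lit 114) (nat_lit 5) (nat_lit 128) (nat_lit 5) (nat_lit 396) (nat_lit 393) (nat_lit 75)))))) (XT.nd (nat_lit 564) (nat_lit 0) (nat_lit 168) (XT.nd (nat_lit 282) (nat_lit 0) (nat_lit 84) (XT.nd (nat_lit 94) (nat_lit 0) (nat_lit 0) (XT.lf (nat_lit 0) (nat_lit 52688128975) (nat_lit 1092) (nat_lit 23799900952) (nat_lit 1176) (nat_lit 32042425449) (nat_lit 115) (nat_lit 5) (nat_lit 128) (nat_lit 5) (nat_lit 129) (nat_lit 5) (nat_lit 397) (nat_lit 393) (nat_lit 74)) (XT.nd (nat_lit 94) (nat_lit 0) (nat_lit 84) (XT.lf (nat_lit 84) (nat_lit 18870729378) (nat_lit 0) (nat_lit 36144958077) (nat_lit 1176) (nat_lit 55254264071) (nat_lit 116) (nat_lit 5) (nat_lit 115) (nat_lit 5) (nat_lit 129) (nat_lit 5) (nat_lit 398) (nat_lit 393) (nat_lit 73)) (XT.lf (nat_lit 0) (nat_lit 57720220961) (nat_lit 1092)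 (nat_lit 48743694255) (nat_lit 1176) (nat_lit 5590008127) (nat_lit 116) (nat_lit 5) (nat_lit 129) (nat_lit 5) (nat_lit 130) (nat_lit 5) (nat_lit 399) (nat_lit 393) (nat_lit 72)))) (XT.nd (nat_lit 94) (nat_lit 0) (nat_lit 0) (XT.lf (nat_lit 0) (nat_lit 60878084268) (nat_lit 1092) (nat_lit 5135644026) (nat_lit 1176) (nat_lit 47868016531) (nat_lit 116) (nat_lit 5) (nat_lit 129) (nat_lit 5) (nat_lit 130) (nat_lit 5) (nat_lit 400) (nat_lit 393) (nat_lit 71)) (XT.nd (nat_lit 94) (nat_lit 0) (nat_lit 84) (XT.lf (nat_lit 84) (nat_lit 40643004226) (nat_lit 0) (nat_lit 23893837785) (nat_lit 1176) (nat_lit 51216894429) (nat_lit 117) (nat_lit 5) (nat_lit 116) (nat_lit 5) (nat_lit 130) (nat_lit 5) (nat_lit 401) (nat_lit 393) (nat_lit 70)) (XT.lf (nat_lit 0) (nat_lit 68556754670) (nat_lit 1092) (nat_lit 29926863443) (nat_lit 1176) (nat_lit 19192462610) (nat_lit 117) (nat_lit 5) (nat_lit 130) (nat_lit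 5) (nat_lit 131) (nat_lit 5) (nat_lit 402) (nat_lit 393) (nat_lit 69))))) (XT.nd (nat_lit 282) (nat_lit 0) (nat_lit 84) (XT.nd (nat_lit 94) (nat_lit 0) (nat_lit 0) (XT.lf (nat_lit 84) (nat_lit 16750697305) (nat_lit 0) (nat_lit 56360961418) (nat_lit 1176) (nat_lit 46533638005) (nat_lit 118) (nat_lit 5) (nat_lit 117) (nat_lit 5) (nat_lit 131) (nat_lit 5) (nat_lit 403) (nat_lit 393) (nat_lit 68)) (XT.nd (nat_lit 94) (nat_lit 0) (nat_lit 84) (XT.lf (nat_lit 84) (nat_lit 65509578005) (nat_lit 0) (nat_lit 12610393248) (nat_lit 1176) (nat_lit 43545909401) (nat_lit 118) (nat_lit 5) (nat_lit 117) (nat_lit 5) (nat_lit 131) (nat_lit 5) (nat_lit 404) (nat_lit 393) (nat_lit 67)) (XT.lf (nat_lit 0) (nat_lit 83605747136) (nat_lit 1092) (nat_lit 8291608229) (nat_lit 1176) (nat_lit 31841759548) (nat_lit 118) (nat_lit 5) (nat_lit 131) (nat_lit 5) (nat_lit 132) (nat_lit 5) (nat_lit 405) (nat_lit 393) (nat_lit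 66)))) (XT.nd (nat_lit 94) (nat_lit 0) (nat_lit 0) (XT.lf (nat_lit 84) (nat_lit 41769359378) (nat_lit 0) (nat_lit 48035396402) (nat_lit 1176) (nat_lit 36055025860) (nat_lit 119) (nat_lit 5) (nat_lit 118) (nat_lit 5) (nat_lit 132) (nat_lit 5) (nat_lit 406) (nat_lit 393) (nat_lit 65)) (XT.nd (nat_lit 94) (nat_lit 0) (nat_lit 84) (XT.lf (nat_lit 84) (nat_lit 93557878718) (nat_lit 0) (nat_lit 2724447796) (nat_lit 1176) (nat_lit 31761184912) (nat_lit 119) (nat_lit 5) (nat_lit 118) (nat_lit 5) (nat_lit 132) (nat_lit 5) (nat_lit 407) (nat_lit 393) (nat_lit 64)) (XT.lf (nat_lit 84) (nat_lit 16553914156) (nat_lit 0) (nat_lit 87007252679) (nat_lit 1176) (nat_lit 26715156145) (nat_lit 120) (nat_lit 5) (nat_lit 119) (nat_lit 5) (nat_lit 133) (nat_lit 5) (nat_lit 408) (nat_lit 393) (nat_lit 63))))))))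
noncomputable def xc250 : XT := (XT.nd (nat_lit 107536) (nat_lit 0) (nat_lit 588) (XT.nd (nat_lit 53674) (nat_lit 0) (nat_lit 588) (XT.nd (nat_lit 53110) (nat_lit 0) (nat_lit 588) (XT.nd (nat_lit 52828) (nat_lit 0) (nat_lit 588) (XT.nd (nat_lit 94) (nat_lit 1008) (nat_lit 0) (XT.lf (nat_lit 84) (nat_lit 69878209730) (nat_lit 0) (nat_lit 41574837133) (nat_lit 1176) (nat_lit 21113296100) (nat_lit 120) (nat_lit 5) (nat_lit 119) (nat_lit 5) (nat_lit 133) (nat_lit 5) (nat_lit 409) (nat_lit 393) (nat_lit 62)) (XT.nd (nat_lit 94) (nat_lit 1092) (nat_lit 0) (XT.lf (nat_lit 0) (nat_lit 119641672852) (nat_lit 1092) (nat_lit 10124152880) (nat_lit 84) (nat_lit 5159913327) (nat_lit 120) (nat_lit 5) (nat_lit 133) (nat_lit 5) (nat_lit 121) (nat_lit 5) (nat_lit 410) (nat_lit 393) (nat_lit 61)) (XT.lf (nat_lit 0) (nat_lit 44541392873) (nat_lit 1092) (nat_lit 84409685016) (nat_lit 1176) (nat_lit 8380324168)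 (nat_lit 107) (nat_lit 5) (nat_lit 120) (nat_lit 5) (nat_lit 121) (nat_lit 5) (nat_lit 411) (nat_lit 393) (nat_lit 60)))) (XT.nd (nat_lit 94) (nat_lit 0) (nat_lit 0) (XT.lf (nat_lit 0) (nat_lit 12122902951) (nat_lit 0) (nat_lit 12122902951) (nat_lit 1092) (nat_lit 28328855529) (nat_lit 114) (nat_lit 5) (nat_lit 114) (nat_lit 3) (nat_lit 127) (nat_lit 3) (nat_lit 394) (nat_lit 394) (nat_lit 76)) (XT.nd (nat_lit 94) (nat_lit 0) (nat_lit 0) (XT.lf (nat_lit 0) (nat_lit 49415007104) (nat_lit 1092) (nat_lit 40899539748) (nat_lit 1176) (nat_lit 16459246249) (nat_lit 114) (nat_lit 5) (nat_lit 127) (nat_lit 3) (nat_lit 128) (nat_lit 5) (nat_lit 395) (nat_lit 394) (nat_lit 75)) (XT.lf (nat_lit 84) (nat_lit 98455060) (nat_lit 0) (nat_lit 50517320739) (nat_lit 1176) (nat_lit 57825135698) (nat_lit 115) (nat_lit 5) (nat_lit 114) (nat_lit 5) (nat_lit 128) (nat_lit 5) (nat_lit 396) (nat_lit 394) (nat_lit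 74))))) (XT.nd (nat_lit 282) (nat_lit 0) (nat_lit 168) (XT.nd (nat_lit 94) (nat_lit 0) (nat_lit 84) (XT.lf (nat_lit 84) (nat_lit 43234325804) (nat_lit 0) (nat_lit 9046148831) (nat_lit 1176) (nat_lit 57866008784) (nat_lit 115) (nat_lit 5) (nat_lit 114) (nat_lit 5) (nat_lit 128) (nat_lit 5) (nat_lit 397) (nat_lit 394) (nat_lit 73)) (XT.nd (nat_lit 94) (nat_lit 0) (nat_lit 0) (XT.lf (nat_lit 0) (nat_lit 54330998665) (nat_lit 1092) (nat_lit 24532048119) (nat_lit 1176) (nat_lit 33031521212) (nat_lit 115) (nat_lit 5) (nat_lit 128) (nat_lit 5) (nat_lit 129) (nat_lit 5) (nat_lit 398) (nat_lit 394) (nat_lit 72)) (XT.lf (nat_lit 84) (nat_lit 19461314552) (nat_lit 0) (nat_lit 37269165606) (nat_lit 1176) (nat_lit 56957516616) (nat_lit 116) (nat_lit 5) (nat_lit 115) (nat_lit 5) (nat_lit 129) (nat_lit 5) (nat_lit 399) (nat_lit 394) (nat_lit 71)))) (XT.nd (nat_lit 94) (nat_lit 0) (nat_lit 0) (XT.lf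 (nat_lit 0) (nat_lit 59518538645) (nat_lit 1092) (nat_lit 50248975106) (nat_lit 1176) (nat_lit 5759768793) (nat_lit 116) (nat_lit 5) (nat_lit 129) (nat_lit 5) (nat_lit 130) (nat_lit 5) (nat_lit 400) (nat_lit 394) (nat_lit 70)) (XT.nd (nat_lit 94) (nat_lit 0) (nat_lit 0) (XT.lf (nat_lit 0) (nat_lit 62774025380) (nat_lit 1092) (nat_lit 5289248922) (nat_lit 1176) (nat_lit 49348501585) (nat_lit 116) (nat_lit 5) (nat_lit 129) (nat_lit 5) (nat_lit 130) (nat_lit 5) (nat_lit 401) (nat_lit 394) (nat_lit 69)) (XT.lf (nat_lit 84) (nat_lit 41908480730) (nat_lit 0) (nat_lit 24637516666) (nat_lit 1176) (nat_lit 52795809251) (nat_lit 117) (nat_lit 5) (nat_lit 116) (nat_lit 5) (nat_lit 130) (nat_lit 5) (nat_lit 402) (nat_lit 394) (nat_lit 68)))))) (XT.nd (nat_lit 564) (nat_lit 252) (nat_lit 0) (XT.nd (nat_lit 282) (nat_lit 0) (nat_lit 84) (XT.nd (nat_lit 94) (nat_lit 0) (nat_lit 0) (XT.lf (nat_lit 0)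 (nat_lit 70690242796) (nat_lit 1092) (nat_lit 30848904205) (nat_lit 1176) (nat_lit 19784606378) (nat_lit 117) (nat_lit 5) (nat_lit 130) (nat_lit 5) (nat_lit 131) (nat_lit 5) (nat_lit 403) (nat_lit 394) (nat_lit 67)) (XT.nd (nat_lit 94) (nat_lit 0) (nat_lit 0) (XT.lf (nat_lit 84) (nat_lit 17275603300) (nat_lit 0) (nat_lit 58110554047) (nat_lit 1176) (nat_lit 47967864595) (nat_lit 118) (nat_lit 5) (nat_lit 117) (nat_lit 5) (nat_lit 131) (nat_lit 5) (nat_lit 404) (nat_lit 394) (nat_lit 66)) (XT.lf (nat_lit 84) (nat_lit 67545839887) (nat_lit 0) (nat_lit 13003646016) (nat_lit 1176) (nat_lit 44887766454) (nat_lit 118) (nat_lit 5) (nat_lit 117) (nat_lit 5) (nat_lit 131) (nat_lit 5) (nat_lit 405) (nat_lit 394) (nat_lit 65)))) (XT.nd (nat_lit 94) (nat_lit 0) (nat_lit 0) (XT.lf (nat_lit 0) (nat_lit 86205064019) (nat_lit 1092) (nat_lit 8543062555) (nat_lit 1176) (nat_lit 32826639136) (nat_lit 118)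 (nat_lit 5) (nat_lit 131) (nat_lit 5) (nat_lit 132) (nat_lit 5) (nat_lit 406) (nat_lit 394) (nat_lit 64)) (XT.nd (nat_lit 94) (nat_lit 0) (nat_lit 0) (XT.lf (nat_lit 84) (nat_lit 43069738499) (nat_lit 0) (nat_lit 49526331606) (nat_lit 1176) (nat_lit 37165109170) (nat_lit 119) (nat_lit 5) (nat_lit 118) (nat_lit 5) (nat_lit 132) (nat_lit 5) (nat_lit 407) (nat_lit 394) (nat_lit 63)) (XT.lf (nat_lit 84) (nat_lit 96463535694) (nat_lit 0) (nat_lit 2810688332) (nat_lit 1176) (nat_lit 32738388346) (nat_lit 119) (nat_lit 5) (nat_lit 118) (nat_lit 5) (nat_lit 132) (nat_lit 5) (nat_lit 408) (nat_lit 394) (nat_lit 62))))) (XT.nd (nat_lit 53016) (nat_lit 0) (nat_lit 0) (XT.nd (nat_lit 94) (nat_lit 420) (nat_lit 0) (XT.lf (nat_lit 84) (nat_lit 17072656842) (nat_lit 0) (nat_lit 89705874823) (nat_lit 1176) (nat_lit 27536115690) (nat_lit 120) (nat_lit 5) (nat_lit 119) (nat_lit 5) (nat_lit 133) (nat_lit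 5) (nat_lit 409) (nat_lit 394) (nat_lit 61)) (XT.nd (nat_lit 52828) (nat_lit 420) (nat_lit 0) (XT.lf (nat_lit 84) (nat_lit 72049838060) (nat_lit 0) (nat_lit 42865012382) (nat_lit 1176) (nat_lit 21760814782) (nat_lit 120) (nat_lit 5) (nat_lit 119) (nat_lit 5) (nat_lit 133) (nat_lit 5) (nat_lit 410) (nat_lit 394) (nat_lit 60)) (XT.lf (nat_lit 0) (nat_lit 12501257561) (nat_lit 0) (nat_lit 12501257561) (nat_lit 1092) (nat_lit 29201784005) (nat_lit 114) (nat_lit 5) (nat_lit 114) (nat_lit 3) (nat_lit 127) (nat_lit 3) (nat_lit 395) (nat_lit 395) (nat_lit 74)))) (XT.nd (nat_lit 94) (nat_lit 0) (nat_lit 0) (XT.lf (nat_lit 0) (nat_lit 50956695783) (nat_lit 1092) (nat_lit 42162097315) (nat_lit 1176) (nat_lit 16964646123) (nat_lit 114) (nat_lit 5) (nat_lit 127) (nat_lit 3) (nat_lit 128) (nat_lit 5) (nat_lit 396) (nat_lit 395) (nat_lit 73)) (XT.nd (nat_lit 94) (nat_lit 0) (nat_lit 0) (XT.lf (nat_lit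 84) (nat_lit 106781390) (nat_lit 0) (nat_lit 52087663868) (nat_lit 1176) (nat_lit 59607801674) (nat_lit 115) (nat_lit 5) (nat_lit 114) (nat_lit 5) (nat_lit 128) (nat_lit 5) (nat_lit 397) (nat_lit 395) (nat_lit 72)) (XT.lf (nat_lit 84) (nat_lit 44579705543) (nat_lit 0) (nat_lit 9330756153) (nat_lit 1176) (nat_lit 59650239896) (nat_lit 115) (nat_lit 5) (nat_lit 114) (nat_lit 5) (nat_lit 128) (nat_lit 5) (nat_lit 398) (nat_lit 395) (nat_lit 71))))))) (XT.nd (nat_lit 53956) (nat_lit 84) (nat_lit 0) (XT.nd (nat_lit 564) (nat_lit 0) (nat_lit 168) (XT.nd (nat_lit 282) (nat_lit 0) (nat_lit 84) (XT.nd (nat_lit 94) (nat_lit 0) (nat_lit 0) (XT.lf (nat_lit 0) (nat_lit 56024232381) (nat_lit 1092) (nat_lit 25287226494) (nat_lit 1176) (nat_lit 34051528867) (nat_lit 115) (nat_lit 5) (nat_lit 128) (nat_lit 5) (nat_lit 129) (nat_lit 5) (nat_lit 399) (nat_lit 395) (nat_lit 70)) (XT.nd (nat_lit 94) (nat_lit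 0) (nat_lit 84) (XT.lf (nat_lit 84) (nat_lit 20069876610) (nat_lit 0) (nat_lit 38428003592) (nat_lit 1176) (nat_lit 58714140370) (nat_lit 116) (nat_lit 5) (nat_lit 115) (nat_lit 5) (nat_lit 129) (nat_lit 5) (nat_lit 400) (nat_lit 395) (nat_lit 69)) (XT.lf (nat_lit 0) (nat_lit 61372071635) (nat_lit 1092) (nat_lit 51801261648) (nat_lit 1176) (nat_lit 5935001103) (nat_lit 116) (nat_lit 5) (nat_lit 129) (nat_lit 5) (nat_lit 130) (nat_lit 5) (nat_lit 401) (nat_lit 395) (nat_lit 68)))) (XT.nd (nat_lit 94) (nat_lit 0) (nat_lit 0) (XT.lf (nat_lit 0) (nat_lit 64728224135) (nat_lit 1092) (nat_lit 5447947272) (nat_lit 1176) (nat_lit 50875084453) (nat_lit 116) (nat_lit 5) (nat_lit 129) (nat_lit 5) (nat_lit 130) (nat_lit 5) (nat_lit 402) (nat_lit 395) (nat_lit 67)) (XT.nd (nat_lit 94) (nat_lit 0) (nat_lit 84) (XT.lf (nat_lit 84) (nat_lit 43212858662) (nat_lit 0) (nat_lit 25404073680) (nat_lit 1176)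 (nat_lit 54424192200) (nat_lit 117) (nat_lit 5) (nat_lit 116) (nat_lit 5) (nat_lit 130) (nat_lit 5) (nat_lit 403) (nat_lit 395) (nat_lit 66)) (XT.lf (nat_lit 0) (nat_lit 72889381651) (nat_lit 1092) (nat_lit 31799865379) (nat_lit 1176) (nat_lit 20395273788) (nat_lit 117) (nat_lit 5) (nat_lit 130) (nat_lit 5) (nat_lit 131) (nat_lit 5) (nat_lit 404) (nat_lit 395) (nat_lit 65))))) (XT.nd (nat_lit 282) (nat_lit 0) (nat_lit 84) (XT.nd (nat_lit 94) (nat_lit 0) (nat_lit 0) (XT.lf (nat_lit 84) (nat_lit 17816447646) (nat_lit 0) (nat_lit 59914241725) (nat_lit 1176) (nat_lit 49447044791) (nat_lit 118) (nat_lit 5) (nat_lit 117) (nat_lit 5) (nat_lit 131) (nat_lit 5) (nat_lit 405) (nat_lit 395) (nat_lit 64)) (XT.nd (nat_lit 94) (nat_lit 0) (nat_lit 84) (XT.lf (nat_lit 84) (nat_lit 69644902189) (nat_lit 0) (nat_lit 13408951576) (nat_lit 1176) (nat_lit 46271698847) (nat_lit 118) (nat_lit 5) (nat_lit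 117) (nat_lit 5) (nat_lit 131) (nat_lit 5) (nat_lit 406) (nat_lit 395) (nat_lit 63)) (XT.lf (nat_lit 0) (nat_lit 88884513194) (nat_lit 1092) (nat_lit 8802642806) (nat_lit 1176) (nat_lit 33842181187) (nat_lit 118) (nat_lit 5) (nat_lit 131) (nat_lit 5) (nat_lit 132) (nat_lit 5) (nat_lit 407) (nat_lit 395) (nat_lit 62)))) (XT.nd (nat_lit 94) (nat_lit 0) (nat_lit 0) (XT.lf (nat_lit 84) (nat_lit 44410101881) (nat_lit 0) (nat_lit 51063376939) (nat_lit 1176) (nat_lit 38310056557) (nat_lit 119) (nat_lit 5) (nat_lit 118) (nat_lit 5) (nat_lit 132) (nat_lit 5) (nat_lit 408) (nat_lit 395) (nat_lit 61)) (XT.nd (nat_lit 94) (nat_lit 0) (nat_lit 84) (XT.lf (nat_lit 84) (nat_lit 99458950392) (nat_lit 0) (nat_lit 2899496734) (nat_lit 1176) (nat_lit 33746323003) (nat_lit 119) (nat_lit 5) (nat_lit 118) (nat_lit 5) (nat_lit 132) (nat_lit 5) (nat_lit 409) (nat_lit 395) (nat_lit 60)) (XT.lf (nat_lit 84) (nat_lit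 17607150551) (nat_lit 0) (nat_lit 92488071488) (nat_lit 1176) (nat_lit 28382952059) (nat_lit 120) (nat_lit 5) (nat_lit 119) (nat_lit 5) (nat_lit 133) (nat_lit 5) (nat_lit 410) (nat_lit 395) (nat_lit 59)))))) (XT.nd (nat_lit 564) (nat_lit 0) (nat_lit 168) (XT.nd (nat_lit 282) (nat_lit 0) (nat_lit 0) (XT.nd (nat_lit 94) (nat_lit 0) (nat_lit 0) (XT.lf (nat_lit 0) (nat_lit 12891190441) (nat_lit 0) (nat_lit 12891190441) (nat_lit 1092) (nat_lit 30102085182) (nat_lit 114) (nat_lit 5) (nat_lit 114) (nat_lit 3) (nat_lit 127) (nat_lit 3) (nat_lit 396) (nat_lit 396) (nat_lit 72)) (XT.nd (nat_lit 94) (nat_lit 0) (nat_lit 0) (XT.lf (nat_lit 0) (nat_lit 52545594951) (nat_lit 1092) (nat_lit 43464109762) (nat_lit 1176) (nat_lit 17485999882) (nat_lit 114) (nat_lit 5) (nat_lit 127) (nat_lit 3) (nat_lit 128) (nat_lit 5) (nat_lit 397) (nat_lit 396) (nat_lit 71)) (XT.lf (nat_lit 84) (nat_lit 115053435) (nat_lit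 0) (nat_lit 53706432571) (nat_lit 1176) (nat_lit 61446317473) (nat_lit 115) (nat_lit 5) (nat_lit 114) (nat_lit 5) (nat_lit 128) (nat_lit 5) (nat_lit 398) (nat_lit 396) (nat_lit 70)))) (XT.nd (nat_lit 94) (nat_lit 0) (nat_lit 84) (XT.lf (nat_lit 84) (nat_lit 45966489045) (nat_lit 0) (nat_lit 9623938909) (nat_lit 1176) (nat_lit 61490351695) (nat_lit 115) (nat_lit 5) (nat_lit 114) (nat_lit 5) (nat_lit 128) (nat_lit 5) (nat_lit 399) (nat_lit 396) (nat_lit 69)) (XT.nd (nat_lit 94) (nat_lit 0) (nat_lit 0) (XT.lf (nat_lit 0) (nat_lit 57769424871) (nat_lit 1092) (nat_lit 26066130222) (nat_lit 1176) (nat_lit 35103391880) (nat_lit 115) (nat_lit 5) (nat_lit 128) (nat_lit 5) (nat_lit 129) (nat_lit 5) (nat_lit 400) (nat_lit 396) (nat_lit 68)) (XT.lf (nat_lit 84) (nat_lit 20696992455) (nat_lit 0) (nat_lit 39622558608) (nat_lit 1176) (nat_lit 60525756056) (nat_lit 116) (nat_lit 5) (nat_lit 115) (nat_lit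 5) (nat_lit 129) (nat_lit 5) (nat_lit 401) (nat_lit 396) (nat_lit 67))))) (XT.nd (nat_lit 282) (nat_lit 0) (nat_lit 84) (XT.nd (nat_lit 94) (nat_lit 0) (nat_lit 0) (XT.lf (nat_lit 0) (nat_lit 63282563149) (nat_lit 1092) (nat_lit 53401990801) (nat_lit 1176) (nat_lit 6115862295) (nat_lit 116) (nat_lit 5) (nat_lit 129) (nat_lit 5) (nat_lit 130) (nat_lit 5) (nat_lit 402) (nat_lit 396) (nat_lit 66)) (XT.nd (nat_lit 94) (nat_lit 0) (nat_lit 0) (XT.lf (nat_lit 0) (nat_lit 66742517117) (nat_lit 1092) (nat_lit 5611877325) (nat_lit 1176) (nat_lit 52449182156) (nat_lit 116) (nat_lit 5) (nat_lit 129) (nat_lit 5) (nat_lit 130) (nat_lit 5) (nat_lit 403) (nat_lit 396) (nat_lit 65)) (XT.lf (nat_lit 84) (nat_lit 44557363415) (nat_lit 0) (nat_lit 26194228468) (nat_lit 1176) (nat_lit 56103545882) (nat_lit 117) (nat_lit 5) (nat_lit 116) (nat_lit 5) (nat_lit 130) (nat_lit 5) (nat_lit 404) (nat_lit 396) (nat_lit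 64)))) (XT.nd (nat_lit 94) (nat_lit 0) (nat_lit 0) (XT.lf (nat_lit 0) (nat_lit 75156235278) (nat_lit 1092) (nat_lit 32780623526) (nat_lit 1176) (nat_lit 21025029172) (nat_lit 117) (nat_lit 5) (nat_lit 130) (nat_lit 5) (nat_lit 131) (nat_lit 5) (nat_lit 405) (nat_lit 396) (nat_lit 63)) (XT.nd (nat_lit 94) (nat_lit 0) (nat_lit 0) (XT.lf (nat_lit 84) (nat_lit 18373744201) (nat_lit 0) (nat_lit 61773709827) (nat_lit 1176) (nat_lit 50972542978) (nat_lit 118) (nat_lit 5) (nat_lit 117) (nat_lit 5) (nat_lit 131) (nat_lit 5) (nat_lit 406) (nat_lit 396) (nat_lit 62)) (XT.lf (nat_lit 84) (nat_lit 71808730895) (nat_lit 0) (nat_lit 13826691741) (nat_lit 1176) (nat_lit 47698982617) (nat_lit 118) (nat_lit 5) (nat_lit 117) (nat_lit 5) (nat_lit 131) (nat_lit 5) (nat_lit 407) (nat_lit 396) (nat_lit 61))))))))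
noncomputable def xc251 : XT := (XT.nd (nat_lit 108006) (nat_lit 0) (nat_lit 0) (XT.nd (nat_lit 53956) (nat_lit 0) (nat_lit 0) (XT.nd (nat_lit 53392) (nat_lit 0) (nat_lit 0) (XT.nd (nat_lit 282) (nat_lit 336) (nat_lit 0) (XT.nd (nat_lit 94) (nat_lit 0) (nat_lit 0) (XT.lf (nat_lit 0) (nat_lit 91646605211) (nat_lit 1092) (nat_lit 9070581289) (nat_lit 1176) (nat_lit 34889328467) (nat_lit 118) (nat_lit 5) (nat_lit 131) (nat_lit 5) (nat_lit 132) (nat_lit 5) (nat_lit 408) (nat_lit 396) (nat_lit 60)) (XT.nd (nat_lit 94) (nat_lit 0) (nat_lit 0) (XT.lf (nat_lit 84) (nat_lit 45791708436) (nat_lit 0) (nat_lit 52647968263) (nat_lit 1176) (nat_lit 39490922063) (nat_lit 119) (nat_lit 5) (nat_lit 118) (nat_lit 5) (nat_lit 132) (nat_lit 5) (nat_lit 409) (nat_lit 396) (nat_lit 59)) (XT.lf (nat_lit 84) (nat_lit 102546924116) (nat_lit 0) (nat_lit 2990958862) (nat_lit 1176) (nat_lit 34785915615) (nat_lit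 119) (nat_lit 5) (nat_lit 118) (nat_lit 5) (nat_lit 132) (nat_lit 5) (nat_lit 410) (nat_lit 396) (nat_lit 58)))) (XT.nd (nat_lit 52922) (nat_lit 420) (nat_lit 0) (XT.lf (nat_lit 84) (nat_lit 18157903111) (nat_lit 0) (nat_lit 95356438388) (nat_lit 1176) (nat_lit 29256442137) (nat_lit 120) (nat_lit 5) (nat_lit 119) (nat_lit 5) (nat_lit 133) (nat_lit 5) (nat_lit 411) (nat_lit 396) (nat_lit 57)) (XT.nd (nat_lit 94) (nat_lit 0) (nat_lit 0) (XT.lf (nat_lit 0) (nat_lit 13293069446) (nat_lit 0) (nat_lit 13293069446) (nat_lit 1092) (nat_lit 31030589136) (nat_lit 114) (nat_lit 5) (nat_lit 114) (nat_lit 3) (nat_lit 127) (nat_lit 3) (nat_lit 397) (nat_lit 397) (nat_lit 70)) (XT.lf (nat_lit 0) (nat_lit 54183202597) (nat_lit 1092) (nat_lit 44806781498) (nat_lit 1176) (nat_lit 18023785129) (nat_lit 114) (nat_lit 5) (nat_lit 127) (nat_lit 3) (nat_lit 128) (nat_lit 5) (nat_lit 398) (nat_lit 397) (nat_lit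 69))))) (XT.nd (nat_lit 282) (nat_lit 0) (nat_lit 84) (XT.nd (nat_lit 94) (nat_lit 0) (nat_lit 0) (XT.lf (nat_lit 84) (nat_lit 123288016) (nat_lit 0) (nat_lit 55375143150) (nat_lit 1176) (nat_lit 63342379660) (nat_lit 115) (nat_lit 5) (nat_lit 114) (nat_lit 5) (nat_lit 128) (nat_lit 5) (nat_lit 399) (nat_lit 397) (nat_lit 68)) (XT.nd (nat_lit 94) (nat_lit 0) (nat_lit 84) (XT.lf (nat_lit 84) (nat_lit 47395977775) (nat_lit 0) (nat_lit 9925977590) (nat_lit 1176) (nat_lit 63388042748) (nat_lit 115) (nat_lit 5) (nat_lit 114) (nat_lit 5) (nat_lit 128) (nat_lit 5) (nat_lit 400) (nat_lit 397) (nat_lit 67)) (XT.lf (nat_lit 0) (nat_lit 59568218335) (nat_lit 1092) (nat_lit 26869476141) (nat_lit 1176) (nat_lit 36188083840) (nat_lit 115) (nat_lit 5) (nat_lit 128) (nat_lit 5) (nat_lit 129) (nat_lit 5) (nat_lit 401) (nat_lit 397) (nat_lit 66)))) (XT.nd (nat_lit 94) (nat_lit 0) (nat_lit 84) (XT.lf (nat_lit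 84) (nat_lit 21343255713) (nat_lit 0) (nat_lit 40853950141) (nat_lit 1176) (nat_lit 62394036640) (nat_lit 116) (nat_lit 5) (nat_lit 115) (nat_lit 5) (nat_lit 129) (nat_lit 5) (nat_lit 402) (nat_lit 397) (nat_lit 65)) (XT.nd (nat_lit 94) (nat_lit 0) (nat_lit 0) (XT.lf (nat_lit 0) (nat_lit 65251808575) (nat_lit 1092) (nat_lit 55052645229) (nat_lit 1176) (nat_lit 6302515214) (nat_lit 116) (nat_lit 5) (nat_lit 129) (nat_lit 5) (nat_lit 130) (nat_lit 5) (nat_lit 403) (nat_lit 397) (nat_lit 64)) (XT.lf (nat_lit 0) (nat_lit 68818796029) (nat_lit 1092) (nat_lit 5781182780) (nat_lit 1176) (nat_lit 54072256355) (nat_lit 116) (nat_lit 5) (nat_lit 129) (nat_lit 5) (nat_lit 130) (nat_lit 5) (nat_lit 404) (nat_lit 397) (nat_lit 63)))))) (XT.nd (nat_lit 564) (nat_lit 168) (nat_lit 0) (XT.nd (nat_lit 282) (nat_lit 0) (nat_lit 84) (XT.nd (nat_lit 94) (nat_lit 0) (nat_lit 84) (XT.lf (nat_lit 84) (nat_lit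 45943257217) (nat_lit 0) (nat_lit 27008722364) (nat_lit 1176) (nat_lit 57835421314) (nat_lit 117) (nat_lit 5) (nat_lit 116) (nat_lit 5) (nat_lit 130) (nat_lit 5) (nat_lit 405) (nat_lit 397) (nat_lit 62)) (XT.nd (nat_lit 94) (nat_lit 0) (nat_lit 0) (XT.lf (nat_lit 0) (nat_lit 77492929996) (nat_lit 1092) (nat_lit 33792083565) (nat_lit 1176) (nat_lit 21674454939) (nat_lit 117) (nat_lit 5) (nat_lit 130) (nat_lit 5) (nat_lit 131) (nat_lit 5) (nat_lit 406) (nat_lit 397) (nat_lit 61)) (XT.lf (nat_lit 84) (nat_lit 18948021579) (nat_lit 0) (nat_lit 63690695478) (nat_lit 1176) (nat_lit 52545767567) (nat_lit 118) (nat_lit 5) (nat_lit 117) (nat_lit 5) (nat_lit 131) (nat_lit 5) (nat_lit 407) (nat_lit 397) (nat_lit 60)))) (XT.nd (nat_lit 94) (nat_lit 0) (nat_lit 84) (XT.lf (nat_lit 84) (nat_lit 74039351804) (nat_lit 0) (nat_lit 14257259676) (nat_lit 1176) (nat_lit 49170935032) (nat_lit 118) (nat_lit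 5) (nat_lit 117) (nat_lit 5) (nat_lit 131) (nat_lit 5) (nat_lit 408) (nat_lit 397) (nat_lit 59)) (XT.nd (nat_lit 94) (nat_lit 0) (nat_lit 0) (XT.lf (nat_lit 0) (nat_lit 94493926879) (nat_lit 1092) (nat_lit 9347118674) (nat_lit 1176) (nat_lit 35969053426) (nat_lit 118) (nat_lit 5) (nat_lit 131) (nat_lit 5) (nat_lit 132) (nat_lit 5) (nat_lit 409) (nat_lit 397) (nat_lit 58)) (XT.lf (nat_lit 84) (nat_lit 47215854950) (nat_lit 0) (nat_lit 54281585569) (nat_lit 1176) (nat_lit 40708793991) (nat_lit 119) (nat_lit 5) (nat_lit 118) (nat_lit 5) (nat_lit 132) (nat_lit 5) (nat_lit 410) (nat_lit 397) (nat_lit 57))))) (XT.nd (nat_lit 53204) (nat_lit 0) (nat_lit 0) (XT.nd (nat_lit 53016) (nat_lit 336) (nat_lit 0) (XT.lf (nat_lit 84) (nat_lit 105730343897) (nat_lit 0) (nat_lit 3085162864) (nat_lit 1176) (nat_lit 35858123174) (nat_lit 119) (nat_lit 5) (nat_lit 118) (nat_lit 5) (nat_lit 132) (nat_lit 5)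 (nat_lit 411) (nat_lit 397) (nat_lit 56)) (XT.nd (nat_lit 94) (nat_lit 0) (nat_lit 0) (XT.lf (nat_lit 0) (nat_lit 13707273305) (nat_lit 0) (nat_lit 13707273305) (nat_lit 1092) (nat_lit 31988152774) (nat_lit 114) (nat_lit 5) (nat_lit 114) (nat_lit 3) (nat_lit 127) (nat_lit 3) (nat_lit 398) (nat_lit 398) (nat_lit 68)) (XT.lf (nat_lit 0) (nat_lit 55871061108) (nat_lit 1092) (nat_lit 46191355375) (nat_lit 1176) (nat_lit 18578495274) (nat_lit 114) (nat_lit 5) (nat_lit 127) (nat_lit 3) (nat_lit 128) (nat_lit 5) (nat_lit 399) (nat_lit 398) (nat_lit 67)))) (XT.nd (nat_lit 94) (nat_lit 0) (nat_lit 0) (XT.lf (nat_lit 84) (nat_lit 131501380) (nat_lit 0) (nat_lit 57095358014) (nat_lit 1176) (nat_lit 65297739453) (nat_lit 115) (nat_lit 5) (nat_lit 114) (nat_lit 5) (nat_lit 128) (nat_lit 5) (nat_lit 400) (nat_lit 398) (nat_lit 66)) (XT.nd (nat_lit 94) (nat_lit 0) (nat_lit 84) (XT.lf (nat_lit 84) (nat_lit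 48869512480) (nat_lit 0) (nat_lit 10237160515) (nat_lit 1176) (nat_lit 65345066277) (nat_lit 115) (nat_lit 5) (nat_lit 114) (nat_lit 5) (nat_lit 128) (nat_lit 5) (nat_lit 401) (nat_lit 398) (nat_lit 65)) (XT.lf (nat_lit 0) (nat_lit 61422304021) (nat_lit 1092) (nat_lit 27698004417) (nat_lit 1176) (nat_lit 37306609344) (nat_lit 115) (nat_lit 5) (nat_lit 128) (nat_lit 5) (nat_lit 129) (nat_lit 5) (nat_lit 402) (nat_lit 398) (nat_lit 64))))))) (XT.nd (nat_lit 54050) (nat_lit 0) (nat_lit 0) (XT.nd (nat_lit 564) (nat_lit 84) (nat_lit 0) (XT.nd (nat_lit 282) (nat_lit 0) (nat_lit 84) (XT.nd (nat_lit 94) (nat_lit 0) (nat_lit 84) (XT.lf (nat_lit 84) (nat_lit 22009277321) (nat_lit 0) (nat_lit 42123331655) (nat_lit 1176) (nat_lit 64320708833) (nat_lit 116) (nat_lit 5) (nat_lit 115) (nat_lit 5) (nat_lit 129) (nat_lit 5) (nat_lit 403) (nat_lit 398) (nat_lit 63)) (XT.nd (nat_lit 94) (nat_lit 0) (nat_lit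 0) (XT.lf (nat_lit 0) (nat_lit 67281657203) (nat_lit 1092) (nat_lit 56754754688) (nat_lit 1176) (nat_lit 6495128445) (nat_lit 116) (nat_lit 5) (nat_lit 129) (nat_lit 5) (nat_lit 130) (nat_lit 5) (nat_lit 404) (nat_lit 398) (nat_lit 62)) (XT.lf (nat_lit 0) (nat_lit 70959009513) (nat_lit 1092) (nat_lit 5956012887) (nat_lit 1176) (nat_lit 55745814691) (nat_lit 116) (nat_lit 5) (nat_lit 129) (nat_lit 5) (nat_lit 130) (nat_lit 5) (nat_lit 405) (nat_lit 398) (nat_lit 61)))) (XT.nd (nat_lit 94) (nat_lit 0) (nat_lit 84) (XT.lf (nat_lit 84) (nat_lit 47371840340) (nat_lit 0) (nat_lit 27848319101) (nat_lit 1176) (nat_lit 59621419319) (nat_lit 117) (nat_lit 5) (nat_lit 116) (nat_lit 5) (nat_lit 130) (nat_lit 5) (nat_lit 406) (nat_lit 398) (nat_lit 60)) (XT.nd (nat_lit 94) (nat_lit 0) (nat_lit 0) (XT.lf (nat_lit 0) (nat_lit 79901656428) (nat_lit 1092) (nat_lit 34835179583) (nat_lit 1176) (nat_lit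 22344152107) (nat_lit 117) (nat_lit 5) (nat_lit 130) (nat_lit 5) (nat_lit 131) (nat_lit 5) (nat_lit 407) (nat_lit 398) (nat_lit 59)) (XT.lf (nat_lit 84) (nat_lit 19539823683) (nat_lit 0) (nat_lit 65666989182) (nat_lit 1176) (nat_lit 54168172253) (nat_lit 118) (nat_lit 5) (nat_lit 117) (nat_lit 5) (nat_lit 131) (nat_lit 5) (nat_lit 408) (nat_lit 398) (nat_lit 58))))) (XT.nd (nat_lit 282) (nat_lit 252) (nat_lit 0) (XT.nd (nat_lit 94) (nat_lit 0) (nat_lit 84) (XT.lf (nat_lit 84) (nat_lit 76338852441) (nat_lit 0) (nat_lit 14701060278) (nat_lit 1176) (nat_lit 50688915775) (nat_lit 118) (nat_lit 5) (nat_lit 117) (nat_lit 5) (nat_lit 131) (nat_lit 5) (nat_lit 409) (nat_lit 398) (nat_lit 57)) (XT.nd (nat_lit 94) (nat_lit 0) (nat_lit 0) (XT.lf (nat_lit 0) (nat_lit 97429143728) (nat_lit 1092) (nat_lit 9632504182) (nat_lit 1176) (nat_lit 37082359095) (nat_lit 118) (nat_lit 5) (nat_lit 131) (nat_lit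 5) (nat_lit 132) (nat_lit 5) (nat_lit 410) (nat_lit 398) (nat_lit 56)) (XT.lf (nat_lit 84) (nat_lit 48683877329) (nat_lit 0) (nat_lit 55965754369) (nat_lit 1176) (nat_lit 41964795873) (nat_lit 119) (nat_lit 5) (nat_lit 118) (nat_lit 5) (nat_lit 132) (nat_lit 5) (nat_lit 411) (nat_lit 398) (nat_lit 55)))) (XT.nd (nat_lit 53016) (nat_lit 336) (nat_lit 0) (XT.lf (nat_lit 84) (nat_lit 109012185213) (nat_lit 0) (nat_lit 3182199273) (nat_lit 1176) (nat_lit 36963933787) (nat_lit 119) (nat_lit 5) (nat_lit 118) (nat_lit 5) (nat_lit 132) (nat_lit 5) (nat_lit 412) (nat_lit 398) (nat_lit 54)) (XT.nd (nat_lit 94) (nat_lit 0) (nat_lit 0) (XT.lf (nat_lit 0) (nat_lit 14134191988) (nat_lit 0) (nat_lit 14134191988) (nat_lit 1092) (nat_lit 32975660593) (nat_lit 114) (nat_lit 5) (nat_lit 114) (nat_lit 3) (nat_lit 127) (nat_lit 3) (nat_lit 399) (nat_lit 399) (nat_lit 66)) (XT.lf (nat_lit 0) (nat_lit 57610758763)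 (nat_lit 1092) (nat_lit 47619113815) (nat_lit 1176) (nat_lit 19150639972) (nat_lit 114) (nat_lit 5) (nat_lit 127) (nat_lit 3) (nat_lit 128) (nat_lit 5) (nat_lit 400) (nat_lit 399) (nat_lit 65)))))) (XT.nd (nat_lit 564) (nat_lit 0) (nat_lit 168) (XT.nd (nat_lit 282) (nat_lit 0) (nat_lit 84) (XT.nd (nat_lit 94) (nat_lit 0) (nat_lit 0) (XT.lf (nat_lit 84) (nat_lit 139709246) (nat_lit 0) (nat_lit 58868687168) (nat_lit 1176) (nat_lit 67314204297) (nat_lit 115) (nat_lit 5) (nat_lit 114) (nat_lit 5) (nat_lit 128) (nat_lit 5) (nat_lit 401) (nat_lit 399) (nat_lit 64)) (XT.nd (nat_lit 94) (nat_lit 0) (nat_lit 84) (XT.lf (nat_lit 84) (nat_lit 50388474470) (nat_lit 0) (nat_lit 10557784126) (nat_lit 1176) (nat_lit 67363231732) (nat_lit 115) (nat_lit 5) (nat_lit 114) (nat_lit 5) (nat_lit 128) (nat_lit 5) (nat_lit 402) (nat_lit 399) (nat_lit 63)) (XT.lf (nat_lit 0) (nat_lit 63333423848) (nat_lit 1092)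 (nat_lit 28552479198) (nat_lit 1176) (nat_lit 38460004904) (nat_lit 115) (nat_lit 5) (nat_lit 128) (nat_lit 5) (nat_lit 129) (nat_lit 5) (nat_lit 403) (nat_lit 399) (nat_lit 62)))) (XT.nd (nat_lit 94) (nat_lit 0) (nat_lit 84) (XT.lf (nat_lit 84) (nat_lit 22695686123) (nat_lit 0) (nat_lit 43431891687) (nat_lit 1176) (nat_lit 66307554646) (nat_lit 116) (nat_lit 5) (nat_lit 115) (nat_lit 5) (nat_lit 129) (nat_lit 5) (nat_lit 404) (nat_lit 399) (nat_lit 61)) (XT.nd (nat_lit 94) (nat_lit 0) (nat_lit 0) (XT.lf (nat_lit 0) (nat_lit 69374013995) (nat_lit 1092) (nat_lit 58509897419) (nat_lit 1176) (nat_lit 6693876446) (nat_lit 116) (nat_lit 5) (nat_lit 129) (nat_lit 5) (nat_lit 130) (nat_lit 5) (nat_lit 405) (nat_lit 399) (nat_lit 60)) (XT.lf (nat_lit 0) (nat_lit 73165165015) (nat_lit 1092) (nat_lit 6136522551) (nat_lit 1176) (nat_lit 57471412171) (nat_lit 116) (nat_lit 5) (nat_lit 129) (nat_lit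 5) (nat_lit 130) (nat_lit 5) (nat_lit 406) (nat_lit 399) (nat_lit 59))))) (XT.nd (nat_lit 282) (nat_lit 0) (nat_lit 84) (XT.nd (nat_lit 94) (nat_lit 0) (nat_lit 84) (XT.lf (nat_lit 84) (nat_lit 48844452347) (nat_lit 0) (nat_lit 28713805544) (nat_lit 1176) (nat_lit 61463191965) (nat_lit 117) (nat_lit 5) (nat_lit 116) (nat_lit 5) (nat_lit 130) (nat_lit 5) (nat_lit 407) (nat_lit 399) (nat_lit 58)) (XT.nd (nat_lit 94) (nat_lit 0) (nat_lit 0) (XT.lf (nat_lit 0) (nat_lit 82384671596) (nat_lit 1092) (nat_lit 35910875666) (nat_lit 1176) (nat_lit 23034740846) (nat_lit 117) (nat_lit 5) (nat_lit 130) (nat_lit 5) (nat_lit 131) (nat_lit 5) (nat_lit 408) (nat_lit 399) (nat_lit 57)) (XT.lf (nat_lit 84) (nat_lit 20149710236) (nat_lit 0) (nat_lit 67704436508) (nat_lit 1176) (nat_lit 55841257326) (nat_lit 118) (nat_lit 5) (nat_lit 117) (nat_lit 5) (nat_lit 131) (nat_lit 5) (nat_lit 409) (nat_lit 399)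 (nat_lit 56)))) (XT.nd (nat_lit 94) (nat_lit 0) (nat_lit 84) (XT.lf (nat_lit 84) (nat_lit 78709384043) (nat_lit 0) (nat_lit 15158510569) (nat_lit 1176) (nat_lit 52254328161) (nat_lit 118) (nat_lit 5) (nat_lit 117) (nat_lit 5) (nat_lit 131) (nat_lit 5) (nat_lit 410) (nat_lit 399) (nat_lit 55)) (XT.nd (nat_lit 94) (nat_lit 0) (nat_lit 0) (XT.lf (nat_lit 0) (nat_lit 100455002529) (nat_lit 1092) (nat_lit 9926995790) (nat_lit 1176) (nat_lit 38230280007) (nat_lit 118) (nat_lit 5) (nat_lit 131) (nat_lit 5) (nat_lit 132) (nat_lit 5) (nat_lit 411) (nat_lit 399) (nat_lit 54)) (XT.lf (nat_lit 84) (nat_lit 50197151876) (nat_lit 0) (nat_lit 57702047130) (nat_lit 1176) (nat_lit 43260087469) (nat_lit 119) (nat_lit 5) (nat_lit 118) (nat_lit 5) (nat_lit 132) (nat_lit 5) (nat_lit 412) (nat_lit 399) (nat_lit 53))))))))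
noncomputable def xc252 : XT := (XT.nd (nat_lit 55366) (nat_lit 0) (nat_lit 0) (XT.nd (nat_lit 1128) (nat_lit 0) (nat_lit 0) (XT.nd (nat_lit 564) (nat_lit 0) (nat_lit 168) (XT.nd (nat_lit 282) (nat_lit 0) (nat_lit 0) (XT.nd (nat_lit 94) (nat_lit 0) (nat_lit 0) (XT.lf (nat_lit 0) (nat_lit 14574227089) (nat_lit 0) (nat_lit 14574227089) (nat_lit 1092) (nat_lit 33994025480) (nat_lit 114) (nat_lit 5) (nat_lit 114) (nat_lit 3) (nat_lit 127) (nat_lit 3) (nat_lit 400) (nat_lit 400) (nat_lit 64)) (XT.nd (nat_lit 94) (nat_lit 0) (nat_lit 0) (XT.lf (nat_lit 0) (nat_lit 59403931272) (nat_lit 1092) (nat_lit 49091379975) (nat_lit 1176) (nat_lit 19740745563) (nat_lit 114) (nat_lit 5) (nat_lit 127) (nat_lit 3) (nat_lit 128) (nat_lit 5) (nat_lit 401) (nat_lit 400) (nat_lit 63)) (XT.lf (nat_lit 84) (nat_lit 147926850) (nat_lit 0) (nat_lit 60696789734) (nat_lit 1176) (nat_lit 69393639490) (nat_lit 115)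 (nat_lit 5) (nat_lit 114) (nat_lit 5) (nat_lit 128) (nat_lit 5) (nat_lit 402) (nat_lit 400) (nat_lit 62)))) (XT.nd (nat_lit 94) (nat_lit 0) (nat_lit 84) (XT.lf (nat_lit 84) (nat_lit 51954286934) (nat_lit 0) (nat_lit 10888153284) (nat_lit 1176) (nat_lit 69444406426) (nat_lit 115) (nat_lit 5) (nat_lit 114) (nat_lit 5) (nat_lit 128) (nat_lit 5) (nat_lit 403) (nat_lit 400) (nat_lit 61)) (XT.nd (nat_lit 94) (nat_lit 0) (nat_lit 0) (XT.lf (nat_lit 0) (nat_lit 65303372086) (nat_lit 1092) (nat_lit 29433689300) (nat_lit 1176) (nat_lit 39649339897) (nat_lit 115) (nat_lit 5) (nat_lit 128) (nat_lit 5) (nat_lit 129) (nat_lit 5) (nat_lit 404) (nat_lit 400) (nat_lit 60)) (XT.lf (nat_lit 84) (nat_lit 23403129493) (nat_lit 0) (nat_lit 44780854977) (nat_lit 1176) (nat_lit 68356412997) (nat_lit 116) (nat_lit 5) (nat_lit 115) (nat_lit 5) (nat_lit 129) (nat_lit 5) (nat_lit 405) (nat_lit 400) (nat_lit 59)))))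 (XT.nd (nat_lit 282) (nat_lit 0) (nat_lit 84) (XT.nd (nat_lit 94) (nat_lit 0) (nat_lit 0) (XT.lf (nat_lit 0) (nat_lit 71530841413) (nat_lit 1092) (nat_lit 60319701585) (nat_lit 1176) (nat_lit 6898939696) (nat_lit 116) (nat_lit 5) (nat_lit 129) (nat_lit 5) (nat_lit 130) (nat_lit 5) (nat_lit 406) (nat_lit 400) (nat_lit 58)) (XT.nd (nat_lit 94) (nat_lit 0) (nat_lit 0) (XT.lf (nat_lit 0) (nat_lit 75439330702) (nat_lit 1092) (nat_lit 6322872447) (nat_lit 1176) (nat_lit 59250652602) (nat_lit 116) (nat_lit 5) (nat_lit 129) (nat_lit 5) (nat_lit 130) (nat_lit 5) (nat_lit 407) (nat_lit 400) (nat_lit 57)) (XT.lf (nat_lit 84) (nat_lit 50362473367) (nat_lit 0) (nat_lit 29605992435) (nat_lit 1176) (nat_lit 63362444057) (nat_lit 117) (nat_lit 5) (nat_lit 116) (nat_lit 5) (nat_lit 130) (nat_lit 5) (nat_lit 408) (nat_lit 400) (nat_lit 56)))) (XT.nd (nat_lit 94) (nat_lit 0) (nat_lit 0) (XT.lf (nat_lit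 0) (nat_lit 84944301063) (nat_lit 1092) (nat_lit 37020166774) (nat_lit 1176) (nat_lit 23746861035) (nat_lit 117) (nat_lit 5) (nat_lit 130) (nat_lit 5) (nat_lit 131) (nat_lit 5) (nat_lit 409) (nat_lit 400) (nat_lit 55)) (XT.nd (nat_lit 94) (nat_lit 0) (nat_lit 0) (XT.lf (nat_lit 84) (nat_lit 20778257341) (nat_lit 0) (nat_lit 69804939822) (nat_lit 1176) (nat_lit 57566571024) (nat_lit 118) (nat_lit 5) (nat_lit 117) (nat_lit 5) (nat_lit 131) (nat_lit 5) (nat_lit 410) (nat_lit 400) (nat_lit 54)) (XT.lf (nat_lit 84) (nat_lit 81153163588) (nat_lit 0) (nat_lit 15630040092) (nat_lit 1176) (nat_lit 53868620404) (nat_lit 118) (nat_lit 5) (nat_lit 117) (nat_lit 5) (nat_lit 131) (nat_lit 5) (nat_lit 411) (nat_lit 400) (nat_lit 53)))))) (XT.nd (nat_lit 53674) (nat_lit 0) (nat_lit 84) (XT.nd (nat_lit 53392) (nat_lit 0) (nat_lit 0) (XT.nd (nat_lit 53204) (nat_lit 336) (nat_lit 0) (XT.lf (nat_lit 0)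 (nat_lit 103574333900) (nat_lit 1092) (nat_lit 10230860437) (nat_lit 1176) (nat_lit 39413883146) (nat_lit 118) (nat_lit 5) (nat_lit 131) (nat_lit 5) (nat_lit 132) (nat_lit 5) (nat_lit 412) (nat_lit 400) (nat_lit 52)) (XT.nd (nat_lit 94) (nat_lit 0) (nat_lit 0) (XT.lf (nat_lit 0) (nat_lit 15027792211) (nat_lit 0) (nat_lit 15027792211) (nat_lit 1092) (nat_lit 35044189533) (nat_lit 114) (nat_lit 5) (nat_lit 114) (nat_lit 3) (nat_lit 127) (nat_lit 3) (nat_lit 401) (nat_lit 401) (nat_lit 62)) (XT.lf (nat_lit 0) (nat_lit 61252263350) (nat_lit 1092) (nat_lit 50609518951) (nat_lit 1176) (nat_lit 20349355544) (nat_lit 114) (nat_lit 5) (nat_lit 127) (nat_lit 3) (nat_lit 128) (nat_lit 5) (nat_lit 402) (nat_lit 401) (nat_lit 61)))) (XT.nd (nat_lit 94) (nat_lit 0) (nat_lit 0) (XT.lf (nat_lit 84) (nat_lit 156168989) (nat_lit 0) (nat_lit 62581375521) (nat_lit 1176) (nat_lit 71537969870) (nat_lit 115)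 (nat_lit 5) (nat_lit 114) (nat_lit 5) (nat_lit 128) (nat_lit 5) (nat_lit 403) (nat_lit 401) (nat_lit 60)) (XT.nd (nat_lit 94) (nat_lit 0) (nat_lit 84) (XT.lf (nat_lit 84) (nat_lit 53568416295) (nat_lit 0) (nat_lit 11228581580) (nat_lit 1176) (nat_lit 71590517220) (nat_lit 115) (nat_lit 5) (nat_lit 114) (nat_lit 5) (nat_lit 128) (nat_lit 5) (nat_lit 404) (nat_lit 401) (nat_lit 59)) (XT.lf (nat_lit 0) (nat_lit 67333997072) (nat_lit 1092) (nat_lit 30342448912) (nat_lit 1176) (nat_lit 40875717538) (nat_lit 115) (nat_lit 5) (nat_lit 128) (nat_lit 5) (nat_lit 129) (nat_lit 5) (nat_lit 405) (nat_lit 401) (nat_lit 58))))) (XT.nd (nat_lit 282) (nat_lit 0) (nat_lit 84) (XT.nd (nat_lit 94) (nat_lit 0) (nat_lit 84) (XT.lf (nat_lit 84) (nat_lit 24132273959) (nat_lit 0) (nat_lit 46171483628) (nat_lit 1176) (nat_lit 70469181378) (nat_lit 116) (nat_lit 5) (nat_lit 115) (nat_lit 5) (nat_lit 129) (nat_lit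 5) (nat_lit 406) (nat_lit 401) (nat_lit 57)) (XT.nd (nat_lit 94) (nat_lit 0) (nat_lit 0) (XT.lf (nat_lit 0) (nat_lit 73754161290) (nat_lit 1092) (nat_lit 62185846765) (nat_lit 1176) (nat_lit 7110504841) (nat_lit 116) (nat_lit 5) (nat_lit 129) (nat_lit 5) (nat_lit 130) (nat_lit 5) (nat_lit 407) (nat_lit 401) (nat_lit 56)) (XT.lf (nat_lit 0) (nat_lit 77783637435) (nat_lit 1092) (nat_lit 6515229146) (nat_lit 1176) (nat_lit 61085190064) (nat_lit 116) (nat_lit 5) (nat_lit 129) (nat_lit 5) (nat_lit 130) (nat_lit 5) (nat_lit 408) (nat_lit 401) (nat_lit 55)))) (XT.nd (nat_lit 94) (nat_lit 0) (nat_lit 84) (XT.lf (nat_lit 84) (nat_lit 51927325412) (nat_lit 0) (nat_lit 30525715166) (nat_lit 1176) (nat_lit 65320934683) (nat_lit 117) (nat_lit 5) (nat_lit 116) (nat_lit 5) (nat_lit 130) (nat_lit 5) (nat_lit 409) (nat_lit 401) (nat_lit 54)) (XT.nd (nat_lit 94) (nat_lit 0) (nat_lit 0) (XT.lf (nat_lit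 0) (nat_lit 87582941148) (nat_lit 1092) (nat_lit 38164079636) (nat_lit 1176) (nat_lit 24481172854) (nat_lit 117) (nat_lit 5) (nat_lit 130) (nat_lit 5) (nat_lit 131) (nat_lit 5) (nat_lit 410) (nat_lit 401) (nat_lit 53)) (XT.lf (nat_lit 84) (nat_lit 21426058042) (nat_lit 0) (nat_lit 71970460072) (nat_lit 1176) (nat_lit 59345710934) (nat_lit 118) (nat_lit 5) (nat_lit 117) (nat_lit 5) (nat_lit 131) (nat_lit 5) (nat_lit 411) (nat_lit 401) (nat_lit 52))))))) (XT.nd (nat_lit 54332) (nat_lit 0) (nat_lit 0) (XT.nd (nat_lit 53768) (nat_lit 0) (nat_lit 84) (XT.nd (nat_lit 53486) (nat_lit 0) (nat_lit 0) (XT.nd (nat_lit 53298) (nat_lit 252) (nat_lit 0) (XT.lf (nat_lit 84) (nat_lit 83672475892) (nat_lit 0) (nat_lit 16116091330) (nat_lit 1176) (nat_lit 55533286927) (nat_lit 118) (nat_lit 5) (nat_lit 117) (nat_lit 5) (nat_lit 131) (nat_lit 5) (nat_lit 412) (nat_lit 401) (nat_lit 51)) (XT.nd (nat_lit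 94) (nat_lit 0) (nat_lit 0) (XT.lf (nat_lit 0) (nat_lit 15495313361) (nat_lit 0) (nat_lit 15495313361) (nat_lit 1092) (nat_lit 36127124911) (nat_lit 114) (nat_lit 5) (nat_lit 114) (nat_lit 3) (nat_lit 127) (nat_lit 3) (nat_lit 402) (nat_lit 402) (nat_lit 60)) (XT.lf (nat_lit 0) (nat_lit 63157490343) (nat_lit 1092) (nat_lit 52174939026) (nat_lit 1176) (nat_lit 20977031047) (nat_lit 114) (nat_lit 5) (nat_lit 127) (nat_lit 3) (nat_lit 128) (nat_lit 5) (nat_lit 403) (nat_lit 402) (nat_lit 59)))) (XT.nd (nat_lit 94) (nat_lit 0) (nat_lit 0) (XT.lf (nat_lit 84) (nat_lit 164450059) (nat_lit 0) (nat_lit 64524206644) (nat_lit 1176) (nat_lit 73749181559) (nat_lit 115) (nat_lit 5) (nat_lit 114) (nat_lit 5) (nat_lit 128) (nat_lit 5) (nat_lit 404) (nat_lit 402) (nat_lit 58)) (XT.nd (nat_lit 94) (nat_lit 0) (nat_lit 84) (XT.lf (nat_lit 84) (nat_lit 55232373603) (nat_lit 0) (nat_lit 11579391645) (nat_lit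 1176) (nat_lit 73803552277) (nat_lit 115) (nat_lit 5) (nat_lit 114) (nat_lit 5) (nat_lit 128) (nat_lit 5) (nat_lit 405) (nat_lit 402) (nat_lit 57)) (XT.lf (nat_lit 0) (nat_lit 69427202986) (nat_lit 1092) (nat_lit 31279598325) (nat_lit 1176) (nat_lit 42140275884) (nat_lit 115) (nat_lit 5) (nat_lit 128) (nat_lit 5) (nat_lit 129) (nat_lit 5) (nat_lit 406) (nat_lit 402) (nat_lit 56))))) (XT.nd (nat_lit 282) (nat_lit 0) (nat_lit 84) (XT.nd (nat_lit 94) (nat_lit 0) (nat_lit 84) (XT.lf (nat_lit 84) (nat_lit 24883805859) (nat_lit 0) (nat_lit 47605078300) (nat_lit 1176) (nat_lit 72647817579) (nat_lit 116) (nat_lit 5) (nat_lit 115) (nat_lit 5) (nat_lit 129) (nat_lit 5) (nat_lit 407) (nat_lit 402) (nat_lit 55)) (XT.nd (nat_lit 94) (nat_lit 0) (nat_lit 0) (XT.lf (nat_lit 0) (nat_lit 76046056762) (nat_lit 1092) (nat_lit 64110065486) (nat_lit 1176) (nat_lit 7328764857) (nat_lit 116) (nat_lit 5) (nat_lit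 129) (nat_lit 5) (nat_lit 130) (nat_lit 5) (nat_lit 408) (nat_lit 402) (nat_lit 54)) (XT.lf (nat_lit 0) (nat_lit 80200280798) (nat_lit 1092) (nat_lit 6713765238) (nat_lit 1176) (nat_lit 62976730438) (nat_lit 116) (nat_lit 5) (nat_lit 129) (nat_lit 5) (nat_lit 130) (nat_lit 5) (nat_lit 409) (nat_lit 402) (nat_lit 53)))) (XT.nd (nat_lit 94) (nat_lit 0) (nat_lit 84) (XT.lf (nat_lit 84) (nat_lit 53540473725) (nat_lit 0) (nat_lit 31473834573) (nat_lit 1176) (nat_lit 67340478813) (nat_lit 117) (nat_lit 5) (nat_lit 116) (nat_lit 5) (nat_lit 130) (nat_lit 5) (nat_lit 410) (nat_lit 402) (nat_lit 52)) (XT.nd (nat_lit 94) (nat_lit 0) (nat_lit 0) (XT.lf (nat_lit 0) (nat_lit 90303061194) (nat_lit 1092) (nat_lit 39343673684) (nat_lit 1176) (nat_lit 25238357378) (nat_lit 117) (nat_lit 5) (nat_lit 130) (nat_lit 5) (nat_lit 131) (nat_lit 5) (nat_lit 411) (nat_lit 402) (nat_lit 51)) (XT.lf (nat_lit 84)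 (nat_lit 22093722904) (nat_lit 0) (nat_lit 74203018626) (nat_lit 1176) (nat_lit 61180325442) (nat_lit 118) (nat_lit 5) (nat_lit 117) (nat_lit 5) (nat_lit 131) (nat_lit 5) (nat_lit 412) (nat_lit 402) (nat_lit 50)))))) (XT.nd (nat_lit 53674) (nat_lit 0) (nat_lit 84) (XT.nd (nat_lit 53392) (nat_lit 0) (nat_lit 0) (XT.nd (nat_lit 94) (nat_lit 252) (nat_lit 0) (XT.lf (nat_lit 84) (nat_lit 86269675761) (nat_lit 0) (nat_lit 16617120125) (nat_lit 1176) (nat_lit 57249869713) (nat_lit 118) (nat_lit 5) (nat_lit 117) (nat_lit 5) (nat_lit 131) (nat_lit 5) (nat_lit 413) (nat_lit 402) (nat_lit 49)) (XT.nd (nat_lit 53204) (nat_lit 336) (nat_lit 0) (XT.lf (nat_lit 0) (nat_lit 110105172190) (nat_lit 1092) (nat_lit 10867822757) (nat_lit 1176) (nat_lit 41892572249) (nat_lit 118) (nat_lit 5) (nat_lit 131) (nat_lit 5) (nat_lit 132) (nat_lit 5) (nat_lit 414) (nat_lit 402) (nat_lit 48)) (XT.lf (nat_lit 0) (nat_lit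 15977229367) (nat_lit 0) (nat_lit 15977229367) (nat_lit 1092) (nat_lit 37243834717) (nat_lit 114) (nat_lit 5) (nat_lit 114) (nat_lit 3) (nat_lit 127) (nat_lit 3) (nat_lit 403) (nat_lit 403) (nat_lit 58)))) (XT.nd (nat_lit 94) (nat_lit 0) (nat_lit 0) (XT.lf (nat_lit 0) (nat_lit 65121399885) (nat_lit 1092) (nat_lit 53789092953) (nat_lit 1176) (nat_lit 21624351338) (nat_lit 114) (nat_lit 5) (nat_lit 127) (nat_lit 3) (nat_lit 128) (nat_lit 5) (nat_lit 404) (nat_lit 403) (nat_lit 57)) (XT.nd (nat_lit 94) (nat_lit 0) (nat_lit 0) (XT.lf (nat_lit 84) (nat_lit 172784095) (nat_lit 0) (nat_lit 66527099180) (nat_lit 1176) (nat_lit 76029323765) (nat_lit 115) (nat_lit 5) (nat_lit 114) (nat_lit 5) (nat_lit 128) (nat_lit 5) (nat_lit 405) (nat_lit 403) (nat_lit 56)) (XT.lf (nat_lit 84) (nat_lit 56947715967) (nat_lit 0) (nat_lit 11940915473) (nat_lit 1176) (nat_lit 76085562861) (nat_lit 115) (nat_lit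 5) (nat_lit 114) (nat_lit 5) (nat_lit 128) (nat_lit 5) (nat_lit 406) (nat_lit 403) (nat_lit 55))))) (XT.nd (nat_lit 282) (nat_lit 0) (nat_lit 84) (XT.nd (nat_lit 94) (nat_lit 0) (nat_lit 0) (XT.lf (nat_lit 0) (nat_lit 71584951658) (nat_lit 1092) (nat_lit 32246004698) (nat_lit 1176) (nat_lit 43444188885) (nat_lit 115) (nat_lit 5) (nat_lit 128) (nat_lit 5) (nat_lit 129) (nat_lit 5) (nat_lit 407) (nat_lit 403) (nat_lit 54)) (XT.nd (nat_lit 94) (nat_lit 0) (nat_lit 84) (XT.lf (nat_lit 84) (nat_lit 25658432000) (nat_lit 0) (nat_lit 49082979437) (nat_lit 1176) (nat_lit 74894341469) (nat_lit 116) (nat_lit 5) (nat_lit 115) (nat_lit 5) (nat_lit 129) (nat_lit 5) (nat_lit 408) (nat_lit 403) (nat_lit 53)) (XT.lf (nat_lit 0) (nat_lit 78408674242) (nat_lit 1092) (nat_lit 66094144817) (nat_lit 1176) (nat_lit 7553919208) (nat_lit 116) (nat_lit 5) (nat_lit 129) (nat_lit 5) (nat_lit 130) (nat_lit 5) (nat_lit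 409) (nat_lit 403) (nat_lit 52)))) (XT.nd (nat_lit 94) (nat_lit 0) (nat_lit 0) (XT.lf (nat_lit 0) (nat_lit 82691523180) (nat_lit 1092) (nat_lit 6918659469) (nat_lit 1176) (nat_lit 64927032980) (nat_lit 116) (nat_lit 5) (nat_lit 129) (nat_lit 5) (nat_lit 130) (nat_lit 5) (nat_lit 410) (nat_lit 403) (nat_lit 51)) (XT.nd (nat_lit 94) (nat_lit 0) (nat_lit 84) (XT.lf (nat_lit 84) (nat_lit 55203428176) (nat_lit 0) (nat_lit 32451237746) (nat_lit 1176) (nat_lit 69422948949) (nat_lit 117) (nat_lit 5) (nat_lit 116) (nat_lit 5) (nat_lit 130) (nat_lit 5) (nat_lit 411) (nat_lit 403) (nat_lit 50)) (XT.lf (nat_lit 0) (nat_lit 93107205907) (nat_lit 1092) (nat_lit 40560042010) (nat_lit 1176) (nat_lit 26019117201) (nat_lit 117) (nat_lit 5) (nat_lit 130) (nat_lit 5) (nat_lit 131) (nat_lit 5) (nat_lit 412) (nat_lit 403) (nat_lit 49))))))))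
noncomputable def xc253 : XT := (XT.nd (nat_lit 108570) (nat_lit 0) (nat_lit 0) (XT.nd (nat_lit 54238) (nat_lit 0) (nat_lit 0) (XT.nd (nat_lit 53674) (nat_lit 0) (nat_lit 0) (XT.nd (nat_lit 53392) (nat_lit 252) (nat_lit 0) (XT.nd (nat_lit 94) (nat_lit 0) (nat_lit 0) (XT.lf (nat_lit 84) (nat_lit 22781880610) (nat_lit 0) (nat_lit 76504699171) (nat_lit 1176) (nat_lit 63072115231) (nat_lit 118) (nat_lit 5) (nat_lit 117) (nat_lit 5) (nat_lit 131) (nat_lit 5) (nat_lit 413) (nat_lit 403) (nat_lit 48)) (XT.nd (nat_lit 94) (nat_lit 0) (nat_lit 84) (XT.lf (nat_lit 84) (nat_lit 88947190216) (nat_lit 0) (nat_lit 17133596113) (nat_lit 1176) (nat_lit 59019959709) (nat_lit 118) (nat_lit 5) (nat_lit 117) (nat_lit 5) (nat_lit 131) (nat_lit 5) (nat_lit 414) (nat_lit 403) (nat_lit 47)) (XT.lf (nat_lit 0) (nat_lit 113522784055) (nat_lit 1092) (nat_lit 11201501164) (nat_lit 1176) (nat_lit 43189963462) (nat_lit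 118) (nat_lit 5) (nat_lit 131) (nat_lit 5) (nat_lit 132) (nat_lit 5) (nat_lit 415) (nat_lit 403) (nat_lit 46)))) (XT.nd (nat_lit 94) (nat_lit 0) (nat_lit 0) (XT.lf (nat_lit 0) (nat_lit 16473992290) (nat_lit 0) (nat_lit 16473992290) (nat_lit 1092) (nat_lit 38395353908) (nat_lit 114) (nat_lit 5) (nat_lit 114) (nat_lit 3) (nat_lit 127) (nat_lit 3) (nat_lit 404) (nat_lit 404) (nat_lit 56)) (XT.nd (nat_lit 94) (nat_lit 0) (nat_lit 0) (XT.lf (nat_lit 0) (nat_lit 67145833613) (nat_lit 1092) (nat_lit 55453479292) (nat_lit 1176) (nat_lit 22291914338) (nat_lit 114) (nat_lit 5) (nat_lit 127) (nat_lit 3) (nat_lit 128) (nat_lit 5) (nat_lit 405) (nat_lit 404) (nat_lit 55)) (XT.lf (nat_lit 84) (nat_lit 181184808) (nat_lit 0) (nat_lit 68591924886) (nat_lit 1176) (nat_lit 78380510652) (nat_lit 115) (nat_lit 5) (nat_lit 114) (nat_lit 5) (nat_lit 128) (nat_lit 5) (nat_lit 406) (nat_lit 404) (nat_lit 54)))))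 (XT.nd (nat_lit 282) (nat_lit 0) (nat_lit 168) (XT.nd (nat_lit 94) (nat_lit 0) (nat_lit 84) (XT.lf (nat_lit 84) (nat_lit 58716048028) (nat_lit 0) (nat_lit 12313494747) (nat_lit 1176) (nat_lit 78438665213) (nat_lit 115) (nat_lit 5) (nat_lit 114) (nat_lit 5) (nat_lit 128) (nat_lit 5) (nat_lit 407) (nat_lit 404) (nat_lit 53)) (XT.nd (nat_lit 94) (nat_lit 0) (nat_lit 0) (XT.lf (nat_lit 0) (nat_lit 73809264446) (nat_lit 1092) (nat_lit 33242562833) (nat_lit 1176) (nat_lit 44788667450) (nat_lit 115) (nat_lit 5) (nat_lit 128) (nat_lit 5) (nat_lit 129) (nat_lit 5) (nat_lit 408) (nat_lit 404) (nat_lit 52)) (XT.lf (nat_lit 84) (nat_lit 26456880341) (nat_lit 0) (nat_lit 50606568533) (nat_lit 1176) (nat_lit 77210836835) (nat_lit 116) (nat_lit 5) (nat_lit 115) (nat_lit 5) (nat_lit 129) (nat_lit 5) (nat_lit 409) (nat_lit 404) (nat_lit 51)))) (XT.nd (nat_lit 94) (nat_lit 0) (nat_lit 0) (XT.lf (nat_lit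 0) (nat_lit 80844225469) (nat_lit 1092) (nat_lit 68139928009) (nat_lit 1176) (nat_lit 7786174019) (nat_lit 116) (nat_lit 5) (nat_lit 129) (nat_lit 5) (nat_lit 130) (nat_lit 5) (nat_lit 410) (nat_lit 404) (nat_lit 50)) (XT.nd (nat_lit 94) (nat_lit 0) (nat_lit 0) (XT.lf (nat_lit 0) (nat_lit 85259695923) (nat_lit 1092) (nat_lit 7130096887) (nat_lit 1176) (nat_lit 66937911950) (nat_lit 116) (nat_lit 5) (nat_lit 129) (nat_lit 5) (nat_lit 130) (nat_lit 5) (nat_lit 411) (nat_lit 404) (nat_lit 49)) (XT.lf (nat_lit 84) (nat_lit 56917744687) (nat_lit 0) (nat_lit 33458838877) (nat_lit 1176) (nat_lit 71570276835) (nat_lit 117) (nat_lit 5) (nat_lit 116) (nat_lit 5) (nat_lit 130) (nat_lit 5) (nat_lit 412) (nat_lit 404) (nat_lit 48)))))) (XT.nd (nat_lit 53768) (nat_lit 0) (nat_lit 0) (XT.nd (nat_lit 53486) (nat_lit 252) (nat_lit 0) (XT.nd (nat_lit 94) (nat_lit 0) (nat_lit 0) (XT.lf (nat_lit 0) (nat_lit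 95997997767) (nat_lit 1092) (nat_lit 41814312362) (nat_lit 1176) (nat_lit 26824177082) (nat_lit 117) (nat_lit 5) (nat_lit 130) (nat_lit 5) (nat_lit 131) (nat_lit 5) (nat_lit 413) (nat_lit 404) (nat_lit 47)) (XT.nd (nat_lit 94) (nat_lit 0) (nat_lit 0) (XT.lf (nat_lit 84) (nat_lit 23491178565) (nat_lit 0) (nat_lit 78877649661) (nat_lit 1176) (nat_lit 65022834833) (nat_lit 118) (nat_lit 5) (nat_lit 117) (nat_lit 5) (nat_lit 131) (nat_lit 5) (nat_lit 414) (nat_lit 404) (nat_lit 46)) (XT.lf (nat_lit 84) (nat_lit 91707520771) (nat_lit 0) (nat_lit 17666003174) (nat_lit 1176) (nat_lit 60845198276) (nat_lit 118) (nat_lit 5) (nat_lit 117) (nat_lit 5) (nat_lit 131) (nat_lit 5) (nat_lit 415) (nat_lit 404) (nat_lit 45)))) (XT.nd (nat_lit 94) (nat_lit 0) (nat_lit 0) (XT.lf (nat_lit 0) (nat_lit 16986067864) (nat_lit 0) (nat_lit 16986067864) (nat_lit 1092) (nat_lit 39582750240) (nat_lit 114) (nat_lit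 5) (nat_lit 114) (nat_lit 3) (nat_lit 127) (nat_lit 3) (nat_lit 405) (nat_lit 405) (nat_lit 54)) (XT.nd (nat_lit 94) (nat_lit 0) (nat_lit 0) (XT.lf (nat_lit 0) (nat_lit 69232688924) (nat_lit 1092) (nat_lit 57169643777) (nat_lit 1176) (nat_lit 22980337159) (nat_lit 114) (nat_lit 5) (nat_lit 127) (nat_lit 3) (nat_lit 128) (nat_lit 5) (nat_lit 406) (nat_lit 405) (nat_lit 53)) (XT.lf (nat_lit 84) (nat_lit 189665617) (nat_lit 0) (nat_lit 70720612961) (nat_lit 1176) (nat_lit 80804923265) (nat_lit 115) (nat_lit 5) (nat_lit 114) (nat_lit 5) (nat_lit 128) (nat_lit 5) (nat_lit 407) (nat_lit 405) (nat_lit 52))))) (XT.nd (nat_lit 282) (nat_lit 0) (nat_lit 168) (XT.nd (nat_lit 94) (nat_lit 0) (nat_lit 84) (XT.lf (nat_lit 84) (nat_lit 60539023481) (nat_lit 0) (nat_lit 12697481177) (nat_lit 1176) (nat_lit 80865042479) (nat_lit 115) (nat_lit 5) (nat_lit 114) (nat_lit 5) (nat_lit 128) (nat_lit 5) (nat_lit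 408) (nat_lit 405) (nat_lit 51)) (XT.nd (nat_lit 94) (nat_lit 0) (nat_lit 0) (XT.lf (nat_lit 0) (nat_lit 76102224153) (nat_lit 1092) (nat_lit 34270195994) (nat_lit 1176) (nat_lit 46174960568) (nat_lit 115) (nat_lit 5) (nat_lit 128) (nat_lit 5) (nat_lit 129) (nat_lit 5) (nat_lit 409) (nat_lit 405) (nat_lit 50)) (XT.lf (nat_lit 84) (nat_lit 27279900698) (nat_lit 0) (nat_lit 52177269437) (nat_lit 1176) (nat_lit 79599453294) (nat_lit 116) (nat_lit 5) (nat_lit 115) (nat_lit 5) (nat_lit 129) (nat_lit 5) (nat_lit 410) (nat_lit 405) (nat_lit 49)))) (XT.nd (nat_lit 94) (nat_lit 0) (nat_lit 0) (XT.lf (nat_lit 0) (nat_lit 83354989595) (nat_lit 1092) (nat_lit 70249316190) (nat_lit 1176) (nat_lit 8025742259) (nat_lit 116) (nat_lit 5) (nat_lit 129) (nat_lit 5) (nat_lit 130) (nat_lit 5) (nat_lit 411) (nat_lit 405) (nat_lit 48)) (XT.nd (nat_lit 94) (nat_lit 0) (nat_lit 0) (XT.lf (nat_lit 0) (nat_lit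 87907201527) (nat_lit 1092) (nat_lit 7348268990) (nat_lit 1176) (nat_lit 69011238282) (nat_lit 116) (nat_lit 5) (nat_lit 129) (nat_lit 5) (nat_lit 130) (nat_lit 5) (nat_lit 412) (nat_lit 405) (nat_lit 47)) (XT.lf (nat_lit 84) (nat_lit 58685026709) (nat_lit 0) (nat_lit 34497580117) (nat_lit 1176) (nat_lit 73784455223) (nat_lit 117) (nat_lit 5) (nat_lit 116) (nat_lit 5) (nat_lit 130) (nat_lit 5) (nat_lit 413) (nat_lit 405) (nat_lit 46))))))) (XT.nd (nat_lit 54332) (nat_lit 0) (nat_lit 0) (XT.nd (nat_lit 53768) (nat_lit 0) (nat_lit 0) (XT.nd (nat_lit 53486) (nat_lit 252) (nat_lit 0) (XT.nd (nat_lit 94) (nat_lit 0) (nat_lit 0) (XT.lf (nat_lit 0) (nat_lit 98978139500) (nat_lit 1092) (nat_lit 43107648178) (nat_lit 1176) (nat_lit 27654284607) (nat_lit 117) (nat_lit 5) (nat_lit 130) (nat_lit 5) (nat_lit 131) (nat_lit 5) (nat_lit 414) (nat_lit 405) (nat_lit 45)) (XT.nd (nat_lit 94) (nat_lit 0)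 (nat_lit 0) (XT.lf (nat_lit 84) (nat_lit 24222283528) (nat_lit 0) (nat_lit 81324084329) (nat_lit 1176) (nat_lit 67034294232) (nat_lit 118) (nat_lit 5) (nat_lit 117) (nat_lit 5) (nat_lit 131) (nat_lit 5) (nat_lit 415) (nat_lit 405) (nat_lit 44)) (XT.lf (nat_lit 84) (nat_lit 94553245795) (nat_lit 0) (nat_lit 18214839892) (nat_lit 1176) (nat_lit 62727278685) (nat_lit 118) (nat_lit 5) (nat_lit 117) (nat_lit 5) (nat_lit 131) (nat_lit 5) (nat_lit 416) (nat_lit 405) (nat_lit 43)))) (XT.nd (nat_lit 94) (nat_lit 0) (nat_lit 0) (XT.lf (nat_lit 0) (nat_lit 17513935934) (nat_lit 0) (nat_lit 17513935934) (nat_lit 1092) (nat_lit 40807125240) (nat_lit 114) (nat_lit 5) (nat_lit 114) (nat_lit 3) (nat_lit 127) (nat_lit 3) (nat_lit 406) (nat_lit 406) (nat_lit 52)) (XT.nd (nat_lit 94) (nat_lit 0) (nat_lit 0) (XT.lf (nat_lit 0) (nat_lit 71383920779) (nat_lit 1092) (nat_lit 58939180741) (nat_lit 1176) (nat_lit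 23690256662) (nat_lit 114) (nat_lit 5) (nat_lit 127) (nat_lit 3) (nat_lit 128) (nat_lit 5) (nat_lit 407) (nat_lit 406) (nat_lit 51)) (XT.lf (nat_lit 84) (nat_lit 198239687) (nat_lit 0) (nat_lit 72915151859) (nat_lit 1176) (nat_lit 83304811526) (nat_lit 115) (nat_lit 5) (nat_lit 114) (nat_lit 5) (nat_lit 128) (nat_lit 5) (nat_lit 408) (nat_lit 406) (nat_lit 50))))) (XT.nd (nat_lit 282) (nat_lit 0) (nat_lit 168) (XT.nd (nat_lit 94) (nat_lit 0) (nat_lit 84) (XT.lf (nat_lit 84) (nat_lit 62418346628) (nat_lit 0) (nat_lit 13093236843) (nat_lit 1176) (nat_lit 83366946711) (nat_lit 115) (nat_lit 5) (nat_lit 114) (nat_lit 5) (nat_lit 128) (nat_lit 5) (nat_lit 409) (nat_lit 406) (nat_lit 49)) (XT.nd (nat_lit 94) (nat_lit 0) (nat_lit 0) (XT.lf (nat_lit 0) (nat_lit 78465977003) (nat_lit 1092) (nat_lit 35329856742) (nat_lit 1176) (nat_lit 47604356451) (nat_lit 115) (nat_lit 5) (nat_lit 128) (nat_lit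 5) (nat_lit 129) (nat_lit 5) (nat_lit 410) (nat_lit 406) (nat_lit 48)) (XT.lf (nat_lit 84) (nat_lit 28128265457) (nat_lit 0) (nat_lit 53796549689) (nat_lit 1176) (nat_lit 82062408252) (nat_lit 116) (nat_lit 5) (nat_lit 115) (nat_lit 5) (nat_lit 129) (nat_lit 5) (nat_lit 411) (nat_lit 406) (nat_lit 47)))) (XT.nd (nat_lit 94) (nat_lit 0) (nat_lit 0) (XT.lf (nat_lit 0) (nat_lit 85943315350) (nat_lit 1092) (nat_lit 72424270113) (nat_lit 1176) (nat_lit 8272843917) (nat_lit 116) (nat_lit 5) (nat_lit 129) (nat_lit 5) (nat_lit 130) (nat_lit 5) (nat_lit 412) (nat_lit 406) (nat_lit 46)) (XT.nd (nat_lit 94) (nat_lit 0) (nat_lit 0) (XT.lf (nat_lit 0) (nat_lit 90636515926) (nat_lit 1092) (nat_lit 7573373885) (nat_lit 1176) (nat_lit 71148941323) (nat_lit 116) (nat_lit 5) (nat_lit 129) (nat_lit 5) (nat_lit 130) (nat_lit 5) (nat_lit 413) (nat_lit 406) (nat_lit 45)) (XT.lf (nat_lit 84) (nat_lit 60506926733)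 (nat_lit 0) (nat_lit 35568432466) (nat_lit 1176) (nat_lit 76067539695) (nat_lit 117) (nat_lit 5) (nat_lit 116) (nat_lit 5) (nat_lit 130) (nat_lit 5) (nat_lit 414) (nat_lit 406) (nat_lit 44)))))) (XT.nd (nat_lit 53862) (nat_lit 0) (nat_lit 84) (XT.nd (nat_lit 53580) (nat_lit 0) (nat_lit 0) (XT.nd (nat_lit 94) (nat_lit 252) (nat_lit 0) (XT.lf (nat_lit 0) (nat_lit 102050416627) (nat_lit 1092) (nat_lit 44441249642) (nat_lit 1176) (nat_lit 28510210875) (nat_lit 117) (nat_lit 5) (nat_lit 130) (nat_lit 5) (nat_lit 131) (nat_lit 5) (nat_lit 415) (nat_lit 406) (nat_lit 43)) (XT.nd (nat_lit 53392) (nat_lit 252) (nat_lit 0) (XT.lf (nat_lit 84) (nat_lit 24975882251) (nat_lit 0) (nat_lit 83846285763) (nat_lit 1176) (nat_lit 69108360517) (nat_lit 118) (nat_lit 5) (nat_lit 117) (nat_lit 5) (nat_lit 131) (nat_lit 5) (nat_lit 416) (nat_lit 406) (nat_lit 42)) (XT.lf (nat_lit 0) (nat_lit 18058090915) (nat_lit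 0) (nat_lit 18058090915) (nat_lit 1092) (nat_lit 42069615213) (nat_lit 114) (nat_lit 5) (nat_lit 114) (nat_lit 3) (nat_lit 127) (nat_lit 3) (nat_lit 407) (nat_lit 407) (nat_lit 50)))) (XT.nd (nat_lit 94) (nat_lit 0) (nat_lit 0) (XT.lf (nat_lit 0) (nat_lit 73601543567) (nat_lit 1092) (nat_lit 60763734579) (nat_lit 1176) (nat_lit 24422330027) (nat_lit 114) (nat_lit 5) (nat_lit 127) (nat_lit 3) (nat_lit 128) (nat_lit 5) (nat_lit 408) (nat_lit 407) (nat_lit 49)) (XT.nd (nat_lit 94) (nat_lit 0) (nat_lit 0) (XT.lf (nat_lit 84) (nat_lit 206919957) (nat_lit 0) (nat_lit 75177591160) (nat_lit 1176) (nat_lit 85882496294) (nat_lit 115) (nat_lit 5) (nat_lit 114) (nat_lit 5) (nat_lit 128) (nat_lit 5) (nat_lit 409) (nat_lit 407) (nat_lit 48)) (XT.lf (nat_lit 84) (nat_lit 64355773996) (nat_lit 0) (nat_lit 13501134549) (nat_lit 1176) (nat_lit 85946700925) (nat_lit 115) (nat_lit 5) (nat_lit 114) (nat_lit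 5) (nat_lit 128) (nat_lit 5) (nat_lit 410) (nat_lit 407) (nat_lit 47))))) (XT.nd (nat_lit 282) (nat_lit 0) (nat_lit 84) (XT.nd (nat_lit 94) (nat_lit 0) (nat_lit 0) (XT.lf (nat_lit 0) (nat_lit 80902734680) (nat_lit 1092) (nat_lit 36422527807) (nat_lit 1176) (nat_lit 49078183721) (nat_lit 115) (nat_lit 5) (nat_lit 128) (nat_lit 5) (nat_lit 129) (nat_lit 5) (nat_lit 411) (nat_lit 407) (nat_lit 46)) (XT.nd (nat_lit 94) (nat_lit 0) (nat_lit 84) (XT.lf (nat_lit 84) (nat_lit 29002770318) (nat_lit 0) (nat_lit 55465921907) (nat_lit 1176) (nat_lit 84601988945) (nat_lit 116) (nat_lit 5) (nat_lit 115) (nat_lit 5) (nat_lit 129) (nat_lit 5) (nat_lit 412) (nat_lit 407) (nat_lit 45)) (XT.lf (nat_lit 0) (nat_lit 88611623258) (nat_lit 1092) (nat_lit 74666811968) (nat_lit 1176) (nat_lit 8527706205) (nat_lit 116) (nat_lit 5) (nat_lit 129) (nat_lit 5) (nat_lit 130) (nat_lit 5) (nat_lit 413) (nat_lit 407)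 (nat_lit 44)))) (XT.nd (nat_lit 94) (nat_lit 0) (nat_lit 0) (XT.lf (nat_lit 0) (nat_lit 93450190822) (nat_lit 1092) (nat_lit 7805616450) (nat_lit 1176) (nat_lit 73353010615) (nat_lit 116) (nat_lit 5) (nat_lit 129) (nat_lit 5) (nat_lit 130) (nat_lit 5) (nat_lit 414) (nat_lit 407) (nat_lit 43)) (XT.nd (nat_lit 94) (nat_lit 0) (nat_lit 84) (XT.lf (nat_lit 84) (nat_lit 62385147852) (nat_lit 0) (nat_lit 36672396694) (nat_lit 1176) (nat_lit 78421650551) (nat_lit 117) (nat_lit 5) (nat_lit 116) (nat_lit 5) (nat_lit 130) (nat_lit 5) (nat_lit 415) (nat_lit 407) (nat_lit 42)) (XT.lf (nat_lit 0) (nat_lit 105217700096) (nat_lit 1092) (nat_lit 45816354788) (nat_lit 1176) (nat_lit 29392751209) (nat_lit 117) (nat_lit 5) (nat_lit 130) (nat_lit 5) (nat_lit 131) (nat_lit 5) (nat_lit 416) (nat_lit 407) (nat_lit 41))))))))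
noncomputable def xc254 : XT := (XT.nd (nat_lit 109322) (nat_lit 0) (nat_lit 0) (XT.nd (nat_lit 54614) (nat_lit 0) (nat_lit 0) (XT.nd (nat_lit 564) (nat_lit 0) (nat_lit 0) (XT.nd (nat_lit 282) (nat_lit 0) (nat_lit 0) (XT.nd (nat_lit 94) (nat_lit 0) (nat_lit 0) (XT.lf (nat_lit 0) (nat_lit 18619042261) (nat_lit 0) (nat_lit 18619042261) (nat_lit 1092) (nat_lit 43371392286) (nat_lit 114) (nat_lit 5) (nat_lit 114) (nat_lit 3) (nat_lit 127) (nat_lit 3) (nat_lit 408) (nat_lit 408) (nat_lit 48)) (XT.nd (nat_lit 94) (nat_lit 0) (nat_lit 0) (XT.lf (nat_lit 0) (nat_lit 75887633015) (nat_lit 1092) (nat_lit 62645001264) (nat_lit 1176) (nat_lit 25177235356) (nat_lit 114) (nat_lit 5) (nat_lit 127) (nat_lit 3) (nat_lit 128) (nat_lit 5) (nat_lit 409) (nat_lit 408) (nat_lit 47)) (XT.lf (nat_lit 84) (nat_lit 215719173) (nat_lit 0) (nat_lit 77510043493) (nat_lit 1176) (nat_lit 88540371493) (nat_lit 115)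 (nat_lit 5) (nat_lit 114) (nat_lit 5) (nat_lit 128) (nat_lit 5) (nat_lit 410) (nat_lit 408) (nat_lit 46)))) (XT.nd (nat_lit 94) (nat_lit 0) (nat_lit 84) (XT.lf (nat_lit 84) (nat_lit 66353115984) (nat_lit 0) (nat_lit 13921558185) (nat_lit 1176) (nat_lit 88606701237) (nat_lit 115) (nat_lit 5) (nat_lit 114) (nat_lit 5) (nat_lit 128) (nat_lit 5) (nat_lit 411) (nat_lit 408) (nat_lit 45)) (XT.nd (nat_lit 94) (nat_lit 0) (nat_lit 0) (XT.lf (nat_lit 0) (nat_lit 83414776414) (nat_lit 1092) (nat_lit 37549222982) (nat_lit 1176) (nat_lit 50597812639) (nat_lit 115) (nat_lit 5) (nat_lit 128) (nat_lit 5) (nat_lit 129) (nat_lit 5) (nat_lit 412) (nat_lit 408) (nat_lit 44)) (XT.lf (nat_lit 84) (nat_lit 29904235055) (nat_lit 0) (nat_lit 57186945203) (nat_lit 1176) (nat_lit 87220554531) (nat_lit 116) (nat_lit 5) (nat_lit 115) (nat_lit 5) (nat_lit 129) (nat_lit 5) (nat_lit 413) (nat_lit 408) (nat_lit 43)))))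 (XT.nd (nat_lit 53768) (nat_lit 168) (nat_lit 0) (XT.nd (nat_lit 94) (nat_lit 0) (nat_lit 0) (XT.lf (nat_lit 0) (nat_lit 91362407927) (nat_lit 1092) (nat_lit 76979027246) (nat_lit 1176) (nat_lit 8790563750) (nat_lit 116) (nat_lit 5) (nat_lit 129) (nat_lit 5) (nat_lit 130) (nat_lit 5) (nat_lit 414) (nat_lit 408) (nat_lit 42)) (XT.nd (nat_lit 94) (nat_lit 0) (nat_lit 0) (XT.lf (nat_lit 0) (nat_lit 96350856095) (nat_lit 1092) (nat_lit 8045208511) (nat_lit 1176) (nat_lit 75625497739) (nat_lit 116) (nat_lit 5) (nat_lit 129) (nat_lit 5) (nat_lit 130) (nat_lit 5) (nat_lit 415) (nat_lit 408) (nat_lit 41)) (XT.lf (nat_lit 84) (nat_lit 64321445369) (nat_lit 0) (nat_lit 37810504274) (nat_lit 1176) (nat_lit 80848974756) (nat_lit 117) (nat_lit 5) (nat_lit 116) (nat_lit 5) (nat_lit 130) (nat_lit 5) (nat_lit 416) (nat_lit 408) (nat_lit 40)))) (XT.nd (nat_lit 94) (nat_lit 0) (nat_lit 0) (XT.lf (nat_lit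 0) (nat_lit 19197314952) (nat_lit 0) (nat_lit 19197314952) (nat_lit 1092) (nat_lit 44713665478) (nat_lit 114) (nat_lit 5) (nat_lit 114) (nat_lit 3) (nat_lit 127) (nat_lit 3) (nat_lit 409) (nat_lit 409) (nat_lit 46)) (XT.nd (nat_lit 94) (nat_lit 0) (nat_lit 0) (XT.lf (nat_lit 0) (nat_lit 78244328152) (nat_lit 1092) (nat_lit 64584729911) (nat_lit 1176) (nat_lit 25955672285) (nat_lit 114) (nat_lit 5) (nat_lit 127) (nat_lit 3) (nat_lit 128) (nat_lit 5) (nat_lit 410) (nat_lit 409) (nat_lit 45)) (XT.lf (nat_lit 84) (nat_lit 224649915) (nat_lit 0) (nat_lit 79914686523) (nat_lit 1176) (nat_lit 91280906310) (nat_lit 115) (nat_lit 5) (nat_lit 114) (nat_lit 5) (nat_lit 128) (nat_lit 5) (nat_lit 411) (nat_lit 409) (nat_lit 44)))))) (XT.nd (nat_lit 54144) (nat_lit 0) (nat_lit 0) (XT.nd (nat_lit 282) (nat_lit 0) (nat_lit 0) (XT.nd (nat_lit 94) (nat_lit 0) (nat_lit 84) (XT.lf (nat_lit 84) (nat_lit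 68412238571) (nat_lit 0) (nat_lit 14354903097) (nat_lit 1176) (nat_lit 91349419064) (nat_lit 115) (nat_lit 5) (nat_lit 114) (nat_lit 5) (nat_lit 128) (nat_lit 5) (nat_lit 412) (nat_lit 409) (nat_lit 43)) (XT.nd (nat_lit 94) (nat_lit 0) (nat_lit 0) (XT.lf (nat_lit 0) (nat_lit 86004451141) (nat_lit 1092) (nat_lit 38710988053) (nat_lit 1176) (nat_lit 52164656360) (nat_lit 115) (nat_lit 5) (nat_lit 128) (nat_lit 5) (nat_lit 129) (nat_lit 5) (nat_lit 413) (nat_lit 409) (nat_lit 42)) (XT.lf (nat_lit 84) (nat_lit 30833504294) (nat_lit 0) (nat_lit 58961226651) (nat_lit 1176) (nat_lit 89920538267) (nat_lit 116) (nat_lit 5) (nat_lit 115) (nat_lit 5) (nat_lit 129) (nat_lit 5) (nat_lit 414) (nat_lit 409) (nat_lit 41)))) (XT.nd (nat_lit 94) (nat_lit 168) (nat_lit 0) (XT.lf (nat_lit 0) (nat_lit 94198240398) (nat_lit 1092) (nat_lit 79363066665) (nat_lit 1176) (nat_lit 9061658807) (nat_lit 116) (nat_lit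 5) (nat_lit 129) (nat_lit 5) (nat_lit 130) (nat_lit 5) (nat_lit 415) (nat_lit 409) (nat_lit 40)) (XT.nd (nat_lit 53674) (nat_lit 168) (nat_lit 0) (XT.lf (nat_lit 0) (nat_lit 99341222280) (nat_lit 1092) (nat_lit 8292369018) (nat_lit 1176) (nat_lit 77968518218) (nat_lit 116) (nat_lit 5) (nat_lit 129) (nat_lit 5) (nat_lit 130) (nat_lit 5) (nat_lit 416) (nat_lit 409) (nat_lit 39)) (XT.lf (nat_lit 0) (nat_lit 19793449985) (nat_lit 0) (nat_lit 19793449985) (nat_lit 1092) (nat_lit 46097681817) (nat_lit 114) (nat_lit 5) (nat_lit 114) (nat_lit 3) (nat_lit 127) (nat_lit 3) (nat_lit 410) (nat_lit 410) (nat_lit 44))))) (XT.nd (nat_lit 282) (nat_lit 0) (nat_lit 84) (XT.nd (nat_lit 94) (nat_lit 0) (nat_lit 0) (XT.lf (nat_lit 0) (nat_lit 80673833337) (nat_lit 1092) (nat_lit 66584724388) (nat_lit 1176) (nat_lit 26758362620) (nat_lit 114) (nat_lit 5) (nat_lit 127) (nat_lit 3) (nat_lit 128) (nat_lit 5)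 (nat_lit 411) (nat_lit 410) (nat_lit 43)) (XT.nd (nat_lit 94) (nat_lit 0) (nat_lit 0) (XT.lf (nat_lit 84) (nat_lit 233724626) (nat_lit 0) (nat_lit 82393764994) (nat_lit 1176) (nat_lit 94106647469) (nat_lit 115) (nat_lit 5) (nat_lit 114) (nat_lit 5) (nat_lit 128) (nat_lit 5) (nat_lit 412) (nat_lit 410) (nat_lit 42)) (XT.lf (nat_lit 84) (nat_lit 70535065071) (nat_lit 0) (nat_lit 14801576469) (nat_lit 1176) (nat_lit 94177403396) (nat_lit 115) (nat_lit 5) (nat_lit 114) (nat_lit 5) (nat_lit 128) (nat_lit 5) (nat_lit 413) (nat_lit 410) (nat_lit 41)))) (XT.nd (nat_lit 94) (nat_lit 0) (nat_lit 0) (XT.lf (nat_lit 0) (nat_lit 88674179718) (nat_lit 1092) (nat_lit 39908901754) (nat_lit 1176) (nat_lit 53780172248) (nat_lit 115) (nat_lit 5) (nat_lit 128) (nat_lit 5) (nat_lit 129) (nat_lit 5) (nat_lit 414) (nat_lit 410) (nat_lit 40)) (XT.nd (nat_lit 94) (nat_lit 0) (nat_lit 84) (XT.lf (nat_lit 84)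 (nat_lit 31791448323) (nat_lit 0) (nat_lit 60790422798) (nat_lit 1176) (nat_lit 92704449747) (nat_lit 116) (nat_lit 5) (nat_lit 115) (nat_lit 5) (nat_lit 129) (nat_lit 5) (nat_lit 415) (nat_lit 410) (nat_lit 39)) (XT.lf (nat_lit 0) (nat_lit 97121770570) (nat_lit 1092) (nat_lit 81821148156) (nat_lit 1176) (nat_lit 9341241470) (nat_lit 116) (nat_lit 5) (nat_lit 129) (nat_lit 5) (nat_lit 130) (nat_lit 5) (nat_lit 416) (nat_lit 410) (nat_lit 38))))))) (XT.nd (nat_lit 108006) (nat_lit 0) (nat_lit 0) (XT.nd (nat_lit 53956) (nat_lit 0) (nat_lit 0) (XT.nd (nat_lit 53674) (nat_lit 168) (nat_lit 0) (XT.nd (nat_lit 94) (nat_lit 0) (nat_lit 0) (XT.lf (nat_lit 0) (nat_lit 102424083119) (nat_lit 1092) (nat_lit 8547324237) (nat_lit 1176) (nat_lit 80384253476) (nat_lit 116) (nat_lit 5) (nat_lit 129) (nat_lit 5) (nat_lit 130) (nat_lit 5) (nat_lit 417) (nat_lit 410) (nat_lit 37)) (XT.nd (nat_lit 94) (nat_lit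 0) (nat_lit 84) (XT.lf (nat_lit 84) (nat_lit 68375561802) (nat_lit 0) (nat_lit 40193434795) (nat_lit 1176) (nat_lit 85932356527) (nat_lit 117) (nat_lit 5) (nat_lit 116) (nat_lit 5) (nat_lit 130) (nat_lit 5) (nat_lit 418) (nat_lit 410) (nat_lit 36)) (XT.lf (nat_lit 0) (nat_lit 115319636679) (nat_lit 1092) (nat_lit 50203664469) (nat_lit 1176) (nat_lit 32208388702) (nat_lit 117) (nat_lit 5) (nat_lit 130) (nat_lit 5) (nat_lit 131) (nat_lit 5) (nat_lit 419) (nat_lit 410) (nat_lit 35)))) (XT.nd (nat_lit 94) (nat_lit 0) (nat_lit 0) (XT.lf (nat_lit 0) (nat_lit 20408004890) (nat_lit 0) (nat_lit 20408004890) (nat_lit 1092) (nat_lit 47524727480) (nat_lit 114) (nat_lit 5) (nat_lit 114) (nat_lit 3) (nat_lit 127) (nat_lit 3) (nat_lit 411) (nat_lit 411) (nat_lit 42)) (XT.nd (nat_lit 94) (nat_lit 0) (nat_lit 0) (XT.lf (nat_lit 0) (nat_lit 83178420343) (nat_lit 1092) (nat_lit 68646844985) (nat_lit 1176)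 (nat_lit 27586050998) (nat_lit 114) (nat_lit 5) (nat_lit 127) (nat_lit 3) (nat_lit 128) (nat_lit 5) (nat_lit 412) (nat_lit 411) (nat_lit 41)) (XT.lf (nat_lit 84) (nat_lit 242955641) (nat_lit 0) (nat_lit 84949592830) (nat_lit 1176) (nat_lit 97020221573) (nat_lit 115) (nat_lit 5) (nat_lit 114) (nat_lit 5) (nat_lit 128) (nat_lit 5) (nat_lit 413) (nat_lit 411) (nat_lit 40))))) (XT.nd (nat_lit 282) (nat_lit 0) (nat_lit 168) (XT.nd (nat_lit 94) (nat_lit 0) (nat_lit 84) (XT.lf (nat_lit 84) (nat_lit 72723577938) (nat_lit 0) (nat_lit 15261997717) (nat_lit 1176) (nat_lit 97093283146) (nat_lit 115) (nat_lit 5) (nat_lit 114) (nat_lit 5) (nat_lit 128) (nat_lit 5) (nat_lit 414) (nat_lit 411) (nat_lit 39)) (XT.nd (nat_lit 94) (nat_lit 0) (nat_lit 0) (XT.lf (nat_lit 0) (nat_lit 91426457204) (nat_lit 1092) (nat_lit 41144076762) (nat_lit 1176) (nat_lit 55445863215) (nat_lit 115) (nat_lit 5) (nat_lit 128)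 (nat_lit 5) (nat_lit 129) (nat_lit 5) (nat_lit 415) (nat_lit 411) (nat_lit 38)) (XT.lf (nat_lit 84) (nat_lit 32778963910) (nat_lit 0) (nat_lit 62676241212) (nat_lit 1176) (nat_lit 95574877209) (nat_lit 116) (nat_lit 5) (nat_lit 115) (nat_lit 5) (nat_lit 129) (nat_lit 5) (nat_lit 416) (nat_lit 411) (nat_lit 37)))) (XT.nd (nat_lit 94) (nat_lit 0) (nat_lit 0) (XT.lf (nat_lit 0) (nat_lit 100135729695) (nat_lit 1092) (nat_lit 84355558918) (nat_lit 1176) (nat_lit 9629569901) (nat_lit 116) (nat_lit 5) (nat_lit 129) (nat_lit 5) (nat_lit 130) (nat_lit 5) (nat_lit 417) (nat_lit 411) (nat_lit 36)) (XT.nd (nat_lit 94) (nat_lit 0) (nat_lit 0) (XT.lf (nat_lit 0) (nat_lit 105602318189) (nat_lit 1092) (nat_lit 8810307942) (nat_lit 1176) (nat_lit 82874952865) (nat_lit 116) (nat_lit 5) (nat_lit 129) (nat_lit 5) (nat_lit 130) (nat_lit 5) (nat_lit 418) (nat_lit 411) (nat_lit 35)) (XT.lf (nat_lit 84) (nat_lit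 70497167486) (nat_lit 0) (nat_lit 41440483111) (nat_lit 1176) (nat_lit 88593139776) (nat_lit 117) (nat_lit 5) (nat_lit 116) (nat_lit 5) (nat_lit 130) (nat_lit 5) (nat_lit 419) (nat_lit 411) (nat_lit 34)))))) (XT.nd (nat_lit 564) (nat_lit 0) (nat_lit 0) (XT.nd (nat_lit 282) (nat_lit 0) (nat_lit 0) (XT.nd (nat_lit 94) (nat_lit 0) (nat_lit 0) (XT.lf (nat_lit 0) (nat_lit 21041554256) (nat_lit 0) (nat_lit 21041554256) (nat_lit 1092) (nat_lit 48996128984) (nat_lit 114) (nat_lit 5) (nat_lit 114) (nat_lit 3) (nat_lit 127) (nat_lit 3) (nat_lit 412) (nat_lit 412) (nat_lit 40)) (XT.nd (nat_lit 94) (nat_lit 0) (nat_lit 0) (XT.lf (nat_lit 0) (nat_lit 85760430497) (nat_lit 1092) (nat_lit 70773010131) (nat_lit 1176) (nat_lit 28439505569) (nat_lit 114) (nat_lit 5) (nat_lit 127) (nat_lit 3) (nat_lit 128) (nat_lit 5) (nat_lit 413) (nat_lit 412) (nat_lit 39)) (XT.lf (nat_lit 84) (nat_lit 252355210) (nat_lit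 0) (nat_lit 87584555308) (nat_lit 1176) (nat_lit 100024337525) (nat_lit 115) (nat_lit 5) (nat_lit 114) (nat_lit 5) (nat_lit 128) (nat_lit 5) (nat_lit 414) (nat_lit 412) (nat_lit 38)))) (XT.nd (nat_lit 94) (nat_lit 0) (nat_lit 84) (XT.lf (nat_lit 84) (nat_lit 74979820633) (nat_lit 0) (nat_lit 15736598889) (nat_lit 1176) (nat_lit 100099769572) (nat_lit 115) (nat_lit 5) (nat_lit 114) (nat_lit 5) (nat_lit 128) (nat_lit 5) (nat_lit 415) (nat_lit 412) (nat_lit 37)) (XT.nd (nat_lit 94) (nat_lit 0) (nat_lit 0) (XT.lf (nat_lit 0) (nat_lit 94263855212) (nat_lit 1092) (nat_lit 42417660714) (nat_lit 1176) (nat_lit 57163279117) (nat_lit 115) (nat_lit 5) (nat_lit 128) (nat_lit 5) (nat_lit 129) (nat_lit 5) (nat_lit 416) (nat_lit 412) (nat_lit 36)) (XT.lf (nat_lit 84) (nat_lit 33796975160) (nat_lit 0) (nat_lit 64620442089) (nat_lit 1176) (nat_lit 98534489931) (nat_lit 116) (nat_lit 5) (nat_lit 115)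 (nat_lit 5) (nat_lit 129) (nat_lit 5) (nat_lit 417) (nat_lit 412) (nat_lit 35))))) (XT.nd (nat_lit 53768) (nat_lit 168) (nat_lit 0) (XT.nd (nat_lit 94) (nat_lit 0) (nat_lit 0) (XT.lf (nat_lit 0) (nat_lit 103242932944) (nat_lit 1092) (nat_lit 86968657533) (nat_lit 1176) (nat_lit 9926910555) (nat_lit 116) (nat_lit 5) (nat_lit 129) (nat_lit 5) (nat_lit 130) (nat_lit 5) (nat_lit 418) (nat_lit 412) (nat_lit 34)) (XT.nd (nat_lit 94) (nat_lit 0) (nat_lit 0) (XT.lf (nat_lit 0) (nat_lit 108878895610) (nat_lit 1092) (nat_lit 9081561618) (nat_lit 1176) (nat_lit 85442935752) (nat_lit 116) (nat_lit 5) (nat_lit 129) (nat_lit 5) (nat_lit 130) (nat_lit 5) (nat_lit 419) (nat_lit 412) (nat_lit 33)) (XT.lf (nat_lit 84) (nat_lit 72684426657) (nat_lit 0) (nat_lit 42726127623) (nat_lit 1176) (nat_lit 91336592096) (nat_lit 117) (nat_lit 5) (nat_lit 116) (nat_lit 5) (nat_lit 130) (nat_lit 5) (nat_lit 420) (nat_lit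 412) (nat_lit 32)))) (XT.nd (nat_lit 94) (nat_lit 0) (nat_lit 0) (XT.lf (nat_lit 0) (nat_lit 21694690271) (nat_lit 0) (nat_lit 21694690271) (nat_lit 1092) (nat_lit 50513254405) (nat_lit 114) (nat_lit 5) (nat_lit 114) (nat_lit 3) (nat_lit 127) (nat_lit 3) (nat_lit 413) (nat_lit 413) (nat_lit 38)) (XT.nd (nat_lit 94) (nat_lit 0) (nat_lit 0) (XT.lf (nat_lit 0) (nat_lit 88422276891) (nat_lit 1092) (nat_lit 72965198169) (nat_lit 1176) (nat_lit 29319518696) (nat_lit 114) (nat_lit 5) (nat_lit 127) (nat_lit 3) (nat_lit 128) (nat_lit 5) (nat_lit 414) (nat_lit 413) (nat_lit 37)) (XT.lf (nat_lit 84) (nat_lit 261935524) (nat_lit 0) (nat_lit 90301111288) (nat_lit 1176) (nat_lit 103121789028) (nat_lit 115) (nat_lit 5) (nat_lit 114) (nat_lit 5) (nat_lit 128) (nat_lit 5) (nat_lit 415) (nat_lit 413) (nat_lit 36))))))))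
noncomputable def xc255 : XT := (XT.nd (nat_lit 217140) (nat_lit 0) (nat_lit 0) (XT.nd (nat_lit 108382) (nat_lit 0) (nat_lit 0) (XT.nd (nat_lit 54144) (nat_lit 0) (nat_lit 0) (XT.nd (nat_lit 282) (nat_lit 0) (nat_lit 0) (XT.nd (nat_lit 94) (nat_lit 0) (nat_lit 84) (XT.lf (nat_lit 84) (nat_lit 77305899537) (nat_lit 0) (nat_lit 16225825080) (nat_lit 1176) (nat_lit 103199658782) (nat_lit 115) (nat_lit 5) (nat_lit 114) (nat_lit 5) (nat_lit 128) (nat_lit 5) (nat_lit 416) (nat_lit 413) (nat_lit 35)) (XT.nd (nat_lit 94) (nat_lit 0) (nat_lit 0) (XT.lf (nat_lit 0) (nat_lit 97189024329) (nat_lit 1092) (nat_lit 43730837268) (nat_lit 1176) (nat_lit 58934018183) (nat_lit 115) (nat_lit 5) (nat_lit 128) (nat_lit 5) (nat_lit 129) (nat_lit 5) (nat_lit 417) (nat_lit 413) (nat_lit 34)) (XT.lf (nat_lit 84) (nat_lit 34846434389) (nat_lit 0) (nat_lit 66624839900) (nat_lit 1176) (nat_lit 101586040691) (nat_lit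 116) (nat_lit 5) (nat_lit 115) (nat_lit 5) (nat_lit 129) (nat_lit 5) (nat_lit 418) (nat_lit 413) (nat_lit 33)))) (XT.nd (nat_lit 94) (nat_lit 168) (nat_lit 0) (XT.lf (nat_lit 0) (nat_lit 106446282058) (nat_lit 1092) (nat_lit 89662876149) (nat_lit 1176) (nat_lit 10233538428) (nat_lit 116) (nat_lit 5) (nat_lit 129) (nat_lit 5) (nat_lit 130) (nat_lit 5) (nat_lit 419) (nat_lit 413) (nat_lit 32)) (XT.nd (nat_lit 53674) (nat_lit 168) (nat_lit 0) (XT.lf (nat_lit 0) (nat_lit 112256874830) (nat_lit 1092) (nat_lit 9361334676) (nat_lit 1176) (nat_lit 88090593671) (nat_lit 116) (nat_lit 5) (nat_lit 129) (nat_lit 5) (nat_lit 130) (nat_lit 5) (nat_lit 420) (nat_lit 413) (nat_lit 31)) (XT.lf (nat_lit 0) (nat_lit 22368023285) (nat_lit 0) (nat_lit 22368023285) (nat_lit 1092) (nat_lit 52077514641) (nat_lit 114) (nat_lit 5) (nat_lit 114) (nat_lit 3) (nat_lit 127) (nat_lit 3) (nat_lit 414) (nat_lit 414)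 (nat_lit 36))))) (XT.nd (nat_lit 282) (nat_lit 0) (nat_lit 84) (XT.nd (nat_lit 94) (nat_lit 0) (nat_lit 0) (XT.lf (nat_lit 0) (nat_lit 91166446656) (nat_lit 1092) (nat_lit 75225449189) (nat_lit 1176) (nat_lit 30226907685) (nat_lit 114) (nat_lit 5) (nat_lit 127) (nat_lit 3) (nat_lit 128) (nat_lit 5) (nat_lit 415) (nat_lit 414) (nat_lit 35)) (XT.nd (nat_lit 94) (nat_lit 0) (nat_lit 0) (XT.lf (nat_lit 84) (nat_lit 271708740) (nat_lit 0) (nat_lit 93101795519) (nat_lit 1176) (nat_lit 106315457169) (nat_lit 115) (nat_lit 5) (nat_lit 114) (nat_lit 5) (nat_lit 128) (nat_lit 5) (nat_lit 416) (nat_lit 414) (nat_lit 34)) (XT.lf (nat_lit 84) (nat_lit 79703985929) (nat_lit 0) (nat_lit 16730134854) (nat_lit 1176) (nat_lit 106395834315) (nat_lit 115) (nat_lit 5) (nat_lit 114) (nat_lit 5) (nat_lit 128) (nat_lit 5) (nat_lit 417) (nat_lit 414) (nat_lit 33)))) (XT.nd (nat_lit 94) (nat_lit 0) (nat_lit 0)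 (XT.lf (nat_lit 0) (nat_lit 100204696610) (nat_lit 1092) (nat_lit 45084827191) (nat_lit 1176) (nat_lit 60759728499) (nat_lit 115) (nat_lit 5) (nat_lit 128) (nat_lit 5) (nat_lit 129) (nat_lit 5) (nat_lit 418) (nat_lit 414) (nat_lit 32)) (XT.nd (nat_lit 94) (nat_lit 0) (nat_lit 84) (XT.lf (nat_lit 84) (nat_lit 35928323021) (nat_lit 0) (nat_lit 68691305091) (nat_lit 1176) (nat_lit 104732368311) (nat_lit 116) (nat_lit 5) (nat_lit 115) (nat_lit 5) (nat_lit 129) (nat_lit 5) (nat_lit 419) (nat_lit 414) (nat_lit 31)) (XT.lf (nat_lit 0) (nat_lit 109748768069) (nat_lit 1092) (nat_lit 92440722738) (nat_lit 1176) (nat_lit 10549737295) (nat_lit 116) (nat_lit 5) (nat_lit 129) (nat_lit 5) (nat_lit 130) (nat_lit 5) (nat_lit 420) (nat_lit 414) (nat_lit 30)))))) (XT.nd (nat_lit 54332) (nat_lit 0) (nat_lit 0) (XT.nd (nat_lit 282) (nat_lit 0) (nat_lit 0) (XT.nd (nat_lit 94) (nat_lit 0) (nat_lit 0) (XT.lf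 (nat_lit 0) (nat_lit 23062182377) (nat_lit 0) (nat_lit 23062182377) (nat_lit 1092) (nat_lit 53690364715) (nat_lit 114) (nat_lit 5) (nat_lit 114) (nat_lit 3) (nat_lit 127) (nat_lit 3) (nat_lit 415) (nat_lit 415) (nat_lit 34)) (XT.nd (nat_lit 94) (nat_lit 0) (nat_lit 0) (XT.lf (nat_lit 0) (nat_lit 93995503297) (nat_lit 1092) (nat_lit 77555866915) (nat_lit 1176) (nat_lit 31162515533) (nat_lit 114) (nat_lit 5) (nat_lit 127) (nat_lit 3) (nat_lit 128) (nat_lit 5) (nat_lit 416) (nat_lit 415) (nat_lit 33)) (XT.lf (nat_lit 84) (nat_lit 281687002) (nat_lit 0) (nat_lit 95989221012) (nat_lit 1176) (nat_lit 109608313073) (nat_lit 115) (nat_lit 5) (nat_lit 114) (nat_lit 5) (nat_lit 128) (nat_lit 5) (nat_lit 417) (nat_lit 415) (nat_lit 32)))) (XT.nd (nat_lit 94) (nat_lit 0) (nat_lit 84) (XT.lf (nat_lit 84) (nat_lit 82176318020) (nat_lit 0) (nat_lit 17250000685) (nat_lit 1176) (nat_lit 109691269808)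 (nat_lit 115) (nat_lit 5) (nat_lit 114) (nat_lit 5) (nat_lit 128) (nat_lit 5) (nat_lit 418) (nat_lit 415) (nat_lit 31)) (XT.nd (nat_lit 94) (nat_lit 0) (nat_lit 0) (XT.lf (nat_lit 0) (nat_lit 103313688141) (nat_lit 1092) (nat_lit 46480889483) (nat_lit 1176) (nat_lit 62642109534) (nat_lit 115) (nat_lit 5) (nat_lit 128) (nat_lit 5) (nat_lit 129) (nat_lit 5) (nat_lit 419) (nat_lit 415) (nat_lit 30)) (XT.lf (nat_lit 84) (nat_lit 37043652517) (nat_lit 0) (nat_lit 70821765835) (nat_lit 1176) (nat_lit 107976400284) (nat_lit 116) (nat_lit 5) (nat_lit 115) (nat_lit 5) (nat_lit 129) (nat_lit 5) (nat_lit 420) (nat_lit 415) (nat_lit 29))))) (XT.nd (nat_lit 282) (nat_lit 0) (nat_lit 0) (XT.nd (nat_lit 94) (nat_lit 0) (nat_lit 0) (XT.lf (nat_lit 0) (nat_lit 23777815956) (nat_lit 0) (nat_lit 23777815956) (nat_lit 1092) (nat_lit 55353305121) (nat_lit 114) (nat_lit 5) (nat_lit 114) (nat_lit 3) (nat_lit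 127) (nat_lit 3) (nat_lit 416) (nat_lit 416) (nat_lit 32)) (XT.nd (nat_lit 94) (nat_lit 0) (nat_lit 0) (XT.lf (nat_lit 0) (nat_lit 96912089113) (nat_lit 1092) (nat_lit 79958620656) (nat_lit 1176) (nat_lit 32127211706) (nat_lit 114) (nat_lit 5) (nat_lit 127) (nat_lit 3) (nat_lit 128) (nat_lit 5) (nat_lit 417) (nat_lit 416) (nat_lit 31)) (XT.lf (nat_lit 84) (nat_lit 291882469) (nat_lit 0) (nat_lit 98966081481) (nat_lit 1176) (nat_lit 113003420661) (nat_lit 115) (nat_lit 5) (nat_lit 114) (nat_lit 5) (nat_lit 128) (nat_lit 5) (nat_lit 418) (nat_lit 416) (nat_lit 30)))) (XT.nd (nat_lit 94) (nat_lit 0) (nat_lit 0) (XT.lf (nat_lit 84) (nat_lit 84725203053) (nat_lit 0) (nat_lit 17785909404) (nat_lit 1176) (nat_lit 113089031745) (nat_lit 115) (nat_lit 5) (nat_lit 114) (nat_lit 5) (nat_lit 128) (nat_lit 5) (nat_lit 419) (nat_lit 416) (nat_lit 29)) (XT.nd (nat_lit 53956) (nat_lit 84) (nat_lit 0)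 (XT.lf (nat_lit 0) (nat_lit 106518901686) (nat_lit 1092) (nat_lit 47920322543) (nat_lit 1176) (nat_lit 64582913715) (nat_lit 115) (nat_lit 5) (nat_lit 128) (nat_lit 5) (nat_lit 129) (nat_lit 5) (nat_lit 420) (nat_lit 416) (nat_lit 28)) (XT.lf (nat_lit 0) (nat_lit 24515592363) (nat_lit 0) (nat_lit 24515592363) (nat_lit 1092) (nat_lit 57067883211) (nat_lit 114) (nat_lit 5) (nat_lit 114) (nat_lit 3) (nat_lit 127) (nat_lit 3) (nat_lit 417) (nat_lit 417) (nat_lit 30))))))) (XT.nd (nat_lit 163278) (nat_lit 0) (nat_lit 0) (XT.nd (nat_lit 108570) (nat_lit 0) (nat_lit 0) (XT.nd (nat_lit 54238) (nat_lit 0) (nat_lit 0) (XT.nd (nat_lit 94) (nat_lit 0) (nat_lit 0) (XT.lf (nat_lit 0) (nat_lit 99918927670) (nat_lit 1092) (nat_lit 82435947315) (nat_lit 1176) (nat_lit 33121892938) (nat_lit 114) (nat_lit 5) (nat_lit 127) (nat_lit 3) (nat_lit 128) (nat_lit 5) (nat_lit 418) (nat_lit 417) (nat_lit 29)) (XT.nd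 (nat_lit 94) (nat_lit 0) (nat_lit 0) (XT.lf (nat_lit 84) (nat_lit 302307328) (nat_lit 0) (nat_lit 102035153865) (nat_lit 1176) (nat_lit 116503939478) (nat_lit 115) (nat_lit 5) (nat_lit 114) (nat_lit 5) (nat_lit 128) (nat_lit 5) (nat_lit 419) (nat_lit 417) (nat_lit 28)) (XT.lf (nat_lit 84) (nat_lit 87353019462) (nat_lit 0) (nat_lit 18338362662) (nat_lit 1176) (nat_lit 116592282298) (nat_lit 115) (nat_lit 5) (nat_lit 114) (nat_lit 5) (nat_lit 128) (nat_lit 5) (nat_lit 420) (nat_lit 417) (nat_lit 27)))) (XT.nd (nat_lit 94) (nat_lit 0) (nat_lit 0) (XT.lf (nat_lit 0) (nat_lit 25276200502) (nat_lit 0) (nat_lit 25276200502) (nat_lit 1092) (nat_lit 58835694628) (nat_lit 114) (nat_lit 5) (nat_lit 114) (nat_lit 3) (nat_lit 127) (nat_lit 3) (nat_lit 418) (nat_lit 418) (nat_lit 28)) (XT.nd (nat_lit 94) (nat_lit 0) (nat_lit 0) (XT.lf (nat_lit 0) (nat_lit 103018826364) (nat_lit 1092) (nat_lit 84990153467)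 (nat_lit 1176) (nat_lit 34147484058) (nat_lit 114) (nat_lit 5) (nat_lit 127) (nat_lit 3) (nat_lit 128) (nat_lit 5) (nat_lit 419) (nat_lit 418) (nat_lit 27)) (XT.lf (nat_lit 84) (nat_lit 312973826) (nat_lit 0) (nat_lit 105199300925) (nat_lit 1176) (nat_lit 120113127624) (nat_lit 115) (nat_lit 5) (nat_lit 114) (nat_lit 5) (nat_lit 128) (nat_lit 5) (nat_lit 420) (nat_lit 418) (nat_lit 26))))) (XT.nd (nat_lit 54426) (nat_lit 0) (nat_lit 0) (XT.nd (nat_lit 94) (nat_lit 0) (nat_lit 0) (XT.lf (nat_lit 0) (nat_lit 26060350486) (nat_lit 0) (nat_lit 26060350486) (nat_lit 1092) (nat_lit 60658384783) (nat_lit 114) (nat_lit 5) (nat_lit 114) (nat_lit 3) (nat_lit 127) (nat_lit 3) (nat_lit 419) (nat_lit 419) (nat_lit 26)) (XT.nd (nat_lit 54238) (nat_lit 0) (nat_lit 0) (XT.lf (nat_lit 0) (nat_lit 106214679054) (nat_lit 1092) (nat_lit 87623617497) (nat_lit 1176) (nat_lit 35204938844) (nat_lit 114) (nat_lit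 5) (nat_lit 127) (nat_lit 3) (nat_lit 128) (nat_lit 5) (nat_lit 420) (nat_lit 419) (nat_lit 25)) (XT.lf (nat_lit 0) (nat_lit 26868774306) (nat_lit 0) (nat_lit 26868774306) (nat_lit 1092) (nat_lit 62537650382) (nat_lit 114) (nat_lit 5) (nat_lit 114) (nat_lit 3) (nat_lit 127) (nat_lit 3) (nat_lit 420) (nat_lit 420) (nat_lit 24)))) (XT.nd (nat_lit 94) (nat_lit 0) (nat_lit 0) (XT.lf (nat_lit 0) (nat_lit 109509468777) (nat_lit 1092) (nat_lit 90338791810) (nat_lit 1176) (nat_lit 36295240904) (nat_lit 114) (nat_lit 5) (nat_lit 127) (nat_lit 3) (nat_lit 128) (nat_lit 5) (nat_lit 421) (nat_lit 420) (nat_lit 23)) (XT.nd (nat_lit 94) (nat_lit 0) (nat_lit 0) (XT.lf (nat_lit 84) (nat_lit 335081112) (nat_lit 0) (nat_lit 111824715360) (nat_lit 1176) (nat_lit 127671055279) (nat_lit 115) (nat_lit 5) (nat_lit 114) (nat_lit 5) (nat_lit 128) (nat_lit 5) (nat_lit 422) (nat_lit 420) (nat_lit 22)) (XT.lf (nat_lit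 84) (nat_lit 95734956389) (nat_lit 0) (nat_lit 20100238552) (nat_lit 1176) (nat_lit 127768084854) (nat_lit 115) (nat_lit 5) (nat_lit 114) (nat_lit 5) (nat_lit 128) (nat_lit 5) (nat_lit 423) (nat_lit 420) (nat_lit 21)))))) (XT.nd (nat_lit 54238) (nat_lit 0) (nat_lit 0) (XT.nd (nat_lit 53956) (nat_lit 84) (nat_lit 0) (XT.nd (nat_lit 94) (nat_lit 0) (nat_lit 0) (XT.lf (nat_lit 0) (nat_lit 120363219859) (nat_lit 1092) (nat_lit 54139177585) (nat_lit 1176) (nat_lit 72967356450) (nat_lit 115) (nat_lit 5) (nat_lit 128) (nat_lit 5) (nat_lit 129) (nat_lit 5) (nat_lit 424) (nat_lit 420) (nat_lit 20)) (XT.nd (nat_lit 94) (nat_lit 0) (nat_lit 84) (XT.lf (nat_lit 84) (nat_lit 43159539335) (nat_lit 0) (nat_lit 82505761860) (nat_lit 1176) (nat_lit 125771143324) (nat_lit 116) (nat_lit 5) (nat_lit 115) (nat_lit 5) (nat_lit 129) (nat_lit 5) (nat_lit 425) (nat_lit 420) (nat_lit 19)) (XT.lf (nat_lit 0) (nat_lit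 131825033092) (nat_lit 1092) (nat_lit 111014591280) (nat_lit 1176) (nat_lit 12664986455) (nat_lit 116) (nat_lit 5) (nat_lit 129) (nat_lit 5) (nat_lit 130) (nat_lit 5) (nat_lit 426) (nat_lit 420) (nat_lit 18)))) (XT.nd (nat_lit 94) (nat_lit 0) (nat_lit 0) (XT.lf (nat_lit 0) (nat_lit 27702226511) (nat_lit 0) (nat_lit 27702226511) (nat_lit 1092) (nat_lit 64475240994) (nat_lit 114) (nat_lit 5) (nat_lit 114) (nat_lit 3) (nat_lit 127) (nat_lit 3) (nat_lit 421) (nat_lit 421) (nat_lit 22)) (XT.nd (nat_lit 94) (nat_lit 0) (nat_lit 0) (XT.lf (nat_lit 0) (nat_lit 112906270541) (nat_lit 1092) (nat_lit 93138205107) (nat_lit 1176) (nat_lit 37419404582) (nat_lit 114) (nat_lit 5) (nat_lit 127) (nat_lit 3) (nat_lit 128) (nat_lit 5) (nat_lit 422) (nat_lit 421) (nat_lit 21)) (XT.lf (nat_lit 84) (nat_lit 346546847) (nat_lit 0) (nat_lit 115292161860) (nat_lit 1176) (nat_lit 131626831409) (nat_lit 115) (nat_lit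 5) (nat_lit 114) (nat_lit 5) (nat_lit 128) (nat_lit 5) (nat_lit 423) (nat_lit 421) (nat_lit 20))))) (XT.nd (nat_lit 54144) (nat_lit 0) (nat_lit 0) (XT.nd (nat_lit 94) (nat_lit 0) (nat_lit 0) (XT.lf (nat_lit 84) (nat_lit 98703785839) (nat_lit 0) (nat_lit 20724199801) (nat_lit 1176) (nat_lit 131726929835) (nat_lit 115) (nat_lit 5) (nat_lit 114) (nat_lit 5) (nat_lit 128) (nat_lit 5) (nat_lit 424) (nat_lit 421) (nat_lit 19)) (XT.nd (nat_lit 53956) (nat_lit 84) (nat_lit 0) (XT.lf (nat_lit 0) (nat_lit 124096313996) (nat_lit 1092) (nat_lit 55816405509) (nat_lit 1176) (nat_lit 75228533006) (nat_lit 115) (nat_lit 5) (nat_lit 128) (nat_lit 5) (nat_lit 129) (nat_lit 5) (nat_lit 425) (nat_lit 421) (nat_lit 18)) (XT.lf (nat_lit 0) (nat_lit 28561484923) (nat_lit 0) (nat_lit 28561484923) (nat_lit 1092) (nat_lit 66472960681) (nat_lit 114) (nat_lit 5) (nat_lit 114) (nat_lit 3) (nat_lit 127) (nat_lit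 3) (nat_lit 422) (nat_lit 422) (nat_lit 20)))) (XT.nd (nat_lit 94) (nat_lit 0) (nat_lit 0) (XT.lf (nat_lit 0) (nat_lit 116408254208) (nat_lit 1092) (nat_lit 96024464735) (nat_lit 1176) (nat_lit 38578475902) (nat_lit 114) (nat_lit 5) (nat_lit 127) (nat_lit 3) (nat_lit 128) (nat_lit 5) (nat_lit 423) (nat_lit 422) (nat_lit 19)) (XT.nd (nat_lit 54144) (nat_lit 0) (nat_lit 0) (XT.lf (nat_lit 84) (nat_lit 358304156) (nat_lit 0) (nat_lit 118867047058) (nat_lit 1176) (nat_lit 135705356637) (nat_lit 115) (nat_lit 5) (nat_lit 114) (nat_lit 5) (nat_lit 128) (nat_lit 5) (nat_lit 424) (nat_lit 422) (nat_lit 18)) (XT.lf (nat_lit 0) (nat_lit 29447351357) (nat_lit 0) (nat_lit 29447351357) (nat_lit 1092) (nat_lit 68532669668) (nat_lit 114) (nat_lit 5) (nat_lit 114) (nat_lit 3) (nat_lit 127) (nat_lit 3) (nat_lit 423) (nat_lit 423) (nat_lit 18))))))))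

set_option maxRecDepth 10000000 in
noncomputable def Tp : PT := (PT.nd (nat_lit 2771872) (PT.nd (nat_lit 2173938) (PT.nd (nat_lit 1632028) (PT.nd (nat_lit 1144920) (PT.nd (nat_lit 819492) pc0 pc1) (PT.nd (nat_lit 270720) pc2 pc3)) (PT.nd (nat_lit 271754) (PT.nd (nat_lit 162432) pc4 pc5) (PT.nd (nat_lit 161680) pc6 pc7))) (PT.nd (nat_lit 326556) (PT.nd (nat_lit 163654) (PT.nd (nat_lit 108006) pc8 pc9) (PT.nd (nat_lit 107536) pc10 pc11)) (PT.nd (nat_lit 161868) (PT.nd (nat_lit 106878) pc12 pc13) (PT.nd (nat_lit 54802) pc14 pc15)))) (PT.nd (nat_lit 432118) (PT.nd (nat_lit 267806) (PT.nd (nat_lit 159706) (PT.nd (nat_lit 105468) pc16 pc17) (PT.nd (nat_lit 54144) pc18 pc19)) (PT.nd (nat_lit 57152) (PT.nd (nat_lit 3384) pc20 pc21) (PT.nd (nat_lit 53674) pc22 pc23))) (PT.nd (nat_lit 164124) (PT.nd (nat_lit 106314) (PT.nd (nat_lit 53204) pc24 pc25) (PT.nd (nat_lit 3478) pc26 pc27)) (PT.nd (nat_lit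 162902) (PT.nd (nat_lit 54990) pc28 pc29) (PT.nd (nat_lit 109040) pc30 pc31)))))

set_option maxRecDepth 10000000 in
noncomputable def Tx : XT := (XT.nd (nat_lit 11918166) (nat_lit 0) (nat_lit 168) XT.nil (XT.nd (nat_lit 11064364) (nat_lit 0) (nat_lit 0) (XT.nd (nat_lit 4653376) (nat_lit 0) (nat_lit 420) (XT.nd (nat_lit 3299682) (nat_lit 0) (nat_lit 84) (XT.nd (nat_lit 2384404) (nat_lit 0) (nat_lit 84) (XT.nd (nat_lit 1732514) (nat_lit 0) (nat_lit 0) (XT.nd (nat_lit 1244936) (nat_lit 0) (nat_lit 0) (XT.nd (nat_lit 919320) (nat_lit 0) (nat_lit 0) (XT.nd (nat_lit 649070) (nat_lit 0) (nat_lit 0) (XT.nd (nat_lit 433340) (nat_lit 0) (nat_lit 0) xc0 xc1) (XT.nd (nat_lit 161774) (nat_lit 0) (nat_lit 0) xc2 xc3)) (XT.nd (nat_lit 163560) (nat_lit 0) (nat_lit 0) (XT.nd (nat_lit 107724) (nat_lit 0) (nat_lit 0) xc4 xc5) (XT.nd (nat_lit 106690) (nat_lit 0) (nat_lit 0) xc6 xc7))) (XT.nd (nat_lit 270626)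 (nat_lit 0) (nat_lit 0) (XT.nd (nat_lit 161022) (nat_lit 0) (nat_lit 0) (XT.nd (nat_lit 55272) (nat_lit 0) (nat_lit 0) xc8 xc9) (XT.nd (nat_lit 54896) (nat_lit 0) (nat_lit 0) xc10 xc11)) (XT.nd (nat_lit 108852) (nat_lit 0) (nat_lit 0) (XT.nd (nat_lit 54520) (nat_lit 0) (nat_lit 0) xc12 xc13) (XT.nd (nat_lit 54144) (nat_lit 0) (nat_lit 0) xc14 xc15)))) (XT.nd (nat_lit 377504) (nat_lit 0) (nat_lit 84) (XT.nd (nat_lit 214226) (nat_lit 0) (nat_lit 0) (XT.nd (nat_lit 107442) (nat_lit 0) (nat_lit 0) (XT.nd (nat_lit 53768) (nat_lit 0) (nat_lit 0) xc16 xc17) (XT.nd (nat_lit 53486) (nat_lit 0) (nat_lit 0) xc18 xc19)) (XT.nd (nat_lit 57622) (nat_lit 0) (nat_lit 84) (XT.nd (nat_lit 53110) (nat_lit 0) (nat_lit 84) xc20 xc21) (XT.nd (nat_lit 52922) (nat_lit 0) (nat_lit 0) xc22 xc23))) (XT.nd (nat_lit 161586) (nat_lit 0) (nat_lit 0) (XT.nd (nat_lit 57058) (nat_lit 0) (nat_lit 0) (XT.nd (nat_lit 52546)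 (nat_lit 0) (nat_lit 0) xc24 xc25) (XT.nd (nat_lit 52358) (nat_lit 0) (nat_lit 0) xc26 xc27)) (XT.nd (nat_lit 56494) (nat_lit 0) (nat_lit 0) (XT.nd (nat_lit 4512) (nat_lit 0) (nat_lit 0) xc28 xc29) (XT.nd (nat_lit 51794) (nat_lit 0) (nat_lit 0) xc30 xc31))))) (XT.nd (nat_lit 488706) (nat_lit 0) (nat_lit 0) (XT.nd (nat_lit 269498) (nat_lit 0) (nat_lit 0) (XT.nd (nat_lit 158672) (nat_lit 0) (nat_lit 0) (XT.nd (nat_lit 102930) (nat_lit 0) (nat_lit 0) (XT.nd (nat_lit 51512) (nat_lit 0) (nat_lit 0) xc32 xc33) (XT.nd (nat_lit 4512) (nat_lit 168) (nat_lit 0) xc34 xc35)) (XT.nd (nat_lit 55554) (nat_lit 0) (nat_lit 0) (XT.nd (nat_lit 4512) (nat_lit 0) (nat_lit 0) xc36 xc37) (XT.nd (nat_lit 50760) (nat_lit 0) (nat_lit 336) xc38 xc39))) (XT.nd (nat_lit 109980) (nat_lit 0) (nat_lit 0) (XT.nd (nat_lit 55084) (nat_lit 0) (nat_lit 0) (XT.nd (nat_lit 50572) (nat_lit 0) (nat_lit 168) xc40 xc41) (XT.nd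 (nat_lit 50384) (nat_lit 0) (nat_lit 84) xc42 xc43)) (XT.nd (nat_lit 54708) (nat_lit 0) (nat_lit 0) (XT.nd (nat_lit 50196) (nat_lit 0) (nat_lit 84) xc44 xc45) (XT.nd (nat_lit 50008) (nat_lit 0) (nat_lit 0) xc46 xc47)))) (XT.nd (nat_lit 214884) (nat_lit 0) (nat_lit 0) (XT.nd (nat_lit 107912) (nat_lit 0) (nat_lit 0) (XT.nd (nat_lit 54144) (nat_lit 0) (nat_lit 0) (XT.nd (nat_lit 49632) (nat_lit 0) (nat_lit 0) xc48 xc49) (XT.nd (nat_lit 49256) (nat_lit 0) (nat_lit 84) xc50 xc51)) (XT.nd (nat_lit 53580) (nat_lit 0) (nat_lit 0) (XT.nd (nat_lit 49068) (nat_lit 0) (nat_lit 252) xc52 xc53) (XT.nd (nat_lit 48880) (nat_lit 0) (nat_lit 336) xc54 xc55))) (XT.nd (nat_lit 106220) (nat_lit 0) (nat_lit 0) (XT.nd (nat_lit 53204) (nat_lit 0) (nat_lit 0) (XT.nd (nat_lit 48692) (nat_lit 0) (nat_lit 672) xc56 xc57) (XT.nd (nat_lit 48504) (nat_lit 0) (nat_lit 1260) xc58 xc59)) (XT.nd (nat_lit 52828) (nat_lit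 0) (nat_lit 0) (XT.nd (nat_lit 4512) (nat_lit 84) (nat_lit 0) xc60 xc61) (XT.nd (nat_lit 4512) (nat_lit 252) (nat_lit 0) xc62 xc63)))))) (XT.nd (nat_lit 649352) (nat_lit 0) (nat_lit 84) (XT.nd (nat_lit 327684) (nat_lit 0) (nat_lit 0) (XT.nd (nat_lit 164688) (nat_lit 0) (nat_lit 0) (XT.nd (nat_lit 61100) (nat_lit 0) (nat_lit 0) (XT.nd (nat_lit 52076) (nat_lit 0) (nat_lit 168) (XT.nd (nat_lit 4418) (nat_lit 672) (nat_lit 0) xc64 xc65) (XT.nd (nat_lit 4512) (nat_lit 1680) (nat_lit 0) xc66 xc67)) (XT.nd (nat_lit 51888) (nat_lit 0) (nat_lit 0) (XT.nd (nat_lit 47376) (nat_lit 0) (nat_lit 672) xc68 xc69) (XT.nd (nat_lit 47188) (nat_lit 0) (nat_lit 2268) xc70 xc71))) (XT.nd (nat_lit 60536) (nat_lit 0) (nat_lit 0) (XT.nd (nat_lit 51512) (nat_lit 0) (nat_lit 0) (XT.nd (nat_lit 4512) (nat_lit 252) (nat_lit 0) xc72 xc73) (XT.nd (nat_lit 4512) (nat_lit 1008) (nat_lit 0) xc74 xc75)) (XT.nd (nat_lit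 51324) (nat_lit 0) (nat_lit 0) (XT.nd (nat_lit 46812) (nat_lit 0) (nat_lit 588) xc76 xc77) (XT.nd (nat_lit 46624) (nat_lit 0) (nat_lit 2100) xc78 xc79)))) (XT.nd (nat_lit 160082) (nat_lit 0) (nat_lit 0) (XT.nd (nat_lit 59314) (nat_lit 0) (nat_lit 0) (XT.nd (nat_lit 50290) (nat_lit 0) (nat_lit 168) (XT.nd (nat_lit 4418) (nat_lit 252) (nat_lit 0) xc80 xc81) (XT.nd (nat_lit 4512) (nat_lit 1596) (nat_lit 0) xc82 xc83)) (XT.nd (nat_lit 50290) (nat_lit 0) (nat_lit 0) (XT.nd (nat_lit 45778) (nat_lit 0) (nat_lit 1428) xc84 xc85) (XT.nd (nat_lit 4512) (nat_lit 84) (nat_lit 0) xc86 xc87))) (XT.nd (nat_lit 59690) (nat_lit 0) (nat_lit 84) (XT.nd (nat_lit 50666) (nat_lit 0) (nat_lit 672) (XT.nd (nat_lit 4512) (nat_lit 1008) (nat_lit 0) xc88 xc89) (XT.nd (nat_lit 4512) (nat_lit 3864) (nat_lit 0) xc90 xc91)) (XT.nd (nat_lit 50854) (nat_lit 0) (nat_lit 0) (XT.nd (nat_lit 46342) (nat_lit 0) (nat_lit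 3024) xc92 xc93) (XT.nd (nat_lit 4512) (nat_lit 252) (nat_lit 0) xc94 xc95))))) (XT.nd (nat_lit 328154) (nat_lit 0) (nat_lit 168) (XT.nd (nat_lit 163184) (nat_lit 0) (nat_lit 168) (XT.nd (nat_lit 60160) (nat_lit 0) (nat_lit 0) (XT.nd (nat_lit 8930) (nat_lit 168) (nat_lit 0) (XT.nd (nat_lit 4418) (nat_lit 1596) (nat_lit 0) xc96 xc97) (XT.nd (nat_lit 46718) (nat_lit 0) (nat_lit 924) xc98 xc99)) (XT.nd (nat_lit 51418) (nat_lit 0) (nat_lit 84) (XT.nd (nat_lit 46906) (nat_lit 0) (nat_lit 3276) xc100 xc101) (XT.nd (nat_lit 4512) (nat_lit 420) (nat_lit 0) xc102 xc103))) (XT.nd (nat_lit 60912) (nat_lit 0) (nat_lit 0) (XT.nd (nat_lit 51888) (nat_lit 0) (nat_lit 420) (XT.nd (nat_lit 4512) (nat_lit 1344) (nat_lit 0) xc104 xc105) (XT.nd (nat_lit 4512) (nat_lit 3444) (nat_lit 0) xc106 xc107)) (XT.nd (nat_lit 51982) (nat_lit 0) (nat_lit 0) (XT.nd (nat_lit 47470) (nat_lit 0) (nat_lit 1512) xc108 xc109)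 (XT.nd (nat_lit 4512) (nat_lit 0) (nat_lit 0) xc110 xc111)))) (XT.nd (nat_lit 165722) (nat_lit 0) (nat_lit 0) (XT.nd (nat_lit 104340) (nat_lit 0) (nat_lit 0) (XT.nd (nat_lit 52076) (nat_lit 0) (nat_lit 0) (XT.nd (nat_lit 4418) (nat_lit 588) (nat_lit 0) xc112 xc113) (XT.nd (nat_lit 4512) (nat_lit 1512) (nat_lit 0) xc114 xc115)) (XT.nd (nat_lit 9024) (nat_lit 420) (nat_lit 0) (XT.nd (nat_lit 4512) (nat_lit 3444) (nat_lit 0) xc116 xc117) (XT.nd (nat_lit 47846) (nat_lit 0) (nat_lit 1344) xc118 xc119))) (XT.nd (nat_lit 104998) (nat_lit 0) (nat_lit 0) (XT.nd (nat_lit 52452) (nat_lit 0) (nat_lit 0) (XT.nd (nat_lit 47940) (nat_lit 0) (nat_lit 2856) xc120 xc121) (XT.nd (nat_lit 4512) (nat_lit 336) (nat_lit 0) xc122 xc123)) (XT.nd (nat_lit 52640) (nat_lit 0) (nat_lit 84) (XT.nd (nat_lit 4512) (nat_lit 756) (nat_lit 0) xc124 xc125) (XT.nd (nat_lit 4512) (nat_lit 1764) (nat_lit 0) xc126 xc127)))))))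 (XT.nd (nat_lit 1797092) (nat_lit 0) (nat_lit 1008) (XT.nd (nat_lit 816860) (nat_lit 0) (nat_lit 504) (XT.nd (nat_lit 382768) (nat_lit 0) (nat_lit 252) (XT.nd (nat_lit 168260) (nat_lit 0) (nat_lit 168) (XT.nd (nat_lit 61852) (nat_lit 0) (nat_lit 0) (XT.nd (nat_lit 8930) (nat_lit 336) (nat_lit 0) (XT.nd (nat_lit 4418) (nat_lit 3024) (nat_lit 0) xc128 xc129) (XT.nd (nat_lit 48410) (nat_lit 0) (nat_lit 840) xc130 xc131)) (XT.nd (nat_lit 53110) (nat_lit 0) (nat_lit 0) (XT.nd (nat_lit 48598) (nat_lit 0) (nat_lit 1428) xc132 xc133) (XT.nd (nat_lit 48786) (nat_lit 0) (nat_lit 2436) xc134 xc135))) (XT.nd (nat_lit 107066) (nat_lit 0) (nat_lit 84) (XT.nd (nat_lit 53486) (nat_lit 0) (nat_lit 84) (XT.nd (nat_lit 48974) (nat_lit 0) (nat_lit 3192) xc136 xc137) (XT.nd (nat_lit 4512) (nat_lit 84) (nat_lit 0) xc138 xc139)) (XT.nd (nat_lit 53674) (nat_lit 0) (nat_lit 0) (XT.nd (nat_lit 4512) (nat_lit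 252) (nat_lit 0) xc140 xc141) (XT.nd (nat_lit 4512) (nat_lit 588) (nat_lit 0) xc142 xc143)))) (XT.nd (nat_lit 216012) (nat_lit 0) (nat_lit 84) (XT.nd (nat_lit 107724) (nat_lit 0) (nat_lit 84) (XT.nd (nat_lit 53768) (nat_lit 0) (nat_lit 0) (XT.nd (nat_lit 4418) (nat_lit 840) (nat_lit 0) xc144 xc145) (XT.nd (nat_lit 4512) (nat_lit 1176) (nat_lit 0) xc146 xc147)) (XT.nd (nat_lit 54050) (nat_lit 0) (nat_lit 0) (XT.nd (nat_lit 4512) (nat_lit 1344) (nat_lit 0) xc148 xc149) (XT.nd (nat_lit 4512) (nat_lit 1596) (nat_lit 0) xc150 xc151))) (XT.nd (nat_lit 108946) (nat_lit 0) (nat_lit 0) (XT.nd (nat_lit 54426) (nat_lit 0) (nat_lit 0) (XT.nd (nat_lit 4512) (nat_lit 1596) (nat_lit 0) xc152 xc153) (XT.nd (nat_lit 4512) (nat_lit 1596) (nat_lit 0) xc154 xc155)) (XT.nd (nat_lit 54520) (nat_lit 0) (nat_lit 168) (XT.nd (nat_lit 4512) (nat_lit 1428) (nat_lit 0) xc156 xc157) (XT.nd (nat_lit 4512) (nat_lit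 1176) (nat_lit 0) xc158 xc159))))) (XT.nd (nat_lit 440202) (nat_lit 0) (nat_lit 168) (XT.nd (nat_lit 219302) (nat_lit 0) (nat_lit 168) (XT.nd (nat_lit 109416) (nat_lit 0) (nat_lit 0) (XT.nd (nat_lit 54614) (nat_lit 0) (nat_lit 0) (XT.nd (nat_lit 4418) (nat_lit 924) (nat_lit 0) xc160 xc161) (XT.nd (nat_lit 4512) (nat_lit 756) (nat_lit 0) xc162 xc163)) (XT.nd (nat_lit 54896) (nat_lit 0) (nat_lit 84) (XT.nd (nat_lit 4512) (nat_lit 504) (nat_lit 0) xc164 xc165) (XT.nd (nat_lit 4512) (nat_lit 84) (nat_lit 0) xc166 xc167))) (XT.nd (nat_lit 110262) (nat_lit 0) (nat_lit 0) (XT.nd (nat_lit 55084) (nat_lit 0) (nat_lit 0) (XT.nd (nat_lit 50572) (nat_lit 0) (nat_lit 2352) xc168 xc169) (XT.nd (nat_lit 50666) (nat_lit 0) (nat_lit 1512) xc170 xc171)) (XT.nd (nat_lit 55272) (nat_lit 0) (nat_lit 0) (XT.nd (nat_lit 50760) (nat_lit 0) (nat_lit 756) xc172 xc173) (XT.nd (nat_lit 50854) (nat_lit 0) (nat_lit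 168) xc174 xc175)))) (XT.nd (nat_lit 269122) (nat_lit 0) (nat_lit 168) (XT.nd (nat_lit 157638) (nat_lit 0) (nat_lit 168) (XT.nd (nat_lit 101896) (nat_lit 0) (nat_lit 168) (XT.nd (nat_lit 50854) (nat_lit 0) (nat_lit 168) xc176 xc177) (XT.nd (nat_lit 4512) (nat_lit 1596) (nat_lit 0) xc178 xc179)) (XT.nd (nat_lit 55742) (nat_lit 0) (nat_lit 0) (XT.nd (nat_lit 4512) (nat_lit 420) (nat_lit 0) xc180 xc181) (XT.nd (nat_lit 51230) (nat_lit 0) (nat_lit 1932) xc182 xc183))) (XT.nd (nat_lit 158766) (nat_lit 0) (nat_lit 168) (XT.nd (nat_lit 55836) (nat_lit 0) (nat_lit 168) (XT.nd (nat_lit 51324) (nat_lit 0) (nat_lit 588) xc184 xc185) (XT.nd (nat_lit 51418) (nat_lit 0) (nat_lit 0) xc186 xc187)) (XT.nd (nat_lit 56118) (nat_lit 0) (nat_lit 0) (XT.nd (nat_lit 4512) (nat_lit 1428) (nat_lit 0) xc188 xc189) (XT.nd (nat_lit 4512) (nat_lit 0) (nat_lit 0) xc190 xc191)))))) (XT.nd (nat_lit 1190980) (nat_lit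 0) (nat_lit 1428) (XT.nd (nat_lit 544448) (nat_lit 0) (nat_lit 252) (XT.nd (nat_lit 271566) (nat_lit 0) (nat_lit 252) (XT.nd (nat_lit 159048) (nat_lit 0) (nat_lit 84) (XT.nd (nat_lit 55930) (nat_lit 0) (nat_lit 0) (XT.nd (nat_lit 51418) (nat_lit 0) (nat_lit 924) xc192 xc193) (XT.nd (nat_lit 51512) (nat_lit 0) (nat_lit 0) xc194 xc195)) (XT.nd (nat_lit 56212) (nat_lit 0) (nat_lit 168) (XT.nd (nat_lit 4512) (nat_lit 1680) (nat_lit 0) xc196 xc197) (XT.nd (nat_lit 4512) (nat_lit 0) (nat_lit 0) xc198 xc199))) (XT.nd (nat_lit 160176) (nat_lit 0) (nat_lit 0) (XT.nd (nat_lit 56400) (nat_lit 0) (nat_lit 0) (XT.nd (nat_lit 51888) (nat_lit 0) (nat_lit 420) xc200 xc201) (XT.nd (nat_lit 51982) (nat_lit 0) (nat_lit 0) xc202 xc203)) (XT.nd (nat_lit 56306) (nat_lit 0) (nat_lit 0) (XT.nd (nat_lit 4512) (nat_lit 672) (nat_lit 0) xc204 xc205) (XT.nd (nat_lit 51888) (nat_lit 0) (nat_lit 924) xc206 xc207))))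 (XT.nd (nat_lit 321668) (nat_lit 0) (nat_lit 0) (XT.nd (nat_lit 160646) (nat_lit 0) (nat_lit 0) (XT.nd (nat_lit 103964) (nat_lit 0) (nat_lit 168) (XT.nd (nat_lit 51888) (nat_lit 0) (nat_lit 0) xc208 xc209) (XT.nd (nat_lit 4512) (nat_lit 1008) (nat_lit 0) xc210 xc211)) (XT.nd (nat_lit 56776) (nat_lit 168) (nat_lit 0) (XT.nd (nat_lit 52264) (nat_lit 0) (nat_lit 756) xc212 xc213) (XT.nd (nat_lit 52358) (nat_lit 168) (nat_lit 0) xc214 xc215))) (XT.nd (nat_lit 113364) (nat_lit 0) (nat_lit 420) (XT.nd (nat_lit 56588) (nat_lit 0) (nat_lit 168) (XT.nd (nat_lit 4512) (nat_lit 924) (nat_lit 0) xc216 xc217) (XT.nd (nat_lit 52264) (nat_lit 0) (nat_lit 504) xc218 xc219)) (XT.nd (nat_lit 105092) (nat_lit 0) (nat_lit 252) (XT.nd (nat_lit 52452) (nat_lit 0) (nat_lit 0) xc220 xc221) (XT.nd (nat_lit 53110) (nat_lit 0) (nat_lit 0) xc222 xc223))))) (XT.nd (nat_lit 869688) (nat_lit 0) (nat_lit 2856) (XT.nd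 (nat_lit 380794) (nat_lit 0) (nat_lit 588) (XT.nd (nat_lit 165158) (nat_lit 0) (nat_lit 336) (XT.nd (nat_lit 57904) (nat_lit 0) (nat_lit 0) (XT.nd (nat_lit 4418) (nat_lit 924) (nat_lit 0) xc224 xc225) (XT.nd (nat_lit 53580) (nat_lit 0) (nat_lit 336) xc226 xc227)) (XT.nd (nat_lit 107630) (nat_lit 0) (nat_lit 252) (XT.nd (nat_lit 53768) (nat_lit 0) (nat_lit 0) xc228 xc229) (XT.nd (nat_lit 53956) (nat_lit 0) (nat_lit 0) xc230 xc231))) (XT.nd (nat_lit 217516) (nat_lit 0) (nat_lit 1092) (XT.nd (nat_lit 108476) (nat_lit 0) (nat_lit 336) (XT.nd (nat_lit 54144) (nat_lit 0) (nat_lit 336) xc232 xc233) (XT.nd (nat_lit 54426) (nat_lit 0) (nat_lit 420) xc234 xc235)) (XT.nd (nat_lit 109980) (nat_lit 0) (nat_lit 336) (XT.nd (nat_lit 54896) (nat_lit 0) (nat_lit 336) xc236 xc237) (XT.nd (nat_lit 55178) (nat_lit 0) (nat_lit 420) xc238 xc239)))) (XT.nd (nat_lit 706410) (nat_lit 0) (nat_lit 2520) (XT.nd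 (nat_lit 325710) (nat_lit 0) (nat_lit 924) (XT.nd (nat_lit 111202) (nat_lit 0) (nat_lit 504) (XT.nd (nat_lit 55554) (nat_lit 0) (nat_lit 84) xc240 xc241) (XT.nd (nat_lit 107066) (nat_lit 0) (nat_lit 0) xc242 xc243)) (XT.nd (nat_lit 163936) (nat_lit 0) (nat_lit 504) (XT.nd (nat_lit 56118) (nat_lit 0) (nat_lit 0) xc244 xc245) (XT.nd (nat_lit 108194) (nat_lit 0) (nat_lit 504) xc246 xc247))) (XT.nd (nat_lit 597088) (nat_lit 0) (nat_lit 1176) (XT.nd (nat_lit 218268) (nat_lit 0) (nat_lit 588) (XT.nd (nat_lit 108946) (nat_lit 0) (nat_lit 0) xc248 xc249) (XT.nd (nat_lit 162620) (nat_lit 0) (nat_lit 588) xc250 xc251)) (XT.nd (nat_lit 434656) (nat_lit 0) (nat_lit 0) (XT.nd (nat_lit 163936) (nat_lit 0) (nat_lit 0) xc252 xc253) (XT.nd (nat_lit 271942) (nat_lit 0) (nat_lit 0) xc254 xc255)))))))) XT.nil))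

set_option maxRecDepth 10000000 in
noncomputable def Te : XT := XT.nil

set_option maxRecDepth 10000000 in
noncomputable def Tz : ZL := (ZL.cons (nat_lit 84) (nat_lit 6) (nat_lit 156012236968852749420) (ZL.cons (nat_lit 168) (nat_lit 3) (nat_lit 77031510270783406558) (ZL.cons (nat_lit 252) (nat_lit 6) (nat_lit 152190093037788517202) (ZL.cons (nat_lit 336) (nat_lit 6) (nat_lit 150391708692890188600) (ZL.cons (nat_lit 420) (nat_lit 3) (nat_lit 75163209365771265033) (ZL.cons (nat_lit 504) (nat_lit 6) (nat_lit 148537574433300011814) (ZL.cons (nat_lit 588) (nat_lit 6) (nat_lit 146821892752788788772) (ZL.cons (nat_lit 672) (nat_lit 3) (nat_lit 73379282961579817015) (ZL.cons (nat_lit 756) (nat_lit 6) (nat_lit 145177774494960392184) (ZL.cons (nat_lit 840) (nat_lit 6) (nat_lit 145053024940181717814) (ZL.cons (nat_lit 924) (nat_lit 6) (nat_lit 143419361741510160562) (ZL.cons (nat_lit 1008) (nat_lit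 3) (nat_lit 71678969508180320467) (ZL.cons (nat_lit 1092) (nat_lit 6) (nat_lit 141856053581913222834) (ZL.cons (nat_lit 1176) (nat_lit 6) (nat_lit 141735054983679785038) (ZL.cons (nat_lit 1260) (nat_lit 6) (nat_lit 140182860144219260408) (ZL.cons (nat_lit 1344) (nat_lit 3) (nat_lit 70061642135567671120) (ZL.cons (nat_lit 1428) (nat_lit 6) (nat_lit 138699907689792140212) (ZL.cons (nat_lit 1512) (nat_lit 6) (nat_lit 138582547264735459514) (ZL.cons (nat_lit 1596) (nat_lit 6) (nat_lit 137284815353367673272) (ZL.cons (nat_lit 1680) (nat_lit 6) (nat_lit 137111407836193861120) (ZL.cons (nat_lit 1764) (nat_lit 3) (nat_lit 68526811642110549295) (ZL.cons (nat_lit 1848) (nat_lit 6) (nat_lit 135708494729457367158) (ZL.cons (nat_lit 1932) (nat_lit 6) (nat_lit 135594663085367473174) (ZL.cons (nat_lit 2016) (nat_lit 6) (nat_lit 134372500282551609278) (ZL.cons (nat_lit 2100) (nat_lit 6) (nat_lit 134204306764439279356)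 (ZL.cons (nat_lit 2184) (nat_lit 3) (nat_lit 67074129836161073951) (ZL.cons (nat_lit 2268) (nat_lit 6) (nat_lit 133102179208703089482) (ZL.cons (nat_lit 2352) (nat_lit 6) (nat_lit 132881258363701878918) (ZL.cons (nat_lit 2436) (nat_lit 6) (nat_lit 132770849397562311526) (ZL.cons (nat_lit 2520) (nat_lit 6) (nat_lit 131624284663452935650) (ZL.cons (nat_lit 2604) (nat_lit 6) (nat_lit 131461148370424487616) (ZL.cons (nat_lit 2688) (nat_lit 3) (nat_lit 65703393248201025839) (ZL.cons (nat_lit 2772) (nat_lit 6) (nat_lit 130432214032532469686) (ZL.cons (nat_lit 2856) (nat_lit 6) (nat_lit 130217935812356707746) (ZL.cons (nat_lit 2940) (nat_lit 6) (nat_lit 130110846611445391166) (ZL.cons (nat_lit 3024) (nat_lit 6) (nat_lit 129303935336239884944) (ZL.cons (nat_lit 3108) (nat_lit 6) (nat_lit 129040052919025021248) (ZL.cons (nat_lit 3192) (nat_lit 6) (nat_lit 128881821790966390762) (ZL.cons (nat_lit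 3276) (nat_lit 3) (nat_lit 64414547232038755060) (ZL.cons (nat_lit 3360) (nat_lit 6) (nat_lit 127926401780186468130) (ZL.cons (nat_lit 3444) (nat_lit 6) (nat_lit 127718566455088735888) (ZL.cons (nat_lit 3528) (nat_lit 6) (nat_lit 127614697201052541340) (ZL.cons (nat_lit 3612) (nat_lit 6) (nat_lit 126875944356321723616) (ZL.cons (nat_lit 3696) (nat_lit 6) (nat_lit 126619996327985289380) (ZL.cons (nat_lit 3780) (nat_lit 6) (nat_lit 126466522876909993076) (ZL.cons (nat_lit 3864) (nat_lit 3) (nat_lit 63207690474881339585) (ZL.cons (nat_lit 3948) (nat_lit 6) (nat_lit 125887701511073528708) (ZL.cons (nat_lit 4032) (nat_lit 6) (nat_lit 125585087427219439778) (ZL.cons (nat_lit 4116) (nat_lit 6) (nat_lit 125383501272905441480) (ZL.cons (nat_lit 4200) (nat_lit 6) (nat_lit 125282755148719025818) (ZL.cons (nat_lit 4284) (nat_lit 6) (nat_lit 124960752098589038100) (ZL.cons (nat_lit 4368) (nat_lit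 6) (nat_lit 124612875109286205524) (ZL.cons (nat_lit 4452) (nat_lit 6) (nat_lit 124364622899454552532) (ZL.cons (nat_lit 4536) (nat_lit 6) (nat_lit 124215764072029434876) (ZL.cons (nat_lit 4620) (nat_lit 3) (nat_lit 62083079937495166560) (ZL.cons (nat_lit 4704) (nat_lit 6) (nat_lit 123702453170463439352) (ZL.cons (nat_lit 4788) (nat_lit 6) (nat_lit 123408938055183042714) (ZL.cons (nat_lit 4872) (nat_lit 6) (nat_lit 123213413172240270364) (ZL.cons (nat_lit 4956) (nat_lit 6) (nat_lit 123115696271962466614) (ZL.cons (nat_lit 5040) (nat_lit 6) (nat_lit 122852973002135031970) (ZL.cons (nat_lit 5124) (nat_lit 6) (nat_lit 122515555941705514436) (ZL.cons (nat_lit 5208) (nat_lit 6) (nat_lit 122274768153313998440) (ZL.cons (nat_lit 5292) (nat_lit 6) (nat_lit 122130385197518539996) (ZL.cons (nat_lit 5376) (nat_lit 3) (nat_lit 61041136247139919001) (ZL.cons (nat_lit 5460) (nat_lit 6) (nat_lit 122063642799798787838)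 (ZL.cons (nat_lit 5544) (nat_lit 6) (nat_lit 121683643833308047320) (ZL.cons (nat_lit 5628) (nat_lit 6) (nat_lit 121398954099767410428) (ZL.cons (nat_lit 5712) (nat_lit 6) (nat_lit 121209308238523208338) (ZL.cons (nat_lit 5796) (nat_lit 6) (nat_lit 121114529479766851650) (ZL.cons (nat_lit 5880) (nat_lit 6) (nat_lit 121333726825021685490) (ZL.cons (nat_lit 5964) (nat_lit 6) (nat_lit 120912426300760602602) (ZL.cons (nat_lit 6048) (nat_lit 6) (nat_lit 120585154661158742726) (ZL.cons (nat_lit 6132) (nat_lit 6) (nat_lit 120351606854765419740) (ZL.cons (nat_lit 6216) (nat_lit 6) (nat_lit 120211565190560319406) (ZL.cons (nat_lit 6300) (nat_lit 3) (nat_lit 60082449567521332356) (ZL.cons (nat_lit 6384) (nat_lit 6) (nat_lit 120201184488535752454) (ZL.cons (nat_lit 6468) (nat_lit 6) (nat_lit 119832611291163550208) (ZL.cons (nat_lit 6552) (nat_lit 6) (nat_lit 119556481578709004238) (ZL.cons (nat_lit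 6636) (nat_lit 6) (nat_lit 119372537969354783008) (ZL.cons (nat_lit 6720) (nat_lit 6) (nat_lit 119280609008388384668) (ZL.cons (nat_lit 6804) (nat_lit 6) (nat_lit 119549255444760026376) (ZL.cons (nat_lit 6888) (nat_lit 6) (nat_lit 119140622540530072074) (ZL.cons (nat_lit 6972) (nat_lit 6) (nat_lit 118823191270305183734) (ZL.cons (nat_lit 7056) (nat_lit 6) (nat_lit 118596665754889739520) (ZL.cons (nat_lit 7140) (nat_lit 6) (nat_lit 118460834848774220284) (ZL.cons (nat_lit 7224) (nat_lit 3) (nat_lit 59207785971662738319) (ZL.cons (nat_lit 7308) (nat_lit 6) (nat_lit 118956031503273319160) (ZL.cons (nat_lit 7392) (nat_lit 6) (nat_lit 118508543403255050546) (ZL.cons (nat_lit 7476) (nat_lit 6) (nat_lit 118151052426172410150) (ZL.cons (nat_lit 7560) (nat_lit 6) (nat_lit 117883225352986623566) (ZL.cons (nat_lit 7644) (nat_lit 6) (nat_lit 117704812540809881346) (ZL.cons (nat_lit 7728) (nat_lit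 6) (nat_lit 117615647690212016804) (ZL.cons (nat_lit 7812) (nat_lit 6) (nat_lit 118420959717220375010) (ZL.cons (nat_lit 7896) (nat_lit 6) (nat_lit 117935784715370569718) (ZL.cons (nat_lit 7980) (nat_lit 6) (nat_lit 117539438542499615010) (ZL.cons (nat_lit 8064) (nat_lit 6) (nat_lit 117231551762456076370) (ZL.cons (nat_lit 8148) (nat_lit 6) (nat_lit 117011837392508991780) (ZL.cons (nat_lit 8232) (nat_lit 6) (nat_lit 116880090635849904254) (ZL.cons (nat_lit 8316) (nat_lit 3) (nat_lit 58418094345350391679) (ZL.cons (nat_lit 8400) (nat_lit 6) (nat_lit 117943541343646395786) (ZL.cons (nat_lit 8484) (nat_lit 6) (nat_lit 117421812605781520974) (ZL.cons (nat_lit 8568) (nat_lit 6) (nat_lit 116987779531079029588) (ZL.cons (nat_lit 8652) (nat_lit 6) (nat_lit 116641037555247176636) (ZL.cons (nat_lit 8736) (nat_lit 6) (nat_lit 116381263478442339990) (ZL.cons (nat_lit 8820) (nat_lit 6) (nat_lit 116208215164012910094)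 (ZL.cons (nat_lit 8904) (nat_lit 6) (nat_lit 116121731312802566214) (ZL.cons (nat_lit 8988) (nat_lit 6) (nat_lit 116966147998641817916) (ZL.cons (nat_lit 9072) (nat_lit 6) (nat_lit 116495561187924257010) (ZL.cons (nat_lit 9156) (nat_lit 6) (nat_lit 116111132310260867380) (ZL.cons (nat_lit 9240) (nat_lit 6) (nat_lit 115812503037667716422) (ZL.cons (nat_lit 9324) (nat_lit 6) (nat_lit 115599395016380534470) (ZL.cons (nat_lit 9408) (nat_lit 6) (nat_lit 115471609607399848220) (ZL.cons (nat_lit 9492) (nat_lit 3) (nat_lit 57714513850669312618) (ZL.cons (nat_lit 9576) (nat_lit 6) (nat_lit 115380187433145302312) (ZL.cons (nat_lit 9660) (nat_lit 6) (nat_lit 115436591927068068552) (ZL.cons (nat_lit 9744) (nat_lit 6) (nat_lit 115549453489810458242) (ZL.cons (nat_lit 9828) (nat_lit 6) (nat_lit 115718877320171497020) (ZL.cons (nat_lit 9912) (nat_lit 6) (nat_lit 115945021338908679512) (ZL.cons (nat_lit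 9996) (nat_lit 6) (nat_lit 116228096335936657930) (ZL.cons (nat_lit 10080) (nat_lit 6) (nat_lit 116568366166805523342) (ZL.cons (nat_lit 10164) (nat_lit 6) (nat_lit 116062324713978292678) (ZL.cons (nat_lit 10248) (nat_lit 6) (nat_lit 115641342100299833528) (ZL.cons (nat_lit 10332) (nat_lit 6) (nat_lit 115305025925875145892) (ZL.cons (nat_lit 10416) (nat_lit 6) (nat_lit 115053062708799649628) (ZL.cons (nat_lit 10500) (nat_lit 6) (nat_lit 114885217592961211322) (ZL.cons (nat_lit 10584) (nat_lit 6) (nat_lit 114801334129129645968) (ZL.cons (nat_lit 10668) (nat_lit 3) (nat_lit 57327041820940255283) (ZL.cons (nat_lit 10752) (nat_lit 6) (nat_lit 114682716351498615930) (ZL.cons (nat_lit 10836) (nat_lit 6) (nat_lit 114768641169037648802) (ZL.cons (nat_lit 10920) (nat_lit 6) (nat_lit 114911938185428409388) (ZL.cons (nat_lit 11004) (nat_lit 6) (nat_lit 115112740968500918560) (ZL.cons (nat_lit 11088)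 (nat_lit 6) (nat_lit 115371236687483627028) (ZL.cons (nat_lit 11172) (nat_lit 6) (nat_lit 115687666287464742730) (ZL.cons (nat_lit 11256) (nat_lit 6) (nat_lit 115231229031676613822) (ZL.cons (nat_lit 11340) (nat_lit 6) (nat_lit 114858359121236856666) (ZL.cons (nat_lit 11424) (nat_lit 6) (nat_lit 114568709002329823724) (ZL.cons (nat_lit 11508) (nat_lit 6) (nat_lit 114362008690703071106) (ZL.cons (nat_lit 11592) (nat_lit 6) (nat_lit 114238065520013753696) (ZL.cons (nat_lit 11676) (nat_lit 3) (nat_lit 57098381981121705663) (ZL.cons (nat_lit 11760) (nat_lit 6) (nat_lit 114006216757272925940) (ZL.cons (nat_lit 11844) (nat_lit 6) (nat_lit 114064369790507297936) (ZL.cons (nat_lit 11928) (nat_lit 6) (nat_lit 114180730061694701704) (ZL.cons (nat_lit 12012) (nat_lit 6) (nat_lit 114355406030796932684) (ZL.cons (nat_lit 12096) (nat_lit 6) (nat_lit 114588560514114967832) (ZL.cons (nat_lit 12180)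 (nat_lit 6) (nat_lit 114880410836050813584) (ZL.cons (nat_lit 12264) (nat_lit 6) (nat_lit 114472086283501386670) (ZL.cons (nat_lit 12348) (nat_lit 6) (nat_lit 114145882428579284208) (ZL.cons (nat_lit 12432) (nat_lit 6) (nat_lit 113901495215120994912) (ZL.cons (nat_lit 12516) (nat_lit 6) (nat_lit 113738696848643363190) (ZL.cons (nat_lit 12600) (nat_lit 6) (nat_lit 113657335584015268764) (ZL.cons (nat_lit 12684) (nat_lit 3) (nat_lit 56703231287952021654) (ZL.cons (nat_lit 12768) (nat_lit 6) (nat_lit 113435982899520309940) (ZL.cons (nat_lit 12852) (nat_lit 6) (nat_lit 113524571386403052832) (ZL.cons (nat_lit 12936) (nat_lit 6) (nat_lit 113672310610301926994) (ZL.cons (nat_lit 13020) (nat_lit 6) (nat_lit 113879338279649683950) (ZL.cons (nat_lit 13104) (nat_lit 6) (nat_lit 114145847365920856382) (ZL.cons (nat_lit 13188) (nat_lit 6) (nat_lit 113784188868889084162) (ZL.cons (nat_lit 13272)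 (nat_lit 6) (nat_lit 113503247919415725346) (ZL.cons (nat_lit 13356) (nat_lit 6) (nat_lit 113302762651106556946) (ZL.cons (nat_lit 13440) (nat_lit 6) (nat_lit 113182546190690148208) (ZL.cons (nat_lit 13524) (nat_lit 3) (nat_lit 56571243241916198076) (ZL.cons (nat_lit 13608) (nat_lit 6) (nat_lit 112882894773669082002) (ZL.cons (nat_lit 13692) (nat_lit 6) (nat_lit 112942850550933719530) (ZL.cons (nat_lit 13776) (nat_lit 6) (nat_lit 113062817990527932816) (ZL.cons (nat_lit 13860) (nat_lit 6) (nat_lit 113242908914672332954) (ZL.cons (nat_lit 13944) (nat_lit 6) (nat_lit 113483291186973227194) (ZL.cons (nat_lit 14028) (nat_lit 6) (nat_lit 113166895595390198620) (ZL.cons (nat_lit 14112) (nat_lit 6) (nat_lit 112929856591065960700) (ZL.cons (nat_lit 14196) (nat_lit 6) (nat_lit 112771953228818015284) (ZL.cons (nat_lit 14280) (nat_lit 6) (nat_lit 112693038326171948916) (ZL.cons (nat_lit 14364)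 (nat_lit 3) (nat_lit 56202294938441432171) (ZL.cons (nat_lit 14448) (nat_lit 6) (nat_lit 112435025330531235238) (ZL.cons (nat_lit 14532) (nat_lit 6) (nat_lit 112526360060507343160) (ZL.cons (nat_lit 14616) (nat_lit 6) (nat_lit 112678679200347082422) (ZL.cons (nat_lit 14700) (nat_lit 6) (nat_lit 112892124727444619844) (ZL.cons (nat_lit 14784) (nat_lit 6) (nat_lit 112619631081010712166) (ZL.cons (nat_lit 14868) (nat_lit 6) (nat_lit 112425173982747697230) (ZL.cons (nat_lit 14952) (nat_lit 6) (nat_lit 112308572178270094184) (ZL.cons (nat_lit 15036) (nat_lit 3) (nat_lit 56134858491240889936) (ZL.cons (nat_lit 15120) (nat_lit 6) (nat_lit 112000622378894138474) (ZL.cons (nat_lit 15204) (nat_lit 6) (nat_lit 112062436785253979764) (ZL.cons (nat_lit 15288) (nat_lit 6) (nat_lit 112186123215475613662) (ZL.cons (nat_lit 15372) (nat_lit 6) (nat_lit 112371796958268490208) (ZL.cons (nat_lit 15456) (nat_lit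 6) (nat_lit 112141885217895805514) (ZL.cons (nat_lit 15540) (nat_lit 6) (nat_lit 111988729677403132948) (ZL.cons (nat_lit 15624) (nat_lit 6) (nat_lit 111912187579783281958) (ZL.cons (nat_lit 15708) (nat_lit 3) (nat_lit 55819618393483317795) (ZL.cons (nat_lit 15792) (nat_lit 6) (nat_lit 111670615739678105984) (ZL.cons (nat_lit 15876) (nat_lit 6) (nat_lit 111764781846283473250) (ZL.cons (nat_lit 15960) (nat_lit 6) (nat_lit 111921822879458244432) (ZL.cons (nat_lit 16044) (nat_lit 6) (nat_lit 111733212696855902108) (ZL.cons (nat_lit 16128) (nat_lit 6) (nat_lit 111620116863220981598) (ZL.cons (nat_lit 16212) (nat_lit 3) (nat_lit 55791214980694722460) (ZL.cons (nat_lit 16296) (nat_lit 6) (nat_lit 111350531705520945470) (ZL.cons (nat_lit 16380) (nat_lit 6) (nat_lit 111414262358477941840) (ZL.cons (nat_lit 16464) (nat_lit 6) (nat_lit 111541783068036446390) (ZL.cons (nat_lit 16548) (nat_lit 6)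 (nat_lit 111393232592291856122) (ZL.cons (nat_lit 16632) (nat_lit 6) (nat_lit 111318991954445249924) (ZL.cons (nat_lit 16716) (nat_lit 3) (nat_lit 55550943165466503703) (ZL.cons (nat_lit 16800) (nat_lit 6) (nat_lit 111134238031178533382) (ZL.cons (nat_lit 16884) (nat_lit 6) (nat_lit 111231323287088667036) (ZL.cons (nat_lit 16968) (nat_lit 6) (nat_lit 111121628007132391080) (ZL.cons (nat_lit 17052) (nat_lit 3) (nat_lit 55542537135558660780) (ZL.cons (nat_lit 17136) (nat_lit 6) (nat_lit 110924447852378909630) (ZL.cons (nat_lit 17220) (nat_lit 6) (nat_lit 110990154155577572890) (ZL.cons (nat_lit 17304) (nat_lit 6) (nat_lit 110918145777452833612) (ZL.cons (nat_lit 17388) (nat_lit 3) (nat_lit 55392348137828174266) (ZL.cons (nat_lit 17472) (nat_lit 6) (nat_lit 110818050878609485816) (ZL.cons (nat_lit 17556) (nat_lit 3) (nat_lit 55391298118249908029) (ZL.cons (nat_lit 17640) (nat_lit 6) (nat_lit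 110714853037901994238) (ZL.cons (nat_lit 17724) (nat_lit 1) (nat_lit 18446744073709551617) ZL.nil)))))))))))))))))))))))))))))))))))))))))))))))))))))))))))))))))))))))))))))))))))))))))))))))))))))))))))))))))))))))))))))))))))))))))))))))))))))))))))))))))))))))))))))))))))))))))))))))))))))))))))))))))))

noncomputable def vl : XL := ⟨(nat_lit 0), (nat_lit 84), (nat_lit 197218411), (nat_lit 168), (nat_lit 371959946), (nat_lit 84), (nat_lit 197218411), (nat_lit 1), (nat_lit 5), (nat_lit 2), (nat_lit 4), (nat_lit 1), (nat_lit 4), (nat_lit 0), (nat_lit 0), (nat_lit 0)⟩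

noncomputable def cp0 : Nat := (nat_lit 9792988580543195265517377509290721335514789760439648151662316537188974592)

noncomputable def cp1 : Nat := (nat_lit 309005256273686591807933125867701557256181402867343965656216845377836039846418709851391317213670983514571251044755576336466114131169688894236591595352246476780318061134272907623132238133346669756386675596531114415546567463512752220089628427101789369466432391770290745441015762183684597219744414514518764991819294516974088614623147028281649112855516860934087625831656120400809976044106172012575286624390165590097314830450559835864718939292747462663139225034441200036110414630129716103487370785106638791708373454233893907191035170992782697531803123159592532842289410332796881715576454965408468800561196589166007606265744006928729705038951011378420444441097753580271189603010833021977494615861765962696246930634026163603961784324242168166475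76087653979273298639218805280892581591921947368355722599695388592613050880526772414102149099931042406118674242704475060724785001047209301396848040094040737765496185030750347504444765689344557540824367812337588347385569264334869924017789618780759551136673087937938531656027525478011063060294874817798326552750985095068333037893419611341638199440448939223842973899813568938021611813404259183034138781618981122397020201139364546967709048723440056780736031370242450827556620385544143379593416489420117334837955783505936609744380966632406994208494573661048357741713519769474573172848073201638963585478382791989063157335535898736717135919462368338974419228183567465253667340510439552568653131733743665117558407105318887712103601854390964362238546230167079450320605419262687945907166231734572762764287687600870731339214020827608608620072338813832753993832850228219683703955182278252206414915920550530570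63220651454505522803795434076122827957817224669975501279911440860508612572154448933495019113291188376778112752815034903351328398950719315034768822419862291696811636375013835577517084452422999936158048099730080009654702739092158698370279530416093943816103702201846477823592134627531577297145693302878678670265352048204435613742504149846321116255194777177291612116877783696644263875951984025468636234447523695219310526543601650405779914854158306117941436103537866140239370168575448142186279114092887670504324365309449360176785221378449123381284878602167520643074290198186538692025725792067255989164325569337081698815809338135194132886696164251852116917902607302528270445316736556856743007303936709764074157902921666203981627034691953064187446724412572369690133544649988093209587147843196125830310424573680095809554376548776614969843514691752676472403259860178049243995087208312608933435015465438961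85088875012467246167919008248644082097148796781681583106331639166443560554055353235476892679688592738160024578132532913489800452861281538879891155020981117995580353870701172880050058229368937451368400601298410375686199084812567706904673253122444021773346537245797056533273427632803729597203725184823183897637378003862529252550367059921780722471958283334325377622553272516361874490997472523909724625821452273302959460922067380524239940165915316805056570861249477884189967681145764595903519728537855472045952331701188051763138942212197469438442043938464988102791260834073142298158431768812899146369940685639455356076124445468196373290723571460103829693334476037373747570724991305590596731848964447894033462653489397012896505586337419961285226346447593716616012209402478987322666434258371526704222866296562269304919526975625170524222613880064232412601582533807546399881395173302170776819955571275758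12352230751195154957770634541271193206446118325741838578130808325521503805000562987781770088124609700148359105755190884048385658125185562998668723434041715402754478129331527406962483117007838264628958142703331417088156958742116890169472705580736227021305502231305296572704989104698332061719750382757422001608579838424054724713895200738737797983196105132718183287929336070422283752756414087086940823357146097866293479450809126367007807059333794724055004181604373144906371981748280758913734876196209819315190974097126334688498414715647174801723616985586083352221921466679638903148270865859805858478241036904339523562578877014103238540757254730097754956924451860564773625468276282085514424612753449975369936510595592707872612157575059824182151438939266732724593535828980683763291882427016439554161262216314921814788207676507323150408249989034733450006524558071268479413888632196093989912034257271483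77669247629083489404376192650701194423593472995780104400826289289413983593900352398386608188255243194996977105845955019921435559939802297465814123278241448167204597897774842509009083969659861117611245728509736140635498304295583100510324646947141458074611515008577919268423043687046130528506036970239633885901921583306227633570693672806775900898589652950321519294658823797754626480092808615000682671084139492129112157066695455628612565393147322767992072628147336439095645303549126835645738900644222961965934952762112921323543844169307342917105129533715613008351116553194487449368116808918724871529405001511131504944543625746927060371942240485177687683087636255589442231092156146048721920262341865039879954798221006397976524005941556757088986069761112593708845390753145387462776966359047394001715198585239146197190209672188694365904742116540628091711633813190132441138894890730163465018447722698968147797780205766485967336815367135597348961724217218379963995674227729706605436212485753518121381916527819822780136853178538536255124144128)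

noncomputable def rc0 : Nat := (nat_lit 30900525627368659180793312586770155725618140286734396565621684537783603984641870985139131721367098351457125104475557633646611413116968889423659159535224647678031806113427290762313223813334666975638667559653111441554656746351275222008962842710178936946643239177029074544101576218368459721974441451451876499181929451697408861462314702828164911285551686093408762583165612040080997604410617201257528662439016559009731483045055983586471893929274746266313922503444120003611041463012971610348737078510663879170837345423389390719103517099278269753180312315959253284228941033279688171557645496540846880056119658916600760626574400692872970503895101137842044444109775358027118960301083302197749461586176596269624693063402616360396178432424216816647576087653979273298639218805280892581591921947368355722599695388592613050880526772414102149099931042406118674242704475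06072478500104720930139684804009404073776549618503075034750444476568934455754082436781233758834738556926433486992401778961878075955113667308793793853165602752547801106306029487481779832655275098509506833303789341961134163819944044893922384297389981356893802161181340425918303413878161898112239702020113936454696770904872344005678073603137024245082755662038554414337959341648942011733483795578350593660974438096663240699420849457366104835774171351976947457317284807320163896358547838279198906315733553589873671713591946236833897441922818356746525366734051043955256865313173374366511755840710531888771210360185439096436223854623016707945032060541926268794590716623173457276276428768760087073133921402082760860862007233881383275399383285022821968370395518227825220641491592055053057063220651454505522803795434076122827957817224669975501279911440860508612572154448933495019113291188376778112752815034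90335132839895071931503476882241986229169681163637501383557751708445242299993615804809973008000965470273909215869837027953041609394381610370220184647782359213462753157729714569330287867867026535204820443561374250414984632111625519477717729161211687778369664426387595198402546863623444752369521931052654360165040577991485415830611794143610353786614023937016857544814218627911409288767050432436530944936017678522137844912338128487860216752064307429019818653869202572579206725598916432556933708169881580933813519413288669616425185211691790260730252827044531673655685674300730393670976407415790292166620398162703469195306418744672441257236969013354464998809320958714784319612583031042457368009580955437654877661496984351469175267647240325986017804924399508720831260893343501546543896185088875012467246167919008248644082097148796781681583106331639166443560554055353235476892679688592738160024578132532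91348980045286128153887989115502098111799558035387070117288005005822936893745136840060129841037568619908481256770690467325312244402177334653724579705653327342763280372959720372518482318389763737800386252925255036705992178072247195828333432537762255327251636187449099747252390972462582145227330295946092206738052423994016591531680505657086124947788418996768114576459590351972853785547204595233170118805176313894221219746943844204393846498810279126083407314229815843176881289914636994068563945535607612444546819637329072357146010382969333447603737374757072499130559059673184896444789403346265348939701289650558633741996128522634644759371661601220940247898732266643425837152670422286629656226930491952697562517052422261388006423241260158253380754639988139517330217077681995557127575812352230751195154957770634541271193206446118325741838578130808325521503805000562987781770088124609700148359105755190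88404838565812518556299866872343404171540275447812933152740696248311700783826462895814270333141708815695874211689016947270558073622702130550223130529657270498910469833206171975038275742200160857983842405472471389520073873779798319610513271818328792933607042228375275641408708694082335714609786629347945080912636700780705933379472405500418160437314490637198174828075891373487619620981931519097409712633468849841471564717480172361698558608335222192146667963890314827086585980585847824103690433952356257887701410323854075725473009775495692445186056477362546827628208551442461275344997536993651059559270787261215757505982418215143893926673272459353582898068376329188242701643955416126221631492181478820767650732315040824998903473345000652455807126847941388863219609398991203425727148377669247629083489404376192650701194423593472995780104400826289289413983593900352398386608188255243194996977105845955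019921435559939802297465814123278241448167204597897774842509009083969659861117611245728509736140635498304295583100510324646947141458074611515008577919268423043687046130528506036970239633885901921583306227633570693672806775900898589652950321519294658823797754626480092808615000682671084139492129112157066695455628612565393147322767992072628147336439095645303549126835645738900644222961965934952762112921323543844169307342917105129533715613008351116553194487449368116808918724871529405001511131504944543625746927060371942240485177687683087636255589442231092156146048721920262341865039879954798221006397976524005941556757088986069761112593708845390753145387462776966359047394001715198585239146197190209672188694365904742116540628091711633813190132441138894890730163465018447722698968147797780205766485967336815367135597348961724217218379963995674227729706605436212485753518121381916527819822780136853178538536255124144128)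

end Vale.Agent.Lib.P154.Chain.D6.S0
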