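import Vale.Agent.Lib.P154.Chain.D6.R0_0

set_option linter.all false

namespace Vale.Agent.Lib.P154.Chain.D6.S1

noncomputable def pc0 : PT := (PT.nd (nat_lit 711204) (PT.nd (nat_lit 548772) (PT.nd (nat_lit 494440) (PT.nd (nat_lit 223532) (PT.nd (nat_lit 169388) (PT.nd (nat_lit 169294) PT.nil (PT.lf (nat_lit 84) (nat_lit 6) (nat_lit 1) (nat_lit 3) (nat_lit 70) (nat_lit 3) (nat_lit 71))) (PT.lf (nat_lit 84) (nat_lit 6) (nat_lit 1) (nat_lit 1) (nat_lit 71) (nat_lit 3) (nat_lit 70))) (PT.nd (nat_lit 216764) (PT.lf (nat_lit 168) (nat_lit 3) (nat_lit 2) (nat_lit 1) (nat_lit 70) (nat_lit 4) (nat_lit 70)) (PT.lf (nat_lit 672) (nat_lit 3) (nat_lit 8) (nat_lit 1) (nat_lit 68) (nat_lit 8) (nat_lit 68)))) (PT.nd (nat_lit 54144) (PT.nd (nat_lit 94) (PT.lf (nat_lit 840) (nat_lit 6) (nat_lit 10) (nat_lit 3) (nat_lit 67) (nat_lit 9) (nat_lit 68)) (PT.lf (nat_lit 840) (nat_lit 6) (nat_lit 10) (nat_lit 1)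 (nat_lit 68) (nat_lit 9) (nat_lit 67))) (PT.nd (nat_lit 94) (PT.lf (nat_lit 924) (nat_lit 6) (nat_lit 11) (nat_lit 3) (nat_lit 66) (nat_lit 10) (nat_lit 68)) (PT.lf (nat_lit 1008) (nat_lit 3) (nat_lit 12) (nat_lit 1) (nat_lit 67) (nat_lit 10) (nat_lit 67))))) (PT.nd (nat_lit 54238) (PT.nd (nat_lit 54050) (PT.nd (nat_lit 53956) (PT.lf (nat_lit 924) (nat_lit 6) (nat_lit 11) (nat_lit 1) (nat_lit 68) (nat_lit 10) (nat_lit 66)) (PT.lf (nat_lit 1092) (nat_lit 6) (nat_lit 13) (nat_lit 3) (nat_lit 65) (nat_lit 11) (nat_lit 68))) (PT.nd (nat_lit 94) (PT.lf (nat_lit 1176) (nat_lit 6) (nat_lit 14) (nat_lit 3) (nat_lit 66) (nat_lit 11) (nat_lit 67)) (PT.lf (nat_lit 1176) (nat_lit 6) (nat_lit 14) (nat_lit 1) (nat_lit 67) (nat_lit 11) (nat_lit 66)))) (PT.nd (nat_lit 54050) (PT.nd (nat_lit 53956) (PT.lf (nat_lit 1092) (nat_lit 6) (nat_lit 13) (nat_lit 1) (nat_lit 68) (nat_lit 11) (nat_lit 65)) (PT.lf (nat_lit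 1260) (nat_lit 6) (nat_lit 15) (nat_lit 3) (nat_lit 65) (nat_lit 12) (nat_lit 67))) (PT.nd (nat_lit 94) (PT.lf (nat_lit 1344) (nat_lit 3) (nat_lit 16) (nat_lit 1) (nat_lit 66) (nat_lit 12) (nat_lit 66)) (PT.nd (nat_lit 53956) (PT.lf (nat_lit 1260) (nat_lit 6) (nat_lit 15) (nat_lit 1) (nat_lit 67) (nat_lit 12) (nat_lit 65)) (PT.lf (nat_lit 1428) (nat_lit 6) (nat_lit 17) (nat_lit 3) (nat_lit 64) (nat_lit 13) (nat_lit 67))))))) (PT.nd (nat_lit 108382) (PT.nd (nat_lit 54144) (PT.nd (nat_lit 188) (PT.nd (nat_lit 94) (PT.lf (nat_lit 1512) (nat_lit 6) (nat_lit 18) (nat_lit 3) (nat_lit 65) (nat_lit 13) (nat_lit 66)) (PT.lf (nat_lit 1512) (nat_lit 6) (nat_lit 18) (nat_lit 1) (nat_lit 66) (nat_lit 13) (nat_lit 65))) (PT.nd (nat_lit 53862) (PT.lf (nat_lit 1428) (nat_lit 6) (nat_lit 17) (nat_lit 1) (nat_lit 67) (nat_lit 13) (nat_lit 64)) (PT.lf (nat_lit 1596) (nat_lit 6) (nat_lit 19) (nat_lit 3) (nat_lit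 63) (nat_lit 14) (nat_lit 67)))) (PT.nd (nat_lit 188) (PT.nd (nat_lit 94) (PT.lf (nat_lit 1680) (nat_lit 6) (nat_lit 20) (nat_lit 3) (nat_lit 64) (nat_lit 14) (nat_lit 66)) (PT.lf (nat_lit 1764) (nat_lit 3) (nat_lit 21) (nat_lit 1) (nat_lit 65) (nat_lit 14) (nat_lit 65))) (PT.nd (nat_lit 94) (PT.lf (nat_lit 1680) (nat_lit 6) (nat_lit 20) (nat_lit 1) (nat_lit 66) (nat_lit 14) (nat_lit 64)) (PT.nd (nat_lit 53862) (PT.lf (nat_lit 1596) (nat_lit 6) (nat_lit 19) (nat_lit 1) (nat_lit 67) (nat_lit 14) (nat_lit 63)) (PT.lf (nat_lit 1848) (nat_lit 6) (nat_lit 22) (nat_lit 3) (nat_lit 63) (nat_lit 15) (nat_lit 66)))))) (PT.nd (nat_lit 54144) (PT.nd (nat_lit 188) (PT.nd (nat_lit 94) (PT.lf (nat_lit 1932) (nat_lit 6) (nat_lit 23) (nat_lit 3) (nat_lit 64) (nat_lit 15) (nat_lit 65)) (PT.lf (nat_lit 1932) (nat_lit 6) (nat_lit 23) (nat_lit 1) (nat_lit 65) (nat_lit 15) (nat_lit 64))) (PT.nd (nat_lit 53862)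 (PT.lf (nat_lit 1848) (nat_lit 6) (nat_lit 22) (nat_lit 1) (nat_lit 66) (nat_lit 15) (nat_lit 63)) (PT.lf (nat_lit 2016) (nat_lit 6) (nat_lit 24) (nat_lit 3) (nat_lit 62) (nat_lit 16) (nat_lit 66)))) (PT.nd (nat_lit 188) (PT.nd (nat_lit 94) (PT.lf (nat_lit 2100) (nat_lit 6) (nat_lit 25) (nat_lit 3) (nat_lit 63) (nat_lit 16) (nat_lit 65)) (PT.lf (nat_lit 2184) (nat_lit 3) (nat_lit 26) (nat_lit 1) (nat_lit 64) (nat_lit 16) (nat_lit 64))) (PT.nd (nat_lit 94) (PT.lf (nat_lit 2100) (nat_lit 6) (nat_lit 25) (nat_lit 1) (nat_lit 65) (nat_lit 16) (nat_lit 63)) (PT.nd (nat_lit 53768) (PT.lf (nat_lit 2016) (nat_lit 6) (nat_lit 24) (nat_lit 1) (nat_lit 66) (nat_lit 16) (nat_lit 62)) (PT.lf (nat_lit 2268) (nat_lit 6) (nat_lit 27) (nat_lit 3) (nat_lit 61) (nat_lit 17) (nat_lit 66))))))))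
noncomputable def pc1 : PT := (PT.nd (nat_lit 162620) (PT.nd (nat_lit 54520) (PT.nd (nat_lit 376) (PT.nd (nat_lit 188) (PT.nd (nat_lit 94) (PT.lf (nat_lit 2352) (nat_lit 6) (nat_lit 28) (nat_lit 3) (nat_lit 62) (nat_lit 17) (nat_lit 65)) (PT.lf (nat_lit 2436) (nat_lit 6) (nat_lit 29) (nat_lit 3) (nat_lit 63) (nat_lit 17) (nat_lit 64))) (PT.nd (nat_lit 94) (PT.lf (nat_lit 2436) (nat_lit 6) (nat_lit 29) (nat_lit 1) (nat_lit 64) (nat_lit 17) (nat_lit 63)) (PT.lf (nat_lit 2352) (nat_lit 6) (nat_lit 28) (nat_lit 1) (nat_lit 65) (nat_lit 17) (nat_lit 62)))) (PT.nd (nat_lit 53862) (PT.nd (nat_lit 53768) (PT.lf (nat_lit 2268) (nat_lit 6) (nat_lit 27) (nat_lit 1) (nat_lit 66) (nat_lit 17) (nat_lit 61)) (PT.lf (nat_lit 2520) (nat_lit 6) (nat_lit 30) (nat_lit 3) (nat_lit 61) (nat_lit 18) (nat_lit 65))) (PT.nd (nat_lit 94) (PT.lf (nat_lit 2604) (nat_lit 6) (nat_lit 31) (nat_lit 3) (nat_lit 62) (nat_lit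 18) (nat_lit 64)) (PT.nd (nat_lit 94) (PT.lf (nat_lit 2688) (nat_lit 3) (nat_lit 32) (nat_lit 1) (nat_lit 63) (nat_lit 18) (nat_lit 63)) (PT.lf (nat_lit 2604) (nat_lit 6) (nat_lit 31) (nat_lit 1) (nat_lit 64) (nat_lit 18) (nat_lit 62)))))) (PT.nd (nat_lit 54050) (PT.nd (nat_lit 53862) (PT.nd (nat_lit 53768) (PT.lf (nat_lit 2520) (nat_lit 6) (nat_lit 30) (nat_lit 1) (nat_lit 65) (nat_lit 18) (nat_lit 61)) (PT.lf (nat_lit 2772) (nat_lit 6) (nat_lit 33) (nat_lit 3) (nat_lit 60) (nat_lit 19) (nat_lit 65))) (PT.nd (nat_lit 94) (PT.lf (nat_lit 2856) (nat_lit 6) (nat_lit 34) (nat_lit 3) (nat_lit 61) (nat_lit 19) (nat_lit 64)) (PT.lf (nat_lit 2940) (nat_lit 6) (nat_lit 35) (nat_lit 3) (nat_lit 62) (nat_lit 19) (nat_lit 63)))) (PT.nd (nat_lit 188) (PT.nd (nat_lit 94) (PT.lf (nat_lit 2940) (nat_lit 6) (nat_lit 35) (nat_lit 1) (nat_lit 63) (nat_lit 19) (nat_lit 62)) (PT.lf (nat_lit 2856) (nat_lit 6)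 (nat_lit 34) (nat_lit 1) (nat_lit 64) (nat_lit 19) (nat_lit 61))) (PT.nd (nat_lit 53674) (PT.lf (nat_lit 2772) (nat_lit 6) (nat_lit 33) (nat_lit 1) (nat_lit 65) (nat_lit 19) (nat_lit 60)) (PT.nd (nat_lit 94) (PT.lf (nat_lit 3024) (nat_lit 6) (nat_lit 36) (nat_lit 3) (nat_lit 59) (nat_lit 20) (nat_lit 65)) (PT.lf (nat_lit 3108) (nat_lit 6) (nat_lit 37) (nat_lit 3) (nat_lit 60) (nat_lit 20) (nat_lit 64))))))) (PT.nd (nat_lit 54426) (PT.nd (nat_lit 376) (PT.nd (nat_lit 188) (PT.nd (nat_lit 94) (PT.lf (nat_lit 3192) (nat_lit 6) (nat_lit 38) (nat_lit 3) (nat_lit 61) (nat_lit 20) (nat_lit 63)) (PT.lf (nat_lit 3276) (nat_lit 3) (nat_lit 39) (nat_lit 1) (nat_lit 62) (nat_lit 20) (nat_lit 62))) (PT.nd (nat_lit 94) (PT.lf (nat_lit 3192) (nat_lit 6) (nat_lit 38) (nat_lit 1) (nat_lit 63) (nat_lit 20) (nat_lit 61)) (PT.lf (nat_lit 3108) (nat_lit 6) (nat_lit 37) (nat_lit 1) (nat_lit 64) (nat_lit 20) (nat_lit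 60)))) (PT.nd (nat_lit 53768) (PT.nd (nat_lit 53674) (PT.lf (nat_lit 3024) (nat_lit 6) (nat_lit 36) (nat_lit 1) (nat_lit 65) (nat_lit 20) (nat_lit 59)) (PT.lf (nat_lit 3360) (nat_lit 6) (nat_lit 40) (nat_lit 3) (nat_lit 59) (nat_lit 21) (nat_lit 64))) (PT.nd (nat_lit 94) (PT.lf (nat_lit 3444) (nat_lit 6) (nat_lit 41) (nat_lit 3) (nat_lit 60) (nat_lit 21) (nat_lit 63)) (PT.nd (nat_lit 94) (PT.lf (nat_lit 3528) (nat_lit 6) (nat_lit 42) (nat_lit 3) (nat_lit 61) (nat_lit 21) (nat_lit 62)) (PT.lf (nat_lit 3528) (nat_lit 6) (nat_lit 42) (nat_lit 1) (nat_lit 62) (nat_lit 21) (nat_lit 61)))))) (PT.nd (nat_lit 53956) (PT.nd (nat_lit 53768) (PT.nd (nat_lit 94) (PT.lf (nat_lit 3444) (nat_lit 6) (nat_lit 41) (nat_lit 1) (nat_lit 63) (nat_lit 21) (nat_lit 60)) (PT.lf (nat_lit 3360) (nat_lit 6) (nat_lit 40) (nat_lit 1) (nat_lit 64) (nat_lit 21) (nat_lit 59))) (PT.nd (nat_lit 94) (PT.lf (nat_lit 3612)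 (nat_lit 6) (nat_lit 43) (nat_lit 3) (nat_lit 58) (nat_lit 22) (nat_lit 64)) (PT.lf (nat_lit 3696) (nat_lit 6) (nat_lit 44) (nat_lit 3) (nat_lit 59) (nat_lit 22) (nat_lit 63)))) (PT.nd (nat_lit 188) (PT.nd (nat_lit 94) (PT.lf (nat_lit 3780) (nat_lit 6) (nat_lit 45) (nat_lit 3) (nat_lit 60) (nat_lit 22) (nat_lit 62)) (PT.lf (nat_lit 3864) (nat_lit 3) (nat_lit 46) (nat_lit 1) (nat_lit 61) (nat_lit 22) (nat_lit 61))) (PT.nd (nat_lit 94) (PT.lf (nat_lit 3780) (nat_lit 6) (nat_lit 45) (nat_lit 1) (nat_lit 62) (nat_lit 22) (nat_lit 60)) (PT.nd (nat_lit 94) (PT.lf (nat_lit 3696) (nat_lit 6) (nat_lit 44) (nat_lit 1) (nat_lit 63) (nat_lit 22) (nat_lit 59)) (PT.lf (nat_lit 3612) (nat_lit 6) (nat_lit 43) (nat_lit 1) (nat_lit 64) (nat_lit 22) (nat_lit 58))))))))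
noncomputable def pc2 : PT := (PT.nd (nat_lit 108476) (PT.nd (nat_lit 54238) (PT.nd (nat_lit 376) (PT.nd (nat_lit 188) (PT.nd (nat_lit 94) (PT.lf (nat_lit 3948) (nat_lit 6) (nat_lit 47) (nat_lit 3) (nat_lit 57) (nat_lit 23) (nat_lit 64)) (PT.lf (nat_lit 4032) (nat_lit 6) (nat_lit 48) (nat_lit 3) (nat_lit 58) (nat_lit 23) (nat_lit 63))) (PT.nd (nat_lit 94) (PT.lf (nat_lit 4116) (nat_lit 6) (nat_lit 49) (nat_lit 3) (nat_lit 59) (nat_lit 23) (nat_lit 62)) (PT.lf (nat_lit 4200) (nat_lit 6) (nat_lit 50) (nat_lit 3) (nat_lit 60) (nat_lit 23) (nat_lit 61)))) (PT.nd (nat_lit 188) (PT.nd (nat_lit 94) (PT.lf (nat_lit 4200) (nat_lit 6) (nat_lit 50) (nat_lit 1) (nat_lit 61) (nat_lit 23) (nat_lit 60)) (PT.lf (nat_lit 4116) (nat_lit 6) (nat_lit 49) (nat_lit 1) (nat_lit 62) (nat_lit 23) (nat_lit 59))) (PT.nd (nat_lit 94) (PT.lf (nat_lit 4032) (nat_lit 6) (nat_lit 48) (nat_lit 1) (nat_lit 63) (nat_lit 23)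 (nat_lit 58)) (PT.nd (nat_lit 53486) (PT.lf (nat_lit 3948) (nat_lit 6) (nat_lit 47) (nat_lit 1) (nat_lit 64) (nat_lit 23) (nat_lit 57)) (PT.lf (nat_lit 4284) (nat_lit 6) (nat_lit 51) (nat_lit 3) (nat_lit 56) (nat_lit 24) (nat_lit 64)))))) (PT.nd (nat_lit 376) (PT.nd (nat_lit 188) (PT.nd (nat_lit 94) (PT.lf (nat_lit 4368) (nat_lit 6) (nat_lit 52) (nat_lit 3) (nat_lit 57) (nat_lit 24) (nat_lit 63)) (PT.lf (nat_lit 4452) (nat_lit 6) (nat_lit 53) (nat_lit 3) (nat_lit 58) (nat_lit 24) (nat_lit 62))) (PT.nd (nat_lit 94) (PT.lf (nat_lit 4536) (nat_lit 6) (nat_lit 54) (nat_lit 3) (nat_lit 59) (nat_lit 24) (nat_lit 61)) (PT.lf (nat_lit 4620) (nat_lit 3) (nat_lit 55) (nat_lit 1) (nat_lit 60) (nat_lit 24) (nat_lit 60)))) (PT.nd (nat_lit 188) (PT.nd (nat_lit 94) (PT.lf (nat_lit 4536) (nat_lit 6) (nat_lit 54) (nat_lit 1) (nat_lit 61) (nat_lit 24) (nat_lit 59)) (PT.lf (nat_lit 4452) (nat_lit 6) (nat_lit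 53) (nat_lit 1) (nat_lit 62) (nat_lit 24) (nat_lit 58))) (PT.nd (nat_lit 94) (PT.lf (nat_lit 4368) (nat_lit 6) (nat_lit 52) (nat_lit 1) (nat_lit 63) (nat_lit 24) (nat_lit 57)) (PT.nd (nat_lit 53486) (PT.lf (nat_lit 4284) (nat_lit 6) (nat_lit 51) (nat_lit 1) (nat_lit 64) (nat_lit 24) (nat_lit 56)) (PT.lf (nat_lit 4704) (nat_lit 6) (nat_lit 56) (nat_lit 3) (nat_lit 56) (nat_lit 25) (nat_lit 63))))))) (PT.nd (nat_lit 54238) (PT.nd (nat_lit 376) (PT.nd (nat_lit 188) (PT.nd (nat_lit 94) (PT.lf (nat_lit 4788) (nat_lit 6) (nat_lit 57) (nat_lit 3) (nat_lit 57) (nat_lit 25) (nat_lit 62)) (PT.lf (nat_lit 4872) (nat_lit 6) (nat_lit 58) (nat_lit 3) (nat_lit 58) (nat_lit 25) (nat_lit 61))) (PT.nd (nat_lit 94) (PT.lf (nat_lit 4956) (nat_lit 6) (nat_lit 59) (nat_lit 3) (nat_lit 59) (nat_lit 25) (nat_lit 60)) (PT.lf (nat_lit 4956) (nat_lit 6) (nat_lit 59) (nat_lit 1) (nat_lit 60) (nat_lit 25) (nat_lit 59))))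 (PT.nd (nat_lit 188) (PT.nd (nat_lit 94) (PT.lf (nat_lit 4872) (nat_lit 6) (nat_lit 58) (nat_lit 1) (nat_lit 61) (nat_lit 25) (nat_lit 58)) (PT.lf (nat_lit 4788) (nat_lit 6) (nat_lit 57) (nat_lit 1) (nat_lit 62) (nat_lit 25) (nat_lit 57))) (PT.nd (nat_lit 53486) (PT.lf (nat_lit 4704) (nat_lit 6) (nat_lit 56) (nat_lit 1) (nat_lit 63) (nat_lit 25) (nat_lit 56)) (PT.nd (nat_lit 94) (PT.lf (nat_lit 5040) (nat_lit 6) (nat_lit 60) (nat_lit 3) (nat_lit 55) (nat_lit 26) (nat_lit 63)) (PT.lf (nat_lit 5124) (nat_lit 6) (nat_lit 61) (nat_lit 3) (nat_lit 56) (nat_lit 26) (nat_lit 62)))))) (PT.nd (nat_lit 376) (PT.nd (nat_lit 188) (PT.nd (nat_lit 94) (PT.lf (nat_lit 5208) (nat_lit 6) (nat_lit 62) (nat_lit 3) (nat_lit 57) (nat_lit 26) (nat_lit 61)) (PT.lf (nat_lit 5292) (nat_lit 6) (nat_lit 63) (nat_lit 3) (nat_lit 58) (nat_lit 26) (nat_lit 60))) (PT.nd (nat_lit 94) (PT.lf (nat_lit 5376) (nat_lit 3) (nat_lit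 64) (nat_lit 1) (nat_lit 59) (nat_lit 26) (nat_lit 59)) (PT.lf (nat_lit 5292) (nat_lit 6) (nat_lit 63) (nat_lit 1) (nat_lit 60) (nat_lit 26) (nat_lit 58)))) (PT.nd (nat_lit 188) (PT.nd (nat_lit 94) (PT.lf (nat_lit 5208) (nat_lit 6) (nat_lit 62) (nat_lit 1) (nat_lit 61) (nat_lit 26) (nat_lit 57)) (PT.lf (nat_lit 5124) (nat_lit 6) (nat_lit 61) (nat_lit 1) (nat_lit 62) (nat_lit 26) (nat_lit 56))) (PT.nd (nat_lit 53392) (PT.lf (nat_lit 5040) (nat_lit 6) (nat_lit 60) (nat_lit 1) (nat_lit 63) (nat_lit 26) (nat_lit 55)) (PT.nd (nat_lit 94) (PT.lf (nat_lit 5460) (nat_lit 6) (nat_lit 65) (nat_lit 3) (nat_lit 54) (nat_lit 27) (nat_lit 63)) (PT.lf (nat_lit 5544) (nat_lit 6) (nat_lit 66) (nat_lit 3) (nat_lit 55) (nat_lit 27) (nat_lit 62))))))))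
noncomputable def pc3 : PT := (PT.nd (nat_lit 54896) (PT.nd (nat_lit 54050) (PT.nd (nat_lit 376) (PT.nd (nat_lit 188) (PT.nd (nat_lit 94) (PT.lf (nat_lit 5628) (nat_lit 6) (nat_lit 67) (nat_lit 3) (nat_lit 56) (nat_lit 27) (nat_lit 61)) (PT.lf (nat_lit 5712) (nat_lit 6) (nat_lit 68) (nat_lit 3) (nat_lit 57) (nat_lit 27) (nat_lit 60))) (PT.nd (nat_lit 94) (PT.lf (nat_lit 5796) (nat_lit 6) (nat_lit 69) (nat_lit 3) (nat_lit 58) (nat_lit 27) (nat_lit 59)) (PT.lf (nat_lit 5796) (nat_lit 6) (nat_lit 69) (nat_lit 1) (nat_lit 59) (nat_lit 27) (nat_lit 58)))) (PT.nd (nat_lit 188) (PT.nd (nat_lit 94) (PT.lf (nat_lit 5712) (nat_lit 6) (nat_lit 68) (nat_lit 1) (nat_lit 60) (nat_lit 27) (nat_lit 57)) (PT.lf (nat_lit 5628) (nat_lit 6) (nat_lit 67) (nat_lit 1) (nat_lit 61) (nat_lit 27) (nat_lit 56))) (PT.nd (nat_lit 94) (PT.lf (nat_lit 5544) (nat_lit 6) (nat_lit 66) (nat_lit 1) (nat_lit 62) (nat_lit 27)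 (nat_lit 55)) (PT.nd (nat_lit 53298) (PT.lf (nat_lit 5460) (nat_lit 6) (nat_lit 65) (nat_lit 1) (nat_lit 63) (nat_lit 27) (nat_lit 54)) (PT.lf (nat_lit 5880) (nat_lit 6) (nat_lit 70) (nat_lit 3) (nat_lit 53) (nat_lit 28) (nat_lit 63)))))) (PT.nd (nat_lit 376) (PT.nd (nat_lit 188) (PT.nd (nat_lit 94) (PT.lf (nat_lit 5964) (nat_lit 6) (nat_lit 71) (nat_lit 3) (nat_lit 54) (nat_lit 28) (nat_lit 62)) (PT.lf (nat_lit 6048) (nat_lit 6) (nat_lit 72) (nat_lit 3) (nat_lit 55) (nat_lit 28) (nat_lit 61))) (PT.nd (nat_lit 94) (PT.lf (nat_lit 6132) (nat_lit 6) (nat_lit 73) (nat_lit 3) (nat_lit 56) (nat_lit 28) (nat_lit 60)) (PT.lf (nat_lit 6216) (nat_lit 6) (nat_lit 74) (nat_lit 3) (nat_lit 57) (nat_lit 28) (nat_lit 59)))) (PT.nd (nat_lit 188) (PT.nd (nat_lit 94) (PT.lf (nat_lit 6300) (nat_lit 3) (nat_lit 75) (nat_lit 1) (nat_lit 58) (nat_lit 28) (nat_lit 58)) (PT.lf (nat_lit 6216) (nat_lit 6) (nat_lit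 74) (nat_lit 1) (nat_lit 59) (nat_lit 28) (nat_lit 57))) (PT.nd (nat_lit 94) (PT.lf (nat_lit 6132) (nat_lit 6) (nat_lit 73) (nat_lit 1) (nat_lit 60) (nat_lit 28) (nat_lit 56)) (PT.nd (nat_lit 94) (PT.lf (nat_lit 6048) (nat_lit 6) (nat_lit 72) (nat_lit 1) (nat_lit 61) (nat_lit 28) (nat_lit 55)) (PT.lf (nat_lit 5964) (nat_lit 6) (nat_lit 71) (nat_lit 1) (nat_lit 62) (nat_lit 28) (nat_lit 54))))))) (PT.nd (nat_lit 54050) (PT.nd (nat_lit 53580) (PT.nd (nat_lit 53392) (PT.nd (nat_lit 53298) (PT.lf (nat_lit 5880) (nat_lit 6) (nat_lit 70) (nat_lit 1) (nat_lit 63) (nat_lit 28) (nat_lit 53)) (PT.lf (nat_lit 6384) (nat_lit 6) (nat_lit 76) (nat_lit 3) (nat_lit 53) (nat_lit 29) (nat_lit 62))) (PT.nd (nat_lit 94) (PT.lf (nat_lit 6468) (nat_lit 6) (nat_lit 77) (nat_lit 3) (nat_lit 54) (nat_lit 29) (nat_lit 61)) (PT.lf (nat_lit 6552) (nat_lit 6) (nat_lit 78) (nat_lit 3) (nat_lit 55) (nat_lit 29) (nat_lit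 60)))) (PT.nd (nat_lit 188) (PT.nd (nat_lit 94) (PT.lf (nat_lit 6636) (nat_lit 6) (nat_lit 79) (nat_lit 3) (nat_lit 56) (nat_lit 29) (nat_lit 59)) (PT.lf (nat_lit 6720) (nat_lit 6) (nat_lit 80) (nat_lit 3) (nat_lit 57) (nat_lit 29) (nat_lit 58))) (PT.nd (nat_lit 94) (PT.lf (nat_lit 6720) (nat_lit 6) (nat_lit 80) (nat_lit 1) (nat_lit 58) (nat_lit 29) (nat_lit 57)) (PT.nd (nat_lit 94) (PT.lf (nat_lit 6636) (nat_lit 6) (nat_lit 79) (nat_lit 1) (nat_lit 59) (nat_lit 29) (nat_lit 56)) (PT.lf (nat_lit 6552) (nat_lit 6) (nat_lit 78) (nat_lit 1) (nat_lit 60) (nat_lit 29) (nat_lit 55)))))) (PT.nd (nat_lit 53580) (PT.nd (nat_lit 53392) (PT.nd (nat_lit 94) (PT.lf (nat_lit 6468) (nat_lit 6) (nat_lit 77) (nat_lit 1) (nat_lit 61) (nat_lit 29) (nat_lit 54)) (PT.lf (nat_lit 6384) (nat_lit 6) (nat_lit 76) (nat_lit 1) (nat_lit 62) (nat_lit 29) (nat_lit 53))) (PT.nd (nat_lit 94) (PT.lf (nat_lit 6804) (nat_lit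 6) (nat_lit 81) (nat_lit 3) (nat_lit 52) (nat_lit 30) (nat_lit 62)) (PT.lf (nat_lit 6888) (nat_lit 6) (nat_lit 82) (nat_lit 3) (nat_lit 53) (nat_lit 30) (nat_lit 61)))) (PT.nd (nat_lit 188) (PT.nd (nat_lit 94) (PT.lf (nat_lit 6972) (nat_lit 6) (nat_lit 83) (nat_lit 3) (nat_lit 54) (nat_lit 30) (nat_lit 60)) (PT.lf (nat_lit 7056) (nat_lit 6) (nat_lit 84) (nat_lit 3) (nat_lit 55) (nat_lit 30) (nat_lit 59))) (PT.nd (nat_lit 94) (PT.lf (nat_lit 7140) (nat_lit 6) (nat_lit 85) (nat_lit 3) (nat_lit 56) (nat_lit 30) (nat_lit 58)) (PT.nd (nat_lit 94) (PT.lf (nat_lit 7224) (nat_lit 3) (nat_lit 86) (nat_lit 1) (nat_lit 57) (nat_lit 30) (nat_lit 57)) (PT.lf (nat_lit 7140) (nat_lit 6) (nat_lit 85) (nat_lit 1) (nat_lit 58) (nat_lit 30) (nat_lit 56))))))))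
noncomputable def pc4 : PT := (PT.nd (nat_lit 107724) (PT.nd (nat_lit 53862) (PT.nd (nat_lit 53486) (PT.nd (nat_lit 188) (PT.nd (nat_lit 94) (PT.lf (nat_lit 7056) (nat_lit 6) (nat_lit 84) (nat_lit 1) (nat_lit 59) (nat_lit 30) (nat_lit 55)) (PT.lf (nat_lit 6972) (nat_lit 6) (nat_lit 83) (nat_lit 1) (nat_lit 60) (nat_lit 30) (nat_lit 54))) (PT.nd (nat_lit 94) (PT.lf (nat_lit 6888) (nat_lit 6) (nat_lit 82) (nat_lit 1) (nat_lit 61) (nat_lit 30) (nat_lit 53)) (PT.lf (nat_lit 6804) (nat_lit 6) (nat_lit 81) (nat_lit 1) (nat_lit 62) (nat_lit 30) (nat_lit 52)))) (PT.nd (nat_lit 188) (PT.nd (nat_lit 94) (PT.lf (nat_lit 7308) (nat_lit 6) (nat_lit 87) (nat_lit 3) (nat_lit 51) (nat_lit 31) (nat_lit 62)) (PT.lf (nat_lit 7392) (nat_lit 6) (nat_lit 88) (nat_lit 3) (nat_lit 52) (nat_lit 31) (nat_lit 61))) (PT.nd (nat_lit 94) (PT.lf (nat_lit 7476) (nat_lit 6) (nat_lit 89) (nat_lit 3) (nat_lit 53) (nat_lit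 31) (nat_lit 60)) (PT.lf (nat_lit 7560) (nat_lit 6) (nat_lit 90) (nat_lit 3) (nat_lit 54) (nat_lit 31) (nat_lit 59))))) (PT.nd (nat_lit 376) (PT.nd (nat_lit 188) (PT.nd (nat_lit 94) (PT.lf (nat_lit 7644) (nat_lit 6) (nat_lit 91) (nat_lit 3) (nat_lit 55) (nat_lit 31) (nat_lit 58)) (PT.lf (nat_lit 7728) (nat_lit 6) (nat_lit 92) (nat_lit 3) (nat_lit 56) (nat_lit 31) (nat_lit 57))) (PT.nd (nat_lit 94) (PT.lf (nat_lit 7728) (nat_lit 6) (nat_lit 92) (nat_lit 1) (nat_lit 57) (nat_lit 31) (nat_lit 56)) (PT.lf (nat_lit 7644) (nat_lit 6) (nat_lit 91) (nat_lit 1) (nat_lit 58) (nat_lit 31) (nat_lit 55)))) (PT.nd (nat_lit 188) (PT.nd (nat_lit 94) (PT.lf (nat_lit 7560) (nat_lit 6) (nat_lit 90) (nat_lit 1) (nat_lit 59) (nat_lit 31) (nat_lit 54)) (PT.lf (nat_lit 7476) (nat_lit 6) (nat_lit 89) (nat_lit 1) (nat_lit 60) (nat_lit 31) (nat_lit 53))) (PT.nd (nat_lit 94) (PT.lf (nat_lit 7392) (nat_lit 6) (nat_lit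 88) (nat_lit 1) (nat_lit 61) (nat_lit 31) (nat_lit 52)) (PT.nd (nat_lit 53110) (PT.lf (nat_lit 7308) (nat_lit 6) (nat_lit 87) (nat_lit 1) (nat_lit 62) (nat_lit 31) (nat_lit 51)) (PT.lf (nat_lit 7812) (nat_lit 6) (nat_lit 93) (nat_lit 3) (nat_lit 50) (nat_lit 32) (nat_lit 62))))))) (PT.nd (nat_lit 846) (PT.nd (nat_lit 376) (PT.nd (nat_lit 188) (PT.nd (nat_lit 94) (PT.lf (nat_lit 7896) (nat_lit 6) (nat_lit 94) (nat_lit 3) (nat_lit 51) (nat_lit 32) (nat_lit 61)) (PT.lf (nat_lit 7980) (nat_lit 6) (nat_lit 95) (nat_lit 3) (nat_lit 52) (nat_lit 32) (nat_lit 60))) (PT.nd (nat_lit 94) (PT.lf (nat_lit 8064) (nat_lit 6) (nat_lit 96) (nat_lit 3) (nat_lit 53) (nat_lit 32) (nat_lit 59)) (PT.lf (nat_lit 8148) (nat_lit 6) (nat_lit 97) (nat_lit 3) (nat_lit 54) (nat_lit 32) (nat_lit 58)))) (PT.nd (nat_lit 188) (PT.nd (nat_lit 94) (PT.lf (nat_lit 8232) (nat_lit 6) (nat_lit 98) (nat_lit 3) (nat_lit 55) (nat_lit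 32) (nat_lit 57)) (PT.lf (nat_lit 8316) (nat_lit 3) (nat_lit 99) (nat_lit 1) (nat_lit 56) (nat_lit 32) (nat_lit 56))) (PT.nd (nat_lit 94) (PT.lf (nat_lit 8232) (nat_lit 6) (nat_lit 98) (nat_lit 1) (nat_lit 57) (nat_lit 32) (nat_lit 55)) (PT.nd (nat_lit 94) (PT.lf (nat_lit 8148) (nat_lit 6) (nat_lit 97) (nat_lit 1) (nat_lit 58) (nat_lit 32) (nat_lit 54)) (PT.lf (nat_lit 8064) (nat_lit 6) (nat_lit 96) (nat_lit 1) (nat_lit 59) (nat_lit 32) (nat_lit 53)))))) (PT.nd (nat_lit 53298) (PT.nd (nat_lit 188) (PT.nd (nat_lit 94) (PT.lf (nat_lit 7980) (nat_lit 6) (nat_lit 95) (nat_lit 1) (nat_lit 60) (nat_lit 32) (nat_lit 52)) (PT.lf (nat_lit 7896) (nat_lit 6) (nat_lit 94) (nat_lit 1) (nat_lit 61) (nat_lit 32) (nat_lit 51))) (PT.nd (nat_lit 53016) (PT.lf (nat_lit 7812) (nat_lit 6) (nat_lit 93) (nat_lit 1) (nat_lit 62) (nat_lit 32) (nat_lit 50)) (PT.lf (nat_lit 8400) (nat_lit 6) (nat_lit 100) (nat_lit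 3) (nat_lit 49) (nat_lit 33) (nat_lit 62)))) (PT.nd (nat_lit 188) (PT.nd (nat_lit 94) (PT.lf (nat_lit 8484) (nat_lit 6) (nat_lit 101) (nat_lit 3) (nat_lit 50) (nat_lit 33) (nat_lit 61)) (PT.lf (nat_lit 8568) (nat_lit 6) (nat_lit 102) (nat_lit 3) (nat_lit 51) (nat_lit 33) (nat_lit 60))) (PT.nd (nat_lit 94) (PT.lf (nat_lit 8652) (nat_lit 6) (nat_lit 103) (nat_lit 3) (nat_lit 52) (nat_lit 33) (nat_lit 59)) (PT.nd (nat_lit 94) (PT.lf (nat_lit 8736) (nat_lit 6) (nat_lit 104) (nat_lit 3) (nat_lit 53) (nat_lit 33) (nat_lit 58)) (PT.lf (nat_lit 8820) (nat_lit 6) (nat_lit 105) (nat_lit 3) (nat_lit 54) (nat_lit 33) (nat_lit 57))))))))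
noncomputable def pc5 : PT := (PT.nd (nat_lit 54614) (PT.nd (nat_lit 53768) (PT.nd (nat_lit 376) (PT.nd (nat_lit 188) (PT.nd (nat_lit 94) (PT.lf (nat_lit 8904) (nat_lit 6) (nat_lit 106) (nat_lit 3) (nat_lit 55) (nat_lit 33) (nat_lit 56)) (PT.lf (nat_lit 8904) (nat_lit 6) (nat_lit 106) (nat_lit 1) (nat_lit 56) (nat_lit 33) (nat_lit 55))) (PT.nd (nat_lit 94) (PT.lf (nat_lit 8820) (nat_lit 6) (nat_lit 105) (nat_lit 1) (nat_lit 57) (nat_lit 33) (nat_lit 54)) (PT.lf (nat_lit 8736) (nat_lit 6) (nat_lit 104) (nat_lit 1) (nat_lit 58) (nat_lit 33) (nat_lit 53)))) (PT.nd (nat_lit 188) (PT.nd (nat_lit 94) (PT.lf (nat_lit 8652) (nat_lit 6) (nat_lit 103) (nat_lit 1) (nat_lit 59) (nat_lit 33) (nat_lit 52)) (PT.lf (nat_lit 8568) (nat_lit 6) (nat_lit 102) (nat_lit 1) (nat_lit 60) (nat_lit 33) (nat_lit 51))) (PT.nd (nat_lit 94) (PT.lf (nat_lit 8484) (nat_lit 6) (nat_lit 101) (nat_lit 1) (nat_lit 61) (nat_lit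 33) (nat_lit 50)) (PT.nd (nat_lit 53016) (PT.lf (nat_lit 8400) (nat_lit 6) (nat_lit 100) (nat_lit 1) (nat_lit 62) (nat_lit 33) (nat_lit 49)) (PT.lf (nat_lit 8988) (nat_lit 6) (nat_lit 107) (nat_lit 3) (nat_lit 49) (nat_lit 34) (nat_lit 61)))))) (PT.nd (nat_lit 376) (PT.nd (nat_lit 188) (PT.nd (nat_lit 94) (PT.lf (nat_lit 9072) (nat_lit 6) (nat_lit 108) (nat_lit 3) (nat_lit 50) (nat_lit 34) (nat_lit 60)) (PT.lf (nat_lit 9156) (nat_lit 6) (nat_lit 109) (nat_lit 3) (nat_lit 51) (nat_lit 34) (nat_lit 59))) (PT.nd (nat_lit 94) (PT.lf (nat_lit 9240) (nat_lit 6) (nat_lit 110) (nat_lit 3) (nat_lit 52) (nat_lit 34) (nat_lit 58)) (PT.lf (nat_lit 9324) (nat_lit 6) (nat_lit 111) (nat_lit 3) (nat_lit 53) (nat_lit 34) (nat_lit 57)))) (PT.nd (nat_lit 188) (PT.nd (nat_lit 94) (PT.lf (nat_lit 9408) (nat_lit 6) (nat_lit 112) (nat_lit 3) (nat_lit 54) (nat_lit 34) (nat_lit 56)) (PT.lf (nat_lit 9492) (nat_lit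 3) (nat_lit 113) (nat_lit 1) (nat_lit 55) (nat_lit 34) (nat_lit 55))) (PT.nd (nat_lit 94) (PT.lf (nat_lit 9408) (nat_lit 6) (nat_lit 112) (nat_lit 1) (nat_lit 56) (nat_lit 34) (nat_lit 54)) (PT.nd (nat_lit 94) (PT.lf (nat_lit 9324) (nat_lit 6) (nat_lit 111) (nat_lit 1) (nat_lit 57) (nat_lit 34) (nat_lit 53)) (PT.lf (nat_lit 9240) (nat_lit 6) (nat_lit 110) (nat_lit 1) (nat_lit 58) (nat_lit 34) (nat_lit 52))))))) (PT.nd (nat_lit 53768) (PT.nd (nat_lit 53298) (PT.nd (nat_lit 188) (PT.nd (nat_lit 94) (PT.lf (nat_lit 9156) (nat_lit 6) (nat_lit 109) (nat_lit 1) (nat_lit 59) (nat_lit 34) (nat_lit 51)) (PT.lf (nat_lit 9072) (nat_lit 6) (nat_lit 108) (nat_lit 1) (nat_lit 60) (nat_lit 34) (nat_lit 50))) (PT.nd (nat_lit 53016) (PT.lf (nat_lit 8988) (nat_lit 6) (nat_lit 107) (nat_lit 1) (nat_lit 61) (nat_lit 34) (nat_lit 49)) (PT.lf (nat_lit 10080) (nat_lit 6) (nat_lit 120) (nat_lit 3) (nat_lit 48)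 (nat_lit 35) (nat_lit 61)))) (PT.nd (nat_lit 188) (PT.nd (nat_lit 94) (PT.lf (nat_lit 10164) (nat_lit 6) (nat_lit 121) (nat_lit 3) (nat_lit 49) (nat_lit 35) (nat_lit 60)) (PT.lf (nat_lit 10248) (nat_lit 6) (nat_lit 122) (nat_lit 3) (nat_lit 50) (nat_lit 35) (nat_lit 59))) (PT.nd (nat_lit 94) (PT.lf (nat_lit 10332) (nat_lit 6) (nat_lit 123) (nat_lit 3) (nat_lit 51) (nat_lit 35) (nat_lit 58)) (PT.nd (nat_lit 94) (PT.lf (nat_lit 10416) (nat_lit 6) (nat_lit 124) (nat_lit 3) (nat_lit 52) (nat_lit 35) (nat_lit 57)) (PT.lf (nat_lit 10500) (nat_lit 6) (nat_lit 125) (nat_lit 3) (nat_lit 53) (nat_lit 35) (nat_lit 56)))))) (PT.nd (nat_lit 376) (PT.nd (nat_lit 188) (PT.nd (nat_lit 94) (PT.lf (nat_lit 10584) (nat_lit 6) (nat_lit 126) (nat_lit 3) (nat_lit 54) (nat_lit 35) (nat_lit 55)) (PT.lf (nat_lit 10584) (nat_lit 6) (nat_lit 126) (nat_lit 1) (nat_lit 55) (nat_lit 35) (nat_lit 54))) (PT.nd (nat_lit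 94) (PT.lf (nat_lit 10500) (nat_lit 6) (nat_lit 125) (nat_lit 1) (nat_lit 56) (nat_lit 35) (nat_lit 53)) (PT.lf (nat_lit 10416) (nat_lit 6) (nat_lit 124) (nat_lit 1) (nat_lit 57) (nat_lit 35) (nat_lit 52)))) (PT.nd (nat_lit 188) (PT.nd (nat_lit 94) (PT.lf (nat_lit 10332) (nat_lit 6) (nat_lit 123) (nat_lit 1) (nat_lit 58) (nat_lit 35) (nat_lit 51)) (PT.lf (nat_lit 10248) (nat_lit 6) (nat_lit 122) (nat_lit 1) (nat_lit 59) (nat_lit 35) (nat_lit 50))) (PT.nd (nat_lit 94) (PT.lf (nat_lit 10164) (nat_lit 6) (nat_lit 121) (nat_lit 1) (nat_lit 60) (nat_lit 35) (nat_lit 49)) (PT.nd (nat_lit 52922) (PT.lf (nat_lit 10080) (nat_lit 6) (nat_lit 120) (nat_lit 1) (nat_lit 61) (nat_lit 35) (nat_lit 48)) (PT.lf (nat_lit 9996) (nat_lit 6) (nat_lit 119) (nat_lit 3) (nat_lit 47) (nat_lit 36) (nat_lit 61))))))))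
noncomputable def pc6 : PT := (PT.nd (nat_lit 54426) (PT.nd (nat_lit 846) (PT.nd (nat_lit 376) (PT.nd (nat_lit 188) (PT.nd (nat_lit 94) (PT.lf (nat_lit 11172) (nat_lit 6) (nat_lit 133) (nat_lit 3) (nat_lit 48) (nat_lit 36) (nat_lit 60)) (PT.lf (nat_lit 11256) (nat_lit 6) (nat_lit 134) (nat_lit 3) (nat_lit 49) (nat_lit 36) (nat_lit 59))) (PT.nd (nat_lit 94) (PT.lf (nat_lit 11340) (nat_lit 6) (nat_lit 135) (nat_lit 3) (nat_lit 50) (nat_lit 36) (nat_lit 58)) (PT.lf (nat_lit 11424) (nat_lit 6) (nat_lit 136) (nat_lit 3) (nat_lit 51) (nat_lit 36) (nat_lit 57)))) (PT.nd (nat_lit 188) (PT.nd (nat_lit 94) (PT.lf (nat_lit 11508) (nat_lit 6) (nat_lit 137) (nat_lit 3) (nat_lit 52) (nat_lit 36) (nat_lit 56)) (PT.lf (nat_lit 11592) (nat_lit 6) (nat_lit 138) (nat_lit 3) (nat_lit 53) (nat_lit 36) (nat_lit 55))) (PT.nd (nat_lit 94) (PT.lf (nat_lit 11676) (nat_lit 3) (nat_lit 139) (nat_lit 1) (nat_lit 54)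 (nat_lit 36) (nat_lit 54)) (PT.nd (nat_lit 94) (PT.lf (nat_lit 11592) (nat_lit 6) (nat_lit 138) (nat_lit 1) (nat_lit 55) (nat_lit 36) (nat_lit 53)) (PT.lf (nat_lit 11508) (nat_lit 6) (nat_lit 137) (nat_lit 1) (nat_lit 56) (nat_lit 36) (nat_lit 52)))))) (PT.nd (nat_lit 376) (PT.nd (nat_lit 188) (PT.nd (nat_lit 94) (PT.lf (nat_lit 11424) (nat_lit 6) (nat_lit 136) (nat_lit 1) (nat_lit 57) (nat_lit 36) (nat_lit 51)) (PT.lf (nat_lit 11340) (nat_lit 6) (nat_lit 135) (nat_lit 1) (nat_lit 58) (nat_lit 36) (nat_lit 50))) (PT.nd (nat_lit 94) (PT.lf (nat_lit 11256) (nat_lit 6) (nat_lit 134) (nat_lit 1) (nat_lit 59) (nat_lit 36) (nat_lit 49)) (PT.lf (nat_lit 11172) (nat_lit 6) (nat_lit 133) (nat_lit 1) (nat_lit 60) (nat_lit 36) (nat_lit 48)))) (PT.nd (nat_lit 52922) (PT.nd (nat_lit 52828) (PT.lf (nat_lit 9996) (nat_lit 6) (nat_lit 119) (nat_lit 1) (nat_lit 61) (nat_lit 36) (nat_lit 47)) (PT.lf (nat_lit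 9912) (nat_lit 6) (nat_lit 118) (nat_lit 3) (nat_lit 46) (nat_lit 37) (nat_lit 61))) (PT.nd (nat_lit 94) (PT.lf (nat_lit 11088) (nat_lit 6) (nat_lit 132) (nat_lit 3) (nat_lit 47) (nat_lit 37) (nat_lit 60)) (PT.nd (nat_lit 94) (PT.lf (nat_lit 12180) (nat_lit 6) (nat_lit 145) (nat_lit 3) (nat_lit 48) (nat_lit 37) (nat_lit 59)) (PT.lf (nat_lit 12264) (nat_lit 6) (nat_lit 146) (nat_lit 3) (nat_lit 49) (nat_lit 37) (nat_lit 58))))))) (PT.nd (nat_lit 846) (PT.nd (nat_lit 376) (PT.nd (nat_lit 188) (PT.nd (nat_lit 94) (PT.lf (nat_lit 12348) (nat_lit 6) (nat_lit 147) (nat_lit 3) (nat_lit 50) (nat_lit 37) (nat_lit 57)) (PT.lf (nat_lit 12432) (nat_lit 6) (nat_lit 148) (nat_lit 3) (nat_lit 51) (nat_lit 37) (nat_lit 56))) (PT.nd (nat_lit 94) (PT.lf (nat_lit 12516) (nat_lit 6) (nat_lit 149) (nat_lit 3) (nat_lit 52) (nat_lit 37) (nat_lit 55)) (PT.lf (nat_lit 12600) (nat_lit 6) (nat_lit 150) (nat_lit 3)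 (nat_lit 53) (nat_lit 37) (nat_lit 54)))) (PT.nd (nat_lit 188) (PT.nd (nat_lit 94) (PT.lf (nat_lit 12600) (nat_lit 6) (nat_lit 150) (nat_lit 1) (nat_lit 54) (nat_lit 37) (nat_lit 53)) (PT.lf (nat_lit 12516) (nat_lit 6) (nat_lit 149) (nat_lit 1) (nat_lit 55) (nat_lit 37) (nat_lit 52))) (PT.nd (nat_lit 94) (PT.lf (nat_lit 12432) (nat_lit 6) (nat_lit 148) (nat_lit 1) (nat_lit 56) (nat_lit 37) (nat_lit 51)) (PT.nd (nat_lit 94) (PT.lf (nat_lit 12348) (nat_lit 6) (nat_lit 147) (nat_lit 1) (nat_lit 57) (nat_lit 37) (nat_lit 50)) (PT.lf (nat_lit 12264) (nat_lit 6) (nat_lit 146) (nat_lit 1) (nat_lit 58) (nat_lit 37) (nat_lit 49)))))) (PT.nd (nat_lit 53016) (PT.nd (nat_lit 188) (PT.nd (nat_lit 94) (PT.lf (nat_lit 12180) (nat_lit 6) (nat_lit 145) (nat_lit 1) (nat_lit 59) (nat_lit 37) (nat_lit 48)) (PT.lf (nat_lit 11088) (nat_lit 6) (nat_lit 132) (nat_lit 1) (nat_lit 60) (nat_lit 37) (nat_lit 47)))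 (PT.nd (nat_lit 52734) (PT.lf (nat_lit 9912) (nat_lit 6) (nat_lit 118) (nat_lit 1) (nat_lit 61) (nat_lit 37) (nat_lit 46)) (PT.lf (nat_lit 9828) (nat_lit 6) (nat_lit 117) (nat_lit 3) (nat_lit 45) (nat_lit 38) (nat_lit 61)))) (PT.nd (nat_lit 188) (PT.nd (nat_lit 94) (PT.lf (nat_lit 11004) (nat_lit 6) (nat_lit 131) (nat_lit 3) (nat_lit 46) (nat_lit 38) (nat_lit 60)) (PT.lf (nat_lit 12096) (nat_lit 6) (nat_lit 144) (nat_lit 3) (nat_lit 47) (nat_lit 38) (nat_lit 59))) (PT.nd (nat_lit 94) (PT.lf (nat_lit 13104) (nat_lit 6) (nat_lit 156) (nat_lit 3) (nat_lit 48) (nat_lit 38) (nat_lit 58)) (PT.nd (nat_lit 94) (PT.lf (nat_lit 13188) (nat_lit 6) (nat_lit 157) (nat_lit 3) (nat_lit 49) (nat_lit 38) (nat_lit 57)) (PT.lf (nat_lit 13272) (nat_lit 6) (nat_lit 158) (nat_lit 3) (nat_lit 50) (nat_lit 38) (nat_lit 56))))))))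
noncomputable def pc7 : PT := (PT.nd (nat_lit 54238) (PT.nd (nat_lit 846) (PT.nd (nat_lit 376) (PT.nd (nat_lit 188) (PT.nd (nat_lit 94) (PT.lf (nat_lit 13356) (nat_lit 6) (nat_lit 159) (nat_lit 3) (nat_lit 51) (nat_lit 38) (nat_lit 55)) (PT.lf (nat_lit 13440) (nat_lit 6) (nat_lit 160) (nat_lit 3) (nat_lit 52) (nat_lit 38) (nat_lit 54))) (PT.nd (nat_lit 94) (PT.lf (nat_lit 13524) (nat_lit 3) (nat_lit 161) (nat_lit 1) (nat_lit 53) (nat_lit 38) (nat_lit 53)) (PT.lf (nat_lit 13440) (nat_lit 6) (nat_lit 160) (nat_lit 1) (nat_lit 54) (nat_lit 38) (nat_lit 52)))) (PT.nd (nat_lit 188) (PT.nd (nat_lit 94) (PT.lf (nat_lit 13356) (nat_lit 6) (nat_lit 159) (nat_lit 1) (nat_lit 55) (nat_lit 38) (nat_lit 51)) (PT.lf (nat_lit 13272) (nat_lit 6) (nat_lit 158) (nat_lit 1) (nat_lit 56) (nat_lit 38) (nat_lit 50))) (PT.nd (nat_lit 94) (PT.lf (nat_lit 13188) (nat_lit 6) (nat_lit 157) (nat_lit 1) (nat_lit 57)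 (nat_lit 38) (nat_lit 49)) (PT.nd (nat_lit 94) (PT.lf (nat_lit 13104) (nat_lit 6) (nat_lit 156) (nat_lit 1) (nat_lit 58) (nat_lit 38) (nat_lit 48)) (PT.lf (nat_lit 12096) (nat_lit 6) (nat_lit 144) (nat_lit 1) (nat_lit 59) (nat_lit 38) (nat_lit 47)))))) (PT.nd (nat_lit 52922) (PT.nd (nat_lit 52734) (PT.nd (nat_lit 94) (PT.lf (nat_lit 11004) (nat_lit 6) (nat_lit 131) (nat_lit 1) (nat_lit 60) (nat_lit 38) (nat_lit 46)) (PT.lf (nat_lit 9828) (nat_lit 6) (nat_lit 117) (nat_lit 1) (nat_lit 61) (nat_lit 38) (nat_lit 45))) (PT.nd (nat_lit 94) (PT.lf (nat_lit 9744) (nat_lit 6) (nat_lit 116) (nat_lit 3) (nat_lit 44) (nat_lit 39) (nat_lit 61)) (PT.lf (nat_lit 10920) (nat_lit 6) (nat_lit 130) (nat_lit 3) (nat_lit 45) (nat_lit 39) (nat_lit 60)))) (PT.nd (nat_lit 188) (PT.nd (nat_lit 94) (PT.lf (nat_lit 12012) (nat_lit 6) (nat_lit 143) (nat_lit 3) (nat_lit 46) (nat_lit 39) (nat_lit 59)) (PT.lf (nat_lit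 13020) (nat_lit 6) (nat_lit 155) (nat_lit 3) (nat_lit 47) (nat_lit 39) (nat_lit 58))) (PT.nd (nat_lit 94) (PT.lf (nat_lit 13944) (nat_lit 6) (nat_lit 166) (nat_lit 3) (nat_lit 48) (nat_lit 39) (nat_lit 57)) (PT.nd (nat_lit 94) (PT.lf (nat_lit 14028) (nat_lit 6) (nat_lit 167) (nat_lit 3) (nat_lit 49) (nat_lit 39) (nat_lit 56)) (PT.lf (nat_lit 14112) (nat_lit 6) (nat_lit 168) (nat_lit 3) (nat_lit 50) (nat_lit 39) (nat_lit 55))))))) (PT.nd (nat_lit 846) (PT.nd (nat_lit 376) (PT.nd (nat_lit 188) (PT.nd (nat_lit 94) (PT.lf (nat_lit 14196) (nat_lit 6) (nat_lit 169) (nat_lit 3) (nat_lit 51) (nat_lit 39) (nat_lit 54)) (PT.lf (nat_lit 14280) (nat_lit 6) (nat_lit 170) (nat_lit 3) (nat_lit 52) (nat_lit 39) (nat_lit 53))) (PT.nd (nat_lit 94) (PT.lf (nat_lit 14280) (nat_lit 6) (nat_lit 170) (nat_lit 1) (nat_lit 53) (nat_lit 39) (nat_lit 52)) (PT.lf (nat_lit 14196) (nat_lit 6) (nat_lit 169) (nat_lit 1)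 (nat_lit 54) (nat_lit 39) (nat_lit 51)))) (PT.nd (nat_lit 188) (PT.nd (nat_lit 94) (PT.lf (nat_lit 14112) (nat_lit 6) (nat_lit 168) (nat_lit 1) (nat_lit 55) (nat_lit 39) (nat_lit 50)) (PT.lf (nat_lit 14028) (nat_lit 6) (nat_lit 167) (nat_lit 1) (nat_lit 56) (nat_lit 39) (nat_lit 49))) (PT.nd (nat_lit 94) (PT.lf (nat_lit 13944) (nat_lit 6) (nat_lit 166) (nat_lit 1) (nat_lit 57) (nat_lit 39) (nat_lit 48)) (PT.nd (nat_lit 94) (PT.lf (nat_lit 13020) (nat_lit 6) (nat_lit 155) (nat_lit 1) (nat_lit 58) (nat_lit 39) (nat_lit 47)) (PT.lf (nat_lit 12012) (nat_lit 6) (nat_lit 143) (nat_lit 1) (nat_lit 59) (nat_lit 39) (nat_lit 46)))))) (PT.nd (nat_lit 52828) (PT.nd (nat_lit 52640) (PT.nd (nat_lit 94) (PT.lf (nat_lit 10920) (nat_lit 6) (nat_lit 130) (nat_lit 1) (nat_lit 60) (nat_lit 39) (nat_lit 45)) (PT.lf (nat_lit 9744) (nat_lit 6) (nat_lit 116) (nat_lit 1) (nat_lit 61) (nat_lit 39) (nat_lit 44)))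 (PT.nd (nat_lit 94) (PT.lf (nat_lit 9660) (nat_lit 6) (nat_lit 115) (nat_lit 3) (nat_lit 43) (nat_lit 40) (nat_lit 61)) (PT.lf (nat_lit 10836) (nat_lit 6) (nat_lit 129) (nat_lit 3) (nat_lit 44) (nat_lit 40) (nat_lit 60)))) (PT.nd (nat_lit 188) (PT.nd (nat_lit 94) (PT.lf (nat_lit 11928) (nat_lit 6) (nat_lit 142) (nat_lit 3) (nat_lit 45) (nat_lit 40) (nat_lit 59)) (PT.lf (nat_lit 12936) (nat_lit 6) (nat_lit 154) (nat_lit 3) (nat_lit 46) (nat_lit 40) (nat_lit 58))) (PT.nd (nat_lit 94) (PT.lf (nat_lit 13860) (nat_lit 6) (nat_lit 165) (nat_lit 3) (nat_lit 47) (nat_lit 40) (nat_lit 57)) (PT.nd (nat_lit 94) (PT.lf (nat_lit 14700) (nat_lit 6) (nat_lit 175) (nat_lit 3) (nat_lit 48) (nat_lit 40) (nat_lit 56)) (PT.lf (nat_lit 14784) (nat_lit 6) (nat_lit 176) (nat_lit 3) (nat_lit 49) (nat_lit 40) (nat_lit 55))))))))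
noncomputable def pc8 : PT := (PT.nd (nat_lit 53956) (PT.nd (nat_lit 752) (PT.nd (nat_lit 376) (PT.nd (nat_lit 188) (PT.nd (nat_lit 94) (PT.lf (nat_lit 14868) (nat_lit 6) (nat_lit 177) (nat_lit 3) (nat_lit 50) (nat_lit 40) (nat_lit 54)) (PT.lf (nat_lit 14952) (nat_lit 6) (nat_lit 178) (nat_lit 3) (nat_lit 51) (nat_lit 40) (nat_lit 53))) (PT.nd (nat_lit 94) (PT.lf (nat_lit 15036) (nat_lit 3) (nat_lit 179) (nat_lit 1) (nat_lit 52) (nat_lit 40) (nat_lit 52)) (PT.lf (nat_lit 14952) (nat_lit 6) (nat_lit 178) (nat_lit 1) (nat_lit 53) (nat_lit 40) (nat_lit 51)))) (PT.nd (nat_lit 188) (PT.nd (nat_lit 94) (PT.lf (nat_lit 14868) (nat_lit 6) (nat_lit 177) (nat_lit 1) (nat_lit 54) (nat_lit 40) (nat_lit 50)) (PT.lf (nat_lit 14784) (nat_lit 6) (nat_lit 176) (nat_lit 1) (nat_lit 55) (nat_lit 40) (nat_lit 49))) (PT.nd (nat_lit 94) (PT.lf (nat_lit 14700) (nat_lit 6) (nat_lit 175) (nat_lit 1) (nat_lit 56)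 (nat_lit 40) (nat_lit 48)) (PT.lf (nat_lit 13860) (nat_lit 6) (nat_lit 165) (nat_lit 1) (nat_lit 57) (nat_lit 40) (nat_lit 47))))) (PT.nd (nat_lit 52734) (PT.nd (nat_lit 188) (PT.nd (nat_lit 94) (PT.lf (nat_lit 12936) (nat_lit 6) (nat_lit 154) (nat_lit 1) (nat_lit 58) (nat_lit 40) (nat_lit 46)) (PT.lf (nat_lit 11928) (nat_lit 6) (nat_lit 142) (nat_lit 1) (nat_lit 59) (nat_lit 40) (nat_lit 45))) (PT.nd (nat_lit 94) (PT.lf (nat_lit 10836) (nat_lit 6) (nat_lit 129) (nat_lit 1) (nat_lit 60) (nat_lit 40) (nat_lit 44)) (PT.lf (nat_lit 9660) (nat_lit 6) (nat_lit 115) (nat_lit 1) (nat_lit 61) (nat_lit 40) (nat_lit 43)))) (PT.nd (nat_lit 188) (PT.nd (nat_lit 94) (PT.lf (nat_lit 9576) (nat_lit 6) (nat_lit 114) (nat_lit 3) (nat_lit 42) (nat_lit 41) (nat_lit 61)) (PT.lf (nat_lit 10752) (nat_lit 6) (nat_lit 128) (nat_lit 3) (nat_lit 43) (nat_lit 41) (nat_lit 60))) (PT.nd (nat_lit 94) (PT.lf (nat_lit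 11844) (nat_lit 6) (nat_lit 141) (nat_lit 3) (nat_lit 44) (nat_lit 41) (nat_lit 59)) (PT.nd (nat_lit 94) (PT.lf (nat_lit 12852) (nat_lit 6) (nat_lit 153) (nat_lit 3) (nat_lit 45) (nat_lit 41) (nat_lit 58)) (PT.lf (nat_lit 13776) (nat_lit 6) (nat_lit 164) (nat_lit 3) (nat_lit 46) (nat_lit 41) (nat_lit 57))))))) (PT.nd (nat_lit 846) (PT.nd (nat_lit 376) (PT.nd (nat_lit 188) (PT.nd (nat_lit 94) (PT.lf (nat_lit 14616) (nat_lit 6) (nat_lit 174) (nat_lit 3) (nat_lit 47) (nat_lit 41) (nat_lit 56)) (PT.lf (nat_lit 15372) (nat_lit 6) (nat_lit 183) (nat_lit 3) (nat_lit 48) (nat_lit 41) (nat_lit 55))) (PT.nd (nat_lit 94) (PT.lf (nat_lit 15456) (nat_lit 6) (nat_lit 184) (nat_lit 3) (nat_lit 49) (nat_lit 41) (nat_lit 54)) (PT.lf (nat_lit 15540) (nat_lit 6) (nat_lit 185) (nat_lit 3) (nat_lit 50) (nat_lit 41) (nat_lit 53)))) (PT.nd (nat_lit 188) (PT.nd (nat_lit 94) (PT.lf (nat_lit 15624) (nat_lit 6) (nat_lit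 186) (nat_lit 3) (nat_lit 51) (nat_lit 41) (nat_lit 52)) (PT.lf (nat_lit 15624) (nat_lit 6) (nat_lit 186) (nat_lit 1) (nat_lit 52) (nat_lit 41) (nat_lit 51))) (PT.nd (nat_lit 94) (PT.lf (nat_lit 15540) (nat_lit 6) (nat_lit 185) (nat_lit 1) (nat_lit 53) (nat_lit 41) (nat_lit 50)) (PT.nd (nat_lit 94) (PT.lf (nat_lit 15456) (nat_lit 6) (nat_lit 184) (nat_lit 1) (nat_lit 54) (nat_lit 41) (nat_lit 49)) (PT.lf (nat_lit 15372) (nat_lit 6) (nat_lit 183) (nat_lit 1) (nat_lit 55) (nat_lit 41) (nat_lit 48)))))) (PT.nd (nat_lit 376) (PT.nd (nat_lit 188) (PT.nd (nat_lit 94) (PT.lf (nat_lit 14616) (nat_lit 6) (nat_lit 174) (nat_lit 1) (nat_lit 56) (nat_lit 41) (nat_lit 47)) (PT.lf (nat_lit 13776) (nat_lit 6) (nat_lit 164) (nat_lit 1) (nat_lit 57) (nat_lit 41) (nat_lit 46))) (PT.nd (nat_lit 94) (PT.lf (nat_lit 12852) (nat_lit 6) (nat_lit 153) (nat_lit 1) (nat_lit 58) (nat_lit 41) (nat_lit 45)) (PT.lf (nat_lit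 11844) (nat_lit 6) (nat_lit 141) (nat_lit 1) (nat_lit 59) (nat_lit 41) (nat_lit 44)))) (PT.nd (nat_lit 52452) (PT.nd (nat_lit 94) (PT.lf (nat_lit 10752) (nat_lit 6) (nat_lit 128) (nat_lit 1) (nat_lit 60) (nat_lit 41) (nat_lit 43)) (PT.lf (nat_lit 9576) (nat_lit 6) (nat_lit 114) (nat_lit 1) (nat_lit 61) (nat_lit 41) (nat_lit 42))) (PT.nd (nat_lit 94) (PT.lf (nat_lit 9576) (nat_lit 6) (nat_lit 114) (nat_lit 5) (nat_lit 41) (nat_lit 42) (nat_lit 61)) (PT.nd (nat_lit 94) (PT.lf (nat_lit 10668) (nat_lit 3) (nat_lit 127) (nat_lit 3) (nat_lit 42) (nat_lit 42) (nat_lit 60)) (PT.lf (nat_lit 11760) (nat_lit 6) (nat_lit 140) (nat_lit 3) (nat_lit 43) (nat_lit 42) (nat_lit 59))))))))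
noncomputable def pc9 : PT := (PT.nd (nat_lit 53862) (PT.nd (nat_lit 846) (PT.nd (nat_lit 376) (PT.nd (nat_lit 188) (PT.nd (nat_lit 94) (PT.lf (nat_lit 12768) (nat_lit 6) (nat_lit 152) (nat_lit 3) (nat_lit 44) (nat_lit 42) (nat_lit 58)) (PT.lf (nat_lit 13692) (nat_lit 6) (nat_lit 163) (nat_lit 3) (nat_lit 45) (nat_lit 42) (nat_lit 57))) (PT.nd (nat_lit 94) (PT.lf (nat_lit 14532) (nat_lit 6) (nat_lit 173) (nat_lit 3) (nat_lit 46) (nat_lit 42) (nat_lit 56)) (PT.lf (nat_lit 15288) (nat_lit 6) (nat_lit 182) (nat_lit 3) (nat_lit 47) (nat_lit 42) (nat_lit 55)))) (PT.nd (nat_lit 188) (PT.nd (nat_lit 94) (PT.lf (nat_lit 15960) (nat_lit 6) (nat_lit 190) (nat_lit 3) (nat_lit 48) (nat_lit 42) (nat_lit 54)) (PT.lf (nat_lit 16044) (nat_lit 6) (nat_lit 191) (nat_lit 3) (nat_lit 49) (nat_lit 42) (nat_lit 53))) (PT.nd (nat_lit 94) (PT.lf (nat_lit 16128) (nat_lit 6) (nat_lit 192) (nat_lit 3) (nat_lit 50)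 (nat_lit 42) (nat_lit 52)) (PT.nd (nat_lit 94) (PT.lf (nat_lit 16212) (nat_lit 3) (nat_lit 193) (nat_lit 1) (nat_lit 51) (nat_lit 42) (nat_lit 51)) (PT.lf (nat_lit 16128) (nat_lit 6) (nat_lit 192) (nat_lit 1) (nat_lit 52) (nat_lit 42) (nat_lit 50)))))) (PT.nd (nat_lit 376) (PT.nd (nat_lit 188) (PT.nd (nat_lit 94) (PT.lf (nat_lit 16044) (nat_lit 6) (nat_lit 191) (nat_lit 1) (nat_lit 53) (nat_lit 42) (nat_lit 49)) (PT.lf (nat_lit 15960) (nat_lit 6) (nat_lit 190) (nat_lit 1) (nat_lit 54) (nat_lit 42) (nat_lit 48))) (PT.nd (nat_lit 94) (PT.lf (nat_lit 15288) (nat_lit 6) (nat_lit 182) (nat_lit 1) (nat_lit 55) (nat_lit 42) (nat_lit 47)) (PT.lf (nat_lit 14532) (nat_lit 6) (nat_lit 173) (nat_lit 1) (nat_lit 56) (nat_lit 42) (nat_lit 46)))) (PT.nd (nat_lit 188) (PT.nd (nat_lit 94) (PT.lf (nat_lit 13692) (nat_lit 6) (nat_lit 163) (nat_lit 1) (nat_lit 57) (nat_lit 42) (nat_lit 45)) (PT.lf (nat_lit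 12768) (nat_lit 6) (nat_lit 152) (nat_lit 1) (nat_lit 58) (nat_lit 42) (nat_lit 44))) (PT.nd (nat_lit 94) (PT.lf (nat_lit 11760) (nat_lit 6) (nat_lit 140) (nat_lit 1) (nat_lit 59) (nat_lit 42) (nat_lit 43)) (PT.nd (nat_lit 94) (PT.lf (nat_lit 10668) (nat_lit 3) (nat_lit 127) (nat_lit 0) (nat_lit 60) (nat_lit 42) (nat_lit 42)) (PT.lf (nat_lit 9576) (nat_lit 6) (nat_lit 114) (nat_lit 0) (nat_lit 61) (nat_lit 42) (nat_lit 41))))))) (PT.nd (nat_lit 846) (PT.nd (nat_lit 376) (PT.nd (nat_lit 188) (PT.nd (nat_lit 94) (PT.lf (nat_lit 9660) (nat_lit 6) (nat_lit 115) (nat_lit 5) (nat_lit 40) (nat_lit 43) (nat_lit 61)) (PT.lf (nat_lit 10752) (nat_lit 6) (nat_lit 128) (nat_lit 5) (nat_lit 41) (nat_lit 43) (nat_lit 60))) (PT.nd (nat_lit 94) (PT.lf (nat_lit 11760) (nat_lit 6) (nat_lit 140) (nat_lit 5) (nat_lit 42) (nat_lit 43) (nat_lit 59)) (PT.lf (nat_lit 12684) (nat_lit 3) (nat_lit 151) (nat_lit 3)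 (nat_lit 43) (nat_lit 43) (nat_lit 58)))) (PT.nd (nat_lit 188) (PT.nd (nat_lit 94) (PT.lf (nat_lit 13608) (nat_lit 6) (nat_lit 162) (nat_lit 3) (nat_lit 44) (nat_lit 43) (nat_lit 57)) (PT.lf (nat_lit 14448) (nat_lit 6) (nat_lit 172) (nat_lit 3) (nat_lit 45) (nat_lit 43) (nat_lit 56))) (PT.nd (nat_lit 94) (PT.lf (nat_lit 15204) (nat_lit 6) (nat_lit 181) (nat_lit 3) (nat_lit 46) (nat_lit 43) (nat_lit 55)) (PT.nd (nat_lit 94) (PT.lf (nat_lit 15876) (nat_lit 6) (nat_lit 189) (nat_lit 3) (nat_lit 47) (nat_lit 43) (nat_lit 54)) (PT.lf (nat_lit 16464) (nat_lit 6) (nat_lit 196) (nat_lit 3) (nat_lit 48) (nat_lit 43) (nat_lit 53)))))) (PT.nd (nat_lit 376) (PT.nd (nat_lit 188) (PT.nd (nat_lit 94) (PT.lf (nat_lit 16548) (nat_lit 6) (nat_lit 197) (nat_lit 3) (nat_lit 49) (nat_lit 43) (nat_lit 52)) (PT.lf (nat_lit 16632) (nat_lit 6) (nat_lit 198) (nat_lit 3) (nat_lit 50) (nat_lit 43) (nat_lit 51))) (PT.nd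 (nat_lit 94) (PT.lf (nat_lit 16632) (nat_lit 6) (nat_lit 198) (nat_lit 1) (nat_lit 51) (nat_lit 43) (nat_lit 50)) (PT.lf (nat_lit 16548) (nat_lit 6) (nat_lit 197) (nat_lit 1) (nat_lit 52) (nat_lit 43) (nat_lit 49)))) (PT.nd (nat_lit 188) (PT.nd (nat_lit 94) (PT.lf (nat_lit 16464) (nat_lit 6) (nat_lit 196) (nat_lit 1) (nat_lit 53) (nat_lit 43) (nat_lit 48)) (PT.lf (nat_lit 15876) (nat_lit 6) (nat_lit 189) (nat_lit 1) (nat_lit 54) (nat_lit 43) (nat_lit 47))) (PT.nd (nat_lit 94) (PT.lf (nat_lit 15204) (nat_lit 6) (nat_lit 181) (nat_lit 1) (nat_lit 55) (nat_lit 43) (nat_lit 46)) (PT.nd (nat_lit 94) (PT.lf (nat_lit 14448) (nat_lit 6) (nat_lit 172) (nat_lit 1) (nat_lit 56) (nat_lit 43) (nat_lit 45)) (PT.lf (nat_lit 13608) (nat_lit 6) (nat_lit 162) (nat_lit 1) (nat_lit 57) (nat_lit 43) (nat_lit 44))))))))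
noncomputable def pc10 : PT := (PT.nd (nat_lit 53768) (PT.nd (nat_lit 52922) (PT.nd (nat_lit 52452) (PT.nd (nat_lit 188) (PT.nd (nat_lit 94) (PT.lf (nat_lit 12684) (nat_lit 3) (nat_lit 151) (nat_lit 0) (nat_lit 58) (nat_lit 43) (nat_lit 43)) (PT.lf (nat_lit 11760) (nat_lit 6) (nat_lit 140) (nat_lit 0) (nat_lit 59) (nat_lit 43) (nat_lit 42))) (PT.nd (nat_lit 94) (PT.lf (nat_lit 10752) (nat_lit 6) (nat_lit 128) (nat_lit 0) (nat_lit 60) (nat_lit 43) (nat_lit 41)) (PT.lf (nat_lit 9660) (nat_lit 6) (nat_lit 115) (nat_lit 0) (nat_lit 61) (nat_lit 43) (nat_lit 40)))) (PT.nd (nat_lit 188) (PT.nd (nat_lit 94) (PT.lf (nat_lit 9744) (nat_lit 6) (nat_lit 116) (nat_lit 5) (nat_lit 39) (nat_lit 44) (nat_lit 61)) (PT.lf (nat_lit 10836) (nat_lit 6) (nat_lit 129) (nat_lit 5) (nat_lit 40) (nat_lit 44) (nat_lit 60))) (PT.nd (nat_lit 94) (PT.lf (nat_lit 11844) (nat_lit 6) (nat_lit 141) (nat_lit 5) (nat_lit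 41) (nat_lit 44) (nat_lit 59)) (PT.nd (nat_lit 94) (PT.lf (nat_lit 12768) (nat_lit 6) (nat_lit 152) (nat_lit 5) (nat_lit 42) (nat_lit 44) (nat_lit 58)) (PT.lf (nat_lit 13608) (nat_lit 6) (nat_lit 162) (nat_lit 5) (nat_lit 43) (nat_lit 44) (nat_lit 57)))))) (PT.nd (nat_lit 376) (PT.nd (nat_lit 188) (PT.nd (nat_lit 94) (PT.lf (nat_lit 14364) (nat_lit 3) (nat_lit 171) (nat_lit 3) (nat_lit 44) (nat_lit 44) (nat_lit 56)) (PT.lf (nat_lit 15120) (nat_lit 6) (nat_lit 180) (nat_lit 3) (nat_lit 45) (nat_lit 44) (nat_lit 55))) (PT.nd (nat_lit 94) (PT.lf (nat_lit 15792) (nat_lit 6) (nat_lit 188) (nat_lit 3) (nat_lit 46) (nat_lit 44) (nat_lit 54)) (PT.lf (nat_lit 16380) (nat_lit 6) (nat_lit 195) (nat_lit 3) (nat_lit 47) (nat_lit 44) (nat_lit 53)))) (PT.nd (nat_lit 188) (PT.nd (nat_lit 94) (PT.lf (nat_lit 16884) (nat_lit 6) (nat_lit 201) (nat_lit 3) (nat_lit 48) (nat_lit 44) (nat_lit 52)) (PT.lf (nat_lit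 16968) (nat_lit 6) (nat_lit 202) (nat_lit 3) (nat_lit 49) (nat_lit 44) (nat_lit 51))) (PT.nd (nat_lit 94) (PT.lf (nat_lit 17052) (nat_lit 3) (nat_lit 203) (nat_lit 1) (nat_lit 50) (nat_lit 44) (nat_lit 50)) (PT.nd (nat_lit 94) (PT.lf (nat_lit 16968) (nat_lit 6) (nat_lit 202) (nat_lit 1) (nat_lit 51) (nat_lit 44) (nat_lit 49)) (PT.lf (nat_lit 16884) (nat_lit 6) (nat_lit 201) (nat_lit 1) (nat_lit 52) (nat_lit 44) (nat_lit 48))))))) (PT.nd (nat_lit 52828) (PT.nd (nat_lit 376) (PT.nd (nat_lit 188) (PT.nd (nat_lit 94) (PT.lf (nat_lit 16380) (nat_lit 6) (nat_lit 195) (nat_lit 1) (nat_lit 53) (nat_lit 44) (nat_lit 47)) (PT.lf (nat_lit 15792) (nat_lit 6) (nat_lit 188) (nat_lit 1) (nat_lit 54) (nat_lit 44) (nat_lit 46))) (PT.nd (nat_lit 94) (PT.lf (nat_lit 15120) (nat_lit 6) (nat_lit 180) (nat_lit 1) (nat_lit 55) (nat_lit 44) (nat_lit 45)) (PT.lf (nat_lit 14364) (nat_lit 3) (nat_lit 171) (nat_lit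 0) (nat_lit 56) (nat_lit 44) (nat_lit 44)))) (PT.nd (nat_lit 188) (PT.nd (nat_lit 94) (PT.lf (nat_lit 13608) (nat_lit 6) (nat_lit 162) (nat_lit 0) (nat_lit 57) (nat_lit 44) (nat_lit 43)) (PT.lf (nat_lit 12768) (nat_lit 6) (nat_lit 152) (nat_lit 0) (nat_lit 58) (nat_lit 44) (nat_lit 42))) (PT.nd (nat_lit 94) (PT.lf (nat_lit 11844) (nat_lit 6) (nat_lit 141) (nat_lit 0) (nat_lit 59) (nat_lit 44) (nat_lit 41)) (PT.nd (nat_lit 94) (PT.lf (nat_lit 10836) (nat_lit 6) (nat_lit 129) (nat_lit 0) (nat_lit 60) (nat_lit 44) (nat_lit 40)) (PT.lf (nat_lit 9744) (nat_lit 6) (nat_lit 116) (nat_lit 0) (nat_lit 61) (nat_lit 44) (nat_lit 39)))))) (PT.nd (nat_lit 376) (PT.nd (nat_lit 188) (PT.nd (nat_lit 94) (PT.lf (nat_lit 9828) (nat_lit 6) (nat_lit 117) (nat_lit 5) (nat_lit 38) (nat_lit 45) (nat_lit 61)) (PT.lf (nat_lit 10920) (nat_lit 6) (nat_lit 130) (nat_lit 5) (nat_lit 39) (nat_lit 45) (nat_lit 60))) (PT.nd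 (nat_lit 94) (PT.lf (nat_lit 11928) (nat_lit 6) (nat_lit 142) (nat_lit 5) (nat_lit 40) (nat_lit 45) (nat_lit 59)) (PT.lf (nat_lit 12852) (nat_lit 6) (nat_lit 153) (nat_lit 5) (nat_lit 41) (nat_lit 45) (nat_lit 58)))) (PT.nd (nat_lit 188) (PT.nd (nat_lit 94) (PT.lf (nat_lit 13692) (nat_lit 6) (nat_lit 163) (nat_lit 5) (nat_lit 42) (nat_lit 45) (nat_lit 57)) (PT.lf (nat_lit 14448) (nat_lit 6) (nat_lit 172) (nat_lit 5) (nat_lit 43) (nat_lit 45) (nat_lit 56))) (PT.nd (nat_lit 94) (PT.lf (nat_lit 15120) (nat_lit 6) (nat_lit 180) (nat_lit 5) (nat_lit 44) (nat_lit 45) (nat_lit 55)) (PT.nd (nat_lit 94) (PT.lf (nat_lit 15708) (nat_lit 3) (nat_lit 187) (nat_lit 3) (nat_lit 45) (nat_lit 45) (nat_lit 54)) (PT.lf (nat_lit 16296) (nat_lit 6) (nat_lit 194) (nat_lit 3) (nat_lit 46) (nat_lit 45) (nat_lit 53))))))))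
noncomputable def pc11 : PT := (PT.nd (nat_lit 53580) (PT.nd (nat_lit 846) (PT.nd (nat_lit 376) (PT.nd (nat_lit 188) (PT.nd (nat_lit 94) (PT.lf (nat_lit 16800) (nat_lit 6) (nat_lit 200) (nat_lit 3) (nat_lit 47) (nat_lit 45) (nat_lit 52)) (PT.lf (nat_lit 17220) (nat_lit 6) (nat_lit 205) (nat_lit 3) (nat_lit 48) (nat_lit 45) (nat_lit 51))) (PT.nd (nat_lit 94) (PT.lf (nat_lit 17304) (nat_lit 6) (nat_lit 206) (nat_lit 3) (nat_lit 49) (nat_lit 45) (nat_lit 50)) (PT.lf (nat_lit 17304) (nat_lit 6) (nat_lit 206) (nat_lit 1) (nat_lit 50) (nat_lit 45) (nat_lit 49)))) (PT.nd (nat_lit 188) (PT.nd (nat_lit 94) (PT.lf (nat_lit 17220) (nat_lit 6) (nat_lit 205) (nat_lit 1) (nat_lit 51) (nat_lit 45) (nat_lit 48)) (PT.lf (nat_lit 16800) (nat_lit 6) (nat_lit 200) (nat_lit 1) (nat_lit 52) (nat_lit 45) (nat_lit 47))) (PT.nd (nat_lit 94) (PT.lf (nat_lit 16296) (nat_lit 6) (nat_lit 194) (nat_lit 1) (nat_lit 53)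 (nat_lit 45) (nat_lit 46)) (PT.nd (nat_lit 94) (PT.lf (nat_lit 15708) (nat_lit 3) (nat_lit 187) (nat_lit 0) (nat_lit 54) (nat_lit 45) (nat_lit 45)) (PT.lf (nat_lit 15120) (nat_lit 6) (nat_lit 180) (nat_lit 0) (nat_lit 55) (nat_lit 45) (nat_lit 44)))))) (PT.nd (nat_lit 376) (PT.nd (nat_lit 188) (PT.nd (nat_lit 94) (PT.lf (nat_lit 14448) (nat_lit 6) (nat_lit 172) (nat_lit 0) (nat_lit 56) (nat_lit 45) (nat_lit 43)) (PT.lf (nat_lit 13692) (nat_lit 6) (nat_lit 163) (nat_lit 0) (nat_lit 57) (nat_lit 45) (nat_lit 42))) (PT.nd (nat_lit 94) (PT.lf (nat_lit 12852) (nat_lit 6) (nat_lit 153) (nat_lit 0) (nat_lit 58) (nat_lit 45) (nat_lit 41)) (PT.lf (nat_lit 11928) (nat_lit 6) (nat_lit 142) (nat_lit 0) (nat_lit 59) (nat_lit 45) (nat_lit 40)))) (PT.nd (nat_lit 52076) (PT.nd (nat_lit 94) (PT.lf (nat_lit 10920) (nat_lit 6) (nat_lit 130) (nat_lit 0) (nat_lit 60) (nat_lit 45) (nat_lit 39)) (PT.lf (nat_lit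 9828) (nat_lit 6) (nat_lit 117) (nat_lit 0) (nat_lit 61) (nat_lit 45) (nat_lit 38))) (PT.nd (nat_lit 94) (PT.lf (nat_lit 9912) (nat_lit 6) (nat_lit 118) (nat_lit 5) (nat_lit 37) (nat_lit 46) (nat_lit 61)) (PT.nd (nat_lit 94) (PT.lf (nat_lit 11004) (nat_lit 6) (nat_lit 131) (nat_lit 5) (nat_lit 38) (nat_lit 46) (nat_lit 60)) (PT.lf (nat_lit 12012) (nat_lit 6) (nat_lit 143) (nat_lit 5) (nat_lit 39) (nat_lit 46) (nat_lit 59))))))) (PT.nd (nat_lit 846) (PT.nd (nat_lit 376) (PT.nd (nat_lit 188) (PT.nd (nat_lit 94) (PT.lf (nat_lit 12936) (nat_lit 6) (nat_lit 154) (nat_lit 5) (nat_lit 40) (nat_lit 46) (nat_lit 58)) (PT.lf (nat_lit 13776) (nat_lit 6) (nat_lit 164) (nat_lit 5) (nat_lit 41) (nat_lit 46) (nat_lit 57))) (PT.nd (nat_lit 94) (PT.lf (nat_lit 14532) (nat_lit 6) (nat_lit 173) (nat_lit 5) (nat_lit 42) (nat_lit 46) (nat_lit 56)) (PT.lf (nat_lit 15204) (nat_lit 6) (nat_lit 181) (nat_lit 5)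 (nat_lit 43) (nat_lit 46) (nat_lit 55)))) (PT.nd (nat_lit 188) (PT.nd (nat_lit 94) (PT.lf (nat_lit 15792) (nat_lit 6) (nat_lit 188) (nat_lit 5) (nat_lit 44) (nat_lit 46) (nat_lit 54)) (PT.lf (nat_lit 16296) (nat_lit 6) (nat_lit 194) (nat_lit 5) (nat_lit 45) (nat_lit 46) (nat_lit 53))) (PT.nd (nat_lit 94) (PT.lf (nat_lit 16716) (nat_lit 3) (nat_lit 199) (nat_lit 3) (nat_lit 46) (nat_lit 46) (nat_lit 52)) (PT.nd (nat_lit 94) (PT.lf (nat_lit 17136) (nat_lit 6) (nat_lit 204) (nat_lit 3) (nat_lit 47) (nat_lit 46) (nat_lit 51)) (PT.lf (nat_lit 17472) (nat_lit 6) (nat_lit 208) (nat_lit 3) (nat_lit 48) (nat_lit 46) (nat_lit 50)))))) (PT.nd (nat_lit 376) (PT.nd (nat_lit 188) (PT.nd (nat_lit 94) (PT.lf (nat_lit 17556) (nat_lit 3) (nat_lit 209) (nat_lit 1) (nat_lit 49) (nat_lit 46) (nat_lit 49)) (PT.lf (nat_lit 17472) (nat_lit 6) (nat_lit 208) (nat_lit 1) (nat_lit 50) (nat_lit 46) (nat_lit 48))) (PT.nd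 (nat_lit 94) (PT.lf (nat_lit 17136) (nat_lit 6) (nat_lit 204) (nat_lit 1) (nat_lit 51) (nat_lit 46) (nat_lit 47)) (PT.lf (nat_lit 16716) (nat_lit 3) (nat_lit 199) (nat_lit 0) (nat_lit 52) (nat_lit 46) (nat_lit 46)))) (PT.nd (nat_lit 188) (PT.nd (nat_lit 94) (PT.lf (nat_lit 16296) (nat_lit 6) (nat_lit 194) (nat_lit 0) (nat_lit 53) (nat_lit 46) (nat_lit 45)) (PT.lf (nat_lit 15792) (nat_lit 6) (nat_lit 188) (nat_lit 0) (nat_lit 54) (nat_lit 46) (nat_lit 44))) (PT.nd (nat_lit 94) (PT.lf (nat_lit 15204) (nat_lit 6) (nat_lit 181) (nat_lit 0) (nat_lit 55) (nat_lit 46) (nat_lit 43)) (PT.nd (nat_lit 94) (PT.lf (nat_lit 14532) (nat_lit 6) (nat_lit 173) (nat_lit 0) (nat_lit 56) (nat_lit 46) (nat_lit 42)) (PT.lf (nat_lit 13776) (nat_lit 6) (nat_lit 164) (nat_lit 0) (nat_lit 57) (nat_lit 46) (nat_lit 41))))))))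
noncomputable def pc12 : PT := (PT.nd (nat_lit 53392) (PT.nd (nat_lit 52546) (PT.nd (nat_lit 52170) (PT.nd (nat_lit 188) (PT.nd (nat_lit 94) (PT.lf (nat_lit 12936) (nat_lit 6) (nat_lit 154) (nat_lit 0) (nat_lit 58) (nat_lit 46) (nat_lit 40)) (PT.lf (nat_lit 12012) (nat_lit 6) (nat_lit 143) (nat_lit 0) (nat_lit 59) (nat_lit 46) (nat_lit 39))) (PT.nd (nat_lit 94) (PT.lf (nat_lit 11004) (nat_lit 6) (nat_lit 131) (nat_lit 0) (nat_lit 60) (nat_lit 46) (nat_lit 38)) (PT.lf (nat_lit 9912) (nat_lit 6) (nat_lit 118) (nat_lit 0) (nat_lit 61) (nat_lit 46) (nat_lit 37)))) (PT.nd (nat_lit 188) (PT.nd (nat_lit 94) (PT.lf (nat_lit 9996) (nat_lit 6) (nat_lit 119) (nat_lit 5) (nat_lit 36) (nat_lit 47) (nat_lit 61)) (PT.lf (nat_lit 11088) (nat_lit 6) (nat_lit 132) (nat_lit 5) (nat_lit 37) (nat_lit 47) (nat_lit 60))) (PT.nd (nat_lit 94) (PT.lf (nat_lit 12096) (nat_lit 6) (nat_lit 144) (nat_lit 5) (nat_lit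 38) (nat_lit 47) (nat_lit 59)) (PT.lf (nat_lit 13020) (nat_lit 6) (nat_lit 155) (nat_lit 5) (nat_lit 39) (nat_lit 47) (nat_lit 58))))) (PT.nd (nat_lit 376) (PT.nd (nat_lit 188) (PT.nd (nat_lit 94) (PT.lf (nat_lit 13860) (nat_lit 6) (nat_lit 165) (nat_lit 5) (nat_lit 40) (nat_lit 47) (nat_lit 57)) (PT.lf (nat_lit 14616) (nat_lit 6) (nat_lit 174) (nat_lit 5) (nat_lit 41) (nat_lit 47) (nat_lit 56))) (PT.nd (nat_lit 94) (PT.lf (nat_lit 15288) (nat_lit 6) (nat_lit 182) (nat_lit 5) (nat_lit 42) (nat_lit 47) (nat_lit 55)) (PT.lf (nat_lit 15876) (nat_lit 6) (nat_lit 189) (nat_lit 5) (nat_lit 43) (nat_lit 47) (nat_lit 54)))) (PT.nd (nat_lit 188) (PT.nd (nat_lit 94) (PT.lf (nat_lit 16380) (nat_lit 6) (nat_lit 195) (nat_lit 5) (nat_lit 44) (nat_lit 47) (nat_lit 53)) (PT.lf (nat_lit 16800) (nat_lit 6) (nat_lit 200) (nat_lit 5) (nat_lit 45) (nat_lit 47) (nat_lit 52))) (PT.nd (nat_lit 94) (PT.lf (nat_lit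 17136) (nat_lit 6) (nat_lit 204) (nat_lit 5) (nat_lit 46) (nat_lit 47) (nat_lit 51)) (PT.nd (nat_lit 94) (PT.lf (nat_lit 17388) (nat_lit 3) (nat_lit 207) (nat_lit 3) (nat_lit 47) (nat_lit 47) (nat_lit 50)) (PT.lf (nat_lit 17640) (nat_lit 6) (nat_lit 210) (nat_lit 3) (nat_lit 48) (nat_lit 47) (nat_lit 49))))))) (PT.nd (nat_lit 846) (PT.nd (nat_lit 376) (PT.nd (nat_lit 188) (PT.nd (nat_lit 94) (PT.lf (nat_lit 17640) (nat_lit 6) (nat_lit 210) (nat_lit 1) (nat_lit 49) (nat_lit 47) (nat_lit 48)) (PT.lf (nat_lit 17388) (nat_lit 3) (nat_lit 207) (nat_lit 0) (nat_lit 50) (nat_lit 47) (nat_lit 47))) (PT.nd (nat_lit 94) (PT.lf (nat_lit 17136) (nat_lit 6) (nat_lit 204) (nat_lit 0) (nat_lit 51) (nat_lit 47) (nat_lit 46)) (PT.lf (nat_lit 16800) (nat_lit 6) (nat_lit 200) (nat_lit 0) (nat_lit 52) (nat_lit 47) (nat_lit 45)))) (PT.nd (nat_lit 188) (PT.nd (nat_lit 94) (PT.lf (nat_lit 16380) (nat_lit 6) (nat_lit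 195) (nat_lit 0) (nat_lit 53) (nat_lit 47) (nat_lit 44)) (PT.lf (nat_lit 15876) (nat_lit 6) (nat_lit 189) (nat_lit 0) (nat_lit 54) (nat_lit 47) (nat_lit 43))) (PT.nd (nat_lit 94) (PT.lf (nat_lit 15288) (nat_lit 6) (nat_lit 182) (nat_lit 0) (nat_lit 55) (nat_lit 47) (nat_lit 42)) (PT.nd (nat_lit 94) (PT.lf (nat_lit 14616) (nat_lit 6) (nat_lit 174) (nat_lit 0) (nat_lit 56) (nat_lit 47) (nat_lit 41)) (PT.lf (nat_lit 13860) (nat_lit 6) (nat_lit 165) (nat_lit 0) (nat_lit 57) (nat_lit 47) (nat_lit 40)))))) (PT.nd (nat_lit 52076) (PT.nd (nat_lit 188) (PT.nd (nat_lit 94) (PT.lf (nat_lit 13020) (nat_lit 6) (nat_lit 155) (nat_lit 0) (nat_lit 58) (nat_lit 47) (nat_lit 39)) (PT.lf (nat_lit 12096) (nat_lit 6) (nat_lit 144) (nat_lit 0) (nat_lit 59) (nat_lit 47) (nat_lit 38))) (PT.nd (nat_lit 94) (PT.lf (nat_lit 11088) (nat_lit 6) (nat_lit 132) (nat_lit 0) (nat_lit 60) (nat_lit 47) (nat_lit 37)) (PT.lf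 (nat_lit 9996) (nat_lit 6) (nat_lit 119) (nat_lit 0) (nat_lit 61) (nat_lit 47) (nat_lit 36)))) (PT.nd (nat_lit 188) (PT.nd (nat_lit 94) (PT.lf (nat_lit 10080) (nat_lit 6) (nat_lit 120) (nat_lit 5) (nat_lit 35) (nat_lit 48) (nat_lit 61)) (PT.lf (nat_lit 11172) (nat_lit 6) (nat_lit 133) (nat_lit 5) (nat_lit 36) (nat_lit 48) (nat_lit 60))) (PT.nd (nat_lit 94) (PT.lf (nat_lit 12180) (nat_lit 6) (nat_lit 145) (nat_lit 5) (nat_lit 37) (nat_lit 48) (nat_lit 59)) (PT.nd (nat_lit 94) (PT.lf (nat_lit 13104) (nat_lit 6) (nat_lit 156) (nat_lit 5) (nat_lit 38) (nat_lit 48) (nat_lit 58)) (PT.lf (nat_lit 13944) (nat_lit 6) (nat_lit 166) (nat_lit 5) (nat_lit 39) (nat_lit 48) (nat_lit 57))))))))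
noncomputable def pc13 : PT := (PT.nd (nat_lit 1692) (PT.nd (nat_lit 846) (PT.nd (nat_lit 376) (PT.nd (nat_lit 188) (PT.nd (nat_lit 94) (PT.lf (nat_lit 14700) (nat_lit 6) (nat_lit 175) (nat_lit 5) (nat_lit 40) (nat_lit 48) (nat_lit 56)) (PT.lf (nat_lit 15372) (nat_lit 6) (nat_lit 183) (nat_lit 5) (nat_lit 41) (nat_lit 48) (nat_lit 55))) (PT.nd (nat_lit 94) (PT.lf (nat_lit 15960) (nat_lit 6) (nat_lit 190) (nat_lit 5) (nat_lit 42) (nat_lit 48) (nat_lit 54)) (PT.lf (nat_lit 16464) (nat_lit 6) (nat_lit 196) (nat_lit 5) (nat_lit 43) (nat_lit 48) (nat_lit 53)))) (PT.nd (nat_lit 188) (PT.nd (nat_lit 94) (PT.lf (nat_lit 16884) (nat_lit 6) (nat_lit 201) (nat_lit 5) (nat_lit 44) (nat_lit 48) (nat_lit 52)) (PT.lf (nat_lit 17220) (nat_lit 6) (nat_lit 205) (nat_lit 5) (nat_lit 45) (nat_lit 48) (nat_lit 51))) (PT.nd (nat_lit 94) (PT.lf (nat_lit 17472) (nat_lit 6) (nat_lit 208) (nat_lit 5) (nat_lit 46)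 (nat_lit 48) (nat_lit 50)) (PT.nd (nat_lit 94) (PT.lf (nat_lit 17640) (nat_lit 6) (nat_lit 210) (nat_lit 5) (nat_lit 47) (nat_lit 48) (nat_lit 49)) (PT.lf (nat_lit 17724) (nat_lit 1) (nat_lit 211) (nat_lit 0) (nat_lit 48) (nat_lit 48) (nat_lit 48)))))) (PT.nd (nat_lit 376) (PT.nd (nat_lit 188) (PT.nd (nat_lit 94) (PT.lf (nat_lit 17640) (nat_lit 6) (nat_lit 210) (nat_lit 0) (nat_lit 49) (nat_lit 48) (nat_lit 47)) (PT.lf (nat_lit 17472) (nat_lit 6) (nat_lit 208) (nat_lit 0) (nat_lit 50) (nat_lit 48) (nat_lit 46))) (PT.nd (nat_lit 94) (PT.lf (nat_lit 17220) (nat_lit 6) (nat_lit 205) (nat_lit 0) (nat_lit 51) (nat_lit 48) (nat_lit 45)) (PT.lf (nat_lit 16884) (nat_lit 6) (nat_lit 201) (nat_lit 0) (nat_lit 52) (nat_lit 48) (nat_lit 44)))) (PT.nd (nat_lit 188) (PT.nd (nat_lit 94) (PT.lf (nat_lit 16464) (nat_lit 6) (nat_lit 196) (nat_lit 0) (nat_lit 53) (nat_lit 48) (nat_lit 43)) (PT.lf (nat_lit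 15960) (nat_lit 6) (nat_lit 190) (nat_lit 0) (nat_lit 54) (nat_lit 48) (nat_lit 42))) (PT.nd (nat_lit 94) (PT.lf (nat_lit 15372) (nat_lit 6) (nat_lit 183) (nat_lit 0) (nat_lit 55) (nat_lit 48) (nat_lit 41)) (PT.nd (nat_lit 94) (PT.lf (nat_lit 14700) (nat_lit 6) (nat_lit 175) (nat_lit 0) (nat_lit 56) (nat_lit 48) (nat_lit 40)) (PT.lf (nat_lit 13944) (nat_lit 6) (nat_lit 166) (nat_lit 0) (nat_lit 57) (nat_lit 48) (nat_lit 39))))))) (PT.nd (nat_lit 52358) (PT.nd (nat_lit 51888) (PT.nd (nat_lit 188) (PT.nd (nat_lit 94) (PT.lf (nat_lit 13104) (nat_lit 6) (nat_lit 156) (nat_lit 0) (nat_lit 58) (nat_lit 48) (nat_lit 38)) (PT.lf (nat_lit 12180) (nat_lit 6) (nat_lit 145) (nat_lit 0) (nat_lit 59) (nat_lit 48) (nat_lit 37))) (PT.nd (nat_lit 94) (PT.lf (nat_lit 11172) (nat_lit 6) (nat_lit 133) (nat_lit 0) (nat_lit 60) (nat_lit 48) (nat_lit 36)) (PT.lf (nat_lit 10080) (nat_lit 6) (nat_lit 120) (nat_lit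 0) (nat_lit 61) (nat_lit 48) (nat_lit 35)))) (PT.nd (nat_lit 188) (PT.nd (nat_lit 94) (PT.lf (nat_lit 8400) (nat_lit 6) (nat_lit 100) (nat_lit 5) (nat_lit 33) (nat_lit 49) (nat_lit 62)) (PT.lf (nat_lit 8988) (nat_lit 6) (nat_lit 107) (nat_lit 5) (nat_lit 34) (nat_lit 49) (nat_lit 61))) (PT.nd (nat_lit 94) (PT.lf (nat_lit 10164) (nat_lit 6) (nat_lit 121) (nat_lit 5) (nat_lit 35) (nat_lit 49) (nat_lit 60)) (PT.nd (nat_lit 94) (PT.lf (nat_lit 11256) (nat_lit 6) (nat_lit 134) (nat_lit 5) (nat_lit 36) (nat_lit 49) (nat_lit 59)) (PT.lf (nat_lit 12264) (nat_lit 6) (nat_lit 146) (nat_lit 5) (nat_lit 37) (nat_lit 49) (nat_lit 58)))))) (PT.nd (nat_lit 376) (PT.nd (nat_lit 188) (PT.nd (nat_lit 94) (PT.lf (nat_lit 13188) (nat_lit 6) (nat_lit 157) (nat_lit 5) (nat_lit 38) (nat_lit 49) (nat_lit 57)) (PT.lf (nat_lit 14028) (nat_lit 6) (nat_lit 167) (nat_lit 5) (nat_lit 39) (nat_lit 49) (nat_lit 56))) (PT.nd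 (nat_lit 94) (PT.lf (nat_lit 14784) (nat_lit 6) (nat_lit 176) (nat_lit 5) (nat_lit 40) (nat_lit 49) (nat_lit 55)) (PT.lf (nat_lit 15456) (nat_lit 6) (nat_lit 184) (nat_lit 5) (nat_lit 41) (nat_lit 49) (nat_lit 54)))) (PT.nd (nat_lit 188) (PT.nd (nat_lit 94) (PT.lf (nat_lit 16044) (nat_lit 6) (nat_lit 191) (nat_lit 5) (nat_lit 42) (nat_lit 49) (nat_lit 53)) (PT.lf (nat_lit 16548) (nat_lit 6) (nat_lit 197) (nat_lit 5) (nat_lit 43) (nat_lit 49) (nat_lit 52))) (PT.nd (nat_lit 94) (PT.lf (nat_lit 16968) (nat_lit 6) (nat_lit 202) (nat_lit 5) (nat_lit 44) (nat_lit 49) (nat_lit 51)) (PT.nd (nat_lit 94) (PT.lf (nat_lit 17304) (nat_lit 6) (nat_lit 206) (nat_lit 5) (nat_lit 45) (nat_lit 49) (nat_lit 50)) (PT.lf (nat_lit 17556) (nat_lit 3) (nat_lit 209) (nat_lit 4) (nat_lit 46) (nat_lit 49) (nat_lit 49))))))))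
noncomputable def pc14 : PT := (PT.nd (nat_lit 53016) (PT.nd (nat_lit 846) (PT.nd (nat_lit 376) (PT.nd (nat_lit 188) (PT.nd (nat_lit 94) (PT.lf (nat_lit 17640) (nat_lit 6) (nat_lit 210) (nat_lit 4) (nat_lit 47) (nat_lit 49) (nat_lit 48)) (PT.lf (nat_lit 17640) (nat_lit 6) (nat_lit 210) (nat_lit 2) (nat_lit 48) (nat_lit 49) (nat_lit 47))) (PT.nd (nat_lit 94) (PT.lf (nat_lit 17556) (nat_lit 3) (nat_lit 209) (nat_lit 0) (nat_lit 49) (nat_lit 49) (nat_lit 46)) (PT.lf (nat_lit 17304) (nat_lit 6) (nat_lit 206) (nat_lit 0) (nat_lit 50) (nat_lit 49) (nat_lit 45)))) (PT.nd (nat_lit 188) (PT.nd (nat_lit 94) (PT.lf (nat_lit 16968) (nat_lit 6) (nat_lit 202) (nat_lit 0) (nat_lit 51) (nat_lit 49) (nat_lit 44)) (PT.lf (nat_lit 16548) (nat_lit 6) (nat_lit 197) (nat_lit 0) (nat_lit 52) (nat_lit 49) (nat_lit 43))) (PT.nd (nat_lit 94) (PT.lf (nat_lit 16044) (nat_lit 6) (nat_lit 191) (nat_lit 0) (nat_lit 53)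 (nat_lit 49) (nat_lit 42)) (PT.nd (nat_lit 94) (PT.lf (nat_lit 15456) (nat_lit 6) (nat_lit 184) (nat_lit 0) (nat_lit 54) (nat_lit 49) (nat_lit 41)) (PT.lf (nat_lit 14784) (nat_lit 6) (nat_lit 176) (nat_lit 0) (nat_lit 55) (nat_lit 49) (nat_lit 40)))))) (PT.nd (nat_lit 376) (PT.nd (nat_lit 188) (PT.nd (nat_lit 94) (PT.lf (nat_lit 14028) (nat_lit 6) (nat_lit 167) (nat_lit 0) (nat_lit 56) (nat_lit 49) (nat_lit 39)) (PT.lf (nat_lit 13188) (nat_lit 6) (nat_lit 157) (nat_lit 0) (nat_lit 57) (nat_lit 49) (nat_lit 38))) (PT.nd (nat_lit 94) (PT.lf (nat_lit 12264) (nat_lit 6) (nat_lit 146) (nat_lit 0) (nat_lit 58) (nat_lit 49) (nat_lit 37)) (PT.lf (nat_lit 11256) (nat_lit 6) (nat_lit 134) (nat_lit 0) (nat_lit 59) (nat_lit 49) (nat_lit 36)))) (PT.nd (nat_lit 188) (PT.nd (nat_lit 94) (PT.lf (nat_lit 10164) (nat_lit 6) (nat_lit 121) (nat_lit 0) (nat_lit 60) (nat_lit 49) (nat_lit 35)) (PT.lf (nat_lit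 8988) (nat_lit 6) (nat_lit 107) (nat_lit 0) (nat_lit 61) (nat_lit 49) (nat_lit 34))) (PT.nd (nat_lit 51418) (PT.lf (nat_lit 8400) (nat_lit 6) (nat_lit 100) (nat_lit 0) (nat_lit 62) (nat_lit 49) (nat_lit 33)) (PT.nd (nat_lit 94) (PT.lf (nat_lit 7812) (nat_lit 6) (nat_lit 93) (nat_lit 5) (nat_lit 32) (nat_lit 50) (nat_lit 62)) (PT.lf (nat_lit 8484) (nat_lit 6) (nat_lit 101) (nat_lit 5) (nat_lit 33) (nat_lit 50) (nat_lit 61))))))) (PT.nd (nat_lit 846) (PT.nd (nat_lit 376) (PT.nd (nat_lit 188) (PT.nd (nat_lit 94) (PT.lf (nat_lit 9072) (nat_lit 6) (nat_lit 108) (nat_lit 5) (nat_lit 34) (nat_lit 50) (nat_lit 60)) (PT.lf (nat_lit 10248) (nat_lit 6) (nat_lit 122) (nat_lit 5) (nat_lit 35) (nat_lit 50) (nat_lit 59))) (PT.nd (nat_lit 94) (PT.lf (nat_lit 11340) (nat_lit 6) (nat_lit 135) (nat_lit 5) (nat_lit 36) (nat_lit 50) (nat_lit 58)) (PT.lf (nat_lit 12348) (nat_lit 6) (nat_lit 147) (nat_lit 5) (nat_lit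 37) (nat_lit 50) (nat_lit 57)))) (PT.nd (nat_lit 188) (PT.nd (nat_lit 94) (PT.lf (nat_lit 13272) (nat_lit 6) (nat_lit 158) (nat_lit 5) (nat_lit 38) (nat_lit 50) (nat_lit 56)) (PT.lf (nat_lit 14112) (nat_lit 6) (nat_lit 168) (nat_lit 5) (nat_lit 39) (nat_lit 50) (nat_lit 55))) (PT.nd (nat_lit 94) (PT.lf (nat_lit 14868) (nat_lit 6) (nat_lit 177) (nat_lit 5) (nat_lit 40) (nat_lit 50) (nat_lit 54)) (PT.nd (nat_lit 94) (PT.lf (nat_lit 15540) (nat_lit 6) (nat_lit 185) (nat_lit 5) (nat_lit 41) (nat_lit 50) (nat_lit 53)) (PT.lf (nat_lit 16128) (nat_lit 6) (nat_lit 192) (nat_lit 5) (nat_lit 42) (nat_lit 50) (nat_lit 52)))))) (PT.nd (nat_lit 376) (PT.nd (nat_lit 188) (PT.nd (nat_lit 94) (PT.lf (nat_lit 16632) (nat_lit 6) (nat_lit 198) (nat_lit 5) (nat_lit 43) (nat_lit 50) (nat_lit 51)) (PT.lf (nat_lit 17052) (nat_lit 3) (nat_lit 203) (nat_lit 4) (nat_lit 44) (nat_lit 50) (nat_lit 50))) (PT.nd (nat_lit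 94) (PT.lf (nat_lit 17304) (nat_lit 6) (nat_lit 206) (nat_lit 4) (nat_lit 45) (nat_lit 50) (nat_lit 49)) (PT.lf (nat_lit 17472) (nat_lit 6) (nat_lit 208) (nat_lit 4) (nat_lit 46) (nat_lit 50) (nat_lit 48)))) (PT.nd (nat_lit 188) (PT.nd (nat_lit 94) (PT.lf (nat_lit 17388) (nat_lit 3) (nat_lit 207) (nat_lit 2) (nat_lit 47) (nat_lit 50) (nat_lit 47)) (PT.lf (nat_lit 17472) (nat_lit 6) (nat_lit 208) (nat_lit 2) (nat_lit 48) (nat_lit 50) (nat_lit 46))) (PT.nd (nat_lit 94) (PT.lf (nat_lit 17304) (nat_lit 6) (nat_lit 206) (nat_lit 2) (nat_lit 49) (nat_lit 50) (nat_lit 45)) (PT.nd (nat_lit 94) (PT.lf (nat_lit 17052) (nat_lit 3) (nat_lit 203) (nat_lit 0) (nat_lit 50) (nat_lit 50) (nat_lit 44)) (PT.lf (nat_lit 16632) (nat_lit 6) (nat_lit 198) (nat_lit 0) (nat_lit 51) (nat_lit 50) (nat_lit 43))))))))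
noncomputable def pc15 : PT := (PT.nd (nat_lit 52922) (PT.nd (nat_lit 846) (PT.nd (nat_lit 376) (PT.nd (nat_lit 188) (PT.nd (nat_lit 94) (PT.lf (nat_lit 16128) (nat_lit 6) (nat_lit 192) (nat_lit 0) (nat_lit 52) (nat_lit 50) (nat_lit 42)) (PT.lf (nat_lit 15540) (nat_lit 6) (nat_lit 185) (nat_lit 0) (nat_lit 53) (nat_lit 50) (nat_lit 41))) (PT.nd (nat_lit 94) (PT.lf (nat_lit 14868) (nat_lit 6) (nat_lit 177) (nat_lit 0) (nat_lit 54) (nat_lit 50) (nat_lit 40)) (PT.lf (nat_lit 14112) (nat_lit 6) (nat_lit 168) (nat_lit 0) (nat_lit 55) (nat_lit 50) (nat_lit 39)))) (PT.nd (nat_lit 188) (PT.nd (nat_lit 94) (PT.lf (nat_lit 13272) (nat_lit 6) (nat_lit 158) (nat_lit 0) (nat_lit 56) (nat_lit 50) (nat_lit 38)) (PT.lf (nat_lit 12348) (nat_lit 6) (nat_lit 147) (nat_lit 0) (nat_lit 57) (nat_lit 50) (nat_lit 37))) (PT.nd (nat_lit 94) (PT.lf (nat_lit 11340) (nat_lit 6) (nat_lit 135) (nat_lit 0) (nat_lit 58)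 (nat_lit 50) (nat_lit 36)) (PT.nd (nat_lit 94) (PT.lf (nat_lit 10248) (nat_lit 6) (nat_lit 122) (nat_lit 0) (nat_lit 59) (nat_lit 50) (nat_lit 35)) (PT.lf (nat_lit 9072) (nat_lit 6) (nat_lit 108) (nat_lit 0) (nat_lit 60) (nat_lit 50) (nat_lit 34)))))) (PT.nd (nat_lit 51606) (PT.nd (nat_lit 51418) (PT.nd (nat_lit 94) (PT.lf (nat_lit 8484) (nat_lit 6) (nat_lit 101) (nat_lit 0) (nat_lit 61) (nat_lit 50) (nat_lit 33)) (PT.lf (nat_lit 7812) (nat_lit 6) (nat_lit 93) (nat_lit 0) (nat_lit 62) (nat_lit 50) (nat_lit 32))) (PT.nd (nat_lit 94) (PT.lf (nat_lit 7308) (nat_lit 6) (nat_lit 87) (nat_lit 5) (nat_lit 31) (nat_lit 51) (nat_lit 62)) (PT.lf (nat_lit 7896) (nat_lit 6) (nat_lit 94) (nat_lit 5) (nat_lit 32) (nat_lit 51) (nat_lit 61)))) (PT.nd (nat_lit 188) (PT.nd (nat_lit 94) (PT.lf (nat_lit 8568) (nat_lit 6) (nat_lit 102) (nat_lit 5) (nat_lit 33) (nat_lit 51) (nat_lit 60)) (PT.lf (nat_lit 9156)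 (nat_lit 6) (nat_lit 109) (nat_lit 5) (nat_lit 34) (nat_lit 51) (nat_lit 59))) (PT.nd (nat_lit 94) (PT.lf (nat_lit 10332) (nat_lit 6) (nat_lit 123) (nat_lit 5) (nat_lit 35) (nat_lit 51) (nat_lit 58)) (PT.nd (nat_lit 94) (PT.lf (nat_lit 11424) (nat_lit 6) (nat_lit 136) (nat_lit 5) (nat_lit 36) (nat_lit 51) (nat_lit 57)) (PT.lf (nat_lit 12432) (nat_lit 6) (nat_lit 148) (nat_lit 5) (nat_lit 37) (nat_lit 51) (nat_lit 56))))))) (PT.nd (nat_lit 846) (PT.nd (nat_lit 376) (PT.nd (nat_lit 188) (PT.nd (nat_lit 94) (PT.lf (nat_lit 13356) (nat_lit 6) (nat_lit 159) (nat_lit 5) (nat_lit 38) (nat_lit 51) (nat_lit 55)) (PT.lf (nat_lit 14196) (nat_lit 6) (nat_lit 169) (nat_lit 5) (nat_lit 39) (nat_lit 51) (nat_lit 54))) (PT.nd (nat_lit 94) (PT.lf (nat_lit 14952) (nat_lit 6) (nat_lit 178) (nat_lit 5) (nat_lit 40) (nat_lit 51) (nat_lit 53)) (PT.lf (nat_lit 15624) (nat_lit 6) (nat_lit 186) (nat_lit 5) (nat_lit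 41) (nat_lit 51) (nat_lit 52)))) (PT.nd (nat_lit 188) (PT.nd (nat_lit 94) (PT.lf (nat_lit 16212) (nat_lit 3) (nat_lit 193) (nat_lit 4) (nat_lit 42) (nat_lit 51) (nat_lit 51)) (PT.lf (nat_lit 16632) (nat_lit 6) (nat_lit 198) (nat_lit 4) (nat_lit 43) (nat_lit 51) (nat_lit 50))) (PT.nd (nat_lit 94) (PT.lf (nat_lit 16968) (nat_lit 6) (nat_lit 202) (nat_lit 4) (nat_lit 44) (nat_lit 51) (nat_lit 49)) (PT.nd (nat_lit 94) (PT.lf (nat_lit 17220) (nat_lit 6) (nat_lit 205) (nat_lit 4) (nat_lit 45) (nat_lit 51) (nat_lit 48)) (PT.lf (nat_lit 17136) (nat_lit 6) (nat_lit 204) (nat_lit 4) (nat_lit 46) (nat_lit 51) (nat_lit 47)))))) (PT.nd (nat_lit 376) (PT.nd (nat_lit 188) (PT.nd (nat_lit 94) (PT.lf (nat_lit 17136) (nat_lit 6) (nat_lit 204) (nat_lit 2) (nat_lit 47) (nat_lit 51) (nat_lit 46)) (PT.lf (nat_lit 17220) (nat_lit 6) (nat_lit 205) (nat_lit 2) (nat_lit 48) (nat_lit 51) (nat_lit 45))) (PT.nd (nat_lit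 94) (PT.lf (nat_lit 16968) (nat_lit 6) (nat_lit 202) (nat_lit 2) (nat_lit 49) (nat_lit 51) (nat_lit 44)) (PT.lf (nat_lit 16632) (nat_lit 6) (nat_lit 198) (nat_lit 2) (nat_lit 50) (nat_lit 51) (nat_lit 43)))) (PT.nd (nat_lit 188) (PT.nd (nat_lit 94) (PT.lf (nat_lit 16212) (nat_lit 3) (nat_lit 193) (nat_lit 0) (nat_lit 51) (nat_lit 51) (nat_lit 42)) (PT.lf (nat_lit 15624) (nat_lit 6) (nat_lit 186) (nat_lit 0) (nat_lit 52) (nat_lit 51) (nat_lit 41))) (PT.nd (nat_lit 94) (PT.lf (nat_lit 14952) (nat_lit 6) (nat_lit 178) (nat_lit 0) (nat_lit 53) (nat_lit 51) (nat_lit 40)) (PT.nd (nat_lit 94) (PT.lf (nat_lit 14196) (nat_lit 6) (nat_lit 169) (nat_lit 0) (nat_lit 54) (nat_lit 51) (nat_lit 39)) (PT.lf (nat_lit 13356) (nat_lit 6) (nat_lit 159) (nat_lit 0) (nat_lit 55) (nat_lit 51) (nat_lit 38))))))))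
noncomputable def pc16 : PT := (PT.nd (nat_lit 52734) (PT.nd (nat_lit 51888) (PT.nd (nat_lit 376) (PT.nd (nat_lit 188) (PT.nd (nat_lit 94) (PT.lf (nat_lit 12432) (nat_lit 6) (nat_lit 148) (nat_lit 0) (nat_lit 56) (nat_lit 51) (nat_lit 37)) (PT.lf (nat_lit 11424) (nat_lit 6) (nat_lit 136) (nat_lit 0) (nat_lit 57) (nat_lit 51) (nat_lit 36))) (PT.nd (nat_lit 94) (PT.lf (nat_lit 10332) (nat_lit 6) (nat_lit 123) (nat_lit 0) (nat_lit 58) (nat_lit 51) (nat_lit 35)) (PT.lf (nat_lit 9156) (nat_lit 6) (nat_lit 109) (nat_lit 0) (nat_lit 59) (nat_lit 51) (nat_lit 34)))) (PT.nd (nat_lit 188) (PT.nd (nat_lit 94) (PT.lf (nat_lit 8568) (nat_lit 6) (nat_lit 102) (nat_lit 0) (nat_lit 60) (nat_lit 51) (nat_lit 33)) (PT.lf (nat_lit 7896) (nat_lit 6) (nat_lit 94) (nat_lit 0) (nat_lit 61) (nat_lit 51) (nat_lit 32))) (PT.nd (nat_lit 51230) (PT.lf (nat_lit 7308) (nat_lit 6) (nat_lit 87) (nat_lit 0) (nat_lit 62)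 (nat_lit 51) (nat_lit 31)) (PT.lf (nat_lit 6804) (nat_lit 6) (nat_lit 81) (nat_lit 5) (nat_lit 30) (nat_lit 52) (nat_lit 62))))) (PT.nd (nat_lit 376) (PT.nd (nat_lit 188) (PT.nd (nat_lit 94) (PT.lf (nat_lit 7392) (nat_lit 6) (nat_lit 88) (nat_lit 5) (nat_lit 31) (nat_lit 52) (nat_lit 61)) (PT.lf (nat_lit 7980) (nat_lit 6) (nat_lit 95) (nat_lit 5) (nat_lit 32) (nat_lit 52) (nat_lit 60))) (PT.nd (nat_lit 94) (PT.lf (nat_lit 8652) (nat_lit 6) (nat_lit 103) (nat_lit 5) (nat_lit 33) (nat_lit 52) (nat_lit 59)) (PT.lf (nat_lit 9240) (nat_lit 6) (nat_lit 110) (nat_lit 5) (nat_lit 34) (nat_lit 52) (nat_lit 58)))) (PT.nd (nat_lit 188) (PT.nd (nat_lit 94) (PT.lf (nat_lit 10416) (nat_lit 6) (nat_lit 124) (nat_lit 5) (nat_lit 35) (nat_lit 52) (nat_lit 57)) (PT.lf (nat_lit 11508) (nat_lit 6) (nat_lit 137) (nat_lit 5) (nat_lit 36) (nat_lit 52) (nat_lit 56))) (PT.nd (nat_lit 94) (PT.lf (nat_lit 12516) (nat_lit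 6) (nat_lit 149) (nat_lit 5) (nat_lit 37) (nat_lit 52) (nat_lit 55)) (PT.nd (nat_lit 94) (PT.lf (nat_lit 13440) (nat_lit 6) (nat_lit 160) (nat_lit 5) (nat_lit 38) (nat_lit 52) (nat_lit 54)) (PT.lf (nat_lit 14280) (nat_lit 6) (nat_lit 170) (nat_lit 5) (nat_lit 39) (nat_lit 52) (nat_lit 53))))))) (PT.nd (nat_lit 846) (PT.nd (nat_lit 376) (PT.nd (nat_lit 188) (PT.nd (nat_lit 94) (PT.lf (nat_lit 15036) (nat_lit 3) (nat_lit 179) (nat_lit 4) (nat_lit 40) (nat_lit 52) (nat_lit 52)) (PT.lf (nat_lit 15624) (nat_lit 6) (nat_lit 186) (nat_lit 4) (nat_lit 41) (nat_lit 52) (nat_lit 51))) (PT.nd (nat_lit 94) (PT.lf (nat_lit 16128) (nat_lit 6) (nat_lit 192) (nat_lit 4) (nat_lit 42) (nat_lit 52) (nat_lit 50)) (PT.lf (nat_lit 16548) (nat_lit 6) (nat_lit 197) (nat_lit 4) (nat_lit 43) (nat_lit 52) (nat_lit 49)))) (PT.nd (nat_lit 188) (PT.nd (nat_lit 94) (PT.lf (nat_lit 16884) (nat_lit 6) (nat_lit 201) (nat_lit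 4) (nat_lit 44) (nat_lit 52) (nat_lit 48)) (PT.lf (nat_lit 16800) (nat_lit 6) (nat_lit 200) (nat_lit 4) (nat_lit 45) (nat_lit 52) (nat_lit 47))) (PT.nd (nat_lit 94) (PT.lf (nat_lit 16716) (nat_lit 3) (nat_lit 199) (nat_lit 2) (nat_lit 46) (nat_lit 52) (nat_lit 46)) (PT.nd (nat_lit 94) (PT.lf (nat_lit 16800) (nat_lit 6) (nat_lit 200) (nat_lit 2) (nat_lit 47) (nat_lit 52) (nat_lit 45)) (PT.lf (nat_lit 16884) (nat_lit 6) (nat_lit 201) (nat_lit 2) (nat_lit 48) (nat_lit 52) (nat_lit 44)))))) (PT.nd (nat_lit 376) (PT.nd (nat_lit 188) (PT.nd (nat_lit 94) (PT.lf (nat_lit 16548) (nat_lit 6) (nat_lit 197) (nat_lit 2) (nat_lit 49) (nat_lit 52) (nat_lit 43)) (PT.lf (nat_lit 16128) (nat_lit 6) (nat_lit 192) (nat_lit 2) (nat_lit 50) (nat_lit 52) (nat_lit 42))) (PT.nd (nat_lit 94) (PT.lf (nat_lit 15624) (nat_lit 6) (nat_lit 186) (nat_lit 2) (nat_lit 51) (nat_lit 52) (nat_lit 41)) (PT.lf (nat_lit 15036)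 (nat_lit 3) (nat_lit 179) (nat_lit 0) (nat_lit 52) (nat_lit 52) (nat_lit 40)))) (PT.nd (nat_lit 188) (PT.nd (nat_lit 94) (PT.lf (nat_lit 14280) (nat_lit 6) (nat_lit 170) (nat_lit 0) (nat_lit 53) (nat_lit 52) (nat_lit 39)) (PT.lf (nat_lit 13440) (nat_lit 6) (nat_lit 160) (nat_lit 0) (nat_lit 54) (nat_lit 52) (nat_lit 38))) (PT.nd (nat_lit 94) (PT.lf (nat_lit 12516) (nat_lit 6) (nat_lit 149) (nat_lit 0) (nat_lit 55) (nat_lit 52) (nat_lit 37)) (PT.nd (nat_lit 94) (PT.lf (nat_lit 11508) (nat_lit 6) (nat_lit 137) (nat_lit 0) (nat_lit 56) (nat_lit 52) (nat_lit 36)) (PT.lf (nat_lit 10416) (nat_lit 6) (nat_lit 124) (nat_lit 0) (nat_lit 57) (nat_lit 52) (nat_lit 35))))))))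
noncomputable def pc17 : PT := (PT.nd (nat_lit 52640) (PT.nd (nat_lit 51794) (PT.nd (nat_lit 376) (PT.nd (nat_lit 188) (PT.nd (nat_lit 94) (PT.lf (nat_lit 9240) (nat_lit 6) (nat_lit 110) (nat_lit 0) (nat_lit 58) (nat_lit 52) (nat_lit 34)) (PT.lf (nat_lit 8652) (nat_lit 6) (nat_lit 103) (nat_lit 0) (nat_lit 59) (nat_lit 52) (nat_lit 33))) (PT.nd (nat_lit 94) (PT.lf (nat_lit 7980) (nat_lit 6) (nat_lit 95) (nat_lit 0) (nat_lit 60) (nat_lit 52) (nat_lit 32)) (PT.lf (nat_lit 7392) (nat_lit 6) (nat_lit 88) (nat_lit 0) (nat_lit 61) (nat_lit 52) (nat_lit 31)))) (PT.nd (nat_lit 51136) (PT.nd (nat_lit 51042) (PT.lf (nat_lit 6804) (nat_lit 6) (nat_lit 81) (nat_lit 0) (nat_lit 62) (nat_lit 52) (nat_lit 30)) (PT.lf (nat_lit 5880) (nat_lit 6) (nat_lit 70) (nat_lit 5) (nat_lit 28) (nat_lit 53) (nat_lit 63))) (PT.nd (nat_lit 94) (PT.lf (nat_lit 6384) (nat_lit 6) (nat_lit 76) (nat_lit 5) (nat_lit 29) (nat_lit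 53) (nat_lit 62)) (PT.nd (nat_lit 94) (PT.lf (nat_lit 6888) (nat_lit 6) (nat_lit 82) (nat_lit 5) (nat_lit 30) (nat_lit 53) (nat_lit 61)) (PT.lf (nat_lit 7476) (nat_lit 6) (nat_lit 89) (nat_lit 5) (nat_lit 31) (nat_lit 53) (nat_lit 60)))))) (PT.nd (nat_lit 376) (PT.nd (nat_lit 188) (PT.nd (nat_lit 94) (PT.lf (nat_lit 8064) (nat_lit 6) (nat_lit 96) (nat_lit 5) (nat_lit 32) (nat_lit 53) (nat_lit 59)) (PT.lf (nat_lit 8736) (nat_lit 6) (nat_lit 104) (nat_lit 5) (nat_lit 33) (nat_lit 53) (nat_lit 58))) (PT.nd (nat_lit 94) (PT.lf (nat_lit 9324) (nat_lit 6) (nat_lit 111) (nat_lit 5) (nat_lit 34) (nat_lit 53) (nat_lit 57)) (PT.lf (nat_lit 10500) (nat_lit 6) (nat_lit 125) (nat_lit 5) (nat_lit 35) (nat_lit 53) (nat_lit 56)))) (PT.nd (nat_lit 188) (PT.nd (nat_lit 94) (PT.lf (nat_lit 11592) (nat_lit 6) (nat_lit 138) (nat_lit 5) (nat_lit 36) (nat_lit 53) (nat_lit 55)) (PT.lf (nat_lit 12600) (nat_lit 6)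 (nat_lit 150) (nat_lit 5) (nat_lit 37) (nat_lit 53) (nat_lit 54))) (PT.nd (nat_lit 94) (PT.lf (nat_lit 13524) (nat_lit 3) (nat_lit 161) (nat_lit 4) (nat_lit 38) (nat_lit 53) (nat_lit 53)) (PT.nd (nat_lit 94) (PT.lf (nat_lit 14280) (nat_lit 6) (nat_lit 170) (nat_lit 4) (nat_lit 39) (nat_lit 53) (nat_lit 52)) (PT.lf (nat_lit 14952) (nat_lit 6) (nat_lit 178) (nat_lit 4) (nat_lit 40) (nat_lit 53) (nat_lit 51))))))) (PT.nd (nat_lit 846) (PT.nd (nat_lit 376) (PT.nd (nat_lit 188) (PT.nd (nat_lit 94) (PT.lf (nat_lit 15540) (nat_lit 6) (nat_lit 185) (nat_lit 4) (nat_lit 41) (nat_lit 53) (nat_lit 50)) (PT.lf (nat_lit 16044) (nat_lit 6) (nat_lit 191) (nat_lit 4) (nat_lit 42) (nat_lit 53) (nat_lit 49))) (PT.nd (nat_lit 94) (PT.lf (nat_lit 16464) (nat_lit 6) (nat_lit 196) (nat_lit 4) (nat_lit 43) (nat_lit 53) (nat_lit 48)) (PT.lf (nat_lit 16380) (nat_lit 6) (nat_lit 195) (nat_lit 4) (nat_lit 44) (nat_lit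 53) (nat_lit 47)))) (PT.nd (nat_lit 188) (PT.nd (nat_lit 94) (PT.lf (nat_lit 16296) (nat_lit 6) (nat_lit 194) (nat_lit 4) (nat_lit 45) (nat_lit 53) (nat_lit 46)) (PT.lf (nat_lit 16296) (nat_lit 6) (nat_lit 194) (nat_lit 2) (nat_lit 46) (nat_lit 53) (nat_lit 45))) (PT.nd (nat_lit 94) (PT.lf (nat_lit 16380) (nat_lit 6) (nat_lit 195) (nat_lit 2) (nat_lit 47) (nat_lit 53) (nat_lit 44)) (PT.nd (nat_lit 94) (PT.lf (nat_lit 16464) (nat_lit 6) (nat_lit 196) (nat_lit 2) (nat_lit 48) (nat_lit 53) (nat_lit 43)) (PT.lf (nat_lit 16044) (nat_lit 6) (nat_lit 191) (nat_lit 2) (nat_lit 49) (nat_lit 53) (nat_lit 42)))))) (PT.nd (nat_lit 376) (PT.nd (nat_lit 188) (PT.nd (nat_lit 94) (PT.lf (nat_lit 15540) (nat_lit 6) (nat_lit 185) (nat_lit 2) (nat_lit 50) (nat_lit 53) (nat_lit 41)) (PT.lf (nat_lit 14952) (nat_lit 6) (nat_lit 178) (nat_lit 2) (nat_lit 51) (nat_lit 53) (nat_lit 40))) (PT.nd (nat_lit 94) (PT.lf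 (nat_lit 14280) (nat_lit 6) (nat_lit 170) (nat_lit 2) (nat_lit 52) (nat_lit 53) (nat_lit 39)) (PT.lf (nat_lit 13524) (nat_lit 3) (nat_lit 161) (nat_lit 0) (nat_lit 53) (nat_lit 53) (nat_lit 38)))) (PT.nd (nat_lit 188) (PT.nd (nat_lit 94) (PT.lf (nat_lit 12600) (nat_lit 6) (nat_lit 150) (nat_lit 0) (nat_lit 54) (nat_lit 53) (nat_lit 37)) (PT.lf (nat_lit 11592) (nat_lit 6) (nat_lit 138) (nat_lit 0) (nat_lit 55) (nat_lit 53) (nat_lit 36))) (PT.nd (nat_lit 94) (PT.lf (nat_lit 10500) (nat_lit 6) (nat_lit 125) (nat_lit 0) (nat_lit 56) (nat_lit 53) (nat_lit 35)) (PT.nd (nat_lit 94) (PT.lf (nat_lit 9324) (nat_lit 6) (nat_lit 111) (nat_lit 0) (nat_lit 57) (nat_lit 53) (nat_lit 34)) (PT.lf (nat_lit 8736) (nat_lit 6) (nat_lit 104) (nat_lit 0) (nat_lit 58) (nat_lit 53) (nat_lit 33))))))))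
noncomputable def pc18 : PT := (PT.nd (nat_lit 52452) (PT.nd (nat_lit 51606) (PT.nd (nat_lit 376) (PT.nd (nat_lit 188) (PT.nd (nat_lit 94) (PT.lf (nat_lit 8064) (nat_lit 6) (nat_lit 96) (nat_lit 0) (nat_lit 59) (nat_lit 53) (nat_lit 32)) (PT.lf (nat_lit 7476) (nat_lit 6) (nat_lit 89) (nat_lit 0) (nat_lit 60) (nat_lit 53) (nat_lit 31))) (PT.nd (nat_lit 94) (PT.lf (nat_lit 6888) (nat_lit 6) (nat_lit 82) (nat_lit 0) (nat_lit 61) (nat_lit 53) (nat_lit 30)) (PT.lf (nat_lit 6384) (nat_lit 6) (nat_lit 76) (nat_lit 0) (nat_lit 62) (nat_lit 53) (nat_lit 29)))) (PT.nd (nat_lit 50948) (PT.nd (nat_lit 50854) (PT.lf (nat_lit 5880) (nat_lit 6) (nat_lit 70) (nat_lit 0) (nat_lit 63) (nat_lit 53) (nat_lit 28)) (PT.lf (nat_lit 5460) (nat_lit 6) (nat_lit 65) (nat_lit 5) (nat_lit 27) (nat_lit 54) (nat_lit 63))) (PT.nd (nat_lit 94) (PT.lf (nat_lit 5964) (nat_lit 6) (nat_lit 71) (nat_lit 5) (nat_lit 28) (nat_lit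 54) (nat_lit 62)) (PT.nd (nat_lit 94) (PT.lf (nat_lit 6468) (nat_lit 6) (nat_lit 77) (nat_lit 5) (nat_lit 29) (nat_lit 54) (nat_lit 61)) (PT.lf (nat_lit 6972) (nat_lit 6) (nat_lit 83) (nat_lit 5) (nat_lit 30) (nat_lit 54) (nat_lit 60)))))) (PT.nd (nat_lit 376) (PT.nd (nat_lit 188) (PT.nd (nat_lit 94) (PT.lf (nat_lit 7560) (nat_lit 6) (nat_lit 90) (nat_lit 5) (nat_lit 31) (nat_lit 54) (nat_lit 59)) (PT.lf (nat_lit 8148) (nat_lit 6) (nat_lit 97) (nat_lit 5) (nat_lit 32) (nat_lit 54) (nat_lit 58))) (PT.nd (nat_lit 94) (PT.lf (nat_lit 8820) (nat_lit 6) (nat_lit 105) (nat_lit 5) (nat_lit 33) (nat_lit 54) (nat_lit 57)) (PT.lf (nat_lit 9408) (nat_lit 6) (nat_lit 112) (nat_lit 5) (nat_lit 34) (nat_lit 54) (nat_lit 56)))) (PT.nd (nat_lit 188) (PT.nd (nat_lit 94) (PT.lf (nat_lit 10584) (nat_lit 6) (nat_lit 126) (nat_lit 5) (nat_lit 35) (nat_lit 54) (nat_lit 55)) (PT.lf (nat_lit 11676) (nat_lit 3)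 (nat_lit 139) (nat_lit 4) (nat_lit 36) (nat_lit 54) (nat_lit 54))) (PT.nd (nat_lit 94) (PT.lf (nat_lit 12600) (nat_lit 6) (nat_lit 150) (nat_lit 4) (nat_lit 37) (nat_lit 54) (nat_lit 53)) (PT.nd (nat_lit 94) (PT.lf (nat_lit 13440) (nat_lit 6) (nat_lit 160) (nat_lit 4) (nat_lit 38) (nat_lit 54) (nat_lit 52)) (PT.lf (nat_lit 14196) (nat_lit 6) (nat_lit 169) (nat_lit 4) (nat_lit 39) (nat_lit 54) (nat_lit 51))))))) (PT.nd (nat_lit 846) (PT.nd (nat_lit 376) (PT.nd (nat_lit 188) (PT.nd (nat_lit 94) (PT.lf (nat_lit 14868) (nat_lit 6) (nat_lit 177) (nat_lit 4) (nat_lit 40) (nat_lit 54) (nat_lit 50)) (PT.lf (nat_lit 15456) (nat_lit 6) (nat_lit 184) (nat_lit 4) (nat_lit 41) (nat_lit 54) (nat_lit 49))) (PT.nd (nat_lit 94) (PT.lf (nat_lit 15960) (nat_lit 6) (nat_lit 190) (nat_lit 4) (nat_lit 42) (nat_lit 54) (nat_lit 48)) (PT.lf (nat_lit 15876) (nat_lit 6) (nat_lit 189) (nat_lit 4) (nat_lit 43) (nat_lit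 54) (nat_lit 47)))) (PT.nd (nat_lit 188) (PT.nd (nat_lit 94) (PT.lf (nat_lit 15792) (nat_lit 6) (nat_lit 188) (nat_lit 4) (nat_lit 44) (nat_lit 54) (nat_lit 46)) (PT.lf (nat_lit 15708) (nat_lit 3) (nat_lit 187) (nat_lit 2) (nat_lit 45) (nat_lit 54) (nat_lit 45))) (PT.nd (nat_lit 94) (PT.lf (nat_lit 15792) (nat_lit 6) (nat_lit 188) (nat_lit 2) (nat_lit 46) (nat_lit 54) (nat_lit 44)) (PT.nd (nat_lit 94) (PT.lf (nat_lit 15876) (nat_lit 6) (nat_lit 189) (nat_lit 2) (nat_lit 47) (nat_lit 54) (nat_lit 43)) (PT.lf (nat_lit 15960) (nat_lit 6) (nat_lit 190) (nat_lit 2) (nat_lit 48) (nat_lit 54) (nat_lit 42)))))) (PT.nd (nat_lit 376) (PT.nd (nat_lit 188) (PT.nd (nat_lit 94) (PT.lf (nat_lit 15456) (nat_lit 6) (nat_lit 184) (nat_lit 2) (nat_lit 49) (nat_lit 54) (nat_lit 41)) (PT.lf (nat_lit 14868) (nat_lit 6) (nat_lit 177) (nat_lit 2) (nat_lit 50) (nat_lit 54) (nat_lit 40))) (PT.nd (nat_lit 94) (PT.lf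 (nat_lit 14196) (nat_lit 6) (nat_lit 169) (nat_lit 2) (nat_lit 51) (nat_lit 54) (nat_lit 39)) (PT.lf (nat_lit 13440) (nat_lit 6) (nat_lit 160) (nat_lit 2) (nat_lit 52) (nat_lit 54) (nat_lit 38)))) (PT.nd (nat_lit 188) (PT.nd (nat_lit 94) (PT.lf (nat_lit 12600) (nat_lit 6) (nat_lit 150) (nat_lit 2) (nat_lit 53) (nat_lit 54) (nat_lit 37)) (PT.lf (nat_lit 11676) (nat_lit 3) (nat_lit 139) (nat_lit 0) (nat_lit 54) (nat_lit 54) (nat_lit 36))) (PT.nd (nat_lit 94) (PT.lf (nat_lit 10584) (nat_lit 6) (nat_lit 126) (nat_lit 0) (nat_lit 55) (nat_lit 54) (nat_lit 35)) (PT.nd (nat_lit 94) (PT.lf (nat_lit 9408) (nat_lit 6) (nat_lit 112) (nat_lit 0) (nat_lit 56) (nat_lit 54) (nat_lit 34)) (PT.lf (nat_lit 8820) (nat_lit 6) (nat_lit 105) (nat_lit 0) (nat_lit 57) (nat_lit 54) (nat_lit 33))))))))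
noncomputable def pc19 : PT := (PT.nd (nat_lit 52358) (PT.nd (nat_lit 51512) (PT.nd (nat_lit 376) (PT.nd (nat_lit 188) (PT.nd (nat_lit 94) (PT.lf (nat_lit 8148) (nat_lit 6) (nat_lit 97) (nat_lit 0) (nat_lit 58) (nat_lit 54) (nat_lit 32)) (PT.lf (nat_lit 7560) (nat_lit 6) (nat_lit 90) (nat_lit 0) (nat_lit 59) (nat_lit 54) (nat_lit 31))) (PT.nd (nat_lit 94) (PT.lf (nat_lit 6972) (nat_lit 6) (nat_lit 83) (nat_lit 0) (nat_lit 60) (nat_lit 54) (nat_lit 30)) (PT.lf (nat_lit 6468) (nat_lit 6) (nat_lit 77) (nat_lit 0) (nat_lit 61) (nat_lit 54) (nat_lit 29)))) (PT.nd (nat_lit 50854) (PT.nd (nat_lit 94) (PT.lf (nat_lit 5964) (nat_lit 6) (nat_lit 71) (nat_lit 0) (nat_lit 62) (nat_lit 54) (nat_lit 28)) (PT.lf (nat_lit 5460) (nat_lit 6) (nat_lit 65) (nat_lit 0) (nat_lit 63) (nat_lit 54) (nat_lit 27))) (PT.nd (nat_lit 94) (PT.lf (nat_lit 5040) (nat_lit 6) (nat_lit 60) (nat_lit 5) (nat_lit 26) (nat_lit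 55) (nat_lit 63)) (PT.nd (nat_lit 94) (PT.lf (nat_lit 5544) (nat_lit 6) (nat_lit 66) (nat_lit 5) (nat_lit 27) (nat_lit 55) (nat_lit 62)) (PT.lf (nat_lit 6048) (nat_lit 6) (nat_lit 72) (nat_lit 5) (nat_lit 28) (nat_lit 55) (nat_lit 61)))))) (PT.nd (nat_lit 376) (PT.nd (nat_lit 188) (PT.nd (nat_lit 94) (PT.lf (nat_lit 6552) (nat_lit 6) (nat_lit 78) (nat_lit 5) (nat_lit 29) (nat_lit 55) (nat_lit 60)) (PT.lf (nat_lit 7056) (nat_lit 6) (nat_lit 84) (nat_lit 5) (nat_lit 30) (nat_lit 55) (nat_lit 59))) (PT.nd (nat_lit 94) (PT.lf (nat_lit 7644) (nat_lit 6) (nat_lit 91) (nat_lit 5) (nat_lit 31) (nat_lit 55) (nat_lit 58)) (PT.lf (nat_lit 8232) (nat_lit 6) (nat_lit 98) (nat_lit 5) (nat_lit 32) (nat_lit 55) (nat_lit 57)))) (PT.nd (nat_lit 188) (PT.nd (nat_lit 94) (PT.lf (nat_lit 8904) (nat_lit 6) (nat_lit 106) (nat_lit 5) (nat_lit 33) (nat_lit 55) (nat_lit 56)) (PT.lf (nat_lit 9492) (nat_lit 3) (nat_lit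 113) (nat_lit 4) (nat_lit 34) (nat_lit 55) (nat_lit 55))) (PT.nd (nat_lit 94) (PT.lf (nat_lit 10584) (nat_lit 6) (nat_lit 126) (nat_lit 4) (nat_lit 35) (nat_lit 55) (nat_lit 54)) (PT.nd (nat_lit 94) (PT.lf (nat_lit 11592) (nat_lit 6) (nat_lit 138) (nat_lit 4) (nat_lit 36) (nat_lit 55) (nat_lit 53)) (PT.lf (nat_lit 12516) (nat_lit 6) (nat_lit 149) (nat_lit 4) (nat_lit 37) (nat_lit 55) (nat_lit 52))))))) (PT.nd (nat_lit 846) (PT.nd (nat_lit 376) (PT.nd (nat_lit 188) (PT.nd (nat_lit 94) (PT.lf (nat_lit 13356) (nat_lit 6) (nat_lit 159) (nat_lit 4) (nat_lit 38) (nat_lit 55) (nat_lit 51)) (PT.lf (nat_lit 14112) (nat_lit 6) (nat_lit 168) (nat_lit 4) (nat_lit 39) (nat_lit 55) (nat_lit 50))) (PT.nd (nat_lit 94) (PT.lf (nat_lit 14784) (nat_lit 6) (nat_lit 176) (nat_lit 4) (nat_lit 40) (nat_lit 55) (nat_lit 49)) (PT.lf (nat_lit 15372) (nat_lit 6) (nat_lit 183) (nat_lit 4) (nat_lit 41) (nat_lit 55)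 (nat_lit 48)))) (PT.nd (nat_lit 188) (PT.nd (nat_lit 94) (PT.lf (nat_lit 15288) (nat_lit 6) (nat_lit 182) (nat_lit 4) (nat_lit 42) (nat_lit 55) (nat_lit 47)) (PT.lf (nat_lit 15204) (nat_lit 6) (nat_lit 181) (nat_lit 4) (nat_lit 43) (nat_lit 55) (nat_lit 46))) (PT.nd (nat_lit 94) (PT.lf (nat_lit 15120) (nat_lit 6) (nat_lit 180) (nat_lit 4) (nat_lit 44) (nat_lit 55) (nat_lit 45)) (PT.nd (nat_lit 94) (PT.lf (nat_lit 15120) (nat_lit 6) (nat_lit 180) (nat_lit 2) (nat_lit 45) (nat_lit 55) (nat_lit 44)) (PT.lf (nat_lit 15204) (nat_lit 6) (nat_lit 181) (nat_lit 2) (nat_lit 46) (nat_lit 55) (nat_lit 43)))))) (PT.nd (nat_lit 376) (PT.nd (nat_lit 188) (PT.nd (nat_lit 94) (PT.lf (nat_lit 15288) (nat_lit 6) (nat_lit 182) (nat_lit 2) (nat_lit 47) (nat_lit 55) (nat_lit 42)) (PT.lf (nat_lit 15372) (nat_lit 6) (nat_lit 183) (nat_lit 2) (nat_lit 48) (nat_lit 55) (nat_lit 41))) (PT.nd (nat_lit 94) (PT.lf (nat_lit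 14784) (nat_lit 6) (nat_lit 176) (nat_lit 2) (nat_lit 49) (nat_lit 55) (nat_lit 40)) (PT.lf (nat_lit 14112) (nat_lit 6) (nat_lit 168) (nat_lit 2) (nat_lit 50) (nat_lit 55) (nat_lit 39)))) (PT.nd (nat_lit 188) (PT.nd (nat_lit 94) (PT.lf (nat_lit 13356) (nat_lit 6) (nat_lit 159) (nat_lit 2) (nat_lit 51) (nat_lit 55) (nat_lit 38)) (PT.lf (nat_lit 12516) (nat_lit 6) (nat_lit 149) (nat_lit 2) (nat_lit 52) (nat_lit 55) (nat_lit 37))) (PT.nd (nat_lit 94) (PT.lf (nat_lit 11592) (nat_lit 6) (nat_lit 138) (nat_lit 2) (nat_lit 53) (nat_lit 55) (nat_lit 36)) (PT.nd (nat_lit 94) (PT.lf (nat_lit 10584) (nat_lit 6) (nat_lit 126) (nat_lit 2) (nat_lit 54) (nat_lit 55) (nat_lit 35)) (PT.lf (nat_lit 9492) (nat_lit 3) (nat_lit 113) (nat_lit 0) (nat_lit 55) (nat_lit 55) (nat_lit 34))))))))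
noncomputable def pc20 : PT := (PT.nd (nat_lit 52076) (PT.nd (nat_lit 51230) (PT.nd (nat_lit 376) (PT.nd (nat_lit 188) (PT.nd (nat_lit 94) (PT.lf (nat_lit 8904) (nat_lit 6) (nat_lit 106) (nat_lit 0) (nat_lit 56) (nat_lit 55) (nat_lit 33)) (PT.lf (nat_lit 8232) (nat_lit 6) (nat_lit 98) (nat_lit 0) (nat_lit 57) (nat_lit 55) (nat_lit 32))) (PT.nd (nat_lit 94) (PT.lf (nat_lit 7644) (nat_lit 6) (nat_lit 91) (nat_lit 0) (nat_lit 58) (nat_lit 55) (nat_lit 31)) (PT.lf (nat_lit 7056) (nat_lit 6) (nat_lit 84) (nat_lit 0) (nat_lit 59) (nat_lit 55) (nat_lit 30)))) (PT.nd (nat_lit 188) (PT.nd (nat_lit 94) (PT.lf (nat_lit 6552) (nat_lit 6) (nat_lit 78) (nat_lit 0) (nat_lit 60) (nat_lit 55) (nat_lit 29)) (PT.lf (nat_lit 6048) (nat_lit 6) (nat_lit 72) (nat_lit 0) (nat_lit 61) (nat_lit 55) (nat_lit 28))) (PT.nd (nat_lit 94) (PT.lf (nat_lit 5544) (nat_lit 6) (nat_lit 66) (nat_lit 0) (nat_lit 62) (nat_lit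 55) (nat_lit 27)) (PT.lf (nat_lit 5040) (nat_lit 6) (nat_lit 60) (nat_lit 0) (nat_lit 63) (nat_lit 55) (nat_lit 26))))) (PT.nd (nat_lit 376) (PT.nd (nat_lit 188) (PT.nd (nat_lit 94) (PT.lf (nat_lit 4284) (nat_lit 6) (nat_lit 51) (nat_lit 5) (nat_lit 24) (nat_lit 56) (nat_lit 64)) (PT.lf (nat_lit 4704) (nat_lit 6) (nat_lit 56) (nat_lit 5) (nat_lit 25) (nat_lit 56) (nat_lit 63))) (PT.nd (nat_lit 94) (PT.lf (nat_lit 5124) (nat_lit 6) (nat_lit 61) (nat_lit 5) (nat_lit 26) (nat_lit 56) (nat_lit 62)) (PT.lf (nat_lit 5628) (nat_lit 6) (nat_lit 67) (nat_lit 5) (nat_lit 27) (nat_lit 56) (nat_lit 61)))) (PT.nd (nat_lit 188) (PT.nd (nat_lit 94) (PT.lf (nat_lit 6132) (nat_lit 6) (nat_lit 73) (nat_lit 5) (nat_lit 28) (nat_lit 56) (nat_lit 60)) (PT.lf (nat_lit 6636) (nat_lit 6) (nat_lit 79) (nat_lit 5) (nat_lit 29) (nat_lit 56) (nat_lit 59))) (PT.nd (nat_lit 94) (PT.lf (nat_lit 7140) (nat_lit 6) (nat_lit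 85) (nat_lit 5) (nat_lit 30) (nat_lit 56) (nat_lit 58)) (PT.nd (nat_lit 94) (PT.lf (nat_lit 7728) (nat_lit 6) (nat_lit 92) (nat_lit 5) (nat_lit 31) (nat_lit 56) (nat_lit 57)) (PT.lf (nat_lit 8316) (nat_lit 3) (nat_lit 99) (nat_lit 4) (nat_lit 32) (nat_lit 56) (nat_lit 56))))))) (PT.nd (nat_lit 846) (PT.nd (nat_lit 376) (PT.nd (nat_lit 188) (PT.nd (nat_lit 94) (PT.lf (nat_lit 8904) (nat_lit 6) (nat_lit 106) (nat_lit 4) (nat_lit 33) (nat_lit 56) (nat_lit 55)) (PT.lf (nat_lit 9408) (nat_lit 6) (nat_lit 112) (nat_lit 4) (nat_lit 34) (nat_lit 56) (nat_lit 54))) (PT.nd (nat_lit 94) (PT.lf (nat_lit 10500) (nat_lit 6) (nat_lit 125) (nat_lit 4) (nat_lit 35) (nat_lit 56) (nat_lit 53)) (PT.lf (nat_lit 11508) (nat_lit 6) (nat_lit 137) (nat_lit 4) (nat_lit 36) (nat_lit 56) (nat_lit 52)))) (PT.nd (nat_lit 188) (PT.nd (nat_lit 94) (PT.lf (nat_lit 12432) (nat_lit 6) (nat_lit 148) (nat_lit 4) (nat_lit 37)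 (nat_lit 56) (nat_lit 51)) (PT.lf (nat_lit 13272) (nat_lit 6) (nat_lit 158) (nat_lit 4) (nat_lit 38) (nat_lit 56) (nat_lit 50))) (PT.nd (nat_lit 94) (PT.lf (nat_lit 14028) (nat_lit 6) (nat_lit 167) (nat_lit 4) (nat_lit 39) (nat_lit 56) (nat_lit 49)) (PT.nd (nat_lit 94) (PT.lf (nat_lit 14700) (nat_lit 6) (nat_lit 175) (nat_lit 4) (nat_lit 40) (nat_lit 56) (nat_lit 48)) (PT.lf (nat_lit 14616) (nat_lit 6) (nat_lit 174) (nat_lit 4) (nat_lit 41) (nat_lit 56) (nat_lit 47)))))) (PT.nd (nat_lit 376) (PT.nd (nat_lit 188) (PT.nd (nat_lit 94) (PT.lf (nat_lit 14532) (nat_lit 6) (nat_lit 173) (nat_lit 4) (nat_lit 42) (nat_lit 56) (nat_lit 46)) (PT.lf (nat_lit 14448) (nat_lit 6) (nat_lit 172) (nat_lit 4) (nat_lit 43) (nat_lit 56) (nat_lit 45))) (PT.nd (nat_lit 94) (PT.lf (nat_lit 14364) (nat_lit 3) (nat_lit 171) (nat_lit 2) (nat_lit 44) (nat_lit 56) (nat_lit 44)) (PT.lf (nat_lit 14448) (nat_lit 6) (nat_lit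 172) (nat_lit 2) (nat_lit 45) (nat_lit 56) (nat_lit 43)))) (PT.nd (nat_lit 188) (PT.nd (nat_lit 94) (PT.lf (nat_lit 14532) (nat_lit 6) (nat_lit 173) (nat_lit 2) (nat_lit 46) (nat_lit 56) (nat_lit 42)) (PT.lf (nat_lit 14616) (nat_lit 6) (nat_lit 174) (nat_lit 2) (nat_lit 47) (nat_lit 56) (nat_lit 41))) (PT.nd (nat_lit 94) (PT.lf (nat_lit 14700) (nat_lit 6) (nat_lit 175) (nat_lit 2) (nat_lit 48) (nat_lit 56) (nat_lit 40)) (PT.nd (nat_lit 94) (PT.lf (nat_lit 14028) (nat_lit 6) (nat_lit 167) (nat_lit 2) (nat_lit 49) (nat_lit 56) (nat_lit 39)) (PT.lf (nat_lit 13272) (nat_lit 6) (nat_lit 158) (nat_lit 2) (nat_lit 50) (nat_lit 56) (nat_lit 38))))))))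
noncomputable def pc21 : PT := (PT.nd (nat_lit 51982) (PT.nd (nat_lit 846) (PT.nd (nat_lit 376) (PT.nd (nat_lit 188) (PT.nd (nat_lit 94) (PT.lf (nat_lit 12432) (nat_lit 6) (nat_lit 148) (nat_lit 2) (nat_lit 51) (nat_lit 56) (nat_lit 37)) (PT.lf (nat_lit 11508) (nat_lit 6) (nat_lit 137) (nat_lit 2) (nat_lit 52) (nat_lit 56) (nat_lit 36))) (PT.nd (nat_lit 94) (PT.lf (nat_lit 10500) (nat_lit 6) (nat_lit 125) (nat_lit 2) (nat_lit 53) (nat_lit 56) (nat_lit 35)) (PT.lf (nat_lit 9408) (nat_lit 6) (nat_lit 112) (nat_lit 2) (nat_lit 54) (nat_lit 56) (nat_lit 34)))) (PT.nd (nat_lit 188) (PT.nd (nat_lit 94) (PT.lf (nat_lit 8904) (nat_lit 6) (nat_lit 106) (nat_lit 2) (nat_lit 55) (nat_lit 56) (nat_lit 33)) (PT.lf (nat_lit 8316) (nat_lit 3) (nat_lit 99) (nat_lit 0) (nat_lit 56) (nat_lit 56) (nat_lit 32))) (PT.nd (nat_lit 94) (PT.lf (nat_lit 7728) (nat_lit 6) (nat_lit 92) (nat_lit 0) (nat_lit 57) (nat_lit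 56) (nat_lit 31)) (PT.nd (nat_lit 94) (PT.lf (nat_lit 7140) (nat_lit 6) (nat_lit 85) (nat_lit 0) (nat_lit 58) (nat_lit 56) (nat_lit 30)) (PT.lf (nat_lit 6636) (nat_lit 6) (nat_lit 79) (nat_lit 0) (nat_lit 59) (nat_lit 56) (nat_lit 29)))))) (PT.nd (nat_lit 376) (PT.nd (nat_lit 188) (PT.nd (nat_lit 94) (PT.lf (nat_lit 6132) (nat_lit 6) (nat_lit 73) (nat_lit 0) (nat_lit 60) (nat_lit 56) (nat_lit 28)) (PT.lf (nat_lit 5628) (nat_lit 6) (nat_lit 67) (nat_lit 0) (nat_lit 61) (nat_lit 56) (nat_lit 27))) (PT.nd (nat_lit 94) (PT.lf (nat_lit 5124) (nat_lit 6) (nat_lit 61) (nat_lit 0) (nat_lit 62) (nat_lit 56) (nat_lit 26)) (PT.lf (nat_lit 4704) (nat_lit 6) (nat_lit 56) (nat_lit 0) (nat_lit 63) (nat_lit 56) (nat_lit 25)))) (PT.nd (nat_lit 50478) (PT.nd (nat_lit 50384) (PT.lf (nat_lit 4284) (nat_lit 6) (nat_lit 51) (nat_lit 0) (nat_lit 64) (nat_lit 56) (nat_lit 24)) (PT.lf (nat_lit 3948) (nat_lit 6)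 (nat_lit 47) (nat_lit 5) (nat_lit 23) (nat_lit 57) (nat_lit 64))) (PT.nd (nat_lit 94) (PT.lf (nat_lit 4368) (nat_lit 6) (nat_lit 52) (nat_lit 5) (nat_lit 24) (nat_lit 57) (nat_lit 63)) (PT.nd (nat_lit 94) (PT.lf (nat_lit 4788) (nat_lit 6) (nat_lit 57) (nat_lit 5) (nat_lit 25) (nat_lit 57) (nat_lit 62)) (PT.lf (nat_lit 5208) (nat_lit 6) (nat_lit 62) (nat_lit 5) (nat_lit 26) (nat_lit 57) (nat_lit 61))))))) (PT.nd (nat_lit 846) (PT.nd (nat_lit 376) (PT.nd (nat_lit 188) (PT.nd (nat_lit 94) (PT.lf (nat_lit 5712) (nat_lit 6) (nat_lit 68) (nat_lit 5) (nat_lit 27) (nat_lit 57) (nat_lit 60)) (PT.lf (nat_lit 6216) (nat_lit 6) (nat_lit 74) (nat_lit 5) (nat_lit 28) (nat_lit 57) (nat_lit 59))) (PT.nd (nat_lit 94) (PT.lf (nat_lit 6720) (nat_lit 6) (nat_lit 80) (nat_lit 5) (nat_lit 29) (nat_lit 57) (nat_lit 58)) (PT.lf (nat_lit 7224) (nat_lit 3) (nat_lit 86) (nat_lit 4) (nat_lit 30) (nat_lit 57) (nat_lit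 57)))) (PT.nd (nat_lit 188) (PT.nd (nat_lit 94) (PT.lf (nat_lit 7728) (nat_lit 6) (nat_lit 92) (nat_lit 4) (nat_lit 31) (nat_lit 57) (nat_lit 56)) (PT.lf (nat_lit 8232) (nat_lit 6) (nat_lit 98) (nat_lit 4) (nat_lit 32) (nat_lit 57) (nat_lit 55))) (PT.nd (nat_lit 94) (PT.lf (nat_lit 8820) (nat_lit 6) (nat_lit 105) (nat_lit 4) (nat_lit 33) (nat_lit 57) (nat_lit 54)) (PT.nd (nat_lit 94) (PT.lf (nat_lit 9324) (nat_lit 6) (nat_lit 111) (nat_lit 4) (nat_lit 34) (nat_lit 57) (nat_lit 53)) (PT.lf (nat_lit 10416) (nat_lit 6) (nat_lit 124) (nat_lit 4) (nat_lit 35) (nat_lit 57) (nat_lit 52)))))) (PT.nd (nat_lit 376) (PT.nd (nat_lit 188) (PT.nd (nat_lit 94) (PT.lf (nat_lit 11424) (nat_lit 6) (nat_lit 136) (nat_lit 4) (nat_lit 36) (nat_lit 57) (nat_lit 51)) (PT.lf (nat_lit 12348) (nat_lit 6) (nat_lit 147) (nat_lit 4) (nat_lit 37) (nat_lit 57) (nat_lit 50))) (PT.nd (nat_lit 94) (PT.lf (nat_lit 13188)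 (nat_lit 6) (nat_lit 157) (nat_lit 4) (nat_lit 38) (nat_lit 57) (nat_lit 49)) (PT.lf (nat_lit 13944) (nat_lit 6) (nat_lit 166) (nat_lit 4) (nat_lit 39) (nat_lit 57) (nat_lit 48)))) (PT.nd (nat_lit 188) (PT.nd (nat_lit 94) (PT.lf (nat_lit 13860) (nat_lit 6) (nat_lit 165) (nat_lit 4) (nat_lit 40) (nat_lit 57) (nat_lit 47)) (PT.lf (nat_lit 13776) (nat_lit 6) (nat_lit 164) (nat_lit 4) (nat_lit 41) (nat_lit 57) (nat_lit 46))) (PT.nd (nat_lit 94) (PT.lf (nat_lit 13692) (nat_lit 6) (nat_lit 163) (nat_lit 4) (nat_lit 42) (nat_lit 57) (nat_lit 45)) (PT.nd (nat_lit 94) (PT.lf (nat_lit 13608) (nat_lit 6) (nat_lit 162) (nat_lit 4) (nat_lit 43) (nat_lit 57) (nat_lit 44)) (PT.lf (nat_lit 13608) (nat_lit 6) (nat_lit 162) (nat_lit 2) (nat_lit 44) (nat_lit 57) (nat_lit 43))))))))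
noncomputable def pc22 : PT := (PT.nd (nat_lit 1692) (PT.nd (nat_lit 846) (PT.nd (nat_lit 376) (PT.nd (nat_lit 188) (PT.nd (nat_lit 94) (PT.lf (nat_lit 13692) (nat_lit 6) (nat_lit 163) (nat_lit 2) (nat_lit 45) (nat_lit 57) (nat_lit 42)) (PT.lf (nat_lit 13776) (nat_lit 6) (nat_lit 164) (nat_lit 2) (nat_lit 46) (nat_lit 57) (nat_lit 41))) (PT.nd (nat_lit 94) (PT.lf (nat_lit 13860) (nat_lit 6) (nat_lit 165) (nat_lit 2) (nat_lit 47) (nat_lit 57) (nat_lit 40)) (PT.lf (nat_lit 13944) (nat_lit 6) (nat_lit 166) (nat_lit 2) (nat_lit 48) (nat_lit 57) (nat_lit 39)))) (PT.nd (nat_lit 188) (PT.nd (nat_lit 94) (PT.lf (nat_lit 13188) (nat_lit 6) (nat_lit 157) (nat_lit 2) (nat_lit 49) (nat_lit 57) (nat_lit 38)) (PT.lf (nat_lit 12348) (nat_lit 6) (nat_lit 147) (nat_lit 2) (nat_lit 50) (nat_lit 57) (nat_lit 37))) (PT.nd (nat_lit 94) (PT.lf (nat_lit 11424) (nat_lit 6) (nat_lit 136) (nat_lit 2) (nat_lit 51)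 (nat_lit 57) (nat_lit 36)) (PT.nd (nat_lit 94) (PT.lf (nat_lit 10416) (nat_lit 6) (nat_lit 124) (nat_lit 2) (nat_lit 52) (nat_lit 57) (nat_lit 35)) (PT.lf (nat_lit 9324) (nat_lit 6) (nat_lit 111) (nat_lit 2) (nat_lit 53) (nat_lit 57) (nat_lit 34)))))) (PT.nd (nat_lit 376) (PT.nd (nat_lit 188) (PT.nd (nat_lit 94) (PT.lf (nat_lit 8820) (nat_lit 6) (nat_lit 105) (nat_lit 2) (nat_lit 54) (nat_lit 57) (nat_lit 33)) (PT.lf (nat_lit 8232) (nat_lit 6) (nat_lit 98) (nat_lit 2) (nat_lit 55) (nat_lit 57) (nat_lit 32))) (PT.nd (nat_lit 94) (PT.lf (nat_lit 7728) (nat_lit 6) (nat_lit 92) (nat_lit 2) (nat_lit 56) (nat_lit 57) (nat_lit 31)) (PT.lf (nat_lit 7224) (nat_lit 3) (nat_lit 86) (nat_lit 0) (nat_lit 57) (nat_lit 57) (nat_lit 30)))) (PT.nd (nat_lit 188) (PT.nd (nat_lit 94) (PT.lf (nat_lit 6720) (nat_lit 6) (nat_lit 80) (nat_lit 0) (nat_lit 58) (nat_lit 57) (nat_lit 29)) (PT.lf (nat_lit 6216) (nat_lit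 6) (nat_lit 74) (nat_lit 0) (nat_lit 59) (nat_lit 57) (nat_lit 28))) (PT.nd (nat_lit 94) (PT.lf (nat_lit 5712) (nat_lit 6) (nat_lit 68) (nat_lit 0) (nat_lit 60) (nat_lit 57) (nat_lit 27)) (PT.nd (nat_lit 94) (PT.lf (nat_lit 5208) (nat_lit 6) (nat_lit 62) (nat_lit 0) (nat_lit 61) (nat_lit 57) (nat_lit 26)) (PT.lf (nat_lit 4788) (nat_lit 6) (nat_lit 57) (nat_lit 0) (nat_lit 62) (nat_lit 57) (nat_lit 25))))))) (PT.nd (nat_lit 51042) (PT.nd (nat_lit 50572) (PT.nd (nat_lit 50384) (PT.nd (nat_lit 94) (PT.lf (nat_lit 4368) (nat_lit 6) (nat_lit 52) (nat_lit 0) (nat_lit 63) (nat_lit 57) (nat_lit 24)) (PT.lf (nat_lit 3948) (nat_lit 6) (nat_lit 47) (nat_lit 0) (nat_lit 64) (nat_lit 57) (nat_lit 23))) (PT.nd (nat_lit 94) (PT.lf (nat_lit 3612) (nat_lit 6) (nat_lit 43) (nat_lit 5) (nat_lit 22) (nat_lit 58) (nat_lit 64)) (PT.lf (nat_lit 4032) (nat_lit 6) (nat_lit 48) (nat_lit 5) (nat_lit 23) (nat_lit 58)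 (nat_lit 63)))) (PT.nd (nat_lit 188) (PT.nd (nat_lit 94) (PT.lf (nat_lit 4452) (nat_lit 6) (nat_lit 53) (nat_lit 5) (nat_lit 24) (nat_lit 58) (nat_lit 62)) (PT.lf (nat_lit 4872) (nat_lit 6) (nat_lit 58) (nat_lit 5) (nat_lit 25) (nat_lit 58) (nat_lit 61))) (PT.nd (nat_lit 94) (PT.lf (nat_lit 5292) (nat_lit 6) (nat_lit 63) (nat_lit 5) (nat_lit 26) (nat_lit 58) (nat_lit 60)) (PT.nd (nat_lit 94) (PT.lf (nat_lit 5796) (nat_lit 6) (nat_lit 69) (nat_lit 5) (nat_lit 27) (nat_lit 58) (nat_lit 59)) (PT.lf (nat_lit 6300) (nat_lit 3) (nat_lit 75) (nat_lit 4) (nat_lit 28) (nat_lit 58) (nat_lit 58)))))) (PT.nd (nat_lit 376) (PT.nd (nat_lit 188) (PT.nd (nat_lit 94) (PT.lf (nat_lit 6720) (nat_lit 6) (nat_lit 80) (nat_lit 4) (nat_lit 29) (nat_lit 58) (nat_lit 57)) (PT.lf (nat_lit 7140) (nat_lit 6) (nat_lit 85) (nat_lit 4) (nat_lit 30) (nat_lit 58) (nat_lit 56))) (PT.nd (nat_lit 94) (PT.lf (nat_lit 7644)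 (nat_lit 6) (nat_lit 91) (nat_lit 4) (nat_lit 31) (nat_lit 58) (nat_lit 55)) (PT.lf (nat_lit 8148) (nat_lit 6) (nat_lit 97) (nat_lit 4) (nat_lit 32) (nat_lit 58) (nat_lit 54)))) (PT.nd (nat_lit 188) (PT.nd (nat_lit 94) (PT.lf (nat_lit 8736) (nat_lit 6) (nat_lit 104) (nat_lit 4) (nat_lit 33) (nat_lit 58) (nat_lit 53)) (PT.lf (nat_lit 9240) (nat_lit 6) (nat_lit 110) (nat_lit 4) (nat_lit 34) (nat_lit 58) (nat_lit 52))) (PT.nd (nat_lit 94) (PT.lf (nat_lit 10332) (nat_lit 6) (nat_lit 123) (nat_lit 4) (nat_lit 35) (nat_lit 58) (nat_lit 51)) (PT.nd (nat_lit 94) (PT.lf (nat_lit 11340) (nat_lit 6) (nat_lit 135) (nat_lit 4) (nat_lit 36) (nat_lit 58) (nat_lit 50)) (PT.lf (nat_lit 12264) (nat_lit 6) (nat_lit 146) (nat_lit 4) (nat_lit 37) (nat_lit 58) (nat_lit 49))))))))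
noncomputable def pc23 : PT := (PT.nd (nat_lit 1692) (PT.nd (nat_lit 846) (PT.nd (nat_lit 376) (PT.nd (nat_lit 188) (PT.nd (nat_lit 94) (PT.lf (nat_lit 13104) (nat_lit 6) (nat_lit 156) (nat_lit 4) (nat_lit 38) (nat_lit 58) (nat_lit 48)) (PT.lf (nat_lit 13020) (nat_lit 6) (nat_lit 155) (nat_lit 4) (nat_lit 39) (nat_lit 58) (nat_lit 47))) (PT.nd (nat_lit 94) (PT.lf (nat_lit 12936) (nat_lit 6) (nat_lit 154) (nat_lit 4) (nat_lit 40) (nat_lit 58) (nat_lit 46)) (PT.lf (nat_lit 12852) (nat_lit 6) (nat_lit 153) (nat_lit 4) (nat_lit 41) (nat_lit 58) (nat_lit 45)))) (PT.nd (nat_lit 188) (PT.nd (nat_lit 94) (PT.lf (nat_lit 12768) (nat_lit 6) (nat_lit 152) (nat_lit 4) (nat_lit 42) (nat_lit 58) (nat_lit 44)) (PT.lf (nat_lit 12684) (nat_lit 3) (nat_lit 151) (nat_lit 2) (nat_lit 43) (nat_lit 58) (nat_lit 43))) (PT.nd (nat_lit 94) (PT.lf (nat_lit 12768) (nat_lit 6) (nat_lit 152) (nat_lit 2) (nat_lit 44)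 (nat_lit 58) (nat_lit 42)) (PT.nd (nat_lit 94) (PT.lf (nat_lit 12852) (nat_lit 6) (nat_lit 153) (nat_lit 2) (nat_lit 45) (nat_lit 58) (nat_lit 41)) (PT.lf (nat_lit 12936) (nat_lit 6) (nat_lit 154) (nat_lit 2) (nat_lit 46) (nat_lit 58) (nat_lit 40)))))) (PT.nd (nat_lit 376) (PT.nd (nat_lit 188) (PT.nd (nat_lit 94) (PT.lf (nat_lit 13020) (nat_lit 6) (nat_lit 155) (nat_lit 2) (nat_lit 47) (nat_lit 58) (nat_lit 39)) (PT.lf (nat_lit 13104) (nat_lit 6) (nat_lit 156) (nat_lit 2) (nat_lit 48) (nat_lit 58) (nat_lit 38))) (PT.nd (nat_lit 94) (PT.lf (nat_lit 12264) (nat_lit 6) (nat_lit 146) (nat_lit 2) (nat_lit 49) (nat_lit 58) (nat_lit 37)) (PT.lf (nat_lit 11340) (nat_lit 6) (nat_lit 135) (nat_lit 2) (nat_lit 50) (nat_lit 58) (nat_lit 36)))) (PT.nd (nat_lit 188) (PT.nd (nat_lit 94) (PT.lf (nat_lit 10332) (nat_lit 6) (nat_lit 123) (nat_lit 2) (nat_lit 51) (nat_lit 58) (nat_lit 35)) (PT.lf (nat_lit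 9240) (nat_lit 6) (nat_lit 110) (nat_lit 2) (nat_lit 52) (nat_lit 58) (nat_lit 34))) (PT.nd (nat_lit 94) (PT.lf (nat_lit 8736) (nat_lit 6) (nat_lit 104) (nat_lit 2) (nat_lit 53) (nat_lit 58) (nat_lit 33)) (PT.nd (nat_lit 94) (PT.lf (nat_lit 8148) (nat_lit 6) (nat_lit 97) (nat_lit 2) (nat_lit 54) (nat_lit 58) (nat_lit 32)) (PT.lf (nat_lit 7644) (nat_lit 6) (nat_lit 91) (nat_lit 2) (nat_lit 55) (nat_lit 58) (nat_lit 31))))))) (PT.nd (nat_lit 50854) (PT.nd (nat_lit 376) (PT.nd (nat_lit 188) (PT.nd (nat_lit 94) (PT.lf (nat_lit 7140) (nat_lit 6) (nat_lit 85) (nat_lit 2) (nat_lit 56) (nat_lit 58) (nat_lit 30)) (PT.lf (nat_lit 6720) (nat_lit 6) (nat_lit 80) (nat_lit 2) (nat_lit 57) (nat_lit 58) (nat_lit 29))) (PT.nd (nat_lit 94) (PT.lf (nat_lit 6300) (nat_lit 3) (nat_lit 75) (nat_lit 0) (nat_lit 58) (nat_lit 58) (nat_lit 28)) (PT.lf (nat_lit 5796) (nat_lit 6) (nat_lit 69) (nat_lit 0) (nat_lit 59)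 (nat_lit 58) (nat_lit 27)))) (PT.nd (nat_lit 188) (PT.nd (nat_lit 94) (PT.lf (nat_lit 5292) (nat_lit 6) (nat_lit 63) (nat_lit 0) (nat_lit 60) (nat_lit 58) (nat_lit 26)) (PT.lf (nat_lit 4872) (nat_lit 6) (nat_lit 58) (nat_lit 0) (nat_lit 61) (nat_lit 58) (nat_lit 25))) (PT.nd (nat_lit 94) (PT.lf (nat_lit 4452) (nat_lit 6) (nat_lit 53) (nat_lit 0) (nat_lit 62) (nat_lit 58) (nat_lit 24)) (PT.nd (nat_lit 94) (PT.lf (nat_lit 4032) (nat_lit 6) (nat_lit 48) (nat_lit 0) (nat_lit 63) (nat_lit 58) (nat_lit 23)) (PT.lf (nat_lit 3612) (nat_lit 6) (nat_lit 43) (nat_lit 0) (nat_lit 64) (nat_lit 58) (nat_lit 22)))))) (PT.nd (nat_lit 376) (PT.nd (nat_lit 188) (PT.nd (nat_lit 94) (PT.lf (nat_lit 3024) (nat_lit 6) (nat_lit 36) (nat_lit 5) (nat_lit 20) (nat_lit 59) (nat_lit 65)) (PT.lf (nat_lit 3360) (nat_lit 6) (nat_lit 40) (nat_lit 5) (nat_lit 21) (nat_lit 59) (nat_lit 64))) (PT.nd (nat_lit 94) (PT.lf (nat_lit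 3696) (nat_lit 6) (nat_lit 44) (nat_lit 5) (nat_lit 22) (nat_lit 59) (nat_lit 63)) (PT.lf (nat_lit 4116) (nat_lit 6) (nat_lit 49) (nat_lit 5) (nat_lit 23) (nat_lit 59) (nat_lit 62)))) (PT.nd (nat_lit 188) (PT.nd (nat_lit 94) (PT.lf (nat_lit 4536) (nat_lit 6) (nat_lit 54) (nat_lit 5) (nat_lit 24) (nat_lit 59) (nat_lit 61)) (PT.lf (nat_lit 4956) (nat_lit 6) (nat_lit 59) (nat_lit 5) (nat_lit 25) (nat_lit 59) (nat_lit 60))) (PT.nd (nat_lit 94) (PT.lf (nat_lit 5376) (nat_lit 3) (nat_lit 64) (nat_lit 4) (nat_lit 26) (nat_lit 59) (nat_lit 59)) (PT.nd (nat_lit 94) (PT.lf (nat_lit 5796) (nat_lit 6) (nat_lit 69) (nat_lit 4) (nat_lit 27) (nat_lit 59) (nat_lit 58)) (PT.lf (nat_lit 6216) (nat_lit 6) (nat_lit 74) (nat_lit 4) (nat_lit 28) (nat_lit 59) (nat_lit 57))))))))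
noncomputable def pc24 : PT := (PT.nd (nat_lit 1598) (PT.nd (nat_lit 752) (PT.nd (nat_lit 376) (PT.nd (nat_lit 188) (PT.nd (nat_lit 94) (PT.lf (nat_lit 6636) (nat_lit 6) (nat_lit 79) (nat_lit 4) (nat_lit 29) (nat_lit 59) (nat_lit 56)) (PT.lf (nat_lit 7056) (nat_lit 6) (nat_lit 84) (nat_lit 4) (nat_lit 30) (nat_lit 59) (nat_lit 55))) (PT.nd (nat_lit 94) (PT.lf (nat_lit 7560) (nat_lit 6) (nat_lit 90) (nat_lit 4) (nat_lit 31) (nat_lit 59) (nat_lit 54)) (PT.lf (nat_lit 8064) (nat_lit 6) (nat_lit 96) (nat_lit 4) (nat_lit 32) (nat_lit 59) (nat_lit 53)))) (PT.nd (nat_lit 188) (PT.nd (nat_lit 94) (PT.lf (nat_lit 8652) (nat_lit 6) (nat_lit 103) (nat_lit 4) (nat_lit 33) (nat_lit 59) (nat_lit 52)) (PT.lf (nat_lit 9156) (nat_lit 6) (nat_lit 109) (nat_lit 4) (nat_lit 34) (nat_lit 59) (nat_lit 51))) (PT.nd (nat_lit 94) (PT.lf (nat_lit 10248) (nat_lit 6) (nat_lit 122) (nat_lit 4) (nat_lit 35) (nat_lit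 59) (nat_lit 50)) (PT.lf (nat_lit 11256) (nat_lit 6) (nat_lit 134) (nat_lit 4) (nat_lit 36) (nat_lit 59) (nat_lit 49))))) (PT.nd (nat_lit 376) (PT.nd (nat_lit 188) (PT.nd (nat_lit 94) (PT.lf (nat_lit 12180) (nat_lit 6) (nat_lit 145) (nat_lit 4) (nat_lit 37) (nat_lit 59) (nat_lit 48)) (PT.lf (nat_lit 12096) (nat_lit 6) (nat_lit 144) (nat_lit 4) (nat_lit 38) (nat_lit 59) (nat_lit 47))) (PT.nd (nat_lit 94) (PT.lf (nat_lit 12012) (nat_lit 6) (nat_lit 143) (nat_lit 4) (nat_lit 39) (nat_lit 59) (nat_lit 46)) (PT.lf (nat_lit 11928) (nat_lit 6) (nat_lit 142) (nat_lit 4) (nat_lit 40) (nat_lit 59) (nat_lit 45)))) (PT.nd (nat_lit 188) (PT.nd (nat_lit 94) (PT.lf (nat_lit 11844) (nat_lit 6) (nat_lit 141) (nat_lit 4) (nat_lit 41) (nat_lit 59) (nat_lit 44)) (PT.lf (nat_lit 11760) (nat_lit 6) (nat_lit 140) (nat_lit 4) (nat_lit 42) (nat_lit 59) (nat_lit 43))) (PT.nd (nat_lit 94) (PT.lf (nat_lit 11760) (nat_lit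 6) (nat_lit 140) (nat_lit 2) (nat_lit 43) (nat_lit 59) (nat_lit 42)) (PT.nd (nat_lit 94) (PT.lf (nat_lit 11844) (nat_lit 6) (nat_lit 141) (nat_lit 2) (nat_lit 44) (nat_lit 59) (nat_lit 41)) (PT.lf (nat_lit 11928) (nat_lit 6) (nat_lit 142) (nat_lit 2) (nat_lit 45) (nat_lit 59) (nat_lit 40))))))) (PT.nd (nat_lit 846) (PT.nd (nat_lit 376) (PT.nd (nat_lit 188) (PT.nd (nat_lit 94) (PT.lf (nat_lit 12012) (nat_lit 6) (nat_lit 143) (nat_lit 2) (nat_lit 46) (nat_lit 59) (nat_lit 39)) (PT.lf (nat_lit 12096) (nat_lit 6) (nat_lit 144) (nat_lit 2) (nat_lit 47) (nat_lit 59) (nat_lit 38))) (PT.nd (nat_lit 94) (PT.lf (nat_lit 12180) (nat_lit 6) (nat_lit 145) (nat_lit 2) (nat_lit 48) (nat_lit 59) (nat_lit 37)) (PT.lf (nat_lit 11256) (nat_lit 6) (nat_lit 134) (nat_lit 2) (nat_lit 49) (nat_lit 59) (nat_lit 36)))) (PT.nd (nat_lit 188) (PT.nd (nat_lit 94) (PT.lf (nat_lit 10248) (nat_lit 6) (nat_lit 122) (nat_lit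 2) (nat_lit 50) (nat_lit 59) (nat_lit 35)) (PT.lf (nat_lit 9156) (nat_lit 6) (nat_lit 109) (nat_lit 2) (nat_lit 51) (nat_lit 59) (nat_lit 34))) (PT.nd (nat_lit 94) (PT.lf (nat_lit 8652) (nat_lit 6) (nat_lit 103) (nat_lit 2) (nat_lit 52) (nat_lit 59) (nat_lit 33)) (PT.nd (nat_lit 94) (PT.lf (nat_lit 8064) (nat_lit 6) (nat_lit 96) (nat_lit 2) (nat_lit 53) (nat_lit 59) (nat_lit 32)) (PT.lf (nat_lit 7560) (nat_lit 6) (nat_lit 90) (nat_lit 2) (nat_lit 54) (nat_lit 59) (nat_lit 31)))))) (PT.nd (nat_lit 376) (PT.nd (nat_lit 188) (PT.nd (nat_lit 94) (PT.lf (nat_lit 7056) (nat_lit 6) (nat_lit 84) (nat_lit 2) (nat_lit 55) (nat_lit 59) (nat_lit 30)) (PT.lf (nat_lit 6636) (nat_lit 6) (nat_lit 79) (nat_lit 2) (nat_lit 56) (nat_lit 59) (nat_lit 29))) (PT.nd (nat_lit 94) (PT.lf (nat_lit 6216) (nat_lit 6) (nat_lit 74) (nat_lit 2) (nat_lit 57) (nat_lit 59) (nat_lit 28)) (PT.lf (nat_lit 5796) (nat_lit 6)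 (nat_lit 69) (nat_lit 2) (nat_lit 58) (nat_lit 59) (nat_lit 27)))) (PT.nd (nat_lit 188) (PT.nd (nat_lit 94) (PT.lf (nat_lit 5376) (nat_lit 3) (nat_lit 64) (nat_lit 0) (nat_lit 59) (nat_lit 59) (nat_lit 26)) (PT.lf (nat_lit 4956) (nat_lit 6) (nat_lit 59) (nat_lit 0) (nat_lit 60) (nat_lit 59) (nat_lit 25))) (PT.nd (nat_lit 94) (PT.lf (nat_lit 4536) (nat_lit 6) (nat_lit 54) (nat_lit 0) (nat_lit 61) (nat_lit 59) (nat_lit 24)) (PT.nd (nat_lit 94) (PT.lf (nat_lit 4116) (nat_lit 6) (nat_lit 49) (nat_lit 0) (nat_lit 62) (nat_lit 59) (nat_lit 23)) (PT.lf (nat_lit 3696) (nat_lit 6) (nat_lit 44) (nat_lit 0) (nat_lit 63) (nat_lit 59) (nat_lit 22))))))))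
noncomputable def pc25 : PT := (PT.nd (nat_lit 51512) (PT.nd (nat_lit 50666) (PT.nd (nat_lit 50196) (PT.nd (nat_lit 50008) (PT.nd (nat_lit 94) (PT.lf (nat_lit 3360) (nat_lit 6) (nat_lit 40) (nat_lit 0) (nat_lit 64) (nat_lit 59) (nat_lit 21)) (PT.lf (nat_lit 3024) (nat_lit 6) (nat_lit 36) (nat_lit 0) (nat_lit 65) (nat_lit 59) (nat_lit 20))) (PT.nd (nat_lit 94) (PT.lf (nat_lit 2772) (nat_lit 6) (nat_lit 33) (nat_lit 5) (nat_lit 19) (nat_lit 60) (nat_lit 65)) (PT.lf (nat_lit 3108) (nat_lit 6) (nat_lit 37) (nat_lit 5) (nat_lit 20) (nat_lit 60) (nat_lit 64)))) (PT.nd (nat_lit 188) (PT.nd (nat_lit 94) (PT.lf (nat_lit 3444) (nat_lit 6) (nat_lit 41) (nat_lit 5) (nat_lit 21) (nat_lit 60) (nat_lit 63)) (PT.lf (nat_lit 3780) (nat_lit 6) (nat_lit 45) (nat_lit 5) (nat_lit 22) (nat_lit 60) (nat_lit 62))) (PT.nd (nat_lit 94) (PT.lf (nat_lit 4200) (nat_lit 6) (nat_lit 50) (nat_lit 5) (nat_lit 23) (nat_lit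 60) (nat_lit 61)) (PT.nd (nat_lit 94) (PT.lf (nat_lit 4620) (nat_lit 3) (nat_lit 55) (nat_lit 4) (nat_lit 24) (nat_lit 60) (nat_lit 60)) (PT.lf (nat_lit 4956) (nat_lit 6) (nat_lit 59) (nat_lit 4) (nat_lit 25) (nat_lit 60) (nat_lit 59)))))) (PT.nd (nat_lit 376) (PT.nd (nat_lit 188) (PT.nd (nat_lit 94) (PT.lf (nat_lit 5292) (nat_lit 6) (nat_lit 63) (nat_lit 4) (nat_lit 26) (nat_lit 60) (nat_lit 58)) (PT.lf (nat_lit 5712) (nat_lit 6) (nat_lit 68) (nat_lit 4) (nat_lit 27) (nat_lit 60) (nat_lit 57))) (PT.nd (nat_lit 94) (PT.lf (nat_lit 6132) (nat_lit 6) (nat_lit 73) (nat_lit 4) (nat_lit 28) (nat_lit 60) (nat_lit 56)) (PT.lf (nat_lit 6552) (nat_lit 6) (nat_lit 78) (nat_lit 4) (nat_lit 29) (nat_lit 60) (nat_lit 55)))) (PT.nd (nat_lit 188) (PT.nd (nat_lit 94) (PT.lf (nat_lit 6972) (nat_lit 6) (nat_lit 83) (nat_lit 4) (nat_lit 30) (nat_lit 60) (nat_lit 54)) (PT.lf (nat_lit 7476) (nat_lit 6) (nat_lit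 89) (nat_lit 4) (nat_lit 31) (nat_lit 60) (nat_lit 53))) (PT.nd (nat_lit 94) (PT.lf (nat_lit 7980) (nat_lit 6) (nat_lit 95) (nat_lit 4) (nat_lit 32) (nat_lit 60) (nat_lit 52)) (PT.nd (nat_lit 94) (PT.lf (nat_lit 8568) (nat_lit 6) (nat_lit 102) (nat_lit 4) (nat_lit 33) (nat_lit 60) (nat_lit 51)) (PT.lf (nat_lit 9072) (nat_lit 6) (nat_lit 108) (nat_lit 4) (nat_lit 34) (nat_lit 60) (nat_lit 50))))))) (PT.nd (nat_lit 846) (PT.nd (nat_lit 376) (PT.nd (nat_lit 188) (PT.nd (nat_lit 94) (PT.lf (nat_lit 10164) (nat_lit 6) (nat_lit 121) (nat_lit 4) (nat_lit 35) (nat_lit 60) (nat_lit 49)) (PT.lf (nat_lit 11172) (nat_lit 6) (nat_lit 133) (nat_lit 4) (nat_lit 36) (nat_lit 60) (nat_lit 48))) (PT.nd (nat_lit 94) (PT.lf (nat_lit 11088) (nat_lit 6) (nat_lit 132) (nat_lit 4) (nat_lit 37) (nat_lit 60) (nat_lit 47)) (PT.lf (nat_lit 11004) (nat_lit 6) (nat_lit 131) (nat_lit 4) (nat_lit 38) (nat_lit 60) (nat_lit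 46)))) (PT.nd (nat_lit 188) (PT.nd (nat_lit 94) (PT.lf (nat_lit 10920) (nat_lit 6) (nat_lit 130) (nat_lit 4) (nat_lit 39) (nat_lit 60) (nat_lit 45)) (PT.lf (nat_lit 10836) (nat_lit 6) (nat_lit 129) (nat_lit 4) (nat_lit 40) (nat_lit 60) (nat_lit 44))) (PT.nd (nat_lit 94) (PT.lf (nat_lit 10752) (nat_lit 6) (nat_lit 128) (nat_lit 4) (nat_lit 41) (nat_lit 60) (nat_lit 43)) (PT.nd (nat_lit 94) (PT.lf (nat_lit 10668) (nat_lit 3) (nat_lit 127) (nat_lit 2) (nat_lit 42) (nat_lit 60) (nat_lit 42)) (PT.lf (nat_lit 10752) (nat_lit 6) (nat_lit 128) (nat_lit 2) (nat_lit 43) (nat_lit 60) (nat_lit 41)))))) (PT.nd (nat_lit 376) (PT.nd (nat_lit 188) (PT.nd (nat_lit 94) (PT.lf (nat_lit 10836) (nat_lit 6) (nat_lit 129) (nat_lit 2) (nat_lit 44) (nat_lit 60) (nat_lit 40)) (PT.lf (nat_lit 10920) (nat_lit 6) (nat_lit 130) (nat_lit 2) (nat_lit 45) (nat_lit 60) (nat_lit 39))) (PT.nd (nat_lit 94) (PT.lf (nat_lit 11004)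 (nat_lit 6) (nat_lit 131) (nat_lit 2) (nat_lit 46) (nat_lit 60) (nat_lit 38)) (PT.lf (nat_lit 11088) (nat_lit 6) (nat_lit 132) (nat_lit 2) (nat_lit 47) (nat_lit 60) (nat_lit 37)))) (PT.nd (nat_lit 188) (PT.nd (nat_lit 94) (PT.lf (nat_lit 11172) (nat_lit 6) (nat_lit 133) (nat_lit 2) (nat_lit 48) (nat_lit 60) (nat_lit 36)) (PT.lf (nat_lit 10164) (nat_lit 6) (nat_lit 121) (nat_lit 2) (nat_lit 49) (nat_lit 60) (nat_lit 35))) (PT.nd (nat_lit 94) (PT.lf (nat_lit 9072) (nat_lit 6) (nat_lit 108) (nat_lit 2) (nat_lit 50) (nat_lit 60) (nat_lit 34)) (PT.nd (nat_lit 94) (PT.lf (nat_lit 8568) (nat_lit 6) (nat_lit 102) (nat_lit 2) (nat_lit 51) (nat_lit 60) (nat_lit 33)) (PT.lf (nat_lit 7980) (nat_lit 6) (nat_lit 95) (nat_lit 2) (nat_lit 52) (nat_lit 60) (nat_lit 32))))))))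
noncomputable def pc26 : PT := (PT.nd (nat_lit 51324) (PT.nd (nat_lit 846) (PT.nd (nat_lit 376) (PT.nd (nat_lit 188) (PT.nd (nat_lit 94) (PT.lf (nat_lit 7476) (nat_lit 6) (nat_lit 89) (nat_lit 2) (nat_lit 53) (nat_lit 60) (nat_lit 31)) (PT.lf (nat_lit 6972) (nat_lit 6) (nat_lit 83) (nat_lit 2) (nat_lit 54) (nat_lit 60) (nat_lit 30))) (PT.nd (nat_lit 94) (PT.lf (nat_lit 6552) (nat_lit 6) (nat_lit 78) (nat_lit 2) (nat_lit 55) (nat_lit 60) (nat_lit 29)) (PT.lf (nat_lit 6132) (nat_lit 6) (nat_lit 73) (nat_lit 2) (nat_lit 56) (nat_lit 60) (nat_lit 28)))) (PT.nd (nat_lit 188) (PT.nd (nat_lit 94) (PT.lf (nat_lit 5712) (nat_lit 6) (nat_lit 68) (nat_lit 2) (nat_lit 57) (nat_lit 60) (nat_lit 27)) (PT.lf (nat_lit 5292) (nat_lit 6) (nat_lit 63) (nat_lit 2) (nat_lit 58) (nat_lit 60) (nat_lit 26))) (PT.nd (nat_lit 94) (PT.lf (nat_lit 4956) (nat_lit 6) (nat_lit 59) (nat_lit 2) (nat_lit 59) (nat_lit 60)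 (nat_lit 25)) (PT.nd (nat_lit 94) (PT.lf (nat_lit 4620) (nat_lit 3) (nat_lit 55) (nat_lit 0) (nat_lit 60) (nat_lit 60) (nat_lit 24)) (PT.lf (nat_lit 4200) (nat_lit 6) (nat_lit 50) (nat_lit 0) (nat_lit 61) (nat_lit 60) (nat_lit 23)))))) (PT.nd (nat_lit 50008) (PT.nd (nat_lit 188) (PT.nd (nat_lit 94) (PT.lf (nat_lit 3780) (nat_lit 6) (nat_lit 45) (nat_lit 0) (nat_lit 62) (nat_lit 60) (nat_lit 22)) (PT.lf (nat_lit 3444) (nat_lit 6) (nat_lit 41) (nat_lit 0) (nat_lit 63) (nat_lit 60) (nat_lit 21))) (PT.nd (nat_lit 94) (PT.lf (nat_lit 3108) (nat_lit 6) (nat_lit 37) (nat_lit 0) (nat_lit 64) (nat_lit 60) (nat_lit 20)) (PT.lf (nat_lit 2772) (nat_lit 6) (nat_lit 33) (nat_lit 0) (nat_lit 65) (nat_lit 60) (nat_lit 19)))) (PT.nd (nat_lit 188) (PT.nd (nat_lit 94) (PT.lf (nat_lit 2268) (nat_lit 6) (nat_lit 27) (nat_lit 5) (nat_lit 17) (nat_lit 61) (nat_lit 66)) (PT.lf (nat_lit 2520) (nat_lit 6) (nat_lit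 30) (nat_lit 5) (nat_lit 18) (nat_lit 61) (nat_lit 65))) (PT.nd (nat_lit 94) (PT.lf (nat_lit 2856) (nat_lit 6) (nat_lit 34) (nat_lit 5) (nat_lit 19) (nat_lit 61) (nat_lit 64)) (PT.nd (nat_lit 94) (PT.lf (nat_lit 3192) (nat_lit 6) (nat_lit 38) (nat_lit 5) (nat_lit 20) (nat_lit 61) (nat_lit 63)) (PT.lf (nat_lit 3528) (nat_lit 6) (nat_lit 42) (nat_lit 5) (nat_lit 21) (nat_lit 61) (nat_lit 62))))))) (PT.nd (nat_lit 846) (PT.nd (nat_lit 376) (PT.nd (nat_lit 188) (PT.nd (nat_lit 94) (PT.lf (nat_lit 3864) (nat_lit 3) (nat_lit 46) (nat_lit 4) (nat_lit 22) (nat_lit 61) (nat_lit 61)) (PT.lf (nat_lit 4200) (nat_lit 6) (nat_lit 50) (nat_lit 4) (nat_lit 23) (nat_lit 61) (nat_lit 60))) (PT.nd (nat_lit 94) (PT.lf (nat_lit 4536) (nat_lit 6) (nat_lit 54) (nat_lit 4) (nat_lit 24) (nat_lit 61) (nat_lit 59)) (PT.lf (nat_lit 4872) (nat_lit 6) (nat_lit 58) (nat_lit 4) (nat_lit 25) (nat_lit 61) (nat_lit 58))))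 (PT.nd (nat_lit 188) (PT.nd (nat_lit 94) (PT.lf (nat_lit 5208) (nat_lit 6) (nat_lit 62) (nat_lit 4) (nat_lit 26) (nat_lit 61) (nat_lit 57)) (PT.lf (nat_lit 5628) (nat_lit 6) (nat_lit 67) (nat_lit 4) (nat_lit 27) (nat_lit 61) (nat_lit 56))) (PT.nd (nat_lit 94) (PT.lf (nat_lit 6048) (nat_lit 6) (nat_lit 72) (nat_lit 4) (nat_lit 28) (nat_lit 61) (nat_lit 55)) (PT.nd (nat_lit 94) (PT.lf (nat_lit 6468) (nat_lit 6) (nat_lit 77) (nat_lit 4) (nat_lit 29) (nat_lit 61) (nat_lit 54)) (PT.lf (nat_lit 6888) (nat_lit 6) (nat_lit 82) (nat_lit 4) (nat_lit 30) (nat_lit 61) (nat_lit 53)))))) (PT.nd (nat_lit 376) (PT.nd (nat_lit 188) (PT.nd (nat_lit 94) (PT.lf (nat_lit 7392) (nat_lit 6) (nat_lit 88) (nat_lit 4) (nat_lit 31) (nat_lit 61) (nat_lit 52)) (PT.lf (nat_lit 7896) (nat_lit 6) (nat_lit 94) (nat_lit 4) (nat_lit 32) (nat_lit 61) (nat_lit 51))) (PT.nd (nat_lit 94) (PT.lf (nat_lit 8484) (nat_lit 6) (nat_lit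 101) (nat_lit 4) (nat_lit 33) (nat_lit 61) (nat_lit 50)) (PT.lf (nat_lit 8988) (nat_lit 6) (nat_lit 107) (nat_lit 4) (nat_lit 34) (nat_lit 61) (nat_lit 49)))) (PT.nd (nat_lit 188) (PT.nd (nat_lit 94) (PT.lf (nat_lit 10080) (nat_lit 6) (nat_lit 120) (nat_lit 4) (nat_lit 35) (nat_lit 61) (nat_lit 48)) (PT.lf (nat_lit 9996) (nat_lit 6) (nat_lit 119) (nat_lit 4) (nat_lit 36) (nat_lit 61) (nat_lit 47))) (PT.nd (nat_lit 94) (PT.lf (nat_lit 9912) (nat_lit 6) (nat_lit 118) (nat_lit 4) (nat_lit 37) (nat_lit 61) (nat_lit 46)) (PT.nd (nat_lit 94) (PT.lf (nat_lit 9828) (nat_lit 6) (nat_lit 117) (nat_lit 4) (nat_lit 38) (nat_lit 61) (nat_lit 45)) (PT.lf (nat_lit 9744) (nat_lit 6) (nat_lit 116) (nat_lit 4) (nat_lit 39) (nat_lit 61) (nat_lit 44))))))))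
noncomputable def pc27 : PT := (PT.nd (nat_lit 1692) (PT.nd (nat_lit 846) (PT.nd (nat_lit 376) (PT.nd (nat_lit 188) (PT.nd (nat_lit 94) (PT.lf (nat_lit 9660) (nat_lit 6) (nat_lit 115) (nat_lit 4) (nat_lit 40) (nat_lit 61) (nat_lit 43)) (PT.lf (nat_lit 9576) (nat_lit 6) (nat_lit 114) (nat_lit 4) (nat_lit 41) (nat_lit 61) (nat_lit 42))) (PT.nd (nat_lit 94) (PT.lf (nat_lit 9576) (nat_lit 6) (nat_lit 114) (nat_lit 2) (nat_lit 42) (nat_lit 61) (nat_lit 41)) (PT.lf (nat_lit 9660) (nat_lit 6) (nat_lit 115) (nat_lit 2) (nat_lit 43) (nat_lit 61) (nat_lit 40)))) (PT.nd (nat_lit 188) (PT.nd (nat_lit 94) (PT.lf (nat_lit 9744) (nat_lit 6) (nat_lit 116) (nat_lit 2) (nat_lit 44) (nat_lit 61) (nat_lit 39)) (PT.lf (nat_lit 9828) (nat_lit 6) (nat_lit 117) (nat_lit 2) (nat_lit 45) (nat_lit 61) (nat_lit 38))) (PT.nd (nat_lit 94) (PT.lf (nat_lit 9912) (nat_lit 6) (nat_lit 118) (nat_lit 2) (nat_lit 46) (nat_lit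 61) (nat_lit 37)) (PT.nd (nat_lit 94) (PT.lf (nat_lit 9996) (nat_lit 6) (nat_lit 119) (nat_lit 2) (nat_lit 47) (nat_lit 61) (nat_lit 36)) (PT.lf (nat_lit 10080) (nat_lit 6) (nat_lit 120) (nat_lit 2) (nat_lit 48) (nat_lit 61) (nat_lit 35)))))) (PT.nd (nat_lit 376) (PT.nd (nat_lit 188) (PT.nd (nat_lit 94) (PT.lf (nat_lit 8988) (nat_lit 6) (nat_lit 107) (nat_lit 2) (nat_lit 49) (nat_lit 61) (nat_lit 34)) (PT.lf (nat_lit 8484) (nat_lit 6) (nat_lit 101) (nat_lit 2) (nat_lit 50) (nat_lit 61) (nat_lit 33))) (PT.nd (nat_lit 94) (PT.lf (nat_lit 7896) (nat_lit 6) (nat_lit 94) (nat_lit 2) (nat_lit 51) (nat_lit 61) (nat_lit 32)) (PT.lf (nat_lit 7392) (nat_lit 6) (nat_lit 88) (nat_lit 2) (nat_lit 52) (nat_lit 61) (nat_lit 31)))) (PT.nd (nat_lit 188) (PT.nd (nat_lit 94) (PT.lf (nat_lit 6888) (nat_lit 6) (nat_lit 82) (nat_lit 2) (nat_lit 53) (nat_lit 61) (nat_lit 30)) (PT.lf (nat_lit 6468) (nat_lit 6)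 (nat_lit 77) (nat_lit 2) (nat_lit 54) (nat_lit 61) (nat_lit 29))) (PT.nd (nat_lit 94) (PT.lf (nat_lit 6048) (nat_lit 6) (nat_lit 72) (nat_lit 2) (nat_lit 55) (nat_lit 61) (nat_lit 28)) (PT.nd (nat_lit 94) (PT.lf (nat_lit 5628) (nat_lit 6) (nat_lit 67) (nat_lit 2) (nat_lit 56) (nat_lit 61) (nat_lit 27)) (PT.lf (nat_lit 5208) (nat_lit 6) (nat_lit 62) (nat_lit 2) (nat_lit 57) (nat_lit 61) (nat_lit 26))))))) (PT.nd (nat_lit 50290) (PT.nd (nat_lit 376) (PT.nd (nat_lit 188) (PT.nd (nat_lit 94) (PT.lf (nat_lit 4872) (nat_lit 6) (nat_lit 58) (nat_lit 2) (nat_lit 58) (nat_lit 61) (nat_lit 25)) (PT.lf (nat_lit 4536) (nat_lit 6) (nat_lit 54) (nat_lit 2) (nat_lit 59) (nat_lit 61) (nat_lit 24))) (PT.nd (nat_lit 94) (PT.lf (nat_lit 4200) (nat_lit 6) (nat_lit 50) (nat_lit 2) (nat_lit 60) (nat_lit 61) (nat_lit 23)) (PT.lf (nat_lit 3864) (nat_lit 3) (nat_lit 46) (nat_lit 0) (nat_lit 61) (nat_lit 61) (nat_lit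 22)))) (PT.nd (nat_lit 188) (PT.nd (nat_lit 94) (PT.lf (nat_lit 3528) (nat_lit 6) (nat_lit 42) (nat_lit 0) (nat_lit 62) (nat_lit 61) (nat_lit 21)) (PT.lf (nat_lit 3192) (nat_lit 6) (nat_lit 38) (nat_lit 0) (nat_lit 63) (nat_lit 61) (nat_lit 20))) (PT.nd (nat_lit 94) (PT.lf (nat_lit 2856) (nat_lit 6) (nat_lit 34) (nat_lit 0) (nat_lit 64) (nat_lit 61) (nat_lit 19)) (PT.nd (nat_lit 94) (PT.lf (nat_lit 2520) (nat_lit 6) (nat_lit 30) (nat_lit 0) (nat_lit 65) (nat_lit 61) (nat_lit 18)) (PT.lf (nat_lit 2268) (nat_lit 6) (nat_lit 27) (nat_lit 0) (nat_lit 66) (nat_lit 61) (nat_lit 17)))))) (PT.nd (nat_lit 376) (PT.nd (nat_lit 188) (PT.nd (nat_lit 94) (PT.lf (nat_lit 2016) (nat_lit 6) (nat_lit 24) (nat_lit 5) (nat_lit 16) (nat_lit 62) (nat_lit 66)) (PT.lf (nat_lit 2352) (nat_lit 6) (nat_lit 28) (nat_lit 5) (nat_lit 17) (nat_lit 62) (nat_lit 65))) (PT.nd (nat_lit 94) (PT.lf (nat_lit 2604) (nat_lit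 6) (nat_lit 31) (nat_lit 5) (nat_lit 18) (nat_lit 62) (nat_lit 64)) (PT.lf (nat_lit 2940) (nat_lit 6) (nat_lit 35) (nat_lit 5) (nat_lit 19) (nat_lit 62) (nat_lit 63)))) (PT.nd (nat_lit 188) (PT.nd (nat_lit 94) (PT.lf (nat_lit 3276) (nat_lit 3) (nat_lit 39) (nat_lit 4) (nat_lit 20) (nat_lit 62) (nat_lit 62)) (PT.lf (nat_lit 3528) (nat_lit 6) (nat_lit 42) (nat_lit 4) (nat_lit 21) (nat_lit 62) (nat_lit 61))) (PT.nd (nat_lit 94) (PT.lf (nat_lit 3780) (nat_lit 6) (nat_lit 45) (nat_lit 4) (nat_lit 22) (nat_lit 62) (nat_lit 60)) (PT.nd (nat_lit 94) (PT.lf (nat_lit 4116) (nat_lit 6) (nat_lit 49) (nat_lit 4) (nat_lit 23) (nat_lit 62) (nat_lit 59)) (PT.lf (nat_lit 4452) (nat_lit 6) (nat_lit 53) (nat_lit 4) (nat_lit 24) (nat_lit 62) (nat_lit 58))))))))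
noncomputable def pc28 : PT := (PT.nd (nat_lit 3008) (PT.nd (nat_lit 752) (PT.nd (nat_lit 376) (PT.nd (nat_lit 188) (PT.nd (nat_lit 94) (PT.lf (nat_lit 4788) (nat_lit 6) (nat_lit 57) (nat_lit 4) (nat_lit 25) (nat_lit 62) (nat_lit 57)) (PT.lf (nat_lit 5124) (nat_lit 6) (nat_lit 61) (nat_lit 4) (nat_lit 26) (nat_lit 62) (nat_lit 56))) (PT.nd (nat_lit 94) (PT.lf (nat_lit 5544) (nat_lit 6) (nat_lit 66) (nat_lit 4) (nat_lit 27) (nat_lit 62) (nat_lit 55)) (PT.lf (nat_lit 5964) (nat_lit 6) (nat_lit 71) (nat_lit 4) (nat_lit 28) (nat_lit 62) (nat_lit 54)))) (PT.nd (nat_lit 188) (PT.nd (nat_lit 94) (PT.lf (nat_lit 6384) (nat_lit 6) (nat_lit 76) (nat_lit 4) (nat_lit 29) (nat_lit 62) (nat_lit 53)) (PT.lf (nat_lit 6804) (nat_lit 6) (nat_lit 81) (nat_lit 4) (nat_lit 30) (nat_lit 62) (nat_lit 52))) (PT.nd (nat_lit 94) (PT.lf (nat_lit 7308) (nat_lit 6) (nat_lit 87) (nat_lit 4) (nat_lit 31) (nat_lit 62)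 (nat_lit 51)) (PT.lf (nat_lit 7812) (nat_lit 6) (nat_lit 93) (nat_lit 4) (nat_lit 32) (nat_lit 62) (nat_lit 50))))) (PT.nd (nat_lit 1786) (PT.nd (nat_lit 1598) (PT.nd (nat_lit 1504) (PT.lf (nat_lit 8400) (nat_lit 6) (nat_lit 100) (nat_lit 4) (nat_lit 33) (nat_lit 62) (nat_lit 49)) (PT.lf (nat_lit 8400) (nat_lit 6) (nat_lit 100) (nat_lit 2) (nat_lit 49) (nat_lit 62) (nat_lit 33))) (PT.nd (nat_lit 94) (PT.lf (nat_lit 7812) (nat_lit 6) (nat_lit 93) (nat_lit 2) (nat_lit 50) (nat_lit 62) (nat_lit 32)) (PT.lf (nat_lit 7308) (nat_lit 6) (nat_lit 87) (nat_lit 2) (nat_lit 51) (nat_lit 62) (nat_lit 31)))) (PT.nd (nat_lit 188) (PT.nd (nat_lit 94) (PT.lf (nat_lit 6804) (nat_lit 6) (nat_lit 81) (nat_lit 2) (nat_lit 52) (nat_lit 62) (nat_lit 30)) (PT.lf (nat_lit 6384) (nat_lit 6) (nat_lit 76) (nat_lit 2) (nat_lit 53) (nat_lit 62) (nat_lit 29))) (PT.nd (nat_lit 94) (PT.lf (nat_lit 5964) (nat_lit 6) (nat_lit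 71) (nat_lit 2) (nat_lit 54) (nat_lit 62) (nat_lit 28)) (PT.nd (nat_lit 94) (PT.lf (nat_lit 5544) (nat_lit 6) (nat_lit 66) (nat_lit 2) (nat_lit 55) (nat_lit 62) (nat_lit 27)) (PT.lf (nat_lit 5124) (nat_lit 6) (nat_lit 61) (nat_lit 2) (nat_lit 56) (nat_lit 62) (nat_lit 26))))))) (PT.nd (nat_lit 846) (PT.nd (nat_lit 376) (PT.nd (nat_lit 188) (PT.nd (nat_lit 94) (PT.lf (nat_lit 4788) (nat_lit 6) (nat_lit 57) (nat_lit 2) (nat_lit 57) (nat_lit 62) (nat_lit 25)) (PT.lf (nat_lit 4452) (nat_lit 6) (nat_lit 53) (nat_lit 2) (nat_lit 58) (nat_lit 62) (nat_lit 24))) (PT.nd (nat_lit 94) (PT.lf (nat_lit 4116) (nat_lit 6) (nat_lit 49) (nat_lit 2) (nat_lit 59) (nat_lit 62) (nat_lit 23)) (PT.lf (nat_lit 3780) (nat_lit 6) (nat_lit 45) (nat_lit 2) (nat_lit 60) (nat_lit 62) (nat_lit 22)))) (PT.nd (nat_lit 188) (PT.nd (nat_lit 94) (PT.lf (nat_lit 3528) (nat_lit 6) (nat_lit 42) (nat_lit 2) (nat_lit 61) (nat_lit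 62) (nat_lit 21)) (PT.lf (nat_lit 3276) (nat_lit 3) (nat_lit 39) (nat_lit 0) (nat_lit 62) (nat_lit 62) (nat_lit 20))) (PT.nd (nat_lit 94) (PT.lf (nat_lit 2940) (nat_lit 6) (nat_lit 35) (nat_lit 0) (nat_lit 63) (nat_lit 62) (nat_lit 19)) (PT.nd (nat_lit 94) (PT.lf (nat_lit 2604) (nat_lit 6) (nat_lit 31) (nat_lit 0) (nat_lit 64) (nat_lit 62) (nat_lit 18)) (PT.lf (nat_lit 2352) (nat_lit 6) (nat_lit 28) (nat_lit 0) (nat_lit 65) (nat_lit 62) (nat_lit 17)))))) (PT.nd (nat_lit 49632) (PT.nd (nat_lit 49444) (PT.nd (nat_lit 49350) (PT.lf (nat_lit 2016) (nat_lit 6) (nat_lit 24) (nat_lit 0) (nat_lit 66) (nat_lit 62) (nat_lit 16)) (PT.lf (nat_lit 1596) (nat_lit 6) (nat_lit 19) (nat_lit 5) (nat_lit 14) (nat_lit 63) (nat_lit 67))) (PT.nd (nat_lit 94) (PT.lf (nat_lit 1848) (nat_lit 6) (nat_lit 22) (nat_lit 5) (nat_lit 15) (nat_lit 63) (nat_lit 66)) (PT.lf (nat_lit 2100) (nat_lit 6) (nat_lit 25) (nat_lit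 5) (nat_lit 16) (nat_lit 63) (nat_lit 65)))) (PT.nd (nat_lit 188) (PT.nd (nat_lit 94) (PT.lf (nat_lit 2436) (nat_lit 6) (nat_lit 29) (nat_lit 5) (nat_lit 17) (nat_lit 63) (nat_lit 64)) (PT.lf (nat_lit 2688) (nat_lit 3) (nat_lit 32) (nat_lit 4) (nat_lit 18) (nat_lit 63) (nat_lit 63))) (PT.nd (nat_lit 94) (PT.lf (nat_lit 2940) (nat_lit 6) (nat_lit 35) (nat_lit 4) (nat_lit 19) (nat_lit 63) (nat_lit 62)) (PT.nd (nat_lit 94) (PT.lf (nat_lit 3192) (nat_lit 6) (nat_lit 38) (nat_lit 4) (nat_lit 20) (nat_lit 63) (nat_lit 61)) (PT.lf (nat_lit 3444) (nat_lit 6) (nat_lit 41) (nat_lit 4) (nat_lit 21) (nat_lit 63) (nat_lit 60))))))))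
noncomputable def pc29 : PT := (PT.nd (nat_lit 3948) (PT.nd (nat_lit 3102) (PT.nd (nat_lit 376) (PT.nd (nat_lit 188) (PT.nd (nat_lit 94) (PT.lf (nat_lit 3696) (nat_lit 6) (nat_lit 44) (nat_lit 4) (nat_lit 22) (nat_lit 63) (nat_lit 59)) (PT.lf (nat_lit 4032) (nat_lit 6) (nat_lit 48) (nat_lit 4) (nat_lit 23) (nat_lit 63) (nat_lit 58))) (PT.nd (nat_lit 94) (PT.lf (nat_lit 4368) (nat_lit 6) (nat_lit 52) (nat_lit 4) (nat_lit 24) (nat_lit 63) (nat_lit 57)) (PT.lf (nat_lit 4704) (nat_lit 6) (nat_lit 56) (nat_lit 4) (nat_lit 25) (nat_lit 63) (nat_lit 56)))) (PT.nd (nat_lit 188) (PT.nd (nat_lit 94) (PT.lf (nat_lit 5040) (nat_lit 6) (nat_lit 60) (nat_lit 4) (nat_lit 26) (nat_lit 63) (nat_lit 55)) (PT.lf (nat_lit 5460) (nat_lit 6) (nat_lit 65) (nat_lit 4) (nat_lit 27) (nat_lit 63) (nat_lit 54))) (PT.nd (nat_lit 2350) (PT.lf (nat_lit 5880) (nat_lit 6) (nat_lit 70) (nat_lit 4) (nat_lit 28) (nat_lit 63)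 (nat_lit 53)) (PT.nd (nat_lit 94) (PT.lf (nat_lit 5880) (nat_lit 6) (nat_lit 70) (nat_lit 2) (nat_lit 53) (nat_lit 63) (nat_lit 28)) (PT.lf (nat_lit 5460) (nat_lit 6) (nat_lit 65) (nat_lit 2) (nat_lit 54) (nat_lit 63) (nat_lit 27)))))) (PT.nd (nat_lit 376) (PT.nd (nat_lit 188) (PT.nd (nat_lit 94) (PT.lf (nat_lit 5040) (nat_lit 6) (nat_lit 60) (nat_lit 2) (nat_lit 55) (nat_lit 63) (nat_lit 26)) (PT.lf (nat_lit 4704) (nat_lit 6) (nat_lit 56) (nat_lit 2) (nat_lit 56) (nat_lit 63) (nat_lit 25))) (PT.nd (nat_lit 94) (PT.lf (nat_lit 4368) (nat_lit 6) (nat_lit 52) (nat_lit 2) (nat_lit 57) (nat_lit 63) (nat_lit 24)) (PT.lf (nat_lit 4032) (nat_lit 6) (nat_lit 48) (nat_lit 2) (nat_lit 58) (nat_lit 63) (nat_lit 23)))) (PT.nd (nat_lit 188) (PT.nd (nat_lit 94) (PT.lf (nat_lit 3696) (nat_lit 6) (nat_lit 44) (nat_lit 2) (nat_lit 59) (nat_lit 63) (nat_lit 22)) (PT.lf (nat_lit 3444) (nat_lit 6) (nat_lit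 41) (nat_lit 2) (nat_lit 60) (nat_lit 63) (nat_lit 21))) (PT.nd (nat_lit 94) (PT.lf (nat_lit 3192) (nat_lit 6) (nat_lit 38) (nat_lit 2) (nat_lit 61) (nat_lit 63) (nat_lit 20)) (PT.nd (nat_lit 94) (PT.lf (nat_lit 2940) (nat_lit 6) (nat_lit 35) (nat_lit 2) (nat_lit 62) (nat_lit 63) (nat_lit 19)) (PT.lf (nat_lit 2688) (nat_lit 3) (nat_lit 32) (nat_lit 0) (nat_lit 63) (nat_lit 63) (nat_lit 18))))))) (PT.nd (nat_lit 49914) (PT.nd (nat_lit 49444) (PT.nd (nat_lit 188) (PT.nd (nat_lit 94) (PT.lf (nat_lit 2436) (nat_lit 6) (nat_lit 29) (nat_lit 0) (nat_lit 64) (nat_lit 63) (nat_lit 17)) (PT.lf (nat_lit 2100) (nat_lit 6) (nat_lit 25) (nat_lit 0) (nat_lit 65) (nat_lit 63) (nat_lit 16))) (PT.nd (nat_lit 94) (PT.lf (nat_lit 1848) (nat_lit 6) (nat_lit 22) (nat_lit 0) (nat_lit 66) (nat_lit 63) (nat_lit 15)) (PT.lf (nat_lit 1596) (nat_lit 6) (nat_lit 19) (nat_lit 0) (nat_lit 67) (nat_lit 63) (nat_lit 14))))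 (PT.nd (nat_lit 188) (PT.nd (nat_lit 94) (PT.lf (nat_lit 1428) (nat_lit 6) (nat_lit 17) (nat_lit 5) (nat_lit 13) (nat_lit 64) (nat_lit 67)) (PT.lf (nat_lit 1680) (nat_lit 6) (nat_lit 20) (nat_lit 5) (nat_lit 14) (nat_lit 64) (nat_lit 66))) (PT.nd (nat_lit 94) (PT.lf (nat_lit 1932) (nat_lit 6) (nat_lit 23) (nat_lit 5) (nat_lit 15) (nat_lit 64) (nat_lit 65)) (PT.nd (nat_lit 94) (PT.lf (nat_lit 2184) (nat_lit 3) (nat_lit 26) (nat_lit 4) (nat_lit 16) (nat_lit 64) (nat_lit 64)) (PT.lf (nat_lit 2436) (nat_lit 6) (nat_lit 29) (nat_lit 4) (nat_lit 17) (nat_lit 64) (nat_lit 63)))))) (PT.nd (nat_lit 376) (PT.nd (nat_lit 188) (PT.nd (nat_lit 94) (PT.lf (nat_lit 2604) (nat_lit 6) (nat_lit 31) (nat_lit 4) (nat_lit 18) (nat_lit 64) (nat_lit 62)) (PT.lf (nat_lit 2856) (nat_lit 6) (nat_lit 34) (nat_lit 4) (nat_lit 19) (nat_lit 64) (nat_lit 61))) (PT.nd (nat_lit 94) (PT.lf (nat_lit 3108) (nat_lit 6) (nat_lit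 37) (nat_lit 4) (nat_lit 20) (nat_lit 64) (nat_lit 60)) (PT.lf (nat_lit 3360) (nat_lit 6) (nat_lit 40) (nat_lit 4) (nat_lit 21) (nat_lit 64) (nat_lit 59)))) (PT.nd (nat_lit 188) (PT.nd (nat_lit 94) (PT.lf (nat_lit 3612) (nat_lit 6) (nat_lit 43) (nat_lit 4) (nat_lit 22) (nat_lit 64) (nat_lit 58)) (PT.lf (nat_lit 3948) (nat_lit 6) (nat_lit 47) (nat_lit 4) (nat_lit 23) (nat_lit 64) (nat_lit 57))) (PT.nd (nat_lit 3008) (PT.lf (nat_lit 4284) (nat_lit 6) (nat_lit 51) (nat_lit 4) (nat_lit 24) (nat_lit 64) (nat_lit 56)) (PT.nd (nat_lit 94) (PT.lf (nat_lit 4284) (nat_lit 6) (nat_lit 51) (nat_lit 2) (nat_lit 56) (nat_lit 64) (nat_lit 24)) (PT.lf (nat_lit 3948) (nat_lit 6) (nat_lit 47) (nat_lit 2) (nat_lit 57) (nat_lit 64) (nat_lit 23))))))))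
noncomputable def pc30 : PT := (PT.nd (nat_lit 50572) (PT.nd (nat_lit 846) (PT.nd (nat_lit 376) (PT.nd (nat_lit 188) (PT.nd (nat_lit 94) (PT.lf (nat_lit 3612) (nat_lit 6) (nat_lit 43) (nat_lit 2) (nat_lit 58) (nat_lit 64) (nat_lit 22)) (PT.lf (nat_lit 3360) (nat_lit 6) (nat_lit 40) (nat_lit 2) (nat_lit 59) (nat_lit 64) (nat_lit 21))) (PT.nd (nat_lit 94) (PT.lf (nat_lit 3108) (nat_lit 6) (nat_lit 37) (nat_lit 2) (nat_lit 60) (nat_lit 64) (nat_lit 20)) (PT.lf (nat_lit 2856) (nat_lit 6) (nat_lit 34) (nat_lit 2) (nat_lit 61) (nat_lit 64) (nat_lit 19)))) (PT.nd (nat_lit 188) (PT.nd (nat_lit 94) (PT.lf (nat_lit 2604) (nat_lit 6) (nat_lit 31) (nat_lit 2) (nat_lit 62) (nat_lit 64) (nat_lit 18)) (PT.lf (nat_lit 2436) (nat_lit 6) (nat_lit 29) (nat_lit 2) (nat_lit 63) (nat_lit 64) (nat_lit 17))) (PT.nd (nat_lit 94) (PT.lf (nat_lit 2184) (nat_lit 3) (nat_lit 26) (nat_lit 0) (nat_lit 64) (nat_lit 64)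 (nat_lit 16)) (PT.nd (nat_lit 94) (PT.lf (nat_lit 1932) (nat_lit 6) (nat_lit 23) (nat_lit 0) (nat_lit 65) (nat_lit 64) (nat_lit 15)) (PT.lf (nat_lit 1680) (nat_lit 6) (nat_lit 20) (nat_lit 0) (nat_lit 66) (nat_lit 64) (nat_lit 14)))))) (PT.nd (nat_lit 49256) (PT.nd (nat_lit 49068) (PT.nd (nat_lit 48974) (PT.lf (nat_lit 1428) (nat_lit 6) (nat_lit 17) (nat_lit 0) (nat_lit 67) (nat_lit 64) (nat_lit 13)) (PT.lf (nat_lit 1092) (nat_lit 6) (nat_lit 13) (nat_lit 5) (nat_lit 11) (nat_lit 65) (nat_lit 68))) (PT.nd (nat_lit 94) (PT.lf (nat_lit 1260) (nat_lit 6) (nat_lit 15) (nat_lit 5) (nat_lit 12) (nat_lit 65) (nat_lit 67)) (PT.lf (nat_lit 1512) (nat_lit 6) (nat_lit 18) (nat_lit 5) (nat_lit 13) (nat_lit 65) (nat_lit 66)))) (PT.nd (nat_lit 188) (PT.nd (nat_lit 94) (PT.lf (nat_lit 1764) (nat_lit 3) (nat_lit 21) (nat_lit 4) (nat_lit 14) (nat_lit 65) (nat_lit 65)) (PT.lf (nat_lit 1932) (nat_lit 6) (nat_lit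 23) (nat_lit 4) (nat_lit 15) (nat_lit 65) (nat_lit 64))) (PT.nd (nat_lit 94) (PT.lf (nat_lit 2100) (nat_lit 6) (nat_lit 25) (nat_lit 4) (nat_lit 16) (nat_lit 65) (nat_lit 63)) (PT.nd (nat_lit 94) (PT.lf (nat_lit 2352) (nat_lit 6) (nat_lit 28) (nat_lit 4) (nat_lit 17) (nat_lit 65) (nat_lit 62)) (PT.lf (nat_lit 2520) (nat_lit 6) (nat_lit 30) (nat_lit 4) (nat_lit 18) (nat_lit 65) (nat_lit 61))))))) (PT.nd (nat_lit 4418) (PT.nd (nat_lit 3948) (PT.nd (nat_lit 3760) (PT.nd (nat_lit 94) (PT.lf (nat_lit 2772) (nat_lit 6) (nat_lit 33) (nat_lit 4) (nat_lit 19) (nat_lit 65) (nat_lit 60)) (PT.lf (nat_lit 3024) (nat_lit 6) (nat_lit 36) (nat_lit 4) (nat_lit 20) (nat_lit 65) (nat_lit 59))) (PT.nd (nat_lit 94) (PT.lf (nat_lit 3024) (nat_lit 6) (nat_lit 36) (nat_lit 2) (nat_lit 59) (nat_lit 65) (nat_lit 20)) (PT.lf (nat_lit 2772) (nat_lit 6) (nat_lit 33) (nat_lit 2) (nat_lit 60) (nat_lit 65) (nat_lit 19))))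 (PT.nd (nat_lit 188) (PT.nd (nat_lit 94) (PT.lf (nat_lit 2520) (nat_lit 6) (nat_lit 30) (nat_lit 2) (nat_lit 61) (nat_lit 65) (nat_lit 18)) (PT.lf (nat_lit 2352) (nat_lit 6) (nat_lit 28) (nat_lit 2) (nat_lit 62) (nat_lit 65) (nat_lit 17))) (PT.nd (nat_lit 94) (PT.lf (nat_lit 2100) (nat_lit 6) (nat_lit 25) (nat_lit 2) (nat_lit 63) (nat_lit 65) (nat_lit 16)) (PT.nd (nat_lit 94) (PT.lf (nat_lit 1932) (nat_lit 6) (nat_lit 23) (nat_lit 2) (nat_lit 64) (nat_lit 65) (nat_lit 15)) (PT.lf (nat_lit 1764) (nat_lit 3) (nat_lit 21) (nat_lit 0) (nat_lit 65) (nat_lit 65) (nat_lit 14)))))) (PT.nd (nat_lit 49068) (PT.nd (nat_lit 188) (PT.nd (nat_lit 94) (PT.lf (nat_lit 1512) (nat_lit 6) (nat_lit 18) (nat_lit 0) (nat_lit 66) (nat_lit 65) (nat_lit 13)) (PT.lf (nat_lit 1260) (nat_lit 6) (nat_lit 15) (nat_lit 0) (nat_lit 67) (nat_lit 65) (nat_lit 12))) (PT.nd (nat_lit 48786) (PT.lf (nat_lit 1092) (nat_lit 6)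 (nat_lit 13) (nat_lit 0) (nat_lit 68) (nat_lit 65) (nat_lit 11)) (PT.lf (nat_lit 924) (nat_lit 6) (nat_lit 11) (nat_lit 5) (nat_lit 10) (nat_lit 66) (nat_lit 68)))) (PT.nd (nat_lit 188) (PT.nd (nat_lit 94) (PT.lf (nat_lit 1176) (nat_lit 6) (nat_lit 14) (nat_lit 5) (nat_lit 11) (nat_lit 66) (nat_lit 67)) (PT.lf (nat_lit 1344) (nat_lit 3) (nat_lit 16) (nat_lit 4) (nat_lit 12) (nat_lit 66) (nat_lit 66))) (PT.nd (nat_lit 94) (PT.lf (nat_lit 1512) (nat_lit 6) (nat_lit 18) (nat_lit 4) (nat_lit 13) (nat_lit 66) (nat_lit 65)) (PT.nd (nat_lit 94) (PT.lf (nat_lit 1680) (nat_lit 6) (nat_lit 20) (nat_lit 4) (nat_lit 14) (nat_lit 66) (nat_lit 64)) (PT.lf (nat_lit 1848) (nat_lit 6) (nat_lit 22) (nat_lit 4) (nat_lit 15) (nat_lit 66) (nat_lit 63))))))))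
noncomputable def pc31 : PT := (PT.nd (nat_lit 58844) (PT.nd (nat_lit 4888) (PT.nd (nat_lit 4418) (PT.nd (nat_lit 4230) (PT.nd (nat_lit 94) (PT.lf (nat_lit 2016) (nat_lit 6) (nat_lit 24) (nat_lit 4) (nat_lit 16) (nat_lit 66) (nat_lit 62)) (PT.lf (nat_lit 2268) (nat_lit 6) (nat_lit 27) (nat_lit 4) (nat_lit 17) (nat_lit 66) (nat_lit 61))) (PT.nd (nat_lit 94) (PT.lf (nat_lit 2268) (nat_lit 6) (nat_lit 27) (nat_lit 2) (nat_lit 61) (nat_lit 66) (nat_lit 17)) (PT.lf (nat_lit 2016) (nat_lit 6) (nat_lit 24) (nat_lit 2) (nat_lit 62) (nat_lit 66) (nat_lit 16)))) (PT.nd (nat_lit 188) (PT.nd (nat_lit 94) (PT.lf (nat_lit 1848) (nat_lit 6) (nat_lit 22) (nat_lit 2) (nat_lit 63) (nat_lit 66) (nat_lit 15)) (PT.lf (nat_lit 1680) (nat_lit 6) (nat_lit 20) (nat_lit 2) (nat_lit 64) (nat_lit 66) (nat_lit 14))) (PT.nd (nat_lit 94) (PT.lf (nat_lit 1512) (nat_lit 6) (nat_lit 18) (nat_lit 2) (nat_lit 65) (nat_lit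 66) (nat_lit 13)) (PT.nd (nat_lit 94) (PT.lf (nat_lit 1344) (nat_lit 3) (nat_lit 16) (nat_lit 0) (nat_lit 66) (nat_lit 66) (nat_lit 12)) (PT.lf (nat_lit 1176) (nat_lit 6) (nat_lit 14) (nat_lit 0) (nat_lit 67) (nat_lit 66) (nat_lit 11)))))) (PT.nd (nat_lit 48974) (PT.nd (nat_lit 48786) (PT.nd (nat_lit 48692) (PT.lf (nat_lit 924) (nat_lit 6) (nat_lit 11) (nat_lit 0) (nat_lit 68) (nat_lit 66) (nat_lit 10)) (PT.lf (nat_lit 840) (nat_lit 6) (nat_lit 10) (nat_lit 5) (nat_lit 9) (nat_lit 67) (nat_lit 68))) (PT.nd (nat_lit 94) (PT.lf (nat_lit 1008) (nat_lit 3) (nat_lit 12) (nat_lit 4) (nat_lit 10) (nat_lit 67) (nat_lit 67)) (PT.lf (nat_lit 1176) (nat_lit 6) (nat_lit 14) (nat_lit 4) (nat_lit 11) (nat_lit 67) (nat_lit 66)))) (PT.nd (nat_lit 188) (PT.nd (nat_lit 94) (PT.lf (nat_lit 1260) (nat_lit 6) (nat_lit 15) (nat_lit 4) (nat_lit 12) (nat_lit 67) (nat_lit 65)) (PT.lf (nat_lit 1428) (nat_lit 6) (nat_lit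 17) (nat_lit 4) (nat_lit 13) (nat_lit 67) (nat_lit 64))) (PT.nd (nat_lit 4606) (PT.lf (nat_lit 1596) (nat_lit 6) (nat_lit 19) (nat_lit 4) (nat_lit 14) (nat_lit 67) (nat_lit 63)) (PT.nd (nat_lit 94) (PT.lf (nat_lit 1596) (nat_lit 6) (nat_lit 19) (nat_lit 2) (nat_lit 63) (nat_lit 67) (nat_lit 14)) (PT.lf (nat_lit 1428) (nat_lit 6) (nat_lit 17) (nat_lit 2) (nat_lit 64) (nat_lit 67) (nat_lit 13))))))) (PT.nd (nat_lit 54332) (PT.nd (nat_lit 48880) (PT.nd (nat_lit 188) (PT.nd (nat_lit 94) (PT.lf (nat_lit 1260) (nat_lit 6) (nat_lit 15) (nat_lit 2) (nat_lit 65) (nat_lit 67) (nat_lit 12)) (PT.lf (nat_lit 1176) (nat_lit 6) (nat_lit 14) (nat_lit 2) (nat_lit 66) (nat_lit 67) (nat_lit 11))) (PT.nd (nat_lit 94) (PT.lf (nat_lit 1008) (nat_lit 3) (nat_lit 12) (nat_lit 0) (nat_lit 67) (nat_lit 67) (nat_lit 10)) (PT.lf (nat_lit 840) (nat_lit 6) (nat_lit 10) (nat_lit 0) (nat_lit 68) (nat_lit 67) (nat_lit 9))))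 (PT.nd (nat_lit 188) (PT.nd (nat_lit 94) (PT.lf (nat_lit 672) (nat_lit 3) (nat_lit 8) (nat_lit 4) (nat_lit 8) (nat_lit 68) (nat_lit 68)) (PT.lf (nat_lit 840) (nat_lit 6) (nat_lit 10) (nat_lit 4) (nat_lit 9) (nat_lit 68) (nat_lit 67))) (PT.nd (nat_lit 94) (PT.lf (nat_lit 924) (nat_lit 6) (nat_lit 11) (nat_lit 4) (nat_lit 10) (nat_lit 68) (nat_lit 66)) (PT.nd (nat_lit 5076) (PT.lf (nat_lit 1092) (nat_lit 6) (nat_lit 13) (nat_lit 4) (nat_lit 11) (nat_lit 68) (nat_lit 65)) (PT.lf (nat_lit 1092) (nat_lit 6) (nat_lit 13) (nat_lit 2) (nat_lit 65) (nat_lit 68) (nat_lit 11)))))) (PT.nd (nat_lit 102648) (PT.nd (nat_lit 188) (PT.nd (nat_lit 94) (PT.lf (nat_lit 924) (nat_lit 6) (nat_lit 11) (nat_lit 2) (nat_lit 66) (nat_lit 68) (nat_lit 10)) (PT.lf (nat_lit 840) (nat_lit 6) (nat_lit 10) (nat_lit 2) (nat_lit 67) (nat_lit 68) (nat_lit 9))) (PT.nd (nat_lit 102366) (PT.lf (nat_lit 672) (nat_lit 3) (nat_lit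 8) (nat_lit 0) (nat_lit 68) (nat_lit 68) (nat_lit 8)) (PT.lf (nat_lit 84) (nat_lit 6) (nat_lit 1) (nat_lit 5) (nat_lit 3) (nat_lit 70) (nat_lit 71)))) (PT.nd (nat_lit 6298) (PT.nd (nat_lit 6204) (PT.lf (nat_lit 168) (nat_lit 3) (nat_lit 2) (nat_lit 4) (nat_lit 4) (nat_lit 70) (nat_lit 70)) (PT.lf (nat_lit 168) (nat_lit 3) (nat_lit 2) (nat_lit 0) (nat_lit 70) (nat_lit 70) (nat_lit 4))) (PT.nd (nat_lit 47846) (PT.lf (nat_lit 84) (nat_lit 6) (nat_lit 1) (nat_lit 0) (nat_lit 71) (nat_lit 70) (nat_lit 3)) (PT.nd (nat_lit 6298) (PT.lf (nat_lit 84) (nat_lit 6) (nat_lit 1) (nat_lit 4) (nat_lit 3) (nat_lit 71) (nat_lit 70)) (PT.lf (nat_lit 84) (nat_lit 6) (nat_lit 1) (nat_lit 2) (nat_lit 70) (nat_lit 71) (nat_lit 3))))))))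
noncomputable def xc0 : XT := (XT.nd (nat_lit 162714) (nat_lit 0) (nat_lit 0) (XT.nd (nat_lit 108288) (nat_lit 0) (nat_lit 0) (XT.nd (nat_lit 54238) (nat_lit 0) (nat_lit 0) (XT.nd (nat_lit 188) (nat_lit 0) (nat_lit 0) (XT.nd (nat_lit 94) (nat_lit 168) (nat_lit 0) (XT.lf (nat_lit 0) (nat_lit 4675211718) (nat_lit 168) (nat_lit 1770490181) (nat_lit 0) (nat_lit 4675211718) (nat_lit 10) (nat_lit 5) (nat_lit 12) (nat_lit 4) (nat_lit 10) (nat_lit 4) (nat_lit 372) (nat_lit 246) (nat_lit 246)) (XT.lf (nat_lit 0) (nat_lit 1348067788) (nat_lit 168) (nat_lit 10939581268) (nat_lit 168) (nat_lit 10543309391) (nat_lit 8) (nat_lit 4) (nat_lit 10) (nat_lit 5) (nat_lit 10) (nat_lit 4) (nat_lit 373) (nat_lit 246) (nat_lit 245))) (XT.nd (nat_lit 53862) (nat_lit 0) (nat_lit 168) (XT.lf (nat_lit 0) (nat_lit 6362550832) (nat_lit 168) (nat_lit 8928654664) (nat_lit 168) (nat_lit 8148025970) (nat_lit 8) (nat_lit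 4) (nat_lit 10) (nat_lit 5) (nat_lit 10) (nat_lit 4) (nat_lit 374) (nat_lit 246) (nat_lit 244)) (XT.nd (nat_lit 94) (nat_lit 0) (nat_lit 0) (XT.lf (nat_lit 0) (nat_lit 2011017527) (nat_lit 168) (nat_lit 6538125279) (nat_lit 0) (nat_lit 2011017527) (nat_lit 10) (nat_lit 5) (nat_lit 12) (nat_lit 4) (nat_lit 10) (nat_lit 4) (nat_lit 370) (nat_lit 247) (nat_lit 247)) (XT.lf (nat_lit 0) (nat_lit 6862361311) (nat_lit 168) (nat_lit 8355834946) (nat_lit 0) (nat_lit 6453805005) (nat_lit 10) (nat_lit 5) (nat_lit 12) (nat_lit 4) (nat_lit 10) (nat_lit 4) (nat_lit 371) (nat_lit 247) (nat_lit 246))))) (XT.nd (nat_lit 188) (nat_lit 0) (nat_lit 0) (XT.nd (nat_lit 94) (nat_lit 168) (nat_lit 0) (XT.lf (nat_lit 0) (nat_lit 9728176698) (nat_lit 168) (nat_lit 3591313935) (nat_lit 0) (nat_lit 8923348515) (nat_lit 10) (nat_lit 5) (nat_lit 12) (nat_lit 4) (nat_lit 10) (nat_lit 4) (nat_lit 372) (nat_lit 247) (nat_lit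 245)) (XT.lf (nat_lit 0) (nat_lit 1246875264) (nat_lit 168) (nat_lit 11387646350) (nat_lit 168) (nat_lit 10198461351) (nat_lit 8) (nat_lit 4) (nat_lit 10) (nat_lit 5) (nat_lit 10) (nat_lit 4) (nat_lit 373) (nat_lit 247) (nat_lit 244))) (XT.nd (nat_lit 53674) (nat_lit 0) (nat_lit 168) (XT.lf (nat_lit 0) (nat_lit 6213032421) (nat_lit 168) (nat_lit 9395587708) (nat_lit 168) (nat_lit 7833602692) (nat_lit 8) (nat_lit 4) (nat_lit 10) (nat_lit 5) (nat_lit 10) (nat_lit 4) (nat_lit 374) (nat_lit 247) (nat_lit 243)) (XT.nd (nat_lit 94) (nat_lit 168) (nat_lit 0) (XT.lf (nat_lit 0) (nat_lit 8907728226) (nat_lit 168) (nat_lit 563612920) (nat_lit 168) (nat_lit 563612920) (nat_lit 12) (nat_lit 4) (nat_lit 14) (nat_lit 5) (nat_lit 14) (nat_lit 4) (nat_lit 368) (nat_lit 248) (nat_lit 248)) (XT.lf (nat_lit 0) (nat_lit 1625772002) (nat_lit 168) (nat_lit 17756960692) (nat_lit 0) (nat_lit 1204550450) (nat_lit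 10) (nat_lit 5) (nat_lit 12) (nat_lit 4) (nat_lit 10) (nat_lit 4) (nat_lit 369) (nat_lit 248) (nat_lit 247)))))) (XT.nd (nat_lit 53862) (nat_lit 0) (nat_lit 168) (XT.nd (nat_lit 188) (nat_lit 168) (nat_lit 0) (XT.nd (nat_lit 94) (nat_lit 0) (nat_lit 0) (XT.lf (nat_lit 0) (nat_lit 4411498668) (nat_lit 168) (nat_lit 13128144471) (nat_lit 0) (nat_lit 3581720811) (nat_lit 10) (nat_lit 5) (nat_lit 12) (nat_lit 4) (nat_lit 10) (nat_lit 4) (nat_lit 370) (nat_lit 248) (nat_lit 246)) (XT.lf (nat_lit 0) (nat_lit 7221021880) (nat_lit 168) (nat_lit 8458062431) (nat_lit 0) (nat_lit 5994972146) (nat_lit 10) (nat_lit 5) (nat_lit 12) (nat_lit 4) (nat_lit 10) (nat_lit 4) (nat_lit 371) (nat_lit 248) (nat_lit 245))) (XT.nd (nat_lit 94) (nat_lit 168) (nat_lit 0) (XT.lf (nat_lit 0) (nat_lit 10056960407) (nat_lit 168) (nat_lit 3742361568) (nat_lit 0) (nat_lit 8446553856) (nat_lit 10) (nat_lit 5) (nat_lit 12)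 (nat_lit 4) (nat_lit 10) (nat_lit 4) (nat_lit 372) (nat_lit 248) (nat_lit 244)) (XT.nd (nat_lit 94) (nat_lit 0) (nat_lit 0) (XT.lf (nat_lit 0) (nat_lit 1044395896) (nat_lit 168) (nat_lit 11887922280) (nat_lit 168) (nat_lit 9904715714) (nat_lit 8) (nat_lit 4) (nat_lit 10) (nat_lit 5) (nat_lit 10) (nat_lit 4) (nat_lit 373) (nat_lit 248) (nat_lit 243)) (XT.lf (nat_lit 0) (nat_lit 5963680223) (nat_lit 168) (nat_lit 9914164280) (nat_lit 168) (nat_lit 7569367009) (nat_lit 8) (nat_lit 4) (nat_lit 10) (nat_lit 5) (nat_lit 10) (nat_lit 4) (nat_lit 374) (nat_lit 248) (nat_lit 242))))) (XT.nd (nat_lit 282) (nat_lit 168) (nat_lit 0) (XT.nd (nat_lit 94) (nat_lit 0) (nat_lit 0) (XT.lf (nat_lit 0) (nat_lit 3457319823) (nat_lit 168) (nat_lit 3042116974) (nat_lit 168) (nat_lit 3042116974) (nat_lit 12) (nat_lit 4) (nat_lit 14) (nat_lit 5) (nat_lit 14) (nat_lit 4) (nat_lit 366) (nat_lit 249) (nat_lit 249))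 (XT.nd (nat_lit 94) (nat_lit 0) (nat_lit 0) (XT.lf (nat_lit 0) (nat_lit 12307670795) (nat_lit 168) (nat_lit 3854259291) (nat_lit 168) (nat_lit 3406517210) (nat_lit 12) (nat_lit 4) (nat_lit 14) (nat_lit 5) (nat_lit 14) (nat_lit 4) (nat_lit 367) (nat_lit 249) (nat_lit 248)) (XT.lf (nat_lit 0) (nat_lit 17764603438) (nat_lit 168) (nat_lit 1594184702) (nat_lit 168) (nat_lit 712163201) (nat_lit 12) (nat_lit 4) (nat_lit 14) (nat_lit 5) (nat_lit 14) (nat_lit 4) (nat_lit 368) (nat_lit 249) (nat_lit 247)))) (XT.nd (nat_lit 94) (nat_lit 0) (nat_lit 0) (XT.lf (nat_lit 0) (nat_lit 1995551049) (nat_lit 168) (nat_lit 17862357229) (nat_lit 0) (nat_lit 731493772) (nat_lit 10) (nat_lit 5) (nat_lit 12) (nat_lit 4) (nat_lit 10) (nat_lit 4) (nat_lit 369) (nat_lit 249) (nat_lit 246)) (XT.nd (nat_lit 94) (nat_lit 0) (nat_lit 0) (XT.lf (nat_lit 0) (nat_lit 4750474672) (nat_lit 168) (nat_lit 13283874579) (nat_lit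 0) (nat_lit 3090145518) (nat_lit 10) (nat_lit 5) (nat_lit 12) (nat_lit 4) (nat_lit 10) (nat_lit 4) (nat_lit 370) (nat_lit 249) (nat_lit 245)) (XT.lf (nat_lit 0) (nat_lit 7530121023) (nat_lit 168) (nat_lit 8662612687) (nat_lit 0) (nat_lit 5485435052) (nat_lit 10) (nat_lit 5) (nat_lit 12) (nat_lit 4) (nat_lit 10) (nat_lit 4) (nat_lit 371) (nat_lit 249) (nat_lit 244))))))) (XT.nd (nat_lit 54144) (nat_lit 0) (nat_lit 0) (XT.nd (nat_lit 53674) (nat_lit 0) (nat_lit 168) (XT.nd (nat_lit 188) (nat_lit 0) (nat_lit 0) (XT.nd (nat_lit 94) (nat_lit 168) (nat_lit 0) (XT.lf (nat_lit 0) (nat_lit 10337081023) (nat_lit 168) (nat_lit 3994264052) (nat_lit 0) (nat_lit 7919595037) (nat_lit 10) (nat_lit 5) (nat_lit 12) (nat_lit 4) (nat_lit 10) (nat_lit 4) (nat_lit 372) (nat_lit 249) (nat_lit 243)) (XT.lf (nat_lit 0) (nat_lit 740440950) (nat_lit 168) (nat_lit 12440875368) (nat_lit 168) (nat_lit 9661798678) (nat_lit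 8) (nat_lit 4) (nat_lit 10) (nat_lit 5) (nat_lit 10) (nat_lit 4) (nat_lit 373) (nat_lit 249) (nat_lit 242))) (XT.nd (nat_lit 53298) (nat_lit 0) (nat_lit 336) (XT.lf (nat_lit 0) (nat_lit 5614261815) (nat_lit 168) (nat_lit 10484867747) (nat_lit 168) (nat_lit 7355072625) (nat_lit 8) (nat_lit 4) (nat_lit 10) (nat_lit 5) (nat_lit 10) (nat_lit 4) (nat_lit 374) (nat_lit 249) (nat_lit 241)) (XT.nd (nat_lit 94) (nat_lit 168) (nat_lit 0) (XT.lf (nat_lit 0) (nat_lit 3646908490) (nat_lit 168) (nat_lit 1786131471) (nat_lit 0) (nat_lit 3646908490) (nat_lit 14) (nat_lit 5) (nat_lit 16) (nat_lit 4) (nat_lit 14) (nat_lit 4) (nat_lit 364) (nat_lit 250) (nat_lit 250)) (XT.lf (nat_lit 0) (nat_lit 1580483124) (nat_lit 168) (nat_lit 8747809329) (nat_lit 168) (nat_lit 8286187243) (nat_lit 12) (nat_lit 4) (nat_lit 14) (nat_lit 5) (nat_lit 14) (nat_lit 4) (nat_lit 365) (nat_lit 250) (nat_lit 249))))) (XT.nd (nat_lit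 188) (nat_lit 168) (nat_lit 0) (XT.nd (nat_lit 94) (nat_lit 0) (nat_lit 0) (XT.lf (nat_lit 0) (nat_lit 6862210190) (nat_lit 168) (nat_lit 6565668535) (nat_lit 168) (nat_lit 5656304368) (nat_lit 12) (nat_lit 4) (nat_lit 14) (nat_lit 5) (nat_lit 14) (nat_lit 4) (nat_lit 366) (nat_lit 250) (nat_lit 248)) (XT.lf (nat_lit 0) (nat_lit 12204388324) (nat_lit 168) (nat_lit 4354910659) (nat_lit 168) (nat_lit 3011267072) (nat_lit 12) (nat_lit 4) (nat_lit 14) (nat_lit 5) (nat_lit 14) (nat_lit 4) (nat_lit 367) (nat_lit 250) (nat_lit 247))) (XT.nd (nat_lit 94) (nat_lit 168) (nat_lit 0) (XT.lf (nat_lit 0) (nat_lit 17611996997) (nat_lit 168) (nat_lit 2113475043) (nat_lit 168) (nat_lit 348609905) (nat_lit 12) (nat_lit 4) (nat_lit 14) (nat_lit 5) (nat_lit 14) (nat_lit 4) (nat_lit 368) (nat_lit 250) (nat_lit 246)) (XT.nd (nat_lit 94) (nat_lit 0) (nat_lit 0) (XT.lf (nat_lit 0) (nat_lit 2314232265) (nat_lit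 168) (nat_lit 18073248543) (nat_lit 0) (nat_lit 206161029) (nat_lit 10) (nat_lit 5) (nat_lit 12) (nat_lit 4) (nat_lit 10) (nat_lit 4) (nat_lit 369) (nat_lit 250) (nat_lit 245)) (XT.lf (nat_lit 0) (nat_lit 5039279027) (nat_lit 168) (nat_lit 13543586041) (nat_lit 0) (nat_lit 2546850975) (nat_lit 10) (nat_lit 5) (nat_lit 12) (nat_lit 4) (nat_lit 10) (nat_lit 4) (nat_lit 370) (nat_lit 250) (nat_lit 244)))))) (XT.nd (nat_lit 53486) (nat_lit 0) (nat_lit 336) (XT.nd (nat_lit 188) (nat_lit 168) (nat_lit 0) (XT.nd (nat_lit 94) (nat_lit 0) (nat_lit 0) (XT.lf (nat_lit 0) (nat_lit 7789946851) (nat_lit 168) (nat_lit 8969676377) (nat_lit 0) (nat_lit 4924718783) (nat_lit 10) (nat_lit 5) (nat_lit 12) (nat_lit 4) (nat_lit 10) (nat_lit 4) (nat_lit 371) (nat_lit 250) (nat_lit 243)) (XT.lf (nat_lit 0) (nat_lit 10568799647) (nat_lit 168) (nat_lit 4347256188) (nat_lit 0) (nat_lit 7341980876) (nat_lit 10) (nat_lit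 5) (nat_lit 12) (nat_lit 4) (nat_lit 10) (nat_lit 4) (nat_lit 372) (nat_lit 250) (nat_lit 242))) (XT.nd (nat_lit 94) (nat_lit 0) (nat_lit 0) (XT.lf (nat_lit 0) (nat_lit 334727109) (nat_lit 168) (nat_lit 13047021023) (nat_lit 168) (nat_lit 9469483819) (nat_lit 8) (nat_lit 4) (nat_lit 10) (nat_lit 5) (nat_lit 10) (nat_lit 4) (nat_lit 373) (nat_lit 250) (nat_lit 241)) (XT.nd (nat_lit 53110) (nat_lit 0) (nat_lit 504) (XT.lf (nat_lit 0) (nat_lit 5164451503) (nat_lit 168) (nat_lit 11108230066) (nat_lit 168) (nat_lit 7190519795) (nat_lit 8) (nat_lit 4) (nat_lit 10) (nat_lit 5) (nat_lit 10) (nat_lit 4) (nat_lit 374) (nat_lit 250) (nat_lit 240)) (XT.lf (nat_lit 0) (nat_lit 920111898) (nat_lit 168) (nat_lit 6807640045) (nat_lit 0) (nat_lit 920111898) (nat_lit 14) (nat_lit 5) (nat_lit 16) (nat_lit 4) (nat_lit 14) (nat_lit 4) (nat_lit 362) (nat_lit 251) (nat_lit 251))))) (XT.nd (nat_lit 282) (nat_lit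 0) (nat_lit 0) (XT.nd (nat_lit 94) (nat_lit 168) (nat_lit 0) (XT.lf (nat_lit 0) (nat_lit 4776532637) (nat_lit 168) (nat_lit 8643529834) (nat_lit 0) (nat_lit 4300600266) (nat_lit 14) (nat_lit 5) (nat_lit 16) (nat_lit 4) (nat_lit 14) (nat_lit 4) (nat_lit 363) (nat_lit 251) (nat_lit 250)) (XT.nd (nat_lit 94) (nat_lit 168) (nat_lit 0) (XT.lf (nat_lit 0) (nat_lit 7736657501) (nat_lit 168) (nat_lit 3625228630) (nat_lit 0) (nat_lit 6799103044) (nat_lit 14) (nat_lit 5) (nat_lit 16) (nat_lit 4) (nat_lit 14) (nat_lit 4) (nat_lit 364) (nat_lit 251) (nat_lit 249)) (XT.lf (nat_lit 0) (nat_lit 1473998897) (nat_lit 168) (nat_lit 9263980889) (nat_lit 168) (nat_lit 7878684351) (nat_lit 12) (nat_lit 4) (nat_lit 14) (nat_lit 5) (nat_lit 14) (nat_lit 4) (nat_lit 365) (nat_lit 251) (nat_lit 248)))) (XT.nd (nat_lit 94) (nat_lit 0) (nat_lit 0) (XT.lf (nat_lit 0) (nat_lit 6704872949) (nat_lit 168) (nat_lit 7101056876)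 (nat_lit 168) (nat_lit 5281480919) (nat_lit 12) (nat_lit 4) (nat_lit 14) (nat_lit 5) (nat_lit 14) (nat_lit 4) (nat_lit 366) (nat_lit 251) (nat_lit 247)) (XT.nd (nat_lit 94) (nat_lit 0) (nat_lit 0) (XT.lf (nat_lit 0) (nat_lit 11997727114) (nat_lit 168) (nat_lit 4908937973) (nat_lit 168) (nat_lit 2668140465) (nat_lit 12) (nat_lit 4) (nat_lit 14) (nat_lit 5) (nat_lit 14) (nat_lit 4) (nat_lit 367) (nat_lit 251) (nat_lit 246)) (XT.lf (nat_lit 0) (nat_lit 17357494884) (nat_lit 168) (nat_lit 2685580895) (nat_lit 168) (nat_lit 36227081) (nat_lit 12) (nat_lit 4) (nat_lit 14) (nat_lit 5) (nat_lit 14) (nat_lit 4) (nat_lit 368) (nat_lit 251) (nat_lit 245))))))))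
noncomputable def xc1 : XT := (XT.nd (nat_lit 107442) (nat_lit 0) (nat_lit 0) (XT.nd (nat_lit 53768) (nat_lit 0) (nat_lit 0) (XT.nd (nat_lit 470) (nat_lit 168) (nat_lit 0) (XT.nd (nat_lit 188) (nat_lit 0) (nat_lit 0) (XT.nd (nat_lit 94) (nat_lit 0) (nat_lit 0) (XT.lf (nat_lit 0) (nat_lit 2206292986) (nat_lit 84) (nat_lit 379585240) (nat_lit 168) (nat_lit 18014011500) (nat_lit 10) (nat_lit 5) (nat_lit 11) (nat_lit 5) (nat_lit 12) (nat_lit 4) (nat_lit 369) (nat_lit 251) (nat_lit 244)) (XT.lf (nat_lit 0) (nat_lit 5278180929) (nat_lit 168) (nat_lit 13907520933) (nat_lit 0) (nat_lit 1951330776) (nat_lit 10) (nat_lit 5) (nat_lit 12) (nat_lit 4) (nat_lit 10) (nat_lit 4) (nat_lit 370) (nat_lit 251) (nat_lit 243))) (XT.nd (nat_lit 94) (nat_lit 0) (nat_lit 0) (XT.lf (nat_lit 0) (nat_lit 8000741550) (nat_lit 168) (nat_lit 9379539716) (nat_lit 0) (nat_lit 4312300692) (nat_lit 10) (nat_lit 5) (nat_lit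 12) (nat_lit 4) (nat_lit 10) (nat_lit 4) (nat_lit 371) (nat_lit 251) (nat_lit 242)) (XT.nd (nat_lit 94) (nat_lit 0) (nat_lit 0) (XT.lf (nat_lit 0) (nat_lit 10752332267) (nat_lit 168) (nat_lit 4801667002) (nat_lit 0) (nat_lit 6713172977) (nat_lit 10) (nat_lit 5) (nat_lit 12) (nat_lit 4) (nat_lit 10) (nat_lit 4) (nat_lit 372) (nat_lit 251) (nat_lit 241)) (XT.lf (nat_lit 0) (nat_lit 13535517853) (nat_lit 168) (nat_lit 169635735) (nat_lit 0) (nat_lit 9156185495) (nat_lit 10) (nat_lit 5) (nat_lit 12) (nat_lit 4) (nat_lit 10) (nat_lit 4) (nat_lit 373) (nat_lit 251) (nat_lit 240))))) (XT.nd (nat_lit 53016) (nat_lit 0) (nat_lit 504) (XT.nd (nat_lit 52922) (nat_lit 0) (nat_lit 672) (XT.lf (nat_lit 0) (nat_lit 4613830016) (nat_lit 168) (nat_lit 11784832275) (nat_lit 168) (nat_lit 7075555138) (nat_lit 8) (nat_lit 4) (nat_lit 10) (nat_lit 5) (nat_lit 10) (nat_lit 4) (nat_lit 374) (nat_lit 251) (nat_lit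 239)) (XT.lf (nat_lit 0) (nat_lit 4831395095) (nat_lit 168) (nat_lit 1705562274) (nat_lit 168) (nat_lit 1705562274) (nat_lit 16) (nat_lit 4) (nat_lit 18) (nat_lit 5) (nat_lit 18) (nat_lit 4) (nat_lit 360) (nat_lit 252) (nat_lit 252))) (XT.nd (nat_lit 94) (nat_lit 168) (nat_lit 0) (XT.lf (nat_lit 0) (nat_lit 15242235570) (nat_lit 168) (nat_lit 1074212011) (nat_lit 168) (nat_lit 568314462) (nat_lit 16) (nat_lit 4) (nat_lit 18) (nat_lit 5) (nat_lit 18) (nat_lit 4) (nat_lit 361) (nat_lit 252) (nat_lit 251)) (XT.nd (nat_lit 94) (nat_lit 0) (nat_lit 0) (XT.lf (nat_lit 0) (nat_lit 2296792373) (nat_lit 168) (nat_lit 13669887713) (nat_lit 0) (nat_lit 1330173728) (nat_lit 14) (nat_lit 5) (nat_lit 16) (nat_lit 4) (nat_lit 14) (nat_lit 4) (nat_lit 362) (nat_lit 252) (nat_lit 250)) (XT.lf (nat_lit 0) (nat_lit 5200009361) (nat_lit 168) (nat_lit 8751103144) (nat_lit 0) (nat_lit 3771768631) (nat_lit 14)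 (nat_lit 5) (nat_lit 16) (nat_lit 4) (nat_lit 14) (nat_lit 4) (nat_lit 363) (nat_lit 252) (nat_lit 249)))))) (XT.nd (nat_lit 470) (nat_lit 252) (nat_lit 0) (XT.nd (nat_lit 188) (nat_lit 84) (nat_lit 0) (XT.nd (nat_lit 94) (nat_lit 168) (nat_lit 0) (XT.lf (nat_lit 0) (nat_lit 8128037376) (nat_lit 168) (nat_lit 3784175060) (nat_lit 0) (nat_lit 6252054564) (nat_lit 14) (nat_lit 5) (nat_lit 16) (nat_lit 4) (nat_lit 14) (nat_lit 4) (nat_lit 364) (nat_lit 252) (nat_lit 248)) (XT.lf (nat_lit 0) (nat_lit 1260931189) (nat_lit 168) (nat_lit 9835183050) (nat_lit 168) (nat_lit 7524920819) (nat_lit 12) (nat_lit 4) (nat_lit 14) (nat_lit 5) (nat_lit 14) (nat_lit 4) (nat_lit 365) (nat_lit 252) (nat_lit 247))) (XT.nd (nat_lit 94) (nat_lit 84) (nat_lit 0) (XT.lf (nat_lit 0) (nat_lit 6442481271) (nat_lit 168) (nat_lit 7690898010) (nat_lit 168) (nat_lit 4959414228) (nat_lit 12) (nat_lit 4) (nat_lit 14) (nat_lit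 5) (nat_lit 14) (nat_lit 4) (nat_lit 366) (nat_lit 252) (nat_lit 246)) (XT.nd (nat_lit 94) (nat_lit 84) (nat_lit 0) (XT.lf (nat_lit 0) (nat_lit 11687494533) (nat_lit 168) (nat_lit 5516857645) (nat_lit 168) (nat_lit 2376817557) (nat_lit 12) (nat_lit 4) (nat_lit 14) (nat_lit 5) (nat_lit 14) (nat_lit 4) (nat_lit 367) (nat_lit 252) (nat_lit 245)) (XT.lf (nat_lit 0) (nat_lit 220737625) (nat_lit 252) (nat_lit 3087993847) (nat_lit 84) (nat_lit 16777818202) (nat_lit 11) (nat_lit 5) (nat_lit 14) (nat_lit 5) (nat_lit 12) (nat_lit 4) (nat_lit 368) (nat_lit 252) (nat_lit 244))))) (XT.nd (nat_lit 282) (nat_lit 168) (nat_lit 0) (XT.nd (nat_lit 94) (nat_lit 0) (nat_lit 0) (XT.lf (nat_lit 0) (nat_lit 1785628716) (nat_lit 84) (nat_lit 1023971233) (nat_lit 168) (nat_lit 17798586997) (nat_lit 10) (nat_lit 5) (nat_lit 11) (nat_lit 5) (nat_lit 12) (nat_lit 4) (nat_lit 369) (nat_lit 252) (nat_lit 243)) (XT.nd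 (nat_lit 94) (nat_lit 0) (nat_lit 0) (XT.lf (nat_lit 0) (nat_lit 5467403060) (nat_lit 168) (nat_lit 14376018482) (nat_lit 0) (nat_lit 1303029832) (nat_lit 10) (nat_lit 5) (nat_lit 12) (nat_lit 4) (nat_lit 10) (nat_lit 4) (nat_lit 370) (nat_lit 252) (nat_lit 242)) (XT.lf (nat_lit 0) (nat_lit 8162701602) (nat_lit 168) (nat_lit 9892584740) (nat_lit 0) (nat_lit 3647609941) (nat_lit 10) (nat_lit 5) (nat_lit 12) (nat_lit 4) (nat_lit 10) (nat_lit 4) (nat_lit 371) (nat_lit 252) (nat_lit 241)))) (XT.nd (nat_lit 94) (nat_lit 168) (nat_lit 0) (XT.lf (nat_lit 0) (nat_lit 10887849954) (nat_lit 168) (nat_lit 5357920052) (nat_lit 0) (nat_lit 6032585226) (nat_lit 10) (nat_lit 5) (nat_lit 12) (nat_lit 4) (nat_lit 10) (nat_lit 4) (nat_lit 372) (nat_lit 252) (nat_lit 240)) (XT.nd (nat_lit 94) (nat_lit 168) (nat_lit 0) (XT.lf (nat_lit 0) (nat_lit 13645388240) (nat_lit 168) (nat_lit 767797636) (nat_lit 0) (nat_lit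 8460178733) (nat_lit 10) (nat_lit 5) (nat_lit 12) (nat_lit 4) (nat_lit 10) (nat_lit 4) (nat_lit 373) (nat_lit 252) (nat_lit 239)) (XT.lf (nat_lit 0) (nat_lit 3961884117) (nat_lit 168) (nat_lit 12515305038) (nat_lit 168) (nat_lit 7010071497) (nat_lit 8) (nat_lit 4) (nat_lit 10) (nat_lit 5) (nat_lit 10) (nat_lit 4) (nat_lit 374) (nat_lit 252) (nat_lit 238))))))) (XT.nd (nat_lit 1034) (nat_lit 252) (nat_lit 0) (XT.nd (nat_lit 470) (nat_lit 252) (nat_lit 0) (XT.nd (nat_lit 188) (nat_lit 168) (nat_lit 0) (XT.nd (nat_lit 94) (nat_lit 168) (nat_lit 0) (XT.lf (nat_lit 0) (nat_lit 3623253556) (nat_lit 252) (nat_lit 616693886) (nat_lit 0) (nat_lit 3623253556) (nat_lit 18) (nat_lit 5) (nat_lit 21) (nat_lit 4) (nat_lit 18) (nat_lit 4) (nat_lit 358) (nat_lit 253) (nat_lit 253)) (XT.lf (nat_lit 0) (nat_lit 4145805780) (nat_lit 168) (nat_lit 6237664982) (nat_lit 168) (nat_lit 5716084609) (nat_lit 16) (nat_lit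 4) (nat_lit 18) (nat_lit 5) (nat_lit 18) (nat_lit 4) (nat_lit 359) (nat_lit 253) (nat_lit 252))) (XT.nd (nat_lit 94) (nat_lit 168) (nat_lit 0) (XT.lf (nat_lit 0) (nat_lit 9609335957) (nat_lit 168) (nat_lit 3952154101) (nat_lit 168) (nat_lit 2924676180) (nat_lit 16) (nat_lit 4) (nat_lit 18) (nat_lit 5) (nat_lit 18) (nat_lit 4) (nat_lit 360) (nat_lit 253) (nat_lit 251)) (XT.nd (nat_lit 94) (nat_lit 168) (nat_lit 0) (XT.lf (nat_lit 0) (nat_lit 15136934357) (nat_lit 168) (nat_lit 1634105947) (nat_lit 168) (nat_lit 115941752) (nat_lit 16) (nat_lit 4) (nat_lit 18) (nat_lit 5) (nat_lit 18) (nat_lit 4) (nat_lit 361) (nat_lit 253) (nat_lit 250)) (XT.lf (nat_lit 0) (nat_lit 2700305024) (nat_lit 168) (nat_lit 13833761483) (nat_lit 0) (nat_lit 766166745) (nat_lit 14) (nat_lit 5) (nat_lit 16) (nat_lit 4) (nat_lit 14) (nat_lit 4) (nat_lit 362) (nat_lit 253) (nat_lit 249))))) (XT.nd (nat_lit 282) (nat_lit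 84) (nat_lit 0) (XT.nd (nat_lit 94) (nat_lit 168) (nat_lit 0) (XT.lf (nat_lit 0) (nat_lit 5571425163) (nat_lit 168) (nat_lit 8966350034) (nat_lit 0) (nat_lit 3189544803) (nat_lit 14) (nat_lit 5) (nat_lit 16) (nat_lit 4) (nat_lit 14) (nat_lit 4) (nat_lit 363) (nat_lit 253) (nat_lit 248)) (XT.nd (nat_lit 94) (nat_lit 168) (nat_lit 0) (XT.lf (nat_lit 0) (nat_lit 8468321413) (nat_lit 168) (nat_lit 4049250388) (nat_lit 0) (nat_lit 5652161634) (nat_lit 14) (nat_lit 5) (nat_lit 16) (nat_lit 4) (nat_lit 14) (nat_lit 4) (nat_lit 364) (nat_lit 253) (nat_lit 247)) (XT.lf (nat_lit 0) (nat_lit 941081398) (nat_lit 168) (nat_lit 10461948231) (nat_lit 168) (nat_lit 7224566900) (nat_lit 12) (nat_lit 4) (nat_lit 14) (nat_lit 5) (nat_lit 14) (nat_lit 4) (nat_lit 365) (nat_lit 253) (nat_lit 246)))) (XT.nd (nat_lit 94) (nat_lit 84) (nat_lit 0) (XT.lf (nat_lit 0) (nat_lit 6074790577) (nat_lit 168) (nat_lit 8335741730)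 (nat_lit 168) (nat_lit 4689804093) (nat_lit 12) (nat_lit 4) (nat_lit 14) (nat_lit 5) (nat_lit 14) (nat_lit 4) (nat_lit 366) (nat_lit 253) (nat_lit 245)) (XT.nd (nat_lit 94) (nat_lit 84) (nat_lit 0) (XT.lf (nat_lit 0) (nat_lit 11273401412) (nat_lit 168) (nat_lit 6179236319) (nat_lit 168) (nat_lit 2137026805) (nat_lit 12) (nat_lit 4) (nat_lit 14) (nat_lit 5) (nat_lit 14) (nat_lit 4) (nat_lit 367) (nat_lit 253) (nat_lit 244)) (XT.lf (nat_lit 0) (nat_lit 427357081) (nat_lit 252) (nat_lit 3558604098) (nat_lit 84) (nat_lit 16109941739) (nat_lit 11) (nat_lit 5) (nat_lit 14) (nat_lit 5) (nat_lit 12) (nat_lit 4) (nat_lit 368) (nat_lit 253) (nat_lit 243)))))) (XT.nd (nat_lit 470) (nat_lit 168) (nat_lit 0) (XT.nd (nat_lit 188) (nat_lit 0) (nat_lit 0) (XT.nd (nat_lit 94) (nat_lit 0) (nat_lit 0) (XT.lf (nat_lit 0) (nat_lit 1260160279) (nat_lit 84) (nat_lit 1723358492) (nat_lit 168) (nat_lit 17635087166)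 (nat_lit 10) (nat_lit 5) (nat_lit 11) (nat_lit 5) (nat_lit 12) (nat_lit 4) (nat_lit 369) (nat_lit 253) (nat_lit 242)) (XT.lf (nat_lit 0) (nat_lit 5607121795) (nat_lit 168) (nat_lit 14949515377) (nat_lit 0) (nat_lit 601343861) (nat_lit 10) (nat_lit 5) (nat_lit 12) (nat_lit 4) (nat_lit 10) (nat_lit 4) (nat_lit 370) (nat_lit 253) (nat_lit 241))) (XT.nd (nat_lit 94) (nat_lit 0) (nat_lit 0) (XT.lf (nat_lit 0) (nat_lit 8275977971) (nat_lit 168) (nat_lit 10509289660) (nat_lit 0) (nat_lit 2930026969) (nat_lit 10) (nat_lit 5) (nat_lit 12) (nat_lit 4) (nat_lit 10) (nat_lit 4) (nat_lit 371) (nat_lit 253) (nat_lit 240)) (XT.nd (nat_lit 94) (nat_lit 0) (nat_lit 0) (XT.lf (nat_lit 0) (nat_lit 10975479024) (nat_lit 168) (nat_lit 6016533824) (nat_lit 0) (nat_lit 5299583243) (nat_lit 10) (nat_lit 5) (nat_lit 12) (nat_lit 4) (nat_lit 10) (nat_lit 4) (nat_lit 372) (nat_lit 253) (nat_lit 239)) (XT.lf (nat_lit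 0) (nat_lit 13708141171) (nat_lit 168) (nat_lit 1467060149) (nat_lit 0) (nat_lit 7712221355) (nat_lit 10) (nat_lit 5) (nat_lit 12) (nat_lit 4) (nat_lit 10) (nat_lit 4) (nat_lit 373) (nat_lit 253) (nat_lit 238))))) (XT.nd (nat_lit 52734) (nat_lit 0) (nat_lit 672) (XT.nd (nat_lit 52546) (nat_lit 0) (nat_lit 840) (XT.lf (nat_lit 0) (nat_lit 3208006124) (nat_lit 168) (nat_lit 13300329233) (nat_lit 168) (nat_lit 6994007832) (nat_lit 8) (nat_lit 4) (nat_lit 10) (nat_lit 5) (nat_lit 10) (nat_lit 4) (nat_lit 374) (nat_lit 253) (nat_lit 237)) (XT.nd (nat_lit 94) (nat_lit 0) (nat_lit 0) (XT.lf (nat_lit 0) (nat_lit 850298582) (nat_lit 252) (nat_lit 5807687683) (nat_lit 0) (nat_lit 850298582) (nat_lit 18) (nat_lit 5) (nat_lit 21) (nat_lit 4) (nat_lit 18) (nat_lit 4) (nat_lit 356) (nat_lit 254) (nat_lit 254)) (XT.lf (nat_lit 0) (nat_lit 4713517745) (nat_lit 252) (nat_lit 6476201280) (nat_lit 0) (nat_lit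 4175768381) (nat_lit 18) (nat_lit 5) (nat_lit 21) (nat_lit 4) (nat_lit 18) (nat_lit 4) (nat_lit 357) (nat_lit 254) (nat_lit 253)))) (XT.nd (nat_lit 94) (nat_lit 168) (nat_lit 0) (XT.lf (nat_lit 0) (nat_lit 7749743976) (nat_lit 252) (nat_lit 1287388718) (nat_lit 0) (nat_lit 6690414240) (nat_lit 18) (nat_lit 5) (nat_lit 21) (nat_lit 4) (nat_lit 18) (nat_lit 4) (nat_lit 358) (nat_lit 254) (nat_lit 252)) (XT.nd (nat_lit 94) (nat_lit 0) (nat_lit 0) (XT.lf (nat_lit 0) (nat_lit 4037240231) (nat_lit 168) (nat_lit 6814915630) (nat_lit 168) (nat_lit 5249688345) (nat_lit 16) (nat_lit 4) (nat_lit 18) (nat_lit 5) (nat_lit 18) (nat_lit 4) (nat_lit 359) (nat_lit 254) (nat_lit 251)) (XT.lf (nat_lit 0) (nat_lit 9448923429) (nat_lit 168) (nat_lit 4548269133) (nat_lit 168) (nat_lit 2492355574) (nat_lit 16) (nat_lit 4) (nat_lit 18) (nat_lit 5) (nat_lit 18) (nat_lit 4) (nat_lit 360) (nat_lit 254) (nat_lit 250))))))))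
noncomputable def xc2 : XT := (XT.nd (nat_lit 54238) (nat_lit 0) (nat_lit 0) (XT.nd (nat_lit 940) (nat_lit 168) (nat_lit 0) (XT.nd (nat_lit 470) (nat_lit 168) (nat_lit 0) (XT.nd (nat_lit 188) (nat_lit 168) (nat_lit 0) (XT.nd (nat_lit 94) (nat_lit 84) (nat_lit 0) (XT.lf (nat_lit 0) (nat_lit 277619356) (nat_lit 252) (nat_lit 1968001016) (nat_lit 84) (nat_lit 14645716648) (nat_lit 15) (nat_lit 5) (nat_lit 18) (nat_lit 5) (nat_lit 16) (nat_lit 4) (nat_lit 361) (nat_lit 254) (nat_lit 249)) (XT.lf (nat_lit 0) (nat_lit 3051137867) (nat_lit 168) (nat_lit 14107054146) (nat_lit 0) (nat_lit 147677134) (nat_lit 14) (nat_lit 5) (nat_lit 16) (nat_lit 4) (nat_lit 14) (nat_lit 4) (nat_lit 362) (nat_lit 254) (nat_lit 248))) (XT.nd (nat_lit 94) (nat_lit 168) (nat_lit 0) (XT.lf (nat_lit 0) (nat_lit 5891126242) (nat_lit 168) (nat_lit 9289471135) (nat_lit 0) (nat_lit 2553386090) (nat_lit 14) (nat_lit 5) (nat_lit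 16) (nat_lit 4) (nat_lit 14) (nat_lit 4) (nat_lit 363) (nat_lit 254) (nat_lit 247)) (XT.nd (nat_lit 94) (nat_lit 168) (nat_lit 0) (XT.lf (nat_lit 0) (nat_lit 8757826794) (nat_lit 168) (nat_lit 4420701692) (nat_lit 0) (nat_lit 4998865091) (nat_lit 14) (nat_lit 5) (nat_lit 16) (nat_lit 4) (nat_lit 14) (nat_lit 4) (nat_lit 364) (nat_lit 254) (nat_lit 246)) (XT.lf (nat_lit 0) (nat_lit 514151390) (nat_lit 168) (nat_lit 11144860644) (nat_lit 168) (nat_lit 6977342635) (nat_lit 12) (nat_lit 4) (nat_lit 14) (nat_lit 5) (nat_lit 14) (nat_lit 4) (nat_lit 365) (nat_lit 254) (nat_lit 245))))) (XT.nd (nat_lit 188) (nat_lit 168) (nat_lit 0) (XT.nd (nat_lit 94) (nat_lit 0) (nat_lit 0) (XT.lf (nat_lit 0) (nat_lit 5601458143) (nat_lit 168) (nat_lit 9036189097) (nat_lit 168) (nat_lit 4472399210) (nat_lit 12) (nat_lit 4) (nat_lit 14) (nat_lit 5) (nat_lit 14) (nat_lit 4) (nat_lit 366) (nat_lit 254) (nat_lit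 244)) (XT.lf (nat_lit 0) (nat_lit 10755061774) (nat_lit 168) (nat_lit 6896691402) (nat_lit 168) (nat_lit 1948544699) (nat_lit 12) (nat_lit 4) (nat_lit 14) (nat_lit 5) (nat_lit 14) (nat_lit 4) (nat_lit 367) (nat_lit 254) (nat_lit 243))) (XT.nd (nat_lit 94) (nat_lit 84) (nat_lit 0) (XT.lf (nat_lit 0) (nat_lit 584553771) (nat_lit 252) (nat_lit 4133718009) (nat_lit 84) (nat_lit 15389110668) (nat_lit 11) (nat_lit 5) (nat_lit 14) (nat_lit 5) (nat_lit 12) (nat_lit 4) (nat_lit 368) (nat_lit 254) (nat_lit 242)) (XT.nd (nat_lit 94) (nat_lit 0) (nat_lit 0) (XT.lf (nat_lit 0) (nat_lit 629397884) (nat_lit 84) (nat_lit 2478398918) (nat_lit 168) (nat_lit 17523359607) (nat_lit 10) (nat_lit 5) (nat_lit 11) (nat_lit 5) (nat_lit 12) (nat_lit 4) (nat_lit 369) (nat_lit 254) (nat_lit 241)) (XT.lf (nat_lit 0) (nat_lit 5541474759) (nat_lit 84) (nat_lit 157555577) (nat_lit 168) (nat_lit 15472553569) (nat_lit 10)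 (nat_lit 5) (nat_lit 11) (nat_lit 5) (nat_lit 12) (nat_lit 4) (nat_lit 370) (nat_lit 254) (nat_lit 240)))))) (XT.nd (nat_lit 52734) (nat_lit 0) (nat_lit 672) (XT.nd (nat_lit 188) (nat_lit 168) (nat_lit 0) (XT.nd (nat_lit 94) (nat_lit 0) (nat_lit 0) (XT.lf (nat_lit 0) (nat_lit 8340676243) (nat_lit 168) (nat_lit 11230229311) (nat_lit 0) (nat_lit 2158882913) (nat_lit 10) (nat_lit 5) (nat_lit 12) (nat_lit 4) (nat_lit 10) (nat_lit 4) (nat_lit 371) (nat_lit 254) (nat_lit 239)) (XT.lf (nat_lit 0) (nat_lit 11015301157) (nat_lit 168) (nat_lit 6778122215) (nat_lit 0) (nat_lit 4513483793) (nat_lit 10) (nat_lit 5) (nat_lit 12) (nat_lit 4) (nat_lit 10) (nat_lit 4) (nat_lit 372) (nat_lit 254) (nat_lit 238))) (XT.nd (nat_lit 94) (nat_lit 168) (nat_lit 0) (XT.lf (nat_lit 0) (nat_lit 13723835138) (nat_lit 168) (nat_lit 2268075058) (nat_lit 0) (nat_lit 6911616189) (nat_lit 10) (nat_lit 5) (nat_lit 12) (nat_lit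 4) (nat_lit 10) (nat_lit 4) (nat_lit 373) (nat_lit 254) (nat_lit 237)) (XT.nd (nat_lit 52358) (nat_lit 0) (nat_lit 1092) (XT.lf (nat_lit 0) (nat_lit 2351493345) (nat_lit 168) (nat_lit 14140636584) (nat_lit 168) (nat_lit 7027349172) (nat_lit 8) (nat_lit 4) (nat_lit 10) (nat_lit 5) (nat_lit 10) (nat_lit 4) (nat_lit 374) (nat_lit 254) (nat_lit 236)) (XT.lf (nat_lit 0) (nat_lit 3537328652) (nat_lit 168) (nat_lit 1819112922) (nat_lit 168) (nat_lit 1819112922) (nat_lit 21) (nat_lit 4) (nat_lit 23) (nat_lit 5) (nat_lit 23) (nat_lit 4) (nat_lit 354) (nat_lit 255) (nat_lit 255))))) (XT.nd (nat_lit 282) (nat_lit 168) (nat_lit 0) (XT.nd (nat_lit 94) (nat_lit 252) (nat_lit 0) (XT.lf (nat_lit 0) (nat_lit 12670525485) (nat_lit 168) (nat_lit 1290147548) (nat_lit 168) (nat_lit 718540947) (nat_lit 21) (nat_lit 4) (nat_lit 23) (nat_lit 5) (nat_lit 23) (nat_lit 4) (nat_lit 355) (nat_lit 255) (nat_lit 254))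 (XT.nd (nat_lit 94) (nat_lit 0) (nat_lit 0) (XT.lf (nat_lit 0) (nat_lit 2219434371) (nat_lit 252) (nat_lit 11671050341) (nat_lit 0) (nat_lit 1127265412) (nat_lit 18) (nat_lit 5) (nat_lit 21) (nat_lit 4) (nat_lit 18) (nat_lit 4) (nat_lit 356) (nat_lit 255) (nat_lit 253)) (XT.lf (nat_lit 0) (nat_lit 5197842451) (nat_lit 252) (nat_lit 6585877200) (nat_lit 0) (nat_lit 3584093120) (nat_lit 18) (nat_lit 5) (nat_lit 21) (nat_lit 4) (nat_lit 18) (nat_lit 4) (nat_lit 357) (nat_lit 255) (nat_lit 252)))) (XT.nd (nat_lit 94) (nat_lit 168) (nat_lit 0) (XT.lf (nat_lit 0) (nat_lit 8200593900) (nat_lit 252) (nat_lit 1449441888) (nat_lit 0) (nat_lit 6080947021) (nat_lit 18) (nat_lit 5) (nat_lit 21) (nat_lit 4) (nat_lit 18) (nat_lit 4) (nat_lit 358) (nat_lit 255) (nat_lit 251)) (XT.nd (nat_lit 94) (nat_lit 0) (nat_lit 0) (XT.lf (nat_lit 0) (nat_lit 3820007936) (nat_lit 168) (nat_lit 7448374611) (nat_lit 168)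 (nat_lit 4838041457) (nat_lit 16) (nat_lit 4) (nat_lit 18) (nat_lit 5) (nat_lit 18) (nat_lit 4) (nat_lit 359) (nat_lit 255) (nat_lit 250)) (XT.lf (nat_lit 0) (nat_lit 9181403087) (nat_lit 168) (nat_lit 5200025285) (nat_lit 168) (nat_lit 2113759761) (nat_lit 16) (nat_lit 4) (nat_lit 18) (nat_lit 5) (nat_lit 18) (nat_lit 4) (nat_lit 360) (nat_lit 255) (nat_lit 249))))))) (XT.nd (nat_lit 1034) (nat_lit 168) (nat_lit 0) (XT.nd (nat_lit 470) (nat_lit 336) (nat_lit 0) (XT.nd (nat_lit 188) (nat_lit 0) (nat_lit 0) (XT.nd (nat_lit 94) (nat_lit 84) (nat_lit 0) (XT.lf (nat_lit 0) (nat_lit 617175891) (nat_lit 252) (nat_lit 2294403374) (nat_lit 84) (nat_lit 13986319504) (nat_lit 15) (nat_lit 5) (nat_lit 18) (nat_lit 5) (nat_lit 16) (nat_lit 4) (nat_lit 361) (nat_lit 255) (nat_lit 248)) (XT.lf (nat_lit 0) (nat_lit 2818257292) (nat_lit 84) (nat_lit 536684599) (nat_lit 168) (nat_lit 13958659819) (nat_lit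 14) (nat_lit 5) (nat_lit 15) (nat_lit 5) (nat_lit 16) (nat_lit 4) (nat_lit 362) (nat_lit 255) (nat_lit 247))) (XT.nd (nat_lit 94) (nat_lit 0) (nat_lit 0) (XT.lf (nat_lit 0) (nat_lit 6159410592) (nat_lit 168) (nat_lit 9720767632) (nat_lit 0) (nat_lit 1862699524) (nat_lit 14) (nat_lit 5) (nat_lit 16) (nat_lit 4) (nat_lit 14) (nat_lit 4) (nat_lit 363) (nat_lit 255) (nat_lit 246)) (XT.nd (nat_lit 94) (nat_lit 0) (nat_lit 0) (XT.lf (nat_lit 0) (nat_lit 8996823368) (nat_lit 168) (nat_lit 4898875204) (nat_lit 0) (nat_lit 4291555995) (nat_lit 14) (nat_lit 5) (nat_lit 16) (nat_lit 4) (nat_lit 14) (nat_lit 4) (nat_lit 364) (nat_lit 255) (nat_lit 245)) (XT.lf (nat_lit 0) (nat_lit 11864501009) (nat_lit 168) (nat_lit 19848647) (nat_lit 0) (nat_lit 6762961758) (nat_lit 14) (nat_lit 5) (nat_lit 16) (nat_lit 4) (nat_lit 14) (nat_lit 4) (nat_lit 365) (nat_lit 255) (nat_lit 244))))) (XT.nd (nat_lit 282) (nat_lit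 84) (nat_lit 0) (XT.nd (nat_lit 94) (nat_lit 84) (nat_lit 0) (XT.lf (nat_lit 0) (nat_lit 5022042772) (nat_lit 168) (nat_lit 9792893003) (nat_lit 168) (nat_lit 4306996936) (nat_lit 12) (nat_lit 4) (nat_lit 14) (nat_lit 5) (nat_lit 14) (nat_lit 4) (nat_lit 366) (nat_lit 255) (nat_lit 243)) (XT.nd (nat_lit 94) (nat_lit 84) (nat_lit 0) (XT.lf (nat_lit 0) (nat_lit 10131992471) (nat_lit 168) (nat_lit 7669891637) (nat_lit 168) (nat_lit 1811195554) (nat_lit 12) (nat_lit 4) (nat_lit 14) (nat_lit 5) (nat_lit 14) (nat_lit 4) (nat_lit 367) (nat_lit 255) (nat_lit 242)) (XT.lf (nat_lit 0) (nat_lit 692474219) (nat_lit 252) (nat_lit 4813871647) (nat_lit 84) (nat_lit 14614653099) (nat_lit 11) (nat_lit 5) (nat_lit 14) (nat_lit 5) (nat_lit 12) (nat_lit 4) (nat_lit 368) (nat_lit 255) (nat_lit 241)))) (XT.nd (nat_lit 94) (nat_lit 84) (nat_lit 0) (XT.lf (nat_lit 0) (nat_lit 3183613781) (nat_lit 252) (nat_lit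 105085629) (nat_lit 84) (nat_lit 17357117671) (nat_lit 11) (nat_lit 5) (nat_lit 14) (nat_lit 5) (nat_lit 12) (nat_lit 4) (nat_lit 369) (nat_lit 255) (nat_lit 240)) (XT.nd (nat_lit 94) (nat_lit 0) (nat_lit 0) (XT.lf (nat_lit 0) (nat_lit 4763603216) (nat_lit 84) (nat_lit 984689005) (nat_lit 168) (nat_lit 15438823038) (nat_lit 10) (nat_lit 5) (nat_lit 11) (nat_lit 5) (nat_lit 12) (nat_lit 4) (nat_lit 370) (nat_lit 255) (nat_lit 239)) (XT.lf (nat_lit 0) (nat_lit 8356856723) (nat_lit 168) (nat_lit 12056075682) (nat_lit 0) (nat_lit 1333458986) (nat_lit 10) (nat_lit 5) (nat_lit 12) (nat_lit 4) (nat_lit 10) (nat_lit 4) (nat_lit 371) (nat_lit 255) (nat_lit 238)))))) (XT.nd (nat_lit 52546) (nat_lit 0) (nat_lit 672) (XT.nd (nat_lit 188) (nat_lit 168) (nat_lit 0) (XT.nd (nat_lit 94) (nat_lit 0) (nat_lit 0) (XT.lf (nat_lit 0) (nat_lit 11007353471) (nat_lit 168) (nat_lit 7643395105) (nat_lit 0) (nat_lit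 3673554149) (nat_lit 10) (nat_lit 5) (nat_lit 12) (nat_lit 4) (nat_lit 10) (nat_lit 4) (nat_lit 372) (nat_lit 255) (nat_lit 237)) (XT.lf (nat_lit 0) (nat_lit 13692484769) (nat_lit 168) (nat_lit 3171588995) (nat_lit 0) (nat_lit 6057616985) (nat_lit 10) (nat_lit 5) (nat_lit 12) (nat_lit 4) (nat_lit 10) (nat_lit 4) (nat_lit 373) (nat_lit 255) (nat_lit 236))) (XT.nd (nat_lit 52170) (nat_lit 0) (nat_lit 1092) (XT.lf (nat_lit 0) (nat_lit 1391547419) (nat_lit 168) (nat_lit 15037010345) (nat_lit 168) (nat_lit 7110126593) (nat_lit 8) (nat_lit 4) (nat_lit 10) (nat_lit 5) (nat_lit 10) (nat_lit 4) (nat_lit 374) (nat_lit 255) (nat_lit 235)) (XT.nd (nat_lit 94) (nat_lit 168) (nat_lit 0) (XT.lf (nat_lit 0) (nat_lit 2480993191) (nat_lit 252) (nat_lit 1902401039) (nat_lit 0) (nat_lit 2480993191) (nat_lit 23) (nat_lit 5) (nat_lit 26) (nat_lit 4) (nat_lit 23) (nat_lit 4) (nat_lit 352) (nat_lit 256) (nat_lit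 256)) (XT.lf (nat_lit 0) (nat_lit 1539816224) (nat_lit 168) (nat_lit 6542354319) (nat_lit 168) (nat_lit 5953027913) (nat_lit 21) (nat_lit 4) (nat_lit 23) (nat_lit 5) (nat_lit 23) (nat_lit 4) (nat_lit 353) (nat_lit 256) (nat_lit 255))))) (XT.nd (nat_lit 282) (nat_lit 168) (nat_lit 0) (XT.nd (nat_lit 94) (nat_lit 252) (nat_lit 0) (XT.lf (nat_lit 0) (nat_lit 7020224526) (nat_lit 168) (nat_lit 4246499881) (nat_lit 168) (nat_lit 3085566872) (nat_lit 21) (nat_lit 4) (nat_lit 23) (nat_lit 5) (nat_lit 23) (nat_lit 4) (nat_lit 354) (nat_lit 256) (nat_lit 254)) (XT.nd (nat_lit 94) (nat_lit 252) (nat_lit 0) (XT.lf (nat_lit 0) (nat_lit 12563296607) (nat_lit 168) (nat_lit 1916799500) (nat_lit 168) (nat_lit 201446897) (nat_lit 21) (nat_lit 4) (nat_lit 23) (nat_lit 5) (nat_lit 23) (nat_lit 4) (nat_lit 355) (nat_lit 256) (nat_lit 253)) (XT.lf (nat_lit 0) (nat_lit 2684260642) (nat_lit 252) (nat_lit 11838127159)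 (nat_lit 0) (nat_lit 498904710) (nat_lit 18) (nat_lit 5) (nat_lit 21) (nat_lit 4) (nat_lit 18) (nat_lit 4) (nat_lit 356) (nat_lit 256) (nat_lit 252)))) (XT.nd (nat_lit 94) (nat_lit 168) (nat_lit 0) (XT.lf (nat_lit 0) (nat_lit 5629193941) (nat_lit 252) (nat_lit 6805331270) (nat_lit 0) (nat_lit 2937940460) (nat_lit 18) (nat_lit 5) (nat_lit 21) (nat_lit 4) (nat_lit 18) (nat_lit 4) (nat_lit 357) (nat_lit 256) (nat_lit 251)) (XT.nd (nat_lit 94) (nat_lit 168) (nat_lit 0) (XT.lf (nat_lit 0) (nat_lit 8599477124) (nat_lit 252) (nat_lit 1719698335) (nat_lit 0) (nat_lit 5417537369) (nat_lit 18) (nat_lit 5) (nat_lit 21) (nat_lit 4) (nat_lit 18) (nat_lit 4) (nat_lit 358) (nat_lit 256) (nat_lit 250)) (XT.lf (nat_lit 0) (nat_lit 3493906415) (nat_lit 168) (nat_lit 8138632375) (nat_lit 168) (nat_lit 4480760250) (nat_lit 16) (nat_lit 4) (nat_lit 18) (nat_lit 5) (nat_lit 18) (nat_lit 4) (nat_lit 359) (nat_lit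 256) (nat_lit 249))))))))
noncomputable def xc3 : XT := (XT.nd (nat_lit 53862) (nat_lit 0) (nat_lit 168) (XT.nd (nat_lit 940) (nat_lit 252) (nat_lit 0) (XT.nd (nat_lit 470) (nat_lit 252) (nat_lit 0) (XT.nd (nat_lit 188) (nat_lit 84) (nat_lit 0) (XT.nd (nat_lit 94) (nat_lit 84) (nat_lit 0) (XT.lf (nat_lit 0) (nat_lit 8806525573) (nat_lit 168) (nat_lit 5908030064) (nat_lit 168) (nat_lit 1788535852) (nat_lit 16) (nat_lit 4) (nat_lit 18) (nat_lit 5) (nat_lit 18) (nat_lit 4) (nat_lit 360) (nat_lit 256) (nat_lit 248)) (XT.lf (nat_lit 0) (nat_lit 905380323) (nat_lit 252) (nat_lit 2728408856) (nat_lit 84) (nat_lit 13272919893) (nat_lit 15) (nat_lit 5) (nat_lit 18) (nat_lit 5) (nat_lit 16) (nat_lit 4) (nat_lit 361) (nat_lit 256) (nat_lit 247))) (XT.nd (nat_lit 94) (nat_lit 0) (nat_lit 0) (XT.lf (nat_lit 0) (nat_lit 2327815357) (nat_lit 84) (nat_lit 1280914859) (nat_lit 168) (nat_lit 13714809306)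 (nat_lit 14) (nat_lit 5) (nat_lit 15) (nat_lit 5) (nat_lit 16) (nat_lit 4) (nat_lit 362) (nat_lit 256) (nat_lit 246)) (XT.nd (nat_lit 94) (nat_lit 0) (nat_lit 0) (XT.lf (nat_lit 0) (nat_lit 6376528283) (nat_lit 168) (nat_lit 10260641538) (nat_lit 0) (nat_lit 1116841315) (nat_lit 14) (nat_lit 5) (nat_lit 16) (nat_lit 4) (nat_lit 14) (nat_lit 4) (nat_lit 363) (nat_lit 256) (nat_lit 245)) (XT.lf (nat_lit 0) (nat_lit 9185533904) (nat_lit 168) (nat_lit 5484216631) (nat_lit 0) (nat_lit 3529575059) (nat_lit 14) (nat_lit 5) (nat_lit 16) (nat_lit 4) (nat_lit 14) (nat_lit 4) (nat_lit 364) (nat_lit 256) (nat_lit 244))))) (XT.nd (nat_lit 188) (nat_lit 84) (nat_lit 0) (XT.nd (nat_lit 94) (nat_lit 168) (nat_lit 0) (XT.lf (nat_lit 0) (nat_lit 12025658533) (nat_lit 168) (nat_lit 649290483) (nat_lit 0) (nat_lit 5985342871) (nat_lit 14) (nat_lit 5) (nat_lit 16) (nat_lit 4) (nat_lit 14) (nat_lit 4) (nat_lit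 365) (nat_lit 256) (nat_lit 243)) (XT.lf (nat_lit 0) (nat_lit 4336004389) (nat_lit 168) (nat_lit 10606558775) (nat_lit 168) (nat_lit 4193443097) (nat_lit 12) (nat_lit 4) (nat_lit 14) (nat_lit 5) (nat_lit 14) (nat_lit 4) (nat_lit 366) (nat_lit 256) (nat_lit 242))) (XT.nd (nat_lit 94) (nat_lit 84) (nat_lit 0) (XT.lf (nat_lit 0) (nat_lit 9403612738) (nat_lit 168) (nat_lit 8499557728) (nat_lit 168) (nat_lit 1724851346) (nat_lit 12) (nat_lit 4) (nat_lit 14) (nat_lit 5) (nat_lit 14) (nat_lit 4) (nat_lit 367) (nat_lit 256) (nat_lit 241)) (XT.nd (nat_lit 94) (nat_lit 0) (nat_lit 0) (XT.lf (nat_lit 0) (nat_lit 751219018) (nat_lit 252) (nat_lit 5599698986) (nat_lit 84) (nat_lit 13785847157) (nat_lit 11) (nat_lit 5) (nat_lit 14) (nat_lit 5) (nat_lit 12) (nat_lit 4) (nat_lit 368) (nat_lit 256) (nat_lit 240)) (XT.lf (nat_lit 0) (nat_lit 3217276364) (nat_lit 252) (nat_lit 931309585) (nat_lit 84) (nat_lit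 16513822352) (nat_lit 11) (nat_lit 5) (nat_lit 14) (nat_lit 5) (nat_lit 12) (nat_lit 4) (nat_lit 369) (nat_lit 256) (nat_lit 239)))))) (XT.nd (nat_lit 52358) (nat_lit 0) (nat_lit 1008) (XT.nd (nat_lit 188) (nat_lit 168) (nat_lit 0) (XT.nd (nat_lit 94) (nat_lit 0) (nat_lit 0) (XT.lf (nat_lit 0) (nat_lit 3880402765) (nat_lit 84) (nat_lit 1868462535) (nat_lit 168) (nat_lit 15455913001) (nat_lit 10) (nat_lit 5) (nat_lit 11) (nat_lit 5) (nat_lit 12) (nat_lit 4) (nat_lit 370) (nat_lit 256) (nat_lit 238)) (XT.lf (nat_lit 0) (nat_lit 8324534493) (nat_lit 168) (nat_lit 12987598551) (nat_lit 0) (nat_lit 452985807) (nat_lit 10) (nat_lit 5) (nat_lit 12) (nat_lit 4) (nat_lit 10) (nat_lit 4) (nat_lit 371) (nat_lit 256) (nat_lit 237))) (XT.nd (nat_lit 94) (nat_lit 168) (nat_lit 0) (XT.lf (nat_lit 0) (nat_lit 10951628558) (nat_lit 168) (nat_lit 8613159020) (nat_lit 0) (nat_lit 2779011409) (nat_lit 10) (nat_lit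 5) (nat_lit 12) (nat_lit 4) (nat_lit 10) (nat_lit 4) (nat_lit 372) (nat_lit 256) (nat_lit 236)) (XT.nd (nat_lit 94) (nat_lit 168) (nat_lit 0) (XT.lf (nat_lit 0) (nat_lit 13614060843) (nat_lit 168) (nat_lit 4178444128) (nat_lit 0) (nat_lit 5149427727) (nat_lit 10) (nat_lit 5) (nat_lit 12) (nat_lit 4) (nat_lit 10) (nat_lit 4) (nat_lit 373) (nat_lit 256) (nat_lit 235)) (XT.lf (nat_lit 0) (nat_lit 327273576) (nat_lit 168) (nat_lit 15990286032) (nat_lit 168) (nat_lit 7242417253) (nat_lit 8) (nat_lit 4) (nat_lit 10) (nat_lit 5) (nat_lit 10) (nat_lit 4) (nat_lit 374) (nat_lit 256) (nat_lit 234))))) (XT.nd (nat_lit 282) (nat_lit 252) (nat_lit 0) (XT.nd (nat_lit 94) (nat_lit 252) (nat_lit 0) (XT.lf (nat_lit 0) (nat_lit 6040436866) (nat_lit 252) (nat_lit 266677832) (nat_lit 252) (nat_lit 266677832) (nat_lit 26) (nat_lit 4) (nat_lit 29) (nat_lit 5) (nat_lit 29) (nat_lit 4) (nat_lit 350) (nat_lit 257)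 (nat_lit 257)) (XT.nd (nat_lit 94) (nat_lit 0) (nat_lit 0) (XT.lf (nat_lit 0) (nat_lit 2487057356) (nat_lit 252) (nat_lit 9066953492) (nat_lit 0) (nat_lit 1879461831) (nat_lit 23) (nat_lit 5) (nat_lit 26) (nat_lit 4) (nat_lit 23) (nat_lit 4) (nat_lit 351) (nat_lit 257) (nat_lit 256)) (XT.lf (nat_lit 0) (nat_lit 5533553439) (nat_lit 252) (nat_lit 3859791576) (nat_lit 0) (nat_lit 4336631508) (nat_lit 23) (nat_lit 5) (nat_lit 26) (nat_lit 4) (nat_lit 23) (nat_lit 4) (nat_lit 352) (nat_lit 257) (nat_lit 255)))) (XT.nd (nat_lit 94) (nat_lit 84) (nat_lit 0) (XT.lf (nat_lit 0) (nat_lit 1429263251) (nat_lit 168) (nat_lit 7188432481) (nat_lit 168) (nat_lit 5419903948) (nat_lit 21) (nat_lit 4) (nat_lit 23) (nat_lit 5) (nat_lit 23) (nat_lit 4) (nat_lit 353) (nat_lit 257) (nat_lit 254)) (XT.nd (nat_lit 94) (nat_lit 84) (nat_lit 0) (XT.lf (nat_lit 0) (nat_lit 6856875453) (nat_lit 168) (nat_lit 4910955957)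 (nat_lit 168) (nat_lit 2588007830) (nat_lit 21) (nat_lit 4) (nat_lit 23) (nat_lit 5) (nat_lit 23) (nat_lit 4) (nat_lit 354) (nat_lit 257) (nat_lit 253)) (XT.lf (nat_lit 0) (nat_lit 256345593) (nat_lit 252) (nat_lit 2340059590) (nat_lit 84) (nat_lit 12089717586) (nat_lit 20) (nat_lit 5) (nat_lit 23) (nat_lit 5) (nat_lit 21) (nat_lit 4) (nat_lit 355) (nat_lit 257) (nat_lit 252))))))) (XT.nd (nat_lit 1034) (nat_lit 168) (nat_lit 0) (XT.nd (nat_lit 470) (nat_lit 336) (nat_lit 0) (XT.nd (nat_lit 188) (nat_lit 168) (nat_lit 0) (XT.nd (nat_lit 94) (nat_lit 0) (nat_lit 0) (XT.lf (nat_lit 0) (nat_lit 2908506847) (nat_lit 168) (nat_lit 188876072) (nat_lit 252) (nat_lit 11929759157) (nat_lit 18) (nat_lit 5) (nat_lit 20) (nat_lit 5) (nat_lit 21) (nat_lit 4) (nat_lit 356) (nat_lit 257) (nat_lit 251)) (XT.lf (nat_lit 0) (nat_lit 6007974279) (nat_lit 252) (nat_lit 7134768043) (nat_lit 0) (nat_lit 2236708117)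 (nat_lit 18) (nat_lit 5) (nat_lit 21) (nat_lit 4) (nat_lit 18) (nat_lit 4) (nat_lit 357) (nat_lit 257) (nat_lit 250))) (XT.nd (nat_lit 94) (nat_lit 168) (nat_lit 0) (XT.lf (nat_lit 0) (nat_lit 8946765449) (nat_lit 252) (nat_lit 2098409964) (nat_lit 0) (nat_lit 4699566916) (nat_lit 18) (nat_lit 5) (nat_lit 21) (nat_lit 4) (nat_lit 18) (nat_lit 4) (nat_lit 358) (nat_lit 257) (nat_lit 249)) (XT.nd (nat_lit 94) (nat_lit 0) (nat_lit 0) (XT.lf (nat_lit 0) (nat_lit 3058631705) (nat_lit 168) (nat_lit 8886332316) (nat_lit 168) (nat_lit 4177511698) (nat_lit 16) (nat_lit 4) (nat_lit 18) (nat_lit 5) (nat_lit 18) (nat_lit 4) (nat_lit 359) (nat_lit 257) (nat_lit 248)) (XT.lf (nat_lit 0) (nat_lit 8323941461) (nat_lit 168) (nat_lit 6672943403) (nat_lit 168) (nat_lit 1516380703) (nat_lit 16) (nat_lit 4) (nat_lit 18) (nat_lit 5) (nat_lit 18) (nat_lit 4) (nat_lit 360) (nat_lit 257) (nat_lit 247))))) (XT.nd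 (nat_lit 282) (nat_lit 168) (nat_lit 0) (XT.nd (nat_lit 94) (nat_lit 84) (nat_lit 0) (XT.lf (nat_lit 0) (nat_lit 1142501288) (nat_lit 252) (nat_lit 3270422001) (nat_lit 84) (nat_lit 12504852853) (nat_lit 15) (nat_lit 5) (nat_lit 18) (nat_lit 5) (nat_lit 16) (nat_lit 4) (nat_lit 361) (nat_lit 257) (nat_lit 246)) (XT.nd (nat_lit 94) (nat_lit 0) (nat_lit 0) (XT.lf (nat_lit 0) (nat_lit 1728573497) (nat_lit 84) (nat_lit 2082670799) (nat_lit 168) (nat_lit 13524493895) (nat_lit 14) (nat_lit 5) (nat_lit 15) (nat_lit 5) (nat_lit 16) (nat_lit 4) (nat_lit 362) (nat_lit 257) (nat_lit 245)) (XT.lf (nat_lit 0) (nat_lit 6542681690) (nat_lit 168) (nat_lit 10909596071) (nat_lit 0) (nat_lit 315116243) (nat_lit 14) (nat_lit 5) (nat_lit 16) (nat_lit 4) (nat_lit 14) (nat_lit 4) (nat_lit 363) (nat_lit 257) (nat_lit 244)))) (XT.nd (nat_lit 94) (nat_lit 168) (nat_lit 0) (XT.lf (nat_lit 0) (nat_lit 9324134300) (nat_lit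 168) (nat_lit 6177271573) (nat_lit 0) (nat_lit 2712212037) (nat_lit 14) (nat_lit 5) (nat_lit 16) (nat_lit 4) (nat_lit 14) (nat_lit 4) (nat_lit 364) (nat_lit 257) (nat_lit 243)) (XT.nd (nat_lit 94) (nat_lit 168) (nat_lit 0) (XT.lf (nat_lit 0) (nat_lit 12137534379) (nat_lit 168) (nat_lit 1385119827) (nat_lit 0) (nat_lit 5152812100) (nat_lit 14) (nat_lit 5) (nat_lit 16) (nat_lit 4) (nat_lit 14) (nat_lit 4) (nat_lit 365) (nat_lit 257) (nat_lit 242)) (XT.lf (nat_lit 0) (nat_lit 3542703534) (nat_lit 168) (nat_lit 11477944833) (nat_lit 168) (nat_lit 4131631850) (nat_lit 12) (nat_lit 4) (nat_lit 14) (nat_lit 5) (nat_lit 14) (nat_lit 4) (nat_lit 366) (nat_lit 257) (nat_lit 241)))))) (XT.nd (nat_lit 470) (nat_lit 0) (nat_lit 0) (XT.nd (nat_lit 188) (nat_lit 84) (nat_lit 0) (XT.nd (nat_lit 94) (nat_lit 84) (nat_lit 0) (XT.lf (nat_lit 0) (nat_lit 8569243649) (nat_lit 168) (nat_lit 9386463010) (nat_lit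 168) (nat_lit 1689431594) (nat_lit 12) (nat_lit 4) (nat_lit 14) (nat_lit 5) (nat_lit 14) (nat_lit 4) (nat_lit 367) (nat_lit 257) (nat_lit 240)) (XT.lf (nat_lit 0) (nat_lit 760842925) (nat_lit 252) (nat_lit 6491932500) (nat_lit 84) (nat_lit 12901920307) (nat_lit 11) (nat_lit 5) (nat_lit 14) (nat_lit 5) (nat_lit 12) (nat_lit 4) (nat_lit 368) (nat_lit 257) (nat_lit 239))) (XT.nd (nat_lit 94) (nat_lit 84) (nat_lit 0) (XT.lf (nat_lit 0) (nat_lit 3202572224) (nat_lit 252) (nat_lit 1862725073) (nat_lit 84) (nat_lit 15615841791) (nat_lit 11) (nat_lit 5) (nat_lit 14) (nat_lit 5) (nat_lit 12) (nat_lit 4) (nat_lit 369) (nat_lit 257) (nat_lit 238)) (XT.nd (nat_lit 94) (nat_lit 0) (nat_lit 0) (XT.lf (nat_lit 0) (nat_lit 2891050171) (nat_lit 84) (nat_lit 2809699936) (nat_lit 168) (nat_lit 15523839388) (nat_lit 10) (nat_lit 5) (nat_lit 11) (nat_lit 5) (nat_lit 12) (nat_lit 4) (nat_lit 370) (nat_lit 257)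 (nat_lit 237)) (XT.lf (nat_lit 0) (nat_lit 7755276848) (nat_lit 84) (nat_lit 493296135) (nat_lit 168) (nat_lit 13537263616) (nat_lit 10) (nat_lit 5) (nat_lit 11) (nat_lit 5) (nat_lit 12) (nat_lit 4) (nat_lit 371) (nat_lit 257) (nat_lit 236))))) (XT.nd (nat_lit 51982) (nat_lit 0) (nat_lit 1260) (XT.nd (nat_lit 94) (nat_lit 0) (nat_lit 0) (XT.lf (nat_lit 0) (nat_lit 10848074477) (nat_lit 168) (nat_lit 9688317880) (nat_lit 0) (nat_lit 1829021766) (nat_lit 10) (nat_lit 5) (nat_lit 12) (nat_lit 4) (nat_lit 10) (nat_lit 4) (nat_lit 372) (nat_lit 257) (nat_lit 235)) (XT.nd (nat_lit 94) (nat_lit 0) (nat_lit 0) (XT.lf (nat_lit 0) (nat_lit 13488490260) (nat_lit 168) (nat_lit 5289578952) (nat_lit 0) (nat_lit 4186201887) (nat_lit 10) (nat_lit 5) (nat_lit 12) (nat_lit 4) (nat_lit 10) (nat_lit 4) (nat_lit 373) (nat_lit 257) (nat_lit 234)) (XT.lf (nat_lit 0) (nat_lit 16167387919) (nat_lit 168) (nat_lit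 825349322) (nat_lit 0) (nat_lit 6590380184) (nat_lit 10) (nat_lit 5) (nat_lit 12) (nat_lit 4) (nat_lit 10) (nat_lit 4) (nat_lit 374) (nat_lit 257) (nat_lit 233)))) (XT.nd (nat_lit 94) (nat_lit 84) (nat_lit 0) (XT.lf (nat_lit 0) (nat_lit 485311851) (nat_lit 252) (nat_lit 2907859253) (nat_lit 252) (nat_lit 2907859253) (nat_lit 26) (nat_lit 4) (nat_lit 29) (nat_lit 5) (nat_lit 29) (nat_lit 4) (nat_lit 348) (nat_lit 258) (nat_lit 258)) (XT.nd (nat_lit 94) (nat_lit 84) (nat_lit 0) (XT.lf (nat_lit 0) (nat_lit 6468212848) (nat_lit 252) (nat_lit 3523842794) (nat_lit 252) (nat_lit 2877992447) (nat_lit 26) (nat_lit 4) (nat_lit 29) (nat_lit 5) (nat_lit 29) (nat_lit 4) (nat_lit 349) (nat_lit 258) (nat_lit 257)) (XT.lf (nat_lit 0) (nat_lit 73820203) (nat_lit 336) (nat_lit 1122352499) (nat_lit 84) (nat_lit 11952593836) (nat_lit 25) (nat_lit 5) (nat_lit 29) (nat_lit 5) (nat_lit 26) (nat_lit 4) (nat_lit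 350) (nat_lit 258) (nat_lit 256))))))))
noncomputable def xc4 : XT := (XT.nd (nat_lit 1974) (nat_lit 0) (nat_lit 0) (XT.nd (nat_lit 940) (nat_lit 504) (nat_lit 0) (XT.nd (nat_lit 470) (nat_lit 336) (nat_lit 0) (XT.nd (nat_lit 188) (nat_lit 252) (nat_lit 0) (XT.nd (nat_lit 94) (nat_lit 0) (nat_lit 0) (XT.lf (nat_lit 0) (nat_lit 3040314523) (nat_lit 252) (nat_lit 9178637162) (nat_lit 0) (nat_lit 1216961605) (nat_lit 23) (nat_lit 5) (nat_lit 26) (nat_lit 4) (nat_lit 23) (nat_lit 4) (nat_lit 351) (nat_lit 258) (nat_lit 255)) (XT.lf (nat_lit 0) (nat_lit 6051865437) (nat_lit 252) (nat_lit 4024811325) (nat_lit 0) (nat_lit 3656905918) (nat_lit 23) (nat_lit 5) (nat_lit 26) (nat_lit 4) (nat_lit 23) (nat_lit 4) (nat_lit 352) (nat_lit 258) (nat_lit 254))) (XT.nd (nat_lit 94) (nat_lit 84) (nat_lit 0) (XT.lf (nat_lit 0) (nat_lit 1208054257) (nat_lit 168) (nat_lit 7891864611) (nat_lit 168) (nat_lit 4942485497)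 (nat_lit 21) (nat_lit 4) (nat_lit 23) (nat_lit 5) (nat_lit 23) (nat_lit 4) (nat_lit 353) (nat_lit 258) (nat_lit 253)) (XT.nd (nat_lit 94) (nat_lit 84) (nat_lit 0) (XT.lf (nat_lit 0) (nat_lit 6584457828) (nat_lit 168) (nat_lit 5632213417) (nat_lit 168) (nat_lit 2145084939) (nat_lit 21) (nat_lit 4) (nat_lit 23) (nat_lit 5) (nat_lit 23) (nat_lit 4) (nat_lit 354) (nat_lit 258) (nat_lit 252)) (XT.lf (nat_lit 0) (nat_lit 657560335) (nat_lit 252) (nat_lit 2673203808) (nat_lit 84) (nat_lit 11362228464) (nat_lit 20) (nat_lit 5) (nat_lit 23) (nat_lit 5) (nat_lit 21) (nat_lit 4) (nat_lit 355) (nat_lit 258) (nat_lit 251))))) (XT.nd (nat_lit 188) (nat_lit 168) (nat_lit 0) (XT.nd (nat_lit 94) (nat_lit 0) (nat_lit 0) (XT.lf (nat_lit 0) (nat_lit 2518607116) (nat_lit 168) (nat_lit 944324205) (nat_lit 252) (nat_lit 11572256853) (nat_lit 18) (nat_lit 5) (nat_lit 20) (nat_lit 5) (nat_lit 21) (nat_lit 4) (nat_lit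 356) (nat_lit 258) (nat_lit 250)) (XT.lf (nat_lit 0) (nat_lit 6334536528) (nat_lit 252) (nat_lit 7574494589) (nat_lit 0) (nat_lit 1479742471) (nat_lit 18) (nat_lit 5) (nat_lit 21) (nat_lit 4) (nat_lit 18) (nat_lit 4) (nat_lit 357) (nat_lit 258) (nat_lit 249))) (XT.nd (nat_lit 94) (nat_lit 168) (nat_lit 0) (XT.lf (nat_lit 0) (nat_lit 9242782583) (nat_lit 252) (nat_lit 2585929776) (nat_lit 0) (nat_lit 3926366440) (nat_lit 18) (nat_lit 5) (nat_lit 21) (nat_lit 4) (nat_lit 18) (nat_lit 4) (nat_lit 358) (nat_lit 258) (nat_lit 248)) (XT.nd (nat_lit 94) (nat_lit 0) (nat_lit 0) (XT.lf (nat_lit 0) (nat_lit 2513778085) (nat_lit 168) (nat_lit 9692171367) (nat_lit 168) (nat_lit 3928013143) (nat_lit 16) (nat_lit 4) (nat_lit 18) (nat_lit 5) (nat_lit 18) (nat_lit 4) (nat_lit 359) (nat_lit 258) (nat_lit 247)) (XT.lf (nat_lit 0) (nat_lit 7733200934) (nat_lit 168) (nat_lit 7495478282) (nat_lit 168) (nat_lit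 1297040638) (nat_lit 16) (nat_lit 4) (nat_lit 18) (nat_lit 5) (nat_lit 18) (nat_lit 4) (nat_lit 360) (nat_lit 258) (nat_lit 246)))))) (XT.nd (nat_lit 470) (nat_lit 336) (nat_lit 0) (XT.nd (nat_lit 188) (nat_lit 0) (nat_lit 0) (XT.nd (nat_lit 94) (nat_lit 84) (nat_lit 0) (XT.lf (nat_lit 0) (nat_lit 1328759809) (nat_lit 252) (nat_lit 3920948022) (nat_lit 84) (nat_lit 11681402464) (nat_lit 15) (nat_lit 5) (nat_lit 18) (nat_lit 5) (nat_lit 16) (nat_lit 4) (nat_lit 361) (nat_lit 258) (nat_lit 245)) (XT.lf (nat_lit 0) (nat_lit 1019973157) (nat_lit 84) (nat_lit 2942699741) (nat_lit 168) (nat_lit 13387536192) (nat_lit 14) (nat_lit 5) (nat_lit 15) (nat_lit 5) (nat_lit 16) (nat_lit 4) (nat_lit 362) (nat_lit 258) (nat_lit 244))) (XT.nd (nat_lit 94) (nat_lit 0) (nat_lit 0) (XT.lf (nat_lit 0) (nat_lit 6109132572) (nat_lit 84) (nat_lit 554392760) (nat_lit 168) (nat_lit 11119343009) (nat_lit 14) (nat_lit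 5) (nat_lit 15) (nat_lit 5) (nat_lit 16) (nat_lit 4) (nat_lit 363) (nat_lit 258) (nat_lit 243)) (XT.nd (nat_lit 94) (nat_lit 0) (nat_lit 0) (XT.lf (nat_lit 0) (nat_lit 9412753747) (nat_lit 168) (nat_lit 6978686029) (nat_lit 0) (nat_lit 1838705061) (nat_lit 14) (nat_lit 5) (nat_lit 16) (nat_lit 4) (nat_lit 14) (nat_lit 4) (nat_lit 364) (nat_lit 258) (nat_lit 242)) (XT.lf (nat_lit 0) (nat_lit 12200232826) (nat_lit 168) (nat_lit 2228022550) (nat_lit 0) (nat_lit 4264593437) (nat_lit 14) (nat_lit 5) (nat_lit 16) (nat_lit 4) (nat_lit 14) (nat_lit 4) (nat_lit 365) (nat_lit 258) (nat_lit 241))))) (XT.nd (nat_lit 282) (nat_lit 84) (nat_lit 0) (XT.nd (nat_lit 94) (nat_lit 84) (nat_lit 0) (XT.lf (nat_lit 0) (nat_lit 2641400768) (nat_lit 168) (nat_lit 12407863402) (nat_lit 168) (nat_lit 4121505580) (nat_lit 12) (nat_lit 4) (nat_lit 14) (nat_lit 5) (nat_lit 14) (nat_lit 4) (nat_lit 366) (nat_lit 258)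 (nat_lit 240)) (XT.nd (nat_lit 94) (nat_lit 84) (nat_lit 0) (XT.lf (nat_lit 0) (nat_lit 7628107483) (nat_lit 168) (nat_lit 10331434172) (nat_lit 168) (nat_lit 1704903282) (nat_lit 12) (nat_lit 4) (nat_lit 14) (nat_lit 5) (nat_lit 14) (nat_lit 4) (nat_lit 367) (nat_lit 258) (nat_lit 239)) (XT.lf (nat_lit 0) (nat_lit 721354910) (nat_lit 252) (nat_lit 7491403844) (nat_lit 84) (nat_lit 11962048637) (nat_lit 11) (nat_lit 5) (nat_lit 14) (nat_lit 5) (nat_lit 12) (nat_lit 4) (nat_lit 368) (nat_lit 258) (nat_lit 238)))) (XT.nd (nat_lit 94) (nat_lit 84) (nat_lit 0) (XT.lf (nat_lit 0) (nat_lit 3139487656) (nat_lit 252) (nat_lit 2900200273) (nat_lit 84) (nat_lit 14662338975) (nat_lit 11) (nat_lit 5) (nat_lit 14) (nat_lit 5) (nat_lit 12) (nat_lit 4) (nat_lit 369) (nat_lit 258) (nat_lit 237)) (XT.nd (nat_lit 94) (nat_lit 0) (nat_lit 0) (XT.lf (nat_lit 0) (nat_lit 1794623253) (nat_lit 84) (nat_lit 3809278539)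 (nat_lit 168) (nat_lit 15642665513) (nat_lit 10) (nat_lit 5) (nat_lit 11) (nat_lit 5) (nat_lit 12) (nat_lit 4) (nat_lit 370) (nat_lit 258) (nat_lit 236)) (XT.lf (nat_lit 0) (nat_lit 6622361958) (nat_lit 84) (nat_lit 1506801857) (nat_lit 168) (nat_lit 13679392000) (nat_lit 10) (nat_lit 5) (nat_lit 11) (nat_lit 5) (nat_lit 12) (nat_lit 4) (nat_lit 371) (nat_lit 258) (nat_lit 235))))))) (XT.nd (nat_lit 52452) (nat_lit 0) (nat_lit 336) (XT.nd (nat_lit 51982) (nat_lit 0) (nat_lit 1092) (XT.nd (nat_lit 188) (nat_lit 0) (nat_lit 0) (XT.nd (nat_lit 94) (nat_lit 0) (nat_lit 0) (XT.lf (nat_lit 0) (nat_lit 10696594704) (nat_lit 168) (nat_lit 10869873847) (nat_lit 0) (nat_lit 822699730) (nat_lit 10) (nat_lit 5) (nat_lit 12) (nat_lit 4) (nat_lit 10) (nat_lit 4) (nat_lit 372) (nat_lit 258) (nat_lit 234)) (XT.lf (nat_lit 0) (nat_lit 13315655976) (nat_lit 168) (nat_lit 6506029160) (nat_lit 0) (nat_lit 3167041639)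 (nat_lit 10) (nat_lit 5) (nat_lit 12) (nat_lit 4) (nat_lit 10) (nat_lit 4) (nat_lit 373) (nat_lit 258) (nat_lit 233))) (XT.nd (nat_lit 51606) (nat_lit 0) (nat_lit 1596) (XT.lf (nat_lit 0) (nat_lit 15973841208) (nat_lit 168) (nat_lit 2075644576) (nat_lit 0) (nat_lit 5558767743) (nat_lit 10) (nat_lit 5) (nat_lit 12) (nat_lit 4) (nat_lit 10) (nat_lit 4) (nat_lit 374) (nat_lit 258) (nat_lit 232)) (XT.nd (nat_lit 94) (nat_lit 0) (nat_lit 0) (XT.lf (nat_lit 0) (nat_lit 621701512) (nat_lit 252) (nat_lit 4803128942) (nat_lit 0) (nat_lit 621701512) (nat_lit 29) (nat_lit 5) (nat_lit 32) (nat_lit 4) (nat_lit 29) (nat_lit 4) (nat_lit 346) (nat_lit 259) (nat_lit 259)) (XT.lf (nat_lit 0) (nat_lit 4314221123) (nat_lit 252) (nat_lit 4380632407) (nat_lit 0) (nat_lit 3648349415) (nat_lit 29) (nat_lit 5) (nat_lit 32) (nat_lit 4) (nat_lit 29) (nat_lit 4) (nat_lit 347) (nat_lit 259) (nat_lit 258))))) (XT.nd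 (nat_lit 188) (nat_lit 252) (nat_lit 0) (XT.nd (nat_lit 94) (nat_lit 0) (nat_lit 0) (XT.lf (nat_lit 0) (nat_lit 915270177) (nat_lit 252) (nat_lit 6499877291) (nat_lit 252) (nat_lit 5188155237) (nat_lit 26) (nat_lit 4) (nat_lit 29) (nat_lit 5) (nat_lit 29) (nat_lit 4) (nat_lit 348) (nat_lit 259) (nat_lit 257)) (XT.lf (nat_lit 0) (nat_lit 6359170162) (nat_lit 252) (nat_lit 4225738802) (nat_lit 252) (nat_lit 2287585761) (nat_lit 26) (nat_lit 4) (nat_lit 29) (nat_lit 5) (nat_lit 29) (nat_lit 4) (nat_lit 349) (nat_lit 259) (nat_lit 256))) (XT.nd (nat_lit 94) (nat_lit 168) (nat_lit 0) (XT.lf (nat_lit 0) (nat_lit 617018260) (nat_lit 336) (nat_lit 1292584478) (nat_lit 84) (nat_lit 11242608378) (nat_lit 25) (nat_lit 5) (nat_lit 29) (nat_lit 5) (nat_lit 26) (nat_lit 4) (nat_lit 350) (nat_lit 259) (nat_lit 255)) (XT.nd (nat_lit 94) (nat_lit 0) (nat_lit 0) (XT.lf (nat_lit 0) (nat_lit 3539749024) (nat_lit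 252) (nat_lit 9402108603) (nat_lit 0) (nat_lit 498939158) (nat_lit 23) (nat_lit 5) (nat_lit 26) (nat_lit 4) (nat_lit 23) (nat_lit 4) (nat_lit 351) (nat_lit 259) (nat_lit 254)) (XT.lf (nat_lit 0) (nat_lit 6517405498) (nat_lit 252) (nat_lit 4300015142) (nat_lit 0) (nat_lit 2922176037) (nat_lit 23) (nat_lit 5) (nat_lit 26) (nat_lit 4) (nat_lit 23) (nat_lit 4) (nat_lit 352) (nat_lit 259) (nat_lit 253)))))) (XT.nd (nat_lit 470) (nat_lit 336) (nat_lit 0) (XT.nd (nat_lit 188) (nat_lit 252) (nat_lit 0) (XT.nd (nat_lit 94) (nat_lit 0) (nat_lit 0) (XT.lf (nat_lit 0) (nat_lit 875983054) (nat_lit 168) (nat_lit 8653306381) (nat_lit 168) (nat_lit 4520327556) (nat_lit 21) (nat_lit 4) (nat_lit 23) (nat_lit 5) (nat_lit 23) (nat_lit 4) (nat_lit 353) (nat_lit 259) (nat_lit 252)) (XT.lf (nat_lit 0) (nat_lit 6202717728) (nat_lit 168) (nat_lit 6410944547) (nat_lit 168) (nat_lit 1756385349) (nat_lit 21) (nat_lit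 4) (nat_lit 23) (nat_lit 5) (nat_lit 23) (nat_lit 4) (nat_lit 354) (nat_lit 259) (nat_lit 251))) (XT.nd (nat_lit 94) (nat_lit 168) (nat_lit 0) (XT.lf (nat_lit 0) (nat_lit 1006630008) (nat_lit 252) (nat_lit 3115991199) (nat_lit 84) (nat_lit 10579599664) (nat_lit 20) (nat_lit 5) (nat_lit 23) (nat_lit 5) (nat_lit 21) (nat_lit 4) (nat_lit 355) (nat_lit 259) (nat_lit 250)) (XT.nd (nat_lit 94) (nat_lit 0) (nat_lit 0) (XT.lf (nat_lit 0) (nat_lit 2018310273) (nat_lit 168) (nat_lit 1757885341) (nat_lit 252) (nat_lit 11269399270) (nat_lit 18) (nat_lit 5) (nat_lit 20) (nat_lit 5) (nat_lit 21) (nat_lit 4) (nat_lit 356) (nat_lit 259) (nat_lit 249)) (XT.lf (nat_lit 0) (nat_lit 6609185079) (nat_lit 252) (nat_lit 8124920780) (nat_lit 0) (nat_lit 666337949) (nat_lit 18) (nat_lit 5) (nat_lit 21) (nat_lit 4) (nat_lit 18) (nat_lit 4) (nat_lit 357) (nat_lit 259) (nat_lit 248))))) (XT.nd (nat_lit 282) (nat_lit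 168) (nat_lit 0) (XT.nd (nat_lit 94) (nat_lit 168) (nat_lit 0) (XT.lf (nat_lit 0) (nat_lit 9487804446) (nat_lit 252) (nat_lit 3182712188) (nat_lit 0) (nat_lit 3097215235) (nat_lit 18) (nat_lit 5) (nat_lit 21) (nat_lit 4) (nat_lit 18) (nat_lit 4) (nat_lit 358) (nat_lit 259) (nat_lit 247)) (XT.nd (nat_lit 94) (nat_lit 0) (nat_lit 0) (XT.lf (nat_lit 0) (nat_lit 1858837695) (nat_lit 168) (nat_lit 10556900655) (nat_lit 168) (nat_lit 3732032025) (nat_lit 16) (nat_lit 4) (nat_lit 18) (nat_lit 5) (nat_lit 18) (nat_lit 4) (nat_lit 359) (nat_lit 259) (nat_lit 246)) (XT.lf (nat_lit 0) (nat_lit 7033753360) (nat_lit 168) (nat_lit 8376401390) (nat_lit 168) (nat_lit 1130311208) (nat_lit 16) (nat_lit 4) (nat_lit 18) (nat_lit 5) (nat_lit 18) (nat_lit 4) (nat_lit 360) (nat_lit 259) (nat_lit 245)))) (XT.nd (nat_lit 94) (nat_lit 84) (nat_lit 0) (XT.lf (nat_lit 0) (nat_lit 1464329497) (nat_lit 252) (nat_lit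 4680593278) (nat_lit 84) (nat_lit 10801801185) (nat_lit 15) (nat_lit 5) (nat_lit 18) (nat_lit 5) (nat_lit 16) (nat_lit 4) (nat_lit 361) (nat_lit 259) (nat_lit 244)) (XT.nd (nat_lit 94) (nat_lit 0) (nat_lit 0) (XT.lf (nat_lit 0) (nat_lit 201353847) (nat_lit 84) (nat_lit 3861803322) (nat_lit 168) (nat_lit 13303808537) (nat_lit 14) (nat_lit 5) (nat_lit 15) (nat_lit 5) (nat_lit 16) (nat_lit 4) (nat_lit 362) (nat_lit 259) (nat_lit 243)) (XT.lf (nat_lit 0) (nat_lit 5248462641) (nat_lit 84) (nat_lit 1488975971) (nat_lit 168) (nat_lit 11063063687) (nat_lit 14) (nat_lit 5) (nat_lit 15) (nat_lit 5) (nat_lit 16) (nat_lit 4) (nat_lit 363) (nat_lit 259) (nat_lit 242))))))))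
noncomputable def xc5 : XT := (XT.nd (nat_lit 53298) (nat_lit 0) (nat_lit 0) (XT.nd (nat_lit 940) (nat_lit 0) (nat_lit 0) (XT.nd (nat_lit 470) (nat_lit 84) (nat_lit 0) (XT.nd (nat_lit 188) (nat_lit 252) (nat_lit 0) (XT.nd (nat_lit 94) (nat_lit 0) (nat_lit 0) (XT.lf (nat_lit 0) (nat_lit 9451474847) (nat_lit 168) (nat_lit 7889207003) (nat_lit 0) (nat_lit 908239932) (nat_lit 14) (nat_lit 5) (nat_lit 16) (nat_lit 4) (nat_lit 14) (nat_lit 4) (nat_lit 364) (nat_lit 259) (nat_lit 241)) (XT.lf (nat_lit 0) (nat_lit 12213812316) (nat_lit 168) (nat_lit 3178784325) (nat_lit 0) (nat_lit 3319858969) (nat_lit 14) (nat_lit 5) (nat_lit 16) (nat_lit 4) (nat_lit 14) (nat_lit 4) (nat_lit 365) (nat_lit 259) (nat_lit 240))) (XT.nd (nat_lit 94) (nat_lit 84) (nat_lit 0) (XT.lf (nat_lit 0) (nat_lit 1631255982) (nat_lit 168) (nat_lit 13397181263) (nat_lit 168) (nat_lit 4163054849) (nat_lit 12) (nat_lit 4) (nat_lit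 14) (nat_lit 5) (nat_lit 14) (nat_lit 4) (nat_lit 366) (nat_lit 259) (nat_lit 239)) (XT.nd (nat_lit 94) (nat_lit 84) (nat_lit 0) (XT.lf (nat_lit 0) (nat_lit 6579327004) (nat_lit 168) (nat_lit 11335352026) (nat_lit 168) (nat_lit 1771280832) (nat_lit 12) (nat_lit 4) (nat_lit 14) (nat_lit 5) (nat_lit 14) (nat_lit 4) (nat_lit 367) (nat_lit 259) (nat_lit 238)) (XT.lf (nat_lit 0) (nat_lit 632718167) (nat_lit 252) (nat_lit 8599044630) (nat_lit 84) (nat_lit 10965356088) (nat_lit 11) (nat_lit 5) (nat_lit 14) (nat_lit 5) (nat_lit 12) (nat_lit 4) (nat_lit 368) (nat_lit 259) (nat_lit 237))))) (XT.nd (nat_lit 188) (nat_lit 0) (nat_lit 0) (XT.nd (nat_lit 94) (nat_lit 84) (nat_lit 0) (XT.lf (nat_lit 0) (nat_lit 3027963857) (nat_lit 252) (nat_lit 4044702218) (nat_lit 84) (nat_lit 13652425140) (nat_lit 11) (nat_lit 5) (nat_lit 14) (nat_lit 5) (nat_lit 12) (nat_lit 4) (nat_lit 369) (nat_lit 259) (nat_lit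 236)) (XT.lf (nat_lit 0) (nat_lit 590100028) (nat_lit 84) (nat_lit 4868130057) (nat_lit 168) (nat_lit 15812502135) (nat_lit 10) (nat_lit 5) (nat_lit 11) (nat_lit 5) (nat_lit 12) (nat_lit 4) (nat_lit 370) (nat_lit 259) (nat_lit 235))) (XT.nd (nat_lit 94) (nat_lit 0) (nat_lit 0) (XT.lf (nat_lit 0) (nat_lit 5382447875) (nat_lit 84) (nat_lit 2579161734) (nat_lit 168) (nat_lit 13871830230) (nat_lit 10) (nat_lit 5) (nat_lit 11) (nat_lit 5) (nat_lit 12) (nat_lit 4) (nat_lit 371) (nat_lit 259) (nat_lit 234)) (XT.nd (nat_lit 94) (nat_lit 0) (nat_lit 0) (XT.lf (nat_lit 0) (nat_lit 10253640922) (nat_lit 84) (nat_lit 245845945) (nat_lit 168) (nat_lit 11915521131) (nat_lit 10) (nat_lit 5) (nat_lit 11) (nat_lit 5) (nat_lit 12) (nat_lit 4) (nat_lit 372) (nat_lit 259) (nat_lit 233)) (XT.lf (nat_lit 0) (nat_lit 13095396890) (nat_lit 168) (nat_lit 7828928613) (nat_lit 0) (nat_lit 2090997018) (nat_lit 10)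 (nat_lit 5) (nat_lit 12) (nat_lit 4) (nat_lit 10) (nat_lit 4) (nat_lit 373) (nat_lit 259) (nat_lit 232)))))) (XT.nd (nat_lit 51794) (nat_lit 0) (nat_lit 924) (XT.nd (nat_lit 51512) (nat_lit 0) (nat_lit 1596) (XT.nd (nat_lit 51418) (nat_lit 0) (nat_lit 1848) (XT.lf (nat_lit 0) (nat_lit 15733492475) (nat_lit 168) (nat_lit 3431371425) (nat_lit 0) (nat_lit 4470645339) (nat_lit 10) (nat_lit 5) (nat_lit 12) (nat_lit 4) (nat_lit 10) (nat_lit 4) (nat_lit 374) (nat_lit 259) (nat_lit 231)) (XT.lf (nat_lit 0) (nat_lit 1728570207) (nat_lit 252) (nat_lit 2039762694) (nat_lit 252) (nat_lit 2039762694) (nat_lit 32) (nat_lit 4) (nat_lit 35) (nat_lit 5) (nat_lit 35) (nat_lit 4) (nat_lit 344) (nat_lit 260) (nat_lit 260))) (XT.nd (nat_lit 94) (nat_lit 252) (nat_lit 0) (XT.lf (nat_lit 0) (nat_lit 8948821212) (nat_lit 252) (nat_lit 1805047854) (nat_lit 252) (nat_lit 1097252197) (nat_lit 32) (nat_lit 4) (nat_lit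 35) (nat_lit 5) (nat_lit 35) (nat_lit 4) (nat_lit 345) (nat_lit 260) (nat_lit 259)) (XT.nd (nat_lit 94) (nat_lit 0) (nat_lit 0) (XT.lf (nat_lit 0) (nat_lit 1892267383) (nat_lit 252) (nat_lit 9662177546) (nat_lit 0) (nat_lit 539881945) (nat_lit 29) (nat_lit 5) (nat_lit 32) (nat_lit 4) (nat_lit 29) (nat_lit 4) (nat_lit 346) (nat_lit 260) (nat_lit 258)) (XT.lf (nat_lit 0) (nat_lit 4926568147) (nat_lit 252) (nat_lit 4490790344) (nat_lit 0) (nat_lit 2928332362) (nat_lit 29) (nat_lit 5) (nat_lit 32) (nat_lit 4) (nat_lit 29) (nat_lit 4) (nat_lit 347) (nat_lit 260) (nat_lit 257))))) (XT.nd (nat_lit 282) (nat_lit 336) (nat_lit 0) (XT.nd (nat_lit 94) (nat_lit 84) (nat_lit 0) (XT.lf (nat_lit 0) (nat_lit 749158007) (nat_lit 252) (nat_lit 7241269298) (nat_lit 252) (nat_lit 4616602527) (nat_lit 26) (nat_lit 4) (nat_lit 29) (nat_lit 5) (nat_lit 29) (nat_lit 4) (nat_lit 348) (nat_lit 260) (nat_lit 256))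 (XT.nd (nat_lit 94) (nat_lit 84) (nat_lit 0) (XT.lf (nat_lit 0) (nat_lit 6140983150) (nat_lit 252) (nat_lit 4984334711) (nat_lit 252) (nat_lit 1752072414) (nat_lit 26) (nat_lit 4) (nat_lit 29) (nat_lit 5) (nat_lit 29) (nat_lit 4) (nat_lit 349) (nat_lit 260) (nat_lit 255)) (XT.lf (nat_lit 0) (nat_lit 1107490751) (nat_lit 336) (nat_lit 1572274986) (nat_lit 84) (nat_lit 10478320288) (nat_lit 25) (nat_lit 5) (nat_lit 29) (nat_lit 5) (nat_lit 26) (nat_lit 4) (nat_lit 350) (nat_lit 260) (nat_lit 254)))) (XT.nd (nat_lit 94) (nat_lit 168) (nat_lit 0) (XT.lf (nat_lit 0) (nat_lit 3707678299) (nat_lit 168) (nat_lit 280934996) (nat_lit 252) (nat_lit 9459428027) (nat_lit 23) (nat_lit 5) (nat_lit 25) (nat_lit 5) (nat_lit 26) (nat_lit 4) (nat_lit 351) (nat_lit 260) (nat_lit 253)) (XT.nd (nat_lit 94) (nat_lit 168) (nat_lit 0) (XT.lf (nat_lit 0) (nat_lit 6930607553) (nat_lit 252) (nat_lit 4685659545) (nat_lit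 0) (nat_lit 2131757021) (nat_lit 23) (nat_lit 5) (nat_lit 26) (nat_lit 4) (nat_lit 23) (nat_lit 4) (nat_lit 352) (nat_lit 260) (nat_lit 252)) (XT.lf (nat_lit 0) (nat_lit 432740115) (nat_lit 168) (nat_lit 9473467536) (nat_lit 168) (nat_lit 4153036631) (nat_lit 21) (nat_lit 4) (nat_lit 23) (nat_lit 5) (nat_lit 23) (nat_lit 4) (nat_lit 353) (nat_lit 260) (nat_lit 251))))))) (XT.nd (nat_lit 1034) (nat_lit 336) (nat_lit 0) (XT.nd (nat_lit 470) (nat_lit 336) (nat_lit 0) (XT.nd (nat_lit 188) (nat_lit 168) (nat_lit 0) (XT.nd (nat_lit 94) (nat_lit 84) (nat_lit 0) (XT.lf (nat_lit 0) (nat_lit 5711299332) (nat_lit 168) (nat_lit 7247875206) (nat_lit 168) (nat_lit 1421546752) (nat_lit 21) (nat_lit 4) (nat_lit 23) (nat_lit 5) (nat_lit 23) (nat_lit 4) (nat_lit 354) (nat_lit 260) (nat_lit 250)) (XT.lf (nat_lit 0) (nat_lit 1303879980) (nat_lit 252) (nat_lit 3668834487) (nat_lit 84) (nat_lit 9741101693) (nat_lit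 20) (nat_lit 5) (nat_lit 23) (nat_lit 5) (nat_lit 21) (nat_lit 4) (nat_lit 355) (nat_lit 260) (nat_lit 249))) (XT.nd (nat_lit 94) (nat_lit 0) (nat_lit 0) (XT.lf (nat_lit 0) (nat_lit 1407149990) (nat_lit 168) (nat_lit 2630317802) (nat_lit 252) (nat_lit 11020904114) (nat_lit 18) (nat_lit 5) (nat_lit 20) (nat_lit 5) (nat_lit 21) (nat_lit 4) (nat_lit 356) (nat_lit 260) (nat_lit 248)) (XT.nd (nat_lit 94) (nat_lit 0) (nat_lit 0) (XT.lf (nat_lit 0) (nat_lit 6625780213) (nat_lit 168) (nat_lit 208463704) (nat_lit 252) (nat_lit 8580163951) (nat_lit 18) (nat_lit 5) (nat_lit 20) (nat_lit 5) (nat_lit 21) (nat_lit 4) (nat_lit 357) (nat_lit 260) (nat_lit 247)) (XT.lf (nat_lit 0) (nat_lit 9682059424) (nat_lit 252) (nat_lit 3889313467) (nat_lit 0) (nat_lit 2211340447) (nat_lit 18) (nat_lit 5) (nat_lit 21) (nat_lit 4) (nat_lit 18) (nat_lit 4) (nat_lit 358) (nat_lit 260) (nat_lit 246))))) (XT.nd (nat_lit 282)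 (nat_lit 84) (nat_lit 0) (XT.nd (nat_lit 94) (nat_lit 84) (nat_lit 0) (XT.lf (nat_lit 0) (nat_lit 1093200061) (nat_lit 168) (nat_lit 11481326199) (nat_lit 168) (nat_lit 3589385671) (nat_lit 16) (nat_lit 4) (nat_lit 18) (nat_lit 5) (nat_lit 18) (nat_lit 4) (nat_lit 359) (nat_lit 260) (nat_lit 245)) (XT.nd (nat_lit 94) (nat_lit 84) (nat_lit 0) (XT.lf (nat_lit 0) (nat_lit 6224946779) (nat_lit 168) (nat_lit 9316533839) (nat_lit 168) (nat_lit 1016037005) (nat_lit 16) (nat_lit 4) (nat_lit 18) (nat_lit 5) (nat_lit 18) (nat_lit 4) (nat_lit 360) (nat_lit 260) (nat_lit 244)) (XT.lf (nat_lit 0) (nat_lit 1549336718) (nat_lit 252) (nat_lit 5550065837) (nat_lit 84) (nat_lit 9865229134) (nat_lit 15) (nat_lit 5) (nat_lit 18) (nat_lit 5) (nat_lit 16) (nat_lit 4) (nat_lit 361) (nat_lit 260) (nat_lit 243)))) (XT.nd (nat_lit 94) (nat_lit 84) (nat_lit 0) (XT.lf (nat_lit 0) (nat_lit 4120013092) (nat_lit 252)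 (nat_lit 713378937) (nat_lit 84) (nat_lit 12552407738) (nat_lit 15) (nat_lit 5) (nat_lit 18) (nat_lit 5) (nat_lit 16) (nat_lit 4) (nat_lit 362) (nat_lit 260) (nat_lit 242)) (XT.nd (nat_lit 94) (nat_lit 0) (nat_lit 0) (XT.lf (nat_lit 0) (nat_lit 4278275076) (nat_lit 84) (nat_lit 2483025081) (nat_lit 168) (nat_lit 11059111057) (nat_lit 14) (nat_lit 5) (nat_lit 15) (nat_lit 5) (nat_lit 16) (nat_lit 4) (nat_lit 363) (nat_lit 260) (nat_lit 241)) (XT.lf (nat_lit 0) (nat_lit 9359447485) (nat_lit 84) (nat_lit 81696646) (nat_lit 168) (nat_lit 8828796988) (nat_lit 14) (nat_lit 5) (nat_lit 15) (nat_lit 5) (nat_lit 16) (nat_lit 4) (nat_lit 364) (nat_lit 260) (nat_lit 240)))))) (XT.nd (nat_lit 470) (nat_lit 84) (nat_lit 0) (XT.nd (nat_lit 188) (nat_lit 84) (nat_lit 0) (XT.nd (nat_lit 94) (nat_lit 168) (nat_lit 0) (XT.lf (nat_lit 0) (nat_lit 12178285507) (nat_lit 168) (nat_lit 4238291361) (nat_lit 0)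 (nat_lit 2317728106) (nat_lit 14) (nat_lit 5) (nat_lit 16) (nat_lit 4) (nat_lit 14) (nat_lit 4) (nat_lit 365) (nat_lit 260) (nat_lit 239)) (XT.lf (nat_lit 0) (nat_lit 511327615) (nat_lit 168) (nat_lit 14446820564) (nat_lit 168) (nat_lit 4256318384) (nat_lit 12) (nat_lit 4) (nat_lit 14) (nat_lit 5) (nat_lit 14) (nat_lit 4) (nat_lit 366) (nat_lit 260) (nat_lit 238))) (XT.nd (nat_lit 94) (nat_lit 84) (nat_lit 0) (XT.lf (nat_lit 0) (nat_lit 5421924638) (nat_lit 168) (nat_lit 12399152329) (nat_lit 168) (nat_lit 1888626114) (nat_lit 12) (nat_lit 4) (nat_lit 14) (nat_lit 5) (nat_lit 14) (nat_lit 4) (nat_lit 367) (nat_lit 260) (nat_lit 237)) (XT.nd (nat_lit 94) (nat_lit 0) (nat_lit 0) (XT.lf (nat_lit 0) (nat_lit 494850076) (nat_lit 252) (nat_lit 9815887295) (nat_lit 84) (nat_lit 9910913639) (nat_lit 11) (nat_lit 5) (nat_lit 14) (nat_lit 5) (nat_lit 12) (nat_lit 4) (nat_lit 368) (nat_lit 260) (nat_lit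 236)) (XT.lf (nat_lit 0) (nat_lit 2867896877) (nat_lit 252) (nat_lit 5297297704) (nat_lit 84) (nat_lit 12585158941) (nat_lit 11) (nat_lit 5) (nat_lit 14) (nat_lit 5) (nat_lit 12) (nat_lit 4) (nat_lit 369) (nat_lit 260) (nat_lit 235))))) (XT.nd (nat_lit 282) (nat_lit 0) (nat_lit 0) (XT.nd (nat_lit 94) (nat_lit 84) (nat_lit 0) (XT.lf (nat_lit 0) (nat_lit 5270777824) (nat_lit 252) (nat_lit 709062468) (nat_lit 84) (nat_lit 15317043932) (nat_lit 11) (nat_lit 5) (nat_lit 14) (nat_lit 5) (nat_lit 12) (nat_lit 4) (nat_lit 370) (nat_lit 260) (nat_lit 234)) (XT.nd (nat_lit 94) (nat_lit 0) (nat_lit 0) (XT.lf (nat_lit 0) (nat_lit 4034378872) (nat_lit 84) (nat_lit 3711375320) (nat_lit 168) (nat_lit 14114757680) (nat_lit 10) (nat_lit 5) (nat_lit 11) (nat_lit 5) (nat_lit 12) (nat_lit 4) (nat_lit 371) (nat_lit 260) (nat_lit 233)) (XT.lf (nat_lit 0) (nat_lit 8872277322) (nat_lit 84) (nat_lit 1390767766)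 (nat_lit 168) (nat_lit 12179711457) (nat_lit 10) (nat_lit 5) (nat_lit 11) (nat_lit 5) (nat_lit 12) (nat_lit 4) (nat_lit 372) (nat_lit 260) (nat_lit 232)))) (XT.nd (nat_lit 94) (nat_lit 0) (nat_lit 0) (XT.lf (nat_lit 0) (nat_lit 12827507698) (nat_lit 168) (nat_lit 9259510391) (nat_lit 0) (nat_lit 957065037) (nat_lit 10) (nat_lit 5) (nat_lit 12) (nat_lit 4) (nat_lit 10) (nat_lit 4) (nat_lit 373) (nat_lit 260) (nat_lit 231)) (XT.nd (nat_lit 51230) (nat_lit 0) (nat_lit 2100) (XT.lf (nat_lit 0) (nat_lit 15446117689) (nat_lit 168) (nat_lit 4893793549) (nat_lit 0) (nat_lit 3324998729) (nat_lit 10) (nat_lit 5) (nat_lit 12) (nat_lit 4) (nat_lit 10) (nat_lit 4) (nat_lit 374) (nat_lit 260) (nat_lit 230)) (XT.lf (nat_lit 0) (nat_lit 1004122622) (nat_lit 336) (nat_lit 3577379606) (nat_lit 0) (nat_lit 1004122622) (nat_lit 35) (nat_lit 5) (nat_lit 39) (nat_lit 4) (nat_lit 35) (nat_lit 4) (nat_lit 342)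 (nat_lit 261) (nat_lit 261))))))))
noncomputable def xc6 : XT := (XT.nd (nat_lit 1974) (nat_lit 336) (nat_lit 0) (XT.nd (nat_lit 940) (nat_lit 756) (nat_lit 0) (XT.nd (nat_lit 470) (nat_lit 504) (nat_lit 0) (XT.nd (nat_lit 188) (nat_lit 252) (nat_lit 0) (XT.nd (nat_lit 94) (nat_lit 252) (nat_lit 0) (XT.lf (nat_lit 0) (nat_lit 5091487172) (nat_lit 336) (nat_lit 1936976437) (nat_lit 0) (nat_lit 4361749850) (nat_lit 35) (nat_lit 5) (nat_lit 39) (nat_lit 4) (nat_lit 35) (nat_lit 4) (nat_lit 343) (nat_lit 261) (nat_lit 260)) (XT.lf (nat_lit 0) (nat_lit 3402627091) (nat_lit 252) (nat_lit 4826182165) (nat_lit 252) (nat_lit 3388649187) (nat_lit 32) (nat_lit 4) (nat_lit 35) (nat_lit 5) (nat_lit 35) (nat_lit 4) (nat_lit 344) (nat_lit 261) (nat_lit 259))) (XT.nd (nat_lit 94) (nat_lit 252) (nat_lit 0) (XT.lf (nat_lit 0) (nat_lit 8841433669) (nat_lit 252) (nat_lit 2568115352) (nat_lit 252) (nat_lit 444068644)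 (nat_lit 32) (nat_lit 4) (nat_lit 35) (nat_lit 5) (nat_lit 35) (nat_lit 4) (nat_lit 345) (nat_lit 261) (nat_lit 258)) (XT.nd (nat_lit 94) (nat_lit 0) (nat_lit 0) (XT.lf (nat_lit 0) (nat_lit 2265842816) (nat_lit 168) (nat_lit 223453703) (nat_lit 252) (nat_lit 9608751639) (nat_lit 29) (nat_lit 5) (nat_lit 31) (nat_lit 5) (nat_lit 32) (nat_lit 4) (nat_lit 346) (nat_lit 261) (nat_lit 257)) (XT.lf (nat_lit 0) (nat_lit 5485961260) (nat_lit 252) (nat_lit 4711208895) (nat_lit 0) (nat_lit 2153498832) (nat_lit 29) (nat_lit 5) (nat_lit 32) (nat_lit 4) (nat_lit 29) (nat_lit 4) (nat_lit 347) (nat_lit 261) (nat_lit 256))))) (XT.nd (nat_lit 188) (nat_lit 252) (nat_lit 0) (XT.nd (nat_lit 94) (nat_lit 0) (nat_lit 0) (XT.lf (nat_lit 0) (nat_lit 472132356) (nat_lit 252) (nat_lit 8040585582) (nat_lit 252) (nat_lit 4100527630) (nat_lit 26) (nat_lit 4) (nat_lit 29) (nat_lit 5) (nat_lit 29) (nat_lit 4) (nat_lit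 348) (nat_lit 261) (nat_lit 255)) (XT.lf (nat_lit 0) (nat_lit 5813448439) (nat_lit 252) (nat_lit 5800337612) (nat_lit 252) (nat_lit 1270953253) (nat_lit 26) (nat_lit 4) (nat_lit 29) (nat_lit 5) (nat_lit 29) (nat_lit 4) (nat_lit 349) (nat_lit 261) (nat_lit 254))) (XT.nd (nat_lit 94) (nat_lit 168) (nat_lit 0) (XT.lf (nat_lit 0) (nat_lit 1545694847) (nat_lit 336) (nat_lit 1961684725) (nat_lit 84) (nat_lit 9659017170) (nat_lit 25) (nat_lit 5) (nat_lit 29) (nat_lit 5) (nat_lit 26) (nat_lit 4) (nat_lit 350) (nat_lit 261) (nat_lit 253)) (XT.nd (nat_lit 94) (nat_lit 0) (nat_lit 0) (XT.lf (nat_lit 0) (nat_lit 3261011968) (nat_lit 168) (nat_lit 1129151755) (nat_lit 252) (nat_lit 9067401955) (nat_lit 23) (nat_lit 5) (nat_lit 25) (nat_lit 5) (nat_lit 26) (nat_lit 4) (nat_lit 351) (nat_lit 261) (nat_lit 252)) (XT.lf (nat_lit 0) (nat_lit 7291856751) (nat_lit 252) (nat_lit 5182103995) (nat_lit 0) (nat_lit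 1284912115) (nat_lit 23) (nat_lit 5) (nat_lit 26) (nat_lit 4) (nat_lit 23) (nat_lit 4) (nat_lit 352) (nat_lit 261) (nat_lit 251)))))) (XT.nd (nat_lit 470) (nat_lit 336) (nat_lit 0) (XT.nd (nat_lit 188) (nat_lit 252) (nat_lit 0) (XT.nd (nat_lit 94) (nat_lit 168) (nat_lit 0) (XT.lf (nat_lit 0) (nat_lit 10232235968) (nat_lit 252) (nat_lit 119627912) (nat_lit 0) (nat_lit 3719393784) (nat_lit 23) (nat_lit 5) (nat_lit 26) (nat_lit 4) (nat_lit 23) (nat_lit 4) (nat_lit 353) (nat_lit 261) (nat_lit 250)) (XT.lf (nat_lit 0) (nat_lit 5109744587) (nat_lit 168) (nat_lit 8143785502) (nat_lit 168) (nat_lit 1140257043) (nat_lit 21) (nat_lit 4) (nat_lit 23) (nat_lit 5) (nat_lit 23) (nat_lit 4) (nat_lit 354) (nat_lit 261) (nat_lit 249))) (XT.nd (nat_lit 94) (nat_lit 168) (nat_lit 0) (XT.lf (nat_lit 0) (nat_lit 1549587320) (nat_lit 252) (nat_lit 4332248979) (nat_lit 84) (nat_lit 8845952984) (nat_lit 20) (nat_lit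 5) (nat_lit 23) (nat_lit 5) (nat_lit 21) (nat_lit 4) (nat_lit 355) (nat_lit 261) (nat_lit 248)) (XT.nd (nat_lit 94) (nat_lit 0) (nat_lit 0) (XT.lf (nat_lit 0) (nat_lit 684556601) (nat_lit 168) (nat_lit 3562434789) (nat_lit 252) (nat_lit 10826539761) (nat_lit 18) (nat_lit 5) (nat_lit 20) (nat_lit 5) (nat_lit 21) (nat_lit 4) (nat_lit 356) (nat_lit 261) (nat_lit 247)) (XT.lf (nat_lit 0) (nat_lit 5859018314) (nat_lit 168) (nat_lit 1156167953) (nat_lit 252) (nat_lit 8415329352) (nat_lit 18) (nat_lit 5) (nat_lit 20) (nat_lit 5) (nat_lit 21) (nat_lit 4) (nat_lit 357) (nat_lit 261) (nat_lit 246))))) (XT.nd (nat_lit 282) (nat_lit 168) (nat_lit 0) (XT.nd (nat_lit 94) (nat_lit 168) (nat_lit 0) (XT.lf (nat_lit 0) (nat_lit 9825728582) (nat_lit 252) (nat_lit 4706392237) (nat_lit 0) (nat_lit 1267916346) (nat_lit 18) (nat_lit 5) (nat_lit 21) (nat_lit 4) (nat_lit 18) (nat_lit 4) (nat_lit 358) (nat_lit 261)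 (nat_lit 245)) (XT.nd (nat_lit 94) (nat_lit 0) (nat_lit 0) (XT.lf (nat_lit 0) (nat_lit 216151528) (nat_lit 168) (nat_lit 12466309659) (nat_lit 168) (nat_lit 3499941118) (nat_lit 16) (nat_lit 4) (nat_lit 18) (nat_lit 5) (nat_lit 18) (nat_lit 4) (nat_lit 359) (nat_lit 261) (nat_lit 244)) (XT.lf (nat_lit 0) (nat_lit 5306027299) (nat_lit 168) (nat_lit 10316751931) (nat_lit 168) (nat_lit 954111512) (nat_lit 16) (nat_lit 4) (nat_lit 18) (nat_lit 5) (nat_lit 18) (nat_lit 4) (nat_lit 360) (nat_lit 261) (nat_lit 243)))) (XT.nd (nat_lit 94) (nat_lit 84) (nat_lit 0) (XT.lf (nat_lit 0) (nat_lit 1583860707) (nat_lit 252) (nat_lit 6530176139) (nat_lit 84) (nat_lit 8870813329) (nat_lit 15) (nat_lit 5) (nat_lit 18) (nat_lit 5) (nat_lit 16) (nat_lit 4) (nat_lit 361) (nat_lit 261) (nat_lit 242)) (XT.nd (nat_lit 94) (nat_lit 84) (nat_lit 0) (XT.lf (nat_lit 0) (nat_lit 4129169629) (nat_lit 252) (nat_lit 1733453733)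 (nat_lit 84) (nat_lit 11544233310) (nat_lit 15) (nat_lit 5) (nat_lit 18) (nat_lit 5) (nat_lit 16) (nat_lit 4) (nat_lit 362) (nat_lit 261) (nat_lit 241)) (XT.lf (nat_lit 0) (nat_lit 3197665559) (nat_lit 84) (nat_lit 3537466648) (nat_lit 168) (nat_lit 11107481435) (nat_lit 14) (nat_lit 5) (nat_lit 15) (nat_lit 5) (nat_lit 16) (nat_lit 4) (nat_lit 363) (nat_lit 261) (nat_lit 240))))))) (XT.nd (nat_lit 51982) (nat_lit 0) (nat_lit 1260) (XT.nd (nat_lit 470) (nat_lit 84) (nat_lit 0) (XT.nd (nat_lit 188) (nat_lit 252) (nat_lit 0) (XT.nd (nat_lit 94) (nat_lit 0) (nat_lit 0) (XT.lf (nat_lit 0) (nat_lit 8240467561) (nat_lit 84) (nat_lit 1150263088) (nat_lit 168) (nat_lit 8902213458) (nat_lit 14) (nat_lit 5) (nat_lit 15) (nat_lit 5) (nat_lit 16) (nat_lit 4) (nat_lit 364) (nat_lit 261) (nat_lit 239)) (XT.lf (nat_lit 0) (nat_lit 12093619284) (nat_lit 168) (nat_lit 5407531231) (nat_lit 0) (nat_lit 1257266756)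 (nat_lit 14) (nat_lit 5) (nat_lit 16) (nat_lit 4) (nat_lit 14) (nat_lit 4) (nat_lit 365) (nat_lit 261) (nat_lit 238))) (XT.nd (nat_lit 94) (nat_lit 252) (nat_lit 0) (XT.lf (nat_lit 0) (nat_lit 14845468272) (nat_lit 168) (nat_lit 704933347) (nat_lit 0) (nat_lit 3689091711) (nat_lit 14) (nat_lit 5) (nat_lit 16) (nat_lit 4) (nat_lit 14) (nat_lit 4) (nat_lit 366) (nat_lit 261) (nat_lit 237)) (XT.nd (nat_lit 94) (nat_lit 84) (nat_lit 0) (XT.lf (nat_lit 0) (nat_lit 4154821565) (nat_lit 168) (nat_lit 13523826653) (nat_lit 168) (nat_lit 2057048507) (nat_lit 12) (nat_lit 4) (nat_lit 14) (nat_lit 5) (nat_lit 14) (nat_lit 4) (nat_lit 367) (nat_lit 261) (nat_lit 236)) (XT.lf (nat_lit 0) (nat_lit 307622129) (nat_lit 252) (nat_lit 11143066063) (nat_lit 84) (nat_lit 8797738438) (nat_lit 11) (nat_lit 5) (nat_lit 14) (nat_lit 5) (nat_lit 12) (nat_lit 4) (nat_lit 368) (nat_lit 261) (nat_lit 235))))) (XT.nd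 (nat_lit 282) (nat_lit 0) (nat_lit 0) (XT.nd (nat_lit 94) (nat_lit 84) (nat_lit 0) (XT.lf (nat_lit 0) (nat_lit 2659137515) (nat_lit 252) (nat_lit 6659154283) (nat_lit 84) (nat_lit 11459545574) (nat_lit 11) (nat_lit 5) (nat_lit 14) (nat_lit 5) (nat_lit 12) (nat_lit 4) (nat_lit 369) (nat_lit 261) (nat_lit 234)) (XT.nd (nat_lit 94) (nat_lit 84) (nat_lit 0) (XT.lf (nat_lit 0) (nat_lit 5041134451) (nat_lit 252) (nat_lit 2104554168) (nat_lit 84) (nat_lit 14179366388) (nat_lit 11) (nat_lit 5) (nat_lit 14) (nat_lit 5) (nat_lit 12) (nat_lit 4) (nat_lit 370) (nat_lit 261) (nat_lit 233)) (XT.lf (nat_lit 0) (nat_lit 2576898405) (nat_lit 84) (nat_lit 4904497954) (nat_lit 168) (nat_lit 14408400783) (nat_lit 10) (nat_lit 5) (nat_lit 11) (nat_lit 5) (nat_lit 12) (nat_lit 4) (nat_lit 371) (nat_lit 261) (nat_lit 232)))) (XT.nd (nat_lit 94) (nat_lit 0) (nat_lit 0) (XT.lf (nat_lit 0) (nat_lit 7382503359) (nat_lit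 84) (nat_lit 2596216527) (nat_lit 168) (nat_lit 12493978107) (nat_lit 10) (nat_lit 5) (nat_lit 11) (nat_lit 5) (nat_lit 12) (nat_lit 4) (nat_lit 372) (nat_lit 261) (nat_lit 231)) (XT.nd (nat_lit 94) (nat_lit 0) (nat_lit 0) (XT.lf (nat_lit 0) (nat_lit 12273466069) (nat_lit 84) (nat_lit 240660008) (nat_lit 168) (nat_lit 10560835315) (nat_lit 10) (nat_lit 5) (nat_lit 11) (nat_lit 5) (nat_lit 12) (nat_lit 4) (nat_lit 373) (nat_lit 261) (nat_lit 230)) (XT.lf (nat_lit 0) (nat_lit 15111448987) (nat_lit 168) (nat_lit 6464274077) (nat_lit 0) (nat_lit 2120760052) (nat_lit 10) (nat_lit 5) (nat_lit 12) (nat_lit 4) (nat_lit 10) (nat_lit 4) (nat_lit 374) (nat_lit 261) (nat_lit 229)))))) (XT.nd (nat_lit 470) (nat_lit 588) (nat_lit 0) (XT.nd (nat_lit 188) (nat_lit 588) (nat_lit 0) (XT.nd (nat_lit 94) (nat_lit 0) (nat_lit 0) (XT.lf (nat_lit 0) (nat_lit 2094119055) (nat_lit 252) (nat_lit 1641707079) (nat_lit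 252) (nat_lit 1641707079) (nat_lit 39) (nat_lit 4) (nat_lit 42) (nat_lit 5) (nat_lit 42) (nat_lit 4) (nat_lit 340) (nat_lit 262) (nat_lit 262)) (XT.lf (nat_lit 0) (nat_lit 9611632736) (nat_lit 252) (nat_lit 1062308264) (nat_lit 252) (nat_lit 286625950) (nat_lit 39) (nat_lit 4) (nat_lit 42) (nat_lit 5) (nat_lit 42) (nat_lit 4) (nat_lit 341) (nat_lit 262) (nat_lit 261))) (XT.nd (nat_lit 94) (nat_lit 252) (nat_lit 0) (XT.lf (nat_lit 0) (nat_lit 2722402689) (nat_lit 336) (nat_lit 7209830078) (nat_lit 0) (nat_lit 1240306189) (nat_lit 35) (nat_lit 5) (nat_lit 39) (nat_lit 4) (nat_lit 35) (nat_lit 4) (nat_lit 342) (nat_lit 262) (nat_lit 260)) (XT.nd (nat_lit 94) (nat_lit 252) (nat_lit 0) (XT.lf (nat_lit 0) (nat_lit 5768591527) (nat_lit 336) (nat_lit 2045462303) (nat_lit 0) (nat_lit 3578699371) (nat_lit 35) (nat_lit 5) (nat_lit 39) (nat_lit 4) (nat_lit 35) (nat_lit 4) (nat_lit 343) (nat_lit 262)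 (nat_lit 259)) (XT.lf (nat_lit 0) (nat_lit 3239036312) (nat_lit 252) (nat_lit 5629315479) (nat_lit 252) (nat_lit 2752909592) (nat_lit 32) (nat_lit 4) (nat_lit 35) (nat_lit 5) (nat_lit 35) (nat_lit 4) (nat_lit 344) (nat_lit 262) (nat_lit 258))))) (XT.nd (nat_lit 282) (nat_lit 336) (nat_lit 0) (XT.nd (nat_lit 94) (nat_lit 168) (nat_lit 0) (XT.lf (nat_lit 0) (nat_lit 151986487) (nat_lit 336) (nat_lit 3233593037) (nat_lit 84) (nat_lit 8472985570) (nat_lit 31) (nat_lit 5) (nat_lit 35) (nat_lit 5) (nat_lit 32) (nat_lit 4) (nat_lit 345) (nat_lit 262) (nat_lit 257)) (XT.nd (nat_lit 94) (nat_lit 0) (nat_lit 0) (XT.lf (nat_lit 0) (nat_lit 1983799038) (nat_lit 168) (nat_lit 1055062103) (nat_lit 252) (nat_lit 9065251868) (nat_lit 29) (nat_lit 5) (nat_lit 31) (nat_lit 5) (nat_lit 32) (nat_lit 4) (nat_lit 346) (nat_lit 262) (nat_lit 256)) (XT.lf (nat_lit 0) (nat_lit 5992921874) (nat_lit 252) (nat_lit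 5042093516) (nat_lit 0) (nat_lit 1323126600) (nat_lit 29) (nat_lit 5) (nat_lit 32) (nat_lit 4) (nat_lit 29) (nat_lit 4) (nat_lit 347) (nat_lit 262) (nat_lit 255)))) (XT.nd (nat_lit 94) (nat_lit 84) (nat_lit 0) (XT.lf (nat_lit 0) (nat_lit 83935009) (nat_lit 252) (nat_lit 8898571190) (nat_lit 252) (nat_lit 3639449510) (nat_lit 26) (nat_lit 4) (nat_lit 29) (nat_lit 5) (nat_lit 29) (nat_lit 4) (nat_lit 348) (nat_lit 262) (nat_lit 254)) (XT.nd (nat_lit 94) (nat_lit 84) (nat_lit 0) (XT.lf (nat_lit 0) (nat_lit 5376260733) (nat_lit 252) (nat_lit 6674508105) (nat_lit 252) (nat_lit 843779823) (nat_lit 26) (nat_lit 4) (nat_lit 29) (nat_lit 5) (nat_lit 29) (nat_lit 4) (nat_lit 349) (nat_lit 262) (nat_lit 253)) (XT.lf (nat_lit 0) (nat_lit 1932039001) (nat_lit 336) (nat_lit 2461176664) (nat_lit 84) (nat_lit 8783935347) (nat_lit 25) (nat_lit 5) (nat_lit 29) (nat_lit 5) (nat_lit 26) (nat_lit 4) (nat_lit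 350) (nat_lit 262) (nat_lit 252))))))))
noncomputable def xc7 : XT := (XT.nd (nat_lit 1974) (nat_lit 0) (nat_lit 0) (XT.nd (nat_lit 940) (nat_lit 504) (nat_lit 0) (XT.nd (nat_lit 470) (nat_lit 336) (nat_lit 0) (XT.nd (nat_lit 188) (nat_lit 252) (nat_lit 0) (XT.nd (nat_lit 94) (nat_lit 0) (nat_lit 0) (XT.lf (nat_lit 0) (nat_lit 2703480750) (nat_lit 168) (nat_lit 2036242534) (nat_lit 252) (nat_lit 8729812035) (nat_lit 23) (nat_lit 5) (nat_lit 25) (nat_lit 5) (nat_lit 26) (nat_lit 4) (nat_lit 351) (nat_lit 262) (nat_lit 251)) (XT.lf (nat_lit 0) (nat_lit 7601489813) (nat_lit 252) (nat_lit 5789811230) (nat_lit 0) (nat_lit 380851973) (nat_lit 23) (nat_lit 5) (nat_lit 26) (nat_lit 4) (nat_lit 23) (nat_lit 4) (nat_lit 352) (nat_lit 262) (nat_lit 250))) (XT.nd (nat_lit 94) (nat_lit 252) (nat_lit 0) (XT.lf (nat_lit 0) (nat_lit 10511870925) (nat_lit 252) (nat_lit 773120626) (nat_lit 0) (nat_lit 2800546811)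 (nat_lit 23) (nat_lit 5) (nat_lit 26) (nat_lit 4) (nat_lit 23) (nat_lit 4) (nat_lit 353) (nat_lit 262) (nat_lit 249)) (XT.nd (nat_lit 94) (nat_lit 84) (nat_lit 0) (XT.lf (nat_lit 0) (nat_lit 4397492780) (nat_lit 168) (nat_lit 9099510516) (nat_lit 168) (nat_lit 912254031) (nat_lit 21) (nat_lit 4) (nat_lit 23) (nat_lit 5) (nat_lit 23) (nat_lit 4) (nat_lit 354) (nat_lit 262) (nat_lit 248)) (XT.lf (nat_lit 0) (nat_lit 1743981054) (nat_lit 252) (nat_lit 5106853049) (nat_lit 84) (nat_lit 7893319165) (nat_lit 20) (nat_lit 5) (nat_lit 23) (nat_lit 5) (nat_lit 21) (nat_lit 4) (nat_lit 355) (nat_lit 262) (nat_lit 247))))) (XT.nd (nat_lit 188) (nat_lit 168) (nat_lit 0) (XT.nd (nat_lit 94) (nat_lit 168) (nat_lit 0) (XT.lf (nat_lit 0) (nat_lit 4406451148) (nat_lit 252) (nat_lit 147118370) (nat_lit 84) (nat_lit 10537471058) (nat_lit 20) (nat_lit 5) (nat_lit 23) (nat_lit 5) (nat_lit 21) (nat_lit 4) (nat_lit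 356) (nat_lit 262) (nat_lit 246)) (XT.lf (nat_lit 0) (nat_lit 4981477831) (nat_lit 168) (nat_lit 2163956881) (nat_lit 252) (nat_lit 8303556490) (nat_lit 18) (nat_lit 5) (nat_lit 20) (nat_lit 5) (nat_lit 21) (nat_lit 4) (nat_lit 357) (nat_lit 262) (nat_lit 245))) (XT.nd (nat_lit 94) (nat_lit 168) (nat_lit 0) (XT.lf (nat_lit 0) (nat_lit 9918945836) (nat_lit 252) (nat_lit 5634710101) (nat_lit 0) (nat_lit 266063564) (nat_lit 18) (nat_lit 5) (nat_lit 21) (nat_lit 4) (nat_lit 18) (nat_lit 4) (nat_lit 358) (nat_lit 262) (nat_lit 244)) (XT.nd (nat_lit 94) (nat_lit 168) (nat_lit 0) (XT.lf (nat_lit 0) (nat_lit 12747313242) (nat_lit 252) (nat_lit 757548648) (nat_lit 0) (nat_lit 2698159092) (nat_lit 18) (nat_lit 5) (nat_lit 21) (nat_lit 4) (nat_lit 18) (nat_lit 4) (nat_lit 359) (nat_lit 262) (nat_lit 243)) (XT.lf (nat_lit 0) (nat_lit 4276138391) (nat_lit 168) (nat_lit 11377987975) (nat_lit 168) (nat_lit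 944477008) (nat_lit 16) (nat_lit 4) (nat_lit 18) (nat_lit 5) (nat_lit 18) (nat_lit 4) (nat_lit 360) (nat_lit 262) (nat_lit 242)))))) (XT.nd (nat_lit 470) (nat_lit 336) (nat_lit 0) (XT.nd (nat_lit 188) (nat_lit 84) (nat_lit 0) (XT.nd (nat_lit 94) (nat_lit 0) (nat_lit 0) (XT.lf (nat_lit 0) (nat_lit 1567933644) (nat_lit 252) (nat_lit 7621837749) (nat_lit 84) (nat_lit 7817626870) (nat_lit 15) (nat_lit 5) (nat_lit 18) (nat_lit 5) (nat_lit 16) (nat_lit 4) (nat_lit 361) (nat_lit 262) (nat_lit 241)) (XT.lf (nat_lit 0) (nat_lit 4088637860) (nat_lit 252) (nat_lit 2863878190) (nat_lit 84) (nat_lit 10477701920) (nat_lit 15) (nat_lit 5) (nat_lit 18) (nat_lit 5) (nat_lit 16) (nat_lit 4) (nat_lit 362) (nat_lit 262) (nat_lit 240))) (XT.nd (nat_lit 94) (nat_lit 0) (nat_lit 0) (XT.lf (nat_lit 0) (nat_lit 2005626849) (nat_lit 84) (nat_lit 4653283523) (nat_lit 168) (nat_lit 11208219907) (nat_lit 14) (nat_lit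 5) (nat_lit 15) (nat_lit 5) (nat_lit 16) (nat_lit 4) (nat_lit 363) (nat_lit 262) (nat_lit 239)) (XT.nd (nat_lit 94) (nat_lit 0) (nat_lit 0) (XT.lf (nat_lit 0) (nat_lit 7011212161) (nat_lit 84) (nat_lit 2279780131) (nat_lit 168) (nat_lit 9027244938) (nat_lit 14) (nat_lit 5) (nat_lit 15) (nat_lit 5) (nat_lit 16) (nat_lit 4) (nat_lit 364) (nat_lit 262) (nat_lit 238)) (XT.lf (nat_lit 0) (nat_lit 11959734728) (nat_lit 168) (nat_lit 6687593787) (nat_lit 0) (nat_lit 137486459) (nat_lit 14) (nat_lit 5) (nat_lit 16) (nat_lit 4) (nat_lit 14) (nat_lit 4) (nat_lit 365) (nat_lit 262) (nat_lit 237))))) (XT.nd (nat_lit 282) (nat_lit 84) (nat_lit 0) (XT.nd (nat_lit 94) (nat_lit 252) (nat_lit 0) (XT.lf (nat_lit 0) (nat_lit 14689332261) (nat_lit 168) (nat_lit 2020610823) (nat_lit 0) (nat_lit 2556682407) (nat_lit 14) (nat_lit 5) (nat_lit 16) (nat_lit 4) (nat_lit 14) (nat_lit 4) (nat_lit 366) (nat_lit 262)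 (nat_lit 236)) (XT.nd (nat_lit 94) (nat_lit 84) (nat_lit 0) (XT.lf (nat_lit 0) (nat_lit 2776836712) (nat_lit 168) (nat_lit 14710423315) (nat_lit 168) (nat_lit 2276704998) (nat_lit 12) (nat_lit 4) (nat_lit 14) (nat_lit 5) (nat_lit 14) (nat_lit 4) (nat_lit 367) (nat_lit 262) (nat_lit 235)) (XT.lf (nat_lit 0) (nat_lit 70859812) (nat_lit 252) (nat_lit 12581818005) (nat_lit 84) (nat_lit 7624792890) (nat_lit 11) (nat_lit 5) (nat_lit 14) (nat_lit 5) (nat_lit 12) (nat_lit 4) (nat_lit 368) (nat_lit 262) (nat_lit 234)))) (XT.nd (nat_lit 94) (nat_lit 84) (nat_lit 0) (XT.lf (nat_lit 0) (nat_lit 2401491186) (nat_lit 252) (nat_lit 8131541346) (nat_lit 84) (nat_lit 10274535849) (nat_lit 11) (nat_lit 5) (nat_lit 14) (nat_lit 5) (nat_lit 12) (nat_lit 4) (nat_lit 369) (nat_lit 262) (nat_lit 233)) (XT.nd (nat_lit 94) (nat_lit 84) (nat_lit 0) (XT.lf (nat_lit 0) (nat_lit 4763232050) (nat_lit 252) (nat_lit 3609565014)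 (nat_lit 84) (nat_lit 12982655230) (nat_lit 11) (nat_lit 5) (nat_lit 14) (nat_lit 5) (nat_lit 12) (nat_lit 4) (nat_lit 370) (nat_lit 262) (nat_lit 232)) (XT.lf (nat_lit 0) (nat_lit 1008647951) (nat_lit 84) (nat_lit 6159641752) (nat_lit 168) (nat_lit 14753033245) (nat_lit 10) (nat_lit 5) (nat_lit 11) (nat_lit 5) (nat_lit 12) (nat_lit 4) (nat_lit 371) (nat_lit 262) (nat_lit 231))))))) (XT.nd (nat_lit 51794) (nat_lit 0) (nat_lit 840) (XT.nd (nat_lit 51230) (nat_lit 0) (nat_lit 1764) (XT.nd (nat_lit 188) (nat_lit 0) (nat_lit 0) (XT.nd (nat_lit 94) (nat_lit 0) (nat_lit 0) (XT.lf (nat_lit 0) (nat_lit 5782930405) (nat_lit 84) (nat_lit 3863315831) (nat_lit 168) (nat_lit 12858614009) (nat_lit 10) (nat_lit 5) (nat_lit 11) (nat_lit 5) (nat_lit 12) (nat_lit 4) (nat_lit 372) (nat_lit 262) (nat_lit 230)) (XT.lf (nat_lit 0) (nat_lit 10643512417) (nat_lit 84) (nat_lit 1519355341) (nat_lit 168) (nat_lit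 10944873195) (nat_lit 10) (nat_lit 5) (nat_lit 11) (nat_lit 5) (nat_lit 12) (nat_lit 4) (nat_lit 373) (nat_lit 262) (nat_lit 229))) (XT.nd (nat_lit 50854) (nat_lit 0) (nat_lit 2688) (XT.lf (nat_lit 0) (nat_lit 14729174423) (nat_lit 168) (nat_lit 8144276862) (nat_lit 0) (nat_lit 856806829) (nat_lit 10) (nat_lit 5) (nat_lit 12) (nat_lit 4) (nat_lit 10) (nat_lit 4) (nat_lit 374) (nat_lit 262) (nat_lit 228)) (XT.nd (nat_lit 94) (nat_lit 0) (nat_lit 0) (XT.lf (nat_lit 0) (nat_lit 1015153771) (nat_lit 336) (nat_lit 3153071183) (nat_lit 0) (nat_lit 1015153771) (nat_lit 42) (nat_lit 5) (nat_lit 46) (nat_lit 4) (nat_lit 42) (nat_lit 4) (nat_lit 338) (nat_lit 263) (nat_lit 263)) (XT.lf (nat_lit 0) (nat_lit 5101864621) (nat_lit 336) (nat_lit 1153932877) (nat_lit 0) (nat_lit 4302136156) (nat_lit 42) (nat_lit 5) (nat_lit 46) (nat_lit 4) (nat_lit 42) (nat_lit 4) (nat_lit 339) (nat_lit 263) (nat_lit 262)))))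 (XT.nd (nat_lit 282) (nat_lit 336) (nat_lit 0) (XT.nd (nat_lit 94) (nat_lit 336) (nat_lit 0) (XT.lf (nat_lit 0) (nat_lit 4134645578) (nat_lit 252) (nat_lit 4098563283) (nat_lit 252) (nat_lit 2523152505) (nat_lit 39) (nat_lit 4) (nat_lit 42) (nat_lit 5) (nat_lit 42) (nat_lit 4) (nat_lit 340) (nat_lit 263) (nat_lit 261)) (XT.nd (nat_lit 94) (nat_lit 252) (nat_lit 0) (XT.lf (nat_lit 0) (nat_lit 426584129) (nat_lit 336) (nat_lit 1461377589) (nat_lit 84) (nat_lit 9075022291) (nat_lit 38) (nat_lit 5) (nat_lit 42) (nat_lit 5) (nat_lit 39) (nat_lit 4) (nat_lit 341) (nat_lit 263) (nat_lit 260)) (XT.lf (nat_lit 0) (nat_lit 3383444191) (nat_lit 336) (nat_lit 7375094006) (nat_lit 0) (nat_lit 417869722) (nat_lit 35) (nat_lit 5) (nat_lit 39) (nat_lit 4) (nat_lit 35) (nat_lit 4) (nat_lit 342) (nat_lit 263) (nat_lit 259)))) (XT.nd (nat_lit 94) (nat_lit 336) (nat_lit 0) (XT.lf (nat_lit 0) (nat_lit 6393694049)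 (nat_lit 336) (nat_lit 2262535154) (nat_lit 0) (nat_lit 2741605849) (nat_lit 35) (nat_lit 5) (nat_lit 39) (nat_lit 4) (nat_lit 35) (nat_lit 4) (nat_lit 343) (nat_lit 263) (nat_lit 258)) (XT.nd (nat_lit 94) (nat_lit 84) (nat_lit 0) (XT.lf (nat_lit 0) (nat_lit 2966215593) (nat_lit 252) (nat_lit 6489673934) (nat_lit 252) (nat_lit 2171714026) (nat_lit 32) (nat_lit 4) (nat_lit 35) (nat_lit 5) (nat_lit 35) (nat_lit 4) (nat_lit 344) (nat_lit 263) (nat_lit 257)) (XT.lf (nat_lit 0) (nat_lit 686726650) (nat_lit 336) (nat_lit 3569068426) (nat_lit 84) (nat_lit 7610100706) (nat_lit 31) (nat_lit 5) (nat_lit 35) (nat_lit 5) (nat_lit 32) (nat_lit 4) (nat_lit 345) (nat_lit 263) (nat_lit 256)))))) (XT.nd (nat_lit 470) (nat_lit 420) (nat_lit 0) (XT.nd (nat_lit 188) (nat_lit 336) (nat_lit 0) (XT.nd (nat_lit 94) (nat_lit 0) (nat_lit 0) (XT.lf (nat_lit 0) (nat_lit 1591390363) (nat_lit 168) (nat_lit 1944617319)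 (nat_lit 252) (nat_lit 8576688843) (nat_lit 29) (nat_lit 5) (nat_lit 31) (nat_lit 5) (nat_lit 32) (nat_lit 4) (nat_lit 346) (nat_lit 263) (nat_lit 255)) (XT.lf (nat_lit 0) (nat_lit 6447922530) (nat_lit 252) (nat_lit 5483752624) (nat_lit 0) (nat_lit 436441670) (nat_lit 29) (nat_lit 5) (nat_lit 32) (nat_lit 4) (nat_lit 29) (nat_lit 4) (nat_lit 347) (nat_lit 263) (nat_lit 254))) (XT.nd (nat_lit 94) (nat_lit 336) (nat_lit 0) (XT.lf (nat_lit 0) (nat_lit 9404354727) (nat_lit 252) (nat_lit 407418514) (nat_lit 0) (nat_lit 2821267266) (nat_lit 29) (nat_lit 5) (nat_lit 32) (nat_lit 4) (nat_lit 29) (nat_lit 4) (nat_lit 348) (nat_lit 263) (nat_lit 253)) (XT.nd (nat_lit 94) (nat_lit 84) (nat_lit 0) (XT.lf (nat_lit 0) (nat_lit 4829012527) (nat_lit 252) (nat_lit 7607661010) (nat_lit 252) (nat_lit 470153954) (nat_lit 26) (nat_lit 4) (nat_lit 29) (nat_lit 5) (nat_lit 29) (nat_lit 4) (nat_lit 349) (nat_lit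 263) (nat_lit 252)) (XT.lf (nat_lit 0) (nat_lit 2266883326) (nat_lit 336) (nat_lit 3071216382) (nat_lit 84) (nat_lit 7852259151) (nat_lit 25) (nat_lit 5) (nat_lit 29) (nat_lit 5) (nat_lit 26) (nat_lit 4) (nat_lit 350) (nat_lit 263) (nat_lit 251))))) (XT.nd (nat_lit 282) (nat_lit 252) (nat_lit 0) (XT.nd (nat_lit 94) (nat_lit 0) (nat_lit 0) (XT.lf (nat_lit 0) (nat_lit 2034564968) (nat_lit 168) (nat_lit 3003052836) (nat_lit 252) (nat_lit 8446343600) (nat_lit 23) (nat_lit 5) (nat_lit 25) (nat_lit 5) (nat_lit 26) (nat_lit 4) (nat_lit 351) (nat_lit 263) (nat_lit 250)) (XT.nd (nat_lit 94) (nat_lit 0) (nat_lit 0) (XT.lf (nat_lit 0) (nat_lit 7272462039) (nat_lit 168) (nat_lit 593218108) (nat_lit 252) (nat_lit 5922014386) (nat_lit 23) (nat_lit 5) (nat_lit 25) (nat_lit 5) (nat_lit 26) (nat_lit 4) (nat_lit 352) (nat_lit 263) (nat_lit 249)) (XT.lf (nat_lit 0) (nat_lit 10741080338) (nat_lit 252) (nat_lit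 1537065900) (nat_lit 0) (nat_lit 1824086531) (nat_lit 23) (nat_lit 5) (nat_lit 26) (nat_lit 4) (nat_lit 23) (nat_lit 4) (nat_lit 353) (nat_lit 263) (nat_lit 248)))) (XT.nd (nat_lit 94) (nat_lit 84) (nat_lit 0) (XT.lf (nat_lit 0) (nat_lit 3573880018) (nat_lit 168) (nat_lit 10115941084) (nat_lit 168) (nat_lit 737325192) (nat_lit 21) (nat_lit 4) (nat_lit 23) (nat_lit 5) (nat_lit 23) (nat_lit 4) (nat_lit 354) (nat_lit 263) (nat_lit 247)) (XT.nd (nat_lit 94) (nat_lit 0) (nat_lit 0) (XT.lf (nat_lit 0) (nat_lit 1887242376) (nat_lit 252) (nat_lit 5993368707) (nat_lit 84) (nat_lit 6882312281) (nat_lit 20) (nat_lit 5) (nat_lit 23) (nat_lit 5) (nat_lit 21) (nat_lit 4) (nat_lit 355) (nat_lit 263) (nat_lit 246)) (XT.lf (nat_lit 0) (nat_lit 4522415582) (nat_lit 252) (nat_lit 1075611344) (nat_lit 84) (nat_lit 9512690558) (nat_lit 20) (nat_lit 5) (nat_lit 23) (nat_lit 5) (nat_lit 21) (nat_lit 4) (nat_lit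 356) (nat_lit 263) (nat_lit 245))))))))
noncomputable def xc8 : XT := (XT.nd (nat_lit 52546) (nat_lit 0) (nat_lit 672) (XT.nd (nat_lit 940) (nat_lit 336) (nat_lit 0) (XT.nd (nat_lit 470) (nat_lit 84) (nat_lit 0) (XT.nd (nat_lit 188) (nat_lit 252) (nat_lit 0) (XT.nd (nat_lit 94) (nat_lit 0) (nat_lit 0) (XT.lf (nat_lit 0) (nat_lit 3992340804) (nat_lit 168) (nat_lit 3232769854) (nat_lit 252) (nat_lit 8244741181) (nat_lit 18) (nat_lit 5) (nat_lit 20) (nat_lit 5) (nat_lit 21) (nat_lit 4) (nat_lit 357) (nat_lit 263) (nat_lit 244)) (XT.lf (nat_lit 0) (nat_lit 9158346589) (nat_lit 168) (nat_lit 811501682) (nat_lit 252) (nat_lit 5871680865) (nat_lit 18) (nat_lit 5) (nat_lit 20) (nat_lit 5) (nat_lit 21) (nat_lit 4) (nat_lit 358) (nat_lit 263) (nat_lit 243))) (XT.nd (nat_lit 94) (nat_lit 252) (nat_lit 0) (XT.lf (nat_lit 0) (nat_lit 12764732937) (nat_lit 252) (nat_lit 1837764632) (nat_lit 0) (nat_lit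 1623426315) (nat_lit 18) (nat_lit 5) (nat_lit 21) (nat_lit 4) (nat_lit 18) (nat_lit 4) (nat_lit 359) (nat_lit 263) (nat_lit 242)) (XT.nd (nat_lit 94) (nat_lit 84) (nat_lit 0) (XT.lf (nat_lit 0) (nat_lit 3134320091) (nat_lit 168) (nat_lit 12501231152) (nat_lit 168) (nat_lit 987124514) (nat_lit 16) (nat_lit 4) (nat_lit 18) (nat_lit 5) (nat_lit 18) (nat_lit 4) (nat_lit 360) (nat_lit 263) (nat_lit 241)) (XT.lf (nat_lit 0) (nat_lit 1501540684) (nat_lit 252) (nat_lit 8826068211) (nat_lit 84) (nat_lit 6704688077) (nat_lit 15) (nat_lit 5) (nat_lit 18) (nat_lit 5) (nat_lit 16) (nat_lit 4) (nat_lit 361) (nat_lit 263) (nat_lit 240))))) (XT.nd (nat_lit 188) (nat_lit 0) (nat_lit 0) (XT.nd (nat_lit 94) (nat_lit 84) (nat_lit 0) (XT.lf (nat_lit 0) (nat_lit 3998380006) (nat_lit 252) (nat_lit 4105705982) (nat_lit 84) (nat_lit 9351819450) (nat_lit 15) (nat_lit 5) (nat_lit 18) (nat_lit 5) (nat_lit 16) (nat_lit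 4) (nat_lit 362) (nat_lit 263) (nat_lit 239)) (XT.lf (nat_lit 0) (nat_lit 701047841) (nat_lit 84) (nat_lit 5831515764) (nat_lit 168) (nat_lit 11361420372) (nat_lit 14) (nat_lit 5) (nat_lit 15) (nat_lit 5) (nat_lit 16) (nat_lit 4) (nat_lit 363) (nat_lit 263) (nat_lit 238))) (XT.nd (nat_lit 94) (nat_lit 0) (nat_lit 0) (XT.lf (nat_lit 0) (nat_lit 5670535490) (nat_lit 84) (nat_lit 3471300605) (nat_lit 168) (nat_lit 9204007972) (nat_lit 14) (nat_lit 5) (nat_lit 15) (nat_lit 5) (nat_lit 16) (nat_lit 4) (nat_lit 364) (nat_lit 263) (nat_lit 237)) (XT.nd (nat_lit 94) (nat_lit 0) (nat_lit 0) (XT.lf (nat_lit 0) (nat_lit 10722967312) (nat_lit 84) (nat_lit 1064095695) (nat_lit 168) (nat_lit 7026132450) (nat_lit 14) (nat_lit 5) (nat_lit 15) (nat_lit 5) (nat_lit 16) (nat_lit 4) (nat_lit 365) (nat_lit 263) (nat_lit 236)) (XT.lf (nat_lit 0) (nat_lit 14484522179) (nat_lit 168) (nat_lit 3447233273) (nat_lit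 0) (nat_lit 1364290131) (nat_lit 14) (nat_lit 5) (nat_lit 16) (nat_lit 4) (nat_lit 14) (nat_lit 4) (nat_lit 366) (nat_lit 263) (nat_lit 235)))))) (XT.nd (nat_lit 470) (nat_lit 84) (nat_lit 0) (XT.nd (nat_lit 188) (nat_lit 84) (nat_lit 0) (XT.nd (nat_lit 94) (nat_lit 0) (nat_lit 0) (XT.lf (nat_lit 0) (nat_lit 1286685653) (nat_lit 168) (nat_lit 15960048344) (nat_lit 168) (nat_lit 2547800329) (nat_lit 12) (nat_lit 4) (nat_lit 14) (nat_lit 5) (nat_lit 14) (nat_lit 4) (nat_lit 367) (nat_lit 263) (nat_lit 234)) (XT.lf (nat_lit 0) (nat_lit 6173075100) (nat_lit 168) (nat_lit 13915575602) (nat_lit 168) (nat_lit 220091925) (nat_lit 12) (nat_lit 4) (nat_lit 14) (nat_lit 5) (nat_lit 14) (nat_lit 4) (nat_lit 368) (nat_lit 263) (nat_lit 233))) (XT.nd (nat_lit 94) (nat_lit 0) (nat_lit 0) (XT.lf (nat_lit 0) (nat_lit 2094717738) (nat_lit 252) (nat_lit 9715831313) (nat_lit 84) (nat_lit 9029025213) (nat_lit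 11) (nat_lit 5) (nat_lit 14) (nat_lit 5) (nat_lit 12) (nat_lit 4) (nat_lit 369) (nat_lit 263) (nat_lit 232)) (XT.nd (nat_lit 94) (nat_lit 0) (nat_lit 0) (XT.lf (nat_lit 0) (nat_lit 4436811586) (nat_lit 252) (nat_lit 5225497837) (nat_lit 84) (nat_lit 11725794999) (nat_lit 11) (nat_lit 5) (nat_lit 14) (nat_lit 5) (nat_lit 12) (nat_lit 4) (nat_lit 370) (nat_lit 263) (nat_lit 231)) (XT.lf (nat_lit 0) (nat_lit 6812807056) (nat_lit 252) (nat_lit 658298299) (nat_lit 84) (nat_lit 14483806717) (nat_lit 11) (nat_lit 5) (nat_lit 14) (nat_lit 5) (nat_lit 12) (nat_lit 4) (nat_lit 371) (nat_lit 263) (nat_lit 230))))) (XT.nd (nat_lit 50854) (nat_lit 0) (nat_lit 2688) (XT.nd (nat_lit 94) (nat_lit 0) (nat_lit 0) (XT.lf (nat_lit 0) (nat_lit 4072067492) (nat_lit 84) (nat_lit 5193246748) (nat_lit 168) (nat_lit 13273959043) (nat_lit 10) (nat_lit 5) (nat_lit 11) (nat_lit 5) (nat_lit 12) (nat_lit 4) (nat_lit 372)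 (nat_lit 263) (nat_lit 229)) (XT.nd (nat_lit 94) (nat_lit 0) (nat_lit 0) (XT.lf (nat_lit 0) (nat_lit 8903182289) (nat_lit 84) (nat_lit 2860533618) (nat_lit 168) (nat_lit 11379036831) (nat_lit 10) (nat_lit 5) (nat_lit 11) (nat_lit 5) (nat_lit 12) (nat_lit 4) (nat_lit 373) (nat_lit 263) (nat_lit 228)) (XT.lf (nat_lit 0) (nat_lit 13826013234) (nat_lit 84) (nat_lit 477662919) (nat_lit 168) (nat_lit 9462443399) (nat_lit 10) (nat_lit 5) (nat_lit 11) (nat_lit 5) (nat_lit 12) (nat_lit 4) (nat_lit 374) (nat_lit 263) (nat_lit 227)))) (XT.nd (nat_lit 94) (nat_lit 336) (nat_lit 0) (XT.lf (nat_lit 0) (nat_lit 1831005288) (nat_lit 336) (nat_lit 1585484622) (nat_lit 336) (nat_lit 1585484622) (nat_lit 46) (nat_lit 4) (nat_lit 50) (nat_lit 5) (nat_lit 50) (nat_lit 4) (nat_lit 336) (nat_lit 264) (nat_lit 264)) (XT.nd (nat_lit 94) (nat_lit 336) (nat_lit 0) (XT.lf (nat_lit 0) (nat_lit 8969418659) (nat_lit 336)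 (nat_lit 1031914744) (nat_lit 336) (nat_lit 181834575) (nat_lit 46) (nat_lit 4) (nat_lit 50) (nat_lit 5) (nat_lit 50) (nat_lit 4) (nat_lit 337) (nat_lit 264) (nat_lit 263)) (XT.lf (nat_lit 0) (nat_lit 2816020514) (nat_lit 336) (nat_lit 6360283025) (nat_lit 0) (nat_lit 1191772002) (nat_lit 42) (nat_lit 5) (nat_lit 46) (nat_lit 4) (nat_lit 42) (nat_lit 4) (nat_lit 338) (nat_lit 264) (nat_lit 262))))))) (XT.nd (nat_lit 940) (nat_lit 924) (nat_lit 0) (XT.nd (nat_lit 470) (nat_lit 504) (nat_lit 0) (XT.nd (nat_lit 188) (nat_lit 336) (nat_lit 0) (XT.nd (nat_lit 94) (nat_lit 252) (nat_lit 0) (XT.lf (nat_lit 0) (nat_lit 5849937364) (nat_lit 336) (nat_lit 1260586299) (nat_lit 0) (nat_lit 3450006539) (nat_lit 42) (nat_lit 5) (nat_lit 46) (nat_lit 4) (nat_lit 42) (nat_lit 4) (nat_lit 339) (nat_lit 264) (nat_lit 261)) (XT.lf (nat_lit 0) (nat_lit 3973818024) (nat_lit 252) (nat_lit 4969359684) (nat_lit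 252) (nat_lit 1817069680) (nat_lit 39) (nat_lit 4) (nat_lit 42) (nat_lit 5) (nat_lit 42) (nat_lit 4) (nat_lit 340) (nat_lit 264) (nat_lit 260))) (XT.nd (nat_lit 94) (nat_lit 252) (nat_lit 0) (XT.lf (nat_lit 0) (nat_lit 1082059902) (nat_lit 336) (nat_lit 1684363662) (nat_lit 84) (nat_lit 8201458986) (nat_lit 38) (nat_lit 5) (nat_lit 42) (nat_lit 5) (nat_lit 39) (nat_lit 4) (nat_lit 341) (nat_lit 264) (nat_lit 259)) (XT.nd (nat_lit 94) (nat_lit 0) (nat_lit 0) (XT.lf (nat_lit 0) (nat_lit 3527355468) (nat_lit 252) (nat_lit 469285816) (nat_lit 336) (nat_lit 7186074596) (nat_lit 35) (nat_lit 5) (nat_lit 38) (nat_lit 5) (nat_lit 39) (nat_lit 4) (nat_lit 342) (nat_lit 264) (nat_lit 258)) (XT.lf (nat_lit 0) (nat_lit 6967377398) (nat_lit 336) (nat_lit 2588397326) (nat_lit 0) (nat_lit 1849689026) (nat_lit 35) (nat_lit 5) (nat_lit 39) (nat_lit 4) (nat_lit 35) (nat_lit 4) (nat_lit 343) (nat_lit 264)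 (nat_lit 257))))) (XT.nd (nat_lit 188) (nat_lit 168) (nat_lit 0) (XT.nd (nat_lit 94) (nat_lit 84) (nat_lit 0) (XT.lf (nat_lit 0) (nat_lit 2583910636) (nat_lit 252) (nat_lit 7408059475) (nat_lit 252) (nat_lit 1644520755) (nat_lit 32) (nat_lit 4) (nat_lit 35) (nat_lit 5) (nat_lit 35) (nat_lit 4) (nat_lit 344) (nat_lit 264) (nat_lit 256)) (XT.lf (nat_lit 0) (nat_lit 1169597272) (nat_lit 336) (nat_lit 4014517645) (nat_lit 84) (nat_lit 6691638207) (nat_lit 31) (nat_lit 5) (nat_lit 35) (nat_lit 5) (nat_lit 32) (nat_lit 4) (nat_lit 345) (nat_lit 264) (nat_lit 255))) (XT.nd (nat_lit 94) (nat_lit 0) (nat_lit 0) (XT.lf (nat_lit 0) (nat_lit 1088251024) (nat_lit 168) (nat_lit 2892948510) (nat_lit 252) (nat_lit 8142607171) (nat_lit 29) (nat_lit 5) (nat_lit 31) (nat_lit 5) (nat_lit 32) (nat_lit 4) (nat_lit 346) (nat_lit 264) (nat_lit 254)) (XT.nd (nat_lit 94) (nat_lit 0) (nat_lit 0) (XT.lf (nat_lit 0)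 (nat_lit 6338708865) (nat_lit 168) (nat_lit 517815262) (nat_lit 252) (nat_lit 5523919421) (nat_lit 29) (nat_lit 5) (nat_lit 31) (nat_lit 5) (nat_lit 32) (nat_lit 4) (nat_lit 347) (nat_lit 264) (nat_lit 253)) (XT.lf (nat_lit 0) (nat_lit 9776471828) (nat_lit 252) (nat_lit 1006823736) (nat_lit 0) (nat_lit 1863282460) (nat_lit 29) (nat_lit 5) (nat_lit 32) (nat_lit 4) (nat_lit 29) (nat_lit 4) (nat_lit 348) (nat_lit 264) (nat_lit 252)))))) (XT.nd (nat_lit 470) (nat_lit 420) (nat_lit 0) (XT.nd (nat_lit 188) (nat_lit 168) (nat_lit 0) (XT.nd (nat_lit 94) (nat_lit 84) (nat_lit 0) (XT.lf (nat_lit 0) (nat_lit 4171193728) (nat_lit 252) (nat_lit 8600666121) (nat_lit 252) (nat_lit 149727389) (nat_lit 26) (nat_lit 4) (nat_lit 29) (nat_lit 5) (nat_lit 29) (nat_lit 4) (nat_lit 349) (nat_lit 264) (nat_lit 251)) (XT.lf (nat_lit 0) (nat_lit 2550539932) (nat_lit 336) (nat_lit 3792372501) (nat_lit 84) (nat_lit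 6863120163) (nat_lit 25) (nat_lit 5) (nat_lit 29) (nat_lit 5) (nat_lit 26) (nat_lit 4) (nat_lit 350) (nat_lit 264) (nat_lit 250))) (XT.nd (nat_lit 94) (nat_lit 0) (nat_lit 0) (XT.lf (nat_lit 0) (nat_lit 1253641121) (nat_lit 168) (nat_lit 4030483829) (nat_lit 252) (nat_lit 8216732427) (nat_lit 23) (nat_lit 5) (nat_lit 25) (nat_lit 5) (nat_lit 26) (nat_lit 4) (nat_lit 351) (nat_lit 264) (nat_lit 249)) (XT.nd (nat_lit 94) (nat_lit 0) (nat_lit 0) (XT.lf (nat_lit 0) (nat_lit 6447950144) (nat_lit 168) (nat_lit 1635286227) (nat_lit 252) (nat_lit 5722320095) (nat_lit 23) (nat_lit 5) (nat_lit 25) (nat_lit 5) (nat_lit 26) (nat_lit 4) (nat_lit 352) (nat_lit 264) (nat_lit 248)) (XT.lf (nat_lit 0) (nat_lit 10920077852) (nat_lit 252) (nat_lit 2412175809) (nat_lit 0) (nat_lit 789102781) (nat_lit 23) (nat_lit 5) (nat_lit 26) (nat_lit 4) (nat_lit 23) (nat_lit 4) (nat_lit 353) (nat_lit 264) (nat_lit 247)))))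 (XT.nd (nat_lit 282) (nat_lit 168) (nat_lit 0) (XT.nd (nat_lit 94) (nat_lit 84) (nat_lit 0) (XT.lf (nat_lit 0) (nat_lit 2638138608) (nat_lit 168) (nat_lit 11194024627) (nat_lit 168) (nat_lit 615307474) (nat_lit 21) (nat_lit 4) (nat_lit 23) (nat_lit 5) (nat_lit 23) (nat_lit 4) (nat_lit 354) (nat_lit 264) (nat_lit 246)) (XT.nd (nat_lit 94) (nat_lit 0) (nat_lit 0) (XT.lf (nat_lit 0) (nat_lit 1979504821) (nat_lit 252) (nat_lit 6992622279) (nat_lit 84) (nat_lit 5811989968) (nat_lit 20) (nat_lit 5) (nat_lit 23) (nat_lit 5) (nat_lit 21) (nat_lit 4) (nat_lit 355) (nat_lit 264) (nat_lit 245)) (XT.lf (nat_lit 0) (nat_lit 4588201900) (nat_lit 252) (nat_lit 2115580063) (nat_lit 84) (nat_lit 8429008771) (nat_lit 20) (nat_lit 5) (nat_lit 23) (nat_lit 5) (nat_lit 21) (nat_lit 4) (nat_lit 356) (nat_lit 264) (nat_lit 244)))) (XT.nd (nat_lit 94) (nat_lit 0) (nat_lit 0) (XT.lf (nat_lit 0) (nat_lit 2890685253)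 (nat_lit 168) (nat_lit 4363603117) (nat_lit 252) (nat_lit 8238828604) (nat_lit 18) (nat_lit 5) (nat_lit 20) (nat_lit 5) (nat_lit 21) (nat_lit 4) (nat_lit 357) (nat_lit 264) (nat_lit 243)) (XT.nd (nat_lit 94) (nat_lit 0) (nat_lit 0) (XT.lf (nat_lit 0) (nat_lit 8017599921) (nat_lit 168) (nat_lit 1956130372) (nat_lit 252) (nat_lit 5891903447) (nat_lit 18) (nat_lit 5) (nat_lit 20) (nat_lit 5) (nat_lit 21) (nat_lit 4) (nat_lit 358) (nat_lit 264) (nat_lit 242)) (XT.lf (nat_lit 0) (nat_lit 12732592263) (nat_lit 252) (nat_lit 3029858269) (nat_lit 0) (nat_lit 488748303) (nat_lit 18) (nat_lit 5) (nat_lit 21) (nat_lit 4) (nat_lit 18) (nat_lit 4) (nat_lit 359) (nat_lit 264) (nat_lit 241))))))))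
noncomputable def xc9 : XT := (XT.nd (nat_lit 52358) (nat_lit 0) (nat_lit 420) (XT.nd (nat_lit 940) (nat_lit 84) (nat_lit 0) (XT.nd (nat_lit 470) (nat_lit 252) (nat_lit 0) (XT.nd (nat_lit 188) (nat_lit 84) (nat_lit 0) (XT.nd (nat_lit 94) (nat_lit 84) (nat_lit 0) (XT.lf (nat_lit 0) (nat_lit 1879508104) (nat_lit 168) (nat_lit 13687528445) (nat_lit 168) (nat_lit 1082093781) (nat_lit 16) (nat_lit 4) (nat_lit 18) (nat_lit 5) (nat_lit 18) (nat_lit 4) (nat_lit 360) (nat_lit 264) (nat_lit 240)) (XT.lf (nat_lit 0) (nat_lit 1384619942) (nat_lit 252) (nat_lit 10143989993) (nat_lit 84) (nat_lit 5530959574) (nat_lit 15) (nat_lit 5) (nat_lit 18) (nat_lit 5) (nat_lit 16) (nat_lit 4) (nat_lit 361) (nat_lit 264) (nat_lit 239))) (XT.nd (nat_lit 94) (nat_lit 84) (nat_lit 0) (XT.lf (nat_lit 0) (nat_lit 3858311936) (nat_lit 252) (nat_lit 5460094621) (nat_lit 84) (nat_lit 8165536460) (nat_lit 15) (nat_lit 5)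 (nat_lit 18) (nat_lit 5) (nat_lit 16) (nat_lit 4) (nat_lit 362) (nat_lit 264) (nat_lit 238)) (XT.nd (nat_lit 94) (nat_lit 84) (nat_lit 0) (XT.lf (nat_lit 0) (nat_lit 6363089718) (nat_lit 252) (nat_lit 702835724) (nat_lit 84) (nat_lit 10857053741) (nat_lit 15) (nat_lit 5) (nat_lit 18) (nat_lit 5) (nat_lit 16) (nat_lit 4) (nat_lit 363) (nat_lit 264) (nat_lit 237)) (XT.lf (nat_lit 0) (nat_lit 4217187898) (nat_lit 84) (nat_lit 4725935132) (nat_lit 168) (nat_lit 9432667321) (nat_lit 14) (nat_lit 5) (nat_lit 15) (nat_lit 5) (nat_lit 16) (nat_lit 4) (nat_lit 364) (nat_lit 264) (nat_lit 236))))) (XT.nd (nat_lit 188) (nat_lit 252) (nat_lit 0) (XT.nd (nat_lit 94) (nat_lit 0) (nat_lit 0) (XT.lf (nat_lit 0) (nat_lit 9235660184) (nat_lit 84) (nat_lit 2331231370) (nat_lit 168) (nat_lit 7276958716) (nat_lit 14) (nat_lit 5) (nat_lit 15) (nat_lit 5) (nat_lit 16) (nat_lit 4) (nat_lit 365) (nat_lit 264) (nat_lit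 235)) (XT.lf (nat_lit 0) (nat_lit 14230847120) (nat_lit 168) (nat_lit 4986130458) (nat_lit 0) (nat_lit 110803448) (nat_lit 14) (nat_lit 5) (nat_lit 16) (nat_lit 4) (nat_lit 14) (nat_lit 4) (nat_lit 366) (nat_lit 264) (nat_lit 234))) (XT.nd (nat_lit 94) (nat_lit 252) (nat_lit 0) (XT.lf (nat_lit 0) (nat_lit 16959990819) (nat_lit 168) (nat_lit 310633330) (nat_lit 0) (nat_lit 2556711486) (nat_lit 14) (nat_lit 5) (nat_lit 16) (nat_lit 4) (nat_lit 14) (nat_lit 4) (nat_lit 367) (nat_lit 264) (nat_lit 233)) (XT.nd (nat_lit 94) (nat_lit 84) (nat_lit 0) (XT.lf (nat_lit 0) (nat_lit 4537199921) (nat_lit 168) (nat_lit 15241550061) (nat_lit 168) (nat_lit 563551366) (nat_lit 12) (nat_lit 4) (nat_lit 14) (nat_lit 5) (nat_lit 14) (nat_lit 4) (nat_lit 368) (nat_lit 264) (nat_lit 232)) (XT.lf (nat_lit 0) (nat_lit 1738531224) (nat_lit 252) (nat_lit 11413500908) (nat_lit 84) (nat_lit 7721852719) (nat_lit 11)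 (nat_lit 5) (nat_lit 14) (nat_lit 5) (nat_lit 12) (nat_lit 4) (nat_lit 369) (nat_lit 264) (nat_lit 231)))))) (XT.nd (nat_lit 50854) (nat_lit 0) (nat_lit 2688) (XT.nd (nat_lit 188) (nat_lit 84) (nat_lit 0) (XT.nd (nat_lit 94) (nat_lit 0) (nat_lit 0) (XT.lf (nat_lit 0) (nat_lit 4061568801) (nat_lit 252) (nat_lit 6953858853) (nat_lit 84) (nat_lit 10407614169) (nat_lit 11) (nat_lit 5) (nat_lit 14) (nat_lit 5) (nat_lit 12) (nat_lit 4) (nat_lit 370) (nat_lit 264) (nat_lit 230)) (XT.lf (nat_lit 0) (nat_lit 6419080983) (nat_lit 252) (nat_lit 2416427910) (nat_lit 84) (nat_lit 13154948547) (nat_lit 11) (nat_lit 5) (nat_lit 14) (nat_lit 5) (nat_lit 12) (nat_lit 4) (nat_lit 371) (nat_lit 264) (nat_lit 229))) (XT.nd (nat_lit 94) (nat_lit 0) (nat_lit 0) (XT.lf (nat_lit 0) (nat_lit 2248319916) (nat_lit 84) (nat_lit 6587248913) (nat_lit 168) (nat_lit 13740400354) (nat_lit 10) (nat_lit 5) (nat_lit 11) (nat_lit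 5) (nat_lit 12) (nat_lit 4) (nat_lit 372) (nat_lit 264) (nat_lit 228)) (XT.nd (nat_lit 94) (nat_lit 0) (nat_lit 0) (XT.lf (nat_lit 0) (nat_lit 7050853516) (nat_lit 84) (nat_lit 4265444959) (nat_lit 168) (nat_lit 11863730908) (nat_lit 10) (nat_lit 5) (nat_lit 11) (nat_lit 5) (nat_lit 12) (nat_lit 4) (nat_lit 373) (nat_lit 264) (nat_lit 227)) (XT.lf (nat_lit 0) (nat_lit 11945962640) (nat_lit 84) (nat_lit 1893155420) (nat_lit 168) (nat_lit 9964841420) (nat_lit 10) (nat_lit 5) (nat_lit 11) (nat_lit 5) (nat_lit 12) (nat_lit 4) (nat_lit 374) (nat_lit 264) (nat_lit 226))))) (XT.nd (nat_lit 282) (nat_lit 336) (nat_lit 0) (XT.nd (nat_lit 94) (nat_lit 336) (nat_lit 0) (XT.lf (nat_lit 0) (nat_lit 766530255) (nat_lit 420) (nat_lit 3299895637) (nat_lit 0) (nat_lit 766530255) (nat_lit 50) (nat_lit 5) (nat_lit 55) (nat_lit 4) (nat_lit 50) (nat_lit 4) (nat_lit 334) (nat_lit 265) (nat_lit 265)) (XT.nd (nat_lit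 94) (nat_lit 336) (nat_lit 0) (XT.lf (nat_lit 0) (nat_lit 4575647829) (nat_lit 420) (nat_lit 1557377816) (nat_lit 0) (nat_lit 3699215175) (nat_lit 50) (nat_lit 5) (nat_lit 55) (nat_lit 4) (nat_lit 50) (nat_lit 4) (nat_lit 335) (nat_lit 265) (nat_lit 264)) (XT.lf (nat_lit 0) (nat_lit 3609427148) (nat_lit 336) (nat_lit 4061180009) (nat_lit 336) (nat_lit 2334667187) (nat_lit 46) (nat_lit 4) (nat_lit 50) (nat_lit 5) (nat_lit 50) (nat_lit 4) (nat_lit 336) (nat_lit 265) (nat_lit 263)))) (XT.nd (nat_lit 94) (nat_lit 252) (nat_lit 0) (XT.lf (nat_lit 0) (nat_lit 603141696) (nat_lit 420) (nat_lit 1326052084) (nat_lit 84) (nat_lit 8256395616) (nat_lit 45) (nat_lit 5) (nat_lit 50) (nat_lit 5) (nat_lit 46) (nat_lit 4) (nat_lit 337) (nat_lit 265) (nat_lit 262)) (XT.nd (nat_lit 94) (nat_lit 0) (nat_lit 0) (XT.lf (nat_lit 0) (nat_lit 3549643284) (nat_lit 336) (nat_lit 6522755466) (nat_lit 0) (nat_lit 299632290)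 (nat_lit 42) (nat_lit 5) (nat_lit 46) (nat_lit 4) (nat_lit 42) (nat_lit 4) (nat_lit 338) (nat_lit 265) (nat_lit 261)) (XT.lf (nat_lit 0) (nat_lit 6547051668) (nat_lit 336) (nat_lit 1473992555) (nat_lit 0) (nat_lit 2544681495) (nat_lit 42) (nat_lit 5) (nat_lit 46) (nat_lit 4) (nat_lit 42) (nat_lit 4) (nat_lit 339) (nat_lit 265) (nat_lit 260))))))) (XT.nd (nat_lit 1034) (nat_lit 840) (nat_lit 0) (XT.nd (nat_lit 470) (nat_lit 588) (nat_lit 0) (XT.nd (nat_lit 188) (nat_lit 504) (nat_lit 0) (XT.nd (nat_lit 94) (nat_lit 84) (nat_lit 0) (XT.lf (nat_lit 0) (nat_lit 3705605542) (nat_lit 252) (nat_lit 5896615035) (nat_lit 252) (nat_lit 1164507541) (nat_lit 39) (nat_lit 4) (nat_lit 42) (nat_lit 5) (nat_lit 42) (nat_lit 4) (nat_lit 340) (nat_lit 265) (nat_lit 259)) (XT.lf (nat_lit 0) (nat_lit 1686187215) (nat_lit 336) (nat_lit 2015256916) (nat_lit 84) (nat_lit 7273911155) (nat_lit 38) (nat_lit 5) (nat_lit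 42) (nat_lit 5) (nat_lit 39) (nat_lit 4) (nat_lit 341) (nat_lit 265) (nat_lit 258))) (XT.nd (nat_lit 94) (nat_lit 252) (nat_lit 0) (XT.lf (nat_lit 0) (nat_lit 3140435262) (nat_lit 252) (nat_lit 1422268894) (nat_lit 336) (nat_lit 6628760266) (nat_lit 35) (nat_lit 5) (nat_lit 38) (nat_lit 5) (nat_lit 39) (nat_lit 4) (nat_lit 342) (nat_lit 265) (nat_lit 257)) (XT.nd (nat_lit 94) (nat_lit 252) (nat_lit 0) (XT.lf (nat_lit 0) (nat_lit 7490176307) (nat_lit 336) (nat_lit 3023352556) (nat_lit 0) (nat_lit 902117541) (nat_lit 35) (nat_lit 5) (nat_lit 39) (nat_lit 4) (nat_lit 35) (nat_lit 4) (nat_lit 343) (nat_lit 265) (nat_lit 256)) (XT.lf (nat_lit 0) (nat_lit 2091765092) (nat_lit 252) (nat_lit 8385328133) (nat_lit 252) (nat_lit 1170838380) (nat_lit 32) (nat_lit 4) (nat_lit 35) (nat_lit 5) (nat_lit 35) (nat_lit 4) (nat_lit 344) (nat_lit 265) (nat_lit 255))))) (XT.nd (nat_lit 282) (nat_lit 336) (nat_lit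 0) (XT.nd (nat_lit 94) (nat_lit 168) (nat_lit 0) (XT.lf (nat_lit 0) (nat_lit 1601048438) (nat_lit 336) (nat_lit 4570355900) (nat_lit 84) (nat_lit 5716741968) (nat_lit 31) (nat_lit 5) (nat_lit 35) (nat_lit 5) (nat_lit 32) (nat_lit 4) (nat_lit 345) (nat_lit 265) (nat_lit 254)) (XT.nd (nat_lit 94) (nat_lit 0) (nat_lit 0) (XT.lf (nat_lit 0) (nat_lit 473912043) (nat_lit 168) (nat_lit 3900939619) (nat_lit 252) (nat_lit 7762602242) (nat_lit 29) (nat_lit 5) (nat_lit 31) (nat_lit 5) (nat_lit 32) (nat_lit 4) (nat_lit 346) (nat_lit 265) (nat_lit 253)) (XT.lf (nat_lit 0) (nat_lit 5678713673) (nat_lit 168) (nat_lit 1540258241) (nat_lit 252) (nat_lit 5176165941) (nat_lit 29) (nat_lit 5) (nat_lit 31) (nat_lit 5) (nat_lit 32) (nat_lit 4) (nat_lit 347) (nat_lit 265) (nat_lit 252)))) (XT.nd (nat_lit 94) (nat_lit 336) (nat_lit 0) (XT.lf (nat_lit 0) (nat_lit 10098371711) (nat_lit 252) (nat_lit 1716530468) (nat_lit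 0) (nat_lit 847704513) (nat_lit 29) (nat_lit 5) (nat_lit 32) (nat_lit 4) (nat_lit 29) (nat_lit 4) (nat_lit 348) (nat_lit 265) (nat_lit 251)) (XT.nd (nat_lit 94) (nat_lit 0) (nat_lit 0) (XT.lf (nat_lit 0) (nat_lit 115425166) (nat_lit 336) (nat_lit 9537819057) (nat_lit 84) (nat_lit 3285561212) (nat_lit 25) (nat_lit 5) (nat_lit 29) (nat_lit 5) (nat_lit 26) (nat_lit 4) (nat_lit 349) (nat_lit 265) (nat_lit 250)) (XT.lf (nat_lit 0) (nat_lit 2783273217) (nat_lit 336) (nat_lit 4625317213) (nat_lit 84) (nat_lit 5815596401) (nat_lit 25) (nat_lit 5) (nat_lit 29) (nat_lit 5) (nat_lit 26) (nat_lit 4) (nat_lit 350) (nat_lit 265) (nat_lit 249)))))) (XT.nd (nat_lit 470) (nat_lit 420) (nat_lit 0) (XT.nd (nat_lit 188) (nat_lit 252) (nat_lit 0) (XT.nd (nat_lit 94) (nat_lit 0) (nat_lit 0) (XT.lf (nat_lit 0) (nat_lit 359981309) (nat_lit 168) (nat_lit 5119493186) (nat_lit 252) (nat_lit 8040764493) (nat_lit 23)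 (nat_lit 5) (nat_lit 25) (nat_lit 5) (nat_lit 26) (nat_lit 4) (nat_lit 351) (nat_lit 265) (nat_lit 248)) (XT.lf (nat_lit 0) (nat_lit 5512012883) (nat_lit 168) (nat_lit 2738492604) (nat_lit 252) (nat_lit 5575369505) (nat_lit 23) (nat_lit 5) (nat_lit 25) (nat_lit 5) (nat_lit 26) (nat_lit 4) (nat_lit 352) (nat_lit 265) (nat_lit 247))) (XT.nd (nat_lit 94) (nat_lit 252) (nat_lit 0) (XT.lf (nat_lit 0) (nat_lit 10740473734) (nat_lit 168) (nat_lit 311648167) (nat_lit 252) (nat_lit 3090709470) (nat_lit 23) (nat_lit 5) (nat_lit 25) (nat_lit 5) (nat_lit 26) (nat_lit 4) (nat_lit 353) (nat_lit 265) (nat_lit 246)) (XT.nd (nat_lit 94) (nat_lit 84) (nat_lit 0) (XT.lf (nat_lit 0) (nat_lit 1589396341) (nat_lit 168) (nat_lit 12334766030) (nat_lit 168) (nat_lit 546087146) (nat_lit 21) (nat_lit 4) (nat_lit 23) (nat_lit 5) (nat_lit 23) (nat_lit 4) (nat_lit 354) (nat_lit 265) (nat_lit 245)) (XT.lf (nat_lit 0)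 (nat_lit 2020854387) (nat_lit 252) (nat_lit 8105545175) (nat_lit 84) (nat_lit 4681354573) (nat_lit 20) (nat_lit 5) (nat_lit 23) (nat_lit 5) (nat_lit 21) (nat_lit 4) (nat_lit 355) (nat_lit 265) (nat_lit 244))))) (XT.nd (nat_lit 282) (nat_lit 252) (nat_lit 0) (XT.nd (nat_lit 94) (nat_lit 168) (nat_lit 0) (XT.lf (nat_lit 0) (nat_lit 4603871420) (nat_lit 252) (nat_lit 3267993886) (nat_lit 84) (nat_lit 7285415594) (nat_lit 20) (nat_lit 5) (nat_lit 23) (nat_lit 5) (nat_lit 21) (nat_lit 4) (nat_lit 356) (nat_lit 265) (nat_lit 243)) (XT.nd (nat_lit 94) (nat_lit 0) (nat_lit 0) (XT.lf (nat_lit 0) (nat_lit 1675484321) (nat_lit 168) (nat_lit 5557510725) (nat_lit 252) (nat_lit 8285813247) (nat_lit 18) (nat_lit 5) (nat_lit 20) (nat_lit 5) (nat_lit 21) (nat_lit 4) (nat_lit 357) (nat_lit 265) (nat_lit 242)) (XT.lf (nat_lit 0) (nat_lit 6764483258) (nat_lit 168) (nat_lit 3163418609) (nat_lit 252) (nat_lit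 5964237421) (nat_lit 18) (nat_lit 5) (nat_lit 20) (nat_lit 5) (nat_lit 21) (nat_lit 4) (nat_lit 358) (nat_lit 265) (nat_lit 241)))) (XT.nd (nat_lit 94) (nat_lit 252) (nat_lit 0) (XT.lf (nat_lit 0) (nat_lit 11936549750) (nat_lit 168) (nat_lit 721468566) (nat_lit 252) (nat_lit 3620629206) (nat_lit 18) (nat_lit 5) (nat_lit 20) (nat_lit 5) (nat_lit 21) (nat_lit 4) (nat_lit 359) (nat_lit 265) (nat_lit 240)) (XT.nd (nat_lit 94) (nat_lit 84) (nat_lit 0) (XT.lf (nat_lit 0) (nat_lit 510532815) (nat_lit 168) (nat_lit 14937985606) (nat_lit 168) (nat_lit 1229473331) (nat_lit 16) (nat_lit 4) (nat_lit 18) (nat_lit 5) (nat_lit 18) (nat_lit 4) (nat_lit 360) (nat_lit 265) (nat_lit 239)) (XT.lf (nat_lit 0) (nat_lit 1217062434) (nat_lit 252) (nat_lit 11576831537) (nat_lit 84) (nat_lit 4295347323) (nat_lit 15) (nat_lit 5) (nat_lit 18) (nat_lit 5) (nat_lit 16) (nat_lit 4) (nat_lit 361) (nat_lit 265) (nat_lit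 238))))))))
noncomputable def xc10 : XT := (XT.nd (nat_lit 52170) (nat_lit 0) (nat_lit 420) (XT.nd (nat_lit 940) (nat_lit 84) (nat_lit 0) (XT.nd (nat_lit 470) (nat_lit 252) (nat_lit 0) (XT.nd (nat_lit 188) (nat_lit 84) (nat_lit 0) (XT.nd (nat_lit 94) (nat_lit 0) (nat_lit 0) (XT.lf (nat_lit 0) (nat_lit 3668303092) (nat_lit 252) (nat_lit 6928306540) (nat_lit 84) (nat_lit 6917747208) (nat_lit 15) (nat_lit 5) (nat_lit 18) (nat_lit 5) (nat_lit 16) (nat_lit 4) (nat_lit 362) (nat_lit 265) (nat_lit 237)) (XT.lf (nat_lit 0) (nat_lit 6151304603) (nat_lit 252) (nat_lit 2205354505) (nat_lit 84) (nat_lit 9597453626) (nat_lit 15) (nat_lit 5) (nat_lit 18) (nat_lit 5) (nat_lit 16) (nat_lit 4) (nat_lit 363) (nat_lit 265) (nat_lit 236))) (XT.nd (nat_lit 94) (nat_lit 0) (nat_lit 0) (XT.lf (nat_lit 0) (nat_lit 2649814713) (nat_lit 84) (nat_lit 6044853161) (nat_lit 168) (nat_lit 9713436120) (nat_lit 14) (nat_lit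 5) (nat_lit 15) (nat_lit 5) (nat_lit 16) (nat_lit 4) (nat_lit 364) (nat_lit 265) (nat_lit 235)) (XT.nd (nat_lit 94) (nat_lit 0) (nat_lit 0) (XT.lf (nat_lit 0) (nat_lit 7635348554) (nat_lit 84) (nat_lit 3662274664) (nat_lit 168) (nat_lit 7579227920) (nat_lit 14) (nat_lit 5) (nat_lit 15) (nat_lit 5) (nat_lit 16) (nat_lit 4) (nat_lit 365) (nat_lit 265) (nat_lit 234)) (XT.lf (nat_lit 0) (nat_lit 12710547444) (nat_lit 84) (nat_lit 1229722184) (nat_lit 168) (nat_lit 5421213604) (nat_lit 14) (nat_lit 5) (nat_lit 15) (nat_lit 5) (nat_lit 16) (nat_lit 4) (nat_lit 366) (nat_lit 265) (nat_lit 233))))) (XT.nd (nat_lit 188) (nat_lit 84) (nat_lit 0) (XT.nd (nat_lit 94) (nat_lit 168) (nat_lit 0) (XT.lf (nat_lit 0) (nat_lit 16637520794) (nat_lit 168) (nat_lit 1994760469) (nat_lit 0) (nat_lit 1229784776) (nat_lit 14) (nat_lit 5) (nat_lit 16) (nat_lit 4) (nat_lit 14) (nat_lit 4) (nat_lit 367) (nat_lit 265)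 (nat_lit 232)) (XT.lf (nat_lit 0) (nat_lit 2787241989) (nat_lit 168) (nat_lit 16632576773) (nat_lit 168) (nat_lit 958381627) (nat_lit 12) (nat_lit 4) (nat_lit 14) (nat_lit 5) (nat_lit 14) (nat_lit 4) (nat_lit 368) (nat_lit 265) (nat_lit 231))) (XT.nd (nat_lit 94) (nat_lit 0) (nat_lit 0) (XT.lf (nat_lit 0) (nat_lit 1332599642) (nat_lit 252) (nat_lit 13226132536) (nat_lit 84) (nat_lit 6351799946) (nat_lit 11) (nat_lit 5) (nat_lit 14) (nat_lit 5) (nat_lit 12) (nat_lit 4) (nat_lit 369) (nat_lit 265) (nat_lit 230)) (XT.nd (nat_lit 94) (nat_lit 0) (nat_lit 0) (XT.lf (nat_lit 0) (nat_lit 3637153930) (nat_lit 252) (nat_lit 8796259076) (nat_lit 84) (nat_lit 9026884057) (nat_lit 11) (nat_lit 5) (nat_lit 14) (nat_lit 5) (nat_lit 12) (nat_lit 4) (nat_lit 370) (nat_lit 265) (nat_lit 229)) (XT.lf (nat_lit 0) (nat_lit 5976738576) (nat_lit 252) (nat_lit 4287701649) (nat_lit 84) (nat_lit 11763862141) (nat_lit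 11) (nat_lit 5) (nat_lit 14) (nat_lit 5) (nat_lit 12) (nat_lit 4) (nat_lit 371) (nat_lit 265) (nat_lit 228)))))) (XT.nd (nat_lit 50666) (nat_lit 0) (nat_lit 2688) (XT.nd (nat_lit 188) (nat_lit 0) (nat_lit 0) (XT.nd (nat_lit 94) (nat_lit 0) (nat_lit 0) (XT.lf (nat_lit 0) (nat_lit 309987754) (nat_lit 84) (nat_lit 8046621682) (nat_lit 168) (nat_lit 14258372713) (nat_lit 10) (nat_lit 5) (nat_lit 11) (nat_lit 5) (nat_lit 12) (nat_lit 4) (nat_lit 372) (nat_lit 265) (nat_lit 227)) (XT.lf (nat_lit 0) (nat_lit 5084799533) (nat_lit 84) (nat_lit 5735398888) (nat_lit 168) (nat_lit 12399407211) (nat_lit 10) (nat_lit 5) (nat_lit 11) (nat_lit 5) (nat_lit 12) (nat_lit 4) (nat_lit 373) (nat_lit 265) (nat_lit 226))) (XT.nd (nat_lit 50290) (nat_lit 0) (nat_lit 3780) (XT.lf (nat_lit 0) (nat_lit 9953020372) (nat_lit 84) (nat_lit 3373372356) (nat_lit 168) (nat_lit 10517689347) (nat_lit 10) (nat_lit 5) (nat_lit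 11) (nat_lit 5) (nat_lit 12) (nat_lit 4) (nat_lit 374) (nat_lit 265) (nat_lit 225)) (XT.nd (nat_lit 94) (nat_lit 0) (nat_lit 0) (XT.lf (nat_lit 0) (nat_lit 1141827389) (nat_lit 336) (nat_lit 1766656804) (nat_lit 336) (nat_lit 1766656804) (nat_lit 55) (nat_lit 4) (nat_lit 59) (nat_lit 5) (nat_lit 59) (nat_lit 4) (nat_lit 332) (nat_lit 266) (nat_lit 266)) (XT.lf (nat_lit 0) (nat_lit 7439100378) (nat_lit 336) (nat_lit 1499233080) (nat_lit 336) (nat_lit 567619350) (nat_lit 55) (nat_lit 4) (nat_lit 59) (nat_lit 5) (nat_lit 59) (nat_lit 4) (nat_lit 333) (nat_lit 266) (nat_lit 265))))) (XT.nd (nat_lit 282) (nat_lit 336) (nat_lit 0) (XT.nd (nat_lit 94) (nat_lit 336) (nat_lit 0) (XT.lf (nat_lit 0) (nat_lit 2397192101) (nat_lit 420) (nat_lit 6652912507) (nat_lit 0) (nat_lit 617157381) (nat_lit 50) (nat_lit 5) (nat_lit 55) (nat_lit 4) (nat_lit 50) (nat_lit 4) (nat_lit 334) (nat_lit 266) (nat_lit 264))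 (XT.nd (nat_lit 94) (nat_lit 336) (nat_lit 0) (XT.lf (nat_lit 0) (nat_lit 5401495736) (nat_lit 420) (nat_lit 1662023039) (nat_lit 0) (nat_lit 2771380847) (nat_lit 50) (nat_lit 5) (nat_lit 55) (nat_lit 4) (nat_lit 50) (nat_lit 4) (nat_lit 335) (nat_lit 266) (nat_lit 263)) (XT.lf (nat_lit 0) (nat_lit 3451627849) (nat_lit 336) (nat_lit 5006129254) (nat_lit 336) (nat_lit 1551494318) (nat_lit 46) (nat_lit 4) (nat_lit 50) (nat_lit 5) (nat_lit 50) (nat_lit 4) (nat_lit 336) (nat_lit 266) (nat_lit 262)))) (XT.nd (nat_lit 94) (nat_lit 252) (nat_lit 0) (XT.lf (nat_lit 0) (nat_lit 1333542435) (nat_lit 420) (nat_lit 1545938715) (nat_lit 84) (nat_lit 7311102870) (nat_lit 45) (nat_lit 5) (nat_lit 50) (nat_lit 5) (nat_lit 46) (nat_lit 4) (nat_lit 337) (nat_lit 266) (nat_lit 261)) (XT.nd (nat_lit 94) (nat_lit 0) (nat_lit 0) (XT.lf (nat_lit 0) (nat_lit 3578163744) (nat_lit 252) (nat_lit 660245639) (nat_lit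 336) (nat_lit 6140015210) (nat_lit 42) (nat_lit 5) (nat_lit 45) (nat_lit 5) (nat_lit 46) (nat_lit 4) (nat_lit 338) (nat_lit 266) (nat_lit 260)) (XT.lf (nat_lit 0) (nat_lit 7193857315) (nat_lit 336) (nat_lit 1794350561) (nat_lit 0) (nat_lit 1585317168) (nat_lit 42) (nat_lit 5) (nat_lit 46) (nat_lit 4) (nat_lit 42) (nat_lit 4) (nat_lit 339) (nat_lit 266) (nat_lit 259))))))) (XT.nd (nat_lit 1034) (nat_lit 840) (nat_lit 0) (XT.nd (nat_lit 470) (nat_lit 588) (nat_lit 0) (XT.nd (nat_lit 188) (nat_lit 504) (nat_lit 0) (XT.nd (nat_lit 94) (nat_lit 84) (nat_lit 0) (XT.lf (nat_lit 0) (nat_lit 3329758130) (nat_lit 252) (nat_lit 6881193635) (nat_lit 252) (nat_lit 564857831) (nat_lit 39) (nat_lit 4) (nat_lit 42) (nat_lit 5) (nat_lit 42) (nat_lit 4) (nat_lit 340) (nat_lit 266) (nat_lit 258)) (XT.lf (nat_lit 0) (nat_lit 2239529176) (nat_lit 336) (nat_lit 2454365777) (nat_lit 84) (nat_lit 6291514224) (nat_lit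 38) (nat_lit 5) (nat_lit 42) (nat_lit 5) (nat_lit 39) (nat_lit 4) (nat_lit 341) (nat_lit 266) (nat_lit 257))) (XT.nd (nat_lit 94) (nat_lit 252) (nat_lit 0) (XT.lf (nat_lit 0) (nat_lit 2644554349) (nat_lit 252) (nat_lit 2433375533) (nat_lit 336) (nat_lit 6124862965) (nat_lit 35) (nat_lit 5) (nat_lit 38) (nat_lit 5) (nat_lit 39) (nat_lit 4) (nat_lit 342) (nat_lit 266) (nat_lit 256)) (XT.nd (nat_lit 94) (nat_lit 252) (nat_lit 0) (XT.lf (nat_lit 0) (nat_lit 7859521653) (nat_lit 252) (nat_lit 104089002) (nat_lit 336) (nat_lit 3464749842) (nat_lit 35) (nat_lit 5) (nat_lit 38) (nat_lit 5) (nat_lit 39) (nat_lit 4) (nat_lit 343) (nat_lit 266) (nat_lit 255)) (XT.lf (nat_lit 0) (nat_lit 1489320231) (nat_lit 252) (nat_lit 9422390826) (nat_lit 252) (nat_lit 750225379) (nat_lit 32) (nat_lit 4) (nat_lit 35) (nat_lit 5) (nat_lit 35) (nat_lit 4) (nat_lit 344) (nat_lit 266) (nat_lit 254))))) (XT.nd (nat_lit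 282) (nat_lit 336) (nat_lit 0) (XT.nd (nat_lit 94) (nat_lit 168) (nat_lit 0) (XT.lf (nat_lit 0) (nat_lit 1981482305) (nat_lit 336) (nat_lit 5237101289) (nat_lit 84) (nat_lit 4684503286) (nat_lit 31) (nat_lit 5) (nat_lit 35) (nat_lit 5) (nat_lit 32) (nat_lit 4) (nat_lit 345) (nat_lit 266) (nat_lit 253)) (XT.nd (nat_lit 94) (nat_lit 168) (nat_lit 0) (XT.lf (nat_lit 0) (nat_lit 4719832839) (nat_lit 336) (nat_lit 247117957) (nat_lit 84) (nat_lit 7186622490) (nat_lit 31) (nat_lit 5) (nat_lit 35) (nat_lit 5) (nat_lit 32) (nat_lit 4) (nat_lit 346) (nat_lit 266) (nat_lit 252)) (XT.lf (nat_lit 0) (nat_lit 4908318997) (nat_lit 168) (nat_lit 2622866155) (nat_lit 252) (nat_lit 4881165266) (nat_lit 29) (nat_lit 5) (nat_lit 31) (nat_lit 5) (nat_lit 32) (nat_lit 4) (nat_lit 347) (nat_lit 266) (nat_lit 251)))) (XT.nd (nat_lit 94) (nat_lit 336) (nat_lit 0) (XT.lf (nat_lit 0) (nat_lit 10141577930) (nat_lit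 168) (nat_lit 231068718) (nat_lit 252) (nat_lit 2308423743) (nat_lit 29) (nat_lit 5) (nat_lit 31) (nat_lit 5) (nat_lit 32) (nat_lit 4) (nat_lit 348) (nat_lit 266) (nat_lit 250)) (XT.nd (nat_lit 94) (nat_lit 0) (nat_lit 0) (XT.lf (nat_lit 0) (nat_lit 325970584) (nat_lit 336) (nat_lit 10440618907) (nat_lit 84) (nat_lit 2191915043) (nat_lit 25) (nat_lit 5) (nat_lit 29) (nat_lit 5) (nat_lit 26) (nat_lit 4) (nat_lit 349) (nat_lit 266) (nat_lit 249)) (XT.lf (nat_lit 0) (nat_lit 2965300112) (nat_lit 336) (nat_lit 5570826910) (nat_lit 84) (nat_lit 4708711464) (nat_lit 25) (nat_lit 5) (nat_lit 29) (nat_lit 5) (nat_lit 26) (nat_lit 4) (nat_lit 350) (nat_lit 266) (nat_lit 248)))))) (XT.nd (nat_lit 470) (nat_lit 420) (nat_lit 0) (XT.nd (nat_lit 188) (nat_lit 252) (nat_lit 0) (XT.nd (nat_lit 94) (nat_lit 168) (nat_lit 0) (XT.lf (nat_lit 0) (nat_lit 5630269300) (nat_lit 336) (nat_lit 634206861) (nat_lit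 84) (nat_lit 7277449099) (nat_lit 25) (nat_lit 5) (nat_lit 29) (nat_lit 5) (nat_lit 26) (nat_lit 4) (nat_lit 351) (nat_lit 266) (nat_lit 247)) (XT.lf (nat_lit 0) (nat_lit 4463777865) (nat_lit 168) (nat_lit 3903865542) (nat_lit 252) (nat_lit 5481025645) (nat_lit 23) (nat_lit 5) (nat_lit 25) (nat_lit 5) (nat_lit 26) (nat_lit 4) (nat_lit 352) (nat_lit 266) (nat_lit 246))) (XT.nd (nat_lit 94) (nat_lit 252) (nat_lit 0) (XT.lf (nat_lit 0) (nat_lit 9652465433) (nat_lit 168) (nat_lit 1490377210) (nat_lit 252) (nat_lit 3023664206) (nat_lit 23) (nat_lit 5) (nat_lit 25) (nat_lit 5) (nat_lit 26) (nat_lit 4) (nat_lit 353) (nat_lit 266) (nat_lit 245)) (XT.nd (nat_lit 94) (nat_lit 84) (nat_lit 0) (XT.lf (nat_lit 0) (nat_lit 426675679) (nat_lit 168) (nat_lit 13539228585) (nat_lit 168) (nat_lit 529599685) (nat_lit 21) (nat_lit 4) (nat_lit 23) (nat_lit 5) (nat_lit 23) (nat_lit 4) (nat_lit 354) (nat_lit 266)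 (nat_lit 244)) (XT.lf (nat_lit 0) (nat_lit 2011329617) (nat_lit 252) (nat_lit 9333174754) (nat_lit 84) (nat_lit 3489352225) (nat_lit 20) (nat_lit 5) (nat_lit 23) (nat_lit 5) (nat_lit 21) (nat_lit 4) (nat_lit 355) (nat_lit 266) (nat_lit 243))))) (XT.nd (nat_lit 282) (nat_lit 252) (nat_lit 0) (XT.nd (nat_lit 94) (nat_lit 168) (nat_lit 0) (XT.lf (nat_lit 0) (nat_lit 4569438749) (nat_lit 252) (nat_lit 4533926984) (nat_lit 84) (nat_lit 6080845078) (nat_lit 20) (nat_lit 5) (nat_lit 23) (nat_lit 5) (nat_lit 21) (nat_lit 4) (nat_lit 356) (nat_lit 266) (nat_lit 242)) (XT.nd (nat_lit 94) (nat_lit 0) (nat_lit 0) (XT.lf (nat_lit 0) (nat_lit 345605312) (nat_lit 168) (nat_lit 6815605526) (nat_lit 252) (nat_lit 8385738904) (nat_lit 18) (nat_lit 5) (nat_lit 20) (nat_lit 5) (nat_lit 21) (nat_lit 4) (nat_lit 357) (nat_lit 266) (nat_lit 241)) (XT.lf (nat_lit 0) (nat_lit 5397828566) (nat_lit 168) (nat_lit 4434491710)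 (nat_lit 252) (nat_lit 6088750209) (nat_lit 18) (nat_lit 5) (nat_lit 20) (nat_lit 5) (nat_lit 21) (nat_lit 4) (nat_lit 358) (nat_lit 266) (nat_lit 240)))) (XT.nd (nat_lit 94) (nat_lit 252) (nat_lit 0) (XT.lf (nat_lit 0) (nat_lit 10534225141) (nat_lit 168) (nat_lit 2005129738) (nat_lit 252) (nat_lit 3768989840) (nat_lit 18) (nat_lit 5) (nat_lit 20) (nat_lit 5) (nat_lit 21) (nat_lit 4) (nat_lit 359) (nat_lit 266) (nat_lit 239)) (XT.nd (nat_lit 94) (nat_lit 252) (nat_lit 0) (XT.lf (nat_lit 0) (nat_lit 15289547414) (nat_lit 252) (nat_lit 954260257) (nat_lit 0) (nat_lit 465179759) (nat_lit 18) (nat_lit 5) (nat_lit 21) (nat_lit 4) (nat_lit 18) (nat_lit 4) (nat_lit 360) (nat_lit 266) (nat_lit 238)) (XT.lf (nat_lit 0) (nat_lit 998711981) (nat_lit 252) (nat_lit 13125928400) (nat_lit 84) (nat_lit 2996699605) (nat_lit 15) (nat_lit 5) (nat_lit 18) (nat_lit 5) (nat_lit 16) (nat_lit 4) (nat_lit 361) (nat_lit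 266) (nat_lit 237))))))))
noncomputable def xc11 : XT := (XT.nd (nat_lit 51982) (nat_lit 0) (nat_lit 672) (XT.nd (nat_lit 940) (nat_lit 84) (nat_lit 0) (XT.nd (nat_lit 470) (nat_lit 252) (nat_lit 0) (XT.nd (nat_lit 188) (nat_lit 84) (nat_lit 0) (XT.nd (nat_lit 94) (nat_lit 0) (nat_lit 0) (XT.lf (nat_lit 0) (nat_lit 3428176367) (nat_lit 252) (nat_lit 8511710266) (nat_lit 84) (nat_lit 5607288626) (nat_lit 15) (nat_lit 5) (nat_lit 18) (nat_lit 5) (nat_lit 16) (nat_lit 4) (nat_lit 362) (nat_lit 266) (nat_lit 236)) (XT.lf (nat_lit 0) (nat_lit 5890056373) (nat_lit 252) (nat_lit 3822033558) (nat_lit 84) (nat_lit 8275539308) (nat_lit 15) (nat_lit 5) (nat_lit 18) (nat_lit 5) (nat_lit 16) (nat_lit 4) (nat_lit 363) (nat_lit 266) (nat_lit 235))) (XT.nd (nat_lit 94) (nat_lit 0) (nat_lit 0) (XT.lf (nat_lit 0) (nat_lit 966954978) (nat_lit 84) (nat_lit 7429284064) (nat_lit 168) (nat_lit 10046576074) (nat_lit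 14) (nat_lit 5) (nat_lit 15) (nat_lit 5) (nat_lit 16) (nat_lit 4) (nat_lit 364) (nat_lit 266) (nat_lit 234)) (XT.nd (nat_lit 94) (nat_lit 0) (nat_lit 0) (XT.lf (nat_lit 0) (nat_lit 5920540764) (nat_lit 84) (nat_lit 5058466251) (nat_lit 168) (nat_lit 7933221807) (nat_lit 14) (nat_lit 5) (nat_lit 15) (nat_lit 5) (nat_lit 16) (nat_lit 4) (nat_lit 365) (nat_lit 266) (nat_lit 233)) (XT.lf (nat_lit 0) (nat_lit 10964752210) (nat_lit 84) (nat_lit 2637320835) (nat_lit 168) (nat_lit 5795434390) (nat_lit 14) (nat_lit 5) (nat_lit 15) (nat_lit 5) (nat_lit 16) (nat_lit 4) (nat_lit 366) (nat_lit 266) (nat_lit 232))))) (XT.nd (nat_lit 188) (nat_lit 84) (nat_lit 0) (XT.nd (nat_lit 94) (nat_lit 168) (nat_lit 0) (XT.lf (nat_lit 0) (nat_lit 16104291051) (nat_lit 84) (nat_lit 163591056) (nat_lit 168) (nat_lit 3631221181) (nat_lit 14) (nat_lit 5) (nat_lit 15) (nat_lit 5) (nat_lit 16) (nat_lit 4) (nat_lit 367)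 (nat_lit 266) (nat_lit 231)) (XT.lf (nat_lit 0) (nat_lit 921570160) (nat_lit 168) (nat_lit 18089952320) (nat_lit 168) (nat_lit 1404950731) (nat_lit 12) (nat_lit 4) (nat_lit 14) (nat_lit 5) (nat_lit 14) (nat_lit 4) (nat_lit 368) (nat_lit 266) (nat_lit 230))) (XT.nd (nat_lit 94) (nat_lit 0) (nat_lit 0) (XT.lf (nat_lit 0) (nat_lit 876544621) (nat_lit 252) (nat_lit 15155415761) (nat_lit 84) (nat_lit 4917589862) (nat_lit 11) (nat_lit 5) (nat_lit 14) (nat_lit 5) (nat_lit 12) (nat_lit 4) (nat_lit 369) (nat_lit 266) (nat_lit 229)) (XT.nd (nat_lit 94) (nat_lit 0) (nat_lit 0) (XT.lf (nat_lit 0) (nat_lit 3163171373) (nat_lit 252) (nat_lit 10754415817) (nat_lit 84) (nat_lit 7582317678) (nat_lit 11) (nat_lit 5) (nat_lit 14) (nat_lit 5) (nat_lit 12) (nat_lit 4) (nat_lit 370) (nat_lit 266) (nat_lit 228)) (XT.lf (nat_lit 0) (nat_lit 5485367527) (nat_lit 252) (nat_lit 6273863740) (nat_lit 84) (nat_lit 10309250861)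 (nat_lit 11) (nat_lit 5) (nat_lit 14) (nat_lit 5) (nat_lit 12) (nat_lit 4) (nat_lit 371) (nat_lit 266) (nat_lit 227)))))) (XT.nd (nat_lit 50478) (nat_lit 0) (nat_lit 2940) (XT.nd (nat_lit 188) (nat_lit 0) (nat_lit 0) (XT.nd (nat_lit 94) (nat_lit 84) (nat_lit 0) (XT.lf (nat_lit 0) (nat_lit 7845297613) (nat_lit 252) (nat_lit 1709583186) (nat_lit 84) (nat_lit 13100931197) (nat_lit 11) (nat_lit 5) (nat_lit 14) (nat_lit 5) (nat_lit 12) (nat_lit 4) (nat_lit 372) (nat_lit 266) (nat_lit 226)) (XT.lf (nat_lit 0) (nat_lit 3003187771) (nat_lit 84) (nat_lit 7271765556) (nat_lit 168) (nat_lit 12986565048) (nat_lit 10) (nat_lit 5) (nat_lit 11) (nat_lit 5) (nat_lit 12) (nat_lit 4) (nat_lit 373) (nat_lit 266) (nat_lit 225))) (XT.nd (nat_lit 50102) (nat_lit 0) (nat_lit 4116) (XT.lf (nat_lit 0) (nat_lit 7845328800) (nat_lit 84) (nat_lit 4919693444) (nat_lit 168) (nat_lit 11121502492) (nat_lit 10) (nat_lit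 5) (nat_lit 11) (nat_lit 5) (nat_lit 12) (nat_lit 4) (nat_lit 374) (nat_lit 266) (nat_lit 224)) (XT.nd (nat_lit 94) (nat_lit 0) (nat_lit 0) (XT.lf (nat_lit 0) (nat_lit 349121287) (nat_lit 420) (nat_lit 3830291401) (nat_lit 0) (nat_lit 349121287) (nat_lit 59) (nat_lit 5) (nat_lit 64) (nat_lit 4) (nat_lit 59) (nat_lit 4) (nat_lit 330) (nat_lit 267) (nat_lit 267)) (XT.lf (nat_lit 0) (nat_lit 3700095325) (nat_lit 420) (nat_lit 2761404536) (nat_lit 0) (nat_lit 2739601569) (nat_lit 59) (nat_lit 5) (nat_lit 64) (nat_lit 4) (nat_lit 59) (nat_lit 4) (nat_lit 331) (nat_lit 267) (nat_lit 266))))) (XT.nd (nat_lit 282) (nat_lit 420) (nat_lit 0) (XT.nd (nat_lit 94) (nat_lit 420) (nat_lit 0) (XT.lf (nat_lit 0) (nat_lit 2232177240) (nat_lit 336) (nat_lit 4505785386) (nat_lit 336) (nat_lit 2613677900) (nat_lit 55) (nat_lit 4) (nat_lit 59) (nat_lit 5) (nat_lit 59) (nat_lit 4) (nat_lit 332) (nat_lit 267) (nat_lit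 265)) (XT.nd (nat_lit 94) (nat_lit 336) (nat_lit 0) (XT.lf (nat_lit 0) (nat_lit 306092926) (nat_lit 420) (nat_lit 2174034818) (nat_lit 84) (nat_lit 7028405214) (nat_lit 54) (nat_lit 5) (nat_lit 59) (nat_lit 5) (nat_lit 55) (nat_lit 4) (nat_lit 333) (nat_lit 267) (nat_lit 264)) (XT.lf (nat_lit 0) (nat_lit 2855319010) (nat_lit 336) (nat_lit 358595916) (nat_lit 420) (nat_lit 6457287121) (nat_lit 50) (nat_lit 5) (nat_lit 54) (nat_lit 5) (nat_lit 55) (nat_lit 4) (nat_lit 334) (nat_lit 267) (nat_lit 263)))) (XT.nd (nat_lit 94) (nat_lit 420) (nat_lit 0) (XT.lf (nat_lit 0) (nat_lit 6177528672) (nat_lit 420) (nat_lit 1871411026) (nat_lit 0) (nat_lit 1791280006) (nat_lit 50) (nat_lit 5) (nat_lit 55) (nat_lit 4) (nat_lit 50) (nat_lit 4) (nat_lit 335) (nat_lit 267) (nat_lit 262)) (XT.nd (nat_lit 94) (nat_lit 84) (nat_lit 0) (XT.lf (nat_lit 0) (nat_lit 3188465594) (nat_lit 336) (nat_lit 6006697769) (nat_lit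 336) (nat_lit 820720638) (nat_lit 46) (nat_lit 4) (nat_lit 50) (nat_lit 5) (nat_lit 50) (nat_lit 4) (nat_lit 336) (nat_lit 267) (nat_lit 261)) (XT.lf (nat_lit 0) (nat_lit 2013712011) (nat_lit 420) (nat_lit 1871810348) (nat_lit 84) (nat_lit 6312690065) (nat_lit 45) (nat_lit 5) (nat_lit 50) (nat_lit 5) (nat_lit 46) (nat_lit 4) (nat_lit 337) (nat_lit 267) (nat_lit 260))))))) (XT.nd (nat_lit 1034) (nat_lit 924) (nat_lit 0) (XT.nd (nat_lit 470) (nat_lit 504) (nat_lit 0) (XT.nd (nat_lit 188) (nat_lit 588) (nat_lit 0) (XT.nd (nat_lit 94) (nat_lit 0) (nat_lit 0) (XT.lf (nat_lit 0) (nat_lit 3197258422) (nat_lit 252) (nat_lit 1682740122) (nat_lit 336) (nat_lit 5507355445) (nat_lit 42) (nat_lit 5) (nat_lit 45) (nat_lit 5) (nat_lit 46) (nat_lit 4) (nat_lit 338) (nat_lit 267) (nat_lit 259)) (XT.lf (nat_lit 0) (nat_lit 7790957198) (nat_lit 336) (nat_lit 2221958926) (nat_lit 0) (nat_lit 571019328) (nat_lit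 42) (nat_lit 5) (nat_lit 46) (nat_lit 4) (nat_lit 42) (nat_lit 4) (nat_lit 339) (nat_lit 267) (nat_lit 258))) (XT.nd (nat_lit 94) (nat_lit 336) (nat_lit 0) (XT.lf (nat_lit 0) (nat_lit 2845925459) (nat_lit 252) (nat_lit 7924013214) (nat_lit 252) (nat_lit 17561614) (nat_lit 39) (nat_lit 4) (nat_lit 42) (nat_lit 5) (nat_lit 42) (nat_lit 4) (nat_lit 340) (nat_lit 267) (nat_lit 257)) (XT.nd (nat_lit 94) (nat_lit 252) (nat_lit 0) (XT.lf (nat_lit 0) (nat_lit 2742601558) (nat_lit 336) (nat_lit 3002099542) (nat_lit 84) (nat_lit 5253352498) (nat_lit 38) (nat_lit 5) (nat_lit 42) (nat_lit 5) (nat_lit 39) (nat_lit 4) (nat_lit 341) (nat_lit 267) (nat_lit 256)) (XT.lf (nat_lit 0) (nat_lit 2039250516) (nat_lit 252) (nat_lit 3503548189) (nat_lit 336) (nat_lit 5673913009) (nat_lit 35) (nat_lit 5) (nat_lit 38) (nat_lit 5) (nat_lit 39) (nat_lit 4) (nat_lit 342) (nat_lit 267) (nat_lit 255))))) (XT.nd (nat_lit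 282) (nat_lit 168) (nat_lit 0) (XT.nd (nat_lit 94) (nat_lit 336) (nat_lit 0) (XT.lf (nat_lit 0) (nat_lit 7209302652) (nat_lit 252) (nat_lit 1187500545) (nat_lit 336) (nat_lit 3046545558) (nat_lit 35) (nat_lit 5) (nat_lit 38) (nat_lit 5) (nat_lit 39) (nat_lit 4) (nat_lit 343) (nat_lit 267) (nat_lit 254)) (XT.nd (nat_lit 94) (nat_lit 84) (nat_lit 0) (XT.lf (nat_lit 0) (nat_lit 776014511) (nat_lit 252) (nat_lit 10520214203) (nat_lit 252) (nat_lit 382289696) (nat_lit 32) (nat_lit 4) (nat_lit 35) (nat_lit 5) (nat_lit 35) (nat_lit 4) (nat_lit 344) (nat_lit 267) (nat_lit 253)) (XT.lf (nat_lit 0) (nat_lit 2311253479) (nat_lit 336) (nat_lit 6015375291) (nat_lit 84) (nat_lit 3593960004) (nat_lit 31) (nat_lit 5) (nat_lit 35) (nat_lit 5) (nat_lit 32) (nat_lit 4) (nat_lit 345) (nat_lit 267) (nat_lit 252)))) (XT.nd (nat_lit 94) (nat_lit 168) (nat_lit 0) (XT.lf (nat_lit 0) (nat_lit 5019777219) (nat_lit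 336) (nat_lit 1068783169) (nat_lit 84) (nat_lit 6083516797) (nat_lit 31) (nat_lit 5) (nat_lit 35) (nat_lit 5) (nat_lit 32) (nat_lit 4) (nat_lit 346) (nat_lit 267) (nat_lit 251)) (XT.nd (nat_lit 94) (nat_lit 0) (nat_lit 0) (XT.lf (nat_lit 0) (nat_lit 4026806748) (nat_lit 168) (nat_lit 3766648109) (nat_lit 252) (nat_lit 4638642425) (nat_lit 29) (nat_lit 5) (nat_lit 31) (nat_lit 5) (nat_lit 32) (nat_lit 4) (nat_lit 347) (nat_lit 267) (nat_lit 250)) (XT.lf (nat_lit 0) (nat_lit 9218405240) (nat_lit 168) (nat_lit 1388037733) (nat_lit 252) (nat_lit 2095329748) (nat_lit 29) (nat_lit 5) (nat_lit 31) (nat_lit 5) (nat_lit 32) (nat_lit 4) (nat_lit 348) (nat_lit 267) (nat_lit 249)))))) (XT.nd (nat_lit 470) (nat_lit 420) (nat_lit 0) (XT.nd (nat_lit 188) (nat_lit 168) (nat_lit 0) (XT.nd (nat_lit 94) (nat_lit 0) (nat_lit 0) (XT.lf (nat_lit 0) (nat_lit 485121790) (nat_lit 336) (nat_lit 11458149252) (nat_lit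 84) (nat_lit 1037477904) (nat_lit 25) (nat_lit 5) (nat_lit 29) (nat_lit 5) (nat_lit 26) (nat_lit 4) (nat_lit 349) (nat_lit 267) (nat_lit 248)) (XT.lf (nat_lit 0) (nat_lit 3096790286) (nat_lit 336) (nat_lit 6629782907) (nat_lit 84) (nat_lit 3541433619) (nat_lit 25) (nat_lit 5) (nat_lit 29) (nat_lit 5) (nat_lit 26) (nat_lit 4) (nat_lit 350) (nat_lit 267) (nat_lit 247))) (XT.nd (nat_lit 94) (nat_lit 168) (nat_lit 0) (XT.lf (nat_lit 0) (nat_lit 5734930151) (nat_lit 336) (nat_lit 1733342927) (nat_lit 84) (nat_lit 6097716640) (nat_lit 25) (nat_lit 5) (nat_lit 29) (nat_lit 5) (nat_lit 26) (nat_lit 4) (nat_lit 351) (nat_lit 267) (nat_lit 246)) (XT.nd (nat_lit 94) (nat_lit 0) (nat_lit 0) (XT.lf (nat_lit 0) (nat_lit 3302268024) (nat_lit 168) (nat_lit 5132491291) (nat_lit 252) (nat_lit 5439200575) (nat_lit 23) (nat_lit 5) (nat_lit 25) (nat_lit 5) (nat_lit 26) (nat_lit 4) (nat_lit 352) (nat_lit 267)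 (nat_lit 245)) (XT.lf (nat_lit 0) (nat_lit 8452378209) (nat_lit 168) (nat_lit 2731957474) (nat_lit 252) (nat_lit 3008316922) (nat_lit 23) (nat_lit 5) (nat_lit 25) (nat_lit 5) (nat_lit 26) (nat_lit 4) (nat_lit 353) (nat_lit 267) (nat_lit 244))))) (XT.nd (nat_lit 282) (nat_lit 168) (nat_lit 0) (XT.nd (nat_lit 94) (nat_lit 252) (nat_lit 0) (XT.lf (nat_lit 0) (nat_lit 13686146984) (nat_lit 168) (nat_lit 282526625) (nat_lit 252) (nat_lit 554235316) (nat_lit 23) (nat_lit 5) (nat_lit 25) (nat_lit 5) (nat_lit 26) (nat_lit 4) (nat_lit 354) (nat_lit 267) (nat_lit 243)) (XT.nd (nat_lit 94) (nat_lit 0) (nat_lit 0) (XT.lf (nat_lit 0) (nat_lit 1950921631) (nat_lit 252) (nat_lit 10676655297) (nat_lit 84) (nat_lit 2234871854) (nat_lit 20) (nat_lit 5) (nat_lit 23) (nat_lit 5) (nat_lit 21) (nat_lit 4) (nat_lit 355) (nat_lit 267) (nat_lit 242)) (XT.lf (nat_lit 0) (nat_lit 4484871791) (nat_lit 252) (nat_lit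 5914559339) (nat_lit 84) (nat_lit 4814174436) (nat_lit 20) (nat_lit 5) (nat_lit 23) (nat_lit 5) (nat_lit 21) (nat_lit 4) (nat_lit 356) (nat_lit 267) (nat_lit 241)))) (XT.nd (nat_lit 94) (nat_lit 168) (nat_lit 0) (XT.lf (nat_lit 0) (nat_lit 7049782869) (nat_lit 252) (nat_lit 1078024955) (nat_lit 84) (nat_lit 7449421393) (nat_lit 20) (nat_lit 5) (nat_lit 23) (nat_lit 5) (nat_lit 21) (nat_lit 4) (nat_lit 357) (nat_lit 267) (nat_lit 240)) (XT.nd (nat_lit 94) (nat_lit 0) (nat_lit 0) (XT.lf (nat_lit 0) (nat_lit 3916361978) (nat_lit 168) (nat_lit 5770534449) (nat_lit 252) (nat_lit 6265557869) (nat_lit 18) (nat_lit 5) (nat_lit 20) (nat_lit 5) (nat_lit 21) (nat_lit 4) (nat_lit 358) (nat_lit 267) (nat_lit 239)) (XT.lf (nat_lit 0) (nat_lit 9018161156) (nat_lit 168) (nat_lit 3353382052) (nat_lit 252) (nat_lit 3968928292) (nat_lit 18) (nat_lit 5) (nat_lit 20) (nat_lit 5) (nat_lit 21) (nat_lit 4) (nat_lit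 359) (nat_lit 267) (nat_lit 238))))))))
noncomputable def xc12 : XT := (XT.nd (nat_lit 51794) (nat_lit 0) (nat_lit 1092) (XT.nd (nat_lit 940) (nat_lit 84) (nat_lit 0) (XT.nd (nat_lit 470) (nat_lit 336) (nat_lit 0) (XT.nd (nat_lit 188) (nat_lit 0) (nat_lit 0) (XT.nd (nat_lit 94) (nat_lit 252) (nat_lit 0) (XT.lf (nat_lit 0) (nat_lit 14209961585) (nat_lit 168) (nat_lit 885349962) (nat_lit 252) (nat_lit 1646669289) (nat_lit 18) (nat_lit 5) (nat_lit 20) (nat_lit 5) (nat_lit 21) (nat_lit 4) (nat_lit 360) (nat_lit 267) (nat_lit 237)) (XT.lf (nat_lit 0) (nat_lit 729365056) (nat_lit 252) (nat_lit 14792724504) (nat_lit 84) (nat_lit 1633805943) (nat_lit 15) (nat_lit 5) (nat_lit 18) (nat_lit 5) (nat_lit 16) (nat_lit 4) (nat_lit 361) (nat_lit 267) (nat_lit 236))) (XT.nd (nat_lit 94) (nat_lit 0) (nat_lit 0) (XT.lf (nat_lit 0) (nat_lit 3137707937) (nat_lit 252) (nat_lit 10211781697) (nat_lit 84) (nat_lit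 4232939229) (nat_lit 15) (nat_lit 5) (nat_lit 18) (nat_lit 5) (nat_lit 16) (nat_lit 4) (nat_lit 362) (nat_lit 267) (nat_lit 235)) (XT.nd (nat_lit 94) (nat_lit 0) (nat_lit 0) (XT.lf (nat_lit 0) (nat_lit 5579101518) (nat_lit 252) (nat_lit 5554379798) (nat_lit 84) (nat_lit 6890078625) (nat_lit 15) (nat_lit 5) (nat_lit 18) (nat_lit 5) (nat_lit 16) (nat_lit 4) (nat_lit 363) (nat_lit 267) (nat_lit 234)) (XT.lf (nat_lit 0) (nat_lit 8055821431) (nat_lit 252) (nat_lit 816177621) (nat_lit 84) (nat_lit 9607700863) (nat_lit 15) (nat_lit 5) (nat_lit 18) (nat_lit 5) (nat_lit 16) (nat_lit 4) (nat_lit 364) (nat_lit 267) (nat_lit 233))))) (XT.nd (nat_lit 188) (nat_lit 252) (nat_lit 0) (XT.nd (nat_lit 94) (nat_lit 0) (nat_lit 0) (XT.lf (nat_lit 0) (nat_lit 4089638434) (nat_lit 84) (nat_lit 6521107526) (nat_lit 168) (nat_lit 8339270337) (nat_lit 14) (nat_lit 5) (nat_lit 15) (nat_lit 5) (nat_lit 16) (nat_lit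 4) (nat_lit 365) (nat_lit 267) (nat_lit 232)) (XT.lf (nat_lit 0) (nat_lit 9103794163) (nat_lit 84) (nat_lit 4111026189) (nat_lit 168) (nat_lit 6221101639) (nat_lit 14) (nat_lit 5) (nat_lit 15) (nat_lit 5) (nat_lit 16) (nat_lit 4) (nat_lit 366) (nat_lit 267) (nat_lit 231))) (XT.nd (nat_lit 94) (nat_lit 252) (nat_lit 0) (XT.lf (nat_lit 0) (nat_lit 14214180999) (nat_lit 84) (nat_lit 1648027815) (nat_lit 168) (nat_lit 4075917256) (nat_lit 14) (nat_lit 5) (nat_lit 15) (nat_lit 5) (nat_lit 16) (nat_lit 4) (nat_lit 367) (nat_lit 267) (nat_lit 230)) (XT.nd (nat_lit 94) (nat_lit 252) (nat_lit 0) (XT.lf (nat_lit 0) (nat_lit 18564011314) (nat_lit 168) (nat_lit 1040166608) (nat_lit 0) (nat_lit 852651113) (nat_lit 14) (nat_lit 5) (nat_lit 16) (nat_lit 4) (nat_lit 14) (nat_lit 4) (nat_lit 368) (nat_lit 267) (nat_lit 229)) (XT.lf (nat_lit 0) (nat_lit 369941069) (nat_lit 252) (nat_lit 17203148877) (nat_lit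 84) (nat_lit 3417885631) (nat_lit 11) (nat_lit 5) (nat_lit 14) (nat_lit 5) (nat_lit 12) (nat_lit 4) (nat_lit 369) (nat_lit 267) (nat_lit 228)))))) (XT.nd (nat_lit 50290) (nat_lit 0) (nat_lit 3696) (XT.nd (nat_lit 188) (nat_lit 84) (nat_lit 0) (XT.nd (nat_lit 94) (nat_lit 0) (nat_lit 0) (XT.lf (nat_lit 0) (nat_lit 2639179330) (nat_lit 252) (nat_lit 12830154282) (nat_lit 84) (nat_lit 6072568546) (nat_lit 11) (nat_lit 5) (nat_lit 14) (nat_lit 5) (nat_lit 12) (nat_lit 4) (nat_lit 370) (nat_lit 267) (nat_lit 227)) (XT.lf (nat_lit 0) (nat_lit 4944509827) (nat_lit 252) (nat_lit 8376765493) (nat_lit 84) (nat_lit 8789758855) (nat_lit 11) (nat_lit 5) (nat_lit 14) (nat_lit 5) (nat_lit 12) (nat_lit 4) (nat_lit 371) (nat_lit 267) (nat_lit 226))) (XT.nd (nat_lit 94) (nat_lit 84) (nat_lit 0) (XT.lf (nat_lit 0) (nat_lit 7288081371) (nat_lit 252) (nat_lit 3838831485) (nat_lit 84) (nat_lit 11571989266) (nat_lit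 11) (nat_lit 5) (nat_lit 14) (nat_lit 5) (nat_lit 12) (nat_lit 4) (nat_lit 372) (nat_lit 267) (nat_lit 225)) (XT.nd (nat_lit 94) (nat_lit 0) (nat_lit 0) (XT.lf (nat_lit 0) (nat_lit 804077951) (nat_lit 84) (nat_lit 8875977018) (nat_lit 168) (nat_lit 13625751710) (nat_lit 10) (nat_lit 5) (nat_lit 11) (nat_lit 5) (nat_lit 12) (nat_lit 4) (nat_lit 373) (nat_lit 267) (nat_lit 224)) (XT.lf (nat_lit 0) (nat_lit 5620923335) (nat_lit 84) (nat_lit 6533560017) (nat_lit 168) (nat_lit 11776843673) (nat_lit 10) (nat_lit 5) (nat_lit 11) (nat_lit 5) (nat_lit 12) (nat_lit 4) (nat_lit 374) (nat_lit 267) (nat_lit 223))))) (XT.nd (nat_lit 282) (nat_lit 420) (nat_lit 0) (XT.nd (nat_lit 94) (nat_lit 420) (nat_lit 0) (XT.lf (nat_lit 0) (nat_lit 191327238) (nat_lit 420) (nat_lit 2100179527) (nat_lit 420) (nat_lit 2100179527) (nat_lit 64) (nat_lit 4) (nat_lit 69) (nat_lit 5) (nat_lit 69) (nat_lit 4) (nat_lit 328)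 (nat_lit 268) (nat_lit 268)) (XT.nd (nat_lit 94) (nat_lit 420) (nat_lit 0) (XT.lf (nat_lit 0) (nat_lit 5359458728) (nat_lit 420) (nat_lit 2289689222) (nat_lit 420) (nat_lit 1268721819) (nat_lit 64) (nat_lit 4) (nat_lit 69) (nat_lit 5) (nat_lit 69) (nat_lit 4) (nat_lit 329) (nat_lit 268) (nat_lit 267)) (XT.lf (nat_lit 0) (nat_lit 1342708499) (nat_lit 336) (nat_lit 308667652) (nat_lit 420) (nat_lit 7406981204) (nat_lit 59) (nat_lit 5) (nat_lit 63) (nat_lit 5) (nat_lit 64) (nat_lit 4) (nat_lit 330) (nat_lit 268) (nat_lit 266)))) (XT.nd (nat_lit 94) (nat_lit 420) (nat_lit 0) (XT.lf (nat_lit 0) (nat_lit 4611178029) (nat_lit 420) (nat_lit 2863848949) (nat_lit 0) (nat_lit 1728801480) (nat_lit 59) (nat_lit 5) (nat_lit 64) (nat_lit 4) (nat_lit 59) (nat_lit 4) (nat_lit 331) (nat_lit 268) (nat_lit 265)) (XT.nd (nat_lit 94) (nat_lit 84) (nat_lit 0) (XT.lf (nat_lit 0) (nat_lit 2077696643) (nat_lit 336)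 (nat_lit 5531999680) (nat_lit 336) (nat_lit 1746021066) (nat_lit 55) (nat_lit 4) (nat_lit 59) (nat_lit 5) (nat_lit 59) (nat_lit 4) (nat_lit 332) (nat_lit 268) (nat_lit 264)) (XT.lf (nat_lit 0) (nat_lit 1118604892) (nat_lit 420) (nat_lit 2390524731) (nat_lit 84) (nat_lit 6004503257) (nat_lit 54) (nat_lit 5) (nat_lit 59) (nat_lit 5) (nat_lit 55) (nat_lit 4) (nat_lit 333) (nat_lit 268) (nat_lit 263))))))) (XT.nd (nat_lit 940) (nat_lit 1008) (nat_lit 0) (XT.nd (nat_lit 470) (nat_lit 588) (nat_lit 0) (XT.nd (nat_lit 188) (nat_lit 672) (nat_lit 0) (XT.nd (nat_lit 94) (nat_lit 0) (nat_lit 0) (XT.lf (nat_lit 0) (nat_lit 2585551803) (nat_lit 336) (nat_lit 1401667911) (nat_lit 420) (nat_lit 5690416316) (nat_lit 50) (nat_lit 5) (nat_lit 54) (nat_lit 5) (nat_lit 55) (nat_lit 4) (nat_lit 334) (nat_lit 268) (nat_lit 262)) (XT.lf (nat_lit 0) (nat_lit 6904469983) (nat_lit 420) (nat_lit 2185736947) (nat_lit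 0) (nat_lit 757999096) (nat_lit 50) (nat_lit 5) (nat_lit 55) (nat_lit 4) (nat_lit 50) (nat_lit 4) (nat_lit 335) (nat_lit 268) (nat_lit 261))) (XT.nd (nat_lit 94) (nat_lit 336) (nat_lit 0) (XT.lf (nat_lit 0) (nat_lit 2819695088) (nat_lit 336) (nat_lit 7063818189) (nat_lit 336) (nat_lit 141664989) (nat_lit 46) (nat_lit 4) (nat_lit 50) (nat_lit 5) (nat_lit 50) (nat_lit 4) (nat_lit 336) (nat_lit 268) (nat_lit 260)) (XT.nd (nat_lit 94) (nat_lit 252) (nat_lit 0) (XT.lf (nat_lit 0) (nat_lit 2644284415) (nat_lit 420) (nat_lit 2303970730) (nat_lit 84) (nat_lit 5260226574) (nat_lit 45) (nat_lit 5) (nat_lit 50) (nat_lit 5) (nat_lit 46) (nat_lit 4) (nat_lit 337) (nat_lit 268) (nat_lit 259)) (XT.lf (nat_lit 0) (nat_lit 2709332111) (nat_lit 252) (nat_lit 2762643177) (nat_lit 336) (nat_lit 4926946305) (nat_lit 42) (nat_lit 5) (nat_lit 45) (nat_lit 5) (nat_lit 46) (nat_lit 4) (nat_lit 338) (nat_lit 268)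 (nat_lit 258))))) (XT.nd (nat_lit 188) (nat_lit 252) (nat_lit 0) (XT.nd (nat_lit 94) (nat_lit 336) (nat_lit 0) (XT.lf (nat_lit 0) (nat_lit 7834540239) (nat_lit 252) (nat_lit 509421156) (nat_lit 336) (nat_lit 2252848589) (nat_lit 42) (nat_lit 5) (nat_lit 45) (nat_lit 5) (nat_lit 46) (nat_lit 4) (nat_lit 339) (nat_lit 268) (nat_lit 257)) (XT.lf (nat_lit 0) (nat_lit 468262804) (nat_lit 336) (nat_lit 8552895283) (nat_lit 84) (nat_lit 1780506037) (nat_lit 38) (nat_lit 5) (nat_lit 42) (nat_lit 5) (nat_lit 39) (nat_lit 4) (nat_lit 340) (nat_lit 268) (nat_lit 256))) (XT.nd (nat_lit 94) (nat_lit 252) (nat_lit 0) (XT.lf (nat_lit 0) (nat_lit 3195873279) (nat_lit 336) (nat_lit 3658968754) (nat_lit 84) (nat_lit 4158458301) (nat_lit 38) (nat_lit 5) (nat_lit 42) (nat_lit 5) (nat_lit 39) (nat_lit 4) (nat_lit 341) (nat_lit 268) (nat_lit 255)) (XT.nd (nat_lit 94) (nat_lit 0) (nat_lit 0) (XT.lf (nat_lit 0)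 (nat_lit 1323959556) (nat_lit 252) (nat_lit 4633784376) (nat_lit 336) (nat_lit 5275490065) (nat_lit 35) (nat_lit 5) (nat_lit 38) (nat_lit 5) (nat_lit 39) (nat_lit 4) (nat_lit 342) (nat_lit 268) (nat_lit 254)) (XT.lf (nat_lit 0) (nat_lit 6450447028) (nat_lit 252) (nat_lit 2330577553) (nat_lit 336) (nat_lit 2679883692) (nat_lit 35) (nat_lit 5) (nat_lit 38) (nat_lit 5) (nat_lit 39) (nat_lit 4) (nat_lit 343) (nat_lit 268) (nat_lit 253)))))) (XT.nd (nat_lit 470) (nat_lit 504) (nat_lit 0) (XT.nd (nat_lit 188) (nat_lit 168) (nat_lit 0) (XT.nd (nat_lit 94) (nat_lit 336) (nat_lit 0) (XT.lf (nat_lit 0) (nat_lit 11631488879) (nat_lit 336) (nat_lit 47833390) (nat_lit 0) (nat_lit 18355704) (nat_lit 35) (nat_lit 5) (nat_lit 39) (nat_lit 4) (nat_lit 35) (nat_lit 4) (nat_lit 344) (nat_lit 268) (nat_lit 252)) (XT.lf (nat_lit 0) (nat_lit 2590669341) (nat_lit 336) (nat_lit 6905903337) (nat_lit 84) (nat_lit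 2444095623) (nat_lit 31) (nat_lit 5) (nat_lit 35) (nat_lit 5) (nat_lit 32) (nat_lit 4) (nat_lit 345) (nat_lit 268) (nat_lit 251))) (XT.nd (nat_lit 94) (nat_lit 168) (nat_lit 0) (XT.lf (nat_lit 0) (nat_lit 5270263115) (nat_lit 336) (nat_lit 2001397744) (nat_lit 84) (nat_lit 4921467730) (nat_lit 31) (nat_lit 5) (nat_lit 35) (nat_lit 5) (nat_lit 32) (nat_lit 4) (nat_lit 346) (nat_lit 268) (nat_lit 250)) (XT.nd (nat_lit 94) (nat_lit 0) (nat_lit 0) (XT.lf (nat_lit 0) (nat_lit 3033355264) (nat_lit 168) (nat_lit 4972670225) (nat_lit 252) (nat_lit 4448371362) (nat_lit 29) (nat_lit 5) (nat_lit 31) (nat_lit 5) (nat_lit 32) (nat_lit 4) (nat_lit 347) (nat_lit 268) (nat_lit 249)) (XT.lf (nat_lit 0) (nat_lit 8184545957) (nat_lit 168) (nat_lit 2606850404) (nat_lit 252) (nat_lit 1933602668) (nat_lit 29) (nat_lit 5) (nat_lit 31) (nat_lit 5) (nat_lit 32) (nat_lit 4) (nat_lit 348) (nat_lit 268) (nat_lit 248)))))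 (XT.nd (nat_lit 282) (nat_lit 168) (nat_lit 0) (XT.nd (nat_lit 94) (nat_lit 0) (nat_lit 0) (XT.lf (nat_lit 0) (nat_lit 412334287) (nat_lit 252) (nat_lit 182503295) (nat_lit 336) (nat_lit 12410665696) (nat_lit 25) (nat_lit 5) (nat_lit 28) (nat_lit 5) (nat_lit 29) (nat_lit 5) (nat_lit 349) (nat_lit 268) (nat_lit 247)) (XT.nd (nat_lit 94) (nat_lit 0) (nat_lit 0) (XT.lf (nat_lit 0) (nat_lit 3177866301) (nat_lit 336) (nat_lit 7803172261) (nat_lit 84) (nat_lit 2312674840) (nat_lit 25) (nat_lit 5) (nat_lit 29) (nat_lit 5) (nat_lit 26) (nat_lit 4) (nat_lit 350) (nat_lit 268) (nat_lit 246)) (XT.lf (nat_lit 0) (nat_lit 5789983544) (nat_lit 336) (nat_lit 2945704220) (nat_lit 84) (nat_lit 4856877732) (nat_lit 25) (nat_lit 5) (nat_lit 29) (nat_lit 5) (nat_lit 26) (nat_lit 4) (nat_lit 351) (nat_lit 268) (nat_lit 245)))) (XT.nd (nat_lit 94) (nat_lit 0) (nat_lit 0) (XT.lf (nat_lit 0) (nat_lit 2026400713)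 (nat_lit 168) (nat_lit 6425515058) (nat_lit 252) (nat_lit 5449855311) (nat_lit 23) (nat_lit 5) (nat_lit 25) (nat_lit 5) (nat_lit 26) (nat_lit 4) (nat_lit 352) (nat_lit 268) (nat_lit 244)) (XT.nd (nat_lit 94) (nat_lit 0) (nat_lit 0) (XT.lf (nat_lit 0) (nat_lit 7139093455) (nat_lit 168) (nat_lit 4037546242) (nat_lit 252) (nat_lit 3044653313) (nat_lit 23) (nat_lit 5) (nat_lit 25) (nat_lit 5) (nat_lit 26) (nat_lit 4) (nat_lit 353) (nat_lit 268) (nat_lit 243)) (XT.lf (nat_lit 0) (nat_lit 12336569850) (nat_lit 168) (nat_lit 1600302589) (nat_lit 252) (nat_lit 615481168) (nat_lit 23) (nat_lit 5) (nat_lit 25) (nat_lit 5) (nat_lit 26) (nat_lit 4) (nat_lit 354) (nat_lit 268) (nat_lit 242))))))))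
noncomputable def xc13 : XT := (XT.nd (nat_lit 51606) (nat_lit 0) (nat_lit 1596) (XT.nd (nat_lit 940) (nat_lit 420) (nat_lit 0) (XT.nd (nat_lit 470) (nat_lit 252) (nat_lit 0) (XT.nd (nat_lit 188) (nat_lit 168) (nat_lit 0) (XT.nd (nat_lit 94) (nat_lit 0) (nat_lit 0) (XT.lf (nat_lit 0) (nat_lit 1839574125) (nat_lit 252) (nat_lit 12137239067) (nat_lit 84) (nat_lit 916744152) (nat_lit 20) (nat_lit 5) (nat_lit 23) (nat_lit 5) (nat_lit 21) (nat_lit 4) (nat_lit 355) (nat_lit 268) (nat_lit 241)) (XT.lf (nat_lit 0) (nat_lit 4350091721) (nat_lit 252) (nat_lit 7411177845) (nat_lit 84) (nat_lit 3484223000) (nat_lit 20) (nat_lit 5) (nat_lit 23) (nat_lit 5) (nat_lit 21) (nat_lit 4) (nat_lit 356) (nat_lit 268) (nat_lit 240))) (XT.nd (nat_lit 94) (nat_lit 168) (nat_lit 0) (XT.lf (nat_lit 0) (nat_lit 6892274804) (nat_lit 252) (nat_lit 2609594708) (nat_lit 84) (nat_lit 6108001737) (nat_lit 20) (nat_lit 5)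 (nat_lit 23) (nat_lit 5) (nat_lit 21) (nat_lit 4) (nat_lit 357) (nat_lit 268) (nat_lit 239)) (XT.nd (nat_lit 94) (nat_lit 0) (nat_lit 0) (XT.lf (nat_lit 0) (nat_lit 2318702612) (nat_lit 168) (nat_lit 7172792159) (nat_lit 252) (nat_lit 6494825206) (nat_lit 18) (nat_lit 5) (nat_lit 20) (nat_lit 5) (nat_lit 21) (nat_lit 4) (nat_lit 358) (nat_lit 268) (nat_lit 238)) (XT.lf (nat_lit 0) (nat_lit 7386944664) (nat_lit 168) (nat_lit 4767482219) (nat_lit 252) (nat_lit 4220630927) (nat_lit 18) (nat_lit 5) (nat_lit 20) (nat_lit 5) (nat_lit 21) (nat_lit 4) (nat_lit 359) (nat_lit 268) (nat_lit 237))))) (XT.nd (nat_lit 188) (nat_lit 0) (nat_lit 0) (XT.nd (nat_lit 94) (nat_lit 252) (nat_lit 0) (XT.lf (nat_lit 0) (nat_lit 12546196959) (nat_lit 168) (nat_lit 2310936509) (nat_lit 252) (nat_lit 1920132638) (nat_lit 18) (nat_lit 5) (nat_lit 20) (nat_lit 5) (nat_lit 21) (nat_lit 4) (nat_lit 360) (nat_lit 268)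 (nat_lit 236)) (XT.lf (nat_lit 0) (nat_lit 408770599) (nat_lit 252) (nat_lit 16578773477) (nat_lit 84) (nat_lit 205395978) (nat_lit 15) (nat_lit 5) (nat_lit 18) (nat_lit 5) (nat_lit 16) (nat_lit 4) (nat_lit 361) (nat_lit 268) (nat_lit 235))) (XT.nd (nat_lit 94) (nat_lit 0) (nat_lit 0) (XT.lf (nat_lit 0) (nat_lit 2796627055) (nat_lit 252) (nat_lit 12030105478) (nat_lit 84) (nat_lit 2793417978) (nat_lit 15) (nat_lit 5) (nat_lit 18) (nat_lit 5) (nat_lit 16) (nat_lit 4) (nat_lit 362) (nat_lit 268) (nat_lit 234)) (XT.nd (nat_lit 94) (nat_lit 0) (nat_lit 0) (XT.lf (nat_lit 0) (nat_lit 5218150194) (nat_lit 252) (nat_lit 7404007952) (nat_lit 84) (nat_lit 5439780181) (nat_lit 15) (nat_lit 5) (nat_lit 18) (nat_lit 5) (nat_lit 16) (nat_lit 4) (nat_lit 363) (nat_lit 268) (nat_lit 233)) (XT.lf (nat_lit 0) (nat_lit 7675597128) (nat_lit 252) (nat_lit 2696168891) (nat_lit 84) (nat_lit 8146949273) (nat_lit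 15) (nat_lit 5) (nat_lit 18) (nat_lit 5) (nat_lit 16) (nat_lit 4) (nat_lit 364) (nat_lit 268) (nat_lit 232)))))) (XT.nd (nat_lit 470) (nat_lit 168) (nat_lit 0) (XT.nd (nat_lit 188) (nat_lit 168) (nat_lit 0) (XT.nd (nat_lit 94) (nat_lit 0) (nat_lit 0) (XT.lf (nat_lit 0) (nat_lit 2140934971) (nat_lit 84) (nat_lit 8051561824) (nat_lit 168) (nat_lit 8797751990) (nat_lit 14) (nat_lit 5) (nat_lit 15) (nat_lit 5) (nat_lit 16) (nat_lit 4) (nat_lit 365) (nat_lit 268) (nat_lit 231)) (XT.lf (nat_lit 0) (nat_lit 7125938695) (nat_lit 84) (nat_lit 5652211892) (nat_lit 168) (nat_lit 6698612117) (nat_lit 14) (nat_lit 5) (nat_lit 15) (nat_lit 5) (nat_lit 16) (nat_lit 4) (nat_lit 366) (nat_lit 268) (nat_lit 230))) (XT.nd (nat_lit 94) (nat_lit 168) (nat_lit 0) (XT.lf (nat_lit 0) (nat_lit 12208050066) (nat_lit 84) (nat_lit 3199622252) (nat_lit 168) (nat_lit 4571884403) (nat_lit 14) (nat_lit 5) (nat_lit 15)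 (nat_lit 5) (nat_lit 16) (nat_lit 4) (nat_lit 367) (nat_lit 268) (nat_lit 229)) (XT.nd (nat_lit 94) (nat_lit 168) (nat_lit 0) (XT.lf (nat_lit 0) (nat_lit 17392006142) (nat_lit 84) (nat_lit 691506833) (nat_lit 168) (nat_lit 2415586513) (nat_lit 14) (nat_lit 5) (nat_lit 15) (nat_lit 5) (nat_lit 16) (nat_lit 4) (nat_lit 368) (nat_lit 268) (nat_lit 228)) (XT.lf (nat_lit 0) (nat_lit 1661647127) (nat_lit 168) (nat_lit 19181598338) (nat_lit 168) (nat_lit 191542370) (nat_lit 12) (nat_lit 4) (nat_lit 14) (nat_lit 5) (nat_lit 14) (nat_lit 4) (nat_lit 369) (nat_lit 268) (nat_lit 227))))) (XT.nd (nat_lit 282) (nat_lit 84) (nat_lit 0) (XT.nd (nat_lit 94) (nat_lit 0) (nat_lit 0) (XT.lf (nat_lit 0) (nat_lit 2064689384) (nat_lit 252) (nat_lit 15025409278) (nat_lit 84) (nat_lit 4496229415) (nat_lit 11) (nat_lit 5) (nat_lit 14) (nat_lit 5) (nat_lit 12) (nat_lit 4) (nat_lit 370) (nat_lit 268) (nat_lit 226))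 (XT.nd (nat_lit 94) (nat_lit 0) (nat_lit 0) (XT.lf (nat_lit 0) (nat_lit 4353661339) (nat_lit 252) (nat_lit 10598367034) (nat_lit 84) (nat_lit 7203969799) (nat_lit 11) (nat_lit 5) (nat_lit 14) (nat_lit 5) (nat_lit 12) (nat_lit 4) (nat_lit 371) (nat_lit 268) (nat_lit 225)) (XT.lf (nat_lit 0) (nat_lit 6681366208) (nat_lit 252) (nat_lit 6085987386) (nat_lit 84) (nat_lit 9977034424) (nat_lit 11) (nat_lit 5) (nat_lit 14) (nat_lit 5) (nat_lit 12) (nat_lit 4) (nat_lit 372) (nat_lit 268) (nat_lit 224)))) (XT.nd (nat_lit 94) (nat_lit 84) (nat_lit 0) (XT.lf (nat_lit 0) (nat_lit 9049973656) (nat_lit 252) (nat_lit 1484064322) (nat_lit 84) (nat_lit 12818008076) (nat_lit 11) (nat_lit 5) (nat_lit 14) (nat_lit 5) (nat_lit 12) (nat_lit 4) (nat_lit 373) (nat_lit 268) (nat_lit 223)) (XT.nd (nat_lit 49726) (nat_lit 0) (nat_lit 5460) (XT.lf (nat_lit 0) (nat_lit 3277730597) (nat_lit 84) (nat_lit 8216476367) (nat_lit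 168) (nat_lit 12484323736) (nat_lit 10) (nat_lit 5) (nat_lit 11) (nat_lit 5) (nat_lit 12) (nat_lit 4) (nat_lit 374) (nat_lit 268) (nat_lit 222)) (XT.lf (nat_lit 0) (nat_lit 3941900774) (nat_lit 420) (nat_lit 161527487) (nat_lit 420) (nat_lit 161527487) (nat_lit 75) (nat_lit 4) (nat_lit 80) (nat_lit 5) (nat_lit 80) (nat_lit 4) (nat_lit 326) (nat_lit 269) (nat_lit 269))))))) (XT.nd (nat_lit 1034) (nat_lit 1344) (nat_lit 0) (XT.nd (nat_lit 470) (nat_lit 1176) (nat_lit 0) (XT.nd (nat_lit 188) (nat_lit 420) (nat_lit 0) (XT.nd (nat_lit 94) (nat_lit 420) (nat_lit 0) (XT.lf (nat_lit 0) (nat_lit 2627451016) (nat_lit 504) (nat_lit 4451985569) (nat_lit 0) (nat_lit 1574833623) (nat_lit 69) (nat_lit 5) (nat_lit 75) (nat_lit 4) (nat_lit 69) (nat_lit 4) (nat_lit 327) (nat_lit 269) (nat_lit 268)) (XT.lf (nat_lit 0) (nat_lit 332388897) (nat_lit 420) (nat_lit 5262981729) (nat_lit 420) (nat_lit 3189396933)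 (nat_lit 64) (nat_lit 4) (nat_lit 69) (nat_lit 5) (nat_lit 69) (nat_lit 4) (nat_lit 328) (nat_lit 269) (nat_lit 267))) (XT.nd (nat_lit 94) (nat_lit 420) (nat_lit 0) (XT.lf (nat_lit 0) (nat_lit 5260438952) (nat_lit 420) (nat_lit 3362016340) (nat_lit 420) (nat_lit 298162481) (nat_lit 64) (nat_lit 4) (nat_lit 69) (nat_lit 5) (nat_lit 69) (nat_lit 4) (nat_lit 329) (nat_lit 269) (nat_lit 266)) (XT.nd (nat_lit 94) (nat_lit 0) (nat_lit 0) (XT.lf (nat_lit 0) (nat_lit 1179818930) (nat_lit 336) (nat_lit 1382547659) (nat_lit 420) (nat_lit 6499814789) (nat_lit 59) (nat_lit 5) (nat_lit 63) (nat_lit 5) (nat_lit 64) (nat_lit 4) (nat_lit 330) (nat_lit 269) (nat_lit 265)) (XT.lf (nat_lit 0) (nat_lit 5473698905) (nat_lit 420) (nat_lit 3068833263) (nat_lit 0) (nat_lit 666752887) (nat_lit 59) (nat_lit 5) (nat_lit 64) (nat_lit 4) (nat_lit 59) (nat_lit 4) (nat_lit 331) (nat_lit 269) (nat_lit 264))))) (XT.nd (nat_lit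 282) (nat_lit 420) (nat_lit 0) (XT.nd (nat_lit 94) (nat_lit 420) (nat_lit 0) (XT.lf (nat_lit 0) (nat_lit 1820068996) (nat_lit 336) (nat_lit 6612913029) (nat_lit 336) (nat_lit 929534358) (nat_lit 55) (nat_lit 4) (nat_lit 59) (nat_lit 5) (nat_lit 59) (nat_lit 4) (nat_lit 332) (nat_lit 269) (nat_lit 263)) (XT.nd (nat_lit 94) (nat_lit 336) (nat_lit 0) (XT.lf (nat_lit 0) (nat_lit 1882110159) (nat_lit 420) (nat_lit 2710893106) (nat_lit 84) (nat_lit 4928428621) (nat_lit 54) (nat_lit 5) (nat_lit 59) (nat_lit 5) (nat_lit 55) (nat_lit 4) (nat_lit 333) (nat_lit 269) (nat_lit 262)) (XT.lf (nat_lit 0) (nat_lit 2211238270) (nat_lit 336) (nat_lit 2500340832) (nat_lit 420) (nat_lit 4975184526) (nat_lit 50) (nat_lit 5) (nat_lit 54) (nat_lit 5) (nat_lit 55) (nat_lit 4) (nat_lit 334) (nat_lit 269) (nat_lit 261)))) (XT.nd (nat_lit 94) (nat_lit 420) (nat_lit 0) (XT.lf (nat_lit 0) (nat_lit 7250133721) (nat_lit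 336) (nat_lit 336198663) (nat_lit 420) (nat_lit 2272430257) (nat_lit 50) (nat_lit 5) (nat_lit 54) (nat_lit 5) (nat_lit 55) (nat_lit 4) (nat_lit 335) (nat_lit 269) (nat_lit 260)) (XT.nd (nat_lit 94) (nat_lit 0) (nat_lit 0) (XT.lf (nat_lit 0) (nat_lit 476507605) (nat_lit 420) (nat_lit 7696994493) (nat_lit 84) (nat_lit 1863491231) (nat_lit 45) (nat_lit 5) (nat_lit 50) (nat_lit 5) (nat_lit 46) (nat_lit 4) (nat_lit 336) (nat_lit 269) (nat_lit 259)) (XT.lf (nat_lit 0) (nat_lit 3225847405) (nat_lit 420) (nat_lit 2842822680) (nat_lit 84) (nat_lit 4152731390) (nat_lit 45) (nat_lit 5) (nat_lit 50) (nat_lit 5) (nat_lit 46) (nat_lit 4) (nat_lit 337) (nat_lit 269) (nat_lit 258)))))) (XT.nd (nat_lit 470) (nat_lit 504) (nat_lit 0) (XT.nd (nat_lit 188) (nat_lit 588) (nat_lit 0) (XT.nd (nat_lit 94) (nat_lit 0) (nat_lit 0) (XT.lf (nat_lit 0) (nat_lit 2113930013) (nat_lit 252) (nat_lit 3900961385) (nat_lit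 336) (nat_lit 4398246785) (nat_lit 42) (nat_lit 5) (nat_lit 45) (nat_lit 5) (nat_lit 46) (nat_lit 4) (nat_lit 338) (nat_lit 269) (nat_lit 257)) (XT.lf (nat_lit 0) (nat_lit 7195035089) (nat_lit 252) (nat_lit 1659648927) (nat_lit 336) (nat_lit 1757436369) (nat_lit 42) (nat_lit 5) (nat_lit 45) (nat_lit 5) (nat_lit 46) (nat_lit 4) (nat_lit 339) (nat_lit 269) (nat_lit 256))) (XT.nd (nat_lit 94) (nat_lit 252) (nat_lit 0) (XT.lf (nat_lit 0) (nat_lit 903387077) (nat_lit 336) (nat_lit 9275501986) (nat_lit 84) (nat_lit 639582746) (nat_lit 38) (nat_lit 5) (nat_lit 42) (nat_lit 5) (nat_lit 39) (nat_lit 4) (nat_lit 340) (nat_lit 269) (nat_lit 255)) (XT.nd (nat_lit 94) (nat_lit 252) (nat_lit 0) (XT.lf (nat_lit 0) (nat_lit 3599766834) (nat_lit 336) (nat_lit 4425585686) (nat_lit 84) (nat_lit 3005811077) (nat_lit 38) (nat_lit 5) (nat_lit 42) (nat_lit 5) (nat_lit 39) (nat_lit 4) (nat_lit 341) (nat_lit 269)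 (nat_lit 254)) (XT.lf (nat_lit 0) (nat_lit 498014744) (nat_lit 252) (nat_lit 5825137592) (nat_lit 336) (nat_lit 4929222760) (nat_lit 35) (nat_lit 5) (nat_lit 38) (nat_lit 5) (nat_lit 39) (nat_lit 4) (nat_lit 342) (nat_lit 269) (nat_lit 253))))) (XT.nd (nat_lit 282) (nat_lit 168) (nat_lit 0) (XT.nd (nat_lit 94) (nat_lit 336) (nat_lit 0) (XT.lf (nat_lit 0) (nat_lit 5582247449) (nat_lit 252) (nat_lit 3534385494) (nat_lit 336) (nat_lit 2364422477) (nat_lit 35) (nat_lit 5) (nat_lit 38) (nat_lit 5) (nat_lit 39) (nat_lit 4) (nat_lit 343) (nat_lit 269) (nat_lit 252)) (XT.nd (nat_lit 94) (nat_lit 252) (nat_lit 0) (XT.lf (nat_lit 0) (nat_lit 214784301) (nat_lit 336) (nat_lit 980128833) (nat_lit 84) (nat_lit 10523826137) (nat_lit 34) (nat_lit 5) (nat_lit 38) (nat_lit 5) (nat_lit 35) (nat_lit 5) (nat_lit 344) (nat_lit 269) (nat_lit 251)) (XT.lf (nat_lit 0) (nat_lit 2819990335) (nat_lit 336) (nat_lit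 7909515493) (nat_lit 84) (nat_lit 1233838349) (nat_lit 31) (nat_lit 5) (nat_lit 35) (nat_lit 5) (nat_lit 32) (nat_lit 4) (nat_lit 345) (nat_lit 269) (nat_lit 250)))) (XT.nd (nat_lit 94) (nat_lit 168) (nat_lit 0) (XT.lf (nat_lit 0) (nat_lit 5471524007) (nat_lit 336) (nat_lit 3045830976) (nat_lit 84) (nat_lit 3699392137) (nat_lit 31) (nat_lit 5) (nat_lit 35) (nat_lit 5) (nat_lit 32) (nat_lit 4) (nat_lit 346) (nat_lit 269) (nat_lit 249)) (XT.nd (nat_lit 94) (nat_lit 0) (nat_lit 0) (XT.lf (nat_lit 0) (nat_lit 1927038544) (nat_lit 168) (nat_lit 6242056644) (nat_lit 252) (nat_lit 4310174724) (nat_lit 29) (nat_lit 5) (nat_lit 31) (nat_lit 5) (nat_lit 32) (nat_lit 4) (nat_lit 347) (nat_lit 269) (nat_lit 248)) (XT.lf (nat_lit 0) (nat_lit 7039036416) (nat_lit 168) (nat_lit 3888642793) (nat_lit 252) (nat_lit 1823091754) (nat_lit 29) (nat_lit 5) (nat_lit 31) (nat_lit 5) (nat_lit 32) (nat_lit 4) (nat_lit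 348) (nat_lit 269) (nat_lit 247))))))))
noncomputable def xc14 : XT := (XT.nd (nat_lit 1974) (nat_lit 336) (nat_lit 0) (XT.nd (nat_lit 940) (nat_lit 336) (nat_lit 0) (XT.nd (nat_lit 470) (nat_lit 420) (nat_lit 0) (XT.nd (nat_lit 188) (nat_lit 168) (nat_lit 0) (XT.nd (nat_lit 94) (nat_lit 252) (nat_lit 0) (XT.lf (nat_lit 0) (nat_lit 672719300) (nat_lit 252) (nat_lit 806970920) (nat_lit 84) (nat_lit 11552557914) (nat_lit 28) (nat_lit 5) (nat_lit 31) (nat_lit 5) (nat_lit 29) (nat_lit 5) (nat_lit 349) (nat_lit 269) (nat_lit 246)) (XT.lf (nat_lit 0) (nat_lit 3208603728) (nat_lit 336) (nat_lit 9092088693) (nat_lit 84) (nat_lit 1021289796) (nat_lit 25) (nat_lit 5) (nat_lit 29) (nat_lit 5) (nat_lit 26) (nat_lit 4) (nat_lit 350) (nat_lit 269) (nat_lit 245))) (XT.nd (nat_lit 94) (nat_lit 168) (nat_lit 0) (XT.lf (nat_lit 0) (nat_lit 5795480796) (nat_lit 336) (nat_lit 4272420788) (nat_lit 84) (nat_lit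 3553775782) (nat_lit 25) (nat_lit 5) (nat_lit 29) (nat_lit 5) (nat_lit 26) (nat_lit 4) (nat_lit 351) (nat_lit 269) (nat_lit 244)) (XT.nd (nat_lit 94) (nat_lit 0) (nat_lit 0) (XT.lf (nat_lit 0) (nat_lit 634986689) (nat_lit 168) (nat_lit 7784142077) (nat_lit 252) (nat_lit 5512999784) (nat_lit 23) (nat_lit 5) (nat_lit 25) (nat_lit 5) (nat_lit 26) (nat_lit 4) (nat_lit 352) (nat_lit 269) (nat_lit 243)) (XT.lf (nat_lit 0) (nat_lit 5711387052) (nat_lit 168) (nat_lit 5408360458) (nat_lit 252) (nat_lit 3132707246) (nat_lit 23) (nat_lit 5) (nat_lit 25) (nat_lit 5) (nat_lit 26) (nat_lit 4) (nat_lit 353) (nat_lit 269) (nat_lit 242))))) (XT.nd (nat_lit 188) (nat_lit 168) (nat_lit 0) (XT.nd (nat_lit 94) (nat_lit 252) (nat_lit 0) (XT.lf (nat_lit 0) (nat_lit 10873662303) (nat_lit 168) (nat_lit 2982937560) (nat_lit 252) (nat_lit 727695587) (nat_lit 23) (nat_lit 5) (nat_lit 25) (nat_lit 5) (nat_lit 26) (nat_lit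 4) (nat_lit 354) (nat_lit 269) (nat_lit 241)) (XT.lf (nat_lit 0) (nat_lit 1206057004) (nat_lit 168) (nat_lit 475846764) (nat_lit 252) (nat_lit 13245161178) (nat_lit 20) (nat_lit 5) (nat_lit 22) (nat_lit 5) (nat_lit 23) (nat_lit 5) (nat_lit 355) (nat_lit 269) (nat_lit 240))) (XT.nd (nat_lit 94) (nat_lit 168) (nat_lit 0) (XT.lf (nat_lit 0) (nat_lit 4164972910) (nat_lit 252) (nat_lit 9025177508) (nat_lit 84) (nat_lit 2089751115) (nat_lit 20) (nat_lit 5) (nat_lit 23) (nat_lit 5) (nat_lit 21) (nat_lit 4) (nat_lit 356) (nat_lit 269) (nat_lit 239)) (XT.nd (nat_lit 94) (nat_lit 168) (nat_lit 0) (XT.lf (nat_lit 0) (nat_lit 6685111381) (nat_lit 252) (nat_lit 4257494707) (nat_lit 84) (nat_lit 4702406458) (nat_lit 20) (nat_lit 5) (nat_lit 23) (nat_lit 5) (nat_lit 21) (nat_lit 4) (nat_lit 357) (nat_lit 269) (nat_lit 238)) (XT.lf (nat_lit 0) (nat_lit 603361283) (nat_lit 168) (nat_lit 8642571889) (nat_lit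 252) (nat_lit 6776765919) (nat_lit 18) (nat_lit 5) (nat_lit 20) (nat_lit 5) (nat_lit 21) (nat_lit 4) (nat_lit 358) (nat_lit 269) (nat_lit 237)))))) (XT.nd (nat_lit 470) (nat_lit 84) (nat_lit 0) (XT.nd (nat_lit 188) (nat_lit 252) (nat_lit 0) (XT.nd (nat_lit 94) (nat_lit 0) (nat_lit 0) (XT.lf (nat_lit 0) (nat_lit 5639055201) (nat_lit 168) (nat_lit 6248748329) (nat_lit 252) (nat_lit 4524332356) (nat_lit 18) (nat_lit 5) (nat_lit 20) (nat_lit 5) (nat_lit 21) (nat_lit 4) (nat_lit 359) (nat_lit 269) (nat_lit 236)) (XT.lf (nat_lit 0) (nat_lit 10766738016) (nat_lit 168) (nat_lit 3803343627) (nat_lit 252) (nat_lit 2244940484) (nat_lit 18) (nat_lit 5) (nat_lit 20) (nat_lit 5) (nat_lit 21) (nat_lit 4) (nat_lit 360) (nat_lit 269) (nat_lit 235))) (XT.nd (nat_lit 94) (nat_lit 168) (nat_lit 0) (XT.lf (nat_lit 0) (nat_lit 62254251) (nat_lit 252) (nat_lit 1241174353) (nat_lit 84) (nat_lit 15928285208) (nat_lit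 17) (nat_lit 5) (nat_lit 20) (nat_lit 5) (nat_lit 18) (nat_lit 5) (nat_lit 361) (nat_lit 269) (nat_lit 234)) (XT.nd (nat_lit 94) (nat_lit 0) (nat_lit 0) (XT.lf (nat_lit 0) (nat_lit 2404615798) (nat_lit 252) (nat_lit 13968376478) (nat_lit 84) (nat_lit 1287383089) (nat_lit 15) (nat_lit 5) (nat_lit 18) (nat_lit 5) (nat_lit 16) (nat_lit 4) (nat_lit 362) (nat_lit 269) (nat_lit 233)) (XT.lf (nat_lit 0) (nat_lit 4806865957) (nat_lit 252) (nat_lit 9372642068) (nat_lit 84) (nat_lit 3923292146) (nat_lit 15) (nat_lit 5) (nat_lit 18) (nat_lit 5) (nat_lit 16) (nat_lit 4) (nat_lit 363) (nat_lit 269) (nat_lit 232))))) (XT.nd (nat_lit 282) (nat_lit 0) (nat_lit 0) (XT.nd (nat_lit 94) (nat_lit 84) (nat_lit 0) (XT.lf (nat_lit 0) (nat_lit 7245619409) (nat_lit 252) (nat_lit 4694253168) (nat_lit 84) (nat_lit 6620322398) (nat_lit 15) (nat_lit 5) (nat_lit 18) (nat_lit 5) (nat_lit 16) (nat_lit 4) (nat_lit 364) (nat_lit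 269) (nat_lit 231)) (XT.nd (nat_lit 94) (nat_lit 0) (nat_lit 0) (XT.lf (nat_lit 0) (nat_lit 72613979) (nat_lit 84) (nat_lit 9651255689) (nat_lit 168) (nat_lit 9309094118) (nat_lit 14) (nat_lit 5) (nat_lit 15) (nat_lit 5) (nat_lit 16) (nat_lit 4) (nat_lit 365) (nat_lit 269) (nat_lit 230)) (XT.lf (nat_lit 0) (nat_lit 5029342238) (nat_lit 84) (nat_lit 7262314492) (nat_lit 168) (nat_lit 7228410914) (nat_lit 14) (nat_lit 5) (nat_lit 15) (nat_lit 5) (nat_lit 16) (nat_lit 4) (nat_lit 366) (nat_lit 269) (nat_lit 229)))) (XT.nd (nat_lit 94) (nat_lit 0) (nat_lit 0) (XT.lf (nat_lit 0) (nat_lit 10084028327) (nat_lit 84) (nat_lit 4819820618) (nat_lit 168) (nat_lit 5119584915) (nat_lit 14) (nat_lit 5) (nat_lit 15) (nat_lit 5) (nat_lit 16) (nat_lit 4) (nat_lit 367) (nat_lit 269) (nat_lit 228)) (XT.nd (nat_lit 94) (nat_lit 0) (nat_lit 0) (XT.lf (nat_lit 0) (nat_lit 15241383742) (nat_lit 84) (nat_lit 2321497406)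 (nat_lit 168) (nat_lit 2980650474) (nat_lit 14) (nat_lit 5) (nat_lit 15) (nat_lit 5) (nat_lit 16) (nat_lit 4) (nat_lit 368) (nat_lit 269) (nat_lit 227)) (XT.lf (nat_lit 0) (nat_lit 20273562906) (nat_lit 168) (nat_lit 576961107) (nat_lit 0) (nat_lit 230249440) (nat_lit 14) (nat_lit 5) (nat_lit 16) (nat_lit 4) (nat_lit 14) (nat_lit 4) (nat_lit 369) (nat_lit 269) (nat_lit 226))))))) (XT.nd (nat_lit 50478) (nat_lit 0) (nat_lit 2352) (XT.nd (nat_lit 49914) (nat_lit 0) (nat_lit 4452) (XT.nd (nat_lit 188) (nat_lit 84) (nat_lit 0) (XT.nd (nat_lit 94) (nat_lit 0) (nat_lit 0) (XT.lf (nat_lit 0) (nat_lit 1439166051) (nat_lit 252) (nat_lit 17342227012) (nat_lit 84) (nat_lit 2851830973) (nat_lit 11) (nat_lit 5) (nat_lit 14) (nat_lit 5) (nat_lit 12) (nat_lit 4) (nat_lit 370) (nat_lit 269) (nat_lit 225)) (XT.lf (nat_lit 0) (nat_lit 3712271331) (nat_lit 252) (nat_lit 12940739128) (nat_lit 84) (nat_lit 5550405571)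 (nat_lit 11) (nat_lit 5) (nat_lit 14) (nat_lit 5) (nat_lit 12) (nat_lit 4) (nat_lit 371) (nat_lit 269) (nat_lit 224))) (XT.nd (nat_lit 94) (nat_lit 84) (nat_lit 0) (XT.lf (nat_lit 0) (nat_lit 6024586603) (nat_lit 252) (nat_lit 8453145473) (nat_lit 84) (nat_lit 8314580005) (nat_lit 11) (nat_lit 5) (nat_lit 14) (nat_lit 5) (nat_lit 12) (nat_lit 4) (nat_lit 372) (nat_lit 269) (nat_lit 223)) (XT.nd (nat_lit 94) (nat_lit 84) (nat_lit 0) (XT.lf (nat_lit 0) (nat_lit 8378267185) (nat_lit 252) (nat_lit 3875263141) (nat_lit 84) (nat_lit 11146930777) (nat_lit 11) (nat_lit 5) (nat_lit 14) (nat_lit 5) (nat_lit 12) (nat_lit 4) (nat_lit 373) (nat_lit 269) (nat_lit 222)) (XT.lf (nat_lit 0) (nat_lit 813566485) (nat_lit 84) (nat_lit 9970011151) (nat_lit 168) (nat_lit 13244602127) (nat_lit 10) (nat_lit 5) (nat_lit 11) (nat_lit 5) (nat_lit 12) (nat_lit 4) (nat_lit 374) (nat_lit 269) (nat_lit 221))))) (XT.nd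 (nat_lit 282) (nat_lit 924) (nat_lit 0) (XT.nd (nat_lit 94) (nat_lit 504) (nat_lit 0) (XT.lf (nat_lit 0) (nat_lit 1639081386) (nat_lit 504) (nat_lit 868628498) (nat_lit 0) (nat_lit 1639081386) (nat_lit 80) (nat_lit 5) (nat_lit 86) (nat_lit 4) (nat_lit 80) (nat_lit 4) (nat_lit 324) (nat_lit 270) (nat_lit 270)) (XT.nd (nat_lit 94) (nat_lit 84) (nat_lit 0) (XT.lf (nat_lit 0) (nat_lit 3005808973) (nat_lit 420) (nat_lit 3261297981) (nat_lit 420) (nat_lit 2142406745) (nat_lit 75) (nat_lit 4) (nat_lit 80) (nat_lit 5) (nat_lit 80) (nat_lit 4) (nat_lit 325) (nat_lit 270) (nat_lit 269)) (XT.lf (nat_lit 0) (nat_lit 739382832) (nat_lit 504) (nat_lit 702453234) (nat_lit 84) (nat_lit 7089235143) (nat_lit 74) (nat_lit 5) (nat_lit 80) (nat_lit 5) (nat_lit 75) (nat_lit 4) (nat_lit 326) (nat_lit 270) (nat_lit 268)))) (XT.nd (nat_lit 94) (nat_lit 504) (nat_lit 0) (XT.lf (nat_lit 0) (nat_lit 3631943623) (nat_lit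 504) (nat_lit 4552018085) (nat_lit 0) (nat_lit 473110295) (nat_lit 69) (nat_lit 5) (nat_lit 75) (nat_lit 4) (nat_lit 69) (nat_lit 4) (nat_lit 327) (nat_lit 270) (nat_lit 267)) (XT.nd (nat_lit 94) (nat_lit 84) (nat_lit 0) (XT.lf (nat_lit 0) (nat_lit 181545309) (nat_lit 420) (nat_lit 6378255430) (nat_lit 420) (nat_lit 2229153040) (nat_lit 64) (nat_lit 4) (nat_lit 69) (nat_lit 5) (nat_lit 69) (nat_lit 4) (nat_lit 328) (nat_lit 270) (nat_lit 266)) (XT.lf (nat_lit 0) (nat_lit 610343538) (nat_lit 504) (nat_lit 3869988418) (nat_lit 84) (nat_lit 4445592828) (nat_lit 63) (nat_lit 5) (nat_lit 69) (nat_lit 5) (nat_lit 64) (nat_lit 4) (nat_lit 329) (nat_lit 270) (nat_lit 265)))))) (XT.nd (nat_lit 470) (nat_lit 1008) (nat_lit 0) (XT.nd (nat_lit 188) (nat_lit 756) (nat_lit 0) (XT.nd (nat_lit 94) (nat_lit 0) (nat_lit 0) (XT.lf (nat_lit 0) (nat_lit 914952833) (nat_lit 336) (nat_lit 2510041115) (nat_lit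 420) (nat_lit 5643768780) (nat_lit 59) (nat_lit 5) (nat_lit 63) (nat_lit 5) (nat_lit 64) (nat_lit 4) (nat_lit 330) (nat_lit 270) (nat_lit 264)) (XT.lf (nat_lit 0) (nat_lit 5836256422) (nat_lit 336) (nat_lit 456736371) (nat_lit 420) (nat_lit 2924343055) (nat_lit 59) (nat_lit 5) (nat_lit 63) (nat_lit 5) (nat_lit 64) (nat_lit 4) (nat_lit 331) (nat_lit 270) (nat_lit 263))) (XT.nd (nat_lit 94) (nat_lit 420) (nat_lit 0) (XT.lf (nat_lit 0) (nat_lit 1459054163) (nat_lit 336) (nat_lit 7749532958) (nat_lit 336) (nat_lit 163456725) (nat_lit 55) (nat_lit 4) (nat_lit 59) (nat_lit 5) (nat_lit 59) (nat_lit 4) (nat_lit 332) (nat_lit 270) (nat_lit 262)) (XT.nd (nat_lit 94) (nat_lit 336) (nat_lit 0) (XT.lf (nat_lit 0) (nat_lit 2597320392) (nat_lit 420) (nat_lit 3135438562) (nat_lit 84) (nat_lit 3799178289) (nat_lit 54) (nat_lit 5) (nat_lit 59) (nat_lit 5) (nat_lit 55) (nat_lit 4) (nat_lit 333) (nat_lit 270)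 (nat_lit 261)) (XT.lf (nat_lit 0) (nat_lit 1732029509) (nat_lit 336) (nat_lit 3655638759) (nat_lit 420) (nat_lit 4310925082) (nat_lit 50) (nat_lit 5) (nat_lit 54) (nat_lit 5) (nat_lit 55) (nat_lit 4) (nat_lit 334) (nat_lit 270) (nat_lit 260))))) (XT.nd (nat_lit 282) (nat_lit 588) (nat_lit 0) (XT.nd (nat_lit 94) (nat_lit 420) (nat_lit 0) (XT.lf (nat_lit 0) (nat_lit 6726372313) (nat_lit 336) (nat_lit 1502273364) (nat_lit 420) (nat_lit 1643101993) (nat_lit 50) (nat_lit 5) (nat_lit 54) (nat_lit 5) (nat_lit 55) (nat_lit 4) (nat_lit 335) (nat_lit 270) (nat_lit 259)) (XT.nd (nat_lit 94) (nat_lit 0) (nat_lit 0) (XT.lf (nat_lit 0) (nat_lit 1042343678) (nat_lit 420) (nat_lit 8298486154) (nat_lit 84) (nat_lit 710632027) (nat_lit 45) (nat_lit 5) (nat_lit 50) (nat_lit 5) (nat_lit 46) (nat_lit 4) (nat_lit 336) (nat_lit 270) (nat_lit 258)) (XT.lf (nat_lit 0) (nat_lit 3758943061) (nat_lit 420) (nat_lit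 3488868464) (nat_lit 84) (nat_lit 2989172214) (nat_lit 45) (nat_lit 5) (nat_lit 50) (nat_lit 5) (nat_lit 46) (nat_lit 4) (nat_lit 337) (nat_lit 270) (nat_lit 257)))) (XT.nd (nat_lit 94) (nat_lit 336) (nat_lit 0) (XT.lf (nat_lit 0) (nat_lit 1410497151) (nat_lit 252) (nat_lit 5098755780) (nat_lit 336) (nat_lit 3920764084) (nat_lit 42) (nat_lit 5) (nat_lit 45) (nat_lit 5) (nat_lit 46) (nat_lit 4) (nat_lit 338) (nat_lit 270) (nat_lit 256)) (XT.nd (nat_lit 94) (nat_lit 336) (nat_lit 0) (XT.lf (nat_lit 0) (nat_lit 6448825260) (nat_lit 252) (nat_lit 2868994789) (nat_lit 336) (nat_lit 1312240087) (nat_lit 42) (nat_lit 5) (nat_lit 45) (nat_lit 5) (nat_lit 46) (nat_lit 4) (nat_lit 339) (nat_lit 270) (nat_lit 255)) (XT.lf (nat_lit 0) (nat_lit 722199456) (nat_lit 252) (nat_lit 572045924) (nat_lit 336) (nat_lit 9543523113) (nat_lit 38) (nat_lit 5) (nat_lit 41) (nat_lit 5) (nat_lit 42) (nat_lit 5) (nat_lit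 340) (nat_lit 270) (nat_lit 254))))))))
noncomputable def xc15 : XT := (XT.nd (nat_lit 1974) (nat_lit 588) (nat_lit 0) (XT.nd (nat_lit 940) (nat_lit 588) (nat_lit 0) (XT.nd (nat_lit 470) (nat_lit 504) (nat_lit 0) (XT.nd (nat_lit 188) (nat_lit 588) (nat_lit 0) (XT.nd (nat_lit 94) (nat_lit 0) (nat_lit 0) (XT.lf (nat_lit 0) (nat_lit 3954658695) (nat_lit 336) (nat_lit 5302664904) (nat_lit 84) (nat_lit 1794336438) (nat_lit 38) (nat_lit 5) (nat_lit 42) (nat_lit 5) (nat_lit 39) (nat_lit 4) (nat_lit 341) (nat_lit 270) (nat_lit 253)) (XT.lf (nat_lit 0) (nat_lit 6643722960) (nat_lit 336) (nat_lit 430501788) (nat_lit 84) (nat_lit 4199792994) (nat_lit 38) (nat_lit 5) (nat_lit 42) (nat_lit 5) (nat_lit 39) (nat_lit 4) (nat_lit 342) (nat_lit 270) (nat_lit 252))) (XT.nd (nat_lit 94) (nat_lit 336) (nat_lit 0) (XT.lf (nat_lit 0) (nat_lit 4603894662) (nat_lit 252) (nat_lit 4800046443) (nat_lit 336) (nat_lit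 2099867871) (nat_lit 35) (nat_lit 5) (nat_lit 38) (nat_lit 5) (nat_lit 39) (nat_lit 4) (nat_lit 343) (nat_lit 270) (nat_lit 251)) (XT.nd (nat_lit 94) (nat_lit 252) (nat_lit 0) (XT.lf (nat_lit 0) (nat_lit 445611240) (nat_lit 336) (nat_lit 2024270493) (nat_lit 84) (nat_lit 9272485107) (nat_lit 34) (nat_lit 5) (nat_lit 38) (nat_lit 5) (nat_lit 35) (nat_lit 5) (nat_lit 344) (nat_lit 270) (nat_lit 250)) (XT.lf (nat_lit 0) (nat_lit 2961094292) (nat_lit 252) (nat_lit 38720027) (nat_lit 336) (nat_lit 8988811310) (nat_lit 31) (nat_lit 5) (nat_lit 34) (nat_lit 5) (nat_lit 35) (nat_lit 5) (nat_lit 345) (nat_lit 270) (nat_lit 249))))) (XT.nd (nat_lit 188) (nat_lit 336) (nat_lit 0) (XT.nd (nat_lit 94) (nat_lit 168) (nat_lit 0) (XT.lf (nat_lit 0) (nat_lit 5623747491) (nat_lit 336) (nat_lit 4203056386) (nat_lit 84) (nat_lit 2416150916) (nat_lit 31) (nat_lit 5) (nat_lit 35) (nat_lit 5) (nat_lit 32) (nat_lit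 4) (nat_lit 346) (nat_lit 270) (nat_lit 248)) (XT.lf (nat_lit 0) (nat_lit 706825385) (nat_lit 168) (nat_lit 7575990567) (nat_lit 252) (nat_lit 4223923697) (nat_lit 29) (nat_lit 5) (nat_lit 31) (nat_lit 5) (nat_lit 32) (nat_lit 4) (nat_lit 347) (nat_lit 270) (nat_lit 247))) (XT.nd (nat_lit 94) (nat_lit 336) (nat_lit 0) (XT.lf (nat_lit 0) (nat_lit 5780808881) (nat_lit 168) (nat_lit 5234609664) (nat_lit 252) (nat_lit 1763694001) (nat_lit 29) (nat_lit 5) (nat_lit 31) (nat_lit 5) (nat_lit 32) (nat_lit 4) (nat_lit 348) (nat_lit 270) (nat_lit 246)) (XT.nd (nat_lit 94) (nat_lit 252) (nat_lit 0) (XT.lf (nat_lit 0) (nat_lit 705399235) (nat_lit 252) (nat_lit 2131587887) (nat_lit 84) (nat_lit 10224437969) (nat_lit 28) (nat_lit 5) (nat_lit 31) (nat_lit 5) (nat_lit 29) (nat_lit 5) (nat_lit 349) (nat_lit 270) (nat_lit 245)) (XT.lf (nat_lit 0) (nat_lit 2851620505) (nat_lit 252) (nat_lit 340791406) (nat_lit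 336) (nat_lit 10160322897) (nat_lit 25) (nat_lit 5) (nat_lit 28) (nat_lit 5) (nat_lit 29) (nat_lit 5) (nat_lit 350) (nat_lit 270) (nat_lit 244)))))) (XT.nd (nat_lit 470) (nat_lit 336) (nat_lit 0) (XT.nd (nat_lit 188) (nat_lit 252) (nat_lit 0) (XT.nd (nat_lit 94) (nat_lit 0) (nat_lit 0) (XT.lf (nat_lit 0) (nat_lit 5751427029) (nat_lit 336) (nat_lit 5714729269) (nat_lit 84) (nat_lit 2187196164) (nat_lit 25) (nat_lit 5) (nat_lit 29) (nat_lit 5) (nat_lit 26) (nat_lit 4) (nat_lit 351) (nat_lit 270) (nat_lit 243)) (XT.lf (nat_lit 0) (nat_lit 8345030696) (nat_lit 336) (nat_lit 855676527) (nat_lit 84) (nat_lit 4764084815) (nat_lit 25) (nat_lit 5) (nat_lit 29) (nat_lit 5) (nat_lit 26) (nat_lit 4) (nat_lit 352) (nat_lit 270) (nat_lit 242))) (XT.nd (nat_lit 94) (nat_lit 84) (nat_lit 0) (XT.lf (nat_lit 0) (nat_lit 4167928227) (nat_lit 168) (nat_lit 6845677866) (nat_lit 252) (nat_lit 3272560799) (nat_lit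 23) (nat_lit 5) (nat_lit 25) (nat_lit 5) (nat_lit 26) (nat_lit 4) (nat_lit 353) (nat_lit 270) (nat_lit 241)) (XT.nd (nat_lit 94) (nat_lit 84) (nat_lit 0) (XT.lf (nat_lit 0) (nat_lit 9296060759) (nat_lit 168) (nat_lit 4431720296) (nat_lit 252) (nat_lit 890983171) (nat_lit 23) (nat_lit 5) (nat_lit 25) (nat_lit 5) (nat_lit 26) (nat_lit 4) (nat_lit 354) (nat_lit 270) (nat_lit 240)) (XT.lf (nat_lit 0) (nat_lit 1487670359) (nat_lit 252) (nat_lit 462317374) (nat_lit 84) (nat_lit 13012707975) (nat_lit 22) (nat_lit 5) (nat_lit 25) (nat_lit 5) (nat_lit 23) (nat_lit 5) (nat_lit 355) (nat_lit 270) (nat_lit 239))))) (XT.nd (nat_lit 282) (nat_lit 168) (nat_lit 0) (XT.nd (nat_lit 94) (nat_lit 0) (nat_lit 0) (XT.lf (nat_lit 0) (nat_lit 3929342808) (nat_lit 252) (nat_lit 10758062744) (nat_lit 84) (nat_lit 629458987) (nat_lit 20) (nat_lit 5) (nat_lit 23) (nat_lit 5) (nat_lit 21) (nat_lit 4) (nat_lit 356)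 (nat_lit 270) (nat_lit 238)) (XT.nd (nat_lit 94) (nat_lit 0) (nat_lit 0) (XT.lf (nat_lit 0) (nat_lit 6428099501) (nat_lit 252) (nat_lit 6023260968) (nat_lit 84) (nat_lit 3231325392) (nat_lit 20) (nat_lit 5) (nat_lit 23) (nat_lit 5) (nat_lit 21) (nat_lit 4) (nat_lit 357) (nat_lit 270) (nat_lit 237)) (XT.lf (nat_lit 0) (nat_lit 8962197002) (nat_lit 252) (nat_lit 1206453723) (nat_lit 84) (nat_lit 5892596182) (nat_lit 20) (nat_lit 5) (nat_lit 23) (nat_lit 5) (nat_lit 21) (nat_lit 4) (nat_lit 358) (nat_lit 270) (nat_lit 236)))) (XT.nd (nat_lit 94) (nat_lit 0) (nat_lit 0) (XT.lf (nat_lit 0) (nat_lit 3772863551) (nat_lit 168) (nat_lit 7798561077) (nat_lit 252) (nat_lit 4880315662) (nat_lit 18) (nat_lit 5) (nat_lit 20) (nat_lit 5) (nat_lit 21) (nat_lit 4) (nat_lit 359) (nat_lit 270) (nat_lit 235)) (XT.nd (nat_lit 94) (nat_lit 0) (nat_lit 0) (XT.lf (nat_lit 0) (nat_lit 8869926114) (nat_lit 168) (nat_lit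 5363962398) (nat_lit 252) (nat_lit 2621395581) (nat_lit 18) (nat_lit 5) (nat_lit 20) (nat_lit 5) (nat_lit 21) (nat_lit 4) (nat_lit 360) (nat_lit 270) (nat_lit 234)) (XT.lf (nat_lit 0) (nat_lit 14064677798) (nat_lit 168) (nat_lit 2875178290) (nat_lit 252) (nat_lit 332777017) (nat_lit 18) (nat_lit 5) (nat_lit 20) (nat_lit 5) (nat_lit 21) (nat_lit 4) (nat_lit 361) (nat_lit 270) (nat_lit 233))))))) (XT.nd (nat_lit 1034) (nat_lit 0) (nat_lit 0) (XT.nd (nat_lit 470) (nat_lit 252) (nat_lit 0) (XT.nd (nat_lit 188) (nat_lit 84) (nat_lit 0) (XT.nd (nat_lit 94) (nat_lit 0) (nat_lit 0) (XT.lf (nat_lit 0) (nat_lit 1671748356) (nat_lit 168) (nat_lit 292461670) (nat_lit 252) (nat_lit 15738840953) (nat_lit 15) (nat_lit 5) (nat_lit 17) (nat_lit 5) (nat_lit 18) (nat_lit 5) (nat_lit 362) (nat_lit 270) (nat_lit 232)) (XT.lf (nat_lit 0) (nat_lit 4344865448) (nat_lit 252) (nat_lit 11462117118) (nat_lit 84) (nat_lit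 2339200996) (nat_lit 15) (nat_lit 5) (nat_lit 18) (nat_lit 5) (nat_lit 16) (nat_lit 4) (nat_lit 363) (nat_lit 270) (nat_lit 231))) (XT.nd (nat_lit 94) (nat_lit 84) (nat_lit 0) (XT.lf (nat_lit 0) (nat_lit 6765487492) (nat_lit 252) (nat_lit 6812292875) (nat_lit 84) (nat_lit 5026397260) (nat_lit 15) (nat_lit 5) (nat_lit 18) (nat_lit 5) (nat_lit 16) (nat_lit 4) (nat_lit 364) (nat_lit 270) (nat_lit 230)) (XT.nd (nat_lit 94) (nat_lit 84) (nat_lit 0) (XT.lf (nat_lit 0) (nat_lit 9225431177) (nat_lit 252) (nat_lit 2074594515) (nat_lit 84) (nat_lit 7777524319) (nat_lit 15) (nat_lit 5) (nat_lit 18) (nat_lit 5) (nat_lit 16) (nat_lit 4) (nat_lit 365) (nat_lit 270) (nat_lit 229)) (XT.lf (nat_lit 0) (nat_lit 2812050544) (nat_lit 84) (nat_lit 8942834772) (nat_lit 168) (nat_lit 7810991858) (nat_lit 14) (nat_lit 5) (nat_lit 15) (nat_lit 5) (nat_lit 16) (nat_lit 4) (nat_lit 366) (nat_lit 270) (nat_lit 228)))))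 (XT.nd (nat_lit 282) (nat_lit 252) (nat_lit 0) (XT.nd (nat_lit 94) (nat_lit 0) (nat_lit 0) (XT.lf (nat_lit 0) (nat_lit 7840135971) (nat_lit 84) (nat_lit 6510133105) (nat_lit 168) (nat_lit 5719529307) (nat_lit 14) (nat_lit 5) (nat_lit 15) (nat_lit 5) (nat_lit 16) (nat_lit 4) (nat_lit 367) (nat_lit 270) (nat_lit 227)) (XT.nd (nat_lit 94) (nat_lit 0) (nat_lit 0) (XT.lf (nat_lit 0) (nat_lit 12971690551) (nat_lit 84) (nat_lit 4021307670) (nat_lit 168) (nat_lit 3597436233) (nat_lit 14) (nat_lit 5) (nat_lit 15) (nat_lit 5) (nat_lit 16) (nat_lit 4) (nat_lit 368) (nat_lit 270) (nat_lit 226)) (XT.lf (nat_lit 0) (nat_lit 18211497430) (nat_lit 84) (nat_lit 1474038620) (nat_lit 168) (nat_lit 1442734620) (nat_lit 14) (nat_lit 5) (nat_lit 15) (nat_lit 5) (nat_lit 16) (nat_lit 4) (nat_lit 369) (nat_lit 270) (nat_lit 225)))) (XT.nd (nat_lit 94) (nat_lit 0) (nat_lit 0) (XT.lf (nat_lit 0) (nat_lit 762026278)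 (nat_lit 252) (nat_lit 19782767000) (nat_lit 84) (nat_lit 1137840467) (nat_lit 11) (nat_lit 5) (nat_lit 14) (nat_lit 5) (nat_lit 12) (nat_lit 4) (nat_lit 370) (nat_lit 270) (nat_lit 224)) (XT.nd (nat_lit 94) (nat_lit 0) (nat_lit 0) (XT.lf (nat_lit 0) (nat_lit 3019741961) (nat_lit 252) (nat_lit 15406065110) (nat_lit 84) (nat_lit 3827524875) (nat_lit 11) (nat_lit 5) (nat_lit 14) (nat_lit 5) (nat_lit 12) (nat_lit 4) (nat_lit 371) (nat_lit 270) (nat_lit 223)) (XT.lf (nat_lit 0) (nat_lit 5317130367) (nat_lit 252) (nat_lit 10942512187) (nat_lit 84) (nat_lit 6583076429) (nat_lit 11) (nat_lit 5) (nat_lit 14) (nat_lit 5) (nat_lit 12) (nat_lit 4) (nat_lit 372) (nat_lit 270) (nat_lit 222)))))) (XT.nd (nat_lit 49726) (nat_lit 0) (nat_lit 4032) (XT.nd (nat_lit 49444) (nat_lit 0) (nat_lit 5796) (XT.nd (nat_lit 94) (nat_lit 0) (nat_lit 0) (XT.lf (nat_lit 0) (nat_lit 7656332905) (nat_lit 252) (nat_lit 6387947733)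 (nat_lit 84) (nat_lit 9407063592) (nat_lit 11) (nat_lit 5) (nat_lit 14) (nat_lit 5) (nat_lit 12) (nat_lit 4) (nat_lit 373) (nat_lit 270) (nat_lit 221)) (XT.lf (nat_lit 0) (nat_lit 10039529954) (nat_lit 252) (nat_lit 1738126414) (nat_lit 84) (nat_lit 12302118614) (nat_lit 11) (nat_lit 5) (nat_lit 14) (nat_lit 5) (nat_lit 12) (nat_lit 4) (nat_lit 374) (nat_lit 270) (nat_lit 220))) (XT.nd (nat_lit 94) (nat_lit 504) (nat_lit 0) (XT.lf (nat_lit 0) (nat_lit 2631661408) (nat_lit 504) (nat_lit 703039309) (nat_lit 504) (nat_lit 703039309) (nat_lit 86) (nat_lit 4) (nat_lit 92) (nat_lit 5) (nat_lit 92) (nat_lit 4) (nat_lit 322) (nat_lit 271) (nat_lit 271)) (XT.nd (nat_lit 94) (nat_lit 0) (nat_lit 0) (XT.lf (nat_lit 0) (nat_lit 1481591996) (nat_lit 504) (nat_lit 6373430524) (nat_lit 0) (nat_lit 328015131) (nat_lit 80) (nat_lit 5) (nat_lit 86) (nat_lit 4) (nat_lit 80) (nat_lit 4) (nat_lit 323) (nat_lit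 271) (nat_lit 270)) (XT.lf (nat_lit 0) (nat_lit 4391131054) (nat_lit 504) (nat_lit 1785208394) (nat_lit 0) (nat_lit 2118662953) (nat_lit 80) (nat_lit 5) (nat_lit 86) (nat_lit 4) (nat_lit 80) (nat_lit 4) (nat_lit 324) (nat_lit 271) (nat_lit 269))))) (XT.nd (nat_lit 282) (nat_lit 840) (nat_lit 0) (XT.nd (nat_lit 94) (nat_lit 504) (nat_lit 0) (XT.lf (nat_lit 0) (nat_lit 2909405664) (nat_lit 420) (nat_lit 4430325671) (nat_lit 420) (nat_lit 1072609038) (nat_lit 75) (nat_lit 4) (nat_lit 80) (nat_lit 5) (nat_lit 80) (nat_lit 4) (nat_lit 325) (nat_lit 271) (nat_lit 268)) (XT.nd (nat_lit 94) (nat_lit 420) (nat_lit 0) (XT.lf (nat_lit 0) (nat_lit 1748422716) (nat_lit 504) (nat_lit 859287489) (nat_lit 84) (nat_lit 5927220912) (nat_lit 74) (nat_lit 5) (nat_lit 80) (nat_lit 5) (nat_lit 75) (nat_lit 4) (nat_lit 326) (nat_lit 271) (nat_lit 267)) (XT.lf (nat_lit 0) (nat_lit 3903417135) (nat_lit 420) (nat_lit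 692702295) (nat_lit 504) (nat_lit 4066345755) (nat_lit 69) (nat_lit 5) (nat_lit 74) (nat_lit 5) (nat_lit 75) (nat_lit 4) (nat_lit 327) (nat_lit 271) (nat_lit 266)))) (XT.nd (nat_lit 94) (nat_lit 840) (nat_lit 0) (XT.lf (nat_lit 0) (nat_lit 7477897397) (nat_lit 504) (nat_lit 68606205) (nat_lit 0) (nat_lit 1249410015) (nat_lit 69) (nat_lit 5) (nat_lit 75) (nat_lit 4) (nat_lit 69) (nat_lit 4) (nat_lit 328) (nat_lit 271) (nat_lit 265)) (XT.nd (nat_lit 94) (nat_lit 336) (nat_lit 0) (XT.lf (nat_lit 0) (nat_lit 1465177453) (nat_lit 504) (nat_lit 4184325703) (nat_lit 84) (nat_lit 3284407597) (nat_lit 63) (nat_lit 5) (nat_lit 69) (nat_lit 5) (nat_lit 64) (nat_lit 4) (nat_lit 329) (nat_lit 271) (nat_lit 264)) (XT.lf (nat_lit 0) (nat_lit 547863324) (nat_lit 336) (nat_lit 3692198961) (nat_lit 420) (nat_lit 4838045252) (nat_lit 59) (nat_lit 5) (nat_lit 63) (nat_lit 5) (nat_lit 64) (nat_lit 4) (nat_lit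 330) (nat_lit 271) (nat_lit 263))))))))
noncomputable def xc16 : XT := (XT.nd (nat_lit 1974) (nat_lit 1176) (nat_lit 0) (XT.nd (nat_lit 940) (nat_lit 1344) (nat_lit 0) (XT.nd (nat_lit 470) (nat_lit 756) (nat_lit 0) (XT.nd (nat_lit 188) (nat_lit 336) (nat_lit 0) (XT.nd (nat_lit 94) (nat_lit 420) (nat_lit 0) (XT.lf (nat_lit 0) (nat_lit 5424269916) (nat_lit 336) (nat_lit 1648308000) (nat_lit 420) (nat_lit 2155325037) (nat_lit 59) (nat_lit 5) (nat_lit 63) (nat_lit 5) (nat_lit 64) (nat_lit 4) (nat_lit 331) (nat_lit 271) (nat_lit 262)) (XT.lf (nat_lit 0) (nat_lit 541785672) (nat_lit 420) (nat_lit 8395478111) (nat_lit 84) (nat_lit 446874836) (nat_lit 54) (nat_lit 5) (nat_lit 59) (nat_lit 5) (nat_lit 55) (nat_lit 4) (nat_lit 332) (nat_lit 271) (nat_lit 261))) (XT.nd (nat_lit 94) (nat_lit 336) (nat_lit 0) (XT.lf (nat_lit 0) (nat_lit 3264902244) (nat_lit 420) (nat_lit 3664556817) (nat_lit 84) (nat_lit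 2615699684) (nat_lit 54) (nat_lit 5) (nat_lit 59) (nat_lit 5) (nat_lit 55) (nat_lit 4) (nat_lit 333) (nat_lit 271) (nat_lit 260)) (XT.nd (nat_lit 94) (nat_lit 0) (nat_lit 0) (XT.lf (nat_lit 0) (nat_lit 1147478849) (nat_lit 336) (nat_lit 4868638550) (nat_lit 420) (nat_lit 3697018822) (nat_lit 50) (nat_lit 5) (nat_lit 54) (nat_lit 5) (nat_lit 55) (nat_lit 4) (nat_lit 334) (nat_lit 271) (nat_lit 259)) (XT.lf (nat_lit 0) (nat_lit 6098608609) (nat_lit 336) (nat_lit 2725725894) (nat_lit 420) (nat_lit 1063076607) (nat_lit 50) (nat_lit 5) (nat_lit 54) (nat_lit 5) (nat_lit 55) (nat_lit 4) (nat_lit 335) (nat_lit 271) (nat_lit 258))))) (XT.nd (nat_lit 188) (nat_lit 336) (nat_lit 0) (XT.nd (nat_lit 94) (nat_lit 0) (nat_lit 0) (XT.lf (nat_lit 0) (nat_lit 1054311609) (nat_lit 336) (nat_lit 509972259) (nat_lit 420) (nat_lit 8504200209) (nat_lit 45) (nat_lit 5) (nat_lit 49) (nat_lit 5) (nat_lit 50) (nat_lit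 5) (nat_lit 336) (nat_lit 271) (nat_lit 257)) (XT.lf (nat_lit 0) (nat_lit 4244068281) (nat_lit 420) (nat_lit 4242710264) (nat_lit 84) (nat_lit 1768464485) (nat_lit 45) (nat_lit 5) (nat_lit 50) (nat_lit 5) (nat_lit 46) (nat_lit 4) (nat_lit 337) (nat_lit 271) (nat_lit 256))) (XT.nd (nat_lit 94) (nat_lit 84) (nat_lit 0) (XT.lf (nat_lit 0) (nat_lit 598377850) (nat_lit 252) (nat_lit 6357142830) (nat_lit 336) (nat_lit 3494053138) (nat_lit 42) (nat_lit 5) (nat_lit 45) (nat_lit 5) (nat_lit 46) (nat_lit 4) (nat_lit 338) (nat_lit 271) (nat_lit 255)) (XT.nd (nat_lit 94) (nat_lit 84) (nat_lit 0) (XT.lf (nat_lit 0) (nat_lit 5595215206) (nat_lit 252) (nat_lit 4138585978) (nat_lit 336) (nat_lit 916844775) (nat_lit 42) (nat_lit 5) (nat_lit 45) (nat_lit 5) (nat_lit 46) (nat_lit 4) (nat_lit 339) (nat_lit 271) (nat_lit 254)) (XT.lf (nat_lit 0) (nat_lit 1644747980) (nat_lit 336) (nat_lit 211409480) (nat_lit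 84) (nat_lit 9003304778) (nat_lit 41) (nat_lit 5) (nat_lit 45) (nat_lit 5) (nat_lit 42) (nat_lit 5) (nat_lit 340) (nat_lit 271) (nat_lit 253)))))) (XT.nd (nat_lit 470) (nat_lit 504) (nat_lit 0) (XT.nd (nat_lit 188) (nat_lit 588) (nat_lit 0) (XT.nd (nat_lit 94) (nat_lit 0) (nat_lit 0) (XT.lf (nat_lit 0) (nat_lit 4260879657) (nat_lit 336) (nat_lit 6291023939) (nat_lit 84) (nat_lit 522905163) (nat_lit 38) (nat_lit 5) (nat_lit 42) (nat_lit 5) (nat_lit 39) (nat_lit 4) (nat_lit 341) (nat_lit 271) (nat_lit 252)) (XT.lf (nat_lit 0) (nat_lit 6921446474) (nat_lit 336) (nat_lit 1459019335) (nat_lit 84) (nat_lit 2917663848) (nat_lit 38) (nat_lit 5) (nat_lit 42) (nat_lit 5) (nat_lit 39) (nat_lit 4) (nat_lit 342) (nat_lit 271) (nat_lit 251))) (XT.nd (nat_lit 94) (nat_lit 336) (nat_lit 0) (XT.lf (nat_lit 0) (nat_lit 3514476740) (nat_lit 252) (nat_lit 6128740128) (nat_lit 336) (nat_lit 1885973280) (nat_lit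 35) (nat_lit 5) (nat_lit 38) (nat_lit 5) (nat_lit 39) (nat_lit 4) (nat_lit 343) (nat_lit 271) (nat_lit 250)) (XT.nd (nat_lit 94) (nat_lit 252) (nat_lit 0) (XT.lf (nat_lit 0) (nat_lit 627652702) (nat_lit 336) (nat_lit 3180387281) (nat_lit 84) (nat_lit 7960568896) (nat_lit 34) (nat_lit 5) (nat_lit 38) (nat_lit 5) (nat_lit 35) (nat_lit 5) (nat_lit 344) (nat_lit 271) (nat_lit 249)) (XT.lf (nat_lit 0) (nat_lit 1742406361) (nat_lit 252) (nat_lit 1400644434) (nat_lit 336) (nat_lit 8873090431) (nat_lit 31) (nat_lit 5) (nat_lit 34) (nat_lit 5) (nat_lit 35) (nat_lit 5) (nat_lit 345) (nat_lit 271) (nat_lit 248))))) (XT.nd (nat_lit 282) (nat_lit 336) (nat_lit 0) (XT.nd (nat_lit 94) (nat_lit 168) (nat_lit 0) (XT.lf (nat_lit 0) (nat_lit 5727075454) (nat_lit 336) (nat_lit 5474152628) (nat_lit 84) (nat_lit 1070547952) (nat_lit 31) (nat_lit 5) (nat_lit 35) (nat_lit 5) (nat_lit 32) (nat_lit 4) (nat_lit 346)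 (nat_lit 271) (nat_lit 247)) (XT.nd (nat_lit 94) (nat_lit 168) (nat_lit 0) (XT.lf (nat_lit 0) (nat_lit 8353527800) (nat_lit 336) (nat_lit 615760284) (nat_lit 84) (nat_lit 3567350328) (nat_lit 31) (nat_lit 5) (nat_lit 35) (nat_lit 5) (nat_lit 32) (nat_lit 4) (nat_lit 347) (nat_lit 271) (nat_lit 246)) (XT.lf (nat_lit 0) (nat_lit 4408690553) (nat_lit 168) (nat_lit 6646005599) (nat_lit 252) (nat_lit 1755354042) (nat_lit 29) (nat_lit 5) (nat_lit 31) (nat_lit 5) (nat_lit 32) (nat_lit 4) (nat_lit 348) (nat_lit 271) (nat_lit 245)))) (XT.nd (nat_lit 94) (nat_lit 252) (nat_lit 0) (XT.lf (nat_lit 0) (nat_lit 688817442) (nat_lit 252) (nat_lit 3571058912) (nat_lit 84) (nat_lit 8833311795) (nat_lit 28) (nat_lit 5) (nat_lit 31) (nat_lit 5) (nat_lit 29) (nat_lit 5) (nat_lit 349) (nat_lit 271) (nat_lit 244)) (XT.nd (nat_lit 94) (nat_lit 0) (nat_lit 0) (XT.lf (nat_lit 0) (nat_lit 1346586520) (nat_lit 252)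 (nat_lit 1790304045) (nat_lit 336) (nat_lit 10248873212) (nat_lit 25) (nat_lit 5) (nat_lit 28) (nat_lit 5) (nat_lit 29) (nat_lit 5) (nat_lit 350) (nat_lit 271) (nat_lit 243)) (XT.lf (nat_lit 0) (nat_lit 5657781182) (nat_lit 336) (nat_lit 7273974047) (nat_lit 84) (nat_lit 755865082) (nat_lit 25) (nat_lit 5) (nat_lit 29) (nat_lit 5) (nat_lit 26) (nat_lit 4) (nat_lit 351) (nat_lit 271) (nat_lit 242))))))) (XT.nd (nat_lit 940) (nat_lit 588) (nat_lit 0) (XT.nd (nat_lit 470) (nat_lit 168) (nat_lit 0) (XT.nd (nat_lit 188) (nat_lit 252) (nat_lit 0) (XT.nd (nat_lit 94) (nat_lit 168) (nat_lit 0) (XT.lf (nat_lit 0) (nat_lit 8228353659) (nat_lit 336) (nat_lit 2449413224) (nat_lit 84) (nat_lit 3322062274) (nat_lit 25) (nat_lit 5) (nat_lit 29) (nat_lit 5) (nat_lit 26) (nat_lit 4) (nat_lit 352) (nat_lit 271) (nat_lit 241)) (XT.lf (nat_lit 0) (nat_lit 2507278316) (nat_lit 168) (nat_lit 8350838197) (nat_lit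 252) (nat_lit 3464344328) (nat_lit 23) (nat_lit 5) (nat_lit 25) (nat_lit 5) (nat_lit 26) (nat_lit 4) (nat_lit 353) (nat_lit 271) (nat_lit 240))) (XT.nd (nat_lit 94) (nat_lit 252) (nat_lit 0) (XT.lf (nat_lit 0) (nat_lit 7602294729) (nat_lit 168) (nat_lit 5948001217) (nat_lit 252) (nat_lit 1105496119) (nat_lit 23) (nat_lit 5) (nat_lit 25) (nat_lit 5) (nat_lit 26) (nat_lit 4) (nat_lit 354) (nat_lit 271) (nat_lit 239)) (XT.nd (nat_lit 94) (nat_lit 168) (nat_lit 0) (XT.lf (nat_lit 0) (nat_lit 1255877553) (nat_lit 252) (nat_lit 2223596760) (nat_lit 84) (nat_lit 11521033804) (nat_lit 22) (nat_lit 5) (nat_lit 25) (nat_lit 5) (nat_lit 23) (nat_lit 5) (nat_lit 355) (nat_lit 271) (nat_lit 238)) (XT.lf (nat_lit 0) (nat_lit 2735593825) (nat_lit 168) (nat_lit 916479548) (nat_lit 252) (nat_lit 11704060825) (nat_lit 20) (nat_lit 5) (nat_lit 22) (nat_lit 5) (nat_lit 23) (nat_lit 5) (nat_lit 356) (nat_lit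 271) (nat_lit 237))))) (XT.nd (nat_lit 188) (nat_lit 168) (nat_lit 0) (XT.nd (nat_lit 94) (nat_lit 0) (nat_lit 0) (XT.lf (nat_lit 0) (nat_lit 6120999604) (nat_lit 252) (nat_lit 7908539369) (nat_lit 84) (nat_lit 1693387340) (nat_lit 20) (nat_lit 5) (nat_lit 23) (nat_lit 5) (nat_lit 21) (nat_lit 4) (nat_lit 357) (nat_lit 271) (nat_lit 236)) (XT.lf (nat_lit 0) (nat_lit 8634981806) (nat_lit 252) (nat_lit 3122665550) (nat_lit 84) (nat_lit 4344508239) (nat_lit 20) (nat_lit 5) (nat_lit 23) (nat_lit 5) (nat_lit 21) (nat_lit 4) (nat_lit 358) (nat_lit 271) (nat_lit 235))) (XT.nd (nat_lit 94) (nat_lit 0) (nat_lit 0) (XT.lf (nat_lit 0) (nat_lit 1786630227) (nat_lit 168) (nat_lit 9418365052) (nat_lit 252) (nat_lit 5288912658) (nat_lit 18) (nat_lit 5) (nat_lit 20) (nat_lit 5) (nat_lit 21) (nat_lit 4) (nat_lit 359) (nat_lit 271) (nat_lit 234)) (XT.nd (nat_lit 94) (nat_lit 0) (nat_lit 0) (XT.lf (nat_lit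 0) (nat_lit 6853993224) (nat_lit 168) (nat_lit 6994247480) (nat_lit 252) (nat_lit 3049848825) (nat_lit 18) (nat_lit 5) (nat_lit 20) (nat_lit 5) (nat_lit 21) (nat_lit 4) (nat_lit 360) (nat_lit 271) (nat_lit 233)) (XT.lf (nat_lit 0) (nat_lit 12019938346) (nat_lit 168) (nat_lit 4515629335) (nat_lit 252) (nat_lit 780489472) (nat_lit 18) (nat_lit 5) (nat_lit 20) (nat_lit 5) (nat_lit 21) (nat_lit 4) (nat_lit 361) (nat_lit 271) (nat_lit 232)))))) (XT.nd (nat_lit 470) (nat_lit 252) (nat_lit 0) (XT.nd (nat_lit 188) (nat_lit 84) (nat_lit 0) (XT.nd (nat_lit 94) (nat_lit 168) (nat_lit 0) (XT.lf (nat_lit 0) (nat_lit 1490630264) (nat_lit 252) (nat_lit 474010897) (nat_lit 84) (nat_lit 15783091409) (nat_lit 17) (nat_lit 5) (nat_lit 20) (nat_lit 5) (nat_lit 18) (nat_lit 5) (nat_lit 362) (nat_lit 271) (nat_lit 231)) (XT.lf (nat_lit 0) (nat_lit 3831718033) (nat_lit 252) (nat_lit 13674380713) (nat_lit 84) (nat_lit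 686030191) (nat_lit 15) (nat_lit 5) (nat_lit 18) (nat_lit 5) (nat_lit 16) (nat_lit 4) (nat_lit 363) (nat_lit 271) (nat_lit 230))) (XT.nd (nat_lit 94) (nat_lit 84) (nat_lit 0) (XT.lf (nat_lit 0) (nat_lit 6234753842) (nat_lit 252) (nat_lit 9052262248) (nat_lit 84) (nat_lit 3363688154) (nat_lit 15) (nat_lit 5) (nat_lit 18) (nat_lit 5) (nat_lit 16) (nat_lit 4) (nat_lit 364) (nat_lit 271) (nat_lit 229)) (XT.nd (nat_lit 94) (nat_lit 84) (nat_lit 0) (XT.lf (nat_lit 0) (nat_lit 8677640073) (nat_lit 252) (nat_lit 4341436611) (nat_lit 84) (nat_lit 6105563709) (nat_lit 15) (nat_lit 5) (nat_lit 18) (nat_lit 5) (nat_lit 16) (nat_lit 4) (nat_lit 365) (nat_lit 271) (nat_lit 228)) (XT.lf (nat_lit 0) (nat_lit 471996864) (nat_lit 84) (nat_lit 10695339154) (nat_lit 168) (nat_lit 8446897975) (nat_lit 14) (nat_lit 5) (nat_lit 15) (nat_lit 5) (nat_lit 16) (nat_lit 4) (nat_lit 366) (nat_lit 271) (nat_lit 227)))))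 (XT.nd (nat_lit 282) (nat_lit 252) (nat_lit 0) (XT.nd (nat_lit 94) (nat_lit 0) (nat_lit 0) (XT.lf (nat_lit 0) (nat_lit 5474281457) (nat_lit 84) (nat_lit 8272135263) (nat_lit 168) (nat_lit 6372276791) (nat_lit 14) (nat_lit 5) (nat_lit 15) (nat_lit 5) (nat_lit 16) (nat_lit 4) (nat_lit 367) (nat_lit 271) (nat_lit 226)) (XT.nd (nat_lit 94) (nat_lit 0) (nat_lit 0) (XT.lf (nat_lit 0) (nat_lit 10580810978) (nat_lit 84) (nat_lit 5792522026) (nat_lit 168) (nat_lit 4266518698) (nat_lit 14) (nat_lit 5) (nat_lit 15) (nat_lit 5) (nat_lit 16) (nat_lit 4) (nat_lit 368) (nat_lit 271) (nat_lit 225)) (XT.lf (nat_lit 0) (nat_lit 15796345249) (nat_lit 84) (nat_lit 3254188182) (nat_lit 168) (nat_lit 2127660909) (nat_lit 14) (nat_lit 5) (nat_lit 15) (nat_lit 5) (nat_lit 16) (nat_lit 4) (nat_lit 369) (nat_lit 271) (nat_lit 224)))) (XT.nd (nat_lit 94) (nat_lit 168) (nat_lit 0) (XT.lf (nat_lit 0) (nat_lit 45357570)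 (nat_lit 168) (nat_lit 608936730) (nat_lit 84) (nat_lit 21079914683) (nat_lit 13) (nat_lit 5) (nat_lit 15) (nat_lit 5) (nat_lit 14) (nat_lit 5) (nat_lit 370) (nat_lit 271) (nat_lit 223)) (XT.nd (nat_lit 94) (nat_lit 0) (nat_lit 0) (XT.lf (nat_lit 0) (nat_lit 2275427717) (nat_lit 252) (nat_lit 17996642924) (nat_lit 84) (nat_lit 2033721808) (nat_lit 11) (nat_lit 5) (nat_lit 14) (nat_lit 5) (nat_lit 12) (nat_lit 4) (nat_lit 371) (nat_lit 271) (nat_lit 222)) (XT.lf (nat_lit 0) (nat_lit 4558338078) (nat_lit 252) (nat_lit 13556407878) (nat_lit 84) (nat_lit 4780909753) (nat_lit 11) (nat_lit 5) (nat_lit 14) (nat_lit 5) (nat_lit 12) (nat_lit 4) (nat_lit 372) (nat_lit 271) (nat_lit 221))))))))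
noncomputable def xc17 : XT := (XT.nd (nat_lit 51042) (nat_lit 0) (nat_lit 588) (XT.nd (nat_lit 50008) (nat_lit 0) (nat_lit 2856) (XT.nd (nat_lit 49538) (nat_lit 0) (nat_lit 4872) (XT.nd (nat_lit 49256) (nat_lit 0) (nat_lit 6300) (XT.nd (nat_lit 94) (nat_lit 0) (nat_lit 0) (XT.lf (nat_lit 0) (nat_lit 6883497895) (nat_lit 252) (nat_lit 9024460181) (nat_lit 84) (nat_lit 7596784782) (nat_lit 11) (nat_lit 5) (nat_lit 14) (nat_lit 5) (nat_lit 12) (nat_lit 4) (nat_lit 373) (nat_lit 271) (nat_lit 220)) (XT.lf (nat_lit 0) (nat_lit 9253074458) (nat_lit 252) (nat_lit 4396575582) (nat_lit 84) (nat_lit 10483971587) (nat_lit 11) (nat_lit 5) (nat_lit 14) (nat_lit 5) (nat_lit 12) (nat_lit 4) (nat_lit 374) (nat_lit 271) (nat_lit 219))) (XT.nd (nat_lit 94) (nat_lit 504) (nat_lit 0) (XT.lf (nat_lit 0) (nat_lit 997149096) (nat_lit 588) (nat_lit 1942508103) (nat_lit 0) (nat_lit 997149096) (nat_lit 92) (nat_lit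 5) (nat_lit 99) (nat_lit 4) (nat_lit 92) (nat_lit 4) (nat_lit 320) (nat_lit 272) (nat_lit 272)) (XT.nd (nat_lit 94) (nat_lit 0) (nat_lit 0) (XT.lf (nat_lit 0) (nat_lit 602162771) (nat_lit 504) (nat_lit 4298470540) (nat_lit 504) (nat_lit 3072263323) (nat_lit 86) (nat_lit 4) (nat_lit 92) (nat_lit 5) (nat_lit 92) (nat_lit 4) (nat_lit 321) (nat_lit 272) (nat_lit 271)) (XT.lf (nat_lit 0) (nat_lit 5217268712) (nat_lit 504) (nat_lit 2637595262) (nat_lit 504) (nat_lit 222050297) (nat_lit 86) (nat_lit 4) (nat_lit 92) (nat_lit 5) (nat_lit 92) (nat_lit 4) (nat_lit 322) (nat_lit 272) (nat_lit 270))))) (XT.nd (nat_lit 188) (nat_lit 924) (nat_lit 0) (XT.nd (nat_lit 94) (nat_lit 0) (nat_lit 0) (XT.lf (nat_lit 0) (nat_lit 1705985571) (nat_lit 420) (nat_lit 891310046) (nat_lit 504) (nat_lit 5588351671) (nat_lit 80) (nat_lit 5) (nat_lit 85) (nat_lit 5) (nat_lit 86) (nat_lit 4) (nat_lit 323) (nat_lit 272)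 (nat_lit 269)) (XT.lf (nat_lit 0) (nat_lit 5458605202) (nat_lit 504) (nat_lit 1929107281) (nat_lit 0) (nat_lit 911550821) (nat_lit 80) (nat_lit 5) (nat_lit 86) (nat_lit 4) (nat_lit 80) (nat_lit 4) (nat_lit 324) (nat_lit 272) (nat_lit 268))) (XT.nd (nat_lit 94) (nat_lit 504) (nat_lit 0) (XT.lf (nat_lit 0) (nat_lit 2716509189) (nat_lit 420) (nat_lit 5650579470) (nat_lit 420) (nat_lit 50907697) (nat_lit 75) (nat_lit 4) (nat_lit 80) (nat_lit 5) (nat_lit 80) (nat_lit 4) (nat_lit 325) (nat_lit 272) (nat_lit 267)) (XT.nd (nat_lit 94) (nat_lit 420) (nat_lit 0) (XT.lf (nat_lit 0) (nat_lit 2711514043) (nat_lit 504) (nat_lit 1113554154) (nat_lit 84) (nat_lit 4716525968) (nat_lit 74) (nat_lit 5) (nat_lit 80) (nat_lit 5) (nat_lit 75) (nat_lit 4) (nat_lit 326) (nat_lit 272) (nat_lit 266)) (XT.lf (nat_lit 0) (nat_lit 3598804866) (nat_lit 420) (nat_lit 1920502422) (nat_lit 504) (nat_lit 3151196155) (nat_lit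 69) (nat_lit 5) (nat_lit 74) (nat_lit 5) (nat_lit 75) (nat_lit 4) (nat_lit 327) (nat_lit 272) (nat_lit 265)))))) (XT.nd (nat_lit 470) (nat_lit 756) (nat_lit 0) (XT.nd (nat_lit 188) (nat_lit 756) (nat_lit 0) (XT.nd (nat_lit 94) (nat_lit 504) (nat_lit 0) (XT.lf (nat_lit 0) (nat_lit 8352623556) (nat_lit 504) (nat_lit 414019100) (nat_lit 0) (nat_lit 38945579) (nat_lit 69) (nat_lit 5) (nat_lit 75) (nat_lit 4) (nat_lit 69) (nat_lit 4) (nat_lit 328) (nat_lit 272) (nat_lit 264)) (XT.lf (nat_lit 0) (nat_lit 2273143367) (nat_lit 504) (nat_lit 4600525863) (nat_lit 84) (nat_lit 2071005586) (nat_lit 63) (nat_lit 5) (nat_lit 69) (nat_lit 5) (nat_lit 64) (nat_lit 4) (nat_lit 329) (nat_lit 272) (nat_lit 263))) (XT.nd (nat_lit 94) (nat_lit 420) (nat_lit 0) (XT.lf (nat_lit 0) (nat_lit 78208238) (nat_lit 336) (nat_lit 4930123093) (nat_lit 420) (nat_lit 4081893186) (nat_lit 59) (nat_lit 5) (nat_lit 63) (nat_lit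 5) (nat_lit 64) (nat_lit 4) (nat_lit 330) (nat_lit 272) (nat_lit 262)) (XT.nd (nat_lit 94) (nat_lit 420) (nat_lit 0) (XT.lf (nat_lit 0) (nat_lit 4911067791) (nat_lit 336) (nat_lit 2895362862) (nat_lit 420) (nat_lit 1434774824) (nat_lit 59) (nat_lit 5) (nat_lit 63) (nat_lit 5) (nat_lit 64) (nat_lit 4) (nat_lit 331) (nat_lit 272) (nat_lit 261)) (XT.lf (nat_lit 0) (nat_lit 404769270) (nat_lit 336) (nat_lit 798850732) (nat_lit 420) (nat_lit 8195081315) (nat_lit 54) (nat_lit 5) (nat_lit 58) (nat_lit 5) (nat_lit 59) (nat_lit 5) (nat_lit 332) (nat_lit 272) (nat_lit 260))))) (XT.nd (nat_lit 282) (nat_lit 420) (nat_lit 0) (XT.nd (nat_lit 94) (nat_lit 336) (nat_lit 0) (XT.lf (nat_lit 0) (nat_lit 3885477970) (nat_lit 420) (nat_lit 4298741067) (nat_lit 84) (nat_lit 1376889678) (nat_lit 54) (nat_lit 5) (nat_lit 59) (nat_lit 5) (nat_lit 55) (nat_lit 4) (nat_lit 333) (nat_lit 272) (nat_lit 259)) (XT.nd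 (nat_lit 94) (nat_lit 0) (nat_lit 0) (XT.lf (nat_lit 0) (nat_lit 457041426) (nat_lit 336) (nat_lit 6140470848) (nat_lit 420) (nat_lit 3132893523) (nat_lit 50) (nat_lit 5) (nat_lit 54) (nat_lit 5) (nat_lit 55) (nat_lit 4) (nat_lit 334) (nat_lit 272) (nat_lit 258)) (XT.lf (nat_lit 0) (nat_lit 5366257468) (nat_lit 336) (nat_lit 4007696640) (nat_lit 420) (nat_lit 531813455) (nat_lit 50) (nat_lit 5) (nat_lit 54) (nat_lit 5) (nat_lit 55) (nat_lit 4) (nat_lit 335) (nat_lit 272) (nat_lit 257)))) (XT.nd (nat_lit 94) (nat_lit 0) (nat_lit 0) (XT.lf (nat_lit 0) (nat_lit 240546809) (nat_lit 336) (nat_lit 1804991934) (nat_lit 420) (nat_lit 8042452659) (nat_lit 45) (nat_lit 5) (nat_lit 49) (nat_lit 5) (nat_lit 50) (nat_lit 5) (nat_lit 336) (nat_lit 272) (nat_lit 256)) (XT.nd (nat_lit 94) (nat_lit 0) (nat_lit 0) (XT.lf (nat_lit 0) (nat_lit 4681675255) (nat_lit 420) (nat_lit 5105050741) (nat_lit 84) (nat_lit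 489470377) (nat_lit 45) (nat_lit 5) (nat_lit 50) (nat_lit 5) (nat_lit 46) (nat_lit 4) (nat_lit 337) (nat_lit 272) (nat_lit 255)) (XT.lf (nat_lit 0) (nat_lit 7357316651) (nat_lit 420) (nat_lit 316673412) (nat_lit 84) (nat_lit 2797737373) (nat_lit 45) (nat_lit 5) (nat_lit 50) (nat_lit 5) (nat_lit 46) (nat_lit 4) (nat_lit 338) (nat_lit 272) (nat_lit 254))))))) (XT.nd (nat_lit 1034) (nat_lit 840) (nat_lit 0) (XT.nd (nat_lit 470) (nat_lit 588) (nat_lit 0) (XT.nd (nat_lit 188) (nat_lit 504) (nat_lit 0) (XT.nd (nat_lit 94) (nat_lit 84) (nat_lit 0) (XT.lf (nat_lit 0) (nat_lit 4633409275) (nat_lit 252) (nat_lit 5469605886) (nat_lit 336) (nat_lit 570881883) (nat_lit 42) (nat_lit 5) (nat_lit 45) (nat_lit 5) (nat_lit 46) (nat_lit 4) (nat_lit 339) (nat_lit 272) (nat_lit 253)) (XT.lf (nat_lit 0) (nat_lit 1954873303) (nat_lit 336) (nat_lit 1239607491) (nat_lit 84) (nat_lit 7689103266) (nat_lit 41) (nat_lit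 5) (nat_lit 45) (nat_lit 5) (nat_lit 42) (nat_lit 5) (nat_lit 340) (nat_lit 272) (nat_lit 252))) (XT.nd (nat_lit 94) (nat_lit 252) (nat_lit 0) (XT.lf (nat_lit 0) (nat_lit 3700596025) (nat_lit 252) (nat_lit 826316286) (nat_lit 336) (nat_lit 6573464917) (nat_lit 38) (nat_lit 5) (nat_lit 41) (nat_lit 5) (nat_lit 42) (nat_lit 5) (nat_lit 341) (nat_lit 272) (nat_lit 251)) (XT.nd (nat_lit 94) (nat_lit 252) (nat_lit 0) (XT.lf (nat_lit 0) (nat_lit 7151641379) (nat_lit 336) (nat_lit 2598530472) (nat_lit 84) (nat_lit 1574714622) (nat_lit 38) (nat_lit 5) (nat_lit 42) (nat_lit 5) (nat_lit 39) (nat_lit 4) (nat_lit 342) (nat_lit 272) (nat_lit 250)) (XT.lf (nat_lit 0) (nat_lit 2312978230) (nat_lit 252) (nat_lit 7521705032) (nat_lit 336) (nat_lit 1722539332) (nat_lit 35) (nat_lit 5) (nat_lit 38) (nat_lit 5) (nat_lit 39) (nat_lit 4) (nat_lit 343) (nat_lit 272) (nat_lit 249))))) (XT.nd (nat_lit 282) (nat_lit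 252) (nat_lit 0) (XT.nd (nat_lit 94) (nat_lit 252) (nat_lit 0) (XT.lf (nat_lit 0) (nat_lit 761078369) (nat_lit 336) (nat_lit 4449556819) (nat_lit 84) (nat_lit 6586854661) (nat_lit 34) (nat_lit 5) (nat_lit 38) (nat_lit 5) (nat_lit 35) (nat_lit 5) (nat_lit 344) (nat_lit 272) (nat_lit 248)) (XT.nd (nat_lit 94) (nat_lit 0) (nat_lit 0) (XT.lf (nat_lit 0) (nat_lit 409507689) (nat_lit 252) (nat_lit 2827834080) (nat_lit 336) (nat_lit 8808962083) (nat_lit 31) (nat_lit 5) (nat_lit 34) (nat_lit 5) (nat_lit 35) (nat_lit 5) (nat_lit 345) (nat_lit 272) (nat_lit 247)) (XT.lf (nat_lit 0) (nat_lit 5439398181) (nat_lit 252) (nat_lit 345634768) (nat_lit 336) (nat_lit 6518098470) (nat_lit 31) (nat_lit 5) (nat_lit 34) (nat_lit 5) (nat_lit 35) (nat_lit 5) (nat_lit 346) (nat_lit 272) (nat_lit 246)))) (XT.nd (nat_lit 94) (nat_lit 252) (nat_lit 0) (XT.lf (nat_lit 0) (nat_lit 8383222104) (nat_lit 336) (nat_lit 2038040642)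 (nat_lit 84) (nat_lit 2147671634) (nat_lit 31) (nat_lit 5) (nat_lit 35) (nat_lit 5) (nat_lit 32) (nat_lit 4) (nat_lit 347) (nat_lit 272) (nat_lit 245)) (XT.nd (nat_lit 94) (nat_lit 84) (nat_lit 0) (XT.lf (nat_lit 0) (nat_lit 2921402474) (nat_lit 168) (nat_lit 8124146167) (nat_lit 252) (nat_lit 1798064105) (nat_lit 29) (nat_lit 5) (nat_lit 31) (nat_lit 5) (nat_lit 32) (nat_lit 4) (nat_lit 348) (nat_lit 272) (nat_lit 244)) (XT.lf (nat_lit 0) (nat_lit 622958463) (nat_lit 252) (nat_lit 5126725732) (nat_lit 84) (nat_lit 7377882718) (nat_lit 28) (nat_lit 5) (nat_lit 31) (nat_lit 5) (nat_lit 29) (nat_lit 5) (nat_lit 349) (nat_lit 272) (nat_lit 243)))))) (XT.nd (nat_lit 470) (nat_lit 420) (nat_lit 0) (XT.nd (nat_lit 188) (nat_lit 168) (nat_lit 0) (XT.nd (nat_lit 94) (nat_lit 252) (nat_lit 0) (XT.lf (nat_lit 0) (nat_lit 3034385767) (nat_lit 252) (nat_lit 270391306) (nat_lit 84) (nat_lit 10116558508)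 (nat_lit 28) (nat_lit 5) (nat_lit 31) (nat_lit 5) (nat_lit 29) (nat_lit 5) (nat_lit 350) (nat_lit 272) (nat_lit 242)) (XT.lf (nat_lit 0) (nat_lit 4765164073) (nat_lit 252) (nat_lit 756799437) (nat_lit 336) (nat_lit 8202316607) (nat_lit 25) (nat_lit 5) (nat_lit 28) (nat_lit 5) (nat_lit 29) (nat_lit 5) (nat_lit 351) (nat_lit 272) (nat_lit 241))) (XT.nd (nat_lit 94) (nat_lit 168) (nat_lit 0) (XT.lf (nat_lit 0) (nat_lit 8062689752) (nat_lit 336) (nat_lit 4160502497) (nat_lit 84) (nat_lit 1814275589) (nat_lit 25) (nat_lit 5) (nat_lit 29) (nat_lit 5) (nat_lit 26) (nat_lit 4) (nat_lit 352) (nat_lit 272) (nat_lit 240)) (XT.nd (nat_lit 94) (nat_lit 0) (nat_lit 0) (XT.lf (nat_lit 0) (nat_lit 727889419) (nat_lit 168) (nat_lit 9925244416) (nat_lit 252) (nat_lit 3708236598) (nat_lit 23) (nat_lit 5) (nat_lit 25) (nat_lit 5) (nat_lit 26) (nat_lit 4) (nat_lit 353) (nat_lit 272) (nat_lit 239)) (XT.lf (nat_lit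 0) (nat_lit 5790785444) (nat_lit 168) (nat_lit 7533193654) (nat_lit 252) (nat_lit 1371434382) (nat_lit 23) (nat_lit 5) (nat_lit 25) (nat_lit 5) (nat_lit 26) (nat_lit 4) (nat_lit 354) (nat_lit 272) (nat_lit 238))))) (XT.nd (nat_lit 282) (nat_lit 168) (nat_lit 0) (XT.nd (nat_lit 94) (nat_lit 168) (nat_lit 0) (XT.lf (nat_lit 0) (nat_lit 974345059) (nat_lit 252) (nat_lit 4103722210) (nat_lit 84) (nat_lit 9962841039) (nat_lit 22) (nat_lit 5) (nat_lit 25) (nat_lit 5) (nat_lit 23) (nat_lit 5) (nat_lit 355) (nat_lit 272) (nat_lit 237)) (XT.nd (nat_lit 94) (nat_lit 0) (nat_lit 0) (XT.lf (nat_lit 0) (nat_lit 785496502) (nat_lit 168) (nat_lit 2545376868) (nat_lit 252) (nat_lit 12066936761) (nat_lit 20) (nat_lit 5) (nat_lit 22) (nat_lit 5) (nat_lit 23) (nat_lit 5) (nat_lit 356) (nat_lit 272) (nat_lit 236)) (XT.lf (nat_lit 0) (nat_lit 5763525439) (nat_lit 252) (nat_lit 9915087187) (nat_lit 84) (nat_lit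 87158780) (nat_lit 20) (nat_lit 5) (nat_lit 23) (nat_lit 5) (nat_lit 21) (nat_lit 4) (nat_lit 357) (nat_lit 272) (nat_lit 235)))) (XT.nd (nat_lit 94) (nat_lit 168) (nat_lit 0) (XT.lf (nat_lit 0) (nat_lit 8257997168) (nat_lit 252) (nat_lit 5159216690) (nat_lit 84) (nat_lit 2728434975) (nat_lit 20) (nat_lit 5) (nat_lit 23) (nat_lit 5) (nat_lit 21) (nat_lit 4) (nat_lit 358) (nat_lit 272) (nat_lit 234)) (XT.nd (nat_lit 94) (nat_lit 168) (nat_lit 0) (XT.lf (nat_lit 0) (nat_lit 10791363213) (nat_lit 252) (nat_lit 315018716) (nat_lit 84) (nat_lit 5432197333) (nat_lit 20) (nat_lit 5) (nat_lit 23) (nat_lit 5) (nat_lit 21) (nat_lit 4) (nat_lit 359) (nat_lit 272) (nat_lit 233)) (XT.lf (nat_lit 0) (nat_lit 4717060287) (nat_lit 168) (nat_lit 8695718471) (nat_lit 252) (nat_lit 3530699578) (nat_lit 18) (nat_lit 5) (nat_lit 20) (nat_lit 5) (nat_lit 21) (nat_lit 4) (nat_lit 360) (nat_lit 272) (nat_lit 232))))))))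
noncomputable def xc18 : XT := (XT.nd (nat_lit 50854) (nat_lit 0) (nat_lit 1680) (XT.nd (nat_lit 940) (nat_lit 252) (nat_lit 0) (XT.nd (nat_lit 470) (nat_lit 84) (nat_lit 0) (XT.nd (nat_lit 188) (nat_lit 168) (nat_lit 0) (XT.nd (nat_lit 94) (nat_lit 84) (nat_lit 0) (XT.lf (nat_lit 0) (nat_lit 9855065000) (nat_lit 168) (nat_lit 6226960619) (nat_lit 252) (nat_lit 1280020354) (nat_lit 18) (nat_lit 5) (nat_lit 20) (nat_lit 5) (nat_lit 21) (nat_lit 4) (nat_lit 361) (nat_lit 272) (nat_lit 231)) (XT.lf (nat_lit 0) (nat_lit 983410407) (nat_lit 252) (nat_lit 2707420188) (nat_lit 84) (nat_lit 14103631953) (nat_lit 17) (nat_lit 5) (nat_lit 20) (nat_lit 5) (nat_lit 18) (nat_lit 5) (nat_lit 362) (nat_lit 272) (nat_lit 230))) (XT.nd (nat_lit 94) (nat_lit 0) (nat_lit 0) (XT.lf (nat_lit 0) (nat_lit 2218352109) (nat_lit 168) (nat_lit 1059099695) (nat_lit 252) (nat_lit 14962901618) (nat_lit 15) (nat_lit 5)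 (nat_lit 17) (nat_lit 5) (nat_lit 18) (nat_lit 5) (nat_lit 363) (nat_lit 272) (nat_lit 229)) (XT.nd (nat_lit 94) (nat_lit 0) (nat_lit 0) (XT.lf (nat_lit 0) (nat_lit 5652923761) (nat_lit 252) (nat_lit 11416249172) (nat_lit 84) (nat_lit 1630645262) (nat_lit 15) (nat_lit 5) (nat_lit 18) (nat_lit 5) (nat_lit 16) (nat_lit 4) (nat_lit 364) (nat_lit 272) (nat_lit 228)) (XT.lf (nat_lit 0) (nat_lit 8079265420) (nat_lit 252) (nat_lit 6731488252) (nat_lit 84) (nat_lit 4363547486) (nat_lit 15) (nat_lit 5) (nat_lit 18) (nat_lit 5) (nat_lit 16) (nat_lit 4) (nat_lit 365) (nat_lit 272) (nat_lit 227))))) (XT.nd (nat_lit 188) (nat_lit 0) (nat_lit 0) (XT.nd (nat_lit 94) (nat_lit 84) (nat_lit 0) (XT.lf (nat_lit 0) (nat_lit 10548231987) (nat_lit 252) (nat_lit 1952845466) (nat_lit 84) (nat_lit 7163492828) (nat_lit 15) (nat_lit 5) (nat_lit 18) (nat_lit 5) (nat_lit 16) (nat_lit 4) (nat_lit 366) (nat_lit 272) (nat_lit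 226)) (XT.lf (nat_lit 0) (nat_lit 2984259559) (nat_lit 84) (nat_lit 10107469462) (nat_lit 168) (nat_lit 7078435794) (nat_lit 14) (nat_lit 5) (nat_lit 15) (nat_lit 5) (nat_lit 16) (nat_lit 4) (nat_lit 367) (nat_lit 272) (nat_lit 225))) (XT.nd (nat_lit 94) (nat_lit 0) (nat_lit 0) (XT.lf (nat_lit 0) (nat_lit 8066516473) (nat_lit 84) (nat_lit 7636791431) (nat_lit 168) (nat_lit 4988521524) (nat_lit 14) (nat_lit 5) (nat_lit 15) (nat_lit 5) (nat_lit 16) (nat_lit 4) (nat_lit 368) (nat_lit 272) (nat_lit 224)) (XT.nd (nat_lit 94) (nat_lit 0) (nat_lit 0) (XT.lf (nat_lit 0) (nat_lit 13258507962) (nat_lit 84) (nat_lit 5107124132) (nat_lit 168) (nat_lit 2865031168) (nat_lit 14) (nat_lit 5) (nat_lit 15) (nat_lit 5) (nat_lit 16) (nat_lit 4) (nat_lit 369) (nat_lit 272) (nat_lit 223)) (XT.lf (nat_lit 0) (nat_lit 18565073507) (nat_lit 84) (nat_lit 2516109649) (nat_lit 168) (nat_lit 705985410) (nat_lit 14)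 (nat_lit 5) (nat_lit 15) (nat_lit 5) (nat_lit 16) (nat_lit 4) (nat_lit 370) (nat_lit 272) (nat_lit 222)))))) (XT.nd (nat_lit 49350) (nat_lit 0) (nat_lit 5796) (XT.nd (nat_lit 188) (nat_lit 0) (nat_lit 0) (XT.nd (nat_lit 94) (nat_lit 0) (nat_lit 0) (XT.lf (nat_lit 0) (nat_lit 1478634822) (nat_lit 252) (nat_lit 20714887258) (nat_lit 84) (nat_lit 167324355) (nat_lit 11) (nat_lit 5) (nat_lit 14) (nat_lit 5) (nat_lit 12) (nat_lit 4) (nat_lit 371) (nat_lit 272) (nat_lit 221)) (XT.lf (nat_lit 0) (nat_lit 3747502462) (nat_lit 252) (nat_lit 16297268970) (nat_lit 84) (nat_lit 2906400167) (nat_lit 11) (nat_lit 5) (nat_lit 14) (nat_lit 5) (nat_lit 12) (nat_lit 4) (nat_lit 372) (nat_lit 272) (nat_lit 220))) (XT.nd (nat_lit 94) (nat_lit 0) (nat_lit 0) (XT.lf (nat_lit 0) (nat_lit 6059041793) (nat_lit 252) (nat_lit 11787257993) (nat_lit 84) (nat_lit 5714406979) (nat_lit 11) (nat_lit 5) (nat_lit 14) (nat_lit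 5) (nat_lit 12) (nat_lit 4) (nat_lit 373) (nat_lit 272) (nat_lit 219)) (XT.nd (nat_lit 48974) (nat_lit 0) (nat_lit 7392) (XT.lf (nat_lit 0) (nat_lit 8415407410) (nat_lit 252) (nat_lit 7180650523) (nat_lit 84) (nat_lit 8593962146) (nat_lit 11) (nat_lit 5) (nat_lit 14) (nat_lit 5) (nat_lit 12) (nat_lit 4) (nat_lit 374) (nat_lit 272) (nat_lit 218)) (XT.lf (nat_lit 0) (nat_lit 1383052270) (nat_lit 588) (nat_lit 1230380974) (nat_lit 588) (nat_lit 1230380974) (nat_lit 99) (nat_lit 4) (nat_lit 106) (nat_lit 5) (nat_lit 106) (nat_lit 4) (nat_lit 318) (nat_lit 273) (nat_lit 273))))) (XT.nd (nat_lit 282) (nat_lit 504) (nat_lit 0) (XT.nd (nat_lit 94) (nat_lit 1008) (nat_lit 0) (XT.lf (nat_lit 0) (nat_lit 378079799) (nat_lit 672) (nat_lit 535530378) (nat_lit 84) (nat_lit 6865957404) (nat_lit 98) (nat_lit 5) (nat_lit 106) (nat_lit 5) (nat_lit 99) (nat_lit 4) (nat_lit 319) (nat_lit 273) (nat_lit 272))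 (XT.nd (nat_lit 94) (nat_lit 504) (nat_lit 0) (XT.lf (nat_lit 0) (nat_lit 3216981095) (nat_lit 588) (nat_lit 3931541338) (nat_lit 0) (nat_lit 726554235) (nat_lit 92) (nat_lit 5) (nat_lit 99) (nat_lit 4) (nat_lit 92) (nat_lit 4) (nat_lit 320) (nat_lit 273) (nat_lit 271)) (XT.lf (nat_lit 0) (nat_lit 508626883) (nat_lit 504) (nat_lit 5573473624) (nat_lit 504) (nat_lit 1893709018) (nat_lit 86) (nat_lit 4) (nat_lit 92) (nat_lit 5) (nat_lit 92) (nat_lit 4) (nat_lit 321) (nat_lit 273) (nat_lit 270)))) (XT.nd (nat_lit 94) (nat_lit 420) (nat_lit 0) (XT.lf (nat_lit 0) (nat_lit 897146177) (nat_lit 588) (nat_lit 3011237585) (nat_lit 84) (nat_lit 4172552926) (nat_lit 85) (nat_lit 5) (nat_lit 92) (nat_lit 5) (nat_lit 86) (nat_lit 4) (nat_lit 322) (nat_lit 273) (nat_lit 269)) (XT.nd (nat_lit 94) (nat_lit 0) (nat_lit 0) (XT.lf (nat_lit 0) (nat_lit 1503836046) (nat_lit 420) (nat_lit 2167295787) (nat_lit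 504) (nat_lit 4519893219) (nat_lit 80) (nat_lit 5) (nat_lit 85) (nat_lit 5) (nat_lit 86) (nat_lit 4) (nat_lit 323) (nat_lit 273) (nat_lit 268)) (XT.lf (nat_lit 0) (nat_lit 6133687664) (nat_lit 420) (nat_lit 351378265) (nat_lit 504) (nat_lit 1821195238) (nat_lit 80) (nat_lit 5) (nat_lit 85) (nat_lit 5) (nat_lit 86) (nat_lit 4) (nat_lit 324) (nat_lit 273) (nat_lit 267))))))) (XT.nd (nat_lit 1034) (nat_lit 1596) (nat_lit 0) (XT.nd (nat_lit 470) (nat_lit 1092) (nat_lit 0) (XT.nd (nat_lit 188) (nat_lit 924) (nat_lit 0) (XT.nd (nat_lit 94) (nat_lit 0) (nat_lit 0) (XT.lf (nat_lit 0) (nat_lit 905040128) (nat_lit 504) (nat_lit 6008709893) (nat_lit 84) (nat_lit 1512452857) (nat_lit 74) (nat_lit 5) (nat_lit 80) (nat_lit 5) (nat_lit 75) (nat_lit 4) (nat_lit 325) (nat_lit 273) (nat_lit 266)) (XT.lf (nat_lit 0) (nat_lit 3629554515) (nat_lit 504) (nat_lit 1465490234) (nat_lit 84) (nat_lit 3456021815) (nat_lit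 74) (nat_lit 5) (nat_lit 80) (nat_lit 5) (nat_lit 75) (nat_lit 4) (nat_lit 326) (nat_lit 273) (nat_lit 265))) (XT.nd (nat_lit 94) (nat_lit 504) (nat_lit 0) (XT.lf (nat_lit 0) (nat_lit 3195871484) (nat_lit 420) (nat_lit 3201706406) (nat_lit 504) (nat_lit 2283764866) (nat_lit 69) (nat_lit 5) (nat_lit 74) (nat_lit 5) (nat_lit 75) (nat_lit 4) (nat_lit 327) (nat_lit 273) (nat_lit 264)) (XT.nd (nat_lit 94) (nat_lit 420) (nat_lit 0) (XT.lf (nat_lit 0) (nat_lit 370112963) (nat_lit 504) (nat_lit 874808228) (nat_lit 84) (nat_lit 7572621101) (nat_lit 68) (nat_lit 5) (nat_lit 74) (nat_lit 5) (nat_lit 69) (nat_lit 5) (nat_lit 328) (nat_lit 273) (nat_lit 263)) (XT.lf (nat_lit 0) (nat_lit 3034994389) (nat_lit 504) (nat_lit 5118976838) (nat_lit 84) (nat_lit 804255776) (nat_lit 63) (nat_lit 5) (nat_lit 69) (nat_lit 5) (nat_lit 64) (nat_lit 4) (nat_lit 329) (nat_lit 273) (nat_lit 262))))) (XT.nd (nat_lit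 282) (nat_lit 672) (nat_lit 0) (XT.nd (nat_lit 94) (nat_lit 420) (nat_lit 0) (XT.lf (nat_lit 0) (nat_lit 5735422201) (nat_lit 504) (nat_lit 484488122) (nat_lit 84) (nat_lit 2885062585) (nat_lit 63) (nat_lit 5) (nat_lit 69) (nat_lit 5) (nat_lit 64) (nat_lit 4) (nat_lit 330) (nat_lit 273) (nat_lit 261)) (XT.nd (nat_lit 94) (nat_lit 84) (nat_lit 0) (XT.lf (nat_lit 0) (nat_lit 4296171688) (nat_lit 336) (nat_lit 4199063342) (nat_lit 420) (nat_lit 762020788) (nat_lit 59) (nat_lit 5) (nat_lit 63) (nat_lit 5) (nat_lit 64) (nat_lit 4) (nat_lit 331) (nat_lit 273) (nat_lit 260)) (XT.lf (nat_lit 0) (nat_lit 1825985899) (nat_lit 420) (nat_lit 282756915) (nat_lit 84) (nat_lit 7307052054) (nat_lit 58) (nat_lit 5) (nat_lit 63) (nat_lit 5) (nat_lit 59) (nat_lit 5) (nat_lit 332) (nat_lit 273) (nat_lit 259)))) (XT.nd (nat_lit 94) (nat_lit 336) (nat_lit 0) (XT.lf (nat_lit 0) (nat_lit 4459626012) (nat_lit 420)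 (nat_lit 5038582437) (nat_lit 84) (nat_lit 81593571) (nat_lit 54) (nat_lit 5) (nat_lit 59) (nat_lit 5) (nat_lit 55) (nat_lit 4) (nat_lit 333) (nat_lit 273) (nat_lit 258)) (XT.nd (nat_lit 94) (nat_lit 336) (nat_lit 0) (XT.lf (nat_lit 0) (nat_lit 7135766928) (nat_lit 420) (nat_lit 333077559) (nat_lit 84) (nat_lit 2281469153) (nat_lit 54) (nat_lit 5) (nat_lit 59) (nat_lit 5) (nat_lit 55) (nat_lit 4) (nat_lit 334) (nat_lit 273) (nat_lit 257)) (XT.lf (nat_lit 0) (nat_lit 4528636262) (nat_lit 336) (nat_lit 5349380531) (nat_lit 420) (nat_lit 48817343) (nat_lit 50) (nat_lit 5) (nat_lit 54) (nat_lit 5) (nat_lit 55) (nat_lit 4) (nat_lit 335) (nat_lit 273) (nat_lit 256)))))) (XT.nd (nat_lit 470) (nat_lit 840) (nat_lit 0) (XT.nd (nat_lit 188) (nat_lit 336) (nat_lit 0) (XT.nd (nat_lit 94) (nat_lit 336) (nat_lit 0) (XT.lf (nat_lit 0) (nat_lit 2486124522) (nat_lit 420) (nat_lit 667925742) (nat_lit 84)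 (nat_lit 6955965161) (nat_lit 49) (nat_lit 5) (nat_lit 54) (nat_lit 5) (nat_lit 50) (nat_lit 5) (nat_lit 336) (nat_lit 273) (nat_lit 255)) (XT.lf (nat_lit 0) (nat_lit 4214307766) (nat_lit 336) (nat_lit 866459495) (nat_lit 420) (nat_lit 5218829574) (nat_lit 45) (nat_lit 5) (nat_lit 49) (nat_lit 5) (nat_lit 50) (nat_lit 5) (nat_lit 337) (nat_lit 273) (nat_lit 254))) (XT.nd (nat_lit 94) (nat_lit 336) (nat_lit 0) (XT.lf (nat_lit 0) (nat_lit 7718836531) (nat_lit 420) (nat_lit 1327748758) (nat_lit 84) (nat_lit 1449794771) (nat_lit 45) (nat_lit 5) (nat_lit 50) (nat_lit 5) (nat_lit 46) (nat_lit 4) (nat_lit 338) (nat_lit 273) (nat_lit 253)) (XT.nd (nat_lit 94) (nat_lit 84) (nat_lit 0) (XT.lf (nat_lit 0) (nat_lit 3562510961) (nat_lit 252) (nat_lit 6863295163) (nat_lit 336) (nat_lit 274028937) (nat_lit 42) (nat_lit 5) (nat_lit 45) (nat_lit 5) (nat_lit 46) (nat_lit 4) (nat_lit 339) (nat_lit 273) (nat_lit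 252)) (XT.lf (nat_lit 0) (nat_lit 2217746111) (nat_lit 336) (nat_lit 2377903674) (nat_lit 84) (nat_lit 6314728752) (nat_lit 41) (nat_lit 5) (nat_lit 45) (nat_lit 5) (nat_lit 42) (nat_lit 5) (nat_lit 340) (nat_lit 273) (nat_lit 251))))) (XT.nd (nat_lit 282) (nat_lit 336) (nat_lit 0) (XT.nd (nat_lit 94) (nat_lit 252) (nat_lit 0) (XT.lf (nat_lit 0) (nat_lit 2500769033) (nat_lit 252) (nat_lit 2249956320) (nat_lit 336) (nat_lit 6377734582) (nat_lit 38) (nat_lit 5) (nat_lit 41) (nat_lit 5) (nat_lit 42) (nat_lit 5) (nat_lit 341) (nat_lit 273) (nat_lit 250)) (XT.nd (nat_lit 94) (nat_lit 252) (nat_lit 0) (XT.lf (nat_lit 0) (nat_lit 7334522239) (nat_lit 336) (nat_lit 3850097340) (nat_lit 84) (nat_lit 169693546) (nat_lit 38) (nat_lit 5) (nat_lit 42) (nat_lit 5) (nat_lit 39) (nat_lit 4) (nat_lit 342) (nat_lit 273) (nat_lit 249)) (XT.lf (nat_lit 0) (nat_lit 998279212) (nat_lit 252) (nat_lit 8980239544)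 (nat_lit 336) (nat_lit 1609413690) (nat_lit 35) (nat_lit 5) (nat_lit 38) (nat_lit 5) (nat_lit 39) (nat_lit 4) (nat_lit 343) (nat_lit 273) (nat_lit 248)))) (XT.nd (nat_lit 94) (nat_lit 252) (nat_lit 0) (XT.lf (nat_lit 0) (nat_lit 846012608) (nat_lit 336) (nat_lit 5832962105) (nat_lit 84) (nat_lit 5150061956) (nat_lit 34) (nat_lit 5) (nat_lit 38) (nat_lit 5) (nat_lit 35) (nat_lit 5) (nat_lit 344) (nat_lit 273) (nat_lit 247)) (XT.nd (nat_lit 94) (nat_lit 252) (nat_lit 0) (XT.lf (nat_lit 0) (nat_lit 3293080593) (nat_lit 336) (nat_lit 1017913730) (nat_lit 84) (nat_lit 7767827828) (nat_lit 34) (nat_lit 5) (nat_lit 38) (nat_lit 5) (nat_lit 35) (nat_lit 5) (nat_lit 345) (nat_lit 273) (nat_lit 246)) (XT.lf (nat_lit 0) (nat_lit 3955642993) (nat_lit 252) (nat_lit 1850094761) (nat_lit 336) (nat_lit 6531062444) (nat_lit 31) (nat_lit 5) (nat_lit 34) (nat_lit 5) (nat_lit 35) (nat_lit 5) (nat_lit 346) (nat_lit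 273) (nat_lit 245))))))))
noncomputable def xc19 : XT := (XT.nd (nat_lit 1974) (nat_lit 252) (nat_lit 0) (XT.nd (nat_lit 940) (nat_lit 672) (nat_lit 0) (XT.nd (nat_lit 470) (nat_lit 252) (nat_lit 0) (XT.nd (nat_lit 188) (nat_lit 336) (nat_lit 0) (XT.nd (nat_lit 94) (nat_lit 168) (nat_lit 0) (XT.lf (nat_lit 0) (nat_lit 8364914746) (nat_lit 336) (nat_lit 3575582359) (nat_lit 84) (nat_lit 663377917) (nat_lit 31) (nat_lit 5) (nat_lit 35) (nat_lit 5) (nat_lit 32) (nat_lit 4) (nat_lit 347) (nat_lit 273) (nat_lit 244)) (XT.lf (nat_lit 0) (nat_lit 1317558336) (nat_lit 168) (nat_lit 9670409150) (nat_lit 252) (nat_lit 1891863998) (nat_lit 29) (nat_lit 5) (nat_lit 31) (nat_lit 5) (nat_lit 32) (nat_lit 4) (nat_lit 348) (nat_lit 273) (nat_lit 243))) (XT.nd (nat_lit 94) (nat_lit 252) (nat_lit 0) (XT.lf (nat_lit 0) (nat_lit 507760913) (nat_lit 252) (nat_lit 6800038392) (nat_lit 84) (nat_lit 5856794124)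 (nat_lit 28) (nat_lit 5) (nat_lit 31) (nat_lit 5) (nat_lit 29) (nat_lit 5) (nat_lit 349) (nat_lit 273) (nat_lit 242)) (XT.nd (nat_lit 94) (nat_lit 252) (nat_lit 0) (XT.lf (nat_lit 0) (nat_lit 2896600907) (nat_lit 252) (nat_lit 1976856526) (nat_lit 84) (nat_lit 8585660173) (nat_lit 28) (nat_lit 5) (nat_lit 31) (nat_lit 5) (nat_lit 29) (nat_lit 5) (nat_lit 350) (nat_lit 273) (nat_lit 241)) (XT.lf (nat_lit 0) (nat_lit 2990793507) (nat_lit 252) (nat_lit 2353875011) (nat_lit 336) (nat_lit 8418672080) (nat_lit 25) (nat_lit 5) (nat_lit 28) (nat_lit 5) (nat_lit 29) (nat_lit 5) (nat_lit 351) (nat_lit 273) (nat_lit 240))))) (XT.nd (nat_lit 188) (nat_lit 252) (nat_lit 0) (XT.nd (nat_lit 94) (nat_lit 0) (nat_lit 0) (XT.lf (nat_lit 0) (nat_lit 7847884560) (nat_lit 336) (nat_lit 5990539260) (nat_lit 84) (nat_lit 239319343) (nat_lit 25) (nat_lit 5) (nat_lit 29) (nat_lit 5) (nat_lit 26) (nat_lit 4) (nat_lit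 352) (nat_lit 273) (nat_lit 239)) (XT.lf (nat_lit 0) (nat_lit 10410092358) (nat_lit 336) (nat_lit 1148285927) (nat_lit 84) (nat_lit 2844193262) (nat_lit 25) (nat_lit 5) (nat_lit 29) (nat_lit 5) (nat_lit 26) (nat_lit 4) (nat_lit 353) (nat_lit 273) (nat_lit 238))) (XT.nd (nat_lit 94) (nat_lit 84) (nat_lit 0) (XT.lf (nat_lit 0) (nat_lit 3859844388) (nat_lit 168) (nat_lit 9188775172) (nat_lit 252) (nat_lit 1689045840) (nat_lit 23) (nat_lit 5) (nat_lit 25) (nat_lit 5) (nat_lit 26) (nat_lit 4) (nat_lit 354) (nat_lit 273) (nat_lit 237)) (XT.nd (nat_lit 94) (nat_lit 0) (nat_lit 0) (XT.lf (nat_lit 0) (nat_lit 642810461) (nat_lit 252) (nat_lit 6104446200) (nat_lit 84) (nat_lit 8336677281) (nat_lit 22) (nat_lit 5) (nat_lit 25) (nat_lit 5) (nat_lit 23) (nat_lit 5) (nat_lit 355) (nat_lit 273) (nat_lit 236)) (XT.lf (nat_lit 0) (nat_lit 2971835295) (nat_lit 252) (nat_lit 1260812713) (nat_lit 84) (nat_lit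 11209085027) (nat_lit 22) (nat_lit 5) (nat_lit 25) (nat_lit 5) (nat_lit 23) (nat_lit 5) (nat_lit 356) (nat_lit 273) (nat_lit 235)))))) (XT.nd (nat_lit 470) (nat_lit 336) (nat_lit 0) (XT.nd (nat_lit 188) (nat_lit 168) (nat_lit 0) (XT.nd (nat_lit 94) (nat_lit 0) (nat_lit 0) (XT.lf (nat_lit 0) (nat_lit 3749901932) (nat_lit 168) (nat_lit 1621527626) (nat_lit 252) (nat_lit 10439332864) (nat_lit 20) (nat_lit 5) (nat_lit 22) (nat_lit 5) (nat_lit 23) (nat_lit 5) (nat_lit 357) (nat_lit 273) (nat_lit 234)) (XT.lf (nat_lit 0) (nat_lit 7830891699) (nat_lit 252) (nat_lit 7318005424) (nat_lit 84) (nat_lit 1042870041) (nat_lit 20) (nat_lit 5) (nat_lit 23) (nat_lit 5) (nat_lit 21) (nat_lit 4) (nat_lit 358) (nat_lit 273) (nat_lit 233))) (XT.nd (nat_lit 94) (nat_lit 168) (nat_lit 0) (XT.lf (nat_lit 0) (nat_lit 10345902909) (nat_lit 252) (nat_lit 2502033624) (nat_lit 84) (nat_lit 3737370813) (nat_lit 20) (nat_lit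 5) (nat_lit 23) (nat_lit 5) (nat_lit 21) (nat_lit 4) (nat_lit 359) (nat_lit 273) (nat_lit 232)) (XT.nd (nat_lit 94) (nat_lit 0) (nat_lit 0) (XT.lf (nat_lit 0) (nat_lit 2457135457) (nat_lit 168) (nat_lit 10469961319) (nat_lit 252) (nat_lit 4064396045) (nat_lit 18) (nat_lit 5) (nat_lit 20) (nat_lit 5) (nat_lit 21) (nat_lit 4) (nat_lit 360) (nat_lit 273) (nat_lit 231)) (XT.lf (nat_lit 0) (nat_lit 7568039869) (nat_lit 168) (nat_lit 8010767283) (nat_lit 252) (nat_lit 1831835276) (nat_lit 18) (nat_lit 5) (nat_lit 20) (nat_lit 5) (nat_lit 21) (nat_lit 4) (nat_lit 361) (nat_lit 273) (nat_lit 230))))) (XT.nd (nat_lit 282) (nat_lit 84) (nat_lit 0) (XT.nd (nat_lit 94) (nat_lit 168) (nat_lit 0) (XT.lf (nat_lit 0) (nat_lit 425493724) (nat_lit 252) (nat_lit 5064243293) (nat_lit 84) (nat_lit 12354061561) (nat_lit 17) (nat_lit 5) (nat_lit 20) (nat_lit 5) (nat_lit 18) (nat_lit 5) (nat_lit 362) (nat_lit 273)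 (nat_lit 229)) (XT.nd (nat_lit 94) (nat_lit 168) (nat_lit 0) (XT.lf (nat_lit 0) (nat_lit 2680826950) (nat_lit 252) (nat_lit 209039357) (nat_lit 84) (nat_lit 15401058082) (nat_lit 17) (nat_lit 5) (nat_lit 20) (nat_lit 5) (nat_lit 18) (nat_lit 5) (nat_lit 363) (nat_lit 273) (nat_lit 228)) (XT.lf (nat_lit 0) (nat_lit 4843288304) (nat_lit 168) (nat_lit 177931722) (nat_lit 252) (nat_lit 13730290513) (nat_lit 15) (nat_lit 5) (nat_lit 17) (nat_lit 5) (nat_lit 18) (nat_lit 5) (nat_lit 364) (nat_lit 273) (nat_lit 227)))) (XT.nd (nat_lit 94) (nat_lit 84) (nat_lit 0) (XT.lf (nat_lit 0) (nat_lit 7429749469) (nat_lit 252) (nat_lit 9246977217) (nat_lit 84) (nat_lit 2549851908) (nat_lit 15) (nat_lit 5) (nat_lit 18) (nat_lit 5) (nat_lit 16) (nat_lit 4) (nat_lit 365) (nat_lit 273) (nat_lit 226)) (XT.nd (nat_lit 94) (nat_lit 84) (nat_lit 0) (XT.lf (nat_lit 0) (nat_lit 9883151427) (nat_lit 252) (nat_lit 4492855290)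 (nat_lit 84) (nat_lit 5341355425) (nat_lit 15) (nat_lit 5) (nat_lit 18) (nat_lit 5) (nat_lit 16) (nat_lit 4) (nat_lit 366) (nat_lit 273) (nat_lit 225)) (XT.lf (nat_lit 0) (nat_lit 367749316) (nat_lit 84) (nat_lit 12017846426) (nat_lit 168) (nat_lit 7838664531) (nat_lit 14) (nat_lit 5) (nat_lit 15) (nat_lit 5) (nat_lit 16) (nat_lit 4) (nat_lit 367) (nat_lit 273) (nat_lit 224))))))) (XT.nd (nat_lit 49726) (nat_lit 0) (nat_lit 4368) (XT.nd (nat_lit 470) (nat_lit 0) (nat_lit 0) (XT.nd (nat_lit 188) (nat_lit 252) (nat_lit 0) (XT.nd (nat_lit 94) (nat_lit 0) (nat_lit 0) (XT.lf (nat_lit 0) (nat_lit 5426463449) (nat_lit 84) (nat_lit 9555834939) (nat_lit 168) (nat_lit 5764117694) (nat_lit 14) (nat_lit 5) (nat_lit 15) (nat_lit 5) (nat_lit 16) (nat_lit 4) (nat_lit 368) (nat_lit 273) (nat_lit 223)) (XT.lf (nat_lit 0) (nat_lit 10595620039) (nat_lit 84) (nat_lit 7034573599) (nat_lit 168) (nat_lit 3655532705)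 (nat_lit 14) (nat_lit 5) (nat_lit 15) (nat_lit 5) (nat_lit 16) (nat_lit 4) (nat_lit 369) (nat_lit 273) (nat_lit 222))) (XT.nd (nat_lit 94) (nat_lit 252) (nat_lit 0) (XT.lf (nat_lit 0) (nat_lit 15880037282) (nat_lit 84) (nat_lit 4451712325) (nat_lit 168) (nat_lit 1510944141) (nat_lit 14) (nat_lit 5) (nat_lit 15) (nat_lit 5) (nat_lit 16) (nat_lit 4) (nat_lit 370) (nat_lit 273) (nat_lit 221)) (XT.nd (nat_lit 94) (nat_lit 168) (nat_lit 0) (XT.lf (nat_lit 0) (nat_lit 658114789) (nat_lit 168) (nat_lit 1139859463) (nat_lit 84) (nat_lit 20619656650) (nat_lit 13) (nat_lit 5) (nat_lit 15) (nat_lit 5) (nat_lit 14) (nat_lit 5) (nat_lit 371) (nat_lit 273) (nat_lit 220)) (XT.lf (nat_lit 0) (nat_lit 2883867735) (nat_lit 252) (nat_lit 19167650234) (nat_lit 84) (nat_lit 957800434) (nat_lit 11) (nat_lit 5) (nat_lit 14) (nat_lit 5) (nat_lit 12) (nat_lit 4) (nat_lit 372) (nat_lit 273) (nat_lit 219))))) (XT.nd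 (nat_lit 48974) (nat_lit 0) (nat_lit 7308) (XT.nd (nat_lit 94) (nat_lit 0) (nat_lit 0) (XT.lf (nat_lit 0) (nat_lit 5182196119) (nat_lit 252) (nat_lit 14678916384) (nat_lit 84) (nat_lit 3758175608) (nat_lit 11) (nat_lit 5) (nat_lit 14) (nat_lit 5) (nat_lit 12) (nat_lit 4) (nat_lit 373) (nat_lit 273) (nat_lit 218)) (XT.nd (nat_lit 48786) (nat_lit 0) (nat_lit 7980) (XT.lf (nat_lit 0) (nat_lit 7525748015) (nat_lit 252) (nat_lit 10092946284) (nat_lit 84) (nat_lit 6630328605) (nat_lit 11) (nat_lit 5) (nat_lit 14) (nat_lit 5) (nat_lit 12) (nat_lit 4) (nat_lit 374) (nat_lit 273) (nat_lit 217)) (XT.lf (nat_lit 0) (nat_lit 405911846) (nat_lit 588) (nat_lit 2946731730) (nat_lit 0) (nat_lit 405911846) (nat_lit 106) (nat_lit 5) (nat_lit 113) (nat_lit 4) (nat_lit 106) (nat_lit 4) (nat_lit 316) (nat_lit 274) (nat_lit 274)))) (XT.nd (nat_lit 94) (nat_lit 672) (nat_lit 0) (XT.lf (nat_lit 0) (nat_lit 3654744810)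 (nat_lit 588) (nat_lit 1635068962) (nat_lit 0) (nat_lit 2310928636) (nat_lit 106) (nat_lit 5) (nat_lit 113) (nat_lit 4) (nat_lit 106) (nat_lit 4) (nat_lit 317) (nat_lit 274) (nat_lit 273)) (XT.nd (nat_lit 94) (nat_lit 84) (nat_lit 0) (XT.lf (nat_lit 0) (nat_lit 2721597675) (nat_lit 588) (nat_lit 3807369062) (nat_lit 588) (nat_lit 1160142437) (nat_lit 99) (nat_lit 4) (nat_lit 106) (nat_lit 5) (nat_lit 106) (nat_lit 4) (nat_lit 318) (nat_lit 274) (nat_lit 272)) (XT.lf (nat_lit 0) (nat_lit 1611441041) (nat_lit 672) (nat_lit 638609510) (nat_lit 84) (nat_lit 5532046895) (nat_lit 98) (nat_lit 5) (nat_lit 106) (nat_lit 5) (nat_lit 99) (nat_lit 4) (nat_lit 319) (nat_lit 274) (nat_lit 271)))))) (XT.nd (nat_lit 470) (nat_lit 1428) (nat_lit 0) (XT.nd (nat_lit 188) (nat_lit 504) (nat_lit 0) (XT.nd (nat_lit 94) (nat_lit 504) (nat_lit 0) (XT.lf (nat_lit 0) (nat_lit 3802178571) (nat_lit 504) (nat_lit 599511263)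 (nat_lit 588) (nat_lit 3477596058) (nat_lit 92) (nat_lit 5) (nat_lit 98) (nat_lit 5) (nat_lit 99) (nat_lit 4) (nat_lit 320) (nat_lit 274) (nat_lit 270)) (XT.lf (nat_lit 0) (nat_lit 321467922) (nat_lit 504) (nat_lit 6898461012) (nat_lit 504) (nat_lit 761709090) (nat_lit 86) (nat_lit 4) (nat_lit 92) (nat_lit 5) (nat_lit 92) (nat_lit 4) (nat_lit 321) (nat_lit 274) (nat_lit 269))) (XT.nd (nat_lit 94) (nat_lit 420) (nat_lit 0) (XT.lf (nat_lit 0) (nat_lit 1967457736) (nat_lit 588) (nat_lit 3259736495) (nat_lit 84) (nat_lit 2860584306) (nat_lit 85) (nat_lit 5) (nat_lit 92) (nat_lit 5) (nat_lit 86) (nat_lit 4) (nat_lit 322) (nat_lit 274) (nat_lit 268)) (XT.nd (nat_lit 94) (nat_lit 0) (nat_lit 0) (XT.lf (nat_lit 0) (nat_lit 1206393934) (nat_lit 420) (nat_lit 3494386776) (nat_lit 504) (nat_lit 3498498192) (nat_lit 80) (nat_lit 5) (nat_lit 85) (nat_lit 5) (nat_lit 86) (nat_lit 4) (nat_lit 323) (nat_lit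 274) (nat_lit 267)) (XT.lf (nat_lit 0) (nat_lit 5793729978) (nat_lit 420) (nat_lit 1683984970) (nat_lit 504) (nat_lit 838093969) (nat_lit 80) (nat_lit 5) (nat_lit 85) (nat_lit 5) (nat_lit 86) (nat_lit 4) (nat_lit 324) (nat_lit 274) (nat_lit 266))))) (XT.nd (nat_lit 282) (nat_lit 504) (nat_lit 0) (XT.nd (nat_lit 94) (nat_lit 420) (nat_lit 0) (XT.lf (nat_lit 0) (nat_lit 1814658179) (nat_lit 504) (nat_lit 6415764336) (nat_lit 84) (nat_lit 206827942) (nat_lit 74) (nat_lit 5) (nat_lit 80) (nat_lit 5) (nat_lit 75) (nat_lit 4) (nat_lit 325) (nat_lit 274) (nat_lit 265)) (XT.nd (nat_lit 94) (nat_lit 420) (nat_lit 0) (XT.lf (nat_lit 0) (nat_lit 4503399844) (nat_lit 504) (nat_lit 1915423769) (nat_lit 84) (nat_lit 2144533532) (nat_lit 74) (nat_lit 5) (nat_lit 80) (nat_lit 5) (nat_lit 75) (nat_lit 4) (nat_lit 326) (nat_lit 274) (nat_lit 264)) (XT.lf (nat_lit 0) (nat_lit 2694241412) (nat_lit 420) (nat_lit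 4537508462) (nat_lit 504) (nat_lit 1463243353) (nat_lit 69) (nat_lit 5) (nat_lit 74) (nat_lit 5) (nat_lit 75) (nat_lit 4) (nat_lit 327) (nat_lit 274) (nat_lit 263)))) (XT.nd (nat_lit 94) (nat_lit 420) (nat_lit 0) (XT.lf (nat_lit 0) (nat_lit 1139568611) (nat_lit 504) (nat_lit 1440229604) (nat_lit 84) (nat_lit 6252335093) (nat_lit 68) (nat_lit 5) (nat_lit 74) (nat_lit 5) (nat_lit 69) (nat_lit 5) (nat_lit 328) (nat_lit 274) (nat_lit 262)) (XT.nd (nat_lit 94) (nat_lit 0) (nat_lit 0) (XT.lf (nat_lit 0) (nat_lit 3229021413) (nat_lit 420) (nat_lit 527653620) (nat_lit 504) (nat_lit 5217742650) (nat_lit 63) (nat_lit 5) (nat_lit 68) (nat_lit 5) (nat_lit 69) (nat_lit 5) (nat_lit 329) (nat_lit 274) (nat_lit 261)) (XT.lf (nat_lit 0) (nat_lit 6418905975) (nat_lit 504) (nat_lit 1147059842) (nat_lit 84) (nat_lit 1556496944) (nat_lit 63) (nat_lit 5) (nat_lit 69) (nat_lit 5) (nat_lit 64) (nat_lit 4) (nat_lit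 330) (nat_lit 274) (nat_lit 260))))))))
noncomputable def xc20 : XT := (XT.nd (nat_lit 1974) (nat_lit 1176) (nat_lit 0) (XT.nd (nat_lit 940) (nat_lit 1344) (nat_lit 0) (XT.nd (nat_lit 470) (nat_lit 672) (nat_lit 0) (XT.nd (nat_lit 188) (nat_lit 756) (nat_lit 0) (XT.nd (nat_lit 94) (nat_lit 84) (nat_lit 0) (XT.lf (nat_lit 0) (nat_lit 3579008461) (nat_lit 336) (nat_lit 5560624627) (nat_lit 420) (nat_lit 136435851) (nat_lit 59) (nat_lit 5) (nat_lit 63) (nat_lit 5) (nat_lit 64) (nat_lit 4) (nat_lit 331) (nat_lit 274) (nat_lit 259)) (XT.lf (nat_lit 0) (nat_lit 2407135187) (nat_lit 420) (nat_lit 1065434526) (nat_lit 84) (nat_lit 5962937671) (nat_lit 58) (nat_lit 5) (nat_lit 63) (nat_lit 5) (nat_lit 59) (nat_lit 5) (nat_lit 332) (nat_lit 274) (nat_lit 258))) (XT.nd (nat_lit 94) (nat_lit 420) (nat_lit 0) (XT.lf (nat_lit 0) (nat_lit 3703214782) (nat_lit 336) (nat_lit 1297538496) (nat_lit 420) (nat_lit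 4600103784) (nat_lit 54) (nat_lit 5) (nat_lit 58) (nat_lit 5) (nat_lit 59) (nat_lit 5) (nat_lit 333) (nat_lit 274) (nat_lit 257)) (XT.nd (nat_lit 94) (nat_lit 420) (nat_lit 0) (XT.lf (nat_lit 0) (nat_lit 7633605884) (nat_lit 420) (nat_lit 1219100044) (nat_lit 84) (nat_lit 920103472) (nat_lit 54) (nat_lit 5) (nat_lit 59) (nat_lit 5) (nat_lit 55) (nat_lit 4) (nat_lit 334) (nat_lit 274) (nat_lit 256)) (XT.lf (nat_lit 0) (nat_lit 378577597) (nat_lit 420) (nat_lit 6369498988) (nat_lit 84) (nat_lit 3202435070) (nat_lit 49) (nat_lit 5) (nat_lit 54) (nat_lit 5) (nat_lit 50) (nat_lit 5) (nat_lit 335) (nat_lit 274) (nat_lit 255))))) (XT.nd (nat_lit 188) (nat_lit 336) (nat_lit 0) (XT.nd (nat_lit 94) (nat_lit 336) (nat_lit 0) (XT.lf (nat_lit 0) (nat_lit 2883153959) (nat_lit 420) (nat_lit 1678650903) (nat_lit 84) (nat_lit 5572874043) (nat_lit 49) (nat_lit 5) (nat_lit 54) (nat_lit 5) (nat_lit 50) (nat_lit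 5) (nat_lit 336) (nat_lit 274) (nat_lit 254)) (XT.lf (nat_lit 0) (nat_lit 3144254477) (nat_lit 336) (nat_lit 2294428670) (nat_lit 420) (nat_lit 4886877115) (nat_lit 45) (nat_lit 5) (nat_lit 49) (nat_lit 5) (nat_lit 50) (nat_lit 5) (nat_lit 337) (nat_lit 274) (nat_lit 253))) (XT.nd (nat_lit 94) (nat_lit 336) (nat_lit 0) (XT.lf (nat_lit 0) (nat_lit 8034481313) (nat_lit 420) (nat_lit 2447846596) (nat_lit 84) (nat_lit 41410779) (nat_lit 45) (nat_lit 5) (nat_lit 50) (nat_lit 5) (nat_lit 46) (nat_lit 4) (nat_lit 338) (nat_lit 274) (nat_lit 252)) (XT.nd (nat_lit 94) (nat_lit 84) (nat_lit 0) (XT.lf (nat_lit 0) (nat_lit 2381522076) (nat_lit 252) (nat_lit 8320952875) (nat_lit 336) (nat_lit 26009239) (nat_lit 42) (nat_lit 5) (nat_lit 45) (nat_lit 5) (nat_lit 46) (nat_lit 4) (nat_lit 339) (nat_lit 274) (nat_lit 251)) (XT.lf (nat_lit 0) (nat_lit 2433611431) (nat_lit 336) (nat_lit 3627359042) (nat_lit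 84) (nat_lit 4878900174) (nat_lit 41) (nat_lit 5) (nat_lit 45) (nat_lit 5) (nat_lit 42) (nat_lit 5) (nat_lit 340) (nat_lit 274) (nat_lit 250)))))) (XT.nd (nat_lit 470) (nat_lit 756) (nat_lit 0) (XT.nd (nat_lit 188) (nat_lit 336) (nat_lit 0) (XT.nd (nat_lit 94) (nat_lit 0) (nat_lit 0) (XT.lf (nat_lit 0) (nat_lit 1188643538) (nat_lit 252) (nat_lit 3738589916) (nat_lit 336) (nat_lit 6232013712) (nat_lit 38) (nat_lit 5) (nat_lit 41) (nat_lit 5) (nat_lit 42) (nat_lit 5) (nat_lit 341) (nat_lit 274) (nat_lit 249)) (XT.lf (nat_lit 0) (nat_lit 6157994655) (nat_lit 252) (nat_lit 1325413127) (nat_lit 336) (nat_lit 3902621666) (nat_lit 38) (nat_lit 5) (nat_lit 41) (nat_lit 5) (nat_lit 42) (nat_lit 5) (nat_lit 342) (nat_lit 274) (nat_lit 248))) (XT.nd (nat_lit 94) (nat_lit 336) (nat_lit 0) (XT.lf (nat_lit 0) (nat_lit 10079131460) (nat_lit 336) (nat_lit 422165171) (nat_lit 84) (nat_lit 1119919200) (nat_lit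 38) (nat_lit 5) (nat_lit 42) (nat_lit 5) (nat_lit 39) (nat_lit 4) (nat_lit 343) (nat_lit 274) (nat_lit 247)) (XT.nd (nat_lit 94) (nat_lit 0) (nat_lit 0) (XT.lf (nat_lit 0) (nat_lit 882534587) (nat_lit 336) (nat_lit 7331892618) (nat_lit 84) (nat_lit 3648851539) (nat_lit 34) (nat_lit 5) (nat_lit 38) (nat_lit 5) (nat_lit 35) (nat_lit 5) (nat_lit 344) (nat_lit 274) (nat_lit 246)) (XT.lf (nat_lit 0) (nat_lit 3305225221) (nat_lit 336) (nat_lit 2551534318) (nat_lit 84) (nat_lit 6257124810) (nat_lit 34) (nat_lit 5) (nat_lit 38) (nat_lit 5) (nat_lit 35) (nat_lit 5) (nat_lit 345) (nat_lit 274) (nat_lit 245))))) (XT.nd (nat_lit 282) (nat_lit 504) (nat_lit 0) (XT.nd (nat_lit 94) (nat_lit 0) (nat_lit 0) (XT.lf (nat_lit 0) (nat_lit 2356149151) (nat_lit 252) (nat_lit 3422221678) (nat_lit 336) (nat_lit 6594778911) (nat_lit 31) (nat_lit 5) (nat_lit 34) (nat_lit 5) (nat_lit 35) (nat_lit 5) (nat_lit 346) (nat_lit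 274) (nat_lit 244)) (XT.nd (nat_lit 94) (nat_lit 0) (nat_lit 0) (XT.lf (nat_lit 0) (nat_lit 7402416756) (nat_lit 252) (nat_lit 905151117) (nat_lit 336) (nat_lit 4333646679) (nat_lit 31) (nat_lit 5) (nat_lit 34) (nat_lit 5) (nat_lit 35) (nat_lit 5) (nat_lit 347) (nat_lit 274) (nat_lit 243)) (XT.lf (nat_lit 0) (nat_lit 10885910087) (nat_lit 336) (nat_lit 396190325) (nat_lit 84) (nat_lit 1636515415) (nat_lit 31) (nat_lit 5) (nat_lit 35) (nat_lit 5) (nat_lit 32) (nat_lit 4) (nat_lit 348) (nat_lit 274) (nat_lit 242)))) (XT.nd (nat_lit 94) (nat_lit 252) (nat_lit 0) (XT.lf (nat_lit 0) (nat_lit 343117414) (nat_lit 252) (nat_lit 8592556595) (nat_lit 84) (nat_lit 4268628200) (nat_lit 28) (nat_lit 5) (nat_lit 31) (nat_lit 5) (nat_lit 29) (nat_lit 5) (nat_lit 349) (nat_lit 274) (nat_lit 241)) (XT.nd (nat_lit 94) (nat_lit 252) (nat_lit 0) (XT.lf (nat_lit 0) (nat_lit 2710049253) (nat_lit 252) (nat_lit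 3801530462) (nat_lit 84) (nat_lit 6987979466) (nat_lit 28) (nat_lit 5) (nat_lit 31) (nat_lit 5) (nat_lit 29) (nat_lit 5) (nat_lit 350) (nat_lit 274) (nat_lit 240)) (XT.lf (nat_lit 0) (nat_lit 1096770349) (nat_lit 252) (nat_lit 4021308147) (nat_lit 336) (nat_lit 8686996894) (nat_lit 25) (nat_lit 5) (nat_lit 28) (nat_lit 5) (nat_lit 29) (nat_lit 5) (nat_lit 351) (nat_lit 274) (nat_lit 239))))))) (XT.nd (nat_lit 940) (nat_lit 588) (nat_lit 0) (XT.nd (nat_lit 470) (nat_lit 336) (nat_lit 0) (XT.nd (nat_lit 188) (nat_lit 252) (nat_lit 0) (XT.nd (nat_lit 94) (nat_lit 0) (nat_lit 0) (XT.lf (nat_lit 0) (nat_lit 6164805631) (nat_lit 252) (nat_lit 1433149249) (nat_lit 336) (nat_lit 6522297068) (nat_lit 25) (nat_lit 5) (nat_lit 28) (nat_lit 5) (nat_lit 29) (nat_lit 5) (nat_lit 352) (nat_lit 274) (nat_lit 238)) (XT.lf (nat_lit 0) (nat_lit 10125562021) (nat_lit 336) (nat_lit 3129502866) (nat_lit 84) (nat_lit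 1191137011) (nat_lit 25) (nat_lit 5) (nat_lit 29) (nat_lit 5) (nat_lit 26) (nat_lit 4) (nat_lit 353) (nat_lit 274) (nat_lit 237))) (XT.nd (nat_lit 94) (nat_lit 84) (nat_lit 0) (XT.lf (nat_lit 0) (nat_lit 1807671723) (nat_lit 168) (nat_lit 10916288948) (nat_lit 252) (nat_lit 2058626541) (nat_lit 23) (nat_lit 5) (nat_lit 25) (nat_lit 5) (nat_lit 26) (nat_lit 4) (nat_lit 354) (nat_lit 274) (nat_lit 236)) (XT.nd (nat_lit 94) (nat_lit 0) (nat_lit 0) (XT.lf (nat_lit 0) (nat_lit 260964733) (nat_lit 252) (nat_lit 8227633612) (nat_lit 84) (nat_lit 6641026775) (nat_lit 22) (nat_lit 5) (nat_lit 25) (nat_lit 5) (nat_lit 23) (nat_lit 5) (nat_lit 355) (nat_lit 274) (nat_lit 235)) (XT.lf (nat_lit 0) (nat_lit 2570870989) (nat_lit 252) (nat_lit 3412864549) (nat_lit 84) (nat_lit 9504324670) (nat_lit 22) (nat_lit 5) (nat_lit 25) (nat_lit 5) (nat_lit 23) (nat_lit 5) (nat_lit 356) (nat_lit 274) (nat_lit 234)))))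 (XT.nd (nat_lit 188) (nat_lit 168) (nat_lit 0) (XT.nd (nat_lit 94) (nat_lit 0) (nat_lit 0) (XT.lf (nat_lit 0) (nat_lit 1525027298) (nat_lit 168) (nat_lit 3404823200) (nat_lit 252) (nat_lit 10928540174) (nat_lit 20) (nat_lit 5) (nat_lit 22) (nat_lit 5) (nat_lit 23) (nat_lit 5) (nat_lit 357) (nat_lit 274) (nat_lit 233)) (XT.lf (nat_lit 0) (nat_lit 6632059438) (nat_lit 168) (nat_lit 728434007) (nat_lit 252) (nat_lit 8879836117) (nat_lit 20) (nat_lit 5) (nat_lit 22) (nat_lit 5) (nat_lit 23) (nat_lit 5) (nat_lit 358) (nat_lit 274) (nat_lit 232))) (XT.nd (nat_lit 94) (nat_lit 168) (nat_lit 0) (XT.lf (nat_lit 0) (nat_lit 9850475557) (nat_lit 252) (nat_lit 4812449642) (nat_lit 84) (nat_lit 1971759976) (nat_lit 20) (nat_lit 5) (nat_lit 23) (nat_lit 5) (nat_lit 21) (nat_lit 4) (nat_lit 359) (nat_lit 274) (nat_lit 231)) (XT.nd (nat_lit 94) (nat_lit 0) (nat_lit 0) (XT.lf (nat_lit 0) (nat_lit 72112248)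 (nat_lit 168) (nat_lit 12318629804) (nat_lit 252) (nat_lit 4651435686) (nat_lit 18) (nat_lit 5) (nat_lit 20) (nat_lit 5) (nat_lit 21) (nat_lit 4) (nat_lit 360) (nat_lit 274) (nat_lit 230)) (XT.lf (nat_lit 0) (nat_lit 5156731209) (nat_lit 168) (nat_lit 9868712020) (nat_lit 252) (nat_lit 2436448589) (nat_lit 18) (nat_lit 5) (nat_lit 20) (nat_lit 5) (nat_lit 21) (nat_lit 4) (nat_lit 361) (nat_lit 274) (nat_lit 229)))))) (XT.nd (nat_lit 470) (nat_lit 336) (nat_lit 0) (XT.nd (nat_lit 188) (nat_lit 168) (nat_lit 0) (XT.nd (nat_lit 94) (nat_lit 84) (nat_lit 0) (XT.lf (nat_lit 0) (nat_lit 10347192803) (nat_lit 168) (nat_lit 7361120370) (nat_lit 252) (nat_lit 187415833) (nat_lit 18) (nat_lit 5) (nat_lit 20) (nat_lit 5) (nat_lit 21) (nat_lit 4) (nat_lit 362) (nat_lit 274) (nat_lit 228)) (XT.lf (nat_lit 0) (nat_lit 2055493748) (nat_lit 252) (nat_lit 2716568630) (nat_lit 84) (nat_lit 13571386197) (nat_lit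 17) (nat_lit 5) (nat_lit 20) (nat_lit 5) (nat_lit 18) (nat_lit 5) (nat_lit 363) (nat_lit 274) (nat_lit 227))) (XT.nd (nat_lit 94) (nat_lit 0) (nat_lit 0) (XT.lf (nat_lit 0) (nat_lit 2259357606) (nat_lit 168) (nat_lit 2095183739) (nat_lit 252) (nat_lit 14450808001) (nat_lit 15) (nat_lit 5) (nat_lit 17) (nat_lit 5) (nat_lit 18) (nat_lit 5) (nat_lit 364) (nat_lit 274) (nat_lit 226)) (XT.nd (nat_lit 94) (nat_lit 0) (nat_lit 0) (XT.lf (nat_lit 0) (nat_lit 6728486803) (nat_lit 252) (nat_lit 11890248204) (nat_lit 84) (nat_lit 662786421) (nat_lit 15) (nat_lit 5) (nat_lit 18) (nat_lit 5) (nat_lit 16) (nat_lit 4) (nat_lit 365) (nat_lit 274) (nat_lit 225)) (XT.lf (nat_lit 0) (nat_lit 9166792148) (nat_lit 252) (nat_lit 7159909846) (nat_lit 84) (nat_lit 3446101941) (nat_lit 15) (nat_lit 5) (nat_lit 18) (nat_lit 5) (nat_lit 16) (nat_lit 4) (nat_lit 366) (nat_lit 274) (nat_lit 224))))) (XT.nd (nat_lit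 282) (nat_lit 252) (nat_lit 0) (XT.nd (nat_lit 94) (nat_lit 84) (nat_lit 0) (XT.lf (nat_lit 0) (nat_lit 11650945654) (nat_lit 252) (nat_lit 2329783015) (nat_lit 84) (nat_lit 6299570444) (nat_lit 15) (nat_lit 5) (nat_lit 18) (nat_lit 5) (nat_lit 16) (nat_lit 4) (nat_lit 367) (nat_lit 274) (nat_lit 223)) (XT.nd (nat_lit 94) (nat_lit 0) (nat_lit 0) (XT.lf (nat_lit 0) (nat_lit 2658191100) (nat_lit 84) (nat_lit 11551441298) (nat_lit 168) (nat_lit 6594030145) (nat_lit 14) (nat_lit 5) (nat_lit 15) (nat_lit 5) (nat_lit 16) (nat_lit 4) (nat_lit 368) (nat_lit 274) (nat_lit 222)) (XT.lf (nat_lit 0) (nat_lit 7805199388) (nat_lit 84) (nat_lit 9038333167) (nat_lit 168) (nat_lit 4499902349) (nat_lit 14) (nat_lit 5) (nat_lit 15) (nat_lit 5) (nat_lit 16) (nat_lit 4) (nat_lit 369) (nat_lit 274) (nat_lit 221)))) (XT.nd (nat_lit 94) (nat_lit 252) (nat_lit 0) (XT.lf (nat_lit 0) (nat_lit 13068134282) (nat_lit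 84) (nat_lit 6463379953) (nat_lit 168) (nat_lit 2369336281) (nat_lit 14) (nat_lit 5) (nat_lit 15) (nat_lit 5) (nat_lit 16) (nat_lit 4) (nat_lit 370) (nat_lit 274) (nat_lit 220)) (XT.nd (nat_lit 94) (nat_lit 252) (nat_lit 0) (XT.lf (nat_lit 0) (nat_lit 18451901388) (nat_lit 84) (nat_lit 3824181531) (nat_lit 168) (nat_lit 200346030) (nat_lit 14) (nat_lit 5) (nat_lit 15) (nat_lit 5) (nat_lit 16) (nat_lit 4) (nat_lit 371) (nat_lit 274) (nat_lit 219)) (XT.lf (nat_lit 0) (nat_lit 888788933) (nat_lit 168) (nat_lit 1088639403) (nat_lit 252) (nat_lit 21092387198) (nat_lit 11) (nat_lit 5) (nat_lit 13) (nat_lit 5) (nat_lit 14) (nat_lit 5) (nat_lit 372) (nat_lit 274) (nat_lit 218))))))))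
noncomputable def xc21 : XT := (XT.nd (nat_lit 50478) (nat_lit 0) (nat_lit 1176) (XT.nd (nat_lit 49444) (nat_lit 0) (nat_lit 3948) (XT.nd (nat_lit 48974) (nat_lit 0) (nat_lit 6216) (XT.nd (nat_lit 48692) (nat_lit 0) (nat_lit 7980) (XT.nd (nat_lit 94) (nat_lit 0) (nat_lit 0) (XT.lf (nat_lit 0) (nat_lit 4252143561) (nat_lit 252) (nat_lit 17702130685) (nat_lit 84) (nat_lit 1726267258) (nat_lit 11) (nat_lit 5) (nat_lit 14) (nat_lit 5) (nat_lit 12) (nat_lit 4) (nat_lit 373) (nat_lit 274) (nat_lit 217)) (XT.lf (nat_lit 0) (nat_lit 6583267018) (nat_lit 252) (nat_lit 13136177432) (nat_lit 84) (nat_lit 4591240653) (nat_lit 11) (nat_lit 5) (nat_lit 14) (nat_lit 5) (nat_lit 12) (nat_lit 4) (nat_lit 374) (nat_lit 274) (nat_lit 216))) (XT.nd (nat_lit 94) (nat_lit 588) (nat_lit 0) (XT.lf (nat_lit 0) (nat_lit 272709232) (nat_lit 1092) (nat_lit 1703755771) (nat_lit 1092) (nat_lit 1703755771) (nat_lit 113)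 (nat_lit 4) (nat_lit 126) (nat_lit 5) (nat_lit 126) (nat_lit 4) (nat_lit 314) (nat_lit 275) (nat_lit 275)) (XT.nd (nat_lit 94) (nat_lit 588) (nat_lit 0) (XT.lf (nat_lit 0) (nat_lit 4790970829) (nat_lit 1092) (nat_lit 2037386991) (nat_lit 1092) (nat_lit 608962806) (nat_lit 113) (nat_lit 4) (nat_lit 126) (nat_lit 5) (nat_lit 126) (nat_lit 4) (nat_lit 315) (nat_lit 275) (nat_lit 274)) (XT.lf (nat_lit 0) (nat_lit 1574200761) (nat_lit 504) (nat_lit 586360253) (nat_lit 588) (nat_lit 5357882040) (nat_lit 106) (nat_lit 5) (nat_lit 112) (nat_lit 5) (nat_lit 113) (nat_lit 4) (nat_lit 316) (nat_lit 275) (nat_lit 273))))) (XT.nd (nat_lit 188) (nat_lit 1092) (nat_lit 0) (XT.nd (nat_lit 94) (nat_lit 672) (nat_lit 0) (XT.lf (nat_lit 0) (nat_lit 4956390954) (nat_lit 588) (nat_lit 1723641181) (nat_lit 0) (nat_lit 923689854) (nat_lit 106) (nat_lit 5) (nat_lit 113) (nat_lit 4) (nat_lit 106) (nat_lit 4) (nat_lit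 317) (nat_lit 275) (nat_lit 272)) (XT.lf (nat_lit 0) (nat_lit 93773604) (nat_lit 672) (nat_lit 5106466550) (nat_lit 84) (nat_lit 2493283182) (nat_lit 98) (nat_lit 5) (nat_lit 106) (nat_lit 5) (nat_lit 99) (nat_lit 4) (nat_lit 318) (nat_lit 275) (nat_lit 271))) (XT.nd (nat_lit 94) (nat_lit 1092) (nat_lit 0) (XT.lf (nat_lit 0) (nat_lit 2802163514) (nat_lit 672) (nat_lit 831933862) (nat_lit 84) (nat_lit 4153462991) (nat_lit 98) (nat_lit 5) (nat_lit 106) (nat_lit 5) (nat_lit 99) (nat_lit 4) (nat_lit 319) (nat_lit 275) (nat_lit 270)) (XT.nd (nat_lit 94) (nat_lit 588) (nat_lit 0) (XT.lf (nat_lit 0) (nat_lit 3562452454) (nat_lit 504) (nat_lit 1988959737) (nat_lit 588) (nat_lit 2334773609) (nat_lit 92) (nat_lit 5) (nat_lit 98) (nat_lit 5) (nat_lit 99) (nat_lit 4) (nat_lit 320) (nat_lit 275) (nat_lit 269)) (XT.lf (nat_lit 0) (nat_lit 34255910) (nat_lit 504) (nat_lit 286837326) (nat_lit 588) (nat_lit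 7669106235) (nat_lit 85) (nat_lit 5) (nat_lit 91) (nat_lit 5) (nat_lit 92) (nat_lit 5) (nat_lit 321) (nat_lit 275) (nat_lit 268)))))) (XT.nd (nat_lit 470) (nat_lit 1344) (nat_lit 0) (XT.nd (nat_lit 188) (nat_lit 504) (nat_lit 0) (XT.nd (nat_lit 94) (nat_lit 420) (nat_lit 0) (XT.lf (nat_lit 0) (nat_lit 2994355842) (nat_lit 588) (nat_lit 3603171148) (nat_lit 84) (nat_lit 1499987491) (nat_lit 85) (nat_lit 5) (nat_lit 92) (nat_lit 5) (nat_lit 86) (nat_lit 4) (nat_lit 322) (nat_lit 275) (nat_lit 267)) (XT.lf (nat_lit 0) (nat_lit 813381987) (nat_lit 420) (nat_lit 4873820003) (nat_lit 504) (nat_lit 2523214542) (nat_lit 80) (nat_lit 5) (nat_lit 85) (nat_lit 5) (nat_lit 86) (nat_lit 4) (nat_lit 323) (nat_lit 275) (nat_lit 266))) (XT.nd (nat_lit 94) (nat_lit 420) (nat_lit 0) (XT.lf (nat_lit 0) (nat_lit 98031604) (nat_lit 504) (nat_lit 2969713212) (nat_lit 84) (nat_lit 5260425958) (nat_lit 79) (nat_lit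 5) (nat_lit 85) (nat_lit 5) (nat_lit 80) (nat_lit 5) (nat_lit 324) (nat_lit 275) (nat_lit 265)) (XT.nd (nat_lit 94) (nat_lit 0) (nat_lit 0) (XT.lf (nat_lit 0) (nat_lit 1516624188) (nat_lit 420) (nat_lit 1174850464) (nat_lit 504) (nat_lit 5759329101) (nat_lit 74) (nat_lit 5) (nat_lit 79) (nat_lit 5) (nat_lit 80) (nat_lit 5) (nat_lit 325) (nat_lit 275) (nat_lit 264)) (XT.lf (nat_lit 0) (nat_lit 5333864543) (nat_lit 504) (nat_lit 2463774145) (nat_lit 84) (nat_lit 780838675) (nat_lit 74) (nat_lit 5) (nat_lit 80) (nat_lit 5) (nat_lit 75) (nat_lit 4) (nat_lit 326) (nat_lit 275) (nat_lit 263))))) (XT.nd (nat_lit 282) (nat_lit 420) (nat_lit 0) (XT.nd (nat_lit 94) (nat_lit 504) (nat_lit 0) (XT.lf (nat_lit 0) (nat_lit 2093447079) (nat_lit 420) (nat_lit 5929153698) (nat_lit 504) (nat_lit 688866803) (nat_lit 69) (nat_lit 5) (nat_lit 74) (nat_lit 5) (nat_lit 75) (nat_lit 4) (nat_lit 327) (nat_lit 275)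 (nat_lit 262)) (XT.nd (nat_lit 94) (nat_lit 420) (nat_lit 0) (XT.lf (nat_lit 0) (nat_lit 1864847385) (nat_lit 504) (nat_lit 2105918473) (nat_lit 84) (nat_lit 4878760672) (nat_lit 68) (nat_lit 5) (nat_lit 74) (nat_lit 5) (nat_lit 69) (nat_lit 5) (nat_lit 328) (nat_lit 275) (nat_lit 261)) (XT.lf (nat_lit 0) (nat_lit 2509318782) (nat_lit 420) (nat_lit 1933006819) (nat_lit 504) (nat_lit 4550828849) (nat_lit 63) (nat_lit 5) (nat_lit 68) (nat_lit 5) (nat_lit 69) (nat_lit 5) (nat_lit 329) (nat_lit 275) (nat_lit 260)))) (XT.nd (nat_lit 94) (nat_lit 420) (nat_lit 0) (XT.lf (nat_lit 0) (nat_lit 7058643897) (nat_lit 504) (nat_lit 1911700228) (nat_lit 84) (nat_lit 172390305) (nat_lit 63) (nat_lit 5) (nat_lit 69) (nat_lit 5) (nat_lit 64) (nat_lit 4) (nat_lit 330) (nat_lit 275) (nat_lit 259)) (XT.nd (nat_lit 94) (nat_lit 0) (nat_lit 0) (XT.lf (nat_lit 0) (nat_lit 433646436) (nat_lit 420) (nat_lit 6543143018)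 (nat_lit 84) (nat_lit 2320736823) (nat_lit 58) (nat_lit 5) (nat_lit 63) (nat_lit 5) (nat_lit 59) (nat_lit 5) (nat_lit 331) (nat_lit 275) (nat_lit 258)) (XT.lf (nat_lit 0) (nat_lit 2943594197) (nat_lit 420) (nat_lit 1952148298) (nat_lit 84) (nat_lit 4562239218) (nat_lit 58) (nat_lit 5) (nat_lit 63) (nat_lit 5) (nat_lit 59) (nat_lit 5) (nat_lit 332) (nat_lit 275) (nat_lit 257))))))) (XT.nd (nat_lit 1034) (nat_lit 1092) (nat_lit 0) (XT.nd (nat_lit 470) (nat_lit 588) (nat_lit 0) (XT.nd (nat_lit 188) (nat_lit 756) (nat_lit 0) (XT.nd (nat_lit 94) (nat_lit 0) (nat_lit 0) (XT.lf (nat_lit 0) (nat_lit 2759388237) (nat_lit 336) (nat_lit 2738515103) (nat_lit 420) (nat_lit 4126745409) (nat_lit 54) (nat_lit 5) (nat_lit 58) (nat_lit 5) (nat_lit 59) (nat_lit 5) (nat_lit 333) (nat_lit 275) (nat_lit 256)) (XT.lf (nat_lit 0) (nat_lit 7581775727) (nat_lit 336) (nat_lit 510245241) (nat_lit 420) (nat_lit 1705876712)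 (nat_lit 54) (nat_lit 5) (nat_lit 58) (nat_lit 5) (nat_lit 59) (nat_lit 5) (nat_lit 334) (nat_lit 275) (nat_lit 255))) (XT.nd (nat_lit 94) (nat_lit 336) (nat_lit 0) (XT.lf (nat_lit 0) (nat_lit 758533003) (nat_lit 420) (nat_lit 7450496405) (nat_lit 84) (nat_lit 1767911271) (nat_lit 49) (nat_lit 5) (nat_lit 54) (nat_lit 5) (nat_lit 50) (nat_lit 5) (nat_lit 335) (nat_lit 275) (nat_lit 254)) (XT.nd (nat_lit 94) (nat_lit 336) (nat_lit 0) (XT.lf (nat_lit 0) (nat_lit 3234610875) (nat_lit 420) (nat_lit 2797417259) (nat_lit 84) (nat_lit 4130050675) (nat_lit 49) (nat_lit 5) (nat_lit 54) (nat_lit 5) (nat_lit 50) (nat_lit 5) (nat_lit 336) (nat_lit 275) (nat_lit 253)) (XT.lf (nat_lit 0) (nat_lit 1965097429) (nat_lit 336) (nat_lit 3785703648) (nat_lit 420) (nat_lit 4603463392) (nat_lit 45) (nat_lit 5) (nat_lit 49) (nat_lit 5) (nat_lit 50) (nat_lit 5) (nat_lit 337) (nat_lit 275) (nat_lit 252))))) (XT.nd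 (nat_lit 282) (nat_lit 252) (nat_lit 0) (XT.nd (nat_lit 94) (nat_lit 336) (nat_lit 0) (XT.lf (nat_lit 0) (nat_lit 6860904861) (nat_lit 336) (nat_lit 1458104931) (nat_lit 420) (nat_lit 2234370623) (nat_lit 45) (nat_lit 5) (nat_lit 49) (nat_lit 5) (nat_lit 50) (nat_lit 5) (nat_lit 338) (nat_lit 275) (nat_lit 251)) (XT.nd (nat_lit 94) (nat_lit 0) (nat_lit 0) (XT.lf (nat_lit 0) (nat_lit 169914597) (nat_lit 336) (nat_lit 9672249552) (nat_lit 84) (nat_lit 917653656) (nat_lit 41) (nat_lit 5) (nat_lit 45) (nat_lit 5) (nat_lit 42) (nat_lit 5) (nat_lit 339) (nat_lit 275) (nat_lit 250)) (XT.lf (nat_lit 0) (nat_lit 2602670469) (nat_lit 336) (nat_lit 4989138217) (nat_lit 84) (nat_lit 3380279190) (nat_lit 41) (nat_lit 5) (nat_lit 45) (nat_lit 5) (nat_lit 42) (nat_lit 5) (nat_lit 340) (nat_lit 275) (nat_lit 249)))) (XT.nd (nat_lit 94) (nat_lit 252) (nat_lit 0) (XT.lf (nat_lit 0) (nat_lit 5058952243) (nat_lit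 336) (nat_lit 232228405) (nat_lit 84) (nat_lit 5901514088) (nat_lit 41) (nat_lit 5) (nat_lit 45) (nat_lit 5) (nat_lit 42) (nat_lit 5) (nat_lit 341) (nat_lit 275) (nat_lit 248)) (XT.nd (nat_lit 94) (nat_lit 0) (nat_lit 0) (XT.lf (nat_lit 0) (nat_lit 4697559171) (nat_lit 252) (nat_lit 2890090628) (nat_lit 336) (nat_lit 3832749602) (nat_lit 38) (nat_lit 5) (nat_lit 41) (nat_lit 5) (nat_lit 42) (nat_lit 5) (nat_lit 342) (nat_lit 275) (nat_lit 247)) (XT.lf (nat_lit 0) (nat_lit 9716562404) (nat_lit 252) (nat_lit 431102704) (nat_lit 336) (nat_lit 1509096114) (nat_lit 38) (nat_lit 5) (nat_lit 41) (nat_lit 5) (nat_lit 42) (nat_lit 5) (nat_lit 343) (nat_lit 275) (nat_lit 246)))))) (XT.nd (nat_lit 470) (nat_lit 504) (nat_lit 0) (XT.nd (nat_lit 188) (nat_lit 252) (nat_lit 0) (XT.nd (nat_lit 94) (nat_lit 0) (nat_lit 0) (XT.lf (nat_lit 0) (nat_lit 870678347) (nat_lit 336) (nat_lit 8947745519) (nat_lit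 84) (nat_lit 2081824126) (nat_lit 34) (nat_lit 5) (nat_lit 38) (nat_lit 5) (nat_lit 35) (nat_lit 5) (nat_lit 344) (nat_lit 275) (nat_lit 245)) (XT.lf (nat_lit 0) (nat_lit 3269724606) (nat_lit 336) (nat_lit 4201034236) (nat_lit 84) (nat_lit 4680890218) (nat_lit 34) (nat_lit 5) (nat_lit 38) (nat_lit 5) (nat_lit 35) (nat_lit 5) (nat_lit 345) (nat_lit 275) (nat_lit 244))) (XT.nd (nat_lit 94) (nat_lit 0) (nat_lit 0) (XT.lf (nat_lit 0) (nat_lit 639425761) (nat_lit 252) (nat_lit 5063480906) (nat_lit 336) (nat_lit 6709307263) (nat_lit 31) (nat_lit 5) (nat_lit 34) (nat_lit 5) (nat_lit 35) (nat_lit 5) (nat_lit 346) (nat_lit 275) (nat_lit 243)) (XT.nd (nat_lit 94) (nat_lit 0) (nat_lit 0) (XT.lf (nat_lit 0) (nat_lit 5653388447) (nat_lit 252) (nat_lit 2556150917) (nat_lit 336) (nat_lit 4471497659) (nat_lit 31) (nat_lit 5) (nat_lit 34) (nat_lit 5) (nat_lit 35) (nat_lit 5) (nat_lit 347) (nat_lit 275) (nat_lit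 242)) (XT.lf (nat_lit 0) (nat_lit 10749523848) (nat_lit 336) (nat_lit 2200638319) (nat_lit 84) (nat_lit 9522238) (nat_lit 31) (nat_lit 5) (nat_lit 35) (nat_lit 5) (nat_lit 32) (nat_lit 4) (nat_lit 348) (nat_lit 275) (nat_lit 241))))) (XT.nd (nat_lit 282) (nat_lit 252) (nat_lit 0) (XT.nd (nat_lit 94) (nat_lit 0) (nat_lit 0) (XT.lf (nat_lit 0) (nat_lit 128874502) (nat_lit 252) (nat_lit 10505951155) (nat_lit 84) (nat_lit 2611904609) (nat_lit 28) (nat_lit 5) (nat_lit 31) (nat_lit 5) (nat_lit 29) (nat_lit 5) (nat_lit 349) (nat_lit 275) (nat_lit 240)) (XT.nd (nat_lit 94) (nat_lit 0) (nat_lit 0) (XT.lf (nat_lit 0) (nat_lit 2474556917) (nat_lit 252) (nat_lit 5746113899) (nat_lit 84) (nat_lit 5322027182) (nat_lit 28) (nat_lit 5) (nat_lit 31) (nat_lit 5) (nat_lit 29) (nat_lit 5) (nat_lit 350) (nat_lit 275) (nat_lit 239)) (XT.lf (nat_lit 0) (nat_lit 4851095564) (nat_lit 252) (nat_lit 900161660) (nat_lit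 84) (nat_lit 8097983656) (nat_lit 28) (nat_lit 5) (nat_lit 31) (nat_lit 5) (nat_lit 29) (nat_lit 5) (nat_lit 351) (nat_lit 275) (nat_lit 238)))) (XT.nd (nat_lit 94) (nat_lit 0) (nat_lit 0) (XT.lf (nat_lit 0) (nat_lit 4119419623) (nat_lit 252) (nat_lit 3182151156) (nat_lit 336) (nat_lit 6863807042) (nat_lit 25) (nat_lit 5) (nat_lit 28) (nat_lit 5) (nat_lit 29) (nat_lit 5) (nat_lit 352) (nat_lit 275) (nat_lit 237)) (XT.nd (nat_lit 94) (nat_lit 0) (nat_lit 0) (XT.lf (nat_lit 0) (nat_lit 9254701602) (nat_lit 252) (nat_lit 542739297) (nat_lit 336) (nat_lit 4694918194) (nat_lit 25) (nat_lit 5) (nat_lit 28) (nat_lit 5) (nat_lit 29) (nat_lit 5) (nat_lit 353) (nat_lit 275) (nat_lit 236)) (XT.lf (nat_lit 0) (nat_lit 12353346900) (nat_lit 336) (nat_lit 360238156) (nat_lit 84) (nat_lit 2116522670) (nat_lit 25) (nat_lit 5) (nat_lit 29) (nat_lit 5) (nat_lit 26) (nat_lit 4) (nat_lit 354) (nat_lit 275)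 (nat_lit 235))))))))
noncomputable def xc22 : XT := (XT.nd (nat_lit 50290) (nat_lit 0) (nat_lit 3612) (XT.nd (nat_lit 940) (nat_lit 504) (nat_lit 0) (XT.nd (nat_lit 470) (nat_lit 252) (nat_lit 0) (XT.nd (nat_lit 188) (nat_lit 168) (nat_lit 0) (XT.nd (nat_lit 94) (nat_lit 84) (nat_lit 0) (XT.lf (nat_lit 0) (nat_lit 4700970343) (nat_lit 168) (nat_lit 10301924826) (nat_lit 252) (nat_lit 175075424) (nat_lit 23) (nat_lit 5) (nat_lit 25) (nat_lit 5) (nat_lit 26) (nat_lit 4) (nat_lit 355) (nat_lit 275) (nat_lit 234)) (XT.lf (nat_lit 0) (nat_lit 2119814488) (nat_lit 252) (nat_lit 5688490950) (nat_lit 84) (nat_lit 7728770955) (nat_lit 22) (nat_lit 5) (nat_lit 25) (nat_lit 5) (nat_lit 23) (nat_lit 5) (nat_lit 356) (nat_lit 275) (nat_lit 233))) (XT.nd (nat_lit 94) (nat_lit 168) (nat_lit 0) (XT.lf (nat_lit 0) (nat_lit 4445679385) (nat_lit 252) (nat_lit 808479739) (nat_lit 84) (nat_lit 10654315039) (nat_lit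 22) (nat_lit 5) (nat_lit 25) (nat_lit 5) (nat_lit 23) (nat_lit 5) (nat_lit 357) (nat_lit 275) (nat_lit 232)) (XT.nd (nat_lit 94) (nat_lit 0) (nat_lit 0) (XT.lf (nat_lit 0) (nat_lit 4255048581) (nat_lit 168) (nat_lit 2595376623) (nat_lit 252) (nat_lit 9440830190) (nat_lit 20) (nat_lit 5) (nat_lit 22) (nat_lit 5) (nat_lit 23) (nat_lit 5) (nat_lit 358) (nat_lit 275) (nat_lit 231)) (XT.lf (nat_lit 0) (nat_lit 9304619367) (nat_lit 252) (nat_lit 7248420318) (nat_lit 84) (nat_lit 133719088) (nat_lit 20) (nat_lit 5) (nat_lit 23) (nat_lit 5) (nat_lit 21) (nat_lit 4) (nat_lit 359) (nat_lit 275) (nat_lit 230))))) (XT.nd (nat_lit 188) (nat_lit 84) (nat_lit 0) (XT.nd (nat_lit 94) (nat_lit 168) (nat_lit 0) (XT.lf (nat_lit 0) (nat_lit 11827422055) (nat_lit 252) (nat_lit 2391067187) (nat_lit 84) (nat_lit 2876340658) (nat_lit 20) (nat_lit 5) (nat_lit 23) (nat_lit 5) (nat_lit 21) (nat_lit 4) (nat_lit 360)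 (nat_lit 275) (nat_lit 229)) (XT.lf (nat_lit 0) (nat_lit 2618891425) (nat_lit 168) (nat_lit 11802526630) (nat_lit 252) (nat_lit 3094423855) (nat_lit 18) (nat_lit 5) (nat_lit 20) (nat_lit 5) (nat_lit 21) (nat_lit 4) (nat_lit 361) (nat_lit 275) (nat_lit 228))) (XT.nd (nat_lit 94) (nat_lit 84) (nat_lit 0) (XT.lf (nat_lit 0) (nat_lit 7784624501) (nat_lit 168) (nat_lit 9303661784) (nat_lit 252) (nat_lit 861923852) (nat_lit 18) (nat_lit 5) (nat_lit 20) (nat_lit 5) (nat_lit 21) (nat_lit 4) (nat_lit 362) (nat_lit 275) (nat_lit 227)) (XT.nd (nat_lit 94) (nat_lit 0) (nat_lit 0) (XT.lf (nat_lit 0) (nat_lit 1378862997) (nat_lit 252) (nat_lit 5351267839) (nat_lit 84) (nat_lit 11668526299) (nat_lit 17) (nat_lit 5) (nat_lit 20) (nat_lit 5) (nat_lit 18) (nat_lit 5) (nat_lit 363) (nat_lit 275) (nat_lit 226)) (XT.lf (nat_lit 0) (nat_lit 3640257366) (nat_lit 252) (nat_lit 444471720) (nat_lit 84) (nat_lit 14777027994)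 (nat_lit 17) (nat_lit 5) (nat_lit 20) (nat_lit 5) (nat_lit 18) (nat_lit 5) (nat_lit 364) (nat_lit 275) (nat_lit 225)))))) (XT.nd (nat_lit 470) (nat_lit 252) (nat_lit 0) (XT.nd (nat_lit 188) (nat_lit 84) (nat_lit 0) (XT.nd (nat_lit 94) (nat_lit 0) (nat_lit 0) (XT.lf (nat_lit 0) (nat_lit 4661852701) (nat_lit 168) (nat_lit 1326126409) (nat_lit 252) (nat_lit 13350793949) (nat_lit 15) (nat_lit 5) (nat_lit 17) (nat_lit 5) (nat_lit 18) (nat_lit 5) (nat_lit 365) (nat_lit 275) (nat_lit 224)) (XT.lf (nat_lit 0) (nat_lit 8398486427) (nat_lit 252) (nat_lit 9956495109) (nat_lit 84) (nat_lit 1475965801) (nat_lit 15) (nat_lit 5) (nat_lit 18) (nat_lit 5) (nat_lit 16) (nat_lit 4) (nat_lit 366) (nat_lit 275) (nat_lit 223))) (XT.nd (nat_lit 94) (nat_lit 84) (nat_lit 0) (XT.lf (nat_lit 0) (nat_lit 10868437518) (nat_lit 252) (nat_lit 5148743105) (nat_lit 84) (nat_lit 4321731296) (nat_lit 15) (nat_lit 5) (nat_lit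 18) (nat_lit 5) (nat_lit 16) (nat_lit 4) (nat_lit 367) (nat_lit 275) (nat_lit 222)) (XT.nd (nat_lit 94) (nat_lit 84) (nat_lit 0) (XT.lf (nat_lit 0) (nat_lit 13386979299) (nat_lit 252) (nat_lit 236027678) (nat_lit 84) (nat_lit 7240541118) (nat_lit 15) (nat_lit 5) (nat_lit 18) (nat_lit 5) (nat_lit 16) (nat_lit 4) (nat_lit 368) (nat_lit 275) (nat_lit 221)) (XT.lf (nat_lit 0) (nat_lit 4884645046) (nat_lit 84) (nat_lit 11120270552) (nat_lit 168) (nat_lit 5398927142) (nat_lit 14) (nat_lit 5) (nat_lit 15) (nat_lit 5) (nat_lit 16) (nat_lit 4) (nat_lit 369) (nat_lit 275) (nat_lit 220))))) (XT.nd (nat_lit 282) (nat_lit 168) (nat_lit 0) (XT.nd (nat_lit 94) (nat_lit 84) (nat_lit 0) (XT.lf (nat_lit 0) (nat_lit 10126743520) (nat_lit 84) (nat_lit 8552987619) (nat_lit 168) (nat_lit 3281961943) (nat_lit 14) (nat_lit 5) (nat_lit 15) (nat_lit 5) (nat_lit 16) (nat_lit 4) (nat_lit 370) (nat_lit 275) (nat_lit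 219)) (XT.nd (nat_lit 94) (nat_lit 84) (nat_lit 0) (XT.lf (nat_lit 0) (nat_lit 15490300713) (nat_lit 84) (nat_lit 5921228848) (nat_lit 168) (nat_lit 1126163612) (nat_lit 14) (nat_lit 5) (nat_lit 15) (nat_lit 5) (nat_lit 16) (nat_lit 4) (nat_lit 371) (nat_lit 275) (nat_lit 218)) (XT.lf (nat_lit 0) (nat_lit 1048909549) (nat_lit 168) (nat_lit 2162683150) (nat_lit 84) (nat_lit 19920458008) (nat_lit 13) (nat_lit 5) (nat_lit 15) (nat_lit 5) (nat_lit 14) (nat_lit 5) (nat_lit 372) (nat_lit 275) (nat_lit 217)))) (XT.nd (nat_lit 94) (nat_lit 0) (nat_lit 0) (XT.lf (nat_lit 0) (nat_lit 2880805243) (nat_lit 168) (nat_lit 391091648) (nat_lit 252) (nat_lit 20472506875) (nat_lit 11) (nat_lit 5) (nat_lit 13) (nat_lit 5) (nat_lit 14) (nat_lit 5) (nat_lit 373) (nat_lit 275) (nat_lit 216)) (XT.nd (nat_lit 48410) (nat_lit 0) (nat_lit 10752) (XT.lf (nat_lit 0) (nat_lit 5587085927) (nat_lit 252) (nat_lit 16313180577)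 (nat_lit 84) (nat_lit 2474797644) (nat_lit 11) (nat_lit 5) (nat_lit 14) (nat_lit 5) (nat_lit 12) (nat_lit 4) (nat_lit 374) (nat_lit 275) (nat_lit 215)) (XT.lf (nat_lit 0) (nat_lit 3411112046) (nat_lit 924) (nat_lit 99040439) (nat_lit 924) (nat_lit 99040439) (nat_lit 139) (nat_lit 4) (nat_lit 150) (nat_lit 5) (nat_lit 150) (nat_lit 4) (nat_lit 312) (nat_lit 276) (nat_lit 276))))))) (XT.nd (nat_lit 1034) (nat_lit 2184) (nat_lit 0) (XT.nd (nat_lit 470) (nat_lit 2184) (nat_lit 0) (XT.nd (nat_lit 188) (nat_lit 588) (nat_lit 0) (XT.nd (nat_lit 94) (nat_lit 1092) (nat_lit 0) (XT.lf (nat_lit 0) (nat_lit 2588667302) (nat_lit 1092) (nat_lit 3583137626) (nat_lit 0) (nat_lit 1115961968) (nat_lit 126) (nat_lit 5) (nat_lit 139) (nat_lit 4) (nat_lit 126) (nat_lit 4) (nat_lit 313) (nat_lit 276) (nat_lit 275)) (XT.lf (nat_lit 0) (nat_lit 502607239) (nat_lit 1092) (nat_lit 4880247776) (nat_lit 1092) (nat_lit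 1979118257) (nat_lit 113) (nat_lit 4) (nat_lit 126) (nat_lit 5) (nat_lit 126) (nat_lit 4) (nat_lit 314) (nat_lit 276) (nat_lit 274))) (XT.nd (nat_lit 94) (nat_lit 504) (nat_lit 0) (XT.lf (nat_lit 0) (nat_lit 760807045) (nat_lit 1176) (nat_lit 2741404884) (nat_lit 84) (nat_lit 3937887309) (nat_lit 112) (nat_lit 5) (nat_lit 126) (nat_lit 5) (nat_lit 113) (nat_lit 4) (nat_lit 315) (nat_lit 276) (nat_lit 273)) (XT.nd (nat_lit 94) (nat_lit 0) (nat_lit 0) (XT.lf (nat_lit 0) (nat_lit 1428873777) (nat_lit 504) (nat_lit 2046898721) (nat_lit 588) (nat_lit 4046760403) (nat_lit 106) (nat_lit 5) (nat_lit 112) (nat_lit 5) (nat_lit 113) (nat_lit 4) (nat_lit 316) (nat_lit 276) (nat_lit 272)) (XT.lf (nat_lit 0) (nat_lit 5703510510) (nat_lit 504) (nat_lit 518715550) (nat_lit 588) (nat_lit 1387298348) (nat_lit 106) (nat_lit 5) (nat_lit 112) (nat_lit 5) (nat_lit 113) (nat_lit 4) (nat_lit 317) (nat_lit 276)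 (nat_lit 271))))) (XT.nd (nat_lit 282) (nat_lit 1008) (nat_lit 0) (XT.nd (nat_lit 94) (nat_lit 504) (nat_lit 0) (XT.lf (nat_lit 0) (nat_lit 1281589188) (nat_lit 672) (nat_lit 5348644501) (nat_lit 84) (nat_lit 1070327446) (nat_lit 98) (nat_lit 5) (nat_lit 106) (nat_lit 5) (nat_lit 99) (nat_lit 4) (nat_lit 318) (nat_lit 276) (nat_lit 270)) (XT.nd (nat_lit 94) (nat_lit 504) (nat_lit 0) (XT.lf (nat_lit 0) (nat_lit 3951357094) (nat_lit 672) (nat_lit 1115683631) (nat_lit 84) (nat_lit 2728920706) (nat_lit 98) (nat_lit 5) (nat_lit 106) (nat_lit 5) (nat_lit 99) (nat_lit 4) (nat_lit 319) (nat_lit 276) (nat_lit 269)) (XT.lf (nat_lit 0) (nat_lit 3231717266) (nat_lit 504) (nat_lit 3428146850) (nat_lit 588) (nat_lit 1236146734) (nat_lit 92) (nat_lit 5) (nat_lit 98) (nat_lit 5) (nat_lit 99) (nat_lit 4) (nat_lit 320) (nat_lit 276) (nat_lit 268)))) (XT.nd (nat_lit 94) (nat_lit 924) (nat_lit 0) (XT.lf (nat_lit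 0) (nat_lit 1359986430) (nat_lit 588) (nat_lit 358724220) (nat_lit 84) (nat_lit 6282293039) (nat_lit 91) (nat_lit 5) (nat_lit 98) (nat_lit 5) (nat_lit 92) (nat_lit 5) (nat_lit 321) (nat_lit 276) (nat_lit 267)) (XT.nd (nat_lit 94) (nat_lit 420) (nat_lit 0) (XT.lf (nat_lit 0) (nat_lit 3978797671) (nat_lit 588) (nat_lit 4041861662) (nat_lit 84) (nat_lit 89494262) (nat_lit 85) (nat_lit 5) (nat_lit 92) (nat_lit 5) (nat_lit 86) (nat_lit 4) (nat_lit 322) (nat_lit 276) (nat_lit 266)) (XT.lf (nat_lit 0) (nat_lit 324433876) (nat_lit 420) (nat_lit 6306881244) (nat_lit 504) (nat_lit 1593133202) (nat_lit 80) (nat_lit 5) (nat_lit 85) (nat_lit 5) (nat_lit 86) (nat_lit 4) (nat_lit 323) (nat_lit 276) (nat_lit 265)))))) (XT.nd (nat_lit 470) (nat_lit 1176) (nat_lit 0) (XT.nd (nat_lit 188) (nat_lit 504) (nat_lit 0) (XT.nd (nat_lit 94) (nat_lit 420) (nat_lit 0) (XT.lf (nat_lit 0) (nat_lit 974074159) (nat_lit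 504) (nat_lit 3522776820) (nat_lit 84) (nat_lit 3846293902) (nat_lit 79) (nat_lit 5) (nat_lit 85) (nat_lit 5) (nat_lit 80) (nat_lit 5) (nat_lit 324) (nat_lit 276) (nat_lit 264)) (XT.lf (nat_lit 0) (nat_lit 911744915) (nat_lit 420) (nat_lit 2615533484) (nat_lit 504) (nat_lit 4939876880) (nat_lit 74) (nat_lit 5) (nat_lit 79) (nat_lit 5) (nat_lit 80) (nat_lit 5) (nat_lit 325) (nat_lit 276) (nat_lit 263))) (XT.nd (nat_lit 94) (nat_lit 504) (nat_lit 0) (XT.lf (nat_lit 0) (nat_lit 5478746809) (nat_lit 420) (nat_lit 649418193) (nat_lit 504) (nat_lit 2468076597) (nat_lit 74) (nat_lit 5) (nat_lit 79) (nat_lit 5) (nat_lit 80) (nat_lit 5) (nat_lit 326) (nat_lit 276) (nat_lit 262)) (XT.nd (nat_lit 94) (nat_lit 0) (nat_lit 0) (XT.lf (nat_lit 0) (nat_lit 39278927) (nat_lit 504) (nat_lit 7338250353) (nat_lit 84) (nat_lit 1353239562) (nat_lit 68) (nat_lit 5) (nat_lit 74) (nat_lit 5) (nat_lit 69) (nat_lit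 5) (nat_lit 327) (nat_lit 276) (nat_lit 261)) (XT.lf (nat_lit 0) (nat_lit 2546625319) (nat_lit 504) (nat_lit 2872495327) (nat_lit 84) (nat_lit 3450617523) (nat_lit 68) (nat_lit 5) (nat_lit 74) (nat_lit 5) (nat_lit 69) (nat_lit 5) (nat_lit 328) (nat_lit 276) (nat_lit 260))))) (XT.nd (nat_lit 282) (nat_lit 336) (nat_lit 0) (XT.nd (nat_lit 94) (nat_lit 420) (nat_lit 0) (XT.lf (nat_lit 0) (nat_lit 1687866215) (nat_lit 420) (nat_lit 3396576609) (nat_lit 504) (nat_lit 3930264357) (nat_lit 63) (nat_lit 5) (nat_lit 68) (nat_lit 5) (nat_lit 69) (nat_lit 5) (nat_lit 329) (nat_lit 276) (nat_lit 259)) (XT.nd (nat_lit 94) (nat_lit 420) (nat_lit 0) (XT.lf (nat_lit 0) (nat_lit 6373443772) (nat_lit 420) (nat_lit 1294631402) (nat_lit 504) (nat_lit 1497333507) (nat_lit 63) (nat_lit 5) (nat_lit 68) (nat_lit 5) (nat_lit 69) (nat_lit 5) (nat_lit 330) (nat_lit 276) (nat_lit 258)) (XT.lf (nat_lit 0) (nat_lit 955861275)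 (nat_lit 420) (nat_lit 7496622689) (nat_lit 84) (nat_lit 869272295) (nat_lit 58) (nat_lit 5) (nat_lit 63) (nat_lit 5) (nat_lit 59) (nat_lit 5) (nat_lit 331) (nat_lit 276) (nat_lit 257)))) (XT.nd (nat_lit 94) (nat_lit 336) (nat_lit 0) (XT.lf (nat_lit 0) (nat_lit 3435862964) (nat_lit 420) (nat_lit 2943724741) (nat_lit 84) (nat_lit 3103651099) (nat_lit 58) (nat_lit 5) (nat_lit 63) (nat_lit 5) (nat_lit 59) (nat_lit 5) (nat_lit 332) (nat_lit 276) (nat_lit 256)) (XT.nd (nat_lit 94) (nat_lit 0) (nat_lit 0) (XT.lf (nat_lit 0) (nat_lit 1709711872) (nat_lit 336) (nat_lit 4241001659) (nat_lit 420) (nat_lit 3700511335) (nat_lit 54) (nat_lit 5) (nat_lit 58) (nat_lit 5) (nat_lit 59) (nat_lit 5) (nat_lit 333) (nat_lit 276) (nat_lit 255)) (XT.lf (nat_lit 0) (nat_lit 6495522178) (nat_lit 336) (nat_lit 2020773816) (nat_lit 420) (nat_lit 1309155323) (nat_lit 54) (nat_lit 5) (nat_lit 58) (nat_lit 5) (nat_lit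 59) (nat_lit 5) (nat_lit 334) (nat_lit 276) (nat_lit 254))))))))
noncomputable def xc23 : XT := (XT.nd (nat_lit 1974) (nat_lit 1008) (nat_lit 0) (XT.nd (nat_lit 940) (nat_lit 924) (nat_lit 0) (XT.nd (nat_lit 470) (nat_lit 840) (nat_lit 0) (XT.nd (nat_lit 188) (nat_lit 420) (nat_lit 0) (XT.nd (nat_lit 94) (nat_lit 0) (nat_lit 0) (XT.lf (nat_lit 0) (nat_lit 1092386592) (nat_lit 420) (nat_lit 8641713456) (nat_lit 84) (nat_lit 272060809) (nat_lit 49) (nat_lit 5) (nat_lit 54) (nat_lit 5) (nat_lit 50) (nat_lit 5) (nat_lit 335) (nat_lit 276) (nat_lit 253)) (XT.lf (nat_lit 0) (nat_lit 3540822863) (nat_lit 420) (nat_lit 4025267616) (nat_lit 84) (nat_lit 2626150194) (nat_lit 49) (nat_lit 5) (nat_lit 54) (nat_lit 5) (nat_lit 50) (nat_lit 5) (nat_lit 336) (nat_lit 276) (nat_lit 252))) (XT.nd (nat_lit 94) (nat_lit 84) (nat_lit 0) (XT.lf (nat_lit 0) (nat_lit 675737524) (nat_lit 336) (nat_lit 5341674455)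 (nat_lit 420) (nat_lit 4368324235) (nat_lit 45) (nat_lit 5) (nat_lit 49) (nat_lit 5) (nat_lit 50) (nat_lit 5) (nat_lit 337) (nat_lit 276) (nat_lit 251)) (XT.nd (nat_lit 94) (nat_lit 84) (nat_lit 0) (XT.lf (nat_lit 0) (nat_lit 5536372865) (nat_lit 336) (nat_lit 3022894576) (nat_lit 420) (nat_lit 2026481444) (nat_lit 45) (nat_lit 5) (nat_lit 49) (nat_lit 5) (nat_lit 50) (nat_lit 5) (nat_lit 338) (nat_lit 276) (nat_lit 250)) (XT.lf (nat_lit 0) (nat_lit 327542913) (nat_lit 420) (nat_lit 318643244) (nat_lit 84) (nat_lit 10147439479) (nat_lit 44) (nat_lit 5) (nat_lit 49) (nat_lit 5) (nat_lit 45) (nat_lit 5) (nat_lit 339) (nat_lit 276) (nat_lit 249))))) (XT.nd (nat_lit 188) (nat_lit 588) (nat_lit 0) (XT.nd (nat_lit 94) (nat_lit 0) (nat_lit 0) (XT.lf (nat_lit 0) (nat_lit 2725080808) (nat_lit 336) (nat_lit 6464510520) (nat_lit 84) (nat_lit 1817468928) (nat_lit 41) (nat_lit 5) (nat_lit 45) (nat_lit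 5) (nat_lit 42) (nat_lit 5) (nat_lit 340) (nat_lit 276) (nat_lit 248)) (XT.lf (nat_lit 0) (nat_lit 5156582020) (nat_lit 336) (nat_lit 1741688245) (nat_lit 84) (nat_lit 4330235651) (nat_lit 41) (nat_lit 5) (nat_lit 45) (nat_lit 5) (nat_lit 42) (nat_lit 5) (nat_lit 341) (nat_lit 276) (nat_lit 247))) (XT.nd (nat_lit 94) (nat_lit 336) (nat_lit 0) (XT.lf (nat_lit 0) (nat_lit 3123319309) (nat_lit 252) (nat_lit 4522308150) (nat_lit 336) (nat_lit 3811880819) (nat_lit 38) (nat_lit 5) (nat_lit 41) (nat_lit 5) (nat_lit 42) (nat_lit 5) (nat_lit 342) (nat_lit 276) (nat_lit 246)) (XT.nd (nat_lit 94) (nat_lit 336) (nat_lit 0) (XT.lf (nat_lit 0) (nat_lit 8109594675) (nat_lit 252) (nat_lit 2072410663) (nat_lit 336) (nat_lit 1512663944) (nat_lit 38) (nat_lit 5) (nat_lit 41) (nat_lit 5) (nat_lit 42) (nat_lit 5) (nat_lit 343) (nat_lit 276) (nat_lit 245)) (XT.lf (nat_lit 0) (nat_lit 810432838) (nat_lit 336)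 (nat_lit 10682026952) (nat_lit 84) (nat_lit 447519082) (nat_lit 34) (nat_lit 5) (nat_lit 38) (nat_lit 5) (nat_lit 35) (nat_lit 5) (nat_lit 344) (nat_lit 276) (nat_lit 244)))))) (XT.nd (nat_lit 470) (nat_lit 504) (nat_lit 0) (XT.nd (nat_lit 188) (nat_lit 420) (nat_lit 0) (XT.nd (nat_lit 94) (nat_lit 0) (nat_lit 0) (XT.lf (nat_lit 0) (nat_lit 3186545658) (nat_lit 336) (nat_lit 5967950991) (nat_lit 84) (nat_lit 3037654836) (nat_lit 34) (nat_lit 5) (nat_lit 38) (nat_lit 5) (nat_lit 35) (nat_lit 5) (nat_lit 345) (nat_lit 276) (nat_lit 243)) (XT.lf (nat_lit 0) (nat_lit 5591140658) (nat_lit 336) (nat_lit 1172028044) (nat_lit 84) (nat_lit 5690492637) (nat_lit 34) (nat_lit 5) (nat_lit 38) (nat_lit 5) (nat_lit 35) (nat_lit 5) (nat_lit 346) (nat_lit 276) (nat_lit 242))) (XT.nd (nat_lit 94) (nat_lit 168) (nat_lit 0) (XT.lf (nat_lit 0) (nat_lit 3786501763) (nat_lit 252) (nat_lit 4277519976) (nat_lit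 336) (nat_lit 4659566012) (nat_lit 31) (nat_lit 5) (nat_lit 34) (nat_lit 5) (nat_lit 35) (nat_lit 5) (nat_lit 347) (nat_lit 276) (nat_lit 241)) (XT.nd (nat_lit 94) (nat_lit 168) (nat_lit 0) (XT.lf (nat_lit 0) (nat_lit 8861867352) (nat_lit 252) (nat_lit 1720814643) (nat_lit 336) (nat_lit 2420269492) (nat_lit 31) (nat_lit 5) (nat_lit 34) (nat_lit 5) (nat_lit 35) (nat_lit 5) (nat_lit 348) (nat_lit 276) (nat_lit 240)) (XT.lf (nat_lit 0) (nat_lit 748500719) (nat_lit 168) (nat_lit 12405427164) (nat_lit 252) (nat_lit 137946841) (nat_lit 29) (nat_lit 5) (nat_lit 31) (nat_lit 5) (nat_lit 32) (nat_lit 4) (nat_lit 349) (nat_lit 276) (nat_lit 239))))) (XT.nd (nat_lit 282) (nat_lit 168) (nat_lit 0) (XT.nd (nat_lit 94) (nat_lit 252) (nat_lit 0) (XT.lf (nat_lit 0) (nat_lit 2189904396) (nat_lit 252) (nat_lit 7812419394) (nat_lit 84) (nat_lit 3586250478) (nat_lit 28) (nat_lit 5) (nat_lit 31) (nat_lit 5)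 (nat_lit 29) (nat_lit 5) (nat_lit 350) (nat_lit 276) (nat_lit 238)) (XT.nd (nat_lit 94) (nat_lit 252) (nat_lit 0) (XT.lf (nat_lit 0) (nat_lit 4546452259) (nat_lit 252) (nat_lit 2995808661) (nat_lit 84) (nat_lit 6353524890) (nat_lit 28) (nat_lit 5) (nat_lit 31) (nat_lit 5) (nat_lit 29) (nat_lit 5) (nat_lit 351) (nat_lit 276) (nat_lit 237)) (XT.lf (nat_lit 0) (nat_lit 1951637371) (nat_lit 252) (nat_lit 5004395732) (nat_lit 336) (nat_lit 7257204849) (nat_lit 25) (nat_lit 5) (nat_lit 28) (nat_lit 5) (nat_lit 29) (nat_lit 5) (nat_lit 352) (nat_lit 276) (nat_lit 236)))) (XT.nd (nat_lit 94) (nat_lit 168) (nat_lit 0) (XT.lf (nat_lit 0) (nat_lit 7058748204) (nat_lit 252) (nat_lit 2374068861) (nat_lit 336) (nat_lit 5108039877) (nat_lit 25) (nat_lit 5) (nat_lit 28) (nat_lit 5) (nat_lit 29) (nat_lit 5) (nat_lit 353) (nat_lit 276) (nat_lit 235)) (XT.nd (nat_lit 94) (nat_lit 168) (nat_lit 0) (XT.lf (nat_lit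 0) (nat_lit 11951956360) (nat_lit 336) (nat_lit 2614377614) (nat_lit 84) (nat_lit 313456033) (nat_lit 25) (nat_lit 5) (nat_lit 29) (nat_lit 5) (nat_lit 26) (nat_lit 4) (nat_lit 354) (nat_lit 276) (nat_lit 234)) (XT.lf (nat_lit 0) (nat_lit 2372907936) (nat_lit 168) (nat_lit 12187461587) (nat_lit 252) (nat_lit 668601857) (nat_lit 23) (nat_lit 5) (nat_lit 25) (nat_lit 5) (nat_lit 26) (nat_lit 4) (nat_lit 355) (nat_lit 276) (nat_lit 233))))))) (XT.nd (nat_lit 1034) (nat_lit 336) (nat_lit 0) (XT.nd (nat_lit 470) (nat_lit 420) (nat_lit 0) (XT.nd (nat_lit 188) (nat_lit 168) (nat_lit 0) (XT.nd (nat_lit 94) (nat_lit 0) (nat_lit 0) (XT.lf (nat_lit 0) (nat_lit 1618245361) (nat_lit 252) (nat_lit 8089813036) (nat_lit 84) (nat_lit 5880768881) (nat_lit 22) (nat_lit 5) (nat_lit 25) (nat_lit 5) (nat_lit 23) (nat_lit 5) (nat_lit 356) (nat_lit 276) (nat_lit 232)) (XT.lf (nat_lit 0) (nat_lit 3926664911) (nat_lit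 252) (nat_lit 3236140075) (nat_lit 84) (nat_lit 8798000396) (nat_lit 22) (nat_lit 5) (nat_lit 25) (nat_lit 5) (nat_lit 23) (nat_lit 5) (nat_lit 357) (nat_lit 276) (nat_lit 231))) (XT.nd (nat_lit 94) (nat_lit 0) (nat_lit 0) (XT.lf (nat_lit 0) (nat_lit 1751398971) (nat_lit 168) (nat_lit 4538254443) (nat_lit 252) (nat_lit 10055266015) (nat_lit 20) (nat_lit 5) (nat_lit 22) (nat_lit 5) (nat_lit 23) (nat_lit 5) (nat_lit 358) (nat_lit 276) (nat_lit 230)) (XT.nd (nat_lit 94) (nat_lit 0) (nat_lit 0) (XT.lf (nat_lit 0) (nat_lit 6910796918) (nat_lit 168) (nat_lit 1815033987) (nat_lit 252) (nat_lit 8015187607) (nat_lit 20) (nat_lit 5) (nat_lit 22) (nat_lit 5) (nat_lit 23) (nat_lit 5) (nat_lit 359) (nat_lit 276) (nat_lit 229)) (XT.lf (nat_lit 0) (nat_lit 11214383379) (nat_lit 252) (nat_lit 4979844535) (nat_lit 84) (nat_lit 955959552) (nat_lit 20) (nat_lit 5) (nat_lit 23) (nat_lit 5) (nat_lit 21) (nat_lit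 4) (nat_lit 360) (nat_lit 276) (nat_lit 228))))) (XT.nd (nat_lit 282) (nat_lit 168) (nat_lit 0) (XT.nd (nat_lit 94) (nat_lit 252) (nat_lit 0) (XT.lf (nat_lit 0) (nat_lit 13766643246) (nat_lit 252) (nat_lit 46881043) (nat_lit 84) (nat_lit 3759003991) (nat_lit 20) (nat_lit 5) (nat_lit 23) (nat_lit 5) (nat_lit 21) (nat_lit 4) (nat_lit 361) (nat_lit 276) (nat_lit 227)) (XT.nd (nat_lit 94) (nat_lit 84) (nat_lit 0) (XT.lf (nat_lit 0) (nat_lit 5093903077) (nat_lit 168) (nat_lit 11323613192) (nat_lit 252) (nat_lit 1589910022) (nat_lit 18) (nat_lit 5) (nat_lit 20) (nat_lit 5) (nat_lit 21) (nat_lit 4) (nat_lit 362) (nat_lit 276) (nat_lit 226)) (XT.lf (nat_lit 0) (nat_lit 650304004) (nat_lit 252) (nat_lit 8115592801) (nat_lit 84) (nat_lit 9690704723) (nat_lit 17) (nat_lit 5) (nat_lit 20) (nat_lit 5) (nat_lit 18) (nat_lit 5) (nat_lit 363) (nat_lit 276) (nat_lit 225)))) (XT.nd (nat_lit 94) (nat_lit 168)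 (nat_lit 0) (XT.lf (nat_lit 0) (nat_lit 2896916490) (nat_lit 252) (nat_lit 3231695904) (nat_lit 84) (nat_lit 12791578281) (nat_lit 17) (nat_lit 5) (nat_lit 20) (nat_lit 5) (nat_lit 18) (nat_lit 5) (nat_lit 364) (nat_lit 276) (nat_lit 224)) (XT.nd (nat_lit 94) (nat_lit 0) (nat_lit 0) (XT.lf (nat_lit 0) (nat_lit 1794650085) (nat_lit 168) (nat_lit 3407207721) (nat_lit 252) (nat_lit 14196705073) (nat_lit 15) (nat_lit 5) (nat_lit 17) (nat_lit 5) (nat_lit 18) (nat_lit 5) (nat_lit 365) (nat_lit 276) (nat_lit 223)) (XT.lf (nat_lit 0) (nat_lit 7000669841) (nat_lit 168) (nat_lit 582628024) (nat_lit 252) (nat_lit 12308369506) (nat_lit 15) (nat_lit 5) (nat_lit 17) (nat_lit 5) (nat_lit 18) (nat_lit 5) (nat_lit 366) (nat_lit 276) (nat_lit 222)))))) (XT.nd (nat_lit 470) (nat_lit 252) (nat_lit 0) (XT.nd (nat_lit 188) (nat_lit 84) (nat_lit 0) (XT.nd (nat_lit 94) (nat_lit 0) (nat_lit 0) (XT.lf (nat_lit 0)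 (nat_lit 10033693836) (nat_lit 252) (nat_lit 8099167847) (nat_lit 84) (nat_lit 2267404731) (nat_lit 15) (nat_lit 5) (nat_lit 18) (nat_lit 5) (nat_lit 16) (nat_lit 4) (nat_lit 367) (nat_lit 276) (nat_lit 221)) (XT.lf (nat_lit 0) (nat_lit 12538874435) (nat_lit 252) (nat_lit 3207501949) (nat_lit 84) (nat_lit 5178967808) (nat_lit 15) (nat_lit 5) (nat_lit 18) (nat_lit 5) (nat_lit 16) (nat_lit 4) (nat_lit 368) (nat_lit 276) (nat_lit 220))) (XT.nd (nat_lit 94) (nat_lit 0) (nat_lit 0) (XT.lf (nat_lit 0) (nat_lit 1831234750) (nat_lit 84) (nat_lit 13282326336) (nat_lit 168) (nat_lit 6353445069) (nat_lit 14) (nat_lit 5) (nat_lit 15) (nat_lit 5) (nat_lit 16) (nat_lit 4) (nat_lit 369) (nat_lit 276) (nat_lit 219)) (XT.nd (nat_lit 94) (nat_lit 0) (nat_lit 0) (XT.lf (nat_lit 0) (nat_lit 7053123311) (nat_lit 84) (nat_lit 10722483055) (nat_lit 168) (nat_lit 4249671789) (nat_lit 14) (nat_lit 5) (nat_lit 15)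 (nat_lit 5) (nat_lit 16) (nat_lit 4) (nat_lit 370) (nat_lit 276) (nat_lit 218)) (XT.lf (nat_lit 0) (nat_lit 12397078261) (nat_lit 84) (nat_lit 8097940241) (nat_lit 168) (nat_lit 2106668725) (nat_lit 14) (nat_lit 5) (nat_lit 15) (nat_lit 5) (nat_lit 16) (nat_lit 4) (nat_lit 371) (nat_lit 276) (nat_lit 217))))) (XT.nd (nat_lit 48410) (nat_lit 0) (nat_lit 10668) (XT.nd (nat_lit 94) (nat_lit 168) (nat_lit 0) (XT.lf (nat_lit 0) (nat_lit 75998934) (nat_lit 168) (nat_lit 5329459337) (nat_lit 84) (nat_lit 17791288517) (nat_lit 13) (nat_lit 5) (nat_lit 15) (nat_lit 5) (nat_lit 14) (nat_lit 5) (nat_lit 372) (nat_lit 276) (nat_lit 216)) (XT.nd (nat_lit 94) (nat_lit 168) (nat_lit 0) (XT.lf (nat_lit 0) (nat_lit 2258613477) (nat_lit 168) (nat_lit 362719262) (nat_lit 84) (nat_lit 21189041482) (nat_lit 13) (nat_lit 5) (nat_lit 15) (nat_lit 5) (nat_lit 14) (nat_lit 5) (nat_lit 373) (nat_lit 276) (nat_lit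 215)) (XT.lf (nat_lit 0) (nat_lit 4536276199) (nat_lit 252) (nat_lit 19626917018) (nat_lit 84) (nat_lit 279026834) (nat_lit 11) (nat_lit 5) (nat_lit 14) (nat_lit 5) (nat_lit 12) (nat_lit 4) (nat_lit 374) (nat_lit 276) (nat_lit 214)))) (XT.nd (nat_lit 94) (nat_lit 1008) (nat_lit 0) (XT.lf (nat_lit 0) (nat_lit 1460474061) (nat_lit 924) (nat_lit 623335575) (nat_lit 0) (nat_lit 1460474061) (nat_lit 150) (nat_lit 5) (nat_lit 161) (nat_lit 4) (nat_lit 150) (nat_lit 4) (nat_lit 310) (nat_lit 277) (nat_lit 277)) (XT.nd (nat_lit 94) (nat_lit 84) (nat_lit 0) (XT.lf (nat_lit 0) (nat_lit 2733348260) (nat_lit 924) (nat_lit 2991991449) (nat_lit 924) (nat_lit 1426563114) (nat_lit 139) (nat_lit 4) (nat_lit 150) (nat_lit 5) (nat_lit 150) (nat_lit 4) (nat_lit 311) (nat_lit 277) (nat_lit 276)) (XT.lf (nat_lit 0) (nat_lit 1296522992) (nat_lit 1008) (nat_lit 450549335) (nat_lit 84) (nat_lit 5472446475) (nat_lit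 138) (nat_lit 5) (nat_lit 150) (nat_lit 5) (nat_lit 139) (nat_lit 4) (nat_lit 312) (nat_lit 277) (nat_lit 275))))))))
noncomputable def xc24 : XT := (XT.nd (nat_lit 1974) (nat_lit 2436) (nat_lit 0) (XT.nd (nat_lit 940) (nat_lit 2604) (nat_lit 0) (XT.nd (nat_lit 470) (nat_lit 1764) (nat_lit 0) (XT.nd (nat_lit 188) (nat_lit 588) (nat_lit 0) (XT.nd (nat_lit 94) (nat_lit 1092) (nat_lit 0) (XT.lf (nat_lit 0) (nat_lit 3618356317) (nat_lit 1008) (nat_lit 406680209) (nat_lit 1092) (nat_lit 3265689495) (nat_lit 126) (nat_lit 5) (nat_lit 138) (nat_lit 5) (nat_lit 139) (nat_lit 4) (nat_lit 313) (nat_lit 277) (nat_lit 274)) (XT.lf (nat_lit 0) (nat_lit 374133654) (nat_lit 1092) (nat_lit 6398699703) (nat_lit 1092) (nat_lit 593736509) (nat_lit 113) (nat_lit 4) (nat_lit 126) (nat_lit 5) (nat_lit 126) (nat_lit 4) (nat_lit 314) (nat_lit 277) (nat_lit 273))) (XT.nd (nat_lit 94) (nat_lit 504) (nat_lit 0) (XT.lf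 (nat_lit 0) (nat_lit 2077428976) (nat_lit 1176) (nat_lit 2929521117) (nat_lit 84) (nat_lit 2438773517) (nat_lit 112) (nat_lit 5) (nat_lit 126) (nat_lit 5) (nat_lit 113) (nat_lit 4) (nat_lit 315) (nat_lit 277) (nat_lit 272)) (XT.nd (nat_lit 94) (nat_lit 0) (nat_lit 0) (XT.lf (nat_lit 0) (nat_lit 1196004747) (nat_lit 504) (nat_lit 3554460326) (nat_lit 588) (nat_lit 2779173915) (nat_lit 106) (nat_lit 5) (nat_lit 112) (nat_lit 5) (nat_lit 113) (nat_lit 4) (nat_lit 316) (nat_lit 277) (nat_lit 271)) (XT.lf (nat_lit 0) (nat_lit 5430986057) (nat_lit 504) (nat_lit 2027111193) (nat_lit 588) (nat_lit 159913143) (nat_lit 106) (nat_lit 5) (nat_lit 112) (nat_lit 5) (nat_lit 113) (nat_lit 4) (nat_lit 317) (nat_lit 277) (nat_lit 270))))) (XT.nd (nat_lit 188) (nat_lit 1092) (nat_lit 0) (XT.nd (nat_lit 94) (nat_lit 0) (nat_lit 0) (XT.lf (nat_lit 0) (nat_lit 2023648784) (nat_lit 588) (nat_lit 408186240) (nat_lit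 672) (nat_lit 5278625350) (nat_lit 98) (nat_lit 5) (nat_lit 105) (nat_lit 5) (nat_lit 106) (nat_lit 5) (nat_lit 318) (nat_lit 277) (nat_lit 269)) (XT.lf (nat_lit 0) (nat_lit 5060092952) (nat_lit 672) (nat_lit 1490123303) (nat_lit 84) (nat_lit 1257092219) (nat_lit 98) (nat_lit 5) (nat_lit 106) (nat_lit 5) (nat_lit 99) (nat_lit 4) (nat_lit 319) (nat_lit 277) (nat_lit 268))) (XT.nd (nat_lit 94) (nat_lit 588) (nat_lit 0) (XT.lf (nat_lit 0) (nat_lit 2809664727) (nat_lit 504) (nat_lit 4918414077) (nat_lit 588) (nat_lit 180691398) (nat_lit 92) (nat_lit 5) (nat_lit 98) (nat_lit 5) (nat_lit 99) (nat_lit 4) (nat_lit 320) (nat_lit 277) (nat_lit 267)) (XT.nd (nat_lit 94) (nat_lit 504) (nat_lit 0) (XT.lf (nat_lit 0) (nat_lit 2358038017) (nat_lit 588) (nat_lit 843609848) (nat_lit 84) (nat_lit 4813057801) (nat_lit 91) (nat_lit 5) (nat_lit 98) (nat_lit 5) (nat_lit 92) (nat_lit 5) (nat_lit 321) (nat_lit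 277) (nat_lit 266)) (XT.lf (nat_lit 0) (nat_lit 3535167659) (nat_lit 504) (nat_lit 1400425561) (nat_lit 588) (nat_lit 3189683776) (nat_lit 85) (nat_lit 5) (nat_lit 91) (nat_lit 5) (nat_lit 92) (nat_lit 5) (nat_lit 322) (nat_lit 277) (nat_lit 265)))))) (XT.nd (nat_lit 470) (nat_lit 1176) (nat_lit 0) (XT.nd (nat_lit 188) (nat_lit 924) (nat_lit 0) (XT.nd (nat_lit 94) (nat_lit 504) (nat_lit 0) (XT.lf (nat_lit 0) (nat_lit 7536588337) (nat_lit 588) (nat_lit 255649469) (nat_lit 84) (nat_lit 449069314) (nat_lit 85) (nat_lit 5) (nat_lit 92) (nat_lit 5) (nat_lit 86) (nat_lit 4) (nat_lit 323) (nat_lit 277) (nat_lit 264)) (XT.lf (nat_lit 0) (nat_lit 1807735984) (nat_lit 504) (nat_lit 4173471280) (nat_lit 84) (nat_lit 2379795665) (nat_lit 79) (nat_lit 5) (nat_lit 85) (nat_lit 5) (nat_lit 80) (nat_lit 5) (nat_lit 324) (nat_lit 277) (nat_lit 263))) (XT.nd (nat_lit 94) (nat_lit 504) (nat_lit 0) (XT.lf (nat_lit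 0) (nat_lit 208443352) (nat_lit 420) (nat_lit 4112311178) (nat_lit 504) (nat_lit 4165630662) (nat_lit 74) (nat_lit 5) (nat_lit 79) (nat_lit 5) (nat_lit 80) (nat_lit 5) (nat_lit 325) (nat_lit 277) (nat_lit 262)) (XT.nd (nat_lit 94) (nat_lit 504) (nat_lit 0) (XT.lf (nat_lit 0) (nat_lit 4737397244) (nat_lit 420) (nat_lit 2151656113) (nat_lit 504) (nat_lit 1727550692) (nat_lit 74) (nat_lit 5) (nat_lit 79) (nat_lit 5) (nat_lit 80) (nat_lit 5) (nat_lit 326) (nat_lit 277) (nat_lit 261)) (XT.lf (nat_lit 0) (nat_lit 583319252) (nat_lit 420) (nat_lit 127650367) (nat_lit 504) (nat_lit 8041720387) (nat_lit 68) (nat_lit 5) (nat_lit 73) (nat_lit 5) (nat_lit 74) (nat_lit 5) (nat_lit 327) (nat_lit 277) (nat_lit 260))))) (XT.nd (nat_lit 282) (nat_lit 756) (nat_lit 0) (XT.nd (nat_lit 94) (nat_lit 420) (nat_lit 0) (XT.lf (nat_lit 0) (nat_lit 3185537903) (nat_lit 504) (nat_lit 3740674695) (nat_lit 84) (nat_lit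 1966574466) (nat_lit 68) (nat_lit 5) (nat_lit 74) (nat_lit 5) (nat_lit 69) (nat_lit 5) (nat_lit 328) (nat_lit 277) (nat_lit 259)) (XT.nd (nat_lit 94) (nat_lit 0) (nat_lit 0) (XT.lf (nat_lit 0) (nat_lit 763898033) (nat_lit 420) (nat_lit 4919727189) (nat_lit 504) (nat_lit 3355470745) (nat_lit 63) (nat_lit 5) (nat_lit 68) (nat_lit 5) (nat_lit 69) (nat_lit 5) (nat_lit 329) (nat_lit 277) (nat_lit 258)) (XT.lf (nat_lit 0) (nat_lit 5412679018) (nat_lit 420) (nat_lit 2824568225) (nat_lit 504) (nat_lit 953585544) (nat_lit 63) (nat_lit 5) (nat_lit 68) (nat_lit 5) (nat_lit 69) (nat_lit 5) (nat_lit 330) (nat_lit 277) (nat_lit 257)))) (XT.nd (nat_lit 94) (nat_lit 336) (nat_lit 0) (XT.lf (nat_lit 0) (nat_lit 785091087) (nat_lit 336) (nat_lit 654849402) (nat_lit 420) (nat_lit 7908681559) (nat_lit 58) (nat_lit 5) (nat_lit 62) (nat_lit 5) (nat_lit 63) (nat_lit 5) (nat_lit 331) (nat_lit 277) (nat_lit 256))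 (XT.nd (nat_lit 94) (nat_lit 336) (nat_lit 0) (XT.lf (nat_lit 0) (nat_lit 3884400335) (nat_lit 420) (nat_lit 4041088108) (nat_lit 84) (nat_lit 1585813757) (nat_lit 58) (nat_lit 5) (nat_lit 63) (nat_lit 5) (nat_lit 59) (nat_lit 5) (nat_lit 332) (nat_lit 277) (nat_lit 255)) (XT.lf (nat_lit 0) (nat_lit 553207280) (nat_lit 336) (nat_lit 5806398639) (nat_lit 420) (nat_lit 3321004267) (nat_lit 54) (nat_lit 5) (nat_lit 58) (nat_lit 5) (nat_lit 59) (nat_lit 5) (nat_lit 333) (nat_lit 277) (nat_lit 254))))))) (XT.nd (nat_lit 940) (nat_lit 1092) (nat_lit 0) (XT.nd (nat_lit 470) (nat_lit 588) (nat_lit 0) (XT.nd (nat_lit 188) (nat_lit 336) (nat_lit 0) (XT.nd (nat_lit 94) (nat_lit 420) (nat_lit 0) (XT.lf (nat_lit 0) (nat_lit 5303540201) (nat_lit 336) (nat_lit 3593971008) (nat_lit 420) (nat_lit 958273555) (nat_lit 54) (nat_lit 5) (nat_lit 58) (nat_lit 5) (nat_lit 59) (nat_lit 5) (nat_lit 334) (nat_lit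 277) (nat_lit 253)) (XT.lf (nat_lit 0) (nat_lit 80510414) (nat_lit 336) (nat_lit 1312963901) (nat_lit 420) (nat_lit 8644321343) (nat_lit 49) (nat_lit 5) (nat_lit 53) (nat_lit 5) (nat_lit 54) (nat_lit 5) (nat_lit 335) (nat_lit 277) (nat_lit 252))) (XT.nd (nat_lit 94) (nat_lit 336) (nat_lit 0) (XT.lf (nat_lit 0) (nat_lit 3802075345) (nat_lit 420) (nat_lit 5363346459) (nat_lit 84) (nat_lit 1059770808) (nat_lit 49) (nat_lit 5) (nat_lit 54) (nat_lit 5) (nat_lit 50) (nat_lit 5) (nat_lit 336) (nat_lit 277) (nat_lit 251)) (XT.nd (nat_lit 94) (nat_lit 336) (nat_lit 0) (XT.lf (nat_lit 0) (nat_lit 6245956721) (nat_lit 420) (nat_lit 710419375) (nat_lit 84) (nat_lit 3463405772) (nat_lit 49) (nat_lit 5) (nat_lit 54) (nat_lit 5) (nat_lit 50) (nat_lit 5) (nat_lit 337) (nat_lit 277) (nat_lit 250)) (XT.lf (nat_lit 0) (nat_lit 4101493744) (nat_lit 336) (nat_lit 4653565213) (nat_lit 420) (nat_lit 1865828306)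 (nat_lit 45) (nat_lit 5) (nat_lit 49) (nat_lit 5) (nat_lit 50) (nat_lit 5) (nat_lit 338) (nat_lit 277) (nat_lit 249))))) (XT.nd (nat_lit 188) (nat_lit 252) (nat_lit 0) (XT.nd (nat_lit 94) (nat_lit 252) (nat_lit 0) (XT.lf (nat_lit 0) (nat_lit 459839839) (nat_lit 420) (nat_lit 1823932530) (nat_lit 84) (nat_lit 8545793734) (nat_lit 44) (nat_lit 5) (nat_lit 49) (nat_lit 5) (nat_lit 45) (nat_lit 5) (nat_lit 339) (nat_lit 277) (nat_lit 248)) (XT.lf (nat_lit 0) (nat_lit 2800956546) (nat_lit 336) (nat_lit 8054851153) (nat_lit 84) (nat_lit 189012685) (nat_lit 41) (nat_lit 5) (nat_lit 45) (nat_lit 5) (nat_lit 42) (nat_lit 5) (nat_lit 340) (nat_lit 277) (nat_lit 247))) (XT.nd (nat_lit 94) (nat_lit 252) (nat_lit 0) (XT.lf (nat_lit 0) (nat_lit 5208422296) (nat_lit 336) (nat_lit 3365091475) (nat_lit 84) (nat_lit 2693565854) (nat_lit 41) (nat_lit 5) (nat_lit 45) (nat_lit 5) (nat_lit 42) (nat_lit 5) (nat_lit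 341) (nat_lit 277) (nat_lit 246)) (XT.nd (nat_lit 94) (nat_lit 0) (nat_lit 0) (XT.lf (nat_lit 0) (nat_lit 1433807712) (nat_lit 252) (nat_lit 6223587092) (nat_lit 336) (nat_lit 3839995864) (nat_lit 38) (nat_lit 5) (nat_lit 41) (nat_lit 5) (nat_lit 42) (nat_lit 5) (nat_lit 342) (nat_lit 277) (nat_lit 245)) (XT.lf (nat_lit 0) (nat_lit 6388339268) (nat_lit 252) (nat_lit 3782506711) (nat_lit 336) (nat_lit 1564480845) (nat_lit 38) (nat_lit 5) (nat_lit 41) (nat_lit 5) (nat_lit 42) (nat_lit 5) (nat_lit 343) (nat_lit 277) (nat_lit 244)))))) (XT.nd (nat_lit 470) (nat_lit 504) (nat_lit 0) (XT.nd (nat_lit 188) (nat_lit 252) (nat_lit 0) (XT.nd (nat_lit 94) (nat_lit 252) (nat_lit 0) (XT.lf (nat_lit 0) (nat_lit 720077816) (nat_lit 336) (nat_lit 555527987) (nat_lit 84) (nat_lit 10706334201) (nat_lit 37) (nat_lit 5) (nat_lit 41) (nat_lit 5) (nat_lit 38) (nat_lit 5) (nat_lit 344) (nat_lit 277) (nat_lit 243))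 (XT.lf (nat_lit 0) (nat_lit 3055610845) (nat_lit 336) (nat_lit 7853931534) (nat_lit 84) (nat_lit 1325886997) (nat_lit 34) (nat_lit 5) (nat_lit 38) (nat_lit 5) (nat_lit 35) (nat_lit 5) (nat_lit 345) (nat_lit 277) (nat_lit 242))) (XT.nd (nat_lit 94) (nat_lit 252) (nat_lit 0) (XT.lf (nat_lit 0) (nat_lit 5438630794) (nat_lit 336) (nat_lit 3088710863) (nat_lit 84) (nat_lit 3970323419) (nat_lit 34) (nat_lit 5) (nat_lit 38) (nat_lit 5) (nat_lit 35) (nat_lit 5) (nat_lit 346) (nat_lit 277) (nat_lit 241)) (XT.nd (nat_lit 94) (nat_lit 0) (nat_lit 0) (XT.lf (nat_lit 0) (nat_lit 1800016571) (nat_lit 252) (nat_lit 6070862789) (nat_lit 336) (nat_lit 4898027039) (nat_lit 31) (nat_lit 5) (nat_lit 34) (nat_lit 5) (nat_lit 35) (nat_lit 5) (nat_lit 347) (nat_lit 277) (nat_lit 240)) (XT.lf (nat_lit 0) (nat_lit 6845904524) (nat_lit 252) (nat_lit 3523045547) (nat_lit 336) (nat_lit 2680011983) (nat_lit 31) (nat_lit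 5) (nat_lit 34) (nat_lit 5) (nat_lit 35) (nat_lit 5) (nat_lit 348) (nat_lit 277) (nat_lit 239))))) (XT.nd (nat_lit 282) (nat_lit 252) (nat_lit 0) (XT.nd (nat_lit 94) (nat_lit 252) (nat_lit 0) (XT.lf (nat_lit 0) (nat_lit 11990146061) (nat_lit 252) (nat_lit 913754903) (nat_lit 336) (nat_lit 435161498) (nat_lit 31) (nat_lit 5) (nat_lit 34) (nat_lit 5) (nat_lit 35) (nat_lit 5) (nat_lit 349) (nat_lit 277) (nat_lit 238)) (XT.nd (nat_lit 94) (nat_lit 0) (nat_lit 0) (XT.lf (nat_lit 0) (nat_lit 1855826364) (nat_lit 252) (nat_lit 10002372960) (nat_lit 84) (nat_lit 1779031428) (nat_lit 28) (nat_lit 5) (nat_lit 31) (nat_lit 5) (nat_lit 29) (nat_lit 5) (nat_lit 350) (nat_lit 277) (nat_lit 237)) (XT.lf (nat_lit 0) (nat_lit 4192984524) (nat_lit 252) (nat_lit 5214221496) (nat_lit 84) (nat_lit 4537884830) (nat_lit 28) (nat_lit 5) (nat_lit 31) (nat_lit 5) (nat_lit 29) (nat_lit 5) (nat_lit 351) (nat_lit 277)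 (nat_lit 236)))) (XT.nd (nat_lit 94) (nat_lit 252) (nat_lit 0) (XT.lf (nat_lit 0) (nat_lit 6564398188) (nat_lit 252) (nat_lit 333700166) (nat_lit 84) (nat_lit 7365673868) (nat_lit 28) (nat_lit 5) (nat_lit 31) (nat_lit 5) (nat_lit 29) (nat_lit 5) (nat_lit 352) (nat_lit 277) (nat_lit 235)) (XT.nd (nat_lit 94) (nat_lit 0) (nat_lit 0) (XT.lf (nat_lit 0) (nat_lit 4739225009) (nat_lit 252) (nat_lit 4280066451) (nat_lit 336) (nat_lit 5572823027) (nat_lit 25) (nat_lit 5) (nat_lit 28) (nat_lit 5) (nat_lit 29) (nat_lit 5) (nat_lit 353) (nat_lit 277) (nat_lit 234)) (XT.lf (nat_lit 0) (nat_lit 9922658516) (nat_lit 252) (nat_lit 1594643126) (nat_lit 336) (nat_lit 3414444231) (nat_lit 25) (nat_lit 5) (nat_lit 28) (nat_lit 5) (nat_lit 29) (nat_lit 5) (nat_lit 354) (nat_lit 277) (nat_lit 233))))))))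
noncomputable def xc25 : XT := (XT.nd (nat_lit 49914) (nat_lit 0) (nat_lit 4368) (XT.nd (nat_lit 940) (nat_lit 504) (nat_lit 0) (XT.nd (nat_lit 470) (nat_lit 252) (nat_lit 0) (XT.nd (nat_lit 188) (nat_lit 168) (nat_lit 0) (XT.nd (nat_lit 94) (nat_lit 252) (nat_lit 0) (XT.lf (nat_lit 0) (nat_lit 14068858209) (nat_lit 336) (nat_lit 79996870) (nat_lit 84) (nat_lit 1133876740) (nat_lit 25) (nat_lit 5) (nat_lit 29) (nat_lit 5) (nat_lit 26) (nat_lit 4) (nat_lit 355) (nat_lit 277) (nat_lit 232)) (XT.lf (nat_lit 0) (nat_lit 1065696092) (nat_lit 252) (nat_lit 10619069092) (nat_lit 84) (nat_lit 3958595914) (nat_lit 22) (nat_lit 5) (nat_lit 25) (nat_lit 5) (nat_lit 23) (nat_lit 5) (nat_lit 356) (nat_lit 277) (nat_lit 231))) (XT.nd (nat_lit 94) (nat_lit 168) (nat_lit 0) (XT.lf (nat_lit 0) (nat_lit 3357194841) (nat_lit 252) (nat_lit 5790942444) (nat_lit 84) (nat_lit 6867764802) (nat_lit 22) (nat_lit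 5) (nat_lit 25) (nat_lit 5) (nat_lit 23) (nat_lit 5) (nat_lit 357) (nat_lit 277) (nat_lit 230)) (XT.nd (nat_lit 94) (nat_lit 168) (nat_lit 0) (XT.lf (nat_lit 0) (nat_lit 5686397221) (nat_lit 252) (nat_lit 863468374) (nat_lit 84) (nat_lit 9851235097) (nat_lit 22) (nat_lit 5) (nat_lit 25) (nat_lit 5) (nat_lit 23) (nat_lit 5) (nat_lit 358) (nat_lit 277) (nat_lit 229)) (XT.lf (nat_lit 0) (nat_lit 4253647559) (nat_lit 168) (nat_lit 3844023444) (nat_lit 252) (nat_lit 8700336857) (nat_lit 20) (nat_lit 5) (nat_lit 22) (nat_lit 5) (nat_lit 23) (nat_lit 5) (nat_lit 359) (nat_lit 277) (nat_lit 228))))) (XT.nd (nat_lit 188) (nat_lit 252) (nat_lit 0) (XT.nd (nat_lit 94) (nat_lit 0) (nat_lit 0) (XT.lf (nat_lit 0) (nat_lit 9499381981) (nat_lit 168) (nat_lit 1061487347) (nat_lit 252) (nat_lit 6647128447) (nat_lit 20) (nat_lit 5) (nat_lit 22) (nat_lit 5) (nat_lit 23) (nat_lit 5) (nat_lit 360) (nat_lit 277)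 (nat_lit 227)) (XT.lf (nat_lit 0) (nat_lit 13087316467) (nat_lit 252) (nat_lit 2788623957) (nat_lit 84) (nat_lit 1755232293) (nat_lit 20) (nat_lit 5) (nat_lit 23) (nat_lit 5) (nat_lit 21) (nat_lit 4) (nat_lit 361) (nat_lit 277) (nat_lit 226))) (XT.nd (nat_lit 94) (nat_lit 84) (nat_lit 0) (XT.lf (nat_lit 0) (nat_lit 2272520498) (nat_lit 168) (nat_lit 13422857400) (nat_lit 252) (nat_lit 2372052901) (nat_lit 18) (nat_lit 5) (nat_lit 20) (nat_lit 5) (nat_lit 21) (nat_lit 4) (nat_lit 362) (nat_lit 277) (nat_lit 225)) (XT.nd (nat_lit 94) (nat_lit 84) (nat_lit 0) (XT.lf (nat_lit 0) (nat_lit 7503849677) (nat_lit 168) (nat_lit 10879891900) (nat_lit 252) (nat_lit 133553119) (nat_lit 18) (nat_lit 5) (nat_lit 20) (nat_lit 5) (nat_lit 21) (nat_lit 4) (nat_lit 363) (nat_lit 277) (nat_lit 224)) (XT.lf (nat_lit 0) (nat_lit 2101412740) (nat_lit 252) (nat_lit 6150433949) (nat_lit 84) (nat_lit 10729552716)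 (nat_lit 17) (nat_lit 5) (nat_lit 20) (nat_lit 5) (nat_lit 18) (nat_lit 5) (nat_lit 364) (nat_lit 277) (nat_lit 223)))))) (XT.nd (nat_lit 470) (nat_lit 336) (nat_lit 0) (XT.nd (nat_lit 188) (nat_lit 0) (nat_lit 0) (XT.nd (nat_lit 94) (nat_lit 168) (nat_lit 0) (XT.lf (nat_lit 0) (nat_lit 4374644578) (nat_lit 252) (nat_lit 1181789020) (nat_lit 84) (nat_lit 13904350133) (nat_lit 17) (nat_lit 5) (nat_lit 20) (nat_lit 5) (nat_lit 18) (nat_lit 5) (nat_lit 365) (nat_lit 277) (nat_lit 222)) (XT.lf (nat_lit 0) (nat_lit 3978605969) (nat_lit 168) (nat_lit 2751814378) (nat_lit 252) (nat_lit 13224291723) (nat_lit 15) (nat_lit 5) (nat_lit 17) (nat_lit 5) (nat_lit 18) (nat_lit 5) (nat_lit 366) (nat_lit 277) (nat_lit 221))) (XT.nd (nat_lit 94) (nat_lit 0) (nat_lit 0) (XT.lf (nat_lit 0) (nat_lit 9145936539) (nat_lit 252) (nat_lit 11183807348) (nat_lit 84) (nat_lit 134675903) (nat_lit 15) (nat_lit 5) (nat_lit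 18) (nat_lit 5) (nat_lit 16) (nat_lit 4) (nat_lit 367) (nat_lit 277) (nat_lit 220)) (XT.nd (nat_lit 94) (nat_lit 0) (nat_lit 0) (XT.lf (nat_lit 0) (nat_lit 11638157698) (nat_lit 252) (nat_lit 6312558062) (nat_lit 84) (nat_lit 3039210129) (nat_lit 15) (nat_lit 5) (nat_lit 18) (nat_lit 5) (nat_lit 16) (nat_lit 4) (nat_lit 368) (nat_lit 277) (nat_lit 219)) (XT.lf (nat_lit 0) (nat_lit 14182108498) (nat_lit 252) (nat_lit 1330519389) (nat_lit 84) (nat_lit 6019938557) (nat_lit 15) (nat_lit 5) (nat_lit 18) (nat_lit 5) (nat_lit 16) (nat_lit 4) (nat_lit 369) (nat_lit 277) (nat_lit 218))))) (XT.nd (nat_lit 282) (nat_lit 252) (nat_lit 0) (XT.nd (nat_lit 94) (nat_lit 0) (nat_lit 0) (XT.lf (nat_lit 0) (nat_lit 3844408719) (nat_lit 84) (nat_lit 12973888458) (nat_lit 168) (nat_lit 5273367827) (nat_lit 14) (nat_lit 5) (nat_lit 15) (nat_lit 5) (nat_lit 16) (nat_lit 4) (nat_lit 370) (nat_lit 277) (nat_lit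 217)) (XT.nd (nat_lit 94) (nat_lit 0) (nat_lit 0) (XT.lf (nat_lit 0) (nat_lit 9169350824) (nat_lit 84) (nat_lit 10356344632) (nat_lit 168) (nat_lit 3142775302) (nat_lit 14) (nat_lit 5) (nat_lit 15) (nat_lit 5) (nat_lit 16) (nat_lit 4) (nat_lit 371) (nat_lit 277) (nat_lit 216)) (XT.lf (nat_lit 0) (nat_lit 14621912120) (nat_lit 84) (nat_lit 7671444480) (nat_lit 168) (nat_lit 970582329) (nat_lit 14) (nat_lit 5) (nat_lit 15) (nat_lit 5) (nat_lit 16) (nat_lit 4) (nat_lit 372) (nat_lit 277) (nat_lit 215)))) (XT.nd (nat_lit 94) (nat_lit 168) (nat_lit 0) (XT.lf (nat_lit 0) (nat_lit 1220147076) (nat_lit 168) (nat_lit 3683802484) (nat_lit 84) (nat_lit 18974292055) (nat_lit 13) (nat_lit 5) (nat_lit 15) (nat_lit 5) (nat_lit 14) (nat_lit 5) (nat_lit 373) (nat_lit 277) (nat_lit 214)) (XT.nd (nat_lit 48034) (nat_lit 0) (nat_lit 12600) (XT.lf (nat_lit 0) (nat_lit 1410883642) (nat_lit 168) (nat_lit 2039203880)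 (nat_lit 252) (nat_lit 21061500778) (nat_lit 11) (nat_lit 5) (nat_lit 13) (nat_lit 5) (nat_lit 14) (nat_lit 5) (nat_lit 374) (nat_lit 277) (nat_lit 213)) (XT.lf (nat_lit 0) (nat_lit 2512027863) (nat_lit 756) (nat_lit 487090166) (nat_lit 756) (nat_lit 487090166) (nat_lit 161) (nat_lit 4) (nat_lit 170) (nat_lit 5) (nat_lit 170) (nat_lit 4) (nat_lit 308) (nat_lit 278) (nat_lit 278))))))) (XT.nd (nat_lit 1034) (nat_lit 2940) (nat_lit 0) (XT.nd (nat_lit 470) (nat_lit 2352) (nat_lit 0) (XT.nd (nat_lit 188) (nat_lit 2016) (nat_lit 0) (XT.nd (nat_lit 94) (nat_lit 0) (nat_lit 0) (XT.lf (nat_lit 0) (nat_lit 1755363212) (nat_lit 924) (nat_lit 5132653873) (nat_lit 0) (nat_lit 141406599) (nat_lit 150) (nat_lit 5) (nat_lit 161) (nat_lit 4) (nat_lit 150) (nat_lit 4) (nat_lit 309) (nat_lit 278) (nat_lit 277)) (XT.lf (nat_lit 0) (nat_lit 4491364176) (nat_lit 924) (nat_lit 1286798994) (nat_lit 0) (nat_lit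 1311979228) (nat_lit 150) (nat_lit 5) (nat_lit 161) (nat_lit 4) (nat_lit 150) (nat_lit 4) (nat_lit 310) (nat_lit 278) (nat_lit 276))) (XT.nd (nat_lit 94) (nat_lit 1008) (nat_lit 0) (XT.lf (nat_lit 0) (nat_lit 95725481) (nat_lit 1008) (nat_lit 4503325694) (nat_lit 84) (nat_lit 2555949062) (nat_lit 138) (nat_lit 5) (nat_lit 150) (nat_lit 5) (nat_lit 139) (nat_lit 4) (nat_lit 311) (nat_lit 278) (nat_lit 275)) (XT.nd (nat_lit 94) (nat_lit 1008) (nat_lit 0) (XT.lf (nat_lit 0) (nat_lit 2748095265) (nat_lit 1008) (nat_lit 589067997) (nat_lit 84) (nat_lit 3886520986) (nat_lit 138) (nat_lit 5) (nat_lit 150) (nat_lit 5) (nat_lit 139) (nat_lit 4) (nat_lit 312) (nat_lit 278) (nat_lit 274)) (XT.lf (nat_lit 0) (nat_lit 3437794450) (nat_lit 1008) (nat_lit 1996310973) (nat_lit 1092) (nat_lit 1862303000) (nat_lit 126) (nat_lit 5) (nat_lit 138) (nat_lit 5) (nat_lit 139) (nat_lit 4) (nat_lit 313) (nat_lit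 278) (nat_lit 273))))) (XT.nd (nat_lit 282) (nat_lit 672) (nat_lit 0) (XT.nd (nat_lit 94) (nat_lit 504) (nat_lit 0) (XT.lf (nat_lit 0) (nat_lit 146126762) (nat_lit 1092) (nat_lit 594587322) (nat_lit 1176) (nat_lit 6633108062) (nat_lit 112) (nat_lit 5) (nat_lit 125) (nat_lit 5) (nat_lit 126) (nat_lit 5) (nat_lit 314) (nat_lit 278) (nat_lit 272)) (XT.nd (nat_lit 94) (nat_lit 504) (nat_lit 0) (XT.lf (nat_lit 0) (nat_lit 3354399457) (nat_lit 1176) (nat_lit 3204832854) (nat_lit 84) (nat_lit 895153942) (nat_lit 112) (nat_lit 5) (nat_lit 126) (nat_lit 5) (nat_lit 113) (nat_lit 4) (nat_lit 315) (nat_lit 278) (nat_lit 271)) (XT.lf (nat_lit 0) (nat_lit 875376612) (nat_lit 504) (nat_lit 5110450274) (nat_lit 588) (nat_lit 1553941051) (nat_lit 106) (nat_lit 5) (nat_lit 112) (nat_lit 5) (nat_lit 113) (nat_lit 4) (nat_lit 316) (nat_lit 278) (nat_lit 270)))) (XT.nd (nat_lit 94) (nat_lit 588) (nat_lit 0)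 (XT.lf (nat_lit 0) (nat_lit 1005648999) (nat_lit 588) (nat_lit 2567764189) (nat_lit 84) (nat_lit 4055748942) (nat_lit 105) (nat_lit 5) (nat_lit 112) (nat_lit 5) (nat_lit 106) (nat_lit 5) (nat_lit 317) (nat_lit 278) (nat_lit 269)) (XT.nd (nat_lit 94) (nat_lit 0) (nat_lit 0) (XT.lf (nat_lit 0) (nat_lit 1594445536) (nat_lit 588) (nat_lit 1958413887) (nat_lit 672) (nat_lit 4170145296) (nat_lit 98) (nat_lit 5) (nat_lit 105) (nat_lit 5) (nat_lit 106) (nat_lit 5) (nat_lit 318) (nat_lit 278) (nat_lit 268)) (XT.lf (nat_lit 0) (nat_lit 5863260877) (nat_lit 588) (nat_lit 268810298) (nat_lit 672) (nat_lit 1689458228) (nat_lit 98) (nat_lit 5) (nat_lit 105) (nat_lit 5) (nat_lit 106) (nat_lit 5) (nat_lit 319) (nat_lit 278) (nat_lit 267)))))) (XT.nd (nat_lit 470) (nat_lit 1344) (nat_lit 0) (XT.nd (nat_lit 188) (nat_lit 1008) (nat_lit 0) (XT.nd (nat_lit 94) (nat_lit 0) (nat_lit 0) (XT.lf (nat_lit 0) (nat_lit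 815801640) (nat_lit 588) (nat_lit 5636833567) (nat_lit 84) (nat_lit 1471584505) (nat_lit 91) (nat_lit 5) (nat_lit 98) (nat_lit 5) (nat_lit 92) (nat_lit 5) (nat_lit 320) (nat_lit 278) (nat_lit 266)) (XT.lf (nat_lit 0) (nat_lit 3315838463) (nat_lit 588) (nat_lit 1421543116) (nat_lit 84) (nat_lit 3293947129) (nat_lit 91) (nat_lit 5) (nat_lit 98) (nat_lit 5) (nat_lit 92) (nat_lit 5) (nat_lit 321) (nat_lit 278) (nat_lit 265))) (XT.nd (nat_lit 94) (nat_lit 504) (nat_lit 0) (XT.lf (nat_lit 0) (nat_lit 2907327095) (nat_lit 504) (nat_lit 2945840194) (nat_lit 588) (nat_lit 2290117969) (nat_lit 85) (nat_lit 5) (nat_lit 91) (nat_lit 5) (nat_lit 92) (nat_lit 5) (nat_lit 322) (nat_lit 278) (nat_lit 264)) (XT.nd (nat_lit 94) (nat_lit 420) (nat_lit 0) (XT.lf (nat_lit 0) (nat_lit 152514284) (nat_lit 588) (nat_lit 936544090) (nat_lit 84) (nat_lit 7171517722) (nat_lit 84) (nat_lit 5) (nat_lit 91) (nat_lit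 5) (nat_lit 85) (nat_lit 5) (nat_lit 323) (nat_lit 278) (nat_lit 263)) (XT.lf (nat_lit 0) (nat_lit 2599794140) (nat_lit 504) (nat_lit 4922403108) (nat_lit 84) (nat_lit 859564316) (nat_lit 79) (nat_lit 5) (nat_lit 85) (nat_lit 5) (nat_lit 80) (nat_lit 5) (nat_lit 324) (nat_lit 278) (nat_lit 262))))) (XT.nd (nat_lit 282) (nat_lit 840) (nat_lit 0) (XT.nd (nat_lit 94) (nat_lit 504) (nat_lit 0) (XT.lf (nat_lit 0) (nat_lit 5078534566) (nat_lit 504) (nat_lit 581969564) (nat_lit 84) (nat_lit 2847824633) (nat_lit 79) (nat_lit 5) (nat_lit 85) (nat_lit 5) (nat_lit 80) (nat_lit 5) (nat_lit 325) (nat_lit 278) (nat_lit 261)) (XT.nd (nat_lit 94) (nat_lit 84) (nat_lit 0) (XT.lf (nat_lit 0) (nat_lit 3898113861) (nat_lit 420) (nat_lit 3711219683) (nat_lit 504) (nat_lit 1030495210) (nat_lit 74) (nat_lit 5) (nat_lit 79) (nat_lit 5) (nat_lit 80) (nat_lit 5) (nat_lit 326) (nat_lit 278) (nat_lit 260)) (XT.lf (nat_lit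 0) (nat_lit 1357110533) (nat_lit 504) (nat_lit 334401408) (nat_lit 84) (nat_lit 7085443003) (nat_lit 73) (nat_lit 5) (nat_lit 79) (nat_lit 5) (nat_lit 74) (nat_lit 5) (nat_lit 327) (nat_lit 278) (nat_lit 259)))) (XT.nd (nat_lit 94) (nat_lit 420) (nat_lit 0) (XT.lf (nat_lit 0) (nat_lit 3782180670) (nat_lit 504) (nat_lit 4711265812) (nat_lit 84) (nat_lit 425248218) (nat_lit 68) (nat_lit 5) (nat_lit 74) (nat_lit 5) (nat_lit 69) (nat_lit 5) (nat_lit 328) (nat_lit 278) (nat_lit 258)) (XT.nd (nat_lit 94) (nat_lit 420) (nat_lit 0) (XT.lf (nat_lit 0) (nat_lit 6243044725) (nat_lit 504) (nat_lit 258139128) (nat_lit 84) (nat_lit 2565078672) (nat_lit 68) (nat_lit 5) (nat_lit 74) (nat_lit 5) (nat_lit 69) (nat_lit 5) (nat_lit 329) (nat_lit 278) (nat_lit 257)) (XT.lf (nat_lit 0) (nat_lit 4349643810) (nat_lit 420) (nat_lit 4415301527) (nat_lit 504) (nat_lit 454139214) (nat_lit 63) (nat_lit 5) (nat_lit 68)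 (nat_lit 5) (nat_lit 69) (nat_lit 5) (nat_lit 330) (nat_lit 278) (nat_lit 256))))))))
noncomputable def xc26 : XT := (XT.nd (nat_lit 1974) (nat_lit 1260) (nat_lit 0) (XT.nd (nat_lit 940) (nat_lit 1092) (nat_lit 0) (XT.nd (nat_lit 470) (nat_lit 1008) (nat_lit 0) (XT.nd (nat_lit 188) (nat_lit 420) (nat_lit 0) (XT.nd (nat_lit 94) (nat_lit 336) (nat_lit 0) (XT.lf (nat_lit 0) (nat_lit 1892917576) (nat_lit 504) (nat_lit 362269599) (nat_lit 84) (nat_lit 7122757456) (nat_lit 62) (nat_lit 5) (nat_lit 68) (nat_lit 5) (nat_lit 63) (nat_lit 5) (nat_lit 331) (nat_lit 278) (nat_lit 255)) (XT.lf (nat_lit 0) (nat_lit 4289624393) (nat_lit 420) (nat_lit 5245261257) (nat_lit 84) (nat_lit 7312407) (nat_lit 58) (nat_lit 5) (nat_lit 63) (nat_lit 5) (nat_lit 59) (nat_lit 5) (nat_lit 332) (nat_lit 278) (nat_lit 254))) (XT.nd (nat_lit 94) (nat_lit 420) (nat_lit 0) (XT.lf (nat_lit 0) (nat_lit 6732016860) (nat_lit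 420) (nat_lit 696874357) (nat_lit 84) (nat_lit 2283722169) (nat_lit 58) (nat_lit 5) (nat_lit 63) (nat_lit 5) (nat_lit 59) (nat_lit 5) (nat_lit 333) (nat_lit 278) (nat_lit 253)) (XT.nd (nat_lit 94) (nat_lit 84) (nat_lit 0) (XT.lf (nat_lit 0) (nat_lit 4004718744) (nat_lit 336) (nat_lit 5231303202) (nat_lit 420) (nat_lit 652904351) (nat_lit 54) (nat_lit 5) (nat_lit 58) (nat_lit 5) (nat_lit 59) (nat_lit 5) (nat_lit 334) (nat_lit 278) (nat_lit 252)) (XT.lf (nat_lit 0) (nat_lit 1665505138) (nat_lit 420) (nat_lit 1290104800) (nat_lit 84) (nat_lit 7116158352) (nat_lit 53) (nat_lit 5) (nat_lit 58) (nat_lit 5) (nat_lit 54) (nat_lit 5) (nat_lit 335) (nat_lit 278) (nat_lit 251))))) (XT.nd (nat_lit 188) (nat_lit 672) (nat_lit 0) (XT.nd (nat_lit 94) (nat_lit 0) (nat_lit 0) (XT.lf (nat_lit 0) (nat_lit 3442108979) (nat_lit 336) (nat_lit 582279138) (nat_lit 420) (nat_lit 6236398160) (nat_lit 49) (nat_lit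 5) (nat_lit 53) (nat_lit 5) (nat_lit 54) (nat_lit 5) (nat_lit 336) (nat_lit 278) (nat_lit 250)) (XT.lf (nat_lit 0) (nat_lit 6437270767) (nat_lit 420) (nat_lit 2193401143) (nat_lit 84) (nat_lit 1825741959) (nat_lit 49) (nat_lit 5) (nat_lit 54) (nat_lit 5) (nat_lit 50) (nat_lit 5) (nat_lit 337) (nat_lit 278) (nat_lit 249))) (XT.nd (nat_lit 94) (nat_lit 336) (nat_lit 0) (XT.lf (nat_lit 0) (nat_lit 2554930041) (nat_lit 336) (nat_lit 6351636799) (nat_lit 420) (nat_lit 1752261464) (nat_lit 45) (nat_lit 5) (nat_lit 49) (nat_lit 5) (nat_lit 50) (nat_lit 5) (nat_lit 338) (nat_lit 278) (nat_lit 248)) (XT.nd (nat_lit 94) (nat_lit 252) (nat_lit 0) (XT.lf (nat_lit 0) (nat_lit 546754441) (nat_lit 420) (nat_lit 3442229329) (nat_lit 84) (nat_lit 6879314341) (nat_lit 44) (nat_lit 5) (nat_lit 49) (nat_lit 5) (nat_lit 45) (nat_lit 5) (nat_lit 339) (nat_lit 278) (nat_lit 247)) (XT.lf (nat_lit 0) (nat_lit 1308035087)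 (nat_lit 252) (nat_lit 1537586368) (nat_lit 336) (nat_lit 8239309158) (nat_lit 41) (nat_lit 5) (nat_lit 44) (nat_lit 5) (nat_lit 45) (nat_lit 5) (nat_lit 340) (nat_lit 278) (nat_lit 246)))))) (XT.nd (nat_lit 470) (nat_lit 504) (nat_lit 0) (XT.nd (nat_lit 188) (nat_lit 588) (nat_lit 0) (XT.nd (nat_lit 94) (nat_lit 0) (nat_lit 0) (XT.lf (nat_lit 0) (nat_lit 5214521391) (nat_lit 336) (nat_lit 5103951275) (nat_lit 84) (nat_lit 989979149) (nat_lit 41) (nat_lit 5) (nat_lit 45) (nat_lit 5) (nat_lit 42) (nat_lit 5) (nat_lit 341) (nat_lit 278) (nat_lit 245)) (XT.lf (nat_lit 0) (nat_lit 7626658549) (nat_lit 336) (nat_lit 365044360) (nat_lit 84) (nat_lit 3548266270) (nat_lit 41) (nat_lit 5) (nat_lit 45) (nat_lit 5) (nat_lit 42) (nat_lit 5) (nat_lit 342) (nat_lit 278) (nat_lit 244))) (XT.nd (nat_lit 94) (nat_lit 336) (nat_lit 0) (XT.lf (nat_lit 0) (nat_lit 4551191794) (nat_lit 252) (nat_lit 5562984837)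 (nat_lit 336) (nat_lit 1664595117) (nat_lit 38) (nat_lit 5) (nat_lit 41) (nat_lit 5) (nat_lit 42) (nat_lit 5) (nat_lit 343) (nat_lit 278) (nat_lit 243)) (XT.nd (nat_lit 94) (nat_lit 252) (nat_lit 0) (XT.lf (nat_lit 0) (nat_lit 600131924) (nat_lit 336) (nat_lit 2465498848) (nat_lit 84) (nat_lit 8960521038) (nat_lit 37) (nat_lit 5) (nat_lit 41) (nat_lit 5) (nat_lit 38) (nat_lit 5) (nat_lit 344) (nat_lit 278) (nat_lit 242)) (XT.lf (nat_lit 0) (nat_lit 2416029480) (nat_lit 252) (nat_lit 465385323) (nat_lit 336) (nat_lit 9399965153) (nat_lit 34) (nat_lit 5) (nat_lit 37) (nat_lit 5) (nat_lit 38) (nat_lit 5) (nat_lit 345) (nat_lit 278) (nat_lit 241))))) (XT.nd (nat_lit 282) (nat_lit 252) (nat_lit 0) (XT.nd (nat_lit 94) (nat_lit 252) (nat_lit 0) (XT.lf (nat_lit 0) (nat_lit 5238891736) (nat_lit 336) (nat_lit 5125292249) (nat_lit 84) (nat_lit 2180278808) (nat_lit 34) (nat_lit 5) (nat_lit 38) (nat_lit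 5) (nat_lit 35) (nat_lit 5) (nat_lit 346) (nat_lit 278) (nat_lit 240)) (XT.nd (nat_lit 94) (nat_lit 252) (nat_lit 0) (XT.lf (nat_lit 0) (nat_lit 7632986792) (nat_lit 336) (nat_lit 301714864) (nat_lit 84) (nat_lit 4882238861) (nat_lit 34) (nat_lit 5) (nat_lit 38) (nat_lit 5) (nat_lit 35) (nat_lit 5) (nat_lit 347) (nat_lit 278) (nat_lit 239)) (XT.lf (nat_lit 0) (nat_lit 4709377906) (nat_lit 252) (nat_lit 5398654542) (nat_lit 336) (nat_lit 2989729528) (nat_lit 31) (nat_lit 5) (nat_lit 34) (nat_lit 5) (nat_lit 35) (nat_lit 5) (nat_lit 348) (nat_lit 278) (nat_lit 238)))) (XT.nd (nat_lit 94) (nat_lit 252) (nat_lit 0) (XT.lf (nat_lit 0) (nat_lit 9825887817) (nat_lit 252) (nat_lit 2797725532) (nat_lit 336) (nat_lit 764899969) (nat_lit 31) (nat_lit 5) (nat_lit 34) (nat_lit 5) (nat_lit 35) (nat_lit 5) (nat_lit 349) (nat_lit 278) (nat_lit 237)) (XT.nd (nat_lit 94) (nat_lit 0) (nat_lit 0) (XT.lf (nat_lit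 0) (nat_lit 1369639427) (nat_lit 168) (nat_lit 103397717) (nat_lit 252) (nat_lit 12215643863) (nat_lit 28) (nat_lit 5) (nat_lit 30) (nat_lit 5) (nat_lit 31) (nat_lit 5) (nat_lit 350) (nat_lit 278) (nat_lit 236)) (XT.lf (nat_lit 0) (nat_lit 3790362891) (nat_lit 252) (nat_lit 7557467958) (nat_lit 84) (nat_lit 2649371109) (nat_lit 28) (nat_lit 5) (nat_lit 31) (nat_lit 5) (nat_lit 29) (nat_lit 5) (nat_lit 351) (nat_lit 278) (nat_lit 235))))))) (XT.nd (nat_lit 1034) (nat_lit 588) (nat_lit 0) (XT.nd (nat_lit 470) (nat_lit 168) (nat_lit 0) (XT.nd (nat_lit 188) (nat_lit 252) (nat_lit 0) (XT.nd (nat_lit 94) (nat_lit 252) (nat_lit 0) (XT.lf (nat_lit 0) (nat_lit 6143535337) (nat_lit 252) (nat_lit 2703720206) (nat_lit 84) (nat_lit 5469237927) (nat_lit 28) (nat_lit 5) (nat_lit 31) (nat_lit 5) (nat_lit 29) (nat_lit 5) (nat_lit 352) (nat_lit 278) (nat_lit 234)) (XT.lf (nat_lit 0) (nat_lit 2293969976) (nat_lit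 252) (nat_lit 6262508657) (nat_lit 336) (nat_lit 6089700871) (nat_lit 25) (nat_lit 5) (nat_lit 28) (nat_lit 5) (nat_lit 29) (nat_lit 5) (nat_lit 353) (nat_lit 278) (nat_lit 233))) (XT.nd (nat_lit 94) (nat_lit 252) (nat_lit 0) (XT.lf (nat_lit 0) (nat_lit 7451697839) (nat_lit 252) (nat_lit 3585375213) (nat_lit 336) (nat_lit 3949319744) (nat_lit 25) (nat_lit 5) (nat_lit 28) (nat_lit 5) (nat_lit 29) (nat_lit 5) (nat_lit 354) (nat_lit 278) (nat_lit 232)) (XT.nd (nat_lit 94) (nat_lit 252) (nat_lit 0) (XT.lf (nat_lit 0) (nat_lit 12718676890) (nat_lit 252) (nat_lit 841581138) (nat_lit 336) (nat_lit 1778040987) (nat_lit 25) (nat_lit 5) (nat_lit 28) (nat_lit 5) (nat_lit 29) (nat_lit 5) (nat_lit 355) (nat_lit 278) (nat_lit 231)) (XT.lf (nat_lit 0) (nat_lit 461651647) (nat_lit 252) (nat_lit 13278616649) (nat_lit 84) (nat_lit 1960460390) (nat_lit 22) (nat_lit 5) (nat_lit 25) (nat_lit 5) (nat_lit 23)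 (nat_lit 5) (nat_lit 356) (nat_lit 278) (nat_lit 230))))) (XT.nd (nat_lit 282) (nat_lit 0) (nat_lit 0) (XT.nd (nat_lit 94) (nat_lit 168) (nat_lit 0) (XT.lf (nat_lit 0) (nat_lit 2736738368) (nat_lit 252) (nat_lit 8475268191) (nat_lit 84) (nat_lit 4861809076) (nat_lit 22) (nat_lit 5) (nat_lit 25) (nat_lit 5) (nat_lit 23) (nat_lit 5) (nat_lit 357) (nat_lit 278) (nat_lit 229)) (XT.nd (nat_lit 94) (nat_lit 168) (nat_lit 0) (XT.lf (nat_lit 0) (nat_lit 5050022194) (nat_lit 252) (nat_lit 3571827283) (nat_lit 84) (nat_lit 7837694307) (nat_lit 22) (nat_lit 5) (nat_lit 25) (nat_lit 5) (nat_lit 23) (nat_lit 5) (nat_lit 358) (nat_lit 278) (nat_lit 228)) (XT.lf (nat_lit 0) (nat_lit 1465809388) (nat_lit 168) (nat_lit 5952390972) (nat_lit 252) (nat_lit 9439621540) (nat_lit 20) (nat_lit 5) (nat_lit 22) (nat_lit 5) (nat_lit 23) (nat_lit 5) (nat_lit 359) (nat_lit 278) (nat_lit 227)))) (XT.nd (nat_lit 94) (nat_lit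 0) (nat_lit 0) (XT.lf (nat_lit 0) (nat_lit 6688469274) (nat_lit 168) (nat_lit 3177724840) (nat_lit 252) (nat_lit 7402122978) (nat_lit 20) (nat_lit 5) (nat_lit 22) (nat_lit 5) (nat_lit 23) (nat_lit 5) (nat_lit 360) (nat_lit 278) (nat_lit 226)) (XT.nd (nat_lit 94) (nat_lit 0) (nat_lit 0) (XT.lf (nat_lit 0) (nat_lit 12027576344) (nat_lit 168) (nat_lit 332547354) (nat_lit 252) (nat_lit 5332409292) (nat_lit 20) (nat_lit 5) (nat_lit 22) (nat_lit 5) (nat_lit 23) (nat_lit 5) (nat_lit 361) (nat_lit 278) (nat_lit 225)) (XT.lf (nat_lit 0) (nat_lit 14927965109) (nat_lit 252) (nat_lit 668409194) (nat_lit 84) (nat_lit 2533695513) (nat_lit 20) (nat_lit 5) (nat_lit 23) (nat_lit 5) (nat_lit 21) (nat_lit 4) (nat_lit 362) (nat_lit 278) (nat_lit 224)))))) (XT.nd (nat_lit 470) (nat_lit 168) (nat_lit 0) (XT.nd (nat_lit 188) (nat_lit 168) (nat_lit 0) (XT.nd (nat_lit 94) (nat_lit 84) (nat_lit 0) (XT.lf (nat_lit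 0) (nat_lit 4527290267) (nat_lit 168) (nat_lit 13068109238) (nat_lit 252) (nat_lit 985213977) (nat_lit 18) (nat_lit 5) (nat_lit 20) (nat_lit 5) (nat_lit 21) (nat_lit 4) (nat_lit 363) (nat_lit 278) (nat_lit 223)) (XT.lf (nat_lit 0) (nat_lit 1253004623) (nat_lit 252) (nat_lit 9203406424) (nat_lit 84) (nat_lit 8589029274) (nat_lit 17) (nat_lit 5) (nat_lit 20) (nat_lit 5) (nat_lit 18) (nat_lit 5) (nat_lit 364) (nat_lit 278) (nat_lit 222))) (XT.nd (nat_lit 94) (nat_lit 168) (nat_lit 0) (XT.lf (nat_lit 0) (nat_lit 3512748268) (nat_lit 252) (nat_lit 4255656609) (nat_lit 84) (nat_lit 11756866159) (nat_lit 17) (nat_lit 5) (nat_lit 20) (nat_lit 5) (nat_lit 18) (nat_lit 5) (nat_lit 365) (nat_lit 278) (nat_lit 221)) (XT.nd (nat_lit 94) (nat_lit 0) (nat_lit 0) (XT.lf (nat_lit 0) (nat_lit 820849790) (nat_lit 168) (nat_lit 5003266283) (nat_lit 252) (nat_lit 14196487351) (nat_lit 15) (nat_lit 5) (nat_lit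 17) (nat_lit 5) (nat_lit 18) (nat_lit 5) (nat_lit 366) (nat_lit 278) (nat_lit 220)) (XT.lf (nat_lit 0) (nat_lit 6104200346) (nat_lit 168) (nat_lit 2121180168) (nat_lit 252) (nat_lit 12305399015) (nat_lit 15) (nat_lit 5) (nat_lit 17) (nat_lit 5) (nat_lit 18) (nat_lit 5) (nat_lit 367) (nat_lit 278) (nat_lit 219))))) (XT.nd (nat_lit 282) (nat_lit 84) (nat_lit 0) (XT.nd (nat_lit 94) (nat_lit 84) (nat_lit 0) (XT.lf (nat_lit 0) (nat_lit 10683989527) (nat_lit 252) (nat_lit 9554090256) (nat_lit 84) (nat_lit 819273602) (nat_lit 15) (nat_lit 5) (nat_lit 18) (nat_lit 5) (nat_lit 16) (nat_lit 4) (nat_lit 368) (nat_lit 278) (nat_lit 218)) (XT.nd (nat_lit 94) (nat_lit 84) (nat_lit 0) (XT.lf (nat_lit 0) (nat_lit 13215748498) (nat_lit 252) (nat_lit 4591258885) (nat_lit 84) (nat_lit 3793389509) (nat_lit 15) (nat_lit 5) (nat_lit 18) (nat_lit 5) (nat_lit 16) (nat_lit 4) (nat_lit 369) (nat_lit 278) (nat_lit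 217)) (XT.lf (nat_lit 0) (nat_lit 497608887) (nat_lit 84) (nat_lit 15309302374) (nat_lit 168) (nat_lit 6354004248) (nat_lit 14) (nat_lit 5) (nat_lit 15) (nat_lit 5) (nat_lit 16) (nat_lit 4) (nat_lit 370) (nat_lit 278) (nat_lit 216)))) (XT.nd (nat_lit 94) (nat_lit 84) (nat_lit 0) (XT.lf (nat_lit 0) (nat_lit 5804109822) (nat_lit 84) (nat_lit 12698547092) (nat_lit 168) (nat_lit 4235449104) (nat_lit 14) (nat_lit 5) (nat_lit 15) (nat_lit 5) (nat_lit 16) (nat_lit 4) (nat_lit 371) (nat_lit 278) (nat_lit 215)) (XT.nd (nat_lit 94) (nat_lit 84) (nat_lit 0) (XT.lf (nat_lit 0) (nat_lit 11238784436) (nat_lit 84) (nat_lit 10020231367) (nat_lit 168) (nat_lit 2074931573) (nat_lit 14) (nat_lit 5) (nat_lit 15) (nat_lit 5) (nat_lit 16) (nat_lit 4) (nat_lit 372) (nat_lit 278) (nat_lit 214)) (XT.lf (nat_lit 0) (nat_lit 126951783) (nat_lit 168) (nat_lit 7143581826) (nat_lit 84) (nat_lit 16678421515) (nat_lit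 13) (nat_lit 5) (nat_lit 15) (nat_lit 5) (nat_lit 14) (nat_lit 5) (nat_lit 373) (nat_lit 278) (nat_lit 213))))))))
noncomputable def xc27 : XT := (XT.nd (nat_lit 49726) (nat_lit 0) (nat_lit 1764) (XT.nd (nat_lit 48692) (nat_lit 0) (nat_lit 5544) (XT.nd (nat_lit 48222) (nat_lit 0) (nat_lit 9408) (XT.nd (nat_lit 47940) (nat_lit 0) (nat_lit 11508) (XT.nd (nat_lit 47846) (nat_lit 0) (nat_lit 13188) (XT.lf (nat_lit 0) (nat_lit 2332133505) (nat_lit 168) (nat_lit 2094391204) (nat_lit 84) (nat_lit 20156565441) (nat_lit 13) (nat_lit 5) (nat_lit 15) (nat_lit 5) (nat_lit 14) (nat_lit 5) (nat_lit 374) (nat_lit 278) (nat_lit 212)) (XT.lf (nat_lit 0) (nat_lit 1084684978) (nat_lit 756) (nat_lit 1264761722) (nat_lit 0) (nat_lit 1084684978) (nat_lit 170) (nat_lit 5) (nat_lit 179) (nat_lit 4) (nat_lit 170) (nat_lit 4) (nat_lit 306) (nat_lit 279) (nat_lit 279))) (XT.nd (nat_lit 94) (nat_lit 924) (nat_lit 0)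 (XT.lf (nat_lit 0) (nat_lit 1182377615) (nat_lit 756) (nat_lit 3726165750) (nat_lit 756) (nat_lit 2010592814) (nat_lit 161) (nat_lit 4) (nat_lit 170) (nat_lit 5) (nat_lit 170) (nat_lit 4) (nat_lit 307) (nat_lit 279) (nat_lit 278)) (XT.nd (nat_lit 94) (nat_lit 840) (nat_lit 0) (XT.lf (nat_lit 0) (nat_lit 681906587) (nat_lit 840) (nat_lit 1994609924) (nat_lit 84) (nat_lit 4297285121) (nat_lit 160) (nat_lit 5) (nat_lit 170) (nat_lit 5) (nat_lit 161) (nat_lit 4) (nat_lit 308) (nat_lit 279) (nat_lit 277)) (XT.lf (nat_lit 0) (nat_lit 1802682089) (nat_lit 840) (nat_lit 1543551738) (nat_lit 924) (nat_lit 3685914007) (nat_lit 150) (nat_lit 5) (nat_lit 160) (nat_lit 5) (nat_lit 161) (nat_lit 4) (nat_lit 309) (nat_lit 279) (nat_lit 276))))) (XT.nd (nat_lit 188) (nat_lit 1092) (nat_lit 0) (XT.nd (nat_lit 94) (nat_lit 1008) (nat_lit 0) (XT.lf (nat_lit 0) (nat_lit 5684130918) (nat_lit 840) (nat_lit 343972513)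 (nat_lit 924) (nat_lit 1066659664) (nat_lit 150) (nat_lit 5) (nat_lit 160) (nat_lit 5) (nat_lit 161) (nat_lit 4) (nat_lit 310) (nat_lit 279) (nat_lit 275)) (XT.lf (nat_lit 0) (nat_lit 1550322237) (nat_lit 1008) (nat_lit 4685734284) (nat_lit 84) (nat_lit 924745025) (nat_lit 138) (nat_lit 5) (nat_lit 150) (nat_lit 5) (nat_lit 139) (nat_lit 4) (nat_lit 311) (nat_lit 279) (nat_lit 274))) (XT.nd (nat_lit 94) (nat_lit 1092) (nat_lit 0) (XT.lf (nat_lit 0) (nat_lit 4161979843) (nat_lit 1008) (nat_lit 809881872) (nat_lit 84) (nat_lit 2259085272) (nat_lit 138) (nat_lit 5) (nat_lit 150) (nat_lit 5) (nat_lit 139) (nat_lit 4) (nat_lit 312) (nat_lit 279) (nat_lit 273)) (XT.nd (nat_lit 94) (nat_lit 84) (nat_lit 0) (XT.lf (nat_lit 0) (nat_lit 3174423723) (nat_lit 1008) (nat_lit 3631465558) (nat_lit 1092) (nat_lit 499280359) (nat_lit 126) (nat_lit 5) (nat_lit 138) (nat_lit 5) (nat_lit 139) (nat_lit 4) (nat_lit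 313) (nat_lit 279) (nat_lit 272)) (XT.lf (nat_lit 0) (nat_lit 2035579513) (nat_lit 1092) (nat_lit 180332933) (nat_lit 84) (nat_lit 5167695217) (nat_lit 125) (nat_lit 5) (nat_lit 138) (nat_lit 5) (nat_lit 126) (nat_lit 5) (nat_lit 314) (nat_lit 279) (nat_lit 271)))))) (XT.nd (nat_lit 470) (nat_lit 1596) (nat_lit 0) (XT.nd (nat_lit 188) (nat_lit 672) (nat_lit 0) (XT.nd (nat_lit 94) (nat_lit 504) (nat_lit 0) (XT.lf (nat_lit 0) (nat_lit 3891250312) (nat_lit 1092) (nat_lit 708688727) (nat_lit 1176) (nat_lit 2865938268) (nat_lit 112) (nat_lit 5) (nat_lit 125) (nat_lit 5) (nat_lit 126) (nat_lit 5) (nat_lit 315) (nat_lit 279) (nat_lit 270)) (XT.lf (nat_lit 0) (nat_lit 466690514) (nat_lit 504) (nat_lit 6716318909) (nat_lit 588) (nat_lit 369919766) (nat_lit 106) (nat_lit 5) (nat_lit 112) (nat_lit 5) (nat_lit 113) (nat_lit 4) (nat_lit 316) (nat_lit 279) (nat_lit 269))) (XT.nd (nat_lit 94) (nat_lit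 588) (nat_lit 0) (XT.lf (nat_lit 0) (nat_lit 2128756792) (nat_lit 588) (nat_lit 3039586726) (nat_lit 84) (nat_lit 2474925544) (nat_lit 105) (nat_lit 5) (nat_lit 112) (nat_lit 5) (nat_lit 106) (nat_lit 5) (nat_lit 317) (nat_lit 279) (nat_lit 268)) (XT.nd (nat_lit 94) (nat_lit 0) (nat_lit 0) (XT.lf (nat_lit 0) (nat_lit 1075078849) (nat_lit 588) (nat_lit 3559792341) (nat_lit 672) (nat_lit 3103670591) (nat_lit 98) (nat_lit 5) (nat_lit 105) (nat_lit 5) (nat_lit 106) (nat_lit 5) (nat_lit 318) (nat_lit 279) (nat_lit 267)) (XT.lf (nat_lit 0) (nat_lit 5307189526) (nat_lit 588) (nat_lit 1871666216) (nat_lit 672) (nat_lit 659454226) (nat_lit 98) (nat_lit 5) (nat_lit 105) (nat_lit 5) (nat_lit 106) (nat_lit 5) (nat_lit 319) (nat_lit 279) (nat_lit 266))))) (XT.nd (nat_lit 282) (nat_lit 504) (nat_lit 0) (XT.nd (nat_lit 94) (nat_lit 504) (nat_lit 0) (XT.lf (nat_lit 0) (nat_lit 1670481834) (nat_lit 504)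 (nat_lit 98739511) (nat_lit 588) (nat_lit 6173335459) (nat_lit 91) (nat_lit 5) (nat_lit 97) (nat_lit 5) (nat_lit 98) (nat_lit 5) (nat_lit 320) (nat_lit 279) (nat_lit 265)) (XT.nd (nat_lit 94) (nat_lit 504) (nat_lit 0) (XT.lf (nat_lit 0) (nat_lit 4234280540) (nat_lit 588) (nat_lit 2093062719) (nat_lit 84) (nat_lit 1723545051) (nat_lit 91) (nat_lit 5) (nat_lit 98) (nat_lit 5) (nat_lit 92) (nat_lit 5) (nat_lit 321) (nat_lit 279) (nat_lit 264)) (XT.lf (nat_lit 0) (nat_lit 2185119166) (nat_lit 504) (nat_lit 4546349939) (nat_lit 588) (nat_lit 1432754151) (nat_lit 85) (nat_lit 5) (nat_lit 91) (nat_lit 5) (nat_lit 92) (nat_lit 5) (nat_lit 322) (nat_lit 279) (nat_lit 263)))) (XT.nd (nat_lit 94) (nat_lit 420) (nat_lit 0) (XT.lf (nat_lit 0) (nat_lit 959806768) (nat_lit 588) (nat_lit 1724767248) (nat_lit 84) (nat_lit 5597819244) (nat_lit 84) (nat_lit 5) (nat_lit 91) (nat_lit 5) (nat_lit 85) (nat_lit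 5) (nat_lit 323) (nat_lit 279) (nat_lit 262)) (XT.nd (nat_lit 94) (nat_lit 0) (nat_lit 0) (XT.lf (nat_lit 0) (nat_lit 2627698086) (nat_lit 420) (nat_lit 730535826) (nat_lit 504) (nat_lit 5046981565) (nat_lit 79) (nat_lit 5) (nat_lit 84) (nat_lit 5) (nat_lit 85) (nat_lit 5) (nat_lit 324) (nat_lit 279) (nat_lit 261)) (XT.lf (nat_lit 0) (nat_lit 5798485494) (nat_lit 504) (nat_lit 1465997288) (nat_lit 84) (nat_lit 1268611686) (nat_lit 79) (nat_lit 5) (nat_lit 85) (nat_lit 5) (nat_lit 80) (nat_lit 5) (nat_lit 325) (nat_lit 279) (nat_lit 260))))))) (XT.nd (nat_lit 1034) (nat_lit 1260) (nat_lit 0) (XT.nd (nat_lit 470) (nat_lit 1092) (nat_lit 0) (XT.nd (nat_lit 188) (nat_lit 924) (nat_lit 0) (XT.nd (nat_lit 94) (nat_lit 84) (nat_lit 0) (XT.lf (nat_lit 0) (nat_lit 2960114359) (nat_lit 420) (nat_lit 5329562579) (nat_lit 504) (nat_lit 376260425) (nat_lit 74) (nat_lit 5) (nat_lit 79) (nat_lit 5) (nat_lit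 80) (nat_lit 5) (nat_lit 326) (nat_lit 279) (nat_lit 259)) (XT.lf (nat_lit 0) (nat_lit 1968014719) (nat_lit 504) (nat_lit 1340445886) (nat_lit 84) (nat_lit 5495444637) (nat_lit 73) (nat_lit 5) (nat_lit 79) (nat_lit 5) (nat_lit 74) (nat_lit 5) (nat_lit 327) (nat_lit 279) (nat_lit 258))) (XT.nd (nat_lit 94) (nat_lit 504) (nat_lit 0) (XT.lf (nat_lit 0) (nat_lit 3150049376) (nat_lit 420) (nat_lit 1198954151) (nat_lit 504) (nat_lit 4598112992) (nat_lit 68) (nat_lit 5) (nat_lit 73) (nat_lit 5) (nat_lit 74) (nat_lit 5) (nat_lit 328) (nat_lit 279) (nat_lit 257)) (XT.nd (nat_lit 94) (nat_lit 504) (nat_lit 0) (XT.lf (nat_lit 0) (nat_lit 6769219878) (nat_lit 504) (nat_lit 1367017785) (nat_lit 84) (nat_lit 959808602) (nat_lit 68) (nat_lit 5) (nat_lit 74) (nat_lit 5) (nat_lit 69) (nat_lit 5) (nat_lit 329) (nat_lit 279) (nat_lit 256)) (XT.lf (nat_lit 0) (nat_lit 1441379) (nat_lit 504) (nat_lit 6066857612)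 (nat_lit 84) (nat_lit 3181890861) (nat_lit 62) (nat_lit 5) (nat_lit 68) (nat_lit 5) (nat_lit 63) (nat_lit 5) (nat_lit 330) (nat_lit 279) (nat_lit 255))))) (XT.nd (nat_lit 282) (nat_lit 756) (nat_lit 0) (XT.nd (nat_lit 94) (nat_lit 336) (nat_lit 0) (XT.lf (nat_lit 0) (nat_lit 2311590459) (nat_lit 504) (nat_lit 1598431461) (nat_lit 84) (nat_lit 5499841777) (nat_lit 62) (nat_lit 5) (nat_lit 68) (nat_lit 5) (nat_lit 63) (nat_lit 5) (nat_lit 331) (nat_lit 279) (nat_lit 254)) (XT.nd (nat_lit 94) (nat_lit 0) (nat_lit 0) (XT.lf (nat_lit 0) (nat_lit 3001540018) (nat_lit 336) (nat_lit 1666908773) (nat_lit 420) (nat_lit 4906993771) (nat_lit 58) (nat_lit 5) (nat_lit 62) (nat_lit 5) (nat_lit 63) (nat_lit 5) (nat_lit 332) (nat_lit 279) (nat_lit 253)) (XT.lf (nat_lit 0) (nat_lit 7067801696) (nat_lit 420) (nat_lit 2042697059) (nat_lit 84) (nat_lit 636780785) (nat_lit 58) (nat_lit 5) (nat_lit 63) (nat_lit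 5) (nat_lit 59) (nat_lit 5) (nat_lit 333) (nat_lit 279) (nat_lit 252)))) (XT.nd (nat_lit 94) (nat_lit 420) (nat_lit 0) (XT.lf (nat_lit 0) (nat_lit 2597847167) (nat_lit 336) (nat_lit 6934296562) (nat_lit 420) (nat_lit 392763073) (nat_lit 54) (nat_lit 5) (nat_lit 58) (nat_lit 5) (nat_lit 59) (nat_lit 5) (nat_lit 334) (nat_lit 279) (nat_lit 251)) (XT.nd (nat_lit 94) (nat_lit 336) (nat_lit 0) (XT.lf (nat_lit 0) (nat_lit 1894811356) (nat_lit 420) (nat_lit 2768516004) (nat_lit 84) (nat_lit 5445214618) (nat_lit 53) (nat_lit 5) (nat_lit 58) (nat_lit 5) (nat_lit 54) (nat_lit 5) (nat_lit 335) (nat_lit 279) (nat_lit 250)) (XT.lf (nat_lit 0) (nat_lit 1900653999) (nat_lit 336) (nat_lit 2312924671) (nat_lit 420) (nat_lit 6085302256) (nat_lit 49) (nat_lit 5) (nat_lit 53) (nat_lit 5) (nat_lit 54) (nat_lit 5) (nat_lit 336) (nat_lit 279) (nat_lit 249)))))) (XT.nd (nat_lit 470) (nat_lit 588) (nat_lit 0) (XT.nd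 (nat_lit 188) (nat_lit 336) (nat_lit 0) (XT.nd (nat_lit 94) (nat_lit 336) (nat_lit 0) (XT.lf (nat_lit 0) (nat_lit 6584829042) (nat_lit 420) (nat_lit 3788204678) (nat_lit 84) (nat_lit 122840448) (nat_lit 49) (nat_lit 5) (nat_lit 54) (nat_lit 5) (nat_lit 50) (nat_lit 5) (nat_lit 337) (nat_lit 279) (nat_lit 248)) (XT.lf (nat_lit 0) (nat_lit 895240197) (nat_lit 336) (nat_lit 8118692113) (nat_lit 420) (nat_lit 1685675063) (nat_lit 45) (nat_lit 5) (nat_lit 49) (nat_lit 5) (nat_lit 50) (nat_lit 5) (nat_lit 338) (nat_lit 279) (nat_lit 247))) (XT.nd (nat_lit 94) (nat_lit 252) (nat_lit 0) (XT.lf (nat_lit 0) (nat_lit 588367733) (nat_lit 420) (nat_lit 5175042063) (nat_lit 84) (nat_lit 5146447965) (nat_lit 44) (nat_lit 5) (nat_lit 49) (nat_lit 5) (nat_lit 45) (nat_lit 5) (nat_lit 339) (nat_lit 279) (nat_lit 246)) (XT.nd (nat_lit 94) (nat_lit 252) (nat_lit 0) (XT.lf (nat_lit 0) (nat_lit 2851337884) (nat_lit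 420) (nat_lit 481862265) (nat_lit 84) (nat_lit 7794469337) (nat_lit 44) (nat_lit 5) (nat_lit 49) (nat_lit 5) (nat_lit 45) (nat_lit 5) (nat_lit 340) (nat_lit 279) (nat_lit 245)) (XT.lf (nat_lit 0) (nat_lit 4384608956) (nat_lit 252) (nat_lit 798194220) (nat_lit 336) (nat_lit 6169612411) (nat_lit 41) (nat_lit 5) (nat_lit 44) (nat_lit 5) (nat_lit 45) (nat_lit 5) (nat_lit 341) (nat_lit 279) (nat_lit 244))))) (XT.nd (nat_lit 282) (nat_lit 252) (nat_lit 0) (XT.nd (nat_lit 94) (nat_lit 336) (nat_lit 0) (XT.lf (nat_lit 0) (nat_lit 7565090237) (nat_lit 336) (nat_lit 2251150535) (nat_lit 84) (nat_lit 1768680020) (nat_lit 41) (nat_lit 5) (nat_lit 45) (nat_lit 5) (nat_lit 42) (nat_lit 5) (nat_lit 342) (nat_lit 279) (nat_lit 243)) (XT.nd (nat_lit 94) (nat_lit 84) (nat_lit 0) (XT.lf (nat_lit 0) (nat_lit 2596439839) (nat_lit 252) (nat_lit 7415504634) (nat_lit 336) (nat_lit 1813100075) (nat_lit 38) (nat_lit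 5) (nat_lit 41) (nat_lit 5) (nat_lit 42) (nat_lit 5) (nat_lit 343) (nat_lit 279) (nat_lit 242)) (XT.lf (nat_lit 0) (nat_lit 433427254) (nat_lit 336) (nat_lit 4494508815) (nat_lit 84) (nat_lit 7145248173) (nat_lit 37) (nat_lit 5) (nat_lit 41) (nat_lit 5) (nat_lit 38) (nat_lit 5) (nat_lit 344) (nat_lit 279) (nat_lit 241)))) (XT.nd (nat_lit 94) (nat_lit 0) (nat_lit 0) (XT.lf (nat_lit 0) (nat_lit 316138748) (nat_lit 252) (nat_lit 2357185645) (nat_lit 336) (nat_lit 9656426256) (nat_lit 34) (nat_lit 5) (nat_lit 37) (nat_lit 5) (nat_lit 38) (nat_lit 5) (nat_lit 345) (nat_lit 279) (nat_lit 240)) (XT.nd (nat_lit 94) (nat_lit 0) (nat_lit 0) (XT.lf (nat_lit 0) (nat_lit 4991737308) (nat_lit 336) (nat_lit 7283670508) (nat_lit 84) (nat_lit 318690295) (nat_lit 34) (nat_lit 5) (nat_lit 38) (nat_lit 5) (nat_lit 35) (nat_lit 5) (nat_lit 346) (nat_lit 279) (nat_lit 239)) (XT.lf (nat_lit 0) (nat_lit 7366145531)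 (nat_lit 336) (nat_lit 2488108379) (nat_lit 84) (nat_lit 3012984246) (nat_lit 34) (nat_lit 5) (nat_lit 38) (nat_lit 5) (nat_lit 35) (nat_lit 5) (nat_lit 347) (nat_lit 279) (nat_lit 238))))))))
noncomputable def xc28 : XT := (XT.nd (nat_lit 1974) (nat_lit 168) (nat_lit 0) (XT.nd (nat_lit 940) (nat_lit 588) (nat_lit 0) (XT.nd (nat_lit 470) (nat_lit 504) (nat_lit 0) (XT.nd (nat_lit 188) (nat_lit 252) (nat_lit 0) (XT.nd (nat_lit 94) (nat_lit 0) (nat_lit 0) (XT.lf (nat_lit 0) (nat_lit 2450296031) (nat_lit 252) (nat_lit 7349389893) (nat_lit 336) (nat_lit 3349710818) (nat_lit 31) (nat_lit 5) (nat_lit 34) (nat_lit 5) (nat_lit 35) (nat_lit 5) (nat_lit 348) (nat_lit 279) (nat_lit 237)) (XT.lf (nat_lit 0) (nat_lit 7539908149) (nat_lit 252) (nat_lit 4756571100) (nat_lit 336) (nat_lit 1144300198) (nat_lit 31) (nat_lit 5) (nat_lit 34) (nat_lit 5) (nat_lit 35) (nat_lit 5) (nat_lit 349) (nat_lit 279) (nat_lit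 236))) (XT.nd (nat_lit 94) (nat_lit 168) (nat_lit 0) (XT.lf (nat_lit 0) (nat_lit 1069238425) (nat_lit 336) (nat_lit 1018952419) (nat_lit 84) (nat_lit 11653912333) (nat_lit 30) (nat_lit 5) (nat_lit 34) (nat_lit 5) (nat_lit 31) (nat_lit 5) (nat_lit 350) (nat_lit 279) (nat_lit 235)) (XT.nd (nat_lit 94) (nat_lit 0) (nat_lit 0) (XT.lf (nat_lit 0) (nat_lit 3338212073) (nat_lit 252) (nat_lit 10027732197) (nat_lit 84) (nat_lit 686223434) (nat_lit 28) (nat_lit 5) (nat_lit 31) (nat_lit 5) (nat_lit 29) (nat_lit 5) (nat_lit 351) (nat_lit 279) (nat_lit 234)) (XT.lf (nat_lit 0) (nat_lit 5673691776) (nat_lit 252) (nat_lit 5199952999) (nat_lit 84) (nat_lit 3498406237) (nat_lit 28) (nat_lit 5) (nat_lit 31) (nat_lit 5) (nat_lit 29) (nat_lit 5) (nat_lit 352) (nat_lit 279) (nat_lit 233))))) (XT.nd (nat_lit 188) (nat_lit 252) (nat_lit 0) (XT.nd (nat_lit 94) (nat_lit 252) (nat_lit 0) (XT.lf (nat_lit 0) (nat_lit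 8046717847) (nat_lit 252) (nat_lit 273668931) (nat_lit 84) (nat_lit 6382629719) (nat_lit 28) (nat_lit 5) (nat_lit 31) (nat_lit 5) (nat_lit 29) (nat_lit 5) (nat_lit 353) (nat_lit 279) (nat_lit 232)) (XT.lf (nat_lit 0) (nat_lit 4853499005) (nat_lit 252) (nat_lit 5654150501) (nat_lit 336) (nat_lit 4536230583) (nat_lit 25) (nat_lit 5) (nat_lit 28) (nat_lit 5) (nat_lit 29) (nat_lit 5) (nat_lit 354) (nat_lit 279) (nat_lit 231))) (XT.nd (nat_lit 94) (nat_lit 252) (nat_lit 0) (XT.lf (nat_lit 0) (nat_lit 10096295001) (nat_lit 252) (nat_lit 2918155284) (nat_lit 336) (nat_lit 2381883462) (nat_lit 25) (nat_lit 5) (nat_lit 28) (nat_lit 5) (nat_lit 29) (nat_lit 5) (nat_lit 355) (nat_lit 279) (nat_lit 230)) (XT.nd (nat_lit 94) (nat_lit 252) (nat_lit 0) (XT.lf (nat_lit 0) (nat_lit 15453978695) (nat_lit 252) (nat_lit 112707437) (nat_lit 336) (nat_lit 194105753) (nat_lit 25) (nat_lit 5) (nat_lit 28) (nat_lit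 5) (nat_lit 29) (nat_lit 5) (nat_lit 356) (nat_lit 279) (nat_lit 229)) (XT.lf (nat_lit 0) (nat_lit 2064717162) (nat_lit 252) (nat_lit 11291619388) (nat_lit 84) (nat_lit 2778263458) (nat_lit 22) (nat_lit 5) (nat_lit 25) (nat_lit 5) (nat_lit 23) (nat_lit 5) (nat_lit 357) (nat_lit 279) (nat_lit 228)))))) (XT.nd (nat_lit 470) (nat_lit 420) (nat_lit 0) (XT.nd (nat_lit 188) (nat_lit 168) (nat_lit 0) (XT.nd (nat_lit 94) (nat_lit 0) (nat_lit 0) (XT.lf (nat_lit 0) (nat_lit 4362561072) (nat_lit 252) (nat_lit 6411489015) (nat_lit 84) (nat_lit 5746791691) (nat_lit 22) (nat_lit 5) (nat_lit 25) (nat_lit 5) (nat_lit 23) (nat_lit 5) (nat_lit 358) (nat_lit 279) (nat_lit 227)) (XT.lf (nat_lit 0) (nat_lit 6701222558) (nat_lit 252) (nat_lit 1425994772) (nat_lit 84) (nat_lit 8792851515) (nat_lit 22) (nat_lit 5) (nat_lit 25) (nat_lit 5) (nat_lit 23) (nat_lit 5) (nat_lit 359) (nat_lit 279) (nat_lit 226))) (XT.nd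 (nat_lit 94) (nat_lit 0) (nat_lit 0) (XT.lf (nat_lit 0) (nat_lit 3744963001) (nat_lit 168) (nat_lit 5375068991) (nat_lit 252) (nat_lit 8211469671) (nat_lit 20) (nat_lit 5) (nat_lit 22) (nat_lit 5) (nat_lit 23) (nat_lit 5) (nat_lit 360) (nat_lit 279) (nat_lit 225)) (XT.nd (nat_lit 94) (nat_lit 0) (nat_lit 0) (XT.lf (nat_lit 0) (nat_lit 9062362278) (nat_lit 168) (nat_lit 2537295318) (nat_lit 252) (nat_lit 6156535311) (nat_lit 20) (nat_lit 5) (nat_lit 22) (nat_lit 5) (nat_lit 23) (nat_lit 5) (nat_lit 361) (nat_lit 279) (nat_lit 224)) (XT.lf (nat_lit 0) (nat_lit 14131682506) (nat_lit 252) (nat_lit 3696856705) (nat_lit 84) (nat_lit 366331796) (nat_lit 20) (nat_lit 5) (nat_lit 23) (nat_lit 5) (nat_lit 21) (nat_lit 4) (nat_lit 362) (nat_lit 279) (nat_lit 223))))) (XT.nd (nat_lit 282) (nat_lit 168) (nat_lit 0) (XT.nd (nat_lit 94) (nat_lit 84) (nat_lit 0) (XT.lf (nat_lit 0) (nat_lit 1415343875) (nat_lit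 168) (nat_lit 15339376307) (nat_lit 252) (nat_lit 1892100821) (nat_lit 18) (nat_lit 5) (nat_lit 20) (nat_lit 5) (nat_lit 21) (nat_lit 4) (nat_lit 363) (nat_lit 279) (nat_lit 222)) (XT.nd (nat_lit 94) (nat_lit 0) (nat_lit 0) (XT.lf (nat_lit 0) (nat_lit 350901334) (nat_lit 252) (nat_lit 12393459022) (nat_lit 84) (nat_lit 6368012764) (nat_lit 17) (nat_lit 5) (nat_lit 20) (nat_lit 5) (nat_lit 18) (nat_lit 5) (nat_lit 364) (nat_lit 279) (nat_lit 221)) (XT.lf (nat_lit 0) (nat_lit 2597562348) (nat_lit 252) (nat_lit 7465976047) (nat_lit 84) (nat_lit 9529098404) (nat_lit 17) (nat_lit 5) (nat_lit 20) (nat_lit 5) (nat_lit 18) (nat_lit 5) (nat_lit 365) (nat_lit 279) (nat_lit 220)))) (XT.nd (nat_lit 94) (nat_lit 168) (nat_lit 0) (XT.lf (nat_lit 0) (nat_lit 4888097957) (nat_lit 252) (nat_lit 2425665401) (nat_lit 84) (nat_lit 12774878207) (nat_lit 17) (nat_lit 5) (nat_lit 20) (nat_lit 5) (nat_lit 18) (nat_lit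 5) (nat_lit 366) (nat_lit 279) (nat_lit 219)) (XT.nd (nat_lit 94) (nat_lit 0) (nat_lit 0) (XT.lf (nat_lit 0) (nat_lit 2788350053) (nat_lit 168) (nat_lit 4463953905) (nat_lit 252) (nat_lit 13347688304) (nat_lit 15) (nat_lit 5) (nat_lit 17) (nat_lit 5) (nat_lit 18) (nat_lit 5) (nat_lit 367) (nat_lit 279) (nat_lit 218)) (XT.lf (nat_lit 0) (nat_lit 8177091003) (nat_lit 168) (nat_lit 1513402676) (nat_lit 252) (nat_lit 11436730443) (nat_lit 15) (nat_lit 5) (nat_lit 17) (nat_lit 5) (nat_lit 18) (nat_lit 5) (nat_lit 368) (nat_lit 279) (nat_lit 217))))))) (XT.nd (nat_lit 48598) (nat_lit 0) (nat_lit 7056) (XT.nd (nat_lit 470) (nat_lit 84) (nat_lit 0) (XT.nd (nat_lit 188) (nat_lit 84) (nat_lit 0) (XT.nd (nat_lit 94) (nat_lit 0) (nat_lit 0) (XT.lf (nat_lit 0) (nat_lit 12195414260) (nat_lit 252) (nat_lit 7990918386) (nat_lit 84) (nat_lit 1484791226) (nat_lit 15) (nat_lit 5) (nat_lit 18) (nat_lit 5) (nat_lit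 16) (nat_lit 4) (nat_lit 369) (nat_lit 279) (nat_lit 216)) (XT.lf (nat_lit 0) (nat_lit 14770170996) (nat_lit 252) (nat_lit 2930145943) (nat_lit 84) (nat_lit 4531857661) (nat_lit 15) (nat_lit 5) (nat_lit 18) (nat_lit 5) (nat_lit 16) (nat_lit 4) (nat_lit 370) (nat_lit 279) (nat_lit 215))) (XT.nd (nat_lit 94) (nat_lit 0) (nat_lit 0) (XT.lf (nat_lit 0) (nat_lit 2298218499) (nat_lit 84) (nat_lit 15126730798) (nat_lit 168) (nat_lit 5385708616) (nat_lit 14) (nat_lit 5) (nat_lit 15) (nat_lit 5) (nat_lit 16) (nat_lit 4) (nat_lit 371) (nat_lit 279) (nat_lit 214)) (XT.nd (nat_lit 94) (nat_lit 0) (nat_lit 0) (XT.lf (nat_lit 0) (nat_lit 7715544246) (nat_lit 84) (nat_lit 12454801519) (nat_lit 168) (nat_lit 3236515471) (nat_lit 14) (nat_lit 5) (nat_lit 15) (nat_lit 5) (nat_lit 16) (nat_lit 4) (nat_lit 372) (nat_lit 279) (nat_lit 213)) (XT.lf (nat_lit 0) (nat_lit 13266631002) (nat_lit 84) (nat_lit 9712623298)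 (nat_lit 168) (nat_lit 1043005611) (nat_lit 14) (nat_lit 5) (nat_lit 15) (nat_lit 5) (nat_lit 16) (nat_lit 4) (nat_lit 373) (nat_lit 279) (nat_lit 212))))) (XT.nd (nat_lit 47846) (nat_lit 0) (nat_lit 12348) (XT.nd (nat_lit 47658) (nat_lit 0) (nat_lit 13188) (XT.lf (nat_lit 0) (nat_lit 1172751371) (nat_lit 168) (nat_lit 5712647648) (nat_lit 84) (nat_lit 17771660469) (nat_lit 13) (nat_lit 5) (nat_lit 15) (nat_lit 5) (nat_lit 14) (nat_lit 5) (nat_lit 374) (nat_lit 279) (nat_lit 211)) (XT.nd (nat_lit 94) (nat_lit 756) (nat_lit 0) (XT.lf (nat_lit 0) (nat_lit 1911314415) (nat_lit 588) (nat_lit 738470261) (nat_lit 588) (nat_lit 738470261) (nat_lit 179) (nat_lit 4) (nat_lit 186) (nat_lit 5) (nat_lit 186) (nat_lit 4) (nat_lit 304) (nat_lit 280) (nat_lit 280)) (XT.lf (nat_lit 0) (nat_lit 634073229) (nat_lit 672) (nat_lit 576000799) (nat_lit 756) (nat_lit 5611540844) (nat_lit 170) (nat_lit 5) (nat_lit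 178) (nat_lit 5) (nat_lit 179) (nat_lit 4) (nat_lit 305) (nat_lit 280) (nat_lit 279)))) (XT.nd (nat_lit 94) (nat_lit 840) (nat_lit 0) (XT.lf (nat_lit 0) (nat_lit 3893286518) (nat_lit 756) (nat_lit 2567655814) (nat_lit 0) (nat_lit 408957887) (nat_lit 170) (nat_lit 5) (nat_lit 179) (nat_lit 4) (nat_lit 170) (nat_lit 4) (nat_lit 306) (nat_lit 280) (nat_lit 278)) (XT.nd (nat_lit 94) (nat_lit 84) (nat_lit 0) (XT.lf (nat_lit 0) (nat_lit 1105714853) (nat_lit 756) (nat_lit 5482493654) (nat_lit 756) (nat_lit 334175754) (nat_lit 161) (nat_lit 4) (nat_lit 170) (nat_lit 5) (nat_lit 170) (nat_lit 4) (nat_lit 307) (nat_lit 280) (nat_lit 277)) (XT.lf (nat_lit 0) (nat_lit 2281338456) (nat_lit 840) (nat_lit 2128876108) (nat_lit 84) (nat_lit 2567884340) (nat_lit 160) (nat_lit 5) (nat_lit 170) (nat_lit 5) (nat_lit 161) (nat_lit 4) (nat_lit 308) (nat_lit 280) (nat_lit 276)))))) (XT.nd (nat_lit 470) (nat_lit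 2352) (nat_lit 0) (XT.nd (nat_lit 188) (nat_lit 2016) (nat_lit 0) (XT.nd (nat_lit 94) (nat_lit 84) (nat_lit 0) (XT.lf (nat_lit 0) (nat_lit 1628311976) (nat_lit 840) (nat_lit 3273714032) (nat_lit 924) (nat_lit 2135990403) (nat_lit 150) (nat_lit 5) (nat_lit 160) (nat_lit 5) (nat_lit 161) (nat_lit 4) (nat_lit 309) (nat_lit 280) (nat_lit 275)) (XT.lf (nat_lit 0) (nat_lit 431891105) (nat_lit 924) (nat_lit 1632946873) (nat_lit 84) (nat_lit 5037141329) (nat_lit 149) (nat_lit 5) (nat_lit 160) (nat_lit 5) (nat_lit 150) (nat_lit 5) (nat_lit 310) (nat_lit 280) (nat_lit 274))) (XT.nd (nat_lit 94) (nat_lit 1092) (nat_lit 0) (XT.lf (nat_lit 0) (nat_lit 2210130269) (nat_lit 924) (nat_lit 764781516) (nat_lit 1008) (nat_lit 4194603884) (nat_lit 138) (nat_lit 5) (nat_lit 149) (nat_lit 5) (nat_lit 150) (nat_lit 5) (nat_lit 311) (nat_lit 280) (nat_lit 273)) (XT.nd (nat_lit 94) (nat_lit 1092) (nat_lit 0) (XT.lf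 (nat_lit 0) (nat_lit 5539494615) (nat_lit 1008) (nat_lit 1113196781) (nat_lit 84) (nat_lit 588622390) (nat_lit 138) (nat_lit 5) (nat_lit 150) (nat_lit 5) (nat_lit 139) (nat_lit 4) (nat_lit 312) (nat_lit 280) (nat_lit 272)) (XT.lf (nat_lit 0) (nat_lit 808034068) (nat_lit 1092) (nat_lit 4497199814) (nat_lit 84) (nat_lit 2011530360) (nat_lit 125) (nat_lit 5) (nat_lit 138) (nat_lit 5) (nat_lit 126) (nat_lit 5) (nat_lit 313) (nat_lit 280) (nat_lit 271))))) (XT.nd (nat_lit 282) (nat_lit 1176) (nat_lit 0) (XT.nd (nat_lit 94) (nat_lit 1176) (nat_lit 0) (XT.lf (nat_lit 0) (nat_lit 3294768843) (nat_lit 1092) (nat_lit 588463583) (nat_lit 84) (nat_lit 3513172771) (nat_lit 125) (nat_lit 5) (nat_lit 138) (nat_lit 5) (nat_lit 126) (nat_lit 5) (nat_lit 314) (nat_lit 280) (nat_lit 270)) (XT.nd (nat_lit 94) (nat_lit 84) (nat_lit 0) (XT.lf (nat_lit 0) (nat_lit 3438375625) (nat_lit 1092) (nat_lit 2379339016)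 (nat_lit 1176) (nat_lit 1662415156) (nat_lit 112) (nat_lit 5) (nat_lit 125) (nat_lit 5) (nat_lit 126) (nat_lit 5) (nat_lit 315) (nat_lit 280) (nat_lit 269)) (XT.lf (nat_lit 0) (nat_lit 766928645) (nat_lit 1176) (nat_lit 45726817) (nat_lit 84) (nat_lit 6755977121) (nat_lit 111) (nat_lit 5) (nat_lit 125) (nat_lit 5) (nat_lit 112) (nat_lit 5) (nat_lit 316) (nat_lit 280) (nat_lit 268)))) (XT.nd (nat_lit 94) (nat_lit 672) (nat_lit 0) (XT.lf (nat_lit 0) (nat_lit 3213678982) (nat_lit 588) (nat_lit 3601345379) (nat_lit 84) (nat_lit 845369157) (nat_lit 105) (nat_lit 5) (nat_lit 112) (nat_lit 5) (nat_lit 106) (nat_lit 5) (nat_lit 317) (nat_lit 280) (nat_lit 267)) (XT.nd (nat_lit 94) (nat_lit 84) (nat_lit 0) (XT.lf (nat_lit 0) (nat_lit 465064622) (nat_lit 588) (nat_lit 5213814256) (nat_lit 672) (nat_lit 2078207167) (nat_lit 98) (nat_lit 5) (nat_lit 105) (nat_lit 5) (nat_lit 106) (nat_lit 5) (nat_lit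 318) (nat_lit 280) (nat_lit 266)) (XT.lf (nat_lit 0) (nat_lit 323973531) (nat_lit 672) (nat_lit 3199766019) (nat_lit 84) (nat_lit 4334219115) (nat_lit 97) (nat_lit 5) (nat_lit 105) (nat_lit 5) (nat_lit 98) (nat_lit 5) (nat_lit 319) (nat_lit 280) (nat_lit 265))))))))
noncomputable def xc29 : XT := (XT.nd (nat_lit 1974) (nat_lit 2016) (nat_lit 0) (XT.nd (nat_lit 940) (nat_lit 2016) (nat_lit 0) (XT.nd (nat_lit 470) (nat_lit 924) (nat_lit 0) (XT.nd (nat_lit 188) (nat_lit 1008) (nat_lit 0) (XT.nd (nat_lit 94) (nat_lit 0) (nat_lit 0) (XT.lf (nat_lit 0) (nat_lit 945324008) (nat_lit 504) (nat_lit 1753225705) (nat_lit 588) (nat_lit 5264856391) (nat_lit 91) (nat_lit 5) (nat_lit 97) (nat_lit 5) (nat_lit 98) (nat_lit 5) (nat_lit 320) (nat_lit 280) (nat_lit 264)) (XT.lf (nat_lit 0) (nat_lit 5114220331) (nat_lit 588) (nat_lit 2858794584) (nat_lit 84) (nat_lit 100387789) (nat_lit 91) (nat_lit 5) (nat_lit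 98) (nat_lit 5) (nat_lit 92) (nat_lit 5) (nat_lit 321) (nat_lit 280) (nat_lit 263))) (XT.nd (nat_lit 94) (nat_lit 504) (nat_lit 0) (XT.lf (nat_lit 0) (nat_lit 1367870696) (nat_lit 504) (nat_lit 6203446640) (nat_lit 588) (nat_lit 616793169) (nat_lit 85) (nat_lit 5) (nat_lit 91) (nat_lit 5) (nat_lit 92) (nat_lit 5) (nat_lit 322) (nat_lit 280) (nat_lit 262)) (XT.nd (nat_lit 94) (nat_lit 420) (nat_lit 0) (XT.lf (nat_lit 0) (nat_lit 1727516738) (nat_lit 588) (nat_lit 2609469830) (nat_lit 84) (nat_lit 3970151475) (nat_lit 84) (nat_lit 5) (nat_lit 91) (nat_lit 5) (nat_lit 85) (nat_lit 5) (nat_lit 323) (nat_lit 280) (nat_lit 261)) (XT.lf (nat_lit 0) (nat_lit 1689690900) (nat_lit 420) (nat_lit 2396093115) (nat_lit 504) (nat_lit 4345539840) (nat_lit 79) (nat_lit 5) (nat_lit 84) (nat_lit 5) (nat_lit 85) (nat_lit 5) (nat_lit 324) (nat_lit 280) (nat_lit 260))))) (XT.nd (nat_lit 188) (nat_lit 420) (nat_lit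 0) (XT.nd (nat_lit 94) (nat_lit 504) (nat_lit 0) (XT.lf (nat_lit 0) (nat_lit 6108274178) (nat_lit 420) (nat_lit 374653026) (nat_lit 504) (nat_lit 2077727073) (nat_lit 79) (nat_lit 5) (nat_lit 84) (nat_lit 5) (nat_lit 85) (nat_lit 5) (nat_lit 325) (nat_lit 280) (nat_lit 259)) (XT.lf (nat_lit 0) (nat_lit 231013371) (nat_lit 504) (nat_lit 6774768589) (nat_lit 84) (nat_lit 1689099749) (nat_lit 73) (nat_lit 5) (nat_lit 79) (nat_lit 5) (nat_lit 74) (nat_lit 5) (nat_lit 326) (nat_lit 280) (nat_lit 258))) (XT.nd (nat_lit 94) (nat_lit 420) (nat_lit 0) (XT.lf (nat_lit 0) (nat_lit 2538465003) (nat_lit 504) (nat_lit 2447504505) (nat_lit 84) (nat_lit 3847775895) (nat_lit 73) (nat_lit 5) (nat_lit 79) (nat_lit 5) (nat_lit 74) (nat_lit 5) (nat_lit 327) (nat_lit 280) (nat_lit 257)) (XT.nd (nat_lit 94) (nat_lit 0) (nat_lit 0) (XT.lf (nat_lit 0) (nat_lit 1986194951) (nat_lit 420) (nat_lit 2893349844) (nat_lit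 504) (nat_lit 4098750908) (nat_lit 68) (nat_lit 5) (nat_lit 73) (nat_lit 5) (nat_lit 74) (nat_lit 5) (nat_lit 328) (nat_lit 280) (nat_lit 256)) (XT.lf (nat_lit 0) (nat_lit 6542183359) (nat_lit 420) (nat_lit 720022522) (nat_lit 504) (nat_lit 1866282560) (nat_lit 68) (nat_lit 5) (nat_lit 73) (nat_lit 5) (nat_lit 74) (nat_lit 5) (nat_lit 329) (nat_lit 280) (nat_lit 255)))))) (XT.nd (nat_lit 470) (nat_lit 840) (nat_lit 0) (XT.nd (nat_lit 188) (nat_lit 672) (nat_lit 0) (XT.nd (nat_lit 94) (nat_lit 0) (nat_lit 0) (XT.lf (nat_lit 0) (nat_lit 405335303) (nat_lit 504) (nat_lit 7375580365) (nat_lit 84) (nat_lit 1503136164) (nat_lit 62) (nat_lit 5) (nat_lit 68) (nat_lit 5) (nat_lit 63) (nat_lit 5) (nat_lit 330) (nat_lit 280) (nat_lit 254)) (XT.lf (nat_lit 0) (nat_lit 2688561183) (nat_lit 504) (nat_lit 2940364565) (nat_lit 84) (nat_lit 3815724681) (nat_lit 62) (nat_lit 5) (nat_lit 68) (nat_lit 5) (nat_lit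 63) (nat_lit 5) (nat_lit 331) (nat_lit 280) (nat_lit 253))) (XT.nd (nat_lit 94) (nat_lit 336) (nat_lit 0) (XT.lf (nat_lit 0) (nat_lit 1599139889) (nat_lit 336) (nat_lit 3406253968) (nat_lit 420) (nat_lit 4606163658) (nat_lit 58) (nat_lit 5) (nat_lit 62) (nat_lit 5) (nat_lit 63) (nat_lit 5) (nat_lit 332) (nat_lit 280) (nat_lit 252)) (XT.nd (nat_lit 94) (nat_lit 336) (nat_lit 0) (XT.lf (nat_lit 0) (nat_lit 6276943367) (nat_lit 336) (nat_lit 1095711759) (nat_lit 420) (nat_lit 2411819005) (nat_lit 58) (nat_lit 5) (nat_lit 62) (nat_lit 5) (nat_lit 63) (nat_lit 5) (nat_lit 333) (nat_lit 280) (nat_lit 251)) (XT.lf (nat_lit 0) (nat_lit 1081614121) (nat_lit 336) (nat_lit 8704538458) (nat_lit 420) (nat_lit 177607244) (nat_lit 54) (nat_lit 5) (nat_lit 58) (nat_lit 5) (nat_lit 59) (nat_lit 5) (nat_lit 334) (nat_lit 280) (nat_lit 250))))) (XT.nd (nat_lit 282) (nat_lit 420) (nat_lit 0) (XT.nd (nat_lit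 94) (nat_lit 336) (nat_lit 0) (XT.lf (nat_lit 0) (nat_lit 2080808034) (nat_lit 420) (nat_lit 4357723336) (nat_lit 84) (nat_lit 3709644389) (nat_lit 53) (nat_lit 5) (nat_lit 58) (nat_lit 5) (nat_lit 54) (nat_lit 5) (nat_lit 335) (nat_lit 280) (nat_lit 249)) (XT.nd (nat_lit 94) (nat_lit 0) (nat_lit 0) (XT.lf (nat_lit 0) (nat_lit 247106250) (nat_lit 336) (nat_lit 4111987872) (nat_lit 420) (nat_lit 5980750552) (nat_lit 49) (nat_lit 5) (nat_lit 53) (nat_lit 5) (nat_lit 54) (nat_lit 5) (nat_lit 336) (nat_lit 280) (nat_lit 248)) (XT.lf (nat_lit 0) (nat_lit 5024692930) (nat_lit 336) (nat_lit 1680749399) (nat_lit 420) (nat_lit 3832240346) (nat_lit 49) (nat_lit 5) (nat_lit 53) (nat_lit 5) (nat_lit 54) (nat_lit 5) (nat_lit 337) (nat_lit 280) (nat_lit 247)))) (XT.nd (nat_lit 94) (nat_lit 420) (nat_lit 0) (XT.lf (nat_lit 0) (nat_lit 9085976449) (nat_lit 420) (nat_lit 861410428) (nat_lit 84) (nat_lit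 795605249) (nat_lit 49) (nat_lit 5) (nat_lit 54) (nat_lit 5) (nat_lit 50) (nat_lit 5) (nat_lit 338) (nat_lit 280) (nat_lit 246)) (XT.nd (nat_lit 94) (nat_lit 0) (nat_lit 0) (XT.lf (nat_lit 0) (nat_lit 584718501) (nat_lit 420) (nat_lit 7023985895) (nat_lit 84) (nat_lit 3345579394) (nat_lit 44) (nat_lit 5) (nat_lit 49) (nat_lit 5) (nat_lit 45) (nat_lit 5) (nat_lit 339) (nat_lit 280) (nat_lit 245)) (XT.lf (nat_lit 0) (nat_lit 2825456846) (nat_lit 420) (nat_lit 2360612719) (nat_lit 84) (nat_lit 5986779561) (nat_lit 44) (nat_lit 5) (nat_lit 49) (nat_lit 5) (nat_lit 45) (nat_lit 5) (nat_lit 340) (nat_lit 280) (nat_lit 244))))))) (XT.nd (nat_lit 1034) (nat_lit 672) (nat_lit 0) (XT.nd (nat_lit 470) (nat_lit 756) (nat_lit 0) (XT.nd (nat_lit 188) (nat_lit 336) (nat_lit 0) (XT.nd (nat_lit 94) (nat_lit 0) (nat_lit 0) (XT.lf (nat_lit 0) (nat_lit 2437722683) (nat_lit 252) (nat_lit 2678322760) (nat_lit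 336) (nat_lit 6282879449) (nat_lit 41) (nat_lit 5) (nat_lit 44) (nat_lit 5) (nat_lit 45) (nat_lit 5) (nat_lit 341) (nat_lit 280) (nat_lit 243)) (XT.lf (nat_lit 0) (nat_lit 7376727668) (nat_lit 252) (nat_lit 82499668) (nat_lit 336) (nat_lit 4173475627) (nat_lit 41) (nat_lit 5) (nat_lit 44) (nat_lit 5) (nat_lit 45) (nat_lit 5) (nat_lit 342) (nat_lit 280) (nat_lit 242))) (XT.nd (nat_lit 94) (nat_lit 84) (nat_lit 0) (XT.lf (nat_lit 0) (nat_lit 522261369) (nat_lit 252) (nat_lit 9341792843) (nat_lit 336) (nat_lit 2010134142) (nat_lit 38) (nat_lit 5) (nat_lit 41) (nat_lit 5) (nat_lit 42) (nat_lit 5) (nat_lit 343) (nat_lit 280) (nat_lit 241)) (XT.nd (nat_lit 94) (nat_lit 0) (nat_lit 0) (XT.lf (nat_lit 0) (nat_lit 219808420) (nat_lit 336) (nat_lit 6644449136) (nat_lit 84) (nat_lit 5258823581) (nat_lit 37) (nat_lit 5) (nat_lit 41) (nat_lit 5) (nat_lit 38) (nat_lit 5) (nat_lit 344) (nat_lit 280) (nat_lit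 240)) (XT.lf (nat_lit 0) (nat_lit 2436632892) (nat_lit 336) (nat_lit 1867884592) (nat_lit 84) (nat_lit 8075898954) (nat_lit 37) (nat_lit 5) (nat_lit 41) (nat_lit 5) (nat_lit 38) (nat_lit 5) (nat_lit 345) (nat_lit 280) (nat_lit 239))))) (XT.nd (nat_lit 282) (nat_lit 252) (nat_lit 0) (XT.nd (nat_lit 94) (nat_lit 252) (nat_lit 0) (XT.lf (nat_lit 0) (nat_lit 3063890245) (nat_lit 252) (nat_lit 1649409234) (nat_lit 336) (nat_lit 7932810586) (nat_lit 34) (nat_lit 5) (nat_lit 37) (nat_lit 5) (nat_lit 38) (nat_lit 5) (nat_lit 346) (nat_lit 280) (nat_lit 238)) (XT.nd (nat_lit 94) (nat_lit 252) (nat_lit 0) (XT.lf (nat_lit 0) (nat_lit 7052250467) (nat_lit 336) (nat_lit 4797468242) (nat_lit 84) (nat_lit 1070681038) (nat_lit 34) (nat_lit 5) (nat_lit 38) (nat_lit 5) (nat_lit 35) (nat_lit 5) (nat_lit 347) (nat_lit 280) (nat_lit 237)) (XT.lf (nat_lit 0) (nat_lit 66553198) (nat_lit 252) (nat_lit 9377069890)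 (nat_lit 336) (nat_lit 3760291393) (nat_lit 31) (nat_lit 5) (nat_lit 34) (nat_lit 5) (nat_lit 35) (nat_lit 5) (nat_lit 348) (nat_lit 280) (nat_lit 236)))) (XT.nd (nat_lit 94) (nat_lit 252) (nat_lit 0) (XT.lf (nat_lit 0) (nat_lit 5130076282) (nat_lit 252) (nat_lit 6792117456) (nat_lit 336) (nat_lit 1573715825) (nat_lit 31) (nat_lit 5) (nat_lit 34) (nat_lit 5) (nat_lit 35) (nat_lit 5) (nat_lit 349) (nat_lit 280) (nat_lit 235)) (XT.nd (nat_lit 94) (nat_lit 168) (nat_lit 0) (XT.lf (nat_lit 0) (nat_lit 630573918) (nat_lit 336) (nat_lit 3505371874) (nat_lit 84) (nat_lit 9662019140) (nat_lit 30) (nat_lit 5) (nat_lit 34) (nat_lit 5) (nat_lit 31) (nat_lit 5) (nat_lit 350) (nat_lit 280) (nat_lit 234)) (XT.lf (nat_lit 0) (nat_lit 1468595970) (nat_lit 168) (nat_lit 1381216486) (nat_lit 252) (nat_lit 11259802111) (nat_lit 28) (nat_lit 5) (nat_lit 30) (nat_lit 5) (nat_lit 31) (nat_lit 5) (nat_lit 351)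 (nat_lit 280) (nat_lit 233)))))) (XT.nd (nat_lit 470) (nat_lit 420) (nat_lit 0) (XT.nd (nat_lit 188) (nat_lit 252) (nat_lit 0) (XT.nd (nat_lit 94) (nat_lit 0) (nat_lit 0) (XT.lf (nat_lit 0) (nat_lit 5154429562) (nat_lit 252) (nat_lit 7824725294) (nat_lit 84) (nat_lit 1451341777) (nat_lit 28) (nat_lit 5) (nat_lit 31) (nat_lit 5) (nat_lit 29) (nat_lit 5) (nat_lit 352) (nat_lit 280) (nat_lit 232)) (XT.lf (nat_lit 0) (nat_lit 7510810862) (nat_lit 252) (nat_lit 2922871618) (nat_lit 84) (nat_lit 4328336381) (nat_lit 28) (nat_lit 5) (nat_lit 31) (nat_lit 5) (nat_lit 29) (nat_lit 5) (nat_lit 353) (nat_lit 280) (nat_lit 231))) (XT.nd (nat_lit 94) (nat_lit 0) (nat_lit 0) (XT.lf (nat_lit 0) (nat_lit 2125640223) (nat_lit 252) (nat_lit 7802897303) (nat_lit 336) (nat_lit 5175723810) (nat_lit 25) (nat_lit 5) (nat_lit 28) (nat_lit 5) (nat_lit 29) (nat_lit 5) (nat_lit 354) (nat_lit 280) (nat_lit 230)) (XT.nd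 (nat_lit 94) (nat_lit 0) (nat_lit 0) (XT.lf (nat_lit 0) (nat_lit 7344980297) (nat_lit 252) (nat_lit 5074466449) (nat_lit 336) (nat_lit 3037799226) (nat_lit 25) (nat_lit 5) (nat_lit 28) (nat_lit 5) (nat_lit 29) (nat_lit 5) (nat_lit 355) (nat_lit 280) (nat_lit 229)) (XT.lf (nat_lit 0) (nat_lit 12679913339) (nat_lit 252) (nat_lit 2276355521) (nat_lit 336) (nat_lit 865950264) (nat_lit 25) (nat_lit 5) (nat_lit 28) (nat_lit 5) (nat_lit 29) (nat_lit 5) (nat_lit 356) (nat_lit 280) (nat_lit 228))))) (XT.nd (nat_lit 282) (nat_lit 168) (nat_lit 0) (XT.nd (nat_lit 94) (nat_lit 0) (nat_lit 0) (XT.lf (nat_lit 0) (nat_lit 1340504829) (nat_lit 252) (nat_lit 14242621170) (nat_lit 84) (nat_lit 615185864) (nat_lit 22) (nat_lit 5) (nat_lit 25) (nat_lit 5) (nat_lit 23) (nat_lit 5) (nat_lit 357) (nat_lit 280) (nat_lit 227)) (XT.nd (nat_lit 94) (nat_lit 0) (nat_lit 0) (XT.lf (nat_lit 0) (nat_lit 3623373069) (nat_lit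 252) (nat_lit 9385100433) (nat_lit 84) (nat_lit 3576578309) (nat_lit 22) (nat_lit 5) (nat_lit 25) (nat_lit 5) (nat_lit 23) (nat_lit 5) (nat_lit 358) (nat_lit 280) (nat_lit 226)) (XT.lf (nat_lit 0) (nat_lit 5947509171) (nat_lit 252) (nat_lit 4421536003) (nat_lit 84) (nat_lit 6615716903) (nat_lit 22) (nat_lit 5) (nat_lit 25) (nat_lit 5) (nat_lit 23) (nat_lit 5) (nat_lit 359) (nat_lit 280) (nat_lit 225)))) (XT.nd (nat_lit 94) (nat_lit 0) (nat_lit 0) (XT.lf (nat_lit 0) (nat_lit 666119506) (nat_lit 168) (nat_lit 7655567954) (nat_lit 252) (nat_lit 9075922922) (nat_lit 20) (nat_lit 5) (nat_lit 22) (nat_lit 5) (nat_lit 23) (nat_lit 5) (nat_lit 360) (nat_lit 280) (nat_lit 224)) (XT.nd (nat_lit 94) (nat_lit 0) (nat_lit 0) (XT.lf (nat_lit 0) (nat_lit 5962463699) (nat_lit 168) (nat_lit 4824975477) (nat_lit 252) (nat_lit 7035323505) (nat_lit 20) (nat_lit 5) (nat_lit 22) (nat_lit 5) (nat_lit 23) (nat_lit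 5) (nat_lit 361) (nat_lit 280) (nat_lit 223)) (XT.lf (nat_lit 0) (nat_lit 11381517473) (nat_lit 168) (nat_lit 1920781102) (nat_lit 252) (nat_lit 4959704369) (nat_lit 20) (nat_lit 5) (nat_lit 22) (nat_lit 5) (nat_lit 23) (nat_lit 5) (nat_lit 362) (nat_lit 280) (nat_lit 222))))))))
noncomputable def xc30 : XT := (XT.nd (nat_lit 49350) (nat_lit 0) (nat_lit 3696) (XT.nd (nat_lit 940) (nat_lit 0) (nat_lit 0) (XT.nd (nat_lit 470) (nat_lit 252) (nat_lit 0) (XT.nd (nat_lit 188) (nat_lit 84) (nat_lit 0) (XT.nd (nat_lit 94) (nat_lit 168) (nat_lit 0) (XT.lf (nat_lit 0) (nat_lit 15879122345) (nat_lit 252) (nat_lit 1797921211) (nat_lit 84) (nat_lit 1038371144) (nat_lit 20) (nat_lit 5) (nat_lit 23) (nat_lit 5) (nat_lit 21) (nat_lit 4) (nat_lit 363) (nat_lit 280) (nat_lit 221)) (XT.lf (nat_lit 0) (nat_lit 3452372322) (nat_lit 168) (nat_lit 15111504560) (nat_lit 252) (nat_lit 618193195) (nat_lit 18) (nat_lit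 5) (nat_lit 20) (nat_lit 5) (nat_lit 21) (nat_lit 4) (nat_lit 364) (nat_lit 280) (nat_lit 220))) (XT.nd (nat_lit 94) (nat_lit 0) (nat_lit 0) (XT.lf (nat_lit 0) (nat_lit 1628233768) (nat_lit 252) (nat_lit 10815739688) (nat_lit 84) (nat_lit 7218970357) (nat_lit 17) (nat_lit 5) (nat_lit 20) (nat_lit 5) (nat_lit 18) (nat_lit 5) (nat_lit 365) (nat_lit 280) (nat_lit 219)) (XT.nd (nat_lit 94) (nat_lit 0) (nat_lit 0) (XT.lf (nat_lit 0) (nat_lit 3906461652) (nat_lit 252) (nat_lit 5794495443) (nat_lit 84) (nat_lit 10458398804) (nat_lit 17) (nat_lit 5) (nat_lit 20) (nat_lit 5) (nat_lit 18) (nat_lit 5) (nat_lit 366) (nat_lit 280) (nat_lit 218)) (XT.lf (nat_lit 0) (nat_lit 6231069218) (nat_lit 252) (nat_lit 655152142) (nat_lit 84) (nat_lit 13785737792) (nat_lit 17) (nat_lit 5) (nat_lit 20) (nat_lit 5) (nat_lit 18) (nat_lit 5) (nat_lit 367) (nat_lit 280) (nat_lit 217))))) (XT.nd (nat_lit 188) (nat_lit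 84) (nat_lit 0) (XT.nd (nat_lit 94) (nat_lit 0) (nat_lit 0) (XT.lf (nat_lit 0) (nat_lit 4701811646) (nat_lit 168) (nat_lit 3949054151) (nat_lit 252) (nat_lit 12548919656) (nat_lit 15) (nat_lit 5) (nat_lit 17) (nat_lit 5) (nat_lit 18) (nat_lit 5) (nat_lit 368) (nat_lit 280) (nat_lit 216)) (XT.lf (nat_lit 0) (nat_lit 10202668836) (nat_lit 168) (nat_lit 926678659) (nat_lit 252) (nat_lit 10615180838) (nat_lit 15) (nat_lit 5) (nat_lit 17) (nat_lit 5) (nat_lit 18) (nat_lit 5) (nat_lit 369) (nat_lit 280) (nat_lit 215))) (XT.nd (nat_lit 94) (nat_lit 84) (nat_lit 0) (XT.lf (nat_lit 0) (nat_lit 13683786647) (nat_lit 252) (nat_lit 6489420593) (nat_lit 84) (nat_lit 2133024484) (nat_lit 15) (nat_lit 5) (nat_lit 18) (nat_lit 5) (nat_lit 16) (nat_lit 4) (nat_lit 370) (nat_lit 280) (nat_lit 214)) (XT.nd (nat_lit 94) (nat_lit 84) (nat_lit 0) (XT.lf (nat_lit 0) (nat_lit 16304976019) (nat_lit 252) (nat_lit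 1324359456) (nat_lit 84) (nat_lit 5256442949) (nat_lit 15) (nat_lit 5) (nat_lit 18) (nat_lit 5) (nat_lit 16) (nat_lit 4) (nat_lit 371) (nat_lit 280) (nat_lit 213)) (XT.lf (nat_lit 0) (nat_lit 4048907521) (nat_lit 84) (nat_lit 14977424213) (nat_lit 168) (nat_lit 4456416743) (nat_lit 14) (nat_lit 5) (nat_lit 15) (nat_lit 5) (nat_lit 16) (nat_lit 4) (nat_lit 372) (nat_lit 280) (nat_lit 212)))))) (XT.nd (nat_lit 47846) (nat_lit 0) (nat_lit 11340) (XT.nd (nat_lit 47564) (nat_lit 0) (nat_lit 13776) (XT.nd (nat_lit 94) (nat_lit 0) (nat_lit 0) (XT.lf (nat_lit 0) (nat_lit 9583673012) (nat_lit 84) (nat_lit 12241254158) (nat_lit 168) (nat_lit 2273560506) (nat_lit 14) (nat_lit 5) (nat_lit 15) (nat_lit 5) (nat_lit 16) (nat_lit 4) (nat_lit 373) (nat_lit 280) (nat_lit 211)) (XT.lf (nat_lit 0) (nat_lit 15257864452) (nat_lit 84) (nat_lit 9432098512) (nat_lit 168) (nat_lit 44022641) (nat_lit 14) (nat_lit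 5) (nat_lit 15) (nat_lit 5) (nat_lit 16) (nat_lit 4) (nat_lit 374) (nat_lit 280) (nat_lit 210))) (XT.nd (nat_lit 94) (nat_lit 672) (nat_lit 0) (XT.lf (nat_lit 0) (nat_lit 867498363) (nat_lit 588) (nat_lit 1613175151) (nat_lit 0) (nat_lit 867498363) (nat_lit 186) (nat_lit 5) (nat_lit 193) (nat_lit 4) (nat_lit 186) (nat_lit 4) (nat_lit 302) (nat_lit 281) (nat_lit 281)) (XT.nd (nat_lit 94) (nat_lit 84) (nat_lit 0) (XT.lf (nat_lit 0) (nat_lit 228729372) (nat_lit 588) (nat_lit 4193436553) (nat_lit 588) (nat_lit 2313318230) (nat_lit 179) (nat_lit 4) (nat_lit 186) (nat_lit 5) (nat_lit 186) (nat_lit 4) (nat_lit 303) (nat_lit 281) (nat_lit 280)) (XT.lf (nat_lit 0) (nat_lit 349110802) (nat_lit 672) (nat_lit 2994661407) (nat_lit 84) (nat_lit 3434292440) (nat_lit 178) (nat_lit 5) (nat_lit 186) (nat_lit 5) (nat_lit 179) (nat_lit 4) (nat_lit 304) (nat_lit 281) (nat_lit 279))))) (XT.nd (nat_lit 282) (nat_lit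 924) (nat_lit 0) (XT.nd (nat_lit 94) (nat_lit 840) (nat_lit 0) (XT.lf (nat_lit 0) (nat_lit 541093225) (nat_lit 672) (nat_lit 2419790264) (nat_lit 756) (nat_lit 3863488840) (nat_lit 170) (nat_lit 5) (nat_lit 178) (nat_lit 5) (nat_lit 179) (nat_lit 4) (nat_lit 305) (nat_lit 281) (nat_lit 278)) (XT.nd (nat_lit 94) (nat_lit 840) (nat_lit 0) (XT.lf (nat_lit 0) (nat_lit 4178219391) (nat_lit 672) (nat_lit 1418163410) (nat_lit 756) (nat_lit 1277993412) (nat_lit 170) (nat_lit 5) (nat_lit 178) (nat_lit 5) (nat_lit 179) (nat_lit 4) (nat_lit 306) (nat_lit 281) (nat_lit 277)) (XT.lf (nat_lit 0) (nat_lit 935431877) (nat_lit 756) (nat_lit 346366395) (nat_lit 840) (nat_lit 5646577456) (nat_lit 160) (nat_lit 5) (nat_lit 169) (nat_lit 5) (nat_lit 170) (nat_lit 5) (nat_lit 307) (nat_lit 281) (nat_lit 276)))) (XT.nd (nat_lit 94) (nat_lit 924) (nat_lit 0) (XT.lf (nat_lit 0) (nat_lit 3845233673) (nat_lit 840)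 (nat_lit 2341620378) (nat_lit 84) (nat_lit 798757748) (nat_lit 160) (nat_lit 5) (nat_lit 170) (nat_lit 5) (nat_lit 161) (nat_lit 4) (nat_lit 308) (nat_lit 281) (nat_lit 275)) (XT.nd (nat_lit 94) (nat_lit 84) (nat_lit 0) (XT.lf (nat_lit 0) (nat_lit 1374972934) (nat_lit 840) (nat_lit 5047785363) (nat_lit 924) (nat_lit 624320962) (nat_lit 150) (nat_lit 5) (nat_lit 160) (nat_lit 5) (nat_lit 161) (nat_lit 4) (nat_lit 309) (nat_lit 281) (nat_lit 274)) (XT.lf (nat_lit 0) (nat_lit 1872719543) (nat_lit 924) (nat_lit 1946505690) (nat_lit 84) (nat_lit 3292803312) (nat_lit 149) (nat_lit 5) (nat_lit 160) (nat_lit 5) (nat_lit 150) (nat_lit 5) (nat_lit 310) (nat_lit 281) (nat_lit 273))))))) (XT.nd (nat_lit 1034) (nat_lit 2772) (nat_lit 0) (XT.nd (nat_lit 470) (nat_lit 1764) (nat_lit 0) (XT.nd (nat_lit 188) (nat_lit 2184) (nat_lit 0) (XT.nd (nat_lit 94) (nat_lit 0) (nat_lit 0) (XT.lf (nat_lit 0) (nat_lit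 1854329159) (nat_lit 924) (nat_lit 2518711510) (nat_lit 1008) (nat_lit 2808041283) (nat_lit 138) (nat_lit 5) (nat_lit 149) (nat_lit 5) (nat_lit 150) (nat_lit 5) (nat_lit 311) (nat_lit 281) (nat_lit 272)) (XT.lf (nat_lit 0) (nat_lit 5743741302) (nat_lit 924) (nat_lit 1149586305) (nat_lit 1008) (nat_lit 361113178) (nat_lit 138) (nat_lit 5) (nat_lit 149) (nat_lit 5) (nat_lit 150) (nat_lit 5) (nat_lit 312) (nat_lit 281) (nat_lit 271))) (XT.nd (nat_lit 94) (nat_lit 1092) (nat_lit 0) (XT.lf (nat_lit 0) (nat_lit 2068192556) (nat_lit 1092) (nat_lit 4954706344) (nat_lit 84) (nat_lit 308416071) (nat_lit 125) (nat_lit 5) (nat_lit 138) (nat_lit 5) (nat_lit 126) (nat_lit 5) (nat_lit 313) (nat_lit 281) (nat_lit 270)) (XT.nd (nat_lit 94) (nat_lit 1092) (nat_lit 0) (XT.lf (nat_lit 0) (nat_lit 4518006176) (nat_lit 1092) (nat_lit 1081589735) (nat_lit 84) (nat_lit 1812675701) (nat_lit 125) (nat_lit 5) (nat_lit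 138) (nat_lit 5) (nat_lit 126) (nat_lit 5) (nat_lit 314) (nat_lit 281) (nat_lit 269)) (XT.lf (nat_lit 0) (nat_lit 2899850783) (nat_lit 1092) (nat_lit 4099947944) (nat_lit 1176) (nat_lit 497639221) (nat_lit 112) (nat_lit 5) (nat_lit 125) (nat_lit 5) (nat_lit 126) (nat_lit 5) (nat_lit 315) (nat_lit 281) (nat_lit 268))))) (XT.nd (nat_lit 282) (nat_lit 1176) (nat_lit 0) (XT.nd (nat_lit 94) (nat_lit 504) (nat_lit 0) (XT.lf (nat_lit 0) (nat_lit 1872646962) (nat_lit 1176) (nat_lit 648201329) (nat_lit 84) (nat_lit 5065993688) (nat_lit 111) (nat_lit 5) (nat_lit 125) (nat_lit 5) (nat_lit 112) (nat_lit 5) (nat_lit 316) (nat_lit 281) (nat_lit 267)) (XT.nd (nat_lit 94) (nat_lit 0) (nat_lit 0) (XT.lf (nat_lit 0) (nat_lit 3418277860) (nat_lit 504) (nat_lit 851596917) (nat_lit 588) (nat_lit 3410414794) (nat_lit 105) (nat_lit 5) (nat_lit 111) (nat_lit 5) (nat_lit 112) (nat_lit 5) (nat_lit 317) (nat_lit 281)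 (nat_lit 266)) (XT.lf (nat_lit 0) (nat_lit 6688198401) (nat_lit 588) (nat_lit 231407530) (nat_lit 84) (nat_lit 858976236) (nat_lit 105) (nat_lit 5) (nat_lit 112) (nat_lit 5) (nat_lit 106) (nat_lit 5) (nat_lit 318) (nat_lit 281) (nat_lit 265)))) (XT.nd (nat_lit 94) (nat_lit 504) (nat_lit 0) (XT.lf (nat_lit 0) (nat_lit 1255908536) (nat_lit 672) (nat_lit 3967700570) (nat_lit 84) (nat_lit 2656795669) (nat_lit 97) (nat_lit 5) (nat_lit 105) (nat_lit 5) (nat_lit 98) (nat_lit 5) (nat_lit 319) (nat_lit 281) (nat_lit 264)) (XT.nd (nat_lit 94) (nat_lit 0) (nat_lit 0) (XT.lf (nat_lit 0) (nat_lit 126597069) (nat_lit 504) (nat_lit 3463157434) (nat_lit 588) (nat_lit 4397494396) (nat_lit 91) (nat_lit 5) (nat_lit 97) (nat_lit 5) (nat_lit 98) (nat_lit 5) (nat_lit 320) (nat_lit 281) (nat_lit 263)) (XT.lf (nat_lit 0) (nat_lit 4362979385) (nat_lit 504) (nat_lit 1609464736) (nat_lit 588) (nat_lit 2125953805)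 (nat_lit 91) (nat_lit 5) (nat_lit 97) (nat_lit 5) (nat_lit 98) (nat_lit 5) (nat_lit 321) (nat_lit 281) (nat_lit 262)))))) (XT.nd (nat_lit 470) (nat_lit 1260) (nat_lit 0) (XT.nd (nat_lit 188) (nat_lit 924) (nat_lit 0) (XT.nd (nat_lit 94) (nat_lit 0) (nat_lit 0) (XT.lf (nat_lit 0) (nat_lit 155331601) (nat_lit 588) (nat_lit 7761721937) (nat_lit 84) (nat_lit 297866981) (nat_lit 84) (nat_lit 5) (nat_lit 91) (nat_lit 5) (nat_lit 85) (nat_lit 5) (nat_lit 322) (nat_lit 281) (nat_lit 261)) (XT.lf (nat_lit 0) (nat_lit 2456359782) (nat_lit 588) (nat_lit 3591476472) (nat_lit 84) (nat_lit 2286997260) (nat_lit 84) (nat_lit 5) (nat_lit 91) (nat_lit 5) (nat_lit 85) (nat_lit 5) (nat_lit 323) (nat_lit 281) (nat_lit 260))) (XT.nd (nat_lit 94) (nat_lit 504) (nat_lit 0) (XT.lf (nat_lit 0) (nat_lit 653434667) (nat_lit 420) (nat_lit 4120985619) (nat_lit 504) (nat_lit 3685960521) (nat_lit 79) (nat_lit 5) (nat_lit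 84) (nat_lit 5) (nat_lit 85) (nat_lit 5) (nat_lit 324) (nat_lit 281) (nat_lit 259)) (XT.nd (nat_lit 94) (nat_lit 504) (nat_lit 0) (XT.lf (nat_lit 0) (nat_lit 5038984462) (nat_lit 420) (nat_lit 2103224174) (nat_lit 504) (nat_lit 1448524203) (nat_lit 79) (nat_lit 5) (nat_lit 84) (nat_lit 5) (nat_lit 85) (nat_lit 5) (nat_lit 325) (nat_lit 281) (nat_lit 258)) (XT.lf (nat_lit 0) (nat_lit 775988170) (nat_lit 420) (nat_lit 14056179) (nat_lit 504) (nat_lit 7936609767) (nat_lit 73) (nat_lit 5) (nat_lit 78) (nat_lit 5) (nat_lit 79) (nat_lit 5) (nat_lit 326) (nat_lit 281) (nat_lit 257))))) (XT.nd (nat_lit 282) (nat_lit 840) (nat_lit 0) (XT.nd (nat_lit 94) (nat_lit 420) (nat_lit 0) (XT.lf (nat_lit 0) (nat_lit 3068993106) (nat_lit 504) (nat_lit 3656609157) (nat_lit 84) (nat_lit 2140900980) (nat_lit 73) (nat_lit 5) (nat_lit 79) (nat_lit 5) (nat_lit 74) (nat_lit 5) (nat_lit 327) (nat_lit 281) (nat_lit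 256)) (XT.nd (nat_lit 94) (nat_lit 0) (nat_lit 0) (XT.lf (nat_lit 0) (nat_lit 719219498) (nat_lit 420) (nat_lit 4650774237) (nat_lit 504) (nat_lit 3642401040) (nat_lit 68) (nat_lit 5) (nat_lit 73) (nat_lit 5) (nat_lit 74) (nat_lit 5) (nat_lit 328) (nat_lit 281) (nat_lit 255)) (XT.lf (nat_lit 0) (nat_lit 5243191294) (nat_lit 420) (nat_lit 2482462498) (nat_lit 504) (nat_lit 1437866565) (nat_lit 68) (nat_lit 5) (nat_lit 73) (nat_lit 5) (nat_lit 74) (nat_lit 5) (nat_lit 329) (nat_lit 281) (nat_lit 254)))) (XT.nd (nat_lit 94) (nat_lit 336) (nat_lit 0) (XT.lf (nat_lit 0) (nat_lit 526027977) (nat_lit 420) (nat_lit 243456056) (nat_lit 504) (nat_lit 8551282805) (nat_lit 62) (nat_lit 5) (nat_lit 67) (nat_lit 5) (nat_lit 68) (nat_lit 5) (nat_lit 330) (nat_lit 281) (nat_lit 253)) (XT.nd (nat_lit 94) (nat_lit 336) (nat_lit 0) (XT.lf (nat_lit 0) (nat_lit 3024181125) (nat_lit 504) (nat_lit 4389319735)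 (nat_lit 84) (nat_lit 2068836395) (nat_lit 62) (nat_lit 5) (nat_lit 68) (nat_lit 5) (nat_lit 63) (nat_lit 5) (nat_lit 331) (nat_lit 281) (nat_lit 252)) (XT.lf (nat_lit 0) (nat_lit 88505557) (nat_lit 336) (nat_lit 5212194070) (nat_lit 420) (nat_lit 4349879250) (nat_lit 58) (nat_lit 5) (nat_lit 62) (nat_lit 5) (nat_lit 63) (nat_lit 5) (nat_lit 332) (nat_lit 281) (nat_lit 251))))))))
noncomputable def xc31 : XT := (XT.nd (nat_lit 1974) (nat_lit 1176) (nat_lit 0) (XT.nd (nat_lit 940) (nat_lit 1092) (nat_lit 0) (XT.nd (nat_lit 470) (nat_lit 672) (nat_lit 0) (XT.nd (nat_lit 188) (nat_lit 672) (nat_lit 0) (XT.nd (nat_lit 94) (nat_lit 84) (nat_lit 0) (XT.lf (nat_lit 0) (nat_lit 4735382099) (nat_lit 336) (nat_lit 2907705081) (nat_lit 420) (nat_lit 2181261645) (nat_lit 58) (nat_lit 5) (nat_lit 62) (nat_lit 5) (nat_lit 63) (nat_lit 5) (nat_lit 333) (nat_lit 281) (nat_lit 250)) (XT.lf (nat_lit 0) (nat_lit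 3823936) (nat_lit 420) (nat_lit 539837514) (nat_lit 84) (nat_lit 9461523998) (nat_lit 57) (nat_lit 5) (nat_lit 62) (nat_lit 5) (nat_lit 58) (nat_lit 5) (nat_lit 334) (nat_lit 281) (nat_lit 249))) (XT.nd (nat_lit 94) (nat_lit 336) (nat_lit 0) (XT.lf (nat_lit 0) (nat_lit 2223668541) (nat_lit 420) (nat_lit 6059208104) (nat_lit 84) (nat_lit 1907829931) (nat_lit 53) (nat_lit 5) (nat_lit 58) (nat_lit 5) (nat_lit 54) (nat_lit 5) (nat_lit 335) (nat_lit 281) (nat_lit 248)) (XT.nd (nat_lit 94) (nat_lit 336) (nat_lit 0) (XT.lf (nat_lit 0) (nat_lit 4476149446) (nat_lit 420) (nat_lit 1489449413) (nat_lit 84) (nat_lit 4417649385) (nat_lit 53) (nat_lit 5) (nat_lit 58) (nat_lit 5) (nat_lit 54) (nat_lit 5) (nat_lit 336) (nat_lit 281) (nat_lit 247)) (XT.lf (nat_lit 0) (nat_lit 3227723534) (nat_lit 336) (nat_lit 3556747627) (nat_lit 420) (nat_lit 3797864508) (nat_lit 49) (nat_lit 5) (nat_lit 53) (nat_lit 5)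 (nat_lit 54) (nat_lit 5) (nat_lit 337) (nat_lit 281) (nat_lit 246))))) (XT.nd (nat_lit 188) (nat_lit 252) (nat_lit 0) (XT.nd (nat_lit 94) (nat_lit 420) (nat_lit 0) (XT.lf (nat_lit 0) (nat_lit 8064024842) (nat_lit 336) (nat_lit 1070668469) (nat_lit 420) (nat_lit 1653959961) (nat_lit 49) (nat_lit 5) (nat_lit 53) (nat_lit 5) (nat_lit 54) (nat_lit 5) (nat_lit 338) (nat_lit 281) (nat_lit 245)) (XT.lf (nat_lit 0) (nat_lit 535803344) (nat_lit 420) (nat_lit 8990784235) (nat_lit 84) (nat_lit 1475030029) (nat_lit 44) (nat_lit 5) (nat_lit 49) (nat_lit 5) (nat_lit 45) (nat_lit 5) (nat_lit 339) (nat_lit 281) (nat_lit 244))) (XT.nd (nat_lit 94) (nat_lit 252) (nat_lit 0) (XT.lf (nat_lit 0) (nat_lit 2754978347) (nat_lit 420) (nat_lit 4356321458) (nat_lit 84) (nat_lit 4109614090) (nat_lit 44) (nat_lit 5) (nat_lit 49) (nat_lit 5) (nat_lit 45) (nat_lit 5) (nat_lit 340) (nat_lit 281) (nat_lit 243)) (XT.nd (nat_lit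 94) (nat_lit 0) (nat_lit 0) (XT.lf (nat_lit 0) (nat_lit 372360371) (nat_lit 252) (nat_lit 4631802944) (nat_lit 336) (nat_lit 6444170466) (nat_lit 41) (nat_lit 5) (nat_lit 44) (nat_lit 5) (nat_lit 45) (nat_lit 5) (nat_lit 341) (nat_lit 281) (nat_lit 242)) (XT.lf (nat_lit 0) (nat_lit 5283608124) (nat_lit 252) (nat_lit 2043175622) (nat_lit 336) (nat_lit 4356024300) (nat_lit 41) (nat_lit 5) (nat_lit 44) (nat_lit 5) (nat_lit 45) (nat_lit 5) (nat_lit 342) (nat_lit 281) (nat_lit 241)))))) (XT.nd (nat_lit 470) (nat_lit 504) (nat_lit 0) (XT.nd (nat_lit 188) (nat_lit 336) (nat_lit 0) (XT.nd (nat_lit 94) (nat_lit 252) (nat_lit 0) (XT.lf (nat_lit 0) (nat_lit 9686967116) (nat_lit 336) (nat_lit 1639564164) (nat_lit 84) (nat_lit 599203124) (nat_lit 41) (nat_lit 5) (nat_lit 45) (nat_lit 5) (nat_lit 42) (nat_lit 5) (nat_lit 343) (nat_lit 281) (nat_lit 240)) (XT.lf (nat_lit 0) (nat_lit 3258138064) (nat_lit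 252) (nat_lit 8875972930) (nat_lit 336) (nat_lit 41765168) (nat_lit 38) (nat_lit 5) (nat_lit 41) (nat_lit 5) (nat_lit 42) (nat_lit 5) (nat_lit 344) (nat_lit 281) (nat_lit 239))) (XT.nd (nat_lit 94) (nat_lit 252) (nat_lit 0) (XT.lf (nat_lit 0) (nat_lit 2156563696) (nat_lit 336) (nat_lit 4167639478) (nat_lit 84) (nat_lit 6109672609) (nat_lit 37) (nat_lit 5) (nat_lit 41) (nat_lit 5) (nat_lit 38) (nat_lit 5) (nat_lit 345) (nat_lit 281) (nat_lit 238)) (XT.nd (nat_lit 94) (nat_lit 0) (nat_lit 0) (XT.lf (nat_lit 0) (nat_lit 690239580) (nat_lit 252) (nat_lit 3700688139) (nat_lit 336) (nat_lit 8310003536) (nat_lit 34) (nat_lit 5) (nat_lit 37) (nat_lit 5) (nat_lit 38) (nat_lit 5) (nat_lit 346) (nat_lit 281) (nat_lit 237)) (XT.lf (nat_lit 0) (nat_lit 5734648502) (nat_lit 252) (nat_lit 965942787) (nat_lit 336) (nat_lit 6275586504) (nat_lit 34) (nat_lit 5) (nat_lit 37) (nat_lit 5) (nat_lit 38) (nat_lit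 5) (nat_lit 347) (nat_lit 281) (nat_lit 236))))) (XT.nd (nat_lit 282) (nat_lit 168) (nat_lit 0) (XT.nd (nat_lit 94) (nat_lit 336) (nat_lit 0) (XT.lf (nat_lit 0) (nat_lit 9063757555) (nat_lit 336) (nat_lit 2394829875) (nat_lit 84) (nat_lit 1802026968) (nat_lit 34) (nat_lit 5) (nat_lit 38) (nat_lit 5) (nat_lit 35) (nat_lit 5) (nat_lit 348) (nat_lit 281) (nat_lit 235)) (XT.nd (nat_lit 94) (nat_lit 84) (nat_lit 0) (XT.lf (nat_lit 0) (nat_lit 2594146003) (nat_lit 252) (nat_lit 8906261944) (nat_lit 336) (nat_lit 2053547110) (nat_lit 31) (nat_lit 5) (nat_lit 34) (nat_lit 5) (nat_lit 35) (nat_lit 5) (nat_lit 349) (nat_lit 281) (nat_lit 234)) (XT.lf (nat_lit 0) (nat_lit 143047751) (nat_lit 336) (nat_lit 6119531723) (nat_lit 84) (nat_lit 7594160065) (nat_lit 30) (nat_lit 5) (nat_lit 34) (nat_lit 5) (nat_lit 31) (nat_lit 5) (nat_lit 350) (nat_lit 281) (nat_lit 233)))) (XT.nd (nat_lit 94) (nat_lit 168)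 (nat_lit 0) (XT.lf (nat_lit 0) (nat_lit 2330877274) (nat_lit 336) (nat_lit 1199346861) (nat_lit 84) (nat_lit 10639180737) (nat_lit 30) (nat_lit 5) (nat_lit 34) (nat_lit 5) (nat_lit 31) (nat_lit 5) (nat_lit 351) (nat_lit 281) (nat_lit 232)) (XT.nd (nat_lit 94) (nat_lit 0) (nat_lit 0) (XT.lf (nat_lit 0) (nat_lit 3904367403) (nat_lit 168) (nat_lit 687719548) (nat_lit 252) (nat_lit 9899586370) (nat_lit 28) (nat_lit 5) (nat_lit 30) (nat_lit 5) (nat_lit 31) (nat_lit 5) (nat_lit 352) (nat_lit 281) (nat_lit 231)) (XT.lf (nat_lit 0) (nat_lit 6925501690) (nat_lit 252) (nat_lit 5702325800) (nat_lit 84) (nat_lit 2196119551) (nat_lit 28) (nat_lit 5) (nat_lit 31) (nat_lit 5) (nat_lit 29) (nat_lit 5) (nat_lit 353) (nat_lit 281) (nat_lit 230))))))) (XT.nd (nat_lit 1034) (nat_lit 336) (nat_lit 0) (XT.nd (nat_lit 470) (nat_lit 336) (nat_lit 0) (XT.nd (nat_lit 188) (nat_lit 252) (nat_lit 0) (XT.nd (nat_lit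 94) (nat_lit 252) (nat_lit 0) (XT.lf (nat_lit 0) (nat_lit 9306482867) (nat_lit 252) (nat_lit 719624209) (nat_lit 84) (nat_lit 5141259890) (nat_lit 28) (nat_lit 5) (nat_lit 31) (nat_lit 5) (nat_lit 29) (nat_lit 5) (nat_lit 354) (nat_lit 281) (nat_lit 229)) (XT.lf (nat_lit 0) (nat_lit 4462168263) (nat_lit 252) (nat_lit 7312524542) (nat_lit 336) (nat_lit 3746399662) (nat_lit 25) (nat_lit 5) (nat_lit 28) (nat_lit 5) (nat_lit 29) (nat_lit 5) (nat_lit 355) (nat_lit 281) (nat_lit 228))) (XT.nd (nat_lit 94) (nat_lit 252) (nat_lit 0) (XT.lf (nat_lit 0) (nat_lit 9775034718) (nat_lit 252) (nat_lit 4521529927) (nat_lit 336) (nat_lit 1590000502) (nat_lit 25) (nat_lit 5) (nat_lit 28) (nat_lit 5) (nat_lit 29) (nat_lit 5) (nat_lit 356) (nat_lit 281) (nat_lit 227)) (XT.nd (nat_lit 94) (nat_lit 168) (nat_lit 0) (XT.lf (nat_lit 0) (nat_lit 590666652) (nat_lit 336) (nat_lit 1061201130) (nat_lit 84) (nat_lit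 14612298353) (nat_lit 24) (nat_lit 5) (nat_lit 28) (nat_lit 5) (nat_lit 25) (nat_lit 5) (nat_lit 357) (nat_lit 281) (nat_lit 226)) (XT.lf (nat_lit 0) (nat_lit 2831769184) (nat_lit 252) (nat_lit 12495433254) (nat_lit 84) (nat_lit 1325031295) (nat_lit 22) (nat_lit 5) (nat_lit 25) (nat_lit 5) (nat_lit 23) (nat_lit 5) (nat_lit 358) (nat_lit 281) (nat_lit 225))))) (XT.nd (nat_lit 282) (nat_lit 168) (nat_lit 0) (XT.nd (nat_lit 94) (nat_lit 168) (nat_lit 0) (XT.lf (nat_lit 0) (nat_lit 5141816651) (nat_lit 252) (nat_lit 7553139253) (nat_lit 84) (nat_lit 4357456766) (nat_lit 22) (nat_lit 5) (nat_lit 25) (nat_lit 5) (nat_lit 23) (nat_lit 5) (nat_lit 359) (nat_lit 281) (nat_lit 224)) (XT.nd (nat_lit 94) (nat_lit 168) (nat_lit 0) (XT.lf (nat_lit 0) (nat_lit 7495721932) (nat_lit 252) (nat_lit 2499535439) (nat_lit 84) (nat_lit 7470663030) (nat_lit 22) (nat_lit 5) (nat_lit 25) (nat_lit 5) (nat_lit 23)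 (nat_lit 5) (nat_lit 360) (nat_lit 281) (nat_lit 223)) (XT.lf (nat_lit 0) (nat_lit 2724991175) (nat_lit 168) (nat_lit 7197720190) (nat_lit 252) (nat_lit 7969592997) (nat_lit 20) (nat_lit 5) (nat_lit 22) (nat_lit 5) (nat_lit 23) (nat_lit 5) (nat_lit 361) (nat_lit 281) (nat_lit 222)))) (XT.nd (nat_lit 94) (nat_lit 168) (nat_lit 0) (XT.lf (nat_lit 0) (nat_lit 8124236993) (nat_lit 168) (nat_lit 4300281656) (nat_lit 252) (nat_lit 5907459721) (nat_lit 20) (nat_lit 5) (nat_lit 22) (nat_lit 5) (nat_lit 23) (nat_lit 5) (nat_lit 362) (nat_lit 281) (nat_lit 221)) (XT.nd (nat_lit 94) (nat_lit 168) (nat_lit 0) (XT.lf (nat_lit 0) (nat_lit 13651839102) (nat_lit 168) (nat_lit 1326331077) (nat_lit 252) (nat_lit 3807966540) (nat_lit 20) (nat_lit 5) (nat_lit 22) (nat_lit 5) (nat_lit 23) (nat_lit 5) (nat_lit 363) (nat_lit 281) (nat_lit 220)) (XT.lf (nat_lit 0) (nat_lit 41451123) (nat_lit 168) (nat_lit 17562137399)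 (nat_lit 252) (nat_lit 1651070399) (nat_lit 18) (nat_lit 5) (nat_lit 20) (nat_lit 5) (nat_lit 21) (nat_lit 4) (nat_lit 364) (nat_lit 281) (nat_lit 219)))))) (XT.nd (nat_lit 470) (nat_lit 84) (nat_lit 0) (XT.nd (nat_lit 188) (nat_lit 168) (nat_lit 0) (XT.nd (nat_lit 94) (nat_lit 0) (nat_lit 0) (XT.lf (nat_lit 0) (nat_lit 603859013) (nat_lit 252) (nat_lit 14308069863) (nat_lit 84) (nat_lit 4824328736) (nat_lit 17) (nat_lit 5) (nat_lit 20) (nat_lit 5) (nat_lit 18) (nat_lit 5) (nat_lit 365) (nat_lit 281) (nat_lit 218)) (XT.lf (nat_lit 0) (nat_lit 2870149240) (nat_lit 252) (nat_lit 9305318732) (nat_lit 84) (nat_lit 8057596798) (nat_lit 17) (nat_lit 5) (nat_lit 20) (nat_lit 5) (nat_lit 18) (nat_lit 5) (nat_lit 366) (nat_lit 281) (nat_lit 217))) (XT.nd (nat_lit 94) (nat_lit 168) (nat_lit 0) (XT.lf (nat_lit 0) (nat_lit 5183178088) (nat_lit 252) (nat_lit 4183912497) (nat_lit 84) (nat_lit 11378960631)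 (nat_lit 17) (nat_lit 5) (nat_lit 20) (nat_lit 5) (nat_lit 18) (nat_lit 5) (nat_lit 367) (nat_lit 281) (nat_lit 216)) (XT.nd (nat_lit 94) (nat_lit 0) (nat_lit 0) (XT.lf (nat_lit 0) (nat_lit 1082737272) (nat_lit 168) (nat_lit 6473105160) (nat_lit 252) (nat_lit 13719519710) (nat_lit 15) (nat_lit 5) (nat_lit 17) (nat_lit 5) (nat_lit 18) (nat_lit 5) (nat_lit 368) (nat_lit 281) (nat_lit 215)) (XT.lf (nat_lit 0) (nat_lit 6566372863) (nat_lit 168) (nat_lit 3456887536) (nat_lit 252) (nat_lit 11797210414) (nat_lit 15) (nat_lit 5) (nat_lit 17) (nat_lit 5) (nat_lit 18) (nat_lit 5) (nat_lit 369) (nat_lit 281) (nat_lit 214))))) (XT.nd (nat_lit 282) (nat_lit 0) (nat_lit 0) (XT.nd (nat_lit 94) (nat_lit 84) (nat_lit 0) (XT.lf (nat_lit 0) (nat_lit 12186075776) (nat_lit 168) (nat_lit 359297749) (nat_lit 252) (nat_lit 9837824915) (nat_lit 15) (nat_lit 5) (nat_lit 17) (nat_lit 5) (nat_lit 18) (nat_lit 5) (nat_lit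 370) (nat_lit 281) (nat_lit 213)) (XT.nd (nat_lit 94) (nat_lit 84) (nat_lit 0) (XT.lf (nat_lit 0) (nat_lit 15152532745) (nat_lit 252) (nat_lit 5044985442) (nat_lit 84) (nat_lit 2765683355) (nat_lit 15) (nat_lit 5) (nat_lit 18) (nat_lit 5) (nat_lit 16) (nat_lit 4) (nat_lit 371) (nat_lit 281) (nat_lit 212)) (XT.lf (nat_lit 0) (nat_lit 235456569) (nat_lit 84) (nat_lit 17590450795) (nat_lit 168) (nat_lit 5735772463) (nat_lit 14) (nat_lit 5) (nat_lit 15) (nat_lit 5) (nat_lit 16) (nat_lit 4) (nat_lit 372) (nat_lit 281) (nat_lit 211)))) (XT.nd (nat_lit 94) (nat_lit 0) (nat_lit 0) (XT.lf (nat_lit 0) (nat_lit 5754391543) (nat_lit 84) (nat_lit 14860108255) (nat_lit 168) (nat_lit 3563249518) (nat_lit 14) (nat_lit 5) (nat_lit 15) (nat_lit 5) (nat_lit 16) (nat_lit 4) (nat_lit 373) (nat_lit 281) (nat_lit 210)) (XT.nd (nat_lit 47282) (nat_lit 0) (nat_lit 15036) (XT.lf (nat_lit 0) (nat_lit 11413228456)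 (nat_lit 84) (nat_lit 12056604901) (nat_lit 168) (nat_lit 1343734243) (nat_lit 14) (nat_lit 5) (nat_lit 15) (nat_lit 5) (nat_lit 16) (nat_lit 4) (nat_lit 374) (nat_lit 281) (nat_lit 209)) (XT.lf (nat_lit 0) (nat_lit 1648434520) (nat_lit 420) (nat_lit 832698544) (nat_lit 420) (nat_lit 832698544) (nat_lit 193) (nat_lit 4) (nat_lit 198) (nat_lit 5) (nat_lit 198) (nat_lit 4) (nat_lit 300) (nat_lit 282) (nat_lit 282))))))))
noncomputable def xc32 : XT := (XT.nd (nat_lit 1974) (nat_lit 4200) (nat_lit 0) (XT.nd (nat_lit 940) (nat_lit 4872) (nat_lit 0) (XT.nd (nat_lit 470) (nat_lit 1764) (nat_lit 0) (XT.nd (nat_lit 188) (nat_lit 1344) (nat_lit 0) (XT.nd (nat_lit 94) (nat_lit 0) (nat_lit 0) (XT.lf (nat_lit 0) (nat_lit 7763028) (nat_lit 504) (nat_lit 980053555) (nat_lit 588) (nat_lit 5673552079) (nat_lit 186) (nat_lit 5) (nat_lit 192) (nat_lit 5) (nat_lit 193) (nat_lit 4) (nat_lit 301) (nat_lit 282)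 (nat_lit 281)) (XT.lf (nat_lit 0) (nat_lit 3433754949) (nat_lit 504) (nat_lit 195319100) (nat_lit 588) (nat_lit 3068914295) (nat_lit 186) (nat_lit 5) (nat_lit 192) (nat_lit 5) (nat_lit 193) (nat_lit 4) (nat_lit 302) (nat_lit 282) (nat_lit 280))) (XT.nd (nat_lit 94) (nat_lit 756) (nat_lit 0) (XT.lf (nat_lit 0) (nat_lit 156463167) (nat_lit 588) (nat_lit 6112254352) (nat_lit 588) (nat_lit 470146914) (nat_lit 179) (nat_lit 4) (nat_lit 186) (nat_lit 5) (nat_lit 186) (nat_lit 4) (nat_lit 303) (nat_lit 282) (nat_lit 279)) (XT.nd (nat_lit 94) (nat_lit 672) (nat_lit 0) (XT.lf (nat_lit 0) (nat_lit 2110583894) (nat_lit 672) (nat_lit 3124267245) (nat_lit 84) (nat_lit 1547655253) (nat_lit 178) (nat_lit 5) (nat_lit 186) (nat_lit 5) (nat_lit 179) (nat_lit 4) (nat_lit 304) (nat_lit 282) (nat_lit 278)) (XT.lf (nat_lit 0) (nat_lit 373508732) (nat_lit 672) (nat_lit 4303962859) (nat_lit 756) (nat_lit 2152973343)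 (nat_lit 170) (nat_lit 5) (nat_lit 178) (nat_lit 5) (nat_lit 179) (nat_lit 4) (nat_lit 305) (nat_lit 282) (nat_lit 277))))) (XT.nd (nat_lit 188) (nat_lit 924) (nat_lit 0) (XT.nd (nat_lit 94) (nat_lit 756) (nat_lit 0) (XT.lf (nat_lit 0) (nat_lit 380885227) (nat_lit 756) (nat_lit 2909464296) (nat_lit 84) (nat_lit 3591522126) (nat_lit 169) (nat_lit 5) (nat_lit 178) (nat_lit 5) (nat_lit 170) (nat_lit 5) (nat_lit 306) (nat_lit 282) (nat_lit 276)) (XT.lf (nat_lit 0) (nat_lit 669798110) (nat_lit 756) (nat_lit 2200863052) (nat_lit 840) (nat_lit 4066407740) (nat_lit 160) (nat_lit 5) (nat_lit 169) (nat_lit 5) (nat_lit 170) (nat_lit 5) (nat_lit 307) (nat_lit 282) (nat_lit 275))) (XT.nd (nat_lit 94) (nat_lit 924) (nat_lit 0) (XT.lf (nat_lit 0) (nat_lit 4352745757) (nat_lit 756) (nat_lit 1032547192) (nat_lit 840) (nat_lit 1610736839) (nat_lit 160) (nat_lit 5) (nat_lit 169) (nat_lit 5) (nat_lit 170) (nat_lit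 5) (nat_lit 308) (nat_lit 282) (nat_lit 274)) (XT.nd (nat_lit 94) (nat_lit 0) (nat_lit 0) (XT.lf (nat_lit 0) (nat_lit 833367600) (nat_lit 924) (nat_lit 6025353104) (nat_lit 84) (nat_lit 200362578) (nat_lit 149) (nat_lit 5) (nat_lit 160) (nat_lit 5) (nat_lit 150) (nat_lit 5) (nat_lit 309) (nat_lit 282) (nat_lit 273)) (XT.lf (nat_lit 0) (nat_lit 3278659467) (nat_lit 924) (nat_lit 2341019502) (nat_lit 84) (nat_lit 1505569231) (nat_lit 149) (nat_lit 5) (nat_lit 160) (nat_lit 5) (nat_lit 150) (nat_lit 5) (nat_lit 310) (nat_lit 282) (nat_lit 272)))))) (XT.nd (nat_lit 470) (nat_lit 1680) (nat_lit 0) (XT.nd (nat_lit 188) (nat_lit 2184) (nat_lit 0) (XT.nd (nat_lit 94) (nat_lit 84) (nat_lit 0) (XT.lf (nat_lit 0) (nat_lit 1416984729) (nat_lit 924) (nat_lit 4319665148) (nat_lit 1008) (nat_lit 1459151526) (nat_lit 138) (nat_lit 5) (nat_lit 149) (nat_lit 5) (nat_lit 150) (nat_lit 5) (nat_lit 311) (nat_lit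 282) (nat_lit 271)) (XT.lf (nat_lit 0) (nat_lit 930132621) (nat_lit 1008) (nat_lit 2007189417) (nat_lit 84) (nat_lit 4332880885) (nat_lit 137) (nat_lit 5) (nat_lit 149) (nat_lit 5) (nat_lit 138) (nat_lit 5) (nat_lit 312) (nat_lit 282) (nat_lit 270))) (XT.nd (nat_lit 94) (nat_lit 1176) (nat_lit 0) (XT.lf (nat_lit 0) (nat_lit 1835196510) (nat_lit 1008) (nat_lit 1471833349) (nat_lit 1092) (nat_lit 4041506449) (nat_lit 125) (nat_lit 5) (nat_lit 137) (nat_lit 5) (nat_lit 138) (nat_lit 5) (nat_lit 313) (nat_lit 282) (nat_lit 269)) (XT.nd (nat_lit 94) (nat_lit 1176) (nat_lit 0) (XT.lf (nat_lit 0) (nat_lit 5706431697) (nat_lit 1092) (nat_lit 1660171035) (nat_lit 84) (nat_lit 64618967) (nat_lit 125) (nat_lit 5) (nat_lit 138) (nat_lit 5) (nat_lit 126) (nat_lit 5) (nat_lit 314) (nat_lit 282) (nat_lit 268)) (XT.lf (nat_lit 0) (nat_lit 616792706) (nat_lit 1176) (nat_lit 5248888542) (nat_lit 84) (nat_lit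 1651943066) (nat_lit 111) (nat_lit 5) (nat_lit 125) (nat_lit 5) (nat_lit 112) (nat_lit 5) (nat_lit 315) (nat_lit 282) (nat_lit 267))))) (XT.nd (nat_lit 282) (nat_lit 1176) (nat_lit 0) (XT.nd (nat_lit 94) (nat_lit 504) (nat_lit 0) (XT.lf (nat_lit 0) (nat_lit 2942532705) (nat_lit 1176) (nat_lit 1338471161) (nat_lit 84) (nat_lit 3327093019) (nat_lit 111) (nat_lit 5) (nat_lit 125) (nat_lit 5) (nat_lit 112) (nat_lit 5) (nat_lit 316) (nat_lit 282) (nat_lit 266)) (XT.nd (nat_lit 94) (nat_lit 0) (nat_lit 0) (XT.lf (nat_lit 0) (nat_lit 2680127395) (nat_lit 504) (nat_lit 2618828658) (nat_lit 588) (nat_lit 2404000267) (nat_lit 105) (nat_lit 5) (nat_lit 111) (nat_lit 5) (nat_lit 112) (nat_lit 5) (nat_lit 317) (nat_lit 282) (nat_lit 265)) (XT.lf (nat_lit 0) (nat_lit 6785315758) (nat_lit 504) (nat_lit 890468229) (nat_lit 588) (nat_lit 126893781) (nat_lit 105) (nat_lit 5) (nat_lit 111) (nat_lit 5) (nat_lit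 112) (nat_lit 5) (nat_lit 318) (nat_lit 282) (nat_lit 264)))) (XT.nd (nat_lit 94) (nat_lit 504) (nat_lit 0) (XT.lf (nat_lit 0) (nat_lit 2150505982) (nat_lit 672) (nat_lit 4829098024) (nat_lit 84) (nat_lit 926268012) (nat_lit 97) (nat_lit 5) (nat_lit 105) (nat_lit 5) (nat_lit 98) (nat_lit 5) (nat_lit 319) (nat_lit 282) (nat_lit 263)) (XT.nd (nat_lit 94) (nat_lit 504) (nat_lit 0) (XT.lf (nat_lit 0) (nat_lit 4451468213) (nat_lit 672) (nat_lit 770616663) (nat_lit 84) (nat_lit 2791780679) (nat_lit 97) (nat_lit 5) (nat_lit 105) (nat_lit 5) (nat_lit 98) (nat_lit 5) (nat_lit 320) (nat_lit 282) (nat_lit 262)) (XT.lf (nat_lit 0) (nat_lit 3416991348) (nat_lit 504) (nat_lit 3378361128) (nat_lit 588) (nat_lit 1330991179) (nat_lit 91) (nat_lit 5) (nat_lit 97) (nat_lit 5) (nat_lit 98) (nat_lit 5) (nat_lit 321) (nat_lit 282) (nat_lit 261))))))) (XT.nd (nat_lit 940) (nat_lit 1764) (nat_lit 0) (XT.nd (nat_lit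 470) (nat_lit 1344) (nat_lit 0) (XT.nd (nat_lit 188) (nat_lit 504) (nat_lit 0) (XT.nd (nat_lit 94) (nat_lit 504) (nat_lit 0) (XT.lf (nat_lit 0) (nat_lit 896236485) (nat_lit 588) (nat_lit 567390272) (nat_lit 84) (nat_lit 6780292931) (nat_lit 90) (nat_lit 5) (nat_lit 97) (nat_lit 5) (nat_lit 91) (nat_lit 5) (nat_lit 322) (nat_lit 282) (nat_lit 260)) (XT.lf (nat_lit 0) (nat_lit 3147015256) (nat_lit 588) (nat_lit 4671702507) (nat_lit 84) (nat_lit 546787722) (nat_lit 84) (nat_lit 5) (nat_lit 91) (nat_lit 5) (nat_lit 85) (nat_lit 5) (nat_lit 323) (nat_lit 282) (nat_lit 259))) (XT.nd (nat_lit 94) (nat_lit 504) (nat_lit 0) (XT.lf (nat_lit 0) (nat_lit 5429566465) (nat_lit 588) (nat_lit 472324551) (nat_lit 84) (nat_lit 2590374160) (nat_lit 84) (nat_lit 5) (nat_lit 91) (nat_lit 5) (nat_lit 85) (nat_lit 5) (nat_lit 324) (nat_lit 282) (nat_lit 258)) (XT.nd (nat_lit 94) (nat_lit 84) (nat_lit 0) (XT.lf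 (nat_lit 0) (nat_lit 3871473047) (nat_lit 420) (nat_lit 3892627707) (nat_lit 504) (nat_lit 859655586) (nat_lit 79) (nat_lit 5) (nat_lit 84) (nat_lit 5) (nat_lit 85) (nat_lit 5) (nat_lit 325) (nat_lit 282) (nat_lit 257)) (XT.lf (nat_lit 0) (nat_lit 1331349244) (nat_lit 504) (nat_lit 477777290) (nat_lit 84) (nat_lit 6951578514) (nat_lit 78) (nat_lit 5) (nat_lit 84) (nat_lit 5) (nat_lit 79) (nat_lit 5) (nat_lit 326) (nat_lit 282) (nat_lit 256))))) (XT.nd (nat_lit 188) (nat_lit 924) (nat_lit 0) (XT.nd (nat_lit 94) (nat_lit 0) (nat_lit 0) (XT.lf (nat_lit 0) (nat_lit 3560093534) (nat_lit 504) (nat_lit 4968886856) (nat_lit 84) (nat_lit 373228903) (nat_lit 73) (nat_lit 5) (nat_lit 79) (nat_lit 5) (nat_lit 74) (nat_lit 5) (nat_lit 327) (nat_lit 282) (nat_lit 255)) (XT.lf (nat_lit 0) (nat_lit 5827275996) (nat_lit 504) (nat_lit 638920420) (nat_lit 84) (nat_lit 2583048584) (nat_lit 73) (nat_lit 5) (nat_lit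 79) (nat_lit 5) (nat_lit 74) (nat_lit 5) (nat_lit 328) (nat_lit 282) (nat_lit 254))) (XT.nd (nat_lit 94) (nat_lit 504) (nat_lit 0) (XT.lf (nat_lit 0) (nat_lit 3840859919) (nat_lit 420) (nat_lit 4309418471) (nat_lit 504) (nat_lit 1051197509) (nat_lit 68) (nat_lit 5) (nat_lit 73) (nat_lit 5) (nat_lit 74) (nat_lit 5) (nat_lit 329) (nat_lit 282) (nat_lit 253)) (XT.nd (nat_lit 94) (nat_lit 420) (nat_lit 0) (XT.lf (nat_lit 0) (nat_lit 1117394476) (nat_lit 504) (nat_lit 959430143) (nat_lit 84) (nat_lit 7282826288) (nat_lit 67) (nat_lit 5) (nat_lit 73) (nat_lit 5) (nat_lit 68) (nat_lit 5) (nat_lit 330) (nat_lit 282) (nat_lit 252)) (XT.lf (nat_lit 0) (nat_lit 3318763118) (nat_lit 504) (nat_lit 5946647549) (nat_lit 84) (nat_lit 257548635) (nat_lit 62) (nat_lit 5) (nat_lit 68) (nat_lit 5) (nat_lit 63) (nat_lit 5) (nat_lit 331) (nat_lit 282) (nat_lit 251)))))) (XT.nd (nat_lit 470) (nat_lit 1008) (nat_lit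 0) (XT.nd (nat_lit 188) (nat_lit 420) (nat_lit 0) (XT.nd (nat_lit 94) (nat_lit 336) (nat_lit 0) (XT.lf (nat_lit 0) (nat_lit 5569836716) (nat_lit 504) (nat_lit 1500909272) (nat_lit 84) (nat_lit 2621325973) (nat_lit 62) (nat_lit 5) (nat_lit 68) (nat_lit 5) (nat_lit 63) (nat_lit 5) (nat_lit 332) (nat_lit 282) (nat_lit 250)) (XT.lf (nat_lit 0) (nat_lit 3085108467) (nat_lit 336) (nat_lit 4787794627) (nat_lit 420) (nat_lit 1994237547) (nat_lit 58) (nat_lit 5) (nat_lit 62) (nat_lit 5) (nat_lit 63) (nat_lit 5) (nat_lit 333) (nat_lit 282) (nat_lit 249))) (XT.nd (nat_lit 94) (nat_lit 336) (nat_lit 0) (XT.lf (nat_lit 0) (nat_lit 163364365) (nat_lit 420) (nat_lit 2264416033) (nat_lit 84) (nat_lit 7620949581) (nat_lit 57) (nat_lit 5) (nat_lit 62) (nat_lit 5) (nat_lit 58) (nat_lit 5) (nat_lit 334) (nat_lit 282) (nat_lit 248)) (XT.nd (nat_lit 94) (nat_lit 0) (nat_lit 0) (XT.lf (nat_lit 0) (nat_lit 2323526036)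 (nat_lit 420) (nat_lit 7874556270) (nat_lit 84) (nat_lit 38091764) (nat_lit 53) (nat_lit 5) (nat_lit 58) (nat_lit 5) (nat_lit 54) (nat_lit 5) (nat_lit 335) (nat_lit 282) (nat_lit 247)) (XT.lf (nat_lit 0) (nat_lit 4553355284) (nat_lit 420) (nat_lit 3333985023) (nat_lit 84) (nat_lit 2542148236) (nat_lit 53) (nat_lit 5) (nat_lit 58) (nat_lit 5) (nat_lit 54) (nat_lit 5) (nat_lit 336) (nat_lit 282) (nat_lit 246))))) (XT.nd (nat_lit 282) (nat_lit 588) (nat_lit 0) (XT.nd (nat_lit 94) (nat_lit 84) (nat_lit 0) (XT.lf (nat_lit 0) (nat_lit 1316368540) (nat_lit 336) (nat_lit 5504377011) (nat_lit 420) (nat_lit 3809167773) (nat_lit 49) (nat_lit 5) (nat_lit 53) (nat_lit 5) (nat_lit 54) (nat_lit 5) (nat_lit 337) (nat_lit 282) (nat_lit 245)) (XT.nd (nat_lit 94) (nat_lit 84) (nat_lit 0) (XT.lf (nat_lit 0) (nat_lit 6124646621) (nat_lit 336) (nat_lit 3024733126) (nat_lit 420) (nat_lit 1687586828) (nat_lit 49)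 (nat_lit 5) (nat_lit 53) (nat_lit 5) (nat_lit 54) (nat_lit 5) (nat_lit 338) (nat_lit 282) (nat_lit 244)) (XT.lf (nat_lit 0) (nat_lit 446604049) (nat_lit 420) (nat_lit 29631653) (nat_lit 84) (nat_lit 10575511786) (nat_lit 48) (nat_lit 5) (nat_lit 53) (nat_lit 5) (nat_lit 49) (nat_lit 5) (nat_lit 339) (nat_lit 282) (nat_lit 243)))) (XT.nd (nat_lit 94) (nat_lit 252) (nat_lit 0) (XT.lf (nat_lit 0) (nat_lit 2639836694) (nat_lit 420) (nat_lit 6470848692) (nat_lit 84) (nat_lit 2161223210) (nat_lit 44) (nat_lit 5) (nat_lit 49) (nat_lit 5) (nat_lit 45) (nat_lit 5) (nat_lit 340) (nat_lit 282) (nat_lit 242)) (XT.nd (nat_lit 94) (nat_lit 252) (nat_lit 0) (XT.lf (nat_lit 0) (nat_lit 4865041693) (nat_lit 420) (nat_lit 1776867080) (nat_lit 84) (nat_lit 4858221874) (nat_lit 44) (nat_lit 5) (nat_lit 49) (nat_lit 5) (nat_lit 45) (nat_lit 5) (nat_lit 341) (nat_lit 282) (nat_lit 241)) (XT.lf (nat_lit 0) (nat_lit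 3070922008) (nat_lit 252) (nat_lit 4078807707) (nat_lit 336) (nat_lit 4586108119) (nat_lit 41) (nat_lit 5) (nat_lit 44) (nat_lit 5) (nat_lit 45) (nat_lit 5) (nat_lit 342) (nat_lit 282) (nat_lit 240))))))))
noncomputable def xc33 : XT := (XT.nd (nat_lit 1974) (nat_lit 504) (nat_lit 0) (XT.nd (nat_lit 940) (nat_lit 672) (nat_lit 0) (XT.nd (nat_lit 470) (nat_lit 504) (nat_lit 0) (XT.nd (nat_lit 188) (nat_lit 336) (nat_lit 0) (XT.nd (nat_lit 94) (nat_lit 252) (nat_lit 0) (XT.lf (nat_lit 0) (nat_lit 8053625451) (nat_lit 252) (nat_lit 1430877667) (nat_lit 336) (nat_lit 2495104087) (nat_lit 41) (nat_lit 5) (nat_lit 44) (nat_lit 5) (nat_lit 45) (nat_lit 5) (nat_lit 343) (nat_lit 282) (nat_lit 239)) (XT.lf (nat_lit 0) (nat_lit 912762788) (nat_lit 252) (nat_lit 10962596224) (nat_lit 336) (nat_lit 356188521) (nat_lit 38) (nat_lit 5) (nat_lit 41) (nat_lit 5) (nat_lit 42) (nat_lit 5) (nat_lit 344) (nat_lit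 282) (nat_lit 238))) (XT.nd (nat_lit 94) (nat_lit 252) (nat_lit 0) (XT.lf (nat_lit 0) (nat_lit 1829719617) (nat_lit 336) (nat_lit 6591639015) (nat_lit 84) (nat_lit 4068917105) (nat_lit 37) (nat_lit 5) (nat_lit 41) (nat_lit 5) (nat_lit 38) (nat_lit 5) (nat_lit 345) (nat_lit 282) (nat_lit 237)) (XT.nd (nat_lit 94) (nat_lit 252) (nat_lit 0) (XT.lf (nat_lit 0) (nat_lit 4039044664) (nat_lit 336) (nat_lit 1772954823) (nat_lit 84) (nat_lit 6946156876) (nat_lit 37) (nat_lit 5) (nat_lit 41) (nat_lit 5) (nat_lit 38) (nat_lit 5) (nat_lit 346) (nat_lit 282) (nat_lit 236)) (XT.lf (nat_lit 0) (nat_lit 3209966453) (nat_lit 252) (nat_lit 3102899158) (nat_lit 336) (nat_lit 6721695886) (nat_lit 34) (nat_lit 5) (nat_lit 37) (nat_lit 5) (nat_lit 38) (nat_lit 5) (nat_lit 347) (nat_lit 282) (nat_lit 235))))) (XT.nd (nat_lit 188) (nat_lit 504) (nat_lit 0) (XT.nd (nat_lit 94) (nat_lit 0) (nat_lit 0) (XT.lf (nat_lit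 0) (nat_lit 8335632544) (nat_lit 252) (nat_lit 304800386) (nat_lit 336) (nat_lit 4679714787) (nat_lit 34) (nat_lit 5) (nat_lit 37) (nat_lit 5) (nat_lit 38) (nat_lit 5) (nat_lit 348) (nat_lit 282) (nat_lit 234)) (XT.lf (nat_lit 0) (nat_lit 11031425577) (nat_lit 336) (nat_lit 68831133) (nat_lit 84) (nat_lit 2514691718) (nat_lit 34) (nat_lit 5) (nat_lit 38) (nat_lit 5) (nat_lit 35) (nat_lit 5) (nat_lit 349) (nat_lit 282) (nat_lit 233))) (XT.nd (nat_lit 94) (nat_lit 252) (nat_lit 0) (XT.lf (nat_lit 0) (nat_lit 5050502738) (nat_lit 252) (nat_lit 8465963728) (nat_lit 336) (nat_lit 401891724) (nat_lit 31) (nat_lit 5) (nat_lit 34) (nat_lit 5) (nat_lit 35) (nat_lit 5) (nat_lit 350) (nat_lit 282) (nat_lit 232)) (XT.nd (nat_lit 94) (nat_lit 168) (nat_lit 0) (XT.lf (nat_lit 0) (nat_lit 1777701014) (nat_lit 336) (nat_lit 3967150358) (nat_lit 84) (nat_lit 8486842852) (nat_lit 30) (nat_lit 5) (nat_lit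 34) (nat_lit 5) (nat_lit 31) (nat_lit 5) (nat_lit 351) (nat_lit 282) (nat_lit 231)) (XT.lf (nat_lit 0) (nat_lit 1056423185) (nat_lit 168) (nat_lit 2938392668) (nat_lit 252) (nat_lit 10560553288) (nat_lit 28) (nat_lit 5) (nat_lit 30) (nat_lit 5) (nat_lit 31) (nat_lit 5) (nat_lit 352) (nat_lit 282) (nat_lit 230)))))) (XT.nd (nat_lit 470) (nat_lit 420) (nat_lit 0) (XT.nd (nat_lit 188) (nat_lit 252) (nat_lit 0) (XT.nd (nat_lit 94) (nat_lit 0) (nat_lit 0) (XT.lf (nat_lit 0) (nat_lit 6274069449) (nat_lit 168) (nat_lit 16337382) (nat_lit 252) (nat_lit 8598446906) (nat_lit 28) (nat_lit 5) (nat_lit 30) (nat_lit 5) (nat_lit 31) (nat_lit 5) (nat_lit 353) (nat_lit 282) (nat_lit 229)) (XT.lf (nat_lit 0) (nat_lit 8656037896) (nat_lit 252) (nat_lit 3654212905) (nat_lit 84) (nat_lit 2922535902) (nat_lit 28) (nat_lit 5) (nat_lit 31) (nat_lit 5) (nat_lit 29) (nat_lit 5) (nat_lit 354) (nat_lit 282) (nat_lit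 228))) (XT.nd (nat_lit 94) (nat_lit 0) (nat_lit 0) (XT.lf (nat_lit 0) (nat_lit 1445171817) (nat_lit 252) (nat_lit 9634415668) (nat_lit 336) (nat_lit 4508345260) (nat_lit 25) (nat_lit 5) (nat_lit 28) (nat_lit 5) (nat_lit 29) (nat_lit 5) (nat_lit 355) (nat_lit 282) (nat_lit 227)) (XT.nd (nat_lit 94) (nat_lit 0) (nat_lit 0) (XT.lf (nat_lit 0) (nat_lit 6736635180) (nat_lit 252) (nat_lit 6850323393) (nat_lit 336) (nat_lit 2366931359) (nat_lit 25) (nat_lit 5) (nat_lit 28) (nat_lit 5) (nat_lit 29) (nat_lit 5) (nat_lit 356) (nat_lit 282) (nat_lit 226)) (XT.lf (nat_lit 0) (nat_lit 12149971270) (nat_lit 252) (nat_lit 3993521398) (nat_lit 336) (nat_lit 188653571) (nat_lit 25) (nat_lit 5) (nat_lit 28) (nat_lit 5) (nat_lit 29) (nat_lit 5) (nat_lit 357) (nat_lit 282) (nat_lit 225))))) (XT.nd (nat_lit 282) (nat_lit 168) (nat_lit 0) (XT.nd (nat_lit 94) (nat_lit 0) (nat_lit 0) (XT.lf (nat_lit 0) (nat_lit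 966521745) (nat_lit 168) (nat_lit 1030714631) (nat_lit 252) (nat_lit 14724896820) (nat_lit 22) (nat_lit 5) (nat_lit 24) (nat_lit 5) (nat_lit 25) (nat_lit 5) (nat_lit 358) (nat_lit 282) (nat_lit 224)) (XT.nd (nat_lit 94) (nat_lit 0) (nat_lit 0) (XT.lf (nat_lit 0) (nat_lit 4283394006) (nat_lit 252) (nat_lit 10823723505) (nat_lit 84) (nat_lit 2015966169) (nat_lit 22) (nat_lit 5) (nat_lit 25) (nat_lit 5) (nat_lit 23) (nat_lit 5) (nat_lit 359) (nat_lit 282) (nat_lit 223)) (XT.lf (nat_lit 0) (nat_lit 6624045146) (nat_lit 252) (nat_lit 5790130236) (nat_lit 84) (nat_lit 5122856940) (nat_lit 22) (nat_lit 5) (nat_lit 25) (nat_lit 5) (nat_lit 23) (nat_lit 5) (nat_lit 360) (nat_lit 282) (nat_lit 222)))) (XT.nd (nat_lit 94) (nat_lit 168) (nat_lit 0) (XT.lf (nat_lit 0) (nat_lit 9011146712) (nat_lit 252) (nat_lit 639914991) (nat_lit 84) (nat_lit 8313620232) (nat_lit 22) (nat_lit 5) (nat_lit 25) (nat_lit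 5) (nat_lit 23) (nat_lit 5) (nat_lit 361) (nat_lit 282) (nat_lit 221)) (XT.nd (nat_lit 94) (nat_lit 0) (nat_lit 0) (XT.lf (nat_lit 0) (nat_lit 4726960489) (nat_lit 168) (nat_lit 6766855277) (nat_lit 252) (nat_lit 6911161715) (nat_lit 20) (nat_lit 5) (nat_lit 22) (nat_lit 5) (nat_lit 23) (nat_lit 5) (nat_lit 362) (nat_lit 282) (nat_lit 220)) (XT.lf (nat_lit 0) (nat_lit 10235927901) (nat_lit 168) (nat_lit 3799260378) (nat_lit 252) (nat_lit 4824355604) (nat_lit 20) (nat_lit 5) (nat_lit 22) (nat_lit 5) (nat_lit 23) (nat_lit 5) (nat_lit 363) (nat_lit 282) (nat_lit 219))))))) (XT.nd (nat_lit 48034) (nat_lit 0) (nat_lit 12264) (XT.nd (nat_lit 470) (nat_lit 252) (nat_lit 0) (XT.nd (nat_lit 188) (nat_lit 84) (nat_lit 0) (XT.nd (nat_lit 94) (nat_lit 168) (nat_lit 0) (XT.lf (nat_lit 0) (nat_lit 15878964214) (nat_lit 168) (nat_lit 752190299) (nat_lit 252) (nat_lit 2697851167) (nat_lit 20) (nat_lit 5)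 (nat_lit 22) (nat_lit 5) (nat_lit 23) (nat_lit 5) (nat_lit 364) (nat_lit 282) (nat_lit 218)) (XT.lf (nat_lit 0) (nat_lit 1861450884) (nat_lit 168) (nat_lit 17464731189) (nat_lit 252) (nat_lit 486314903) (nat_lit 18) (nat_lit 5) (nat_lit 20) (nat_lit 5) (nat_lit 21) (nat_lit 4) (nat_lit 365) (nat_lit 282) (nat_lit 217))) (XT.nd (nat_lit 94) (nat_lit 0) (nat_lit 0) (XT.lf (nat_lit 0) (nat_lit 1778194767) (nat_lit 252) (nat_lit 12961407724) (nat_lit 84) (nat_lit 5570234391) (nat_lit 17) (nat_lit 5) (nat_lit 20) (nat_lit 5) (nat_lit 18) (nat_lit 5) (nat_lit 366) (nat_lit 282) (nat_lit 216)) (XT.nd (nat_lit 94) (nat_lit 0) (nat_lit 0) (XT.lf (nat_lit 0) (nat_lit 4079993046) (nat_lit 252) (nat_lit 7857399225) (nat_lit 84) (nat_lit 8885802730) (nat_lit 17) (nat_lit 5) (nat_lit 20) (nat_lit 5) (nat_lit 18) (nat_lit 5) (nat_lit 367) (nat_lit 282) (nat_lit 215)) (XT.lf (nat_lit 0) (nat_lit 6431023612)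 (nat_lit 252) (nat_lit 2629438820) (nat_lit 84) (nat_lit 12292736957) (nat_lit 17) (nat_lit 5) (nat_lit 20) (nat_lit 5) (nat_lit 18) (nat_lit 5) (nat_lit 368) (nat_lit 282) (nat_lit 214))))) (XT.nd (nat_lit 282) (nat_lit 84) (nat_lit 0) (XT.nd (nat_lit 94) (nat_lit 0) (nat_lit 0) (XT.lf (nat_lit 0) (nat_lit 2783426333) (nat_lit 168) (nat_lit 6077663472) (nat_lit 252) (nat_lit 13038398292) (nat_lit 15) (nat_lit 5) (nat_lit 17) (nat_lit 5) (nat_lit 18) (nat_lit 5) (nat_lit 369) (nat_lit 282) (nat_lit 213)) (XT.nd (nat_lit 94) (nat_lit 0) (nat_lit 0) (XT.lf (nat_lit 0) (nat_lit 8386927711) (nat_lit 168) (nat_lit 2985866813) (nat_lit 252) (nat_lit 11089765326) (nat_lit 15) (nat_lit 5) (nat_lit 17) (nat_lit 5) (nat_lit 18) (nat_lit 5) (nat_lit 370) (nat_lit 282) (nat_lit 212)) (XT.lf (nat_lit 0) (nat_lit 13943746665) (nat_lit 252) (nat_lit 8913431453) (nat_lit 84) (nat_lit 186528073) (nat_lit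 15) (nat_lit 5) (nat_lit 18) (nat_lit 5) (nat_lit 16) (nat_lit 4) (nat_lit 371) (nat_lit 282) (nat_lit 211)))) (XT.nd (nat_lit 94) (nat_lit 84) (nat_lit 0) (XT.lf (nat_lit 0) (nat_lit 16604939564) (nat_lit 252) (nat_lit 3653244933) (nat_lit 84) (nat_lit 3384397807) (nat_lit 15) (nat_lit 5) (nat_lit 18) (nat_lit 5) (nat_lit 16) (nat_lit 4) (nat_lit 372) (nat_lit 282) (nat_lit 210)) (XT.nd (nat_lit 94) (nat_lit 0) (nat_lit 0) (XT.lf (nat_lit 0) (nat_lit 1775217304) (nat_lit 84) (nat_lit 17571626634) (nat_lit 168) (nat_lit 4913274771) (nat_lit 14) (nat_lit 5) (nat_lit 15) (nat_lit 5) (nat_lit 16) (nat_lit 4) (nat_lit 373) (nat_lit 282) (nat_lit 209)) (XT.lf (nat_lit 0) (nat_lit 7419161367) (nat_lit 84) (nat_lit 14773605620) (nat_lit 168) (nat_lit 2703480729) (nat_lit 14) (nat_lit 5) (nat_lit 15) (nat_lit 5) (nat_lit 16) (nat_lit 4) (nat_lit 374) (nat_lit 282) (nat_lit 208)))))) (XT.nd (nat_lit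 470) (nat_lit 2184) (nat_lit 0) (XT.nd (nat_lit 188) (nat_lit 1008) (nat_lit 0) (XT.nd (nat_lit 94) (nat_lit 0) (nat_lit 0) (XT.lf (nat_lit 0) (nat_lit 827290825) (nat_lit 420) (nat_lit 1630474891) (nat_lit 0) (nat_lit 827290825) (nat_lit 198) (nat_lit 5) (nat_lit 203) (nat_lit 4) (nat_lit 198) (nat_lit 4) (nat_lit 298) (nat_lit 283) (nat_lit 283)) (XT.lf (nat_lit 0) (nat_lit 4305121645) (nat_lit 420) (nat_lit 48274672) (nat_lit 0) (nat_lit 2244675926) (nat_lit 198) (nat_lit 5) (nat_lit 203) (nat_lit 4) (nat_lit 198) (nat_lit 4) (nat_lit 299) (nat_lit 283) (nat_lit 282))) (XT.nd (nat_lit 94) (nat_lit 504) (nat_lit 0) (XT.lf (nat_lit 0) (nat_lit 339616333) (nat_lit 504) (nat_lit 3369177400) (nat_lit 84) (nat_lit 2920498573) (nat_lit 192) (nat_lit 5) (nat_lit 198) (nat_lit 5) (nat_lit 193) (nat_lit 4) (nat_lit 300) (nat_lit 283) (nat_lit 281)) (XT.nd (nat_lit 94) (nat_lit 504) (nat_lit 0)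 (XT.lf (nat_lit 0) (nat_lit 2913153420) (nat_lit 504) (nat_lit 80725567) (nat_lit 84) (nat_lit 3670306935) (nat_lit 192) (nat_lit 5) (nat_lit 198) (nat_lit 5) (nat_lit 193) (nat_lit 4) (nat_lit 301) (nat_lit 283) (nat_lit 280)) (XT.lf (nat_lit 0) (nat_lit 3310516877) (nat_lit 504) (nat_lit 2198087438) (nat_lit 588) (nat_lit 1193883683) (nat_lit 186) (nat_lit 5) (nat_lit 192) (nat_lit 5) (nat_lit 193) (nat_lit 4) (nat_lit 302) (nat_lit 283) (nat_lit 279))))) (XT.nd (nat_lit 282) (nat_lit 840) (nat_lit 0) (XT.nd (nat_lit 94) (nat_lit 1260) (nat_lit 0) (XT.lf (nat_lit 0) (nat_lit 1324285305) (nat_lit 588) (nat_lit 15207884) (nat_lit 84) (nat_lit 5405306799) (nat_lit 185) (nat_lit 5) (nat_lit 192) (nat_lit 5) (nat_lit 186) (nat_lit 5) (nat_lit 303) (nat_lit 283) (nat_lit 278)) (XT.nd (nat_lit 94) (nat_lit 672) (nat_lit 0) (XT.lf (nat_lit 0) (nat_lit 3458192985) (nat_lit 588) (nat_lit 384498982)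 (nat_lit 672) (nat_lit 2947483229) (nat_lit 178) (nat_lit 5) (nat_lit 185) (nat_lit 5) (nat_lit 186) (nat_lit 5) (nat_lit 304) (nat_lit 283) (nat_lit 277)) (XT.lf (nat_lit 0) (nat_lit 131163544) (nat_lit 672) (nat_lit 6230274828) (nat_lit 756) (nat_lit 478399973) (nat_lit 170) (nat_lit 5) (nat_lit 178) (nat_lit 5) (nat_lit 179) (nat_lit 4) (nat_lit 305) (nat_lit 283) (nat_lit 276)))) (XT.nd (nat_lit 94) (nat_lit 756) (nat_lit 0) (XT.lf (nat_lit 0) (nat_lit 1980087764) (nat_lit 756) (nat_lit 3212111383) (nat_lit 84) (nat_lit 1700060004) (nat_lit 169) (nat_lit 5) (nat_lit 178) (nat_lit 5) (nat_lit 170) (nat_lit 5) (nat_lit 306) (nat_lit 283) (nat_lit 275)) (XT.nd (nat_lit 94) (nat_lit 0) (nat_lit 0) (XT.lf (nat_lit 0) (nat_lit 326978688) (nat_lit 756) (nat_lit 4099104072) (nat_lit 840) (nat_lit 2522942756) (nat_lit 160) (nat_lit 5) (nat_lit 169) (nat_lit 5) (nat_lit 170) (nat_lit 5) (nat_lit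 307) (nat_lit 283) (nat_lit 274)) (XT.lf (nat_lit 0) (nat_lit 3976997828) (nat_lit 756) (nat_lit 2924224083) (nat_lit 840) (nat_lit 108194295) (nat_lit 160) (nat_lit 5) (nat_lit 169) (nat_lit 5) (nat_lit 170) (nat_lit 5) (nat_lit 308) (nat_lit 283) (nat_lit 273))))))))
noncomputable def xc34 : XT := (XT.nd (nat_lit 1974) (nat_lit 3192) (nat_lit 0) (XT.nd (nat_lit 940) (nat_lit 3024) (nat_lit 0) (XT.nd (nat_lit 470) (nat_lit 1764) (nat_lit 0) (XT.nd (nat_lit 188) (nat_lit 2016) (nat_lit 0) (XT.nd (nat_lit 94) (nat_lit 0) (nat_lit 0) (XT.lf (nat_lit 0) (nat_lit 589865294) (nat_lit 840) (nat_lit 1670427248) (nat_lit 924) (nat_lit 4813314134) (nat_lit 149) (nat_lit 5) (nat_lit 159) (nat_lit 5) (nat_lit 160) (nat_lit 5) (nat_lit 309) (nat_lit 283) (nat_lit 272)) (XT.lf (nat_lit 0) (nat_lit 4321389418) (nat_lit 840) (nat_lit 332934696) (nat_lit 924) (nat_lit 2487224095) (nat_lit 149) (nat_lit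 5) (nat_lit 159) (nat_lit 5) (nat_lit 160) (nat_lit 5) (nat_lit 310) (nat_lit 283) (nat_lit 271))) (XT.nd (nat_lit 94) (nat_lit 1092) (nat_lit 0) (XT.lf (nat_lit 0) (nat_lit 897689330) (nat_lit 924) (nat_lit 6169321107) (nat_lit 1008) (nat_lit 146677307) (nat_lit 138) (nat_lit 5) (nat_lit 149) (nat_lit 5) (nat_lit 150) (nat_lit 5) (nat_lit 311) (nat_lit 283) (nat_lit 270)) (XT.nd (nat_lit 94) (nat_lit 1008) (nat_lit 0) (XT.lf (nat_lit 0) (nat_lit 2179555786) (nat_lit 1008) (nat_lit 2590977083) (nat_lit 84) (nat_lit 2518458744) (nat_lit 137) (nat_lit 5) (nat_lit 149) (nat_lit 5) (nat_lit 138) (nat_lit 5) (nat_lit 312) (nat_lit 283) (nat_lit 269)) (XT.lf (nat_lit 0) (nat_lit 1206158981) (nat_lit 1008) (nat_lit 3308547004) (nat_lit 1092) (nat_lit 2854079156) (nat_lit 125) (nat_lit 5) (nat_lit 137) (nat_lit 5) (nat_lit 138) (nat_lit 5) (nat_lit 313) (nat_lit 283) (nat_lit 268))))) (XT.nd (nat_lit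 188) (nat_lit 588) (nat_lit 0) (XT.nd (nat_lit 94) (nat_lit 1176) (nat_lit 0) (XT.lf (nat_lit 0) (nat_lit 5110441270) (nat_lit 1008) (nat_lit 1768253163) (nat_lit 1092) (nat_lit 574034908) (nat_lit 125) (nat_lit 5) (nat_lit 137) (nat_lit 5) (nat_lit 138) (nat_lit 5) (nat_lit 314) (nat_lit 283) (nat_lit 267)) (XT.lf (nat_lit 0) (nat_lit 1544718665) (nat_lit 1092) (nat_lit 142015187) (nat_lit 1176) (nat_lit 5853982171) (nat_lit 111) (nat_lit 5) (nat_lit 124) (nat_lit 5) (nat_lit 125) (nat_lit 5) (nat_lit 315) (nat_lit 283) (nat_lit 266))) (XT.nd (nat_lit 94) (nat_lit 588) (nat_lit 0) (XT.lf (nat_lit 0) (nat_lit 3977583120) (nat_lit 1176) (nat_lit 2117179715) (nat_lit 84) (nat_lit 1537654275) (nat_lit 111) (nat_lit 5) (nat_lit 125) (nat_lit 5) (nat_lit 112) (nat_lit 5) (nat_lit 316) (nat_lit 283) (nat_lit 265)) (XT.nd (nat_lit 94) (nat_lit 84) (nat_lit 0) (XT.lf (nat_lit 0) (nat_lit 1852732631)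 (nat_lit 504) (nat_lit 4440590785) (nat_lit 588) (nat_lit 1435356789) (nat_lit 105) (nat_lit 5) (nat_lit 111) (nat_lit 5) (nat_lit 112) (nat_lit 5) (nat_lit 317) (nat_lit 283) (nat_lit 264)) (XT.lf (nat_lit 0) (nat_lit 792516404) (nat_lit 588) (nat_lit 1911320502) (nat_lit 84) (nat_lit 5125440429) (nat_lit 104) (nat_lit 5) (nat_lit 111) (nat_lit 5) (nat_lit 105) (nat_lit 5) (nat_lit 318) (nat_lit 283) (nat_lit 263)))))) (XT.nd (nat_lit 470) (nat_lit 1344) (nat_lit 0) (XT.nd (nat_lit 188) (nat_lit 1092) (nat_lit 0) (XT.nd (nat_lit 94) (nat_lit 0) (nat_lit 0) (XT.lf (nat_lit 0) (nat_lit 2140656883) (nat_lit 588) (nat_lit 876639214) (nat_lit 672) (nat_lit 4916818448) (nat_lit 97) (nat_lit 5) (nat_lit 104) (nat_lit 5) (nat_lit 105) (nat_lit 5) (nat_lit 319) (nat_lit 283) (nat_lit 262)) (XT.lf (nat_lit 0) (nat_lit 5278885065) (nat_lit 672) (nat_lit 1758545335) (nat_lit 84) (nat_lit 1006024361)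 (nat_lit 97) (nat_lit 5) (nat_lit 105) (nat_lit 5) (nat_lit 98) (nat_lit 5) (nat_lit 320) (nat_lit 283) (nat_lit 261))) (XT.nd (nat_lit 94) (nat_lit 588) (nat_lit 0) (XT.lf (nat_lit 0) (nat_lit 2376810093) (nat_lit 504) (nat_lit 5205886004) (nat_lit 588) (nat_lit 574601351) (nat_lit 91) (nat_lit 5) (nat_lit 97) (nat_lit 5) (nat_lit 98) (nat_lit 5) (nat_lit 321) (nat_lit 283) (nat_lit 260)) (XT.nd (nat_lit 94) (nat_lit 504) (nat_lit 0) (XT.lf (nat_lit 0) (nat_lit 1607805026) (nat_lit 588) (nat_lit 1677730545) (nat_lit 84) (nat_lit 4990137405) (nat_lit 90) (nat_lit 5) (nat_lit 97) (nat_lit 5) (nat_lit 91) (nat_lit 5) (nat_lit 322) (nat_lit 283) (nat_lit 259)) (XT.lf (nat_lit 0) (nat_lit 2534958382) (nat_lit 504) (nat_lit 1277844922) (nat_lit 588) (nat_lit 4585986275) (nat_lit 84) (nat_lit 5) (nat_lit 90) (nat_lit 5) (nat_lit 91) (nat_lit 5) (nat_lit 323) (nat_lit 283) (nat_lit 258))))) (XT.nd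 (nat_lit 282) (nat_lit 840) (nat_lit 0) (XT.nd (nat_lit 94) (nat_lit 504) (nat_lit 0) (XT.lf (nat_lit 0) (nat_lit 6054523777) (nat_lit 588) (nat_lit 1683171558) (nat_lit 84) (nat_lit 789227943) (nat_lit 84) (nat_lit 5) (nat_lit 91) (nat_lit 5) (nat_lit 85) (nat_lit 5) (nat_lit 324) (nat_lit 283) (nat_lit 257)) (XT.nd (nat_lit 94) (nat_lit 84) (nat_lit 0) (XT.lf (nat_lit 0) (nat_lit 2604651689) (nat_lit 420) (nat_lit 5744531538) (nat_lit 504) (nat_lit 310572335) (nat_lit 79) (nat_lit 5) (nat_lit 84) (nat_lit 5) (nat_lit 85) (nat_lit 5) (nat_lit 325) (nat_lit 283) (nat_lit 256)) (XT.lf (nat_lit 0) (nat_lit 1842210203) (nat_lit 504) (nat_lit 1816844516) (nat_lit 84) (nat_lit 5138421420) (nat_lit 78) (nat_lit 5) (nat_lit 84) (nat_lit 5) (nat_lit 79) (nat_lit 5) (nat_lit 326) (nat_lit 283) (nat_lit 255)))) (XT.nd (nat_lit 94) (nat_lit 420) (nat_lit 0) (XT.lf (nat_lit 0) (nat_lit 2540129133) (nat_lit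 420) (nat_lit 1486844595) (nat_lit 504) (nat_lit 4913465869) (nat_lit 73) (nat_lit 5) (nat_lit 78) (nat_lit 5) (nat_lit 79) (nat_lit 5) (nat_lit 327) (nat_lit 283) (nat_lit 254)) (XT.nd (nat_lit 94) (nat_lit 420) (nat_lit 0) (XT.lf (nat_lit 0) (nat_lit 6253525400) (nat_lit 504) (nat_lit 2086022619) (nat_lit 84) (nat_lit 749279769) (nat_lit 73) (nat_lit 5) (nat_lit 79) (nat_lit 5) (nat_lit 74) (nat_lit 5) (nat_lit 328) (nat_lit 283) (nat_lit 253)) (XT.lf (nat_lit 0) (nat_lit 2333882116) (nat_lit 420) (nat_lit 6202593354) (nat_lit 504) (nat_lit 705914974) (nat_lit 68) (nat_lit 5) (nat_lit 73) (nat_lit 5) (nat_lit 74) (nat_lit 5) (nat_lit 329) (nat_lit 283) (nat_lit 252))))))) (XT.nd (nat_lit 1034) (nat_lit 1176) (nat_lit 0) (XT.nd (nat_lit 470) (nat_lit 1092) (nat_lit 0) (XT.nd (nat_lit 188) (nat_lit 420) (nat_lit 0) (XT.nd (nat_lit 94) (nat_lit 420) (nat_lit 0) (XT.lf (nat_lit 0) (nat_lit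 1430744747) (nat_lit 504) (nat_lit 2540560646) (nat_lit 84) (nat_lit 5430012916) (nat_lit 67) (nat_lit 5) (nat_lit 73) (nat_lit 5) (nat_lit 68) (nat_lit 5) (nat_lit 330) (nat_lit 283) (nat_lit 251)) (XT.lf (nat_lit 0) (nat_lit 1935847164) (nat_lit 420) (nat_lit 1653133871) (nat_lit 504) (nat_lit 5977065019) (nat_lit 62) (nat_lit 5) (nat_lit 67) (nat_lit 5) (nat_lit 68) (nat_lit 5) (nat_lit 331) (nat_lit 283) (nat_lit 250))) (XT.nd (nat_lit 94) (nat_lit 420) (nat_lit 0) (XT.lf (nat_lit 0) (nat_lit 5799827099) (nat_lit 504) (nat_lit 3197453977) (nat_lit 84) (nat_lit 739204466) (nat_lit 62) (nat_lit 5) (nat_lit 68) (nat_lit 5) (nat_lit 63) (nat_lit 5) (nat_lit 332) (nat_lit 283) (nat_lit 249)) (XT.nd (nat_lit 94) (nat_lit 84) (nat_lit 0) (XT.lf (nat_lit 0) (nat_lit 1324584243) (nat_lit 336) (nat_lit 6737732838) (nat_lit 420) (nat_lit 1850572383) (nat_lit 58) (nat_lit 5) (nat_lit 62) (nat_lit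 5) (nat_lit 63) (nat_lit 5) (nat_lit 333) (nat_lit 283) (nat_lit 248)) (XT.lf (nat_lit 0) (nat_lit 281132521) (nat_lit 420) (nat_lit 4100880281) (nat_lit 84) (nat_lit 5713207690) (nat_lit 57) (nat_lit 5) (nat_lit 62) (nat_lit 5) (nat_lit 58) (nat_lit 5) (nat_lit 334) (nat_lit 283) (nat_lit 247))))) (XT.nd (nat_lit 282) (nat_lit 756) (nat_lit 0) (XT.nd (nat_lit 94) (nat_lit 0) (nat_lit 0) (XT.lf (nat_lit 0) (nat_lit 459314888) (nat_lit 336) (nat_lit 1940407795) (nat_lit 420) (nat_lit 7884301219) (nat_lit 53) (nat_lit 5) (nat_lit 57) (nat_lit 5) (nat_lit 58) (nat_lit 5) (nat_lit 335) (nat_lit 283) (nat_lit 246)) (XT.nd (nat_lit 94) (nat_lit 0) (nat_lit 0) (XT.lf (nat_lit 0) (nat_lit 4588332277) (nat_lit 420) (nat_lit 5293198521) (nat_lit 84) (nat_lit 597153867) (nat_lit 53) (nat_lit 5) (nat_lit 58) (nat_lit 5) (nat_lit 54) (nat_lit 5) (nat_lit 336) (nat_lit 283) (nat_lit 245)) (XT.lf (nat_lit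 0) (nat_lit 6821354045) (nat_lit 420) (nat_lit 696825471) (nat_lit 84) (nat_lit 3162061775) (nat_lit 53) (nat_lit 5) (nat_lit 58) (nat_lit 5) (nat_lit 54) (nat_lit 5) (nat_lit 337) (nat_lit 283) (nat_lit 244)))) (XT.nd (nat_lit 94) (nat_lit 420) (nat_lit 0) (XT.lf (nat_lit 0) (nat_lit 4069943819) (nat_lit 336) (nat_lit 5052050839) (nat_lit 420) (nat_lit 1766232109) (nat_lit 49) (nat_lit 5) (nat_lit 53) (nat_lit 5) (nat_lit 54) (nat_lit 5) (nat_lit 338) (nat_lit 283) (nat_lit 243)) (XT.nd (nat_lit 94) (nat_lit 336) (nat_lit 0) (XT.lf (nat_lit 0) (nat_lit 348965088) (nat_lit 420) (nat_lit 2161661578) (nat_lit 84) (nat_lit 8593103733) (nat_lit 48) (nat_lit 5) (nat_lit 53) (nat_lit 5) (nat_lit 49) (nat_lit 5) (nat_lit 339) (nat_lit 283) (nat_lit 242)) (XT.lf (nat_lit 0) (nat_lit 2479924563) (nat_lit 420) (nat_lit 8706165381) (nat_lit 84) (nat_lit 139790817) (nat_lit 44) (nat_lit 5) (nat_lit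 49) (nat_lit 5) (nat_lit 45) (nat_lit 5) (nat_lit 340) (nat_lit 283) (nat_lit 241)))))) (XT.nd (nat_lit 470) (nat_lit 588) (nat_lit 0) (XT.nd (nat_lit 188) (nat_lit 336) (nat_lit 0) (XT.nd (nat_lit 94) (nat_lit 252) (nat_lit 0) (XT.lf (nat_lit 0) (nat_lit 4685453414) (nat_lit 420) (nat_lit 4038563970) (nat_lit 84) (nat_lit 2830752408) (nat_lit 44) (nat_lit 5) (nat_lit 49) (nat_lit 5) (nat_lit 45) (nat_lit 5) (nat_lit 341) (nat_lit 283) (nat_lit 240)) (XT.lf (nat_lit 0) (nat_lit 736606867) (nat_lit 252) (nat_lit 6191293346) (nat_lit 336) (nat_lit 4863941547) (nat_lit 41) (nat_lit 5) (nat_lit 44) (nat_lit 5) (nat_lit 45) (nat_lit 5) (nat_lit 342) (nat_lit 283) (nat_lit 239))) (XT.nd (nat_lit 94) (nat_lit 336) (nat_lit 0) (XT.lf (nat_lit 0) (nat_lit 5693982352) (nat_lit 252) (nat_lit 3549929311) (nat_lit 336) (nat_lit 2792334730) (nat_lit 41) (nat_lit 5) (nat_lit 44) (nat_lit 5) (nat_lit 45)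 (nat_lit 5) (nat_lit 343) (nat_lit 283) (nat_lit 238)) (XT.nd (nat_lit 94) (nat_lit 336) (nat_lit 0) (XT.lf (nat_lit 0) (nat_lit 10755142119) (nat_lit 252) (nat_lit 839617576) (nat_lit 336) (nat_lit 694719297) (nat_lit 41) (nat_lit 5) (nat_lit 44) (nat_lit 5) (nat_lit 45) (nat_lit 5) (nat_lit 344) (nat_lit 283) (nat_lit 237)) (XT.lf (nat_lit 0) (nat_lit 1455796000) (nat_lit 336) (nat_lit 9142142622) (nat_lit 84) (nat_lit 1951730244) (nat_lit 37) (nat_lit 5) (nat_lit 41) (nat_lit 5) (nat_lit 38) (nat_lit 5) (nat_lit 345) (nat_lit 283) (nat_lit 236))))) (XT.nd (nat_lit 282) (nat_lit 336) (nat_lit 0) (XT.nd (nat_lit 94) (nat_lit 252) (nat_lit 0) (XT.lf (nat_lit 0) (nat_lit 3647476320) (nat_lit 336) (nat_lit 4347986148) (nat_lit 84) (nat_lit 4822681485) (nat_lit 37) (nat_lit 5) (nat_lit 41) (nat_lit 5) (nat_lit 38) (nat_lit 5) (nat_lit 346) (nat_lit 283) (nat_lit 235)) (XT.nd (nat_lit 94) (nat_lit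 0) (nat_lit 0) (XT.lf (nat_lit 0) (nat_lit 557707804) (nat_lit 252) (nat_lit 5320164542) (nat_lit 336) (nat_lit 7218068962) (nat_lit 34) (nat_lit 5) (nat_lit 37) (nat_lit 5) (nat_lit 38) (nat_lit 5) (nat_lit 347) (nat_lit 283) (nat_lit 234)) (XT.lf (nat_lit 0) (nat_lit 5659824528) (nat_lit 252) (nat_lit 2528781924) (nat_lit 336) (nat_lit 5193487568) (nat_lit 34) (nat_lit 5) (nat_lit 37) (nat_lit 5) (nat_lit 38) (nat_lit 5) (nat_lit 348) (nat_lit 283) (nat_lit 233)))) (XT.nd (nat_lit 94) (nat_lit 336) (nat_lit 0) (XT.lf (nat_lit 0) (nat_lit 10541145233) (nat_lit 336) (nat_lit 2807849404) (nat_lit 84) (nat_lit 329135484) (nat_lit 34) (nat_lit 5) (nat_lit 38) (nat_lit 5) (nat_lit 35) (nat_lit 5) (nat_lit 349) (nat_lit 283) (nat_lit 232)) (XT.nd (nat_lit 94) (nat_lit 84) (nat_lit 0) (XT.lf (nat_lit 0) (nat_lit 2232074666) (nat_lit 252) (nat_lit 10750253471) (nat_lit 336) (nat_lit 1000613363)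 (nat_lit 31) (nat_lit 5) (nat_lit 34) (nat_lit 5) (nat_lit 35) (nat_lit 5) (nat_lit 350) (nat_lit 283) (nat_lit 231)) (XT.lf (nat_lit 0) (nat_lit 1175199403) (nat_lit 336) (nat_lit 6866983338) (nat_lit 84) (nat_lit 6254809569) (nat_lit 30) (nat_lit 5) (nat_lit 34) (nat_lit 5) (nat_lit 31) (nat_lit 5) (nat_lit 351) (nat_lit 283) (nat_lit 230))))))))
noncomputable def xc35 : XT := (XT.nd (nat_lit 1974) (nat_lit 84) (nat_lit 0) (XT.nd (nat_lit 940) (nat_lit 588) (nat_lit 0) (XT.nd (nat_lit 470) (nat_lit 252) (nat_lit 0) (XT.nd (nat_lit 188) (nat_lit 252) (nat_lit 0) (XT.nd (nat_lit 94) (nat_lit 168) (nat_lit 0) (XT.lf (nat_lit 0) (nat_lit 3366467878) (nat_lit 336) (nat_lit 1886770984) (nat_lit 84) (nat_lit 9368267944) (nat_lit 30) (nat_lit 5) (nat_lit 34) (nat_lit 5) (nat_lit 31) (nat_lit 5) (nat_lit 352) (nat_lit 283) (nat_lit 229)) (XT.lf (nat_lit 0) (nat_lit 3270226287) (nat_lit 168) (nat_lit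 2357609444) (nat_lit 252) (nat_lit 9328253775) (nat_lit 28) (nat_lit 5) (nat_lit 30) (nat_lit 5) (nat_lit 31) (nat_lit 5) (nat_lit 353) (nat_lit 283) (nat_lit 228))) (XT.nd (nat_lit 94) (nat_lit 252) (nat_lit 0) (XT.lf (nat_lit 0) (nat_lit 7955509716) (nat_lit 252) (nat_lit 6723688123) (nat_lit 84) (nat_lit 622037372) (nat_lit 28) (nat_lit 5) (nat_lit 31) (nat_lit 5) (nat_lit 29) (nat_lit 5) (nat_lit 354) (nat_lit 283) (nat_lit 227)) (XT.nd (nat_lit 94) (nat_lit 252) (nat_lit 0) (XT.lf (nat_lit 0) (nat_lit 10350434591) (nat_lit 252) (nat_lit 1674392258) (nat_lit 84) (nat_lit 3632476753) (nat_lit 28) (nat_lit 5) (nat_lit 31) (nat_lit 5) (nat_lit 29) (nat_lit 5) (nat_lit 355) (nat_lit 283) (nat_lit 226)) (XT.lf (nat_lit 0) (nat_lit 3561882619) (nat_lit 252) (nat_lit 9264906597) (nat_lit 336) (nat_lit 3197467016) (nat_lit 25) (nat_lit 5) (nat_lit 28) (nat_lit 5) (nat_lit 29) (nat_lit 5) (nat_lit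 356) (nat_lit 283) (nat_lit 225))))) (XT.nd (nat_lit 188) (nat_lit 168) (nat_lit 0) (XT.nd (nat_lit 94) (nat_lit 84) (nat_lit 0) (XT.lf (nat_lit 0) (nat_lit 8955083360) (nat_lit 252) (nat_lit 6414598106) (nat_lit 336) (nat_lit 1033286884) (nat_lit 25) (nat_lit 5) (nat_lit 28) (nat_lit 5) (nat_lit 29) (nat_lit 5) (nat_lit 357) (nat_lit 283) (nat_lit 224)) (XT.lf (nat_lit 0) (nat_lit 1146634253) (nat_lit 336) (nat_lit 2330119048) (nat_lit 84) (nat_lit 13317205288) (nat_lit 24) (nat_lit 5) (nat_lit 28) (nat_lit 5) (nat_lit 25) (nat_lit 5) (nat_lit 358) (nat_lit 283) (nat_lit 223))) (XT.nd (nat_lit 94) (nat_lit 0) (nat_lit 0) (XT.lf (nat_lit 0) (nat_lit 2956214350) (nat_lit 168) (nat_lit 419387119) (nat_lit 252) (nat_lit 13821110539) (nat_lit 22) (nat_lit 5) (nat_lit 24) (nat_lit 5) (nat_lit 25) (nat_lit 5) (nat_lit 359) (nat_lit 283) (nat_lit 222)) (XT.nd (nat_lit 94) (nat_lit 0) (nat_lit 0)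 (XT.lf (nat_lit 0) (nat_lit 5699236620) (nat_lit 252) (nat_lit 9222152887) (nat_lit 84) (nat_lit 2689827768) (nat_lit 22) (nat_lit 5) (nat_lit 25) (nat_lit 5) (nat_lit 23) (nat_lit 5) (nat_lit 360) (nat_lit 283) (nat_lit 221)) (XT.lf (nat_lit 0) (nat_lit 8073869110) (nat_lit 252) (nat_lit 4090762928) (nat_lit 84) (nat_lit 5874649644) (nat_lit 22) (nat_lit 5) (nat_lit 25) (nat_lit 5) (nat_lit 23) (nat_lit 5) (nat_lit 361) (nat_lit 283) (nat_lit 220)))))) (XT.nd (nat_lit 470) (nat_lit 168) (nat_lit 0) (XT.nd (nat_lit 188) (nat_lit 252) (nat_lit 0) (XT.nd (nat_lit 94) (nat_lit 0) (nat_lit 0) (XT.lf (nat_lit 0) (nat_lit 1186521343) (nat_lit 168) (nat_lit 9322801068) (nat_lit 252) (nat_lit 7971745909) (nat_lit 20) (nat_lit 5) (nat_lit 22) (nat_lit 5) (nat_lit 23) (nat_lit 5) (nat_lit 362) (nat_lit 283) (nat_lit 219)) (XT.lf (nat_lit 0) (nat_lit 6677414364) (nat_lit 168) (nat_lit 6361370749) (nat_lit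 252) (nat_lit 5897245393) (nat_lit 20) (nat_lit 5) (nat_lit 22) (nat_lit 5) (nat_lit 23) (nat_lit 5) (nat_lit 363) (nat_lit 283) (nat_lit 218))) (XT.nd (nat_lit 94) (nat_lit 252) (nat_lit 0) (XT.lf (nat_lit 0) (nat_lit 12302919745) (nat_lit 168) (nat_lit 3320279894) (nat_lit 252) (nat_lit 3782676548) (nat_lit 20) (nat_lit 5) (nat_lit 22) (nat_lit 5) (nat_lit 23) (nat_lit 5) (nat_lit 364) (nat_lit 283) (nat_lit 217)) (XT.nd (nat_lit 94) (nat_lit 252) (nat_lit 0) (XT.lf (nat_lit 0) (nat_lit 18068281047) (nat_lit 168) (nat_lit 196693885) (nat_lit 252) (nat_lit 1626068376) (nat_lit 20) (nat_lit 5) (nat_lit 22) (nat_lit 5) (nat_lit 23) (nat_lit 5) (nat_lit 365) (nat_lit 283) (nat_lit 216)) (XT.lf (nat_lit 0) (nat_lit 629580419) (nat_lit 252) (nat_lit 16766170276) (nat_lit 84) (nat_lit 2993993101) (nat_lit 17) (nat_lit 5) (nat_lit 20) (nat_lit 5) (nat_lit 18) (nat_lit 5) (nat_lit 366) (nat_lit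 283) (nat_lit 215))))) (XT.nd (nat_lit 282) (nat_lit 168) (nat_lit 0) (XT.nd (nat_lit 94) (nat_lit 0) (nat_lit 0) (XT.lf (nat_lit 0) (nat_lit 2920485808) (nat_lit 252) (nat_lit 11679036399) (nat_lit 84) (nat_lit 6303940203) (nat_lit 17) (nat_lit 5) (nat_lit 20) (nat_lit 5) (nat_lit 18) (nat_lit 5) (nat_lit 367) (nat_lit 283) (nat_lit 214)) (XT.nd (nat_lit 94) (nat_lit 0) (nat_lit 0) (XT.lf (nat_lit 0) (nat_lit 5260951010) (nat_lit 252) (nat_lit 6467443232) (nat_lit 84) (nat_lit 9705422213) (nat_lit 17) (nat_lit 5) (nat_lit 20) (nat_lit 5) (nat_lit 18) (nat_lit 5) (nat_lit 368) (nat_lit 283) (nat_lit 213)) (XT.lf (nat_lit 0) (nat_lit 7653157584) (nat_lit 252) (nat_lit 1126533026) (nat_lit 84) (nat_lit 13201609667) (nat_lit 17) (nat_lit 5) (nat_lit 20) (nat_lit 5) (nat_lit 18) (nat_lit 5) (nat_lit 369) (nat_lit 283) (nat_lit 212)))) (XT.nd (nat_lit 94) (nat_lit 0) (nat_lit 0) (XT.lf (nat_lit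 0) (nat_lit 4438090134) (nat_lit 168) (nat_lit 5705271586) (nat_lit 252) (nat_lit 12401697648) (nat_lit 15) (nat_lit 5) (nat_lit 17) (nat_lit 5) (nat_lit 18) (nat_lit 5) (nat_lit 370) (nat_lit 283) (nat_lit 211)) (XT.nd (nat_lit 94) (nat_lit 0) (nat_lit 0) (XT.lf (nat_lit 0) (nat_lit 10168142242) (nat_lit 168) (nat_lit 2534491290) (nat_lit 252) (nat_lit 10423954461) (nat_lit 15) (nat_lit 5) (nat_lit 17) (nat_lit 5) (nat_lit 18) (nat_lit 5) (nat_lit 371) (nat_lit 283) (nat_lit 210)) (XT.lf (nat_lit 0) (nat_lit 15329134048) (nat_lit 252) (nat_lit 7688161933) (nat_lit 84) (nat_lit 709263177) (nat_lit 15) (nat_lit 5) (nat_lit 18) (nat_lit 5) (nat_lit 16) (nat_lit 4) (nat_lit 372) (nat_lit 283) (nat_lit 209))))))) (XT.nd (nat_lit 47846) (nat_lit 0) (nat_lit 8148) (XT.nd (nat_lit 47282) (nat_lit 0) (nat_lit 13776) (XT.nd (nat_lit 47000) (nat_lit 0) (nat_lit 15456) (XT.nd (nat_lit 94) (nat_lit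 84) (nat_lit 0) (XT.lf (nat_lit 0) (nat_lit 18044165276) (nat_lit 252) (nat_lit 2310059159) (nat_lit 84) (nat_lit 3990723192) (nat_lit 15) (nat_lit 5) (nat_lit 18) (nat_lit 5) (nat_lit 16) (nat_lit 4) (nat_lit 373) (nat_lit 283) (nat_lit 208)) (XT.lf (nat_lit 0) (nat_lit 3271940297) (nat_lit 84) (nat_lit 17585633198) (nat_lit 168) (nat_lit 4124529525) (nat_lit 14) (nat_lit 5) (nat_lit 15) (nat_lit 5) (nat_lit 16) (nat_lit 4) (nat_lit 374) (nat_lit 283) (nat_lit 207))) (XT.nd (nat_lit 94) (nat_lit 420) (nat_lit 0) (XT.lf (nat_lit 0) (nat_lit 1758237628) (nat_lit 252) (nat_lit 751755131) (nat_lit 252) (nat_lit 751755131) (nat_lit 203) (nat_lit 4) (nat_lit 206) (nat_lit 5) (nat_lit 206) (nat_lit 4) (nat_lit 296) (nat_lit 284) (nat_lit 284)) (XT.nd (nat_lit 94) (nat_lit 0) (nat_lit 0) (XT.lf (nat_lit 0) (nat_lit 92836244) (nat_lit 336) (nat_lit 1031245334) (nat_lit 420) (nat_lit 5422100298)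 (nat_lit 198) (nat_lit 5) (nat_lit 202) (nat_lit 5) (nat_lit 203) (nat_lit 4) (nat_lit 297) (nat_lit 284) (nat_lit 283)) (XT.lf (nat_lit 0) (nat_lit 3272657810) (nat_lit 336) (nat_lit 463014660) (nat_lit 420) (nat_lit 2836077175) (nat_lit 198) (nat_lit 5) (nat_lit 202) (nat_lit 5) (nat_lit 203) (nat_lit 4) (nat_lit 298) (nat_lit 284) (nat_lit 282))))) (XT.nd (nat_lit 282) (nat_lit 1176) (nat_lit 0) (XT.nd (nat_lit 94) (nat_lit 504) (nat_lit 0) (XT.lf (nat_lit 0) (nat_lit 6335235328) (nat_lit 420) (nat_lit 114363707) (nat_lit 0) (nat_lit 151977618) (nat_lit 198) (nat_lit 5) (nat_lit 203) (nat_lit 4) (nat_lit 198) (nat_lit 4) (nat_lit 299) (nat_lit 284) (nat_lit 281)) (XT.nd (nat_lit 94) (nat_lit 0) (nat_lit 0) (XT.lf (nat_lit 0) (nat_lit 2278672473) (nat_lit 504) (nat_lit 3493675907) (nat_lit 84) (nat_lit 861543995) (nat_lit 192) (nat_lit 5) (nat_lit 198) (nat_lit 5) (nat_lit 193) (nat_lit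 4) (nat_lit 300) (nat_lit 284) (nat_lit 280)) (XT.lf (nat_lit 0) (nat_lit 4807548518) (nat_lit 504) (nat_lit 237646985) (nat_lit 84) (nat_lit 1625237373) (nat_lit 192) (nat_lit 5) (nat_lit 198) (nat_lit 5) (nat_lit 193) (nat_lit 4) (nat_lit 301) (nat_lit 284) (nat_lit 279)))) (XT.nd (nat_lit 94) (nat_lit 588) (nat_lit 0) (XT.lf (nat_lit 0) (nat_lit 634339405) (nat_lit 588) (nat_lit 3598539378) (nat_lit 84) (nat_lit 2477313567) (nat_lit 185) (nat_lit 5) (nat_lit 192) (nat_lit 5) (nat_lit 186) (nat_lit 5) (nat_lit 302) (nat_lit 284) (nat_lit 278)) (XT.nd (nat_lit 94) (nat_lit 588) (nat_lit 0) (XT.lf (nat_lit 0) (nat_lit 3085455040) (nat_lit 588) (nat_lit 265872834) (nat_lit 84) (nat_lit 3402381722) (nat_lit 185) (nat_lit 5) (nat_lit 192) (nat_lit 5) (nat_lit 186) (nat_lit 5) (nat_lit 303) (nat_lit 284) (nat_lit 277)) (XT.lf (nat_lit 0) (nat_lit 3170447165) (nat_lit 588) (nat_lit 2388853701)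 (nat_lit 672) (nat_lit 1241397551) (nat_lit 178) (nat_lit 5) (nat_lit 185) (nat_lit 5) (nat_lit 186) (nat_lit 5) (nat_lit 304) (nat_lit 284) (nat_lit 276)))))) (XT.nd (nat_lit 470) (nat_lit 3192) (nat_lit 0) (XT.nd (nat_lit 188) (nat_lit 1680) (nat_lit 0) (XT.nd (nat_lit 94) (nat_lit 672) (nat_lit 0) (XT.lf (nat_lit 0) (nat_lit 1154017899) (nat_lit 672) (nat_lit 207728941) (nat_lit 84) (nat_lit 5489972571) (nat_lit 177) (nat_lit 5) (nat_lit 185) (nat_lit 5) (nat_lit 178) (nat_lit 5) (nat_lit 305) (nat_lit 284) (nat_lit 275)) (XT.lf (nat_lit 0) (nat_lit 3311811068) (nat_lit 672) (nat_lit 237397485) (nat_lit 756) (nat_lit 3356659856) (nat_lit 169) (nat_lit 5) (nat_lit 177) (nat_lit 5) (nat_lit 178) (nat_lit 5) (nat_lit 306) (nat_lit 284) (nat_lit 274))) (XT.nd (nat_lit 94) (nat_lit 1680) (nat_lit 0) (XT.lf (nat_lit 0) (nat_lit 5950438887) (nat_lit 756) (nat_lit 91465220) (nat_lit 84) (nat_lit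 922323905) (nat_lit 169) (nat_lit 5) (nat_lit 178) (nat_lit 5) (nat_lit 170) (nat_lit 5) (nat_lit 307) (nat_lit 284) (nat_lit 273)) (XT.nd (nat_lit 94) (nat_lit 840) (nat_lit 0) (XT.lf (nat_lit 0) (nat_lit 1332905369) (nat_lit 840) (nat_lit 3514793899) (nat_lit 84) (nat_lit 2177916624) (nat_lit 159) (nat_lit 5) (nat_lit 169) (nat_lit 5) (nat_lit 160) (nat_lit 5) (nat_lit 308) (nat_lit 284) (nat_lit 272)) (XT.lf (nat_lit 0) (nat_lit 63877697) (nat_lit 840) (nat_lit 3592393900) (nat_lit 924) (nat_lit 3435020199) (nat_lit 149) (nat_lit 5) (nat_lit 159) (nat_lit 5) (nat_lit 160) (nat_lit 5) (nat_lit 309) (nat_lit 284) (nat_lit 271))))) (XT.nd (nat_lit 282) (nat_lit 2184) (nat_lit 0) (XT.nd (nat_lit 94) (nat_lit 1008) (nat_lit 0) (XT.lf (nat_lit 0) (nat_lit 3763783899) (nat_lit 840) (nat_lit 2249616988) (nat_lit 924) (nat_lit 1147158317) (nat_lit 149) (nat_lit 5) (nat_lit 159) (nat_lit 5) (nat_lit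 160) (nat_lit 5) (nat_lit 310) (nat_lit 284) (nat_lit 270)) (XT.nd (nat_lit 94) (nat_lit 0) (nat_lit 0) (XT.lf (nat_lit 0) (nat_lit 275800575) (nat_lit 924) (nat_lit 840361487) (nat_lit 1008) (nat_lit 6117989462) (nat_lit 137) (nat_lit 5) (nat_lit 148) (nat_lit 5) (nat_lit 149) (nat_lit 5) (nat_lit 311) (nat_lit 284) (nat_lit 269)) (XT.lf (nat_lit 0) (nat_lit 3395596535) (nat_lit 1008) (nat_lit 3259024346) (nat_lit 84) (nat_lit 656314537) (nat_lit 137) (nat_lit 5) (nat_lit 149) (nat_lit 5) (nat_lit 138) (nat_lit 5) (nat_lit 312) (nat_lit 284) (nat_lit 268)))) (XT.nd (nat_lit 94) (nat_lit 1176) (nat_lit 0) (XT.lf (nat_lit 0) (nat_lit 492128942) (nat_lit 1008) (nat_lit 5197095234) (nat_lit 1092) (nat_lit 1702952963) (nat_lit 125) (nat_lit 5) (nat_lit 137) (nat_lit 5) (nat_lit 138) (nat_lit 5) (nat_lit 313) (nat_lit 284) (nat_lit 267)) (XT.nd (nat_lit 94) (nat_lit 1092) (nat_lit 0) (XT.lf (nat_lit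 0) (nat_lit 531252314) (nat_lit 1092) (nat_lit 3117566624) (nat_lit 84) (nat_lit 3828336957) (nat_lit 124) (nat_lit 5) (nat_lit 137) (nat_lit 5) (nat_lit 125) (nat_lit 5) (nat_lit 314) (nat_lit 284) (nat_lit 266)) (XT.lf (nat_lit 0) (nat_lit 715880812) (nat_lit 1092) (nat_lit 2023169376) (nat_lit 1176) (nat_lit 4827346330) (nat_lit 111) (nat_lit 5) (nat_lit 124) (nat_lit 5) (nat_lit 125) (nat_lit 5) (nat_lit 315) (nat_lit 284) (nat_lit 265))))))))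
noncomputable def xc36 : XT := (XT.nd (nat_lit 1974) (nat_lit 2352) (nat_lit 0) (XT.nd (nat_lit 940) (nat_lit 2100) (nat_lit 0) (XT.nd (nat_lit 470) (nat_lit 1596) (nat_lit 0) (XT.nd (nat_lit 188) (nat_lit 672) (nat_lit 0) (XT.nd (nat_lit 94) (nat_lit 504) (nat_lit 0) (XT.lf (nat_lit 0) (nat_lit 4671599457) (nat_lit 1092) (nat_lit 310241155) (nat_lit 1176) (nat_lit 2677889305) (nat_lit 111) (nat_lit 5) (nat_lit 124) (nat_lit 5) (nat_lit 125) (nat_lit 5) (nat_lit 316) (nat_lit 284) (nat_lit 264)) (XT.lf (nat_lit 0) (nat_lit 935322350) (nat_lit 504) (nat_lit 6318581373) (nat_lit 588) (nat_lit 503581485) (nat_lit 105) (nat_lit 5) (nat_lit 111) (nat_lit 5) (nat_lit 112) (nat_lit 5) (nat_lit 317) (nat_lit 284) (nat_lit 263))) (XT.nd (nat_lit 94) (nat_lit 588) (nat_lit 0) (XT.lf (nat_lit 0) (nat_lit 1674215010) (nat_lit 588) (nat_lit 2898291799) (nat_lit 84) (nat_lit 3286389410) (nat_lit 104)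 (nat_lit 5) (nat_lit 111) (nat_lit 5) (nat_lit 105) (nat_lit 5) (nat_lit 318) (nat_lit 284) (nat_lit 262)) (XT.nd (nat_lit 94) (nat_lit 0) (nat_lit 0) (XT.lf (nat_lit 0) (nat_lit 1102197783) (nat_lit 588) (nat_lit 2756133006) (nat_lit 672) (nat_lit 4106789331) (nat_lit 97) (nat_lit 5) (nat_lit 104) (nat_lit 5) (nat_lit 105) (nat_lit 5) (nat_lit 319) (nat_lit 284) (nat_lit 261)) (XT.lf (nat_lit 0) (nat_lit 5226695435) (nat_lit 588) (nat_lit 853289744) (nat_lit 672) (nat_lit 1995835442) (nat_lit 97) (nat_lit 5) (nat_lit 104) (nat_lit 5) (nat_lit 105) (nat_lit 5) (nat_lit 320) (nat_lit 284) (nat_lit 260))))) (XT.nd (nat_lit 188) (nat_lit 1008) (nat_lit 0) (XT.nd (nat_lit 94) (nat_lit 0) (nat_lit 0) (XT.lf (nat_lit 0) (nat_lit 141021032) (nat_lit 588) (nat_lit 6951249805) (nat_lit 84) (nat_lit 1098973058) (nat_lit 90) (nat_lit 5) (nat_lit 97) (nat_lit 5) (nat_lit 91) (nat_lit 5) (nat_lit 321)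 (nat_lit 284) (nat_lit 259)) (XT.lf (nat_lit 0) (nat_lit 2283158215) (nat_lit 588) (nat_lit 2884941652) (nat_lit 84) (nat_lit 3142343924) (nat_lit 90) (nat_lit 5) (nat_lit 97) (nat_lit 5) (nat_lit 91) (nat_lit 5) (nat_lit 322) (nat_lit 284) (nat_lit 258))) (XT.nd (nat_lit 94) (nat_lit 504) (nat_lit 0) (XT.lf (nat_lit 0) (nat_lit 1272487301) (nat_lit 504) (nat_lit 3175315781) (nat_lit 588) (nat_lit 3987116523) (nat_lit 84) (nat_lit 5) (nat_lit 90) (nat_lit 5) (nat_lit 91) (nat_lit 5) (nat_lit 323) (nat_lit 284) (nat_lit 257)) (XT.nd (nat_lit 94) (nat_lit 504) (nat_lit 0) (XT.lf (nat_lit 0) (nat_lit 5559996505) (nat_lit 504) (nat_lit 1094251195) (nat_lit 588) (nat_lit 1910004154) (nat_lit 84) (nat_lit 5) (nat_lit 90) (nat_lit 5) (nat_lit 91) (nat_lit 5) (nat_lit 324) (nat_lit 284) (nat_lit 256)) (XT.lf (nat_lit 0) (nat_lit 195223163) (nat_lit 504) (nat_lit 7463400941) (nat_lit 84) (nat_lit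 1040078685) (nat_lit 78) (nat_lit 5) (nat_lit 84) (nat_lit 5) (nat_lit 79) (nat_lit 5) (nat_lit 325) (nat_lit 284) (nat_lit 255)))))) (XT.nd (nat_lit 470) (nat_lit 1176) (nat_lit 0) (XT.nd (nat_lit 188) (nat_lit 504) (nat_lit 0) (XT.nd (nat_lit 94) (nat_lit 420) (nat_lit 0) (XT.lf (nat_lit 0) (nat_lit 2315405501) (nat_lit 504) (nat_lit 3258096090) (nat_lit 84) (nat_lit 3263738704) (nat_lit 78) (nat_lit 5) (nat_lit 84) (nat_lit 5) (nat_lit 79) (nat_lit 5) (nat_lit 326) (nat_lit 284) (nat_lit 254)) (XT.lf (nat_lit 0) (nat_lit 1039671322) (nat_lit 420) (nat_lit 3420062191) (nat_lit 504) (nat_lit 4521816672) (nat_lit 73) (nat_lit 5) (nat_lit 78) (nat_lit 5) (nat_lit 79) (nat_lit 5) (nat_lit 327) (nat_lit 284) (nat_lit 253))) (XT.nd (nat_lit 94) (nat_lit 504) (nat_lit 0) (XT.lf (nat_lit 0) (nat_lit 5481486297) (nat_lit 420) (nat_lit 1172146047) (nat_lit 504) (nat_lit 2477408406) (nat_lit 73)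 (nat_lit 5) (nat_lit 78) (nat_lit 5) (nat_lit 79) (nat_lit 5) (nat_lit 328) (nat_lit 284) (nat_lit 252)) (XT.nd (nat_lit 94) (nat_lit 84) (nat_lit 0) (XT.lf (nat_lit 0) (nat_lit 720853223) (nat_lit 420) (nat_lit 8163751785) (nat_lit 504) (nat_lit 401697122) (nat_lit 68) (nat_lit 5) (nat_lit 73) (nat_lit 5) (nat_lit 74) (nat_lit 5) (nat_lit 329) (nat_lit 284) (nat_lit 251)) (XT.lf (nat_lit 0) (nat_lit 1704608662) (nat_lit 504) (nat_lit 4229435601) (nat_lit 84) (nat_lit 3511925388) (nat_lit 67) (nat_lit 5) (nat_lit 73) (nat_lit 5) (nat_lit 68) (nat_lit 5) (nat_lit 330) (nat_lit 284) (nat_lit 250))))) (XT.nd (nat_lit 282) (nat_lit 756) (nat_lit 0) (XT.nd (nat_lit 94) (nat_lit 0) (nat_lit 0) (XT.lf (nat_lit 0) (nat_lit 183621732) (nat_lit 420) (nat_lit 3638344682) (nat_lit 504) (nat_lit 5790077991) (nat_lit 62) (nat_lit 5) (nat_lit 67) (nat_lit 5) (nat_lit 68) (nat_lit 5) (nat_lit 331) (nat_lit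 284) (nat_lit 249)) (XT.nd (nat_lit 94) (nat_lit 0) (nat_lit 0) (XT.lf (nat_lit 0) (nat_lit 4766758823) (nat_lit 420) (nat_lit 1235504699) (nat_lit 504) (nat_lit 3781244762) (nat_lit 62) (nat_lit 5) (nat_lit 67) (nat_lit 5) (nat_lit 68) (nat_lit 5) (nat_lit 332) (nat_lit 284) (nat_lit 248)) (XT.lf (nat_lit 0) (nat_lit 8216940252) (nat_lit 504) (nat_lit 536793980) (nat_lit 84) (nat_lit 1207735235) (nat_lit 62) (nat_lit 5) (nat_lit 68) (nat_lit 5) (nat_lit 63) (nat_lit 5) (nat_lit 333) (nat_lit 284) (nat_lit 247)))) (XT.nd (nat_lit 94) (nat_lit 336) (nat_lit 0) (XT.lf (nat_lit 0) (nat_lit 357238177) (nat_lit 420) (nat_lit 6050942033) (nat_lit 84) (nat_lit 3736520108) (nat_lit 57) (nat_lit 5) (nat_lit 62) (nat_lit 5) (nat_lit 58) (nat_lit 5) (nat_lit 334) (nat_lit 284) (nat_lit 246)) (XT.nd (nat_lit 94) (nat_lit 336) (nat_lit 0) (XT.lf (nat_lit 0) (nat_lit 2449631881) (nat_lit 420) (nat_lit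 1527063197) (nat_lit 84) (nat_lit 6357689222) (nat_lit 57) (nat_lit 5) (nat_lit 62) (nat_lit 5) (nat_lit 58) (nat_lit 5) (nat_lit 335) (nat_lit 284) (nat_lit 245)) (XT.lf (nat_lit 0) (nat_lit 3147153387) (nat_lit 336) (nat_lit 1448327225) (nat_lit 420) (nat_lit 5934956459) (nat_lit 53) (nat_lit 5) (nat_lit 57) (nat_lit 5) (nat_lit 58) (nat_lit 5) (nat_lit 336) (nat_lit 284) (nat_lit 244))))))) (XT.nd (nat_lit 940) (nat_lit 1008) (nat_lit 0) (XT.nd (nat_lit 470) (nat_lit 588) (nat_lit 0) (XT.nd (nat_lit 188) (nat_lit 420) (nat_lit 0) (XT.nd (nat_lit 94) (nat_lit 336) (nat_lit 0) (XT.lf (nat_lit 0) (nat_lit 6793465580) (nat_lit 420) (nat_lit 2799176048) (nat_lit 84) (nat_lit 1140502633) (nat_lit 53) (nat_lit 5) (nat_lit 58) (nat_lit 5) (nat_lit 54) (nat_lit 5) (nat_lit 337) (nat_lit 284) (nat_lit 243)) (XT.lf (nat_lit 0) (nat_lit 1898001239) (nat_lit 336) (nat_lit 7154511279) (nat_lit 420)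 (nat_lit 1889969110) (nat_lit 49) (nat_lit 5) (nat_lit 53) (nat_lit 5) (nat_lit 54) (nat_lit 5) (nat_lit 338) (nat_lit 284) (nat_lit 242))) (XT.nd (nat_lit 94) (nat_lit 336) (nat_lit 0) (XT.lf (nat_lit 0) (nat_lit 207761647) (nat_lit 420) (nat_lit 4412671400) (nat_lit 84) (nat_lit 6538267794) (nat_lit 48) (nat_lit 5) (nat_lit 53) (nat_lit 5) (nat_lit 49) (nat_lit 5) (nat_lit 339) (nat_lit 284) (nat_lit 241)) (XT.nd (nat_lit 94) (nat_lit 0) (nat_lit 0) (XT.lf (nat_lit 0) (nat_lit 298103073) (nat_lit 336) (nat_lit 1996798312) (nat_lit 420) (nat_lit 9087365249) (nat_lit 44) (nat_lit 5) (nat_lit 48) (nat_lit 5) (nat_lit 49) (nat_lit 5) (nat_lit 340) (nat_lit 284) (nat_lit 240)) (XT.lf (nat_lit 0) (nat_lit 4461537221) (nat_lit 420) (nat_lit 6422340667) (nat_lit 84) (nat_lit 728538763) (nat_lit 44) (nat_lit 5) (nat_lit 49) (nat_lit 5) (nat_lit 45) (nat_lit 5) (nat_lit 341) (nat_lit 284) (nat_lit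 239))))) (XT.nd (nat_lit 188) (nat_lit 336) (nat_lit 0) (XT.nd (nat_lit 94) (nat_lit 252) (nat_lit 0) (XT.lf (nat_lit 0) (nat_lit 6678166094) (nat_lit 420) (nat_lit 1686828473) (nat_lit 84) (nat_lit 3485348051) (nat_lit 44) (nat_lit 5) (nat_lit 49) (nat_lit 5) (nat_lit 45) (nat_lit 5) (nat_lit 342) (nat_lit 284) (nat_lit 238)) (XT.lf (nat_lit 0) (nat_lit 3211295958) (nat_lit 252) (nat_lit 5747606141) (nat_lit 336) (nat_lit 3136990718) (nat_lit 41) (nat_lit 5) (nat_lit 44) (nat_lit 5) (nat_lit 45) (nat_lit 5) (nat_lit 343) (nat_lit 284) (nat_lit 237))) (XT.nd (nat_lit 94) (nat_lit 336) (nat_lit 0) (XT.lf (nat_lit 0) (nat_lit 8248627986) (nat_lit 252) (nat_lit 3043471495) (nat_lit 336) (nat_lit 1057623569) (nat_lit 41) (nat_lit 5) (nat_lit 44) (nat_lit 5) (nat_lit 45) (nat_lit 5) (nat_lit 344) (nat_lit 284) (nat_lit 236)) (XT.nd (nat_lit 94) (nat_lit 0) (nat_lit 0) (XT.lf (nat_lit 0) (nat_lit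 788037485) (nat_lit 252) (nat_lit 248875704) (nat_lit 336) (nat_lit 11575120811) (nat_lit 37) (nat_lit 5) (nat_lit 40) (nat_lit 5) (nat_lit 41) (nat_lit 5) (nat_lit 345) (nat_lit 284) (nat_lit 235)) (XT.lf (nat_lit 0) (nat_lit 3209010444) (nat_lit 336) (nat_lit 7051161385) (nat_lit 84) (nat_lit 2620990379) (nat_lit 37) (nat_lit 5) (nat_lit 41) (nat_lit 5) (nat_lit 38) (nat_lit 5) (nat_lit 346) (nat_lit 284) (nat_lit 234)))))) (XT.nd (nat_lit 470) (nat_lit 420) (nat_lit 0) (XT.nd (nat_lit 188) (nat_lit 336) (nat_lit 0) (XT.nd (nat_lit 94) (nat_lit 252) (nat_lit 0) (XT.lf (nat_lit 0) (nat_lit 5417274340) (nat_lit 336) (nat_lit 2179778900) (nat_lit 84) (nat_lit 5562637082) (nat_lit 37) (nat_lit 5) (nat_lit 41) (nat_lit 5) (nat_lit 38) (nat_lit 5) (nat_lit 347) (nat_lit 284) (nat_lit 233)) (XT.lf (nat_lit 0) (nat_lit 2854675811) (nat_lit 252) (nat_lit 4834937259) (nat_lit 336) (nat_lit 5757463542)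 (nat_lit 34) (nat_lit 5) (nat_lit 37) (nat_lit 5) (nat_lit 38) (nat_lit 5) (nat_lit 348) (nat_lit 284) (nat_lit 232))) (XT.nd (nat_lit 94) (nat_lit 336) (nat_lit 0) (XT.lf (nat_lit 0) (nat_lit 8046413002) (nat_lit 252) (nat_lit 1976570494) (nat_lit 336) (nat_lit 3720765452) (nat_lit 34) (nat_lit 5) (nat_lit 37) (nat_lit 5) (nat_lit 38) (nat_lit 5) (nat_lit 349) (nat_lit 284) (nat_lit 231)) (XT.nd (nat_lit 94) (nat_lit 336) (nat_lit 0) (XT.lf (nat_lit 0) (nat_lit 12406995333) (nat_lit 336) (nat_lit 704719860) (nat_lit 84) (nat_lit 938658190) (nat_lit 34) (nat_lit 5) (nat_lit 38) (nat_lit 5) (nat_lit 35) (nat_lit 5) (nat_lit 350) (nat_lit 284) (nat_lit 230)) (XT.lf (nat_lit 0) (nat_lit 522810848) (nat_lit 336) (nat_lit 9901548750) (nat_lit 84) (nat_lit 3941000400) (nat_lit 30) (nat_lit 5) (nat_lit 34) (nat_lit 5) (nat_lit 31) (nat_lit 5) (nat_lit 351) (nat_lit 284) (nat_lit 229))))) (XT.nd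 (nat_lit 282) (nat_lit 252) (nat_lit 0) (XT.nd (nat_lit 94) (nat_lit 168) (nat_lit 0) (XT.lf (nat_lit 0) (nat_lit 2699174846) (nat_lit 336) (nat_lit 4942749216) (nat_lit 84) (nat_lit 7048449659) (nat_lit 30) (nat_lit 5) (nat_lit 34) (nat_lit 5) (nat_lit 31) (nat_lit 5) (nat_lit 352) (nat_lit 284) (nat_lit 228)) (XT.nd (nat_lit 94) (nat_lit 0) (nat_lit 0) (XT.lf (nat_lit 0) (nat_lit 130214841) (nat_lit 168) (nat_lit 4784722224) (nat_lit 252) (nat_lit 10111469199) (nat_lit 28) (nat_lit 5) (nat_lit 30) (nat_lit 5) (nat_lit 31) (nat_lit 5) (nat_lit 353) (nat_lit 284) (nat_lit 227)) (XT.lf (nat_lit 0) (nat_lit 5423469723) (nat_lit 168) (nat_lit 1798618152) (nat_lit 252) (nat_lit 8150135296) (nat_lit 28) (nat_lit 5) (nat_lit 30) (nat_lit 5) (nat_lit 31) (nat_lit 5) (nat_lit 354) (nat_lit 284) (nat_lit 226)))) (XT.nd (nat_lit 94) (nat_lit 252) (nat_lit 0) (XT.lf (nat_lit 0) (nat_lit 9585311429)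 (nat_lit 252) (nat_lit 4901956357) (nat_lit 84) (nat_lit 1242040451) (nat_lit 28) (nat_lit 5) (nat_lit 31) (nat_lit 5) (nat_lit 29) (nat_lit 5) (nat_lit 355) (nat_lit 284) (nat_lit 225)) (XT.nd (nat_lit 94) (nat_lit 0) (nat_lit 0) (XT.lf (nat_lit 0) (nat_lit 247817834) (nat_lit 252) (nat_lit 11767530186) (nat_lit 336) (nat_lit 4082381619) (nat_lit 25) (nat_lit 5) (nat_lit 28) (nat_lit 5) (nat_lit 29) (nat_lit 5) (nat_lit 356) (nat_lit 284) (nat_lit 224)) (XT.lf (nat_lit 0) (nat_lit 5621488652) (nat_lit 252) (nat_lit 8923519952) (nat_lit 336) (nat_lit 1931875257) (nat_lit 25) (nat_lit 5) (nat_lit 28) (nat_lit 5) (nat_lit 29) (nat_lit 5) (nat_lit 357) (nat_lit 284) (nat_lit 223))))))))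
noncomputable def xc37 : XT := (XT.nd (nat_lit 48598) (nat_lit 0) (nat_lit 7476) (XT.nd (nat_lit 940) (nat_lit 168) (nat_lit 0) (XT.nd (nat_lit 470) (nat_lit 420) (nat_lit 0) (XT.nd (nat_lit 188) (nat_lit 168) (nat_lit 0) (XT.nd (nat_lit 94) (nat_lit 0) (nat_lit 0) (XT.lf (nat_lit 0) (nat_lit 253155018) (nat_lit 336) (nat_lit 5747955102) (nat_lit 84) (nat_lit 10867473208) (nat_lit 24) (nat_lit 5) (nat_lit 28) (nat_lit 5) (nat_lit 25) (nat_lit 5) (nat_lit 358) (nat_lit 284) (nat_lit 222)) (XT.lf (nat_lit 0) (nat_lit 2440191551) (nat_lit 336) (nat_lit 539844272) (nat_lit 84) (nat_lit 14292629903) (nat_lit 24) (nat_lit 5) (nat_lit 28) (nat_lit 5) (nat_lit 25) (nat_lit 5) (nat_lit 359) (nat_lit 284) (nat_lit 221))) (XT.nd (nat_lit 94) (nat_lit 0) (nat_lit 0) (XT.lf (nat_lit 0) (nat_lit 4720434336) (nat_lit 252) (nat_lit 12798802397) (nat_lit 84) (nat_lit 169307676) (nat_lit 22) (nat_lit 5) (nat_lit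 25) (nat_lit 5) (nat_lit 23) (nat_lit 5) (nat_lit 360) (nat_lit 284) (nat_lit 220)) (XT.nd (nat_lit 94) (nat_lit 0) (nat_lit 0) (XT.lf (nat_lit 0) (nat_lit 7082972668) (nat_lit 252) (nat_lit 7685671688) (nat_lit 84) (nat_lit 3348366783) (nat_lit 22) (nat_lit 5) (nat_lit 25) (nat_lit 5) (nat_lit 23) (nat_lit 5) (nat_lit 361) (nat_lit 284) (nat_lit 219)) (XT.lf (nat_lit 0) (nat_lit 9494925020) (nat_lit 252) (nat_lit 2450003409) (nat_lit 84) (nat_lit 6614624457) (nat_lit 22) (nat_lit 5) (nat_lit 25) (nat_lit 5) (nat_lit 23) (nat_lit 5) (nat_lit 362) (nat_lit 284) (nat_lit 218))))) (XT.nd (nat_lit 188) (nat_lit 252) (nat_lit 0) (XT.nd (nat_lit 94) (nat_lit 0) (nat_lit 0) (XT.lf (nat_lit 0) (nat_lit 2972981584) (nat_lit 168) (nat_lit 9015050345) (nat_lit 252) (nat_lit 7027635953) (nat_lit 20) (nat_lit 5) (nat_lit 22) (nat_lit 5) (nat_lit 23) (nat_lit 5) (nat_lit 363) (nat_lit 284) (nat_lit 217))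 (XT.lf (nat_lit 0) (nat_lit 8581483151) (nat_lit 168) (nat_lit 5979758930) (nat_lit 252) (nat_lit 4924643822) (nat_lit 20) (nat_lit 5) (nat_lit 22) (nat_lit 5) (nat_lit 23) (nat_lit 5) (nat_lit 364) (nat_lit 284) (nat_lit 216))) (XT.nd (nat_lit 94) (nat_lit 252) (nat_lit 0) (XT.lf (nat_lit 0) (nat_lit 14330351908) (nat_lit 168) (nat_lit 2861797985) (nat_lit 252) (nat_lit 2779264276) (nat_lit 20) (nat_lit 5) (nat_lit 22) (nat_lit 5) (nat_lit 23) (nat_lit 5) (nat_lit 365) (nat_lit 284) (nat_lit 215)) (XT.nd (nat_lit 94) (nat_lit 252) (nat_lit 0) (XT.lf (nat_lit 0) (nat_lit 19886597740) (nat_lit 252) (nat_lit 251148933) (nat_lit 84) (nat_lit 334853479) (nat_lit 20) (nat_lit 5) (nat_lit 23) (nat_lit 5) (nat_lit 21) (nat_lit 4) (nat_lit 366) (nat_lit 284) (nat_lit 214)) (XT.lf (nat_lit 0) (nat_lit 1703575591) (nat_lit 252) (nat_lit 15652386186) (nat_lit 84) (nat_lit 3630966485) (nat_lit 17) (nat_lit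 5) (nat_lit 20) (nat_lit 5) (nat_lit 18) (nat_lit 5) (nat_lit 367) (nat_lit 284) (nat_lit 213)))))) (XT.nd (nat_lit 470) (nat_lit 0) (nat_lit 0) (XT.nd (nat_lit 188) (nat_lit 168) (nat_lit 0) (XT.nd (nat_lit 94) (nat_lit 0) (nat_lit 0) (XT.lf (nat_lit 0) (nat_lit 4033793108) (nat_lit 252) (nat_lit 10456668129) (nat_lit 84) (nat_lit 7027160214) (nat_lit 17) (nat_lit 5) (nat_lit 20) (nat_lit 5) (nat_lit 18) (nat_lit 5) (nat_lit 368) (nat_lit 284) (nat_lit 212)) (XT.lf (nat_lit 0) (nat_lit 6416060122) (nat_lit 252) (nat_lit 5131155701) (nat_lit 84) (nat_lit 10518218395) (nat_lit 17) (nat_lit 5) (nat_lit 20) (nat_lit 5) (nat_lit 18) (nat_lit 5) (nat_lit 369) (nat_lit 284) (nat_lit 211))) (XT.nd (nat_lit 94) (nat_lit 0) (nat_lit 0) (XT.lf (nat_lit 0) (nat_lit 335882313) (nat_lit 168) (nat_lit 8520046839) (nat_lit 252) (nat_lit 13774844741) (nat_lit 15) (nat_lit 5) (nat_lit 17) (nat_lit 5) (nat_lit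 18) (nat_lit 5) (nat_lit 370) (nat_lit 284) (nat_lit 210)) (XT.nd (nat_lit 94) (nat_lit 0) (nat_lit 0) (XT.lf (nat_lit 0) (nat_lit 6051150823) (nat_lit 168) (nat_lit 5354552664) (nat_lit 252) (nat_lit 11806913040) (nat_lit 15) (nat_lit 5) (nat_lit 17) (nat_lit 5) (nat_lit 18) (nat_lit 5) (nat_lit 371) (nat_lit 284) (nat_lit 209)) (XT.lf (nat_lit 0) (nat_lit 11914469972) (nat_lit 168) (nat_lit 2101341469) (nat_lit 252) (nat_lit 9797303417) (nat_lit 15) (nat_lit 5) (nat_lit 17) (nat_lit 5) (nat_lit 18) (nat_lit 5) (nat_lit 372) (nat_lit 284) (nat_lit 208))))) (XT.nd (nat_lit 46906) (nat_lit 0) (nat_lit 15372) (XT.nd (nat_lit 94) (nat_lit 0) (nat_lit 0) (XT.lf (nat_lit 0) (nat_lit 16701012843) (nat_lit 252) (nat_lit 6513850561) (nat_lit 84) (nat_lit 1217583073) (nat_lit 15) (nat_lit 5) (nat_lit 18) (nat_lit 5) (nat_lit 16) (nat_lit 4) (nat_lit 373) (nat_lit 284) (nat_lit 207)) (XT.nd (nat_lit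 46718) (nat_lit 0) (nat_lit 16044) (XT.lf (nat_lit 0) (nat_lit 19473248890) (nat_lit 252) (nat_lit 1011501845) (nat_lit 84) (nat_lit 4586145346) (nat_lit 15) (nat_lit 5) (nat_lit 18) (nat_lit 5) (nat_lit 16) (nat_lit 4) (nat_lit 374) (nat_lit 284) (nat_lit 206)) (XT.lf (nat_lit 0) (nat_lit 980543582) (nat_lit 252) (nat_lit 1282647329) (nat_lit 0) (nat_lit 980543582) (nat_lit 206) (nat_lit 5) (nat_lit 209) (nat_lit 4) (nat_lit 206) (nat_lit 4) (nat_lit 294) (nat_lit 285) (nat_lit 285)))) (XT.nd (nat_lit 94) (nat_lit 420) (nat_lit 0) (XT.lf (nat_lit 0) (nat_lit 417937864) (nat_lit 252) (nat_lit 4172413164) (nat_lit 252) (nat_lit 1914344344) (nat_lit 203) (nat_lit 4) (nat_lit 206) (nat_lit 5) (nat_lit 206) (nat_lit 4) (nat_lit 295) (nat_lit 285) (nat_lit 284)) (XT.nd (nat_lit 94) (nat_lit 336) (nat_lit 0) (XT.lf (nat_lit 0) (nat_lit 690207194) (nat_lit 336) (nat_lit 3046431449) (nat_lit 84)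 (nat_lit 2788454365) (nat_lit 202) (nat_lit 5) (nat_lit 206) (nat_lit 5) (nat_lit 203) (nat_lit 4) (nat_lit 296) (nat_lit 285) (nat_lit 283)) (XT.lf (nat_lit 0) (nat_lit 5790870) (nat_lit 336) (nat_lit 3233181394) (nat_lit 420) (nat_lit 3310145512) (nat_lit 198) (nat_lit 5) (nat_lit 202) (nat_lit 5) (nat_lit 203) (nat_lit 4) (nat_lit 297) (nat_lit 285) (nat_lit 282))))))) (XT.nd (nat_lit 1034) (nat_lit 4620) (nat_lit 0) (XT.nd (nat_lit 470) (nat_lit 2184) (nat_lit 0) (XT.nd (nat_lit 188) (nat_lit 1008) (nat_lit 0) (XT.nd (nat_lit 94) (nat_lit 84) (nat_lit 0) (XT.lf (nat_lit 0) (nat_lit 3154960263) (nat_lit 336) (nat_lit 2649061293) (nat_lit 420) (nat_lit 772394337) (nat_lit 198) (nat_lit 5) (nat_lit 202) (nat_lit 5) (nat_lit 203) (nat_lit 4) (nat_lit 298) (nat_lit 285) (nat_lit 281)) (XT.lf (nat_lit 0) (nat_lit 1713697529) (nat_lit 420) (nat_lit 283947359) (nat_lit 84) (nat_lit 4609786189)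 (nat_lit 197) (nat_lit 5) (nat_lit 202) (nat_lit 5) (nat_lit 198) (nat_lit 5) (nat_lit 299) (nat_lit 285) (nat_lit 280))) (XT.nd (nat_lit 94) (nat_lit 588) (nat_lit 0) (XT.lf (nat_lit 0) (nat_lit 2941224684) (nat_lit 420) (nat_lit 1258391491) (nat_lit 504) (nat_lit 2441976709) (nat_lit 192) (nat_lit 5) (nat_lit 197) (nat_lit 5) (nat_lit 198) (nat_lit 5) (nat_lit 300) (nat_lit 285) (nat_lit 279)) (XT.nd (nat_lit 94) (nat_lit 588) (nat_lit 0) (XT.lf (nat_lit 0) (nat_lit 6212055414) (nat_lit 420) (nat_lit 465250568) (nat_lit 504) (nat_lit 2668675) (nat_lit 192) (nat_lit 5) (nat_lit 197) (nat_lit 5) (nat_lit 198) (nat_lit 5) (nat_lit 301) (nat_lit 285) (nat_lit 278)) (XT.lf (nat_lit 0) (nat_lit 2407106143) (nat_lit 588) (nat_lit 3889228161) (nat_lit 84) (nat_lit 424616256) (nat_lit 185) (nat_lit 5) (nat_lit 192) (nat_lit 5) (nat_lit 186) (nat_lit 5) (nat_lit 302) (nat_lit 285) (nat_lit 277)))))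 (XT.nd (nat_lit 282) (nat_lit 1512) (nat_lit 0) (XT.nd (nat_lit 94) (nat_lit 672) (nat_lit 0) (XT.lf (nat_lit 0) (nat_lit 4816515416) (nat_lit 588) (nat_lit 587845049) (nat_lit 84) (nat_lit 1361632466) (nat_lit 185) (nat_lit 5) (nat_lit 192) (nat_lit 5) (nat_lit 186) (nat_lit 5) (nat_lit 303) (nat_lit 285) (nat_lit 276)) (XT.nd (nat_lit 94) (nat_lit 0) (nat_lit 0) (XT.lf (nat_lit 0) (nat_lit 423071225) (nat_lit 672) (nat_lit 4007966984) (nat_lit 84) (nat_lit 2383400604) (nat_lit 177) (nat_lit 5) (nat_lit 185) (nat_lit 5) (nat_lit 178) (nat_lit 5) (nat_lit 304) (nat_lit 285) (nat_lit 275)) (XT.lf (nat_lit 0) (nat_lit 2753322892) (nat_lit 672) (nat_lit 628832621) (nat_lit 84) (nat_lit 3484379161) (nat_lit 177) (nat_lit 5) (nat_lit 185) (nat_lit 5) (nat_lit 178) (nat_lit 5) (nat_lit 305) (nat_lit 285) (nat_lit 274)))) (XT.nd (nat_lit 94) (nat_lit 840) (nat_lit 0) (XT.lf (nat_lit 0) (nat_lit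 2851290090) (nat_lit 672) (nat_lit 2253709939) (nat_lit 756) (nat_lit 1817238095) (nat_lit 169) (nat_lit 5) (nat_lit 177) (nat_lit 5) (nat_lit 178) (nat_lit 5) (nat_lit 306) (nat_lit 285) (nat_lit 273)) (XT.nd (nat_lit 94) (nat_lit 756) (nat_lit 0) (XT.lf (nat_lit 0) (nat_lit 466954354) (nat_lit 756) (nat_lit 594958927) (nat_lit 84) (nat_lit 5920206884) (nat_lit 168) (nat_lit 5) (nat_lit 177) (nat_lit 5) (nat_lit 169) (nat_lit 5) (nat_lit 307) (nat_lit 285) (nat_lit 272)) (XT.lf (nat_lit 0) (nat_lit 2739816515) (nat_lit 840) (nat_lit 4078102411) (nat_lit 84) (nat_lit 227120509) (nat_lit 159) (nat_lit 5) (nat_lit 169) (nat_lit 5) (nat_lit 160) (nat_lit 5) (nat_lit 308) (nat_lit 285) (nat_lit 271)))))) (XT.nd (nat_lit 470) (nat_lit 2772) (nat_lit 0) (XT.nd (nat_lit 188) (nat_lit 924) (nat_lit 0) (XT.nd (nat_lit 94) (nat_lit 924) (nat_lit 0) (XT.lf (nat_lit 0) (nat_lit 5025960442) (nat_lit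 840) (nat_lit 531698698) (nat_lit 84) (nat_lit 1554391996) (nat_lit 159) (nat_lit 5) (nat_lit 169) (nat_lit 5) (nat_lit 160) (nat_lit 5) (nat_lit 309) (nat_lit 285) (nat_lit 270)) (XT.lf (nat_lit 0) (nat_lit 155936258) (nat_lit 924) (nat_lit 4057742690) (nat_lit 84) (nat_lit 2969043537) (nat_lit 148) (nat_lit 5) (nat_lit 159) (nat_lit 5) (nat_lit 149) (nat_lit 5) (nat_lit 310) (nat_lit 285) (nat_lit 269))) (XT.nd (nat_lit 94) (nat_lit 924) (nat_lit 0) (XT.lf (nat_lit 0) (nat_lit 2358168732) (nat_lit 924) (nat_lit 432739243) (nat_lit 84) (nat_lit 4466397269) (nat_lit 148) (nat_lit 5) (nat_lit 159) (nat_lit 5) (nat_lit 149) (nat_lit 5) (nat_lit 311) (nat_lit 285) (nat_lit 268)) (XT.nd (nat_lit 94) (nat_lit 0) (nat_lit 0) (XT.lf (nat_lit 0) (nat_lit 3310998271) (nat_lit 924) (nat_lit 1281098733) (nat_lit 1008) (nat_lit 2743563819) (nat_lit 137) (nat_lit 5) (nat_lit 148) (nat_lit 5) (nat_lit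 149) (nat_lit 5) (nat_lit 312) (nat_lit 285) (nat_lit 267)) (XT.lf (nat_lit 0) (nat_lit 6834730232) (nat_lit 1008) (nat_lit 301362525) (nat_lit 84) (nat_lit 282546767) (nat_lit 137) (nat_lit 5) (nat_lit 149) (nat_lit 5) (nat_lit 138) (nat_lit 5) (nat_lit 313) (nat_lit 285) (nat_lit 266))))) (XT.nd (nat_lit 282) (nat_lit 588) (nat_lit 0) (XT.nd (nat_lit 94) (nat_lit 1092) (nat_lit 0) (XT.lf (nat_lit 0) (nat_lit 1591484331) (nat_lit 1092) (nat_lit 3986047104) (nat_lit 84) (nat_lit 1927013845) (nat_lit 124) (nat_lit 5) (nat_lit 137) (nat_lit 5) (nat_lit 125) (nat_lit 5) (nat_lit 314) (nat_lit 285) (nat_lit 265)) (XT.nd (nat_lit 94) (nat_lit 1092) (nat_lit 0) (XT.lf (nat_lit 0) (nat_lit 3759995140) (nat_lit 1092) (nat_lit 197251554) (nat_lit 84) (nat_lit 3637899596) (nat_lit 124) (nat_lit 5) (nat_lit 137) (nat_lit 5) (nat_lit 125) (nat_lit 5) (nat_lit 315) (nat_lit 285) (nat_lit 264)) (XT.lf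 (nat_lit 0) (nat_lit 3724488746) (nat_lit 1092) (nat_lit 2244785296) (nat_lit 1176) (nat_lit 1720382705) (nat_lit 111) (nat_lit 5) (nat_lit 124) (nat_lit 5) (nat_lit 125) (nat_lit 5) (nat_lit 316) (nat_lit 285) (nat_lit 263)))) (XT.nd (nat_lit 94) (nat_lit 504) (nat_lit 0) (XT.lf (nat_lit 0) (nat_lit 389773495) (nat_lit 1176) (nat_lit 80136650) (nat_lit 84) (nat_lit 7319197505) (nat_lit 110) (nat_lit 5) (nat_lit 124) (nat_lit 5) (nat_lit 111) (nat_lit 5) (nat_lit 317) (nat_lit 285) (nat_lit 262)) (XT.nd (nat_lit 94) (nat_lit 0) (nat_lit 0) (XT.lf (nat_lit 0) (nat_lit 2521580498) (nat_lit 588) (nat_lit 3977937060) (nat_lit 84) (nat_lit 1392083494) (nat_lit 104) (nat_lit 5) (nat_lit 111) (nat_lit 5) (nat_lit 105) (nat_lit 5) (nat_lit 318) (nat_lit 285) (nat_lit 261)) (XT.lf (nat_lit 0) (nat_lit 4665312996) (nat_lit 588) (nat_lit 29300443) (nat_lit 84) (nat_lit 3304585711) (nat_lit 104) (nat_lit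 5) (nat_lit 111) (nat_lit 5) (nat_lit 105) (nat_lit 5) (nat_lit 319) (nat_lit 285) (nat_lit 260))))))))
noncomputable def xc38 : XT := (XT.nd (nat_lit 1974) (nat_lit 2184) (nat_lit 0) (XT.nd (nat_lit 940) (nat_lit 2100) (nat_lit 0) (XT.nd (nat_lit 470) (nat_lit 924) (nat_lit 0) (XT.nd (nat_lit 188) (nat_lit 1008) (nat_lit 0) (XT.nd (nat_lit 94) (nat_lit 84) (nat_lit 0) (XT.lf (nat_lit 0) (nat_lit 4065248735) (nat_lit 588) (nat_lit 2792567032) (nat_lit 672) (nat_lit 1253106223) (nat_lit 97) (nat_lit 5) (nat_lit 104) (nat_lit 5) (nat_lit 105) (nat_lit 5) (nat_lit 320) (nat_lit 285) (nat_lit 259)) (XT.lf (nat_lit 0) (nat_lit 816858741) (nat_lit 672) (nat_lit 6824068) (nat_lit 84) (nat_lit 7404155400) (nat_lit 96) (nat_lit 5) (nat_lit 104) (nat_lit 5) (nat_lit 97) (nat_lit 5) (nat_lit 321) (nat_lit 285) (nat_lit 258))) (XT.nd (nat_lit 94) (nat_lit 504) (nat_lit 0) (XT.lf (nat_lit 0) (nat_lit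 2922925552) (nat_lit 588) (nat_lit 4190148838) (nat_lit 84) (nat_lit 1235190151) (nat_lit 90) (nat_lit 5) (nat_lit 97) (nat_lit 5) (nat_lit 91) (nat_lit 5) (nat_lit 322) (nat_lit 285) (nat_lit 257)) (XT.nd (nat_lit 94) (nat_lit 504) (nat_lit 0) (XT.lf (nat_lit 0) (nat_lit 5047954421) (nat_lit 588) (nat_lit 87284920) (nat_lit 84) (nat_lit 3338834111) (nat_lit 90) (nat_lit 5) (nat_lit 97) (nat_lit 5) (nat_lit 91) (nat_lit 5) (nat_lit 323) (nat_lit 285) (nat_lit 256)) (XT.lf (nat_lit 0) (nat_lit 4169795138) (nat_lit 504) (nat_lit 3057255012) (nat_lit 588) (nat_lit 1377305210) (nat_lit 84) (nat_lit 5) (nat_lit 90) (nat_lit 5) (nat_lit 91) (nat_lit 5) (nat_lit 324) (nat_lit 285) (nat_lit 255))))) (XT.nd (nat_lit 188) (nat_lit 420) (nat_lit 0) (XT.nd (nat_lit 94) (nat_lit 420) (nat_lit 0) (XT.lf (nat_lit 0) (nat_lit 668268723) (nat_lit 588) (nat_lit 242942912) (nat_lit 84) (nat_lit 7829043193)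 (nat_lit 83) (nat_lit 5) (nat_lit 90) (nat_lit 5) (nat_lit 84) (nat_lit 5) (nat_lit 325) (nat_lit 285) (nat_lit 254)) (XT.lf (nat_lit 0) (nat_lit 2751376208) (nat_lit 504) (nat_lit 4802875411) (nat_lit 84) (nat_lit 1325782966) (nat_lit 78) (nat_lit 5) (nat_lit 84) (nat_lit 5) (nat_lit 79) (nat_lit 5) (nat_lit 326) (nat_lit 285) (nat_lit 253))) (XT.nd (nat_lit 94) (nat_lit 420) (nat_lit 0) (XT.lf (nat_lit 0) (nat_lit 4860608025) (nat_lit 504) (nat_lit 554159184) (nat_lit 84) (nat_lit 3610755382) (nat_lit 78) (nat_lit 5) (nat_lit 84) (nat_lit 5) (nat_lit 79) (nat_lit 5) (nat_lit 327) (nat_lit 285) (nat_lit 252)) (XT.nd (nat_lit 94) (nat_lit 0) (nat_lit 0) (XT.lf (nat_lit 0) (nat_lit 3848441541) (nat_lit 420) (nat_lit 3176141607) (nat_lit 504) (nat_lit 2151445069) (nat_lit 73) (nat_lit 5) (nat_lit 78) (nat_lit 5) (nat_lit 79) (nat_lit 5) (nat_lit 328) (nat_lit 285) (nat_lit 251)) (XT.lf (nat_lit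 0) (nat_lit 8344468054) (nat_lit 420) (nat_lit 869062097) (nat_lit 504) (nat_lit 119147039) (nat_lit 73) (nat_lit 5) (nat_lit 78) (nat_lit 5) (nat_lit 79) (nat_lit 5) (nat_lit 329) (nat_lit 285) (nat_lit 250)))))) (XT.nd (nat_lit 470) (nat_lit 756) (nat_lit 0) (XT.nd (nat_lit 188) (nat_lit 840) (nat_lit 0) (XT.nd (nat_lit 94) (nat_lit 0) (nat_lit 0) (XT.lf (nat_lit 0) (nat_lit 1939241490) (nat_lit 504) (nat_lit 6027629217) (nat_lit 84) (nat_lit 1526775847) (nat_lit 67) (nat_lit 5) (nat_lit 73) (nat_lit 5) (nat_lit 68) (nat_lit 5) (nat_lit 330) (nat_lit 285) (nat_lit 249)) (XT.lf (nat_lit 0) (nat_lit 4031987932) (nat_lit 504) (nat_lit 1645475175) (nat_lit 84) (nat_lit 3983098525) (nat_lit 67) (nat_lit 5) (nat_lit 73) (nat_lit 5) (nat_lit 68) (nat_lit 5) (nat_lit 331) (nat_lit 285) (nat_lit 248))) (XT.nd (nat_lit 94) (nat_lit 420) (nat_lit 0) (XT.lf (nat_lit 0) (nat_lit 2876899260) (nat_lit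 420) (nat_lit 3296355170) (nat_lit 504) (nat_lit 3660056080) (nat_lit 62) (nat_lit 5) (nat_lit 67) (nat_lit 5) (nat_lit 68) (nat_lit 5) (nat_lit 332) (nat_lit 285) (nat_lit 247)) (XT.nd (nat_lit 94) (nat_lit 420) (nat_lit 0) (XT.lf (nat_lit 0) (nat_lit 7521303569) (nat_lit 420) (nat_lit 832701371) (nat_lit 504) (nat_lit 1658391257) (nat_lit 62) (nat_lit 5) (nat_lit 67) (nat_lit 5) (nat_lit 68) (nat_lit 5) (nat_lit 333) (nat_lit 285) (nat_lit 246)) (XT.lf (nat_lit 0) (nat_lit 391752271) (nat_lit 420) (nat_lit 8116418951) (nat_lit 84) (nat_lit 1689044357) (nat_lit 57) (nat_lit 5) (nat_lit 62) (nat_lit 5) (nat_lit 58) (nat_lit 5) (nat_lit 334) (nat_lit 285) (nat_lit 245))))) (XT.nd (nat_lit 282) (nat_lit 420) (nat_lit 0) (XT.nd (nat_lit 94) (nat_lit 336) (nat_lit 0) (XT.lf (nat_lit 0) (nat_lit 2463156645) (nat_lit 420) (nat_lit 3618788575) (nat_lit 84) (nat_lit 4305671430) (nat_lit 57) (nat_lit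 5) (nat_lit 62) (nat_lit 5) (nat_lit 58) (nat_lit 5) (nat_lit 335) (nat_lit 285) (nat_lit 244)) (XT.nd (nat_lit 94) (nat_lit 0) (nat_lit 0) (XT.lf (nat_lit 0) (nat_lit 986435126) (nat_lit 336) (nat_lit 3580777433) (nat_lit 420) (nat_lit 6017816864) (nat_lit 53) (nat_lit 5) (nat_lit 57) (nat_lit 5) (nat_lit 58) (nat_lit 5) (nat_lit 336) (nat_lit 285) (nat_lit 243)) (XT.lf (nat_lit 0) (nat_lit 5759952989) (nat_lit 336) (nat_lit 973701876) (nat_lit 420) (nat_lit 4055122059) (nat_lit 53) (nat_lit 5) (nat_lit 57) (nat_lit 5) (nat_lit 58) (nat_lit 5) (nat_lit 337) (nat_lit 285) (nat_lit 242)))) (XT.nd (nat_lit 94) (nat_lit 420) (nat_lit 0) (XT.lf (nat_lit 0) (nat_lit 8944769212) (nat_lit 420) (nat_lit 385283381) (nat_lit 84) (nat_lit 1669608218) (nat_lit 53) (nat_lit 5) (nat_lit 58) (nat_lit 5) (nat_lit 54) (nat_lit 5) (nat_lit 338) (nat_lit 285) (nat_lit 241)) (XT.nd (nat_lit 94) (nat_lit 0)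 (nat_lit 0) (XT.lf (nat_lit 0) (nat_lit 22862112) (nat_lit 420) (nat_lit 6784759296) (nat_lit 84) (nat_lit 4409088647) (nat_lit 48) (nat_lit 5) (nat_lit 53) (nat_lit 5) (nat_lit 49) (nat_lit 5) (nat_lit 339) (nat_lit 285) (nat_lit 240)) (XT.lf (nat_lit 0) (nat_lit 2088267400) (nat_lit 420) (nat_lit 2104488415) (nat_lit 84) (nat_lit 7248249105) (nat_lit 48) (nat_lit 5) (nat_lit 53) (nat_lit 5) (nat_lit 49) (nat_lit 5) (nat_lit 340) (nat_lit 285) (nat_lit 239))))))) (XT.nd (nat_lit 1034) (nat_lit 756) (nat_lit 0) (XT.nd (nat_lit 470) (nat_lit 756) (nat_lit 0) (XT.nd (nat_lit 188) (nat_lit 336) (nat_lit 0) (XT.nd (nat_lit 94) (nat_lit 0) (nat_lit 0) (XT.lf (nat_lit 0) (nat_lit 2727566883) (nat_lit 336) (nat_lit 1480201300) (nat_lit 420) (nat_lit 7464901582) (nat_lit 44) (nat_lit 5) (nat_lit 48) (nat_lit 5) (nat_lit 49) (nat_lit 5) (nat_lit 341) (nat_lit 285) (nat_lit 238)) (XT.lf (nat_lit 0)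 (nat_lit 6391759157) (nat_lit 420) (nat_lit 4218978349) (nat_lit 84) (nat_lit 1300922028) (nat_lit 44) (nat_lit 5) (nat_lit 49) (nat_lit 5) (nat_lit 45) (nat_lit 5) (nat_lit 342) (nat_lit 285) (nat_lit 237))) (XT.nd (nat_lit 94) (nat_lit 84) (nat_lit 0) (XT.lf (nat_lit 0) (nat_lit 603252147) (nat_lit 252) (nat_lit 8025956622) (nat_lit 336) (nat_lit 3529393307) (nat_lit 41) (nat_lit 5) (nat_lit 44) (nat_lit 5) (nat_lit 45) (nat_lit 5) (nat_lit 343) (nat_lit 285) (nat_lit 236)) (XT.nd (nat_lit 94) (nat_lit 84) (nat_lit 0) (XT.lf (nat_lit 0) (nat_lit 5617472885) (nat_lit 252) (nat_lit 5327813333) (nat_lit 336) (nat_lit 1467725755) (nat_lit 41) (nat_lit 5) (nat_lit 44) (nat_lit 5) (nat_lit 45) (nat_lit 5) (nat_lit 344) (nat_lit 285) (nat_lit 235)) (XT.lf (nat_lit 0) (nat_lit 610434697) (nat_lit 336) (nat_lit 1941023787) (nat_lit 84) (nat_lit 10124800409) (nat_lit 40) (nat_lit 5) (nat_lit 44)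 (nat_lit 5) (nat_lit 41) (nat_lit 5) (nat_lit 345) (nat_lit 285) (nat_lit 234))))) (XT.nd (nat_lit 282) (nat_lit 504) (nat_lit 0) (XT.nd (nat_lit 94) (nat_lit 0) (nat_lit 0) (XT.lf (nat_lit 0) (nat_lit 2723238339) (nat_lit 336) (nat_lit 9885000175) (nat_lit 84) (nat_lit 339031353) (nat_lit 37) (nat_lit 5) (nat_lit 41) (nat_lit 5) (nat_lit 38) (nat_lit 5) (nat_lit 346) (nat_lit 285) (nat_lit 233)) (XT.nd (nat_lit 94) (nat_lit 0) (nat_lit 0) (XT.lf (nat_lit 0) (nat_lit 4915401750) (nat_lit 336) (nat_lit 5035998776) (nat_lit 84) (nat_lit 3274939889) (nat_lit 37) (nat_lit 5) (nat_lit 41) (nat_lit 5) (nat_lit 38) (nat_lit 5) (nat_lit 347) (nat_lit 285) (nat_lit 232)) (XT.lf (nat_lit 0) (nat_lit 7143805366) (nat_lit 336) (nat_lit 80767554) (nat_lit 84) (nat_lit 6290557791) (nat_lit 37) (nat_lit 5) (nat_lit 41) (nat_lit 5) (nat_lit 38) (nat_lit 5) (nat_lit 348) (nat_lit 285) (nat_lit 231)))) (XT.nd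 (nat_lit 94) (nat_lit 252) (nat_lit 0) (XT.lf (nat_lit 0) (nat_lit 5087820531) (nat_lit 252) (nat_lit 4373177569) (nat_lit 336) (nat_lit 4351347209) (nat_lit 34) (nat_lit 5) (nat_lit 37) (nat_lit 5) (nat_lit 38) (nat_lit 5) (nat_lit 349) (nat_lit 285) (nat_lit 230)) (XT.nd (nat_lit 94) (nat_lit 252) (nat_lit 0) (XT.lf (nat_lit 0) (nat_lit 10376016471) (nat_lit 252) (nat_lit 1444592245) (nat_lit 336) (nat_lit 2299156996) (nat_lit 34) (nat_lit 5) (nat_lit 37) (nat_lit 5) (nat_lit 38) (nat_lit 5) (nat_lit 350) (nat_lit 285) (nat_lit 229)) (XT.lf (nat_lit 0) (nat_lit 1361306297) (nat_lit 252) (nat_lit 12891722791) (nat_lit 336) (nat_lit 183775410) (nat_lit 31) (nat_lit 5) (nat_lit 34) (nat_lit 5) (nat_lit 35) (nat_lit 5) (nat_lit 351) (nat_lit 285) (nat_lit 228)))))) (XT.nd (nat_lit 470) (nat_lit 504) (nat_lit 0) (XT.nd (nat_lit 188) (nat_lit 168) (nat_lit 0) (XT.nd (nat_lit 94) (nat_lit 0)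 (nat_lit 0) (XT.lf (nat_lit 0) (nat_lit 1981834921) (nat_lit 336) (nat_lit 8135644573) (nat_lit 84) (nat_lit 4644879456) (nat_lit 30) (nat_lit 5) (nat_lit 34) (nat_lit 5) (nat_lit 31) (nat_lit 5) (nat_lit 352) (nat_lit 285) (nat_lit 227)) (XT.lf (nat_lit 0) (nat_lit 4182283733) (nat_lit 336) (nat_lit 3085448556) (nat_lit 84) (nat_lit 7831168905) (nat_lit 30) (nat_lit 5) (nat_lit 34) (nat_lit 5) (nat_lit 31) (nat_lit 5) (nat_lit 353) (nat_lit 285) (nat_lit 226))) (XT.nd (nat_lit 94) (nat_lit 0) (nat_lit 0) (XT.lf (nat_lit 0) (nat_lit 2124422618) (nat_lit 168) (nat_lit 4319976658) (nat_lit 252) (nat_lit 9001748851) (nat_lit 28) (nat_lit 5) (nat_lit 30) (nat_lit 5) (nat_lit 31) (nat_lit 5) (nat_lit 354) (nat_lit 285) (nat_lit 225)) (XT.nd (nat_lit 94) (nat_lit 0) (nat_lit 0) (XT.lf (nat_lit 0) (nat_lit 7521928145) (nat_lit 168) (nat_lit 1259737143) (nat_lit 252) (nat_lit 7022405501) (nat_lit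 28) (nat_lit 5) (nat_lit 30) (nat_lit 5) (nat_lit 31) (nat_lit 5) (nat_lit 355) (nat_lit 285) (nat_lit 224)) (XT.lf (nat_lit 0) (nat_lit 11183708822) (nat_lit 252) (nat_lit 3144001120) (nat_lit 84) (nat_lit 1845681957) (nat_lit 28) (nat_lit 5) (nat_lit 31) (nat_lit 5) (nat_lit 29) (nat_lit 5) (nat_lit 356) (nat_lit 285) (nat_lit 223))))) (XT.nd (nat_lit 282) (nat_lit 168) (nat_lit 0) (XT.nd (nat_lit 94) (nat_lit 84) (nat_lit 0) (XT.lf (nat_lit 0) (nat_lit 2146079887) (nat_lit 252) (nat_lit 11522625513) (nat_lit 336) (nat_lit 2885256267) (nat_lit 25) (nat_lit 5) (nat_lit 28) (nat_lit 5) (nat_lit 29) (nat_lit 5) (nat_lit 357) (nat_lit 285) (nat_lit 222)) (XT.nd (nat_lit 94) (nat_lit 84) (nat_lit 0) (XT.lf (nat_lit 0) (nat_lit 7629488749) (nat_lit 252) (nat_lit 8608783300) (nat_lit 336) (nat_lit 707884454) (nat_lit 25) (nat_lit 5) (nat_lit 28) (nat_lit 5) (nat_lit 29) (nat_lit 5) (nat_lit 358)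 (nat_lit 285) (nat_lit 221)) (XT.lf (nat_lit 0) (nat_lit 1481188697) (nat_lit 336) (nat_lit 4119634952) (nat_lit 84) (nat_lit 11750040193) (nat_lit 24) (nat_lit 5) (nat_lit 28) (nat_lit 5) (nat_lit 25) (nat_lit 5) (nat_lit 359) (nat_lit 285) (nat_lit 220)))) (XT.nd (nat_lit 94) (nat_lit 0) (nat_lit 0) (XT.lf (nat_lit 0) (nat_lit 1220193640) (nat_lit 168) (nat_lit 2491245774) (nat_lit 252) (nat_lit 14056880270) (nat_lit 22) (nat_lit 5) (nat_lit 24) (nat_lit 5) (nat_lit 25) (nat_lit 5) (nat_lit 360) (nat_lit 285) (nat_lit 219)) (XT.nd (nat_lit 94) (nat_lit 0) (nat_lit 0) (XT.lf (nat_lit 0) (nat_lit 6037533768) (nat_lit 252) (nat_lit 11427992101) (nat_lit 84) (nat_lit 732416887) (nat_lit 22) (nat_lit 5) (nat_lit 25) (nat_lit 5) (nat_lit 23) (nat_lit 5) (nat_lit 361) (nat_lit 285) (nat_lit 218)) (XT.lf (nat_lit 0) (nat_lit 8438108321) (nat_lit 252) (nat_lit 6209501545) (nat_lit 84) (nat_lit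 3993253130) (nat_lit 22) (nat_lit 5) (nat_lit 25) (nat_lit 5) (nat_lit 23) (nat_lit 5) (nat_lit 362) (nat_lit 285) (nat_lit 217))))))))
noncomputable def xc39 : XT := (XT.nd (nat_lit 48410) (nat_lit 0) (nat_lit 6300) (XT.nd (nat_lit 940) (nat_lit 0) (nat_lit 0) (XT.nd (nat_lit 470) (nat_lit 168) (nat_lit 0) (XT.nd (nat_lit 188) (nat_lit 252) (nat_lit 0) (XT.nd (nat_lit 94) (nat_lit 168) (nat_lit 0) (XT.lf (nat_lit 0) (nat_lit 10890687191) (nat_lit 252) (nat_lit 863076729) (nat_lit 84) (nat_lit 7344495445) (nat_lit 22) (nat_lit 5) (nat_lit 25) (nat_lit 5) (nat_lit 23) (nat_lit 5) (nat_lit 363) (nat_lit 285) (nat_lit 216)) (XT.lf (nat_lit 0) (nat_lit 4711185664) (nat_lit 168) (nat_lit 8733106321) (nat_lit 252) (nat_lit 6124817422) (nat_lit 20) (nat_lit 5) (nat_lit 22) (nat_lit 5) (nat_lit 23) (nat_lit 5) (nat_lit 364) (nat_lit 285) (nat_lit 215))) (XT.nd (nat_lit 94) (nat_lit 252) (nat_lit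 0) (XT.lf (nat_lit 0) (nat_lit 10444057772) (nat_lit 168) (nat_lit 5620601306) (nat_lit 252) (nat_lit 3990328882) (nat_lit 20) (nat_lit 5) (nat_lit 22) (nat_lit 5) (nat_lit 23) (nat_lit 5) (nat_lit 365) (nat_lit 285) (nat_lit 214)) (XT.nd (nat_lit 94) (nat_lit 252) (nat_lit 0) (XT.lf (nat_lit 0) (nat_lit 16323136603) (nat_lit 168) (nat_lit 2422356448) (nat_lit 252) (nat_lit 1811125737) (nat_lit 20) (nat_lit 5) (nat_lit 22) (nat_lit 5) (nat_lit 23) (nat_lit 5) (nat_lit 366) (nat_lit 285) (nat_lit 213)) (XT.lf (nat_lit 0) (nat_lit 428128109) (nat_lit 252) (nat_lit 19781152164) (nat_lit 84) (nat_lit 864390084) (nat_lit 17) (nat_lit 5) (nat_lit 20) (nat_lit 5) (nat_lit 18) (nat_lit 5) (nat_lit 367) (nat_lit 285) (nat_lit 212))))) (XT.nd (nat_lit 188) (nat_lit 168) (nat_lit 0) (XT.nd (nat_lit 94) (nat_lit 0) (nat_lit 0) (XT.lf (nat_lit 0) (nat_lit 2748406066) (nat_lit 252) (nat_lit 14600831886)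 (nat_lit 84) (nat_lit 4255454540) (nat_lit 17) (nat_lit 5) (nat_lit 20) (nat_lit 5) (nat_lit 18) (nat_lit 5) (nat_lit 368) (nat_lit 285) (nat_lit 211)) (XT.lf (nat_lit 0) (nat_lit 5121032383) (nat_lit 252) (nat_lit 9290254258) (nat_lit 84) (nat_lit 7741537675) (nat_lit 17) (nat_lit 5) (nat_lit 20) (nat_lit 5) (nat_lit 18) (nat_lit 5) (nat_lit 369) (nat_lit 285) (nat_lit 210))) (XT.nd (nat_lit 94) (nat_lit 168) (nat_lit 0) (XT.lf (nat_lit 0) (nat_lit 7548218596) (nat_lit 252) (nat_lit 3844469265) (nat_lit 84) (nat_lit 11325888882) (nat_lit 17) (nat_lit 5) (nat_lit 20) (nat_lit 5) (nat_lit 18) (nat_lit 5) (nat_lit 370) (nat_lit 285) (nat_lit 209)) (XT.nd (nat_lit 94) (nat_lit 0) (nat_lit 0) (XT.lf (nat_lit 0) (nat_lit 1777409985) (nat_lit 168) (nat_lit 8272449240) (nat_lit 252) (nat_lit 13252071295) (nat_lit 15) (nat_lit 5) (nat_lit 17) (nat_lit 5) (nat_lit 18) (nat_lit 5) (nat_lit 371) (nat_lit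 285) (nat_lit 208)) (XT.lf (nat_lit 0) (nat_lit 7626821193) (nat_lit 168) (nat_lit 5024211060) (nat_lit 252) (nat_lit 11251692007) (nat_lit 15) (nat_lit 5) (nat_lit 17) (nat_lit 5) (nat_lit 18) (nat_lit 5) (nat_lit 372) (nat_lit 285) (nat_lit 207)))))) (XT.nd (nat_lit 46906) (nat_lit 0) (nat_lit 14868) (XT.nd (nat_lit 46624) (nat_lit 0) (nat_lit 16044) (XT.nd (nat_lit 94) (nat_lit 0) (nat_lit 0) (XT.lf (nat_lit 0) (nat_lit 13630166450) (nat_lit 168) (nat_lit 1685073999) (nat_lit 252) (nat_lit 9207484093) (nat_lit 15) (nat_lit 5) (nat_lit 17) (nat_lit 5) (nat_lit 18) (nat_lit 5) (nat_lit 373) (nat_lit 285) (nat_lit 206)) (XT.lf (nat_lit 0) (nat_lit 18062308249) (nat_lit 252) (nat_lit 5386808884) (nat_lit 84) (nat_lit 1712854565) (nat_lit 15) (nat_lit 5) (nat_lit 18) (nat_lit 5) (nat_lit 16) (nat_lit 4) (nat_lit 374) (nat_lit 285) (nat_lit 205))) (XT.nd (nat_lit 94) (nat_lit 252) (nat_lit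 0) (XT.lf (nat_lit 0) (nat_lit 2272499179) (nat_lit 84) (nat_lit 479298234) (nat_lit 84) (nat_lit 479298234) (nat_lit 209) (nat_lit 4) (nat_lit 210) (nat_lit 5) (nat_lit 210) (nat_lit 4) (nat_lit 292) (nat_lit 286) (nat_lit 286)) (XT.nd (nat_lit 94) (nat_lit 0) (nat_lit 0) (XT.lf (nat_lit 0) (nat_lit 955599632) (nat_lit 168) (nat_lit 696708945) (nat_lit 252) (nat_lit 4821777873) (nat_lit 206) (nat_lit 5) (nat_lit 208) (nat_lit 5) (nat_lit 209) (nat_lit 4) (nat_lit 293) (nat_lit 286) (nat_lit 285)) (XT.lf (nat_lit 0) (nat_lit 3889495406) (nat_lit 168) (nat_lit 353637754) (nat_lit 252) (nat_lit 2246087446) (nat_lit 206) (nat_lit 5) (nat_lit 208) (nat_lit 5) (nat_lit 209) (nat_lit 4) (nat_lit 294) (nat_lit 286) (nat_lit 284))))) (XT.nd (nat_lit 282) (nat_lit 840) (nat_lit 0) (XT.nd (nat_lit 94) (nat_lit 0) (nat_lit 0) (XT.lf (nat_lit 0) (nat_lit 305567993) (nat_lit 336) (nat_lit 6155702619)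 (nat_lit 84) (nat_lit 47012780) (nat_lit 202) (nat_lit 5) (nat_lit 206) (nat_lit 5) (nat_lit 203) (nat_lit 4) (nat_lit 295) (nat_lit 286) (nat_lit 283)) (XT.nd (nat_lit 94) (nat_lit 0) (nat_lit 0) (XT.lf (nat_lit 0) (nat_lit 2823878870) (nat_lit 336) (nat_lit 3165332766) (nat_lit 84) (nat_lit 540654957) (nat_lit 202) (nat_lit 5) (nat_lit 206) (nat_lit 5) (nat_lit 203) (nat_lit 4) (nat_lit 296) (nat_lit 286) (nat_lit 282)) (XT.lf (nat_lit 0) (nat_lit 5326348966) (nat_lit 336) (nat_lit 143261720) (nat_lit 84) (nat_lit 1086003375) (nat_lit 202) (nat_lit 5) (nat_lit 206) (nat_lit 5) (nat_lit 203) (nat_lit 4) (nat_lit 297) (nat_lit 286) (nat_lit 281)))) (XT.nd (nat_lit 94) (nat_lit 420) (nat_lit 0) (XT.lf (nat_lit 0) (nat_lit 1234780588) (nat_lit 420) (nat_lit 3623905113) (nat_lit 84) (nat_lit 1725562225) (nat_lit 197) (nat_lit 5) (nat_lit 202) (nat_lit 5) (nat_lit 198) (nat_lit 5) (nat_lit 298)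 (nat_lit 286) (nat_lit 280)) (XT.nd (nat_lit 94) (nat_lit 420) (nat_lit 0) (XT.lf (nat_lit 0) (nat_lit 3660812678) (nat_lit 420) (nat_lit 524073038) (nat_lit 84) (nat_lit 2431781687) (nat_lit 197) (nat_lit 5) (nat_lit 202) (nat_lit 5) (nat_lit 198) (nat_lit 5) (nat_lit 299) (nat_lit 286) (nat_lit 279)) (XT.lf (nat_lit 0) (nat_lit 2666451444) (nat_lit 420) (nat_lit 3434394296) (nat_lit 504) (nat_lit 551660423) (nat_lit 192) (nat_lit 5) (nat_lit 197) (nat_lit 5) (nat_lit 198) (nat_lit 5) (nat_lit 300) (nat_lit 286) (nat_lit 278))))))) (XT.nd (nat_lit 1034) (nat_lit 4872) (nat_lit 0) (XT.nd (nat_lit 470) (nat_lit 2436) (nat_lit 0) (XT.nd (nat_lit 188) (nat_lit 672) (nat_lit 0) (XT.nd (nat_lit 94) (nat_lit 504) (nat_lit 0) (XT.lf (nat_lit 0) (nat_lit 1806794827) (nat_lit 504) (nat_lit 802268138) (nat_lit 84) (nat_lit 4082811350) (nat_lit 191) (nat_lit 5) (nat_lit 197) (nat_lit 5) (nat_lit 192)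 (nat_lit 5) (nat_lit 301) (nat_lit 286) (nat_lit 277)) (XT.lf (nat_lit 0) (nat_lit 2465270117) (nat_lit 504) (nat_lit 1701734327) (nat_lit 588) (nat_lit 2567612034) (nat_lit 185) (nat_lit 5) (nat_lit 191) (nat_lit 5) (nat_lit 192) (nat_lit 5) (nat_lit 302) (nat_lit 286) (nat_lit 276))) (XT.nd (nat_lit 94) (nat_lit 672) (nat_lit 0) (XT.lf (nat_lit 0) (nat_lit 5792733552) (nat_lit 504) (nat_lit 733624052) (nat_lit 588) (nat_lit 255078230) (nat_lit 185) (nat_lit 5) (nat_lit 191) (nat_lit 5) (nat_lit 192) (nat_lit 5) (nat_lit 303) (nat_lit 286) (nat_lit 275)) (XT.nd (nat_lit 94) (nat_lit 0) (nat_lit 0) (XT.lf (nat_lit 0) (nat_lit 2031802283) (nat_lit 672) (nat_lit 4473198009) (nat_lit 84) (nat_lit 326169685) (nat_lit 177) (nat_lit 5) (nat_lit 185) (nat_lit 5) (nat_lit 178) (nat_lit 5) (nat_lit 304) (nat_lit 286) (nat_lit 274)) (XT.lf (nat_lit 0) (nat_lit 4323108858) (nat_lit 672) (nat_lit 1124202473)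 (nat_lit 84) (nat_lit 1437367337) (nat_lit 177) (nat_lit 5) (nat_lit 185) (nat_lit 5) (nat_lit 178) (nat_lit 5) (nat_lit 305) (nat_lit 286) (nat_lit 273))))) (XT.nd (nat_lit 282) (nat_lit 924) (nat_lit 0) (XT.nd (nat_lit 94) (nat_lit 840) (nat_lit 0) (XT.lf (nat_lit 0) (nat_lit 2315900719) (nat_lit 672) (nat_lit 4315800053) (nat_lit 756) (nat_lit 310216340) (nat_lit 169) (nat_lit 5) (nat_lit 177) (nat_lit 5) (nat_lit 178) (nat_lit 5) (nat_lit 306) (nat_lit 286) (nat_lit 272)) (XT.nd (nat_lit 94) (nat_lit 756) (nat_lit 0) (XT.lf (nat_lit 0) (nat_lit 1906120494) (nat_lit 756) (nat_lit 1194872257) (nat_lit 84) (nat_lit 3901692768) (nat_lit 168) (nat_lit 5) (nat_lit 177) (nat_lit 5) (nat_lit 169) (nat_lit 5) (nat_lit 307) (nat_lit 286) (nat_lit 271)) (XT.lf (nat_lit 0) (nat_lit 2327466451) (nat_lit 756) (nat_lit 1806484503) (nat_lit 840) (nat_lit 2933231722) (nat_lit 159) (nat_lit 5) (nat_lit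 168) (nat_lit 5) (nat_lit 169) (nat_lit 5) (nat_lit 308) (nat_lit 286) (nat_lit 270)))) (XT.nd (nat_lit 94) (nat_lit 924) (nat_lit 0) (XT.lf (nat_lit 0) (nat_lit 5926033173) (nat_lit 756) (nat_lit 445067802) (nat_lit 840) (nat_lit 764788648) (nat_lit 159) (nat_lit 5) (nat_lit 168) (nat_lit 5) (nat_lit 169) (nat_lit 5) (nat_lit 309) (nat_lit 286) (nat_lit 269)) (XT.nd (nat_lit 94) (nat_lit 0) (nat_lit 0) (XT.lf (nat_lit 0) (nat_lit 1404026680) (nat_lit 924) (nat_lit 4813153930) (nat_lit 84) (nat_lit 990584317) (nat_lit 148) (nat_lit 5) (nat_lit 159) (nat_lit 5) (nat_lit 149) (nat_lit 5) (nat_lit 310) (nat_lit 286) (nat_lit 268)) (XT.lf (nat_lit 0) (nat_lit 3572079478) (nat_lit 924) (nat_lit 1217865045) (nat_lit 84) (nat_lit 2493623727) (nat_lit 148) (nat_lit 5) (nat_lit 159) (nat_lit 5) (nat_lit 149) (nat_lit 5) (nat_lit 311) (nat_lit 286) (nat_lit 267)))))) (XT.nd (nat_lit 470) (nat_lit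 1764) (nat_lit 0) (XT.nd (nat_lit 188) (nat_lit 2100) (nat_lit 0) (XT.nd (nat_lit 94) (nat_lit 84) (nat_lit 0) (XT.lf (nat_lit 0) (nat_lit 2480314942) (nat_lit 924) (nat_lit 3284300360) (nat_lit 1008) (nat_lit 1598747845) (nat_lit 137) (nat_lit 5) (nat_lit 148) (nat_lit 5) (nat_lit 149) (nat_lit 5) (nat_lit 312) (nat_lit 286) (nat_lit 266)) (XT.lf (nat_lit 0) (nat_lit 513797529) (nat_lit 1008) (nat_lit 1191775747) (nat_lit 84) (nat_lit 5741853037) (nat_lit 136) (nat_lit 5) (nat_lit 148) (nat_lit 5) (nat_lit 137) (nat_lit 5) (nat_lit 313) (nat_lit 286) (nat_lit 265))) (XT.nd (nat_lit 94) (nat_lit 1092) (nat_lit 0) (XT.lf (nat_lit 0) (nat_lit 2591973620) (nat_lit 1008) (nat_lit 27514237) (nat_lit 1092) (nat_lit 4915603237) (nat_lit 124) (nat_lit 5) (nat_lit 136) (nat_lit 5) (nat_lit 137) (nat_lit 5) (nat_lit 314) (nat_lit 286) (nat_lit 264)) (XT.nd (nat_lit 94) (nat_lit 1092) (nat_lit 0) (XT.lf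 (nat_lit 0) (nat_lit 4756508031) (nat_lit 1092) (nat_lit 1183368555) (nat_lit 84) (nat_lit 1686929929) (nat_lit 124) (nat_lit 5) (nat_lit 137) (nat_lit 5) (nat_lit 125) (nat_lit 5) (nat_lit 315) (nat_lit 286) (nat_lit 263)) (XT.lf (nat_lit 0) (nat_lit 2689072414) (nat_lit 1092) (nat_lit 4236164020) (nat_lit 1176) (nat_lit 797471651) (nat_lit 111) (nat_lit 5) (nat_lit 124) (nat_lit 5) (nat_lit 125) (nat_lit 5) (nat_lit 316) (nat_lit 286) (nat_lit 262))))) (XT.nd (nat_lit 282) (nat_lit 1176) (nat_lit 0) (XT.nd (nat_lit 94) (nat_lit 504) (nat_lit 0) (XT.lf (nat_lit 0) (nat_lit 1264011457) (nat_lit 1176) (nat_lit 1186654385) (nat_lit 84) (nat_lit 5372267871) (nat_lit 110) (nat_lit 5) (nat_lit 124) (nat_lit 5) (nat_lit 111) (nat_lit 5) (nat_lit 317) (nat_lit 286) (nat_lit 261)) (XT.nd (nat_lit 94) (nat_lit 0) (nat_lit 0) (XT.lf (nat_lit 0) (nat_lit 2770322341) (nat_lit 504) (nat_lit 570742193)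 (nat_lit 588) (nat_lit 4586182268) (nat_lit 104) (nat_lit 5) (nat_lit 110) (nat_lit 5) (nat_lit 111) (nat_lit 5) (nat_lit 318) (nat_lit 286) (nat_lit 260)) (XT.lf (nat_lit 0) (nat_lit 5450571337) (nat_lit 588) (nat_lit 1231380750) (nat_lit 84) (nat_lit 1354072446) (nat_lit 104) (nat_lit 5) (nat_lit 111) (nat_lit 5) (nat_lit 105) (nat_lit 5) (nat_lit 319) (nat_lit 286) (nat_lit 259)))) (XT.nd (nat_lit 94) (nat_lit 588) (nat_lit 0) (XT.lf (nat_lit 0) (nat_lit 2809987567) (nat_lit 588) (nat_lit 4792929187) (nat_lit 672) (nat_lit 546190568) (nat_lit 97) (nat_lit 5) (nat_lit 104) (nat_lit 5) (nat_lit 105) (nat_lit 5) (nat_lit 320) (nat_lit 286) (nat_lit 258)) (XT.nd (nat_lit 94) (nat_lit 504) (nat_lit 0) (XT.lf (nat_lit 0) (nat_lit 1481998772) (nat_lit 672) (nat_lit 1335565428) (nat_lit 84) (nat_lit 5449203722) (nat_lit 96) (nat_lit 5) (nat_lit 104) (nat_lit 5) (nat_lit 97) (nat_lit 5) (nat_lit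 321) (nat_lit 286) (nat_lit 257)) (XT.lf (nat_lit 0) (nat_lit 2786949711) (nat_lit 504) (nat_lit 748175652) (nat_lit 588) (nat_lit 4853815038) (nat_lit 90) (nat_lit 5) (nat_lit 96) (nat_lit 5) (nat_lit 97) (nat_lit 5) (nat_lit 322) (nat_lit 286) (nat_lit 256))))))))
noncomputable def xc40 : XT := (XT.nd (nat_lit 1974) (nat_lit 2016) (nat_lit 0) (XT.nd (nat_lit 940) (nat_lit 1512) (nat_lit 0) (XT.nd (nat_lit 470) (nat_lit 1344) (nat_lit 0) (XT.nd (nat_lit 188) (nat_lit 504) (nat_lit 0) (XT.nd (nat_lit 94) (nat_lit 504) (nat_lit 0) (XT.lf (nat_lit 0) (nat_lit 5626551086) (nat_lit 588) (nat_lit 1519762247) (nat_lit 84) (nat_lit 1369579519) (nat_lit 90) (nat_lit 5) (nat_lit 97) (nat_lit 5) (nat_lit 91) (nat_lit 5) (nat_lit 323) (nat_lit 286) (nat_lit 255)) (XT.lf (nat_lit 0) (nat_lit 2680089726) (nat_lit 504) (nat_lit 5085385088) (nat_lit 588) (nat_lit 882044058) (nat_lit 84) (nat_lit 5) (nat_lit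 90) (nat_lit 5) (nat_lit 91) (nat_lit 5) (nat_lit 324) (nat_lit 286) (nat_lit 254))) (XT.nd (nat_lit 94) (nat_lit 420) (nat_lit 0) (XT.lf (nat_lit 0) (nat_lit 1128305314) (nat_lit 588) (nat_lit 1808275255) (nat_lit 84) (nat_lit 5847561026) (nat_lit 83) (nat_lit 5) (nat_lit 90) (nat_lit 5) (nat_lit 84) (nat_lit 5) (nat_lit 325) (nat_lit 286) (nat_lit 253)) (XT.nd (nat_lit 94) (nat_lit 0) (nat_lit 0) (XT.lf (nat_lit 0) (nat_lit 2466207399) (nat_lit 420) (nat_lit 691177864) (nat_lit 504) (nat_lit 5768301078) (nat_lit 78) (nat_lit 5) (nat_lit 83) (nat_lit 5) (nat_lit 84) (nat_lit 5) (nat_lit 326) (nat_lit 286) (nat_lit 252)) (XT.lf (nat_lit 0) (nat_lit 5235723142) (nat_lit 504) (nat_lit 2231165242) (nat_lit 84) (nat_lit 1605331102) (nat_lit 78) (nat_lit 5) (nat_lit 84) (nat_lit 5) (nat_lit 79) (nat_lit 5) (nat_lit 327) (nat_lit 286) (nat_lit 251))))) (XT.nd (nat_lit 188) (nat_lit 840) (nat_lit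 0) (XT.nd (nat_lit 94) (nat_lit 84) (nat_lit 0) (XT.lf (nat_lit 0) (nat_lit 2109969678) (nat_lit 420) (nat_lit 5249168114) (nat_lit 504) (nat_lit 1864929489) (nat_lit 73) (nat_lit 5) (nat_lit 78) (nat_lit 5) (nat_lit 79) (nat_lit 5) (nat_lit 328) (nat_lit 286) (nat_lit 250)) (XT.lf (nat_lit 0) (nat_lit 140808686) (nat_lit 504) (nat_lit 2803108739) (nat_lit 84) (nat_lit 6437545954) (nat_lit 72) (nat_lit 5) (nat_lit 78) (nat_lit 5) (nat_lit 73) (nat_lit 5) (nat_lit 329) (nat_lit 286) (nat_lit 249))) (XT.nd (nat_lit 94) (nat_lit 420) (nat_lit 0) (XT.lf (nat_lit 0) (nat_lit 1602072071) (nat_lit 420) (nat_lit 538128159) (nat_lit 504) (nat_lit 7404027737) (nat_lit 67) (nat_lit 5) (nat_lit 72) (nat_lit 5) (nat_lit 73) (nat_lit 5) (nat_lit 330) (nat_lit 286) (nat_lit 248)) (XT.nd (nat_lit 94) (nat_lit 420) (nat_lit 0) (XT.lf (nat_lit 0) (nat_lit 4205503855) (nat_lit 504) (nat_lit 3581049322) (nat_lit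 84) (nat_lit 1925515645) (nat_lit 67) (nat_lit 5) (nat_lit 73) (nat_lit 5) (nat_lit 68) (nat_lit 5) (nat_lit 331) (nat_lit 286) (nat_lit 247)) (XT.lf (nat_lit 0) (nat_lit 875407107) (nat_lit 420) (nat_lit 5430068313) (nat_lit 504) (nat_lit 3580695215) (nat_lit 62) (nat_lit 5) (nat_lit 67) (nat_lit 5) (nat_lit 68) (nat_lit 5) (nat_lit 332) (nat_lit 286) (nat_lit 246)))))) (XT.nd (nat_lit 470) (nat_lit 756) (nat_lit 0) (XT.nd (nat_lit 188) (nat_lit 672) (nat_lit 0) (XT.nd (nat_lit 94) (nat_lit 84) (nat_lit 0) (XT.lf (nat_lit 0) (nat_lit 5494478115) (nat_lit 420) (nat_lit 2970701274) (nat_lit 504) (nat_lit 1600799978) (nat_lit 62) (nat_lit 5) (nat_lit 67) (nat_lit 5) (nat_lit 68) (nat_lit 5) (nat_lit 333) (nat_lit 286) (nat_lit 245)) (XT.lf (nat_lit 0) (nat_lit 389576901) (nat_lit 504) (nat_lit 49895197) (nat_lit 84) (nat_lit 9813192157) (nat_lit 61) (nat_lit 5) (nat_lit 67) (nat_lit 5) (nat_lit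 62) (nat_lit 5) (nat_lit 334) (nat_lit 286) (nat_lit 244))) (XT.nd (nat_lit 94) (nat_lit 336) (nat_lit 0) (XT.lf (nat_lit 0) (nat_lit 2435753123) (nat_lit 420) (nat_lit 5827065125) (nat_lit 84) (nat_lit 2181093576) (nat_lit 57) (nat_lit 5) (nat_lit 62) (nat_lit 5) (nat_lit 58) (nat_lit 5) (nat_lit 335) (nat_lit 286) (nat_lit 243)) (XT.nd (nat_lit 94) (nat_lit 336) (nat_lit 0) (XT.lf (nat_lit 0) (nat_lit 4510277384) (nat_lit 420) (nat_lit 1266409612) (nat_lit 84) (nat_lit 4865615571) (nat_lit 57) (nat_lit 5) (nat_lit 62) (nat_lit 5) (nat_lit 58) (nat_lit 5) (nat_lit 336) (nat_lit 286) (nat_lit 242)) (XT.lf (nat_lit 0) (nat_lit 3456624554) (nat_lit 336) (nat_lit 3187879018) (nat_lit 420) (nat_lit 4202605803) (nat_lit 53) (nat_lit 5) (nat_lit 57) (nat_lit 5) (nat_lit 58) (nat_lit 5) (nat_lit 337) (nat_lit 286) (nat_lit 241))))) (XT.nd (nat_lit 282) (nat_lit 336) (nat_lit 0) (XT.nd (nat_lit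 94) (nat_lit 420) (nat_lit 0) (XT.lf (nat_lit 0) (nat_lit 8304767534) (nat_lit 336) (nat_lit 515135407) (nat_lit 420) (nat_lit 2239256270) (nat_lit 53) (nat_lit 5) (nat_lit 57) (nat_lit 5) (nat_lit 58) (nat_lit 5) (nat_lit 338) (nat_lit 286) (nat_lit 240)) (XT.nd (nat_lit 94) (nat_lit 84) (nat_lit 0) (XT.lf (nat_lit 0) (nat_lit 1995526576) (nat_lit 336) (nat_lit 9072081199) (nat_lit 420) (nat_lit 210139711) (nat_lit 49) (nat_lit 5) (nat_lit 53) (nat_lit 5) (nat_lit 54) (nat_lit 5) (nat_lit 339) (nat_lit 286) (nat_lit 239)) (XT.lf (nat_lit 0) (nat_lit 1841286784) (nat_lit 420) (nat_lit 4623626311) (nat_lit 84) (nat_lit 5037812112) (nat_lit 48) (nat_lit 5) (nat_lit 53) (nat_lit 5) (nat_lit 49) (nat_lit 5) (nat_lit 340) (nat_lit 286) (nat_lit 238)))) (XT.nd (nat_lit 94) (nat_lit 0) (nat_lit 0) (XT.lf (nat_lit 0) (nat_lit 133110009) (nat_lit 336) (nat_lit 3784275201) (nat_lit 420) (nat_lit 7818402343)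 (nat_lit 44) (nat_lit 5) (nat_lit 48) (nat_lit 5) (nat_lit 49) (nat_lit 5) (nat_lit 341) (nat_lit 286) (nat_lit 237)) (XT.nd (nat_lit 94) (nat_lit 0) (nat_lit 0) (XT.lf (nat_lit 0) (nat_lit 5088990141) (nat_lit 336) (nat_lit 981855194) (nat_lit 420) (nat_lit 5904928909) (nat_lit 44) (nat_lit 5) (nat_lit 48) (nat_lit 5) (nat_lit 49) (nat_lit 5) (nat_lit 342) (nat_lit 286) (nat_lit 236)) (XT.lf (nat_lit 0) (nat_lit 8275679822) (nat_lit 420) (nat_lit 2089613315) (nat_lit 84) (nat_lit 1858483664) (nat_lit 44) (nat_lit 5) (nat_lit 49) (nat_lit 5) (nat_lit 45) (nat_lit 5) (nat_lit 343) (nat_lit 286) (nat_lit 235))))))) (XT.nd (nat_lit 940) (nat_lit 840) (nat_lit 0) (XT.nd (nat_lit 470) (nat_lit 588) (nat_lit 0) (XT.nd (nat_lit 188) (nat_lit 252) (nat_lit 0) (XT.nd (nat_lit 94) (nat_lit 84) (nat_lit 0) (XT.lf (nat_lit 0) (nat_lit 2859224304) (nat_lit 252) (nat_lit 7694772336) (nat_lit 336) (nat_lit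 1925408112) (nat_lit 41) (nat_lit 5) (nat_lit 44) (nat_lit 5) (nat_lit 45) (nat_lit 5) (nat_lit 344) (nat_lit 286) (nat_lit 234)) (XT.lf (nat_lit 0) (nat_lit 145657885) (nat_lit 336) (nat_lit 4783247398) (nat_lit 84) (nat_lit 7814437589) (nat_lit 40) (nat_lit 5) (nat_lit 44) (nat_lit 5) (nat_lit 41) (nat_lit 5) (nat_lit 345) (nat_lit 286) (nat_lit 233))) (XT.nd (nat_lit 94) (nat_lit 0) (nat_lit 0) (XT.lf (nat_lit 0) (nat_lit 143244382) (nat_lit 252) (nat_lit 2066967405) (nat_lit 336) (nat_lit 10805681121) (nat_lit 37) (nat_lit 5) (nat_lit 40) (nat_lit 5) (nat_lit 41) (nat_lit 5) (nat_lit 346) (nat_lit 286) (nat_lit 232)) (XT.nd (nat_lit 94) (nat_lit 0) (nat_lit 0) (XT.lf (nat_lit 0) (nat_lit 4366254249) (nat_lit 336) (nat_lit 8024850688) (nat_lit 84) (nat_lit 905020285) (nat_lit 37) (nat_lit 5) (nat_lit 41) (nat_lit 5) (nat_lit 38) (nat_lit 5) (nat_lit 347) (nat_lit 286) (nat_lit 231)) (XT.lf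 (nat_lit 0) (nat_lit 6579511039) (nat_lit 336) (nat_lit 3090674882) (nat_lit 84) (nat_lit 3915239903) (nat_lit 37) (nat_lit 5) (nat_lit 41) (nat_lit 5) (nat_lit 38) (nat_lit 5) (nat_lit 348) (nat_lit 286) (nat_lit 230))))) (XT.nd (nat_lit 188) (nat_lit 336) (nat_lit 0) (XT.nd (nat_lit 94) (nat_lit 0) (nat_lit 0) (XT.lf (nat_lit 0) (nat_lit 1995181087) (nat_lit 252) (nat_lit 6856151928) (nat_lit 336) (nat_lit 5032753429) (nat_lit 34) (nat_lit 5) (nat_lit 37) (nat_lit 5) (nat_lit 38) (nat_lit 5) (nat_lit 349) (nat_lit 286) (nat_lit 229)) (XT.lf (nat_lit 0) (nat_lit 7263161460) (nat_lit 252) (nat_lit 3933331976) (nat_lit 336) (nat_lit 2995499706) (nat_lit 34) (nat_lit 5) (nat_lit 37) (nat_lit 5) (nat_lit 38) (nat_lit 5) (nat_lit 350) (nat_lit 286) (nat_lit 228))) (XT.nd (nat_lit 94) (nat_lit 336) (nat_lit 0) (XT.lf (nat_lit 0) (nat_lit 12654625932) (nat_lit 252) (nat_lit 931261997) (nat_lit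 336) (nat_lit 924514988) (nat_lit 34) (nat_lit 5) (nat_lit 37) (nat_lit 5) (nat_lit 38) (nat_lit 5) (nat_lit 351) (nat_lit 286) (nat_lit 227)) (XT.nd (nat_lit 94) (nat_lit 0) (nat_lit 0) (XT.lf (nat_lit 0) (nat_lit 1213779467) (nat_lit 336) (nat_lit 11468433170) (nat_lit 84) (nat_lit 2155316957) (nat_lit 30) (nat_lit 5) (nat_lit 34) (nat_lit 5) (nat_lit 31) (nat_lit 5) (nat_lit 352) (nat_lit 286) (nat_lit 226)) (XT.lf (nat_lit 0) (nat_lit 3400628221) (nat_lit 336) (nat_lit 6437775951) (nat_lit 84) (nat_lit 5336123199) (nat_lit 30) (nat_lit 5) (nat_lit 34) (nat_lit 5) (nat_lit 31) (nat_lit 5) (nat_lit 353) (nat_lit 286) (nat_lit 225)))))) (XT.nd (nat_lit 470) (nat_lit 420) (nat_lit 0) (XT.nd (nat_lit 188) (nat_lit 252) (nat_lit 0) (XT.nd (nat_lit 94) (nat_lit 168) (nat_lit 0) (XT.lf (nat_lit 0) (nat_lit 5628478097) (nat_lit 336) (nat_lit 1289658466) (nat_lit 84) (nat_lit 8604732891) (nat_lit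 30) (nat_lit 5) (nat_lit 34) (nat_lit 5) (nat_lit 31) (nat_lit 5) (nat_lit 354) (nat_lit 286) (nat_lit 224)) (XT.lf (nat_lit 0) (nat_lit 4062569593) (nat_lit 168) (nat_lit 3877137282) (nat_lit 252) (nat_lit 7941924317) (nat_lit 28) (nat_lit 5) (nat_lit 30) (nat_lit 5) (nat_lit 31) (nat_lit 5) (nat_lit 355) (nat_lit 286) (nat_lit 223))) (XT.nd (nat_lit 94) (nat_lit 252) (nat_lit 0) (XT.lf (nat_lit 0) (nat_lit 9571101975) (nat_lit 168) (nat_lit 739372261) (nat_lit 252) (nat_lit 5941478590) (nat_lit 28) (nat_lit 5) (nat_lit 30) (nat_lit 5) (nat_lit 31) (nat_lit 5) (nat_lit 356) (nat_lit 286) (nat_lit 222)) (XT.nd (nat_lit 94) (nat_lit 252) (nat_lit 0) (XT.lf (nat_lit 0) (nat_lit 12754581106) (nat_lit 252) (nat_lit 1444676859) (nat_lit 84) (nat_lit 2434562243) (nat_lit 28) (nat_lit 5) (nat_lit 31) (nat_lit 5) (nat_lit 29) (nat_lit 5) (nat_lit 357) (nat_lit 286) (nat_lit 221)) (XT.lf (nat_lit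 0) (nat_lit 3991205792) (nat_lit 252) (nat_lit 11306242258) (nat_lit 336) (nat_lit 1729423813) (nat_lit 25) (nat_lit 5) (nat_lit 28) (nat_lit 5) (nat_lit 29) (nat_lit 5) (nat_lit 358) (nat_lit 286) (nat_lit 220))))) (XT.nd (nat_lit 282) (nat_lit 168) (nat_lit 0) (XT.nd (nat_lit 94) (nat_lit 168) (nat_lit 0) (XT.lf (nat_lit 0) (nat_lit 468373005) (nat_lit 336) (nat_lit 7846055561) (nat_lit 84) (nat_lit 9117859788) (nat_lit 24) (nat_lit 5) (nat_lit 28) (nat_lit 5) (nat_lit 25) (nat_lit 5) (nat_lit 359) (nat_lit 286) (nat_lit 219)) (XT.nd (nat_lit 94) (nat_lit 168) (nat_lit 0) (XT.lf (nat_lit 0) (nat_lit 2675017722) (nat_lit 336) (nat_lit 2547839366) (nat_lit 84) (nat_lit 12627645472) (nat_lit 24) (nat_lit 5) (nat_lit 28) (nat_lit 5) (nat_lit 25) (nat_lit 5) (nat_lit 360) (nat_lit 286) (nat_lit 218)) (XT.lf (nat_lit 0) (nat_lit 2940317957) (nat_lit 168) (nat_lit 2016261558) (nat_lit 252) (nat_lit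 13324952408) (nat_lit 22) (nat_lit 5) (nat_lit 24) (nat_lit 5) (nat_lit 25) (nat_lit 5) (nat_lit 361) (nat_lit 286) (nat_lit 217)))) (XT.nd (nat_lit 94) (nat_lit 168) (nat_lit 0) (XT.lf (nat_lit 0) (nat_lit 7326116810) (nat_lit 252) (nat_lit 10119383071) (nat_lit 84) (nat_lit 1279939441) (nat_lit 22) (nat_lit 5) (nat_lit 25) (nat_lit 5) (nat_lit 23) (nat_lit 5) (nat_lit 362) (nat_lit 286) (nat_lit 216)) (XT.nd (nat_lit 94) (nat_lit 168) (nat_lit 0) (XT.lf (nat_lit 0) (nat_lit 9767991808) (nat_lit 252) (nat_lit 4789118513) (nat_lit 84) (nat_lit 4626081446) (nat_lit 22) (nat_lit 5) (nat_lit 25) (nat_lit 5) (nat_lit 23) (nat_lit 5) (nat_lit 363) (nat_lit 286) (nat_lit 215)) (XT.lf (nat_lit 0) (nat_lit 688419761) (nat_lit 168) (nat_lit 11582888475) (nat_lit 252) (nat_lit 7384316036) (nat_lit 20) (nat_lit 5) (nat_lit 22) (nat_lit 5) (nat_lit 23) (nat_lit 5) (nat_lit 364) (nat_lit 286) (nat_lit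 214))))))))
noncomputable def xc41 : XT := (XT.nd (nat_lit 48222) (nat_lit 0) (nat_lit 6300) (XT.nd (nat_lit 47188) (nat_lit 0) (nat_lit 14784) (XT.nd (nat_lit 470) (nat_lit 168) (nat_lit 0) (XT.nd (nat_lit 188) (nat_lit 252) (nat_lit 0) (XT.nd (nat_lit 94) (nat_lit 0) (nat_lit 0) (XT.lf (nat_lit 0) (nat_lit 6405776206) (nat_lit 168) (nat_lit 8475675342) (nat_lit 252) (nat_lit 5260391031) (nat_lit 20) (nat_lit 5) (nat_lit 22) (nat_lit 5) (nat_lit 23) (nat_lit 5) (nat_lit 365) (nat_lit 286) (nat_lit 213)) (XT.lf (nat_lit 0) (nat_lit 12269805897) (nat_lit 168) (nat_lit 5282563250) (nat_lit 252) (nat_lit 3091433799) (nat_lit 20) (nat_lit 5) (nat_lit 22) (nat_lit 5) (nat_lit 23) (nat_lit 5) (nat_lit 366) (nat_lit 286) (nat_lit 212))) (XT.nd (nat_lit 94) (nat_lit 252) (nat_lit 0) (XT.lf (nat_lit 0) (nat_lit 18285974724) (nat_lit 168) (nat_lit 2000575883) (nat_lit 252) (nat_lit 875422645) (nat_lit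 20) (nat_lit 5) (nat_lit 22) (nat_lit 5) (nat_lit 23) (nat_lit 5) (nat_lit 367) (nat_lit 286) (nat_lit 211)) (XT.nd (nat_lit 94) (nat_lit 0) (nat_lit 0) (XT.lf (nat_lit 0) (nat_lit 1403591769) (nat_lit 252) (nat_lit 18903797298) (nat_lit 84) (nat_lit 1387721670) (nat_lit 17) (nat_lit 5) (nat_lit 20) (nat_lit 5) (nat_lit 18) (nat_lit 5) (nat_lit 368) (nat_lit 286) (nat_lit 210)) (XT.lf (nat_lit 0) (nat_lit 3766867264) (nat_lit 252) (nat_lit 13607705412) (nat_lit 84) (nat_lit 4868979347) (nat_lit 17) (nat_lit 5) (nat_lit 20) (nat_lit 5) (nat_lit 18) (nat_lit 5) (nat_lit 369) (nat_lit 286) (nat_lit 209))))) (XT.nd (nat_lit 188) (nat_lit 168) (nat_lit 0) (XT.nd (nat_lit 94) (nat_lit 0) (nat_lit 0) (XT.lf (nat_lit 0) (nat_lit 6184983815) (nat_lit 252) (nat_lit 8175970604) (nat_lit 84) (nat_lit 8448650189) (nat_lit 17) (nat_lit 5) (nat_lit 20) (nat_lit 5) (nat_lit 18) (nat_lit 5) (nat_lit 370)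 (nat_lit 286) (nat_lit 208)) (XT.lf (nat_lit 0) (nat_lit 8660195359) (nat_lit 252) (nat_lit 2603529931) (nat_lit 84) (nat_lit 12130070823) (nat_lit 17) (nat_lit 5) (nat_lit 20) (nat_lit 5) (nat_lit 18) (nat_lit 5) (nat_lit 371) (nat_lit 286) (nat_lit 207))) (XT.nd (nat_lit 94) (nat_lit 0) (nat_lit 0) (XT.lf (nat_lit 0) (nat_lit 3178857604) (nat_lit 168) (nat_lit 8047486111) (nat_lit 252) (nat_lit 12769349776) (nat_lit 15) (nat_lit 5) (nat_lit 17) (nat_lit 5) (nat_lit 18) (nat_lit 5) (nat_lit 372) (nat_lit 286) (nat_lit 206)) (XT.nd (nat_lit 94) (nat_lit 0) (nat_lit 0) (XT.lf (nat_lit 0) (nat_lit 9169118711) (nat_lit 168) (nat_lit 4713027505) (nat_lit 252) (nat_lit 10733825468) (nat_lit 15) (nat_lit 5) (nat_lit 17) (nat_lit 5) (nat_lit 18) (nat_lit 5) (nat_lit 373) (nat_lit 286) (nat_lit 205)) (XT.lf (nat_lit 0) (nat_lit 15319303027) (nat_lit 168) (nat_lit 1284416920) (nat_lit 252) (nat_lit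 8652306021) (nat_lit 15) (nat_lit 5) (nat_lit 17) (nat_lit 5) (nat_lit 18) (nat_lit 5) (nat_lit 374) (nat_lit 286) (nat_lit 204)))))) (XT.nd (nat_lit 470) (nat_lit 1176) (nat_lit 0) (XT.nd (nat_lit 188) (nat_lit 336) (nat_lit 0) (XT.nd (nat_lit 94) (nat_lit 84) (nat_lit 0) (XT.lf (nat_lit 0) (nat_lit 1342546705) (nat_lit 84) (nat_lit 538331343) (nat_lit 0) (nat_lit 1342546705) (nat_lit 210) (nat_lit 5) (nat_lit 211) (nat_lit 0) (nat_lit 210) (nat_lit 4) (nat_lit 290) (nat_lit 287) (nat_lit 287)) (XT.lf (nat_lit 0) (nat_lit 1694118712) (nat_lit 84) (nat_lit 3617069193) (nat_lit 84) (nat_lit 1142422691) (nat_lit 209) (nat_lit 4) (nat_lit 210) (nat_lit 5) (nat_lit 210) (nat_lit 4) (nat_lit 291) (nat_lit 287) (nat_lit 286))) (XT.nd (nat_lit 94) (nat_lit 252) (nat_lit 0) (XT.lf (nat_lit 0) (nat_lit 1434519849) (nat_lit 168) (nat_lit 1961375778) (nat_lit 84) (nat_lit 3067744966) (nat_lit 208)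 (nat_lit 5) (nat_lit 210) (nat_lit 5) (nat_lit 209) (nat_lit 4) (nat_lit 292) (nat_lit 287) (nat_lit 285)) (XT.nd (nat_lit 94) (nat_lit 84) (nat_lit 0) (XT.lf (nat_lit 0) (nat_lit 871954990) (nat_lit 168) (nat_lit 3103874421) (nat_lit 252) (nat_lit 2501295192) (nat_lit 206) (nat_lit 5) (nat_lit 208) (nat_lit 5) (nat_lit 209) (nat_lit 4) (nat_lit 293) (nat_lit 287) (nat_lit 284)) (XT.lf (nat_lit 0) (nat_lit 23851346) (nat_lit 252) (nat_lit 2716441107) (nat_lit 84) (nat_lit 3753769483) (nat_lit 205) (nat_lit 5) (nat_lit 208) (nat_lit 5) (nat_lit 206) (nat_lit 5) (nat_lit 294) (nat_lit 287) (nat_lit 283))))) (XT.nd (nat_lit 282) (nat_lit 840) (nat_lit 0) (XT.nd (nat_lit 94) (nat_lit 84) (nat_lit 0) (XT.lf (nat_lit 0) (nat_lit 182217531) (nat_lit 252) (nat_lit 2298294434) (nat_lit 336) (nat_lit 4033760481) (nat_lit 202) (nat_lit 5) (nat_lit 205) (nat_lit 5) (nat_lit 206) (nat_lit 5) (nat_lit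 295) (nat_lit 287) (nat_lit 282)) (XT.nd (nat_lit 94) (nat_lit 84) (nat_lit 0) (XT.lf (nat_lit 0) (nat_lit 3171196605) (nat_lit 252) (nat_lit 1776209563) (nat_lit 336) (nat_lit 1590330952) (nat_lit 202) (nat_lit 5) (nat_lit 205) (nat_lit 5) (nat_lit 206) (nat_lit 5) (nat_lit 296) (nat_lit 287) (nat_lit 281)) (XT.lf (nat_lit 0) (nat_lit 817198183) (nat_lit 336) (nat_lit 376177221) (nat_lit 84) (nat_lit 5371698498) (nat_lit 201) (nat_lit 5) (nat_lit 205) (nat_lit 5) (nat_lit 202) (nat_lit 5) (nat_lit 297) (nat_lit 287) (nat_lit 280)))) (XT.nd (nat_lit 94) (nat_lit 504) (nat_lit 0) (XT.lf (nat_lit 0) (nat_lit 2688664761) (nat_lit 336) (nat_lit 514194667) (nat_lit 420) (nat_lit 3392394844) (nat_lit 197) (nat_lit 5) (nat_lit 201) (nat_lit 5) (nat_lit 202) (nat_lit 5) (nat_lit 298) (nat_lit 287) (nat_lit 279)) (XT.nd (nat_lit 94) (nat_lit 504) (nat_lit 0) (XT.lf (nat_lit 0) (nat_lit 5580630845)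 (nat_lit 420) (nat_lit 830768054) (nat_lit 84) (nat_lit 218025432) (nat_lit 197) (nat_lit 5) (nat_lit 202) (nat_lit 5) (nat_lit 198) (nat_lit 5) (nat_lit 299) (nat_lit 287) (nat_lit 278)) (XT.lf (nat_lit 0) (nat_lit 1282134851) (nat_lit 504) (nat_lit 4355259860) (nat_lit 84) (nat_lit 1029115675) (nat_lit 191) (nat_lit 5) (nat_lit 197) (nat_lit 5) (nat_lit 192) (nat_lit 5) (nat_lit 300) (nat_lit 287) (nat_lit 277))))))) (XT.nd (nat_lit 1034) (nat_lit 4872) (nat_lit 0) (XT.nd (nat_lit 470) (nat_lit 2436) (nat_lit 0) (XT.nd (nat_lit 188) (nat_lit 672) (nat_lit 0) (XT.nd (nat_lit 94) (nat_lit 504) (nat_lit 0) (XT.lf (nat_lit 0) (nat_lit 3587942018) (nat_lit 504) (nat_lit 1205982362) (nat_lit 84) (nat_lit 1913304272) (nat_lit 191) (nat_lit 5) (nat_lit 197) (nat_lit 5) (nat_lit 192) (nat_lit 5) (nat_lit 301) (nat_lit 287) (nat_lit 276)) (XT.lf (nat_lit 0) (nat_lit 2024512125) (nat_lit 504) (nat_lit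 3878982601) (nat_lit 588) (nat_lit 848085699) (nat_lit 185) (nat_lit 5) (nat_lit 191) (nat_lit 5) (nat_lit 192) (nat_lit 5) (nat_lit 302) (nat_lit 287) (nat_lit 275))) (XT.nd (nat_lit 94) (nat_lit 588) (nat_lit 0) (XT.lf (nat_lit 0) (nat_lit 1394976391) (nat_lit 588) (nat_lit 1489863766) (nat_lit 84) (nat_lit 3914560130) (nat_lit 184) (nat_lit 5) (nat_lit 191) (nat_lit 5) (nat_lit 185) (nat_lit 5) (nat_lit 303) (nat_lit 287) (nat_lit 274)) (XT.nd (nat_lit 94) (nat_lit 0) (nat_lit 0) (XT.lf (nat_lit 0) (nat_lit 1818708351) (nat_lit 588) (nat_lit 1810559142) (nat_lit 672) (nat_lit 3221464982) (nat_lit 177) (nat_lit 5) (nat_lit 184) (nat_lit 5) (nat_lit 185) (nat_lit 5) (nat_lit 304) (nat_lit 287) (nat_lit 273)) (XT.lf (nat_lit 0) (nat_lit 5205052394) (nat_lit 588) (nat_lit 666397353) (nat_lit 672) (nat_lit 1034513625) (nat_lit 177) (nat_lit 5) (nat_lit 184) (nat_lit 5) (nat_lit 185) (nat_lit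 5) (nat_lit 305) (nat_lit 287) (nat_lit 272))))) (XT.nd (nat_lit 282) (nat_lit 924) (nat_lit 0) (XT.nd (nat_lit 94) (nat_lit 756) (nat_lit 0) (XT.lf (nat_lit 0) (nat_lit 1142321633) (nat_lit 756) (nat_lit 5271344781) (nat_lit 84) (nat_lit 550898788) (nat_lit 168) (nat_lit 5) (nat_lit 177) (nat_lit 5) (nat_lit 169) (nat_lit 5) (nat_lit 306) (nat_lit 287) (nat_lit 271)) (XT.nd (nat_lit 94) (nat_lit 756) (nat_lit 0) (XT.lf (nat_lit 0) (nat_lit 3316043136) (nat_lit 756) (nat_lit 1872274274) (nat_lit 84) (nat_lit 1838230025) (nat_lit 168) (nat_lit 5) (nat_lit 177) (nat_lit 5) (nat_lit 169) (nat_lit 5) (nat_lit 307) (nat_lit 287) (nat_lit 270)) (XT.lf (nat_lit 0) (nat_lit 1607432976) (nat_lit 756) (nat_lit 3894026060) (nat_lit 840) (nat_lit 1591076844) (nat_lit 159) (nat_lit 5) (nat_lit 168) (nat_lit 5) (nat_lit 169) (nat_lit 5) (nat_lit 308) (nat_lit 287) (nat_lit 269)))) (XT.nd (nat_lit 94)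 (nat_lit 840) (nat_lit 0) (XT.lf (nat_lit 0) (nat_lit 530725812) (nat_lit 840) (nat_lit 1989696146) (nat_lit 84) (nat_lit 4641894542) (nat_lit 158) (nat_lit 5) (nat_lit 168) (nat_lit 5) (nat_lit 159) (nat_lit 5) (nat_lit 309) (nat_lit 287) (nat_lit 268)) (XT.nd (nat_lit 94) (nat_lit 0) (nat_lit 0) (XT.lf (nat_lit 0) (nat_lit 1572898418) (nat_lit 840) (nat_lit 1058995935) (nat_lit 924) (nat_lit 4603842630) (nat_lit 148) (nat_lit 5) (nat_lit 158) (nat_lit 5) (nat_lit 159) (nat_lit 5) (nat_lit 310) (nat_lit 287) (nat_lit 267)) (XT.lf (nat_lit 0) (nat_lit 4756289815) (nat_lit 924) (nat_lit 2085865418) (nat_lit 84) (nat_lit 470894604) (nat_lit 148) (nat_lit 5) (nat_lit 159) (nat_lit 5) (nat_lit 149) (nat_lit 5) (nat_lit 311) (nat_lit 287) (nat_lit 266)))))) (XT.nd (nat_lit 470) (nat_lit 1680) (nat_lit 0) (XT.nd (nat_lit 188) (nat_lit 2184) (nat_lit 0) (XT.nd (nat_lit 94) (nat_lit 84) (nat_lit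 0) (XT.lf (nat_lit 0) (nat_lit 1565937381) (nat_lit 924) (nat_lit 5341662364) (nat_lit 1008) (nat_lit 486674450) (nat_lit 137) (nat_lit 5) (nat_lit 148) (nat_lit 5) (nat_lit 149) (nat_lit 5) (nat_lit 312) (nat_lit 287) (nat_lit 265)) (XT.lf (nat_lit 0) (nat_lit 1571536567) (nat_lit 1008) (nat_lit 2176566769) (nat_lit 84) (nat_lit 3731024309) (nat_lit 136) (nat_lit 5) (nat_lit 148) (nat_lit 5) (nat_lit 137) (nat_lit 5) (nat_lit 313) (nat_lit 287) (nat_lit 264))) (XT.nd (nat_lit 94) (nat_lit 1176) (nat_lit 0) (XT.lf (nat_lit 0) (nat_lit 1558751005) (nat_lit 1008) (nat_lit 2077257660) (nat_lit 1092) (nat_lit 3932199727) (nat_lit 124) (nat_lit 5) (nat_lit 136) (nat_lit 5) (nat_lit 137) (nat_lit 5) (nat_lit 314) (nat_lit 287) (nat_lit 263)) (XT.nd (nat_lit 94) (nat_lit 1176) (nat_lit 0) (XT.lf (nat_lit 0) (nat_lit 5400488547) (nat_lit 1008) (nat_lit 325153102) (nat_lit 1092) (nat_lit 1935885216)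 (nat_lit 124) (nat_lit 5) (nat_lit 136) (nat_lit 5) (nat_lit 137) (nat_lit 5) (nat_lit 315) (nat_lit 287) (nat_lit 262)) (XT.lf (nat_lit 0) (nat_lit 89856471) (nat_lit 1176) (nat_lit 6195439111) (nat_lit 84) (nat_lit 1473590956) (nat_lit 110) (nat_lit 5) (nat_lit 124) (nat_lit 5) (nat_lit 111) (nat_lit 5) (nat_lit 316) (nat_lit 287) (nat_lit 261))))) (XT.nd (nat_lit 282) (nat_lit 1176) (nat_lit 0) (XT.nd (nat_lit 94) (nat_lit 504) (nat_lit 0) (XT.lf (nat_lit 0) (nat_lit 2106098209) (nat_lit 1176) (nat_lit 2384394712) (nat_lit 84) (nat_lit 3369400715) (nat_lit 110) (nat_lit 5) (nat_lit 124) (nat_lit 5) (nat_lit 111) (nat_lit 5) (nat_lit 317) (nat_lit 287) (nat_lit 260)) (XT.nd (nat_lit 94) (nat_lit 0) (nat_lit 0) (XT.lf (nat_lit 0) (nat_lit 1520211883) (nat_lit 504) (nat_lit 2622241263) (nat_lit 588) (nat_lit 3823133859) (nat_lit 104) (nat_lit 5) (nat_lit 110) (nat_lit 5) (nat_lit 111) (nat_lit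 5) (nat_lit 318) (nat_lit 287) (nat_lit 259)) (XT.lf (nat_lit 0) (nat_lit 5541759079) (nat_lit 504) (nat_lit 668779109) (nat_lit 588) (nat_lit 1865225695) (nat_lit 104) (nat_lit 5) (nat_lit 110) (nat_lit 5) (nat_lit 111) (nat_lit 5) (nat_lit 319) (nat_lit 287) (nat_lit 258)))) (XT.nd (nat_lit 94) (nat_lit 504) (nat_lit 0) (XT.lf (nat_lit 0) (nat_lit 123040477) (nat_lit 672) (nat_lit 6731915989) (nat_lit 84) (nat_lit 1335417130) (nat_lit 96) (nat_lit 5) (nat_lit 104) (nat_lit 5) (nat_lit 97) (nat_lit 5) (nat_lit 320) (nat_lit 287) (nat_lit 257)) (XT.nd (nat_lit 94) (nat_lit 504) (nat_lit 0) (XT.lf (nat_lit 0) (nat_lit 2113520301) (nat_lit 672) (nat_lit 2761211724) (nat_lit 84) (nat_lit 3434067059) (nat_lit 96) (nat_lit 5) (nat_lit 104) (nat_lit 5) (nat_lit 97) (nat_lit 5) (nat_lit 321) (nat_lit 287) (nat_lit 256)) (XT.lf (nat_lit 0) (nat_lit 1304835142) (nat_lit 504) (nat_lit 2821206958)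 (nat_lit 588) (nat_lit 4306290053) (nat_lit 90) (nat_lit 5) (nat_lit 96) (nat_lit 5) (nat_lit 97) (nat_lit 5) (nat_lit 322) (nat_lit 287) (nat_lit 255))))))))
noncomputable def xc42 : XT := (XT.nd (nat_lit 1974) (nat_lit 2016) (nat_lit 0) (XT.nd (nat_lit 940) (nat_lit 1932) (nat_lit 0) (XT.nd (nat_lit 470) (nat_lit 924) (nat_lit 0) (XT.nd (nat_lit 188) (nat_lit 504) (nat_lit 0) (XT.nd (nat_lit 94) (nat_lit 504) (nat_lit 0) (XT.lf (nat_lit 0) (nat_lit 5501974041) (nat_lit 504) (nat_lit 676243535) (nat_lit 588) (nat_lit 2382382565) (nat_lit 90) (nat_lit 5) (nat_lit 96) (nat_lit 5) (nat_lit 97) (nat_lit 5) (nat_lit 323) (nat_lit 287) (nat_lit 254)) (XT.lf (nat_lit 0) (nat_lit 1089491708) (nat_lit 504) (nat_lit 7180531851) (nat_lit 588) (nat_lit 423759063) (nat_lit 84) (nat_lit 5) (nat_lit 90) (nat_lit 5) (nat_lit 91) (nat_lit 5) (nat_lit 324) (nat_lit 287) (nat_lit 253))) (XT.nd (nat_lit 94)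 (nat_lit 420) (nat_lit 0) (XT.lf (nat_lit 0) (nat_lit 1552869833) (nat_lit 588) (nat_lit 3476405254) (nat_lit 84) (nat_lit 3801838560) (nat_lit 83) (nat_lit 5) (nat_lit 90) (nat_lit 5) (nat_lit 84) (nat_lit 5) (nat_lit 325) (nat_lit 287) (nat_lit 252)) (XT.nd (nat_lit 94) (nat_lit 0) (nat_lit 0) (XT.lf (nat_lit 0) (nat_lit 737325777) (nat_lit 420) (nat_lit 2803722506) (nat_lit 504) (nat_lit 5432965481) (nat_lit 78) (nat_lit 5) (nat_lit 83) (nat_lit 5) (nat_lit 84) (nat_lit 5) (nat_lit 326) (nat_lit 287) (nat_lit 251)) (XT.lf (nat_lit 0) (nat_lit 5103272876) (nat_lit 420) (nat_lit 476569595) (nat_lit 504) (nat_lit 3542015089) (nat_lit 78) (nat_lit 5) (nat_lit 83) (nat_lit 5) (nat_lit 84) (nat_lit 5) (nat_lit 327) (nat_lit 287) (nat_lit 250))))) (XT.nd (nat_lit 188) (nat_lit 420) (nat_lit 0) (XT.nd (nat_lit 94) (nat_lit 84) (nat_lit 0) (XT.lf (nat_lit 0) (nat_lit 264450269) (nat_lit 420) (nat_lit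 7393157848) (nat_lit 504) (nat_lit 1617594605) (nat_lit 73) (nat_lit 5) (nat_lit 78) (nat_lit 5) (nat_lit 79) (nat_lit 5) (nat_lit 328) (nat_lit 287) (nat_lit 249)) (XT.lf (nat_lit 0) (nat_lit 360669779) (nat_lit 504) (nat_lit 4728141872) (nat_lit 84) (nat_lit 4344485688) (nat_lit 72) (nat_lit 5) (nat_lit 78) (nat_lit 5) (nat_lit 73) (nat_lit 5) (nat_lit 329) (nat_lit 287) (nat_lit 248))) (XT.nd (nat_lit 94) (nat_lit 420) (nat_lit 0) (XT.lf (nat_lit 0) (nat_lit 2322354270) (nat_lit 504) (nat_lit 380384435) (nat_lit 84) (nat_lit 6894567190) (nat_lit 72) (nat_lit 5) (nat_lit 78) (nat_lit 5) (nat_lit 73) (nat_lit 5) (nat_lit 330) (nat_lit 287) (nat_lit 247)) (XT.nd (nat_lit 94) (nat_lit 0) (nat_lit 0) (XT.lf (nat_lit 0) (nat_lit 4135949325) (nat_lit 420) (nat_lit 206958092) (nat_lit 504) (nat_lit 5423699389) (nat_lit 67) (nat_lit 5) (nat_lit 72) (nat_lit 5) (nat_lit 73) (nat_lit 5) (nat_lit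 331) (nat_lit 287) (nat_lit 246)) (XT.lf (nat_lit 0) (nat_lit 6411346555) (nat_lit 504) (nat_lit 1214608397) (nat_lit 84) (nat_lit 2315801777) (nat_lit 67) (nat_lit 5) (nat_lit 73) (nat_lit 5) (nat_lit 68) (nat_lit 5) (nat_lit 332) (nat_lit 287) (nat_lit 245)))))) (XT.nd (nat_lit 470) (nat_lit 756) (nat_lit 0) (XT.nd (nat_lit 188) (nat_lit 672) (nat_lit 0) (XT.nd (nat_lit 94) (nat_lit 84) (nat_lit 0) (XT.lf (nat_lit 0) (nat_lit 3354916190) (nat_lit 420) (nat_lit 5183423800) (nat_lit 504) (nat_lit 1584307979) (nat_lit 62) (nat_lit 5) (nat_lit 67) (nat_lit 5) (nat_lit 68) (nat_lit 5) (nat_lit 333) (nat_lit 287) (nat_lit 244)) (XT.lf (nat_lit 0) (nat_lit 385669116) (nat_lit 504) (nat_lit 2270599146) (nat_lit 84) (nat_lit 7653746041) (nat_lit 61) (nat_lit 5) (nat_lit 67) (nat_lit 5) (nat_lit 62) (nat_lit 5) (nat_lit 334) (nat_lit 287) (nat_lit 243))) (XT.nd (nat_lit 94) (nat_lit 336) (nat_lit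 0) (XT.lf (nat_lit 0) (nat_lit 2349182963) (nat_lit 336) (nat_lit 18395292) (nat_lit 420) (nat_lit 8135738383) (nat_lit 57) (nat_lit 5) (nat_lit 61) (nat_lit 5) (nat_lit 62) (nat_lit 5) (nat_lit 335) (nat_lit 287) (nat_lit 242)) (XT.nd (nat_lit 94) (nat_lit 336) (nat_lit 0) (XT.lf (nat_lit 0) (nat_lit 4422767661) (nat_lit 420) (nat_lit 3617246909) (nat_lit 84) (nat_lit 2662352799) (nat_lit 57) (nat_lit 5) (nat_lit 62) (nat_lit 5) (nat_lit 58) (nat_lit 5) (nat_lit 336) (nat_lit 287) (nat_lit 241)) (XT.lf (nat_lit 0) (nat_lit 1033740474) (nat_lit 336) (nat_lit 5480641565) (nat_lit 420) (nat_lit 4394171890) (nat_lit 53) (nat_lit 5) (nat_lit 57) (nat_lit 5) (nat_lit 58) (nat_lit 5) (nat_lit 337) (nat_lit 287) (nat_lit 240))))) (XT.nd (nat_lit 282) (nat_lit 336) (nat_lit 0) (XT.nd (nat_lit 94) (nat_lit 420) (nat_lit 0) (XT.lf (nat_lit 0) (nat_lit 5858887580) (nat_lit 336) (nat_lit 2812647761)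 (nat_lit 420) (nat_lit 2449691071) (nat_lit 53) (nat_lit 5) (nat_lit 57) (nat_lit 5) (nat_lit 58) (nat_lit 5) (nat_lit 338) (nat_lit 287) (nat_lit 239)) (XT.nd (nat_lit 94) (nat_lit 420) (nat_lit 0) (XT.lf (nat_lit 0) (nat_lit 10788313936) (nat_lit 336) (nat_lit 71302949) (nat_lit 420) (nat_lit 482101428) (nat_lit 53) (nat_lit 5) (nat_lit 57) (nat_lit 5) (nat_lit 58) (nat_lit 5) (nat_lit 339) (nat_lit 287) (nat_lit 238)) (XT.lf (nat_lit 0) (nat_lit 1550772107) (nat_lit 420) (nat_lit 7267664829) (nat_lit 84) (nat_lit 2749139765) (nat_lit 48) (nat_lit 5) (nat_lit 53) (nat_lit 5) (nat_lit 49) (nat_lit 5) (nat_lit 340) (nat_lit 287) (nat_lit 237)))) (XT.nd (nat_lit 94) (nat_lit 336) (nat_lit 0) (XT.lf (nat_lit 0) (nat_lit 3608416194) (nat_lit 420) (nat_lit 2535963872) (nat_lit 84) (nat_lit 5656881531) (nat_lit 48) (nat_lit 5) (nat_lit 53) (nat_lit 5) (nat_lit 49) (nat_lit 5) (nat_lit 341) (nat_lit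 287) (nat_lit 236)) (XT.nd (nat_lit 94) (nat_lit 0) (nat_lit 0) (XT.lf (nat_lit 0) (nat_lit 2345644456) (nat_lit 336) (nat_lit 3373719307) (nat_lit 420) (nat_lit 6323251359) (nat_lit 44) (nat_lit 5) (nat_lit 48) (nat_lit 5) (nat_lit 49) (nat_lit 5) (nat_lit 342) (nat_lit 287) (nat_lit 235)) (XT.lf (nat_lit 0) (nat_lit 7388754691) (nat_lit 336) (nat_lit 500296171) (nat_lit 420) (nat_lit 4402703860) (nat_lit 44) (nat_lit 5) (nat_lit 48) (nat_lit 5) (nat_lit 49) (nat_lit 5) (nat_lit 343) (nat_lit 287) (nat_lit 234))))))) (XT.nd (nat_lit 1034) (nat_lit 840) (nat_lit 0) (XT.nd (nat_lit 470) (nat_lit 588) (nat_lit 0) (XT.nd (nat_lit 188) (nat_lit 336) (nat_lit 0) (XT.nd (nat_lit 94) (nat_lit 252) (nat_lit 0) (XT.lf (nat_lit 0) (nat_lit 10118150620) (nat_lit 420) (nat_lit 28110718) (nat_lit 84) (nat_lit 2402693112) (nat_lit 44) (nat_lit 5) (nat_lit 49) (nat_lit 5) (nat_lit 45) (nat_lit 5) (nat_lit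 344) (nat_lit 287) (nat_lit 233)) (XT.lf (nat_lit 0) (nat_lit 5052614185) (nat_lit 252) (nat_lit 7387675076) (nat_lit 336) (nat_lit 373186778) (nat_lit 41) (nat_lit 5) (nat_lit 44) (nat_lit 5) (nat_lit 45) (nat_lit 5) (nat_lit 345) (nat_lit 287) (nat_lit 232))) (XT.nd (nat_lit 94) (nat_lit 252) (nat_lit 0) (XT.lf (nat_lit 0) (nat_lit 1682115677) (nat_lit 336) (nat_lit 2854366232) (nat_lit 84) (nat_lit 8550220827) (nat_lit 40) (nat_lit 5) (nat_lit 44) (nat_lit 5) (nat_lit 41) (nat_lit 5) (nat_lit 346) (nat_lit 287) (nat_lit 231)) (XT.nd (nat_lit 94) (nat_lit 0) (nat_lit 0) (XT.lf (nat_lit 0) (nat_lit 2203817394) (nat_lit 252) (nat_lit 1581188160) (nat_lit 336) (nat_lit 9583617981) (nat_lit 37) (nat_lit 5) (nat_lit 40) (nat_lit 5) (nat_lit 41) (nat_lit 5) (nat_lit 347) (nat_lit 287) (nat_lit 230)) (XT.lf (nat_lit 0) (nat_lit 5967885370) (nat_lit 336) (nat_lit 6235367076) (nat_lit 84) (nat_lit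 1455652904) (nat_lit 37) (nat_lit 5) (nat_lit 41) (nat_lit 5) (nat_lit 38) (nat_lit 5) (nat_lit 348) (nat_lit 287) (nat_lit 229))))) (XT.nd (nat_lit 282) (nat_lit 336) (nat_lit 0) (XT.nd (nat_lit 94) (nat_lit 252) (nat_lit 0) (XT.lf (nat_lit 0) (nat_lit 8205665251) (nat_lit 336) (nat_lit 1209517827) (nat_lit 84) (nat_lit 4543476540) (nat_lit 37) (nat_lit 5) (nat_lit 41) (nat_lit 5) (nat_lit 38) (nat_lit 5) (nat_lit 349) (nat_lit 287) (nat_lit 228)) (XT.nd (nat_lit 94) (nat_lit 0) (nat_lit 0) (XT.lf (nat_lit 0) (nat_lit 4013984652) (nat_lit 252) (nat_lit 6510580031) (nat_lit 336) (nat_lit 3742852910) (nat_lit 34) (nat_lit 5) (nat_lit 37) (nat_lit 5) (nat_lit 38) (nat_lit 5) (nat_lit 350) (nat_lit 287) (nat_lit 227)) (XT.lf (nat_lit 0) (nat_lit 9386430960) (nat_lit 252) (nat_lit 3513933932) (nat_lit 336) (nat_lit 1685919968) (nat_lit 34) (nat_lit 5) (nat_lit 37) (nat_lit 5) (nat_lit 38) (nat_lit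 5) (nat_lit 351) (nat_lit 287) (nat_lit 226)))) (XT.nd (nat_lit 94) (nat_lit 252) (nat_lit 0) (XT.lf (nat_lit 0) (nat_lit 398894754) (nat_lit 336) (nat_lit 32018080) (nat_lit 84) (nat_lit 14484900215) (nat_lit 33) (nat_lit 5) (nat_lit 37) (nat_lit 5) (nat_lit 34) (nat_lit 5) (nat_lit 352) (nat_lit 287) (nat_lit 225)) (XT.nd (nat_lit 94) (nat_lit 0) (nat_lit 0) (XT.lf (nat_lit 0) (nat_lit 2567950198) (nat_lit 336) (nat_lit 9932515603) (nat_lit 84) (nat_lit 2752929532) (nat_lit 30) (nat_lit 5) (nat_lit 34) (nat_lit 5) (nat_lit 31) (nat_lit 5) (nat_lit 353) (nat_lit 287) (nat_lit 224)) (XT.lf (nat_lit 0) (nat_lit 4783005570) (nat_lit 336) (nat_lit 4802779600) (nat_lit 84) (nat_lit 6016380797) (nat_lit 30) (nat_lit 5) (nat_lit 34) (nat_lit 5) (nat_lit 31) (nat_lit 5) (nat_lit 354) (nat_lit 287) (nat_lit 223)))))) (XT.nd (nat_lit 470) (nat_lit 420) (nat_lit 0) (XT.nd (nat_lit 188) (nat_lit 252)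 (nat_lit 0) (XT.nd (nat_lit 94) (nat_lit 0) (nat_lit 0) (XT.lf (nat_lit 0) (nat_lit 459016097) (nat_lit 168) (nat_lit 6587060755) (nat_lit 252) (nat_lit 8916374699) (nat_lit 28) (nat_lit 5) (nat_lit 30) (nat_lit 5) (nat_lit 31) (nat_lit 5) (nat_lit 355) (nat_lit 287) (nat_lit 222)) (XT.lf (nat_lit 0) (nat_lit 5949900190) (nat_lit 168) (nat_lit 3454732287) (nat_lit 252) (nat_lit 6928549304) (nat_lit 28) (nat_lit 5) (nat_lit 30) (nat_lit 5) (nat_lit 31) (nat_lit 5) (nat_lit 356) (nat_lit 287) (nat_lit 221))) (XT.nd (nat_lit 94) (nat_lit 252) (nat_lit 0) (XT.lf (nat_lit 0) (nat_lit 11576235758) (nat_lit 168) (nat_lit 236011277) (nat_lit 252) (nat_lit 4903962518) (nat_lit 28) (nat_lit 5) (nat_lit 30) (nat_lit 5) (nat_lit 31) (nat_lit 5) (nat_lit 357) (nat_lit 287) (nat_lit 220)) (XT.nd (nat_lit 94) (nat_lit 0) (nat_lit 0) (XT.lf (nat_lit 0) (nat_lit 205030514) (nat_lit 252) (nat_lit 14098643726)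 (nat_lit 336) (nat_lit 2807209853) (nat_lit 25) (nat_lit 5) (nat_lit 28) (nat_lit 5) (nat_lit 29) (nat_lit 5) (nat_lit 358) (nat_lit 287) (nat_lit 219)) (XT.lf (nat_lit 0) (nat_lit 5788181229) (nat_lit 252) (nat_lit 11117125523) (nat_lit 336) (nat_lit 611520347) (nat_lit 25) (nat_lit 5) (nat_lit 28) (nat_lit 5) (nat_lit 29) (nat_lit 5) (nat_lit 359) (nat_lit 287) (nat_lit 218))))) (XT.nd (nat_lit 282) (nat_lit 168) (nat_lit 0) (XT.nd (nat_lit 94) (nat_lit 168) (nat_lit 0) (XT.lf (nat_lit 0) (nat_lit 1596289440) (nat_lit 336) (nat_lit 6440879530) (nat_lit 84) (nat_lit 9898431999) (nat_lit 24) (nat_lit 5) (nat_lit 28) (nat_lit 5) (nat_lit 25) (nat_lit 5) (nat_lit 360) (nat_lit 287) (nat_lit 217)) (XT.nd (nat_lit 94) (nat_lit 168) (nat_lit 0) (XT.lf (nat_lit 0) (nat_lit 3837862643) (nat_lit 336) (nat_lit 1027982664) (nat_lit 84) (nat_lit 13502049676) (nat_lit 24) (nat_lit 5) (nat_lit 28) (nat_lit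 5) (nat_lit 25) (nat_lit 5) (nat_lit 361) (nat_lit 287) (nat_lit 216)) (XT.lf (nat_lit 0) (nat_lit 4614120720) (nat_lit 168) (nat_lit 1559261342) (nat_lit 252) (nat_lit 12639499129) (nat_lit 22) (nat_lit 5) (nat_lit 24) (nat_lit 5) (nat_lit 25) (nat_lit 5) (nat_lit 362) (nat_lit 287) (nat_lit 215)))) (XT.nd (nat_lit 94) (nat_lit 168) (nat_lit 0) (XT.lf (nat_lit 0) (nat_lit 8589406964) (nat_lit 252) (nat_lit 8868702200) (nat_lit 84) (nat_lit 1813349348) (nat_lit 22) (nat_lit 5) (nat_lit 25) (nat_lit 5) (nat_lit 23) (nat_lit 5) (nat_lit 363) (nat_lit 287) (nat_lit 214)) (XT.nd (nat_lit 94) (nat_lit 168) (nat_lit 0) (XT.lf (nat_lit 0) (nat_lit 11075824319) (nat_lit 252) (nat_lit 3420237107) (nat_lit 84) (nat_lit 5248376279) (nat_lit 22) (nat_lit 5) (nat_lit 25) (nat_lit 5) (nat_lit 23) (nat_lit 5) (nat_lit 364) (nat_lit 287) (nat_lit 213)) (XT.lf (nat_lit 0) (nat_lit 2211743107) (nat_lit 168)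 (nat_lit 11429681320) (nat_lit 252) (nat_lit 6590634555) (nat_lit 20) (nat_lit 5) (nat_lit 22) (nat_lit 5) (nat_lit 23) (nat_lit 5) (nat_lit 365) (nat_lit 287) (nat_lit 212))))))))
noncomputable def xc43 : XT := (XT.nd (nat_lit 48034) (nat_lit 0) (nat_lit 6804) (XT.nd (nat_lit 47000) (nat_lit 0) (nat_lit 15204) (XT.nd (nat_lit 470) (nat_lit 168) (nat_lit 0) (XT.nd (nat_lit 188) (nat_lit 252) (nat_lit 0) (XT.nd (nat_lit 94) (nat_lit 0) (nat_lit 0) (XT.lf (nat_lit 0) (nat_lit 8061176154) (nat_lit 168) (nat_lit 8241547663) (nat_lit 252) (nat_lit 4431615163) (nat_lit 20) (nat_lit 5) (nat_lit 22) (nat_lit 5) (nat_lit 23) (nat_lit 5) (nat_lit 366) (nat_lit 287) (nat_lit 211)) (XT.lf (nat_lit 0) (nat_lit 14063187228) (nat_lit 168) (nat_lit 4964389040) (nat_lit 252) (nat_lit 2225243038) (nat_lit 20) (nat_lit 5) (nat_lit 22) (nat_lit 5) (nat_lit 23) (nat_lit 5) (nat_lit 367) (nat_lit 287) (nat_lit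 210))) (XT.nd (nat_lit 94) (nat_lit 168) (nat_lit 0) (XT.lf (nat_lit 0) (nat_lit 29923107) (nat_lit 252) (nat_lit 1564915352) (nat_lit 84) (nat_lit 20193135388) (nat_lit 19) (nat_lit 5) (nat_lit 22) (nat_lit 5) (nat_lit 20) (nat_lit 5) (nat_lit 368) (nat_lit 287) (nat_lit 209)) (XT.nd (nat_lit 94) (nat_lit 0) (nat_lit 0) (XT.lf (nat_lit 0) (nat_lit 2352302542) (nat_lit 252) (nat_lit 18087533479) (nat_lit 84) (nat_lit 1897865888) (nat_lit 17) (nat_lit 5) (nat_lit 20) (nat_lit 5) (nat_lit 18) (nat_lit 5) (nat_lit 369) (nat_lit 287) (nat_lit 208)) (XT.lf (nat_lit 0) (nat_lit 4761622135) (nat_lit 252) (nat_lit 12669426398) (nat_lit 84) (nat_lit 5472997092) (nat_lit 17) (nat_lit 5) (nat_lit 20) (nat_lit 5) (nat_lit 18) (nat_lit 5) (nat_lit 370) (nat_lit 287) (nat_lit 207))))) (XT.nd (nat_lit 188) (nat_lit 168) (nat_lit 0) (XT.nd (nat_lit 94) (nat_lit 0) (nat_lit 0) (XT.lf (nat_lit 0) (nat_lit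 7228301229) (nat_lit 252) (nat_lit 7110203694) (nat_lit 84) (nat_lit 9150014586) (nat_lit 17) (nat_lit 5) (nat_lit 20) (nat_lit 5) (nat_lit 18) (nat_lit 5) (nat_lit 371) (nat_lit 287) (nat_lit 206)) (XT.lf (nat_lit 0) (nat_lit 9754639025) (nat_lit 252) (nat_lit 1404683588) (nat_lit 84) (nat_lit 12932345735) (nat_lit 17) (nat_lit 5) (nat_lit 20) (nat_lit 5) (nat_lit 18) (nat_lit 5) (nat_lit 372) (nat_lit 287) (nat_lit 205))) (XT.nd (nat_lit 94) (nat_lit 0) (nat_lit 0) (XT.lf (nat_lit 0) (nat_lit 4544003607) (nat_lit 168) (nat_lit 7844063807) (nat_lit 252) (nat_lit 12324589540) (nat_lit 15) (nat_lit 5) (nat_lit 17) (nat_lit 5) (nat_lit 18) (nat_lit 5) (nat_lit 373) (nat_lit 287) (nat_lit 204)) (XT.nd (nat_lit 46154) (nat_lit 0) (nat_lit 16464) (XT.lf (nat_lit 0) (nat_lit 10681878770) (nat_lit 168) (nat_lit 4419854565) (nat_lit 252) (nat_lit 10251239355) (nat_lit 15) (nat_lit 5) (nat_lit 17)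 (nat_lit 5) (nat_lit 18) (nat_lit 5) (nat_lit 374) (nat_lit 287) (nat_lit 203)) (XT.lf (nat_lit 0) (nat_lit 0) (nat_lit 0) (nat_lit 0) (nat_lit 0) (nat_lit 1073741823) (nat_lit 1) (nat_lit 0) (nat_lit 1) (nat_lit 0) (nat_lit 211) (nat_lit 0) (nat_lit 288) (nat_lit 288) (nat_lit 288)))))) (XT.nd (nat_lit 470) (nat_lit 840) (nat_lit 0) (XT.nd (nat_lit 188) (nat_lit 336) (nat_lit 0) (XT.nd (nat_lit 94) (nat_lit 0) (nat_lit 0) (XT.lf (nat_lit 0) (nat_lit 2604358303) (nat_lit 84) (nat_lit 3786270914) (nat_lit 0) (nat_lit 52997760) (nat_lit 210) (nat_lit 5) (nat_lit 211) (nat_lit 0) (nat_lit 210) (nat_lit 4) (nat_lit 289) (nat_lit 288) (nat_lit 287)) (XT.lf (nat_lit 0) (nat_lit 5185049725) (nat_lit 84) (nat_lit 1104706704) (nat_lit 0) (nat_lit 159042680) (nat_lit 210) (nat_lit 5) (nat_lit 211) (nat_lit 0) (nat_lit 210) (nat_lit 4) (nat_lit 290) (nat_lit 288) (nat_lit 286))) (XT.nd (nat_lit 94)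 (nat_lit 168) (nat_lit 0) (XT.lf (nat_lit 0) (nat_lit 1277000047) (nat_lit 168) (nat_lit 4832659040) (nat_lit 84) (nat_lit 347408646) (nat_lit 208) (nat_lit 5) (nat_lit 210) (nat_lit 5) (nat_lit 209) (nat_lit 4) (nat_lit 291) (nat_lit 288) (nat_lit 285)) (XT.nd (nat_lit 94) (nat_lit 168) (nat_lit 0) (XT.lf (nat_lit 0) (nat_lit 3781473178) (nat_lit 168) (nat_lit 2074143062) (nat_lit 84) (nat_lit 612988091) (nat_lit 208) (nat_lit 5) (nat_lit 210) (nat_lit 5) (nat_lit 209) (nat_lit 4) (nat_lit 292) (nat_lit 288) (nat_lit 284)) (XT.lf (nat_lit 0) (nat_lit 728888004) (nat_lit 168) (nat_lit 5544510278) (nat_lit 252) (nat_lit 210536116) (nat_lit 206) (nat_lit 5) (nat_lit 208) (nat_lit 5) (nat_lit 209) (nat_lit 4) (nat_lit 293) (nat_lit 288) (nat_lit 283))))) (XT.nd (nat_lit 282) (nat_lit 420) (nat_lit 0) (XT.nd (nat_lit 94) (nat_lit 336) (nat_lit 0) (XT.lf (nat_lit 0) (nat_lit 2220886423) (nat_lit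 252) (nat_lit 2917456761) (nat_lit 84) (nat_lit 1363595235) (nat_lit 205) (nat_lit 5) (nat_lit 208) (nat_lit 5) (nat_lit 206) (nat_lit 5) (nat_lit 294) (nat_lit 288) (nat_lit 282)) (XT.nd (nat_lit 94) (nat_lit 336) (nat_lit 0) (XT.lf (nat_lit 0) (nat_lit 4629599450) (nat_lit 252) (nat_lit 50029302) (nat_lit 84) (nat_lit 1844294108) (nat_lit 205) (nat_lit 5) (nat_lit 208) (nat_lit 5) (nat_lit 206) (nat_lit 5) (nat_lit 295) (nat_lit 288) (nat_lit 281)) (XT.lf (nat_lit 0) (nat_lit 491774128) (nat_lit 336) (nat_lit 3643416460) (nat_lit 84) (nat_lit 2413732940) (nat_lit 201) (nat_lit 5) (nat_lit 205) (nat_lit 5) (nat_lit 202) (nat_lit 5) (nat_lit 296) (nat_lit 288) (nat_lit 280)))) (XT.nd (nat_lit 94) (nat_lit 420) (nat_lit 0) (XT.lf (nat_lit 0) (nat_lit 2822880415) (nat_lit 336) (nat_lit 696465010) (nat_lit 84) (nat_lit 3058064029) (nat_lit 201) (nat_lit 5) (nat_lit 205) (nat_lit 5) (nat_lit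 202) (nat_lit 5) (nat_lit 297) (nat_lit 288) (nat_lit 279)) (XT.nd (nat_lit 94) (nat_lit 84) (nat_lit 0) (XT.lf (nat_lit 0) (nat_lit 2334435418) (nat_lit 336) (nat_lit 2827545468) (nat_lit 420) (nat_lit 1447306823) (nat_lit 197) (nat_lit 5) (nat_lit 201) (nat_lit 5) (nat_lit 202) (nat_lit 5) (nat_lit 298) (nat_lit 288) (nat_lit 278)) (XT.lf (nat_lit 0) (nat_lit 833319050) (nat_lit 420) (nat_lit 1233342712) (nat_lit 84) (nat_lit 4578152232) (nat_lit 196) (nat_lit 5) (nat_lit 201) (nat_lit 5) (nat_lit 197) (nat_lit 5) (nat_lit 299) (nat_lit 288) (nat_lit 277))))))) (XT.nd (nat_lit 1034) (nat_lit 4368) (nat_lit 0) (XT.nd (nat_lit 470) (nat_lit 2436) (nat_lit 0) (XT.nd (nat_lit 188) (nat_lit 1176) (nat_lit 0) (XT.nd (nat_lit 94) (nat_lit 0) (nat_lit 0) (XT.lf (nat_lit 0) (nat_lit 1870875656) (nat_lit 420) (nat_lit 1218173019) (nat_lit 504) (nat_lit 3594437177) (nat_lit 191) (nat_lit 5) (nat_lit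 196) (nat_lit 5) (nat_lit 197) (nat_lit 5) (nat_lit 300) (nat_lit 288) (nat_lit 276)) (XT.lf (nat_lit 0) (nat_lit 5043553030) (nat_lit 420) (nat_lit 301929023) (nat_lit 504) (nat_lit 1380477897) (nat_lit 191) (nat_lit 5) (nat_lit 196) (nat_lit 5) (nat_lit 197) (nat_lit 5) (nat_lit 301) (nat_lit 288) (nat_lit 275))) (XT.nd (nat_lit 94) (nat_lit 588) (nat_lit 0) (XT.lf (nat_lit 0) (nat_lit 824942730) (nat_lit 588) (nat_lit 5266873564) (nat_lit 84) (nat_lit 679916274) (nat_lit 184) (nat_lit 5) (nat_lit 191) (nat_lit 5) (nat_lit 185) (nat_lit 5) (nat_lit 302) (nat_lit 288) (nat_lit 274)) (XT.nd (nat_lit 94) (nat_lit 588) (nat_lit 0) (XT.lf (nat_lit 0) (nat_lit 3012153141) (nat_lit 588) (nat_lit 2066124861) (nat_lit 84) (nat_lit 1742420859) (nat_lit 184) (nat_lit 5) (nat_lit 191) (nat_lit 5) (nat_lit 185) (nat_lit 5) (nat_lit 303) (nat_lit 288) (nat_lit 273)) (XT.lf (nat_lit 0) (nat_lit 1202839338)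 (nat_lit 588) (nat_lit 3999896335) (nat_lit 672) (nat_lit 1670849693) (nat_lit 177) (nat_lit 5) (nat_lit 184) (nat_lit 5) (nat_lit 185) (nat_lit 5) (nat_lit 304) (nat_lit 288) (nat_lit 272))))) (XT.nd (nat_lit 282) (nat_lit 1680) (nat_lit 0) (XT.nd (nat_lit 94) (nat_lit 672) (nat_lit 0) (XT.lf (nat_lit 0) (nat_lit 468402545) (nat_lit 672) (nat_lit 2372631359) (nat_lit 84) (nat_lit 4088967514) (nat_lit 176) (nat_lit 5) (nat_lit 184) (nat_lit 5) (nat_lit 177) (nat_lit 5) (nat_lit 305) (nat_lit 288) (nat_lit 271)) (XT.nd (nat_lit 94) (nat_lit 0) (nat_lit 0) (XT.lf (nat_lit 0) (nat_lit 975368387) (nat_lit 672) (nat_lit 1600091431) (nat_lit 756) (nat_lit 4414524179) (nat_lit 168) (nat_lit 5) (nat_lit 176) (nat_lit 5) (nat_lit 177) (nat_lit 5) (nat_lit 306) (nat_lit 288) (nat_lit 270)) (XT.lf (nat_lit 0) (nat_lit 4423091554) (nat_lit 672) (nat_lit 277699737) (nat_lit 756) (nat_lit 2352851466)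 (nat_lit 168) (nat_lit 5) (nat_lit 176) (nat_lit 5) (nat_lit 177) (nat_lit 5) (nat_lit 307) (nat_lit 288) (nat_lit 269)))) (XT.nd (nat_lit 94) (nat_lit 924) (nat_lit 0) (XT.lf (nat_lit 0) (nat_lit 808536123) (nat_lit 756) (nat_lit 6032779902) (nat_lit 840) (nat_lit 279877931) (nat_lit 159) (nat_lit 5) (nat_lit 168) (nat_lit 5) (nat_lit 169) (nat_lit 5) (nat_lit 308) (nat_lit 288) (nat_lit 268)) (XT.nd (nat_lit 94) (nat_lit 840) (nat_lit 0) (XT.lf (nat_lit 0) (nat_lit 1781551825) (nat_lit 840) (nat_lit 2858120088) (nat_lit 84) (nat_lit 2552113043) (nat_lit 158) (nat_lit 5) (nat_lit 168) (nat_lit 5) (nat_lit 159) (nat_lit 5) (nat_lit 309) (nat_lit 288) (nat_lit 267)) (XT.lf (nat_lit 0) (nat_lit 659038217) (nat_lit 840) (nat_lit 3181682340) (nat_lit 924) (nat_lit 3425943030) (nat_lit 148) (nat_lit 5) (nat_lit 158) (nat_lit 5) (nat_lit 159) (nat_lit 5) (nat_lit 310) (nat_lit 288) (nat_lit 266))))))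 (XT.nd (nat_lit 470) (nat_lit 2352) (nat_lit 0) (XT.nd (nat_lit 188) (nat_lit 1008) (nat_lit 0) (XT.nd (nat_lit 94) (nat_lit 1008) (nat_lit 0) (XT.lf (nat_lit 0) (nat_lit 4291488974) (nat_lit 840) (nat_lit 1636650352) (nat_lit 924) (nat_lit 1417134850) (nat_lit 148) (nat_lit 5) (nat_lit 158) (nat_lit 5) (nat_lit 159) (nat_lit 5) (nat_lit 311) (nat_lit 288) (nat_lit 265)) (XT.lf (nat_lit 0) (nat_lit 560724203) (nat_lit 924) (nat_lit 21217622) (nat_lit 1008) (nat_lit 6846291854) (nat_lit 136) (nat_lit 5) (nat_lit 147) (nat_lit 5) (nat_lit 148) (nat_lit 5) (nat_lit 312) (nat_lit 288) (nat_lit 264))) (XT.nd (nat_lit 94) (nat_lit 1008) (nat_lit 0) (XT.lf (nat_lit 0) (nat_lit 2599168424) (nat_lit 1008) (nat_lit 3247971280) (nat_lit 84) (nat_lit 1666902513) (nat_lit 136) (nat_lit 5) (nat_lit 148) (nat_lit 5) (nat_lit 137) (nat_lit 5) (nat_lit 313) (nat_lit 288) (nat_lit 263)) (XT.nd (nat_lit 94)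 (nat_lit 0) (nat_lit 0) (XT.lf (nat_lit 0) (nat_lit 437981333) (nat_lit 1008) (nat_lit 4184503641) (nat_lit 1092) (nat_lit 2982047860) (nat_lit 124) (nat_lit 5) (nat_lit 136) (nat_lit 5) (nat_lit 137) (nat_lit 5) (nat_lit 314) (nat_lit 288) (nat_lit 262)) (XT.lf (nat_lit 0) (nat_lit 4253205890) (nat_lit 1008) (nat_lit 2429514842) (nat_lit 1092) (nat_lit 1016171904) (nat_lit 124) (nat_lit 5) (nat_lit 136) (nat_lit 5) (nat_lit 137) (nat_lit 5) (nat_lit 315) (nat_lit 288) (nat_lit 261))))) (XT.nd (nat_lit 282) (nat_lit 672) (nat_lit 0) (XT.nd (nat_lit 94) (nat_lit 504) (nat_lit 0) (XT.lf (nat_lit 0) (nat_lit 333533737) (nat_lit 1092) (nat_lit 601305103) (nat_lit 1176) (nat_lit 6862995176) (nat_lit 110) (nat_lit 5) (nat_lit 123) (nat_lit 5) (nat_lit 124) (nat_lit 5) (nat_lit 316) (nat_lit 288) (nat_lit 260)) (XT.nd (nat_lit 94) (nat_lit 504) (nat_lit 0) (XT.lf (nat_lit 0) (nat_lit 2916818667)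 (nat_lit 1176) (nat_lit 3674474050) (nat_lit 84) (nat_lit 1308729154) (nat_lit 110) (nat_lit 5) (nat_lit 124) (nat_lit 5) (nat_lit 111) (nat_lit 5) (nat_lit 317) (nat_lit 288) (nat_lit 259)) (XT.lf (nat_lit 0) (nat_lit 176697882) (nat_lit 504) (nat_lit 4735701834) (nat_lit 588) (nat_lit 3094694586) (nat_lit 104) (nat_lit 5) (nat_lit 110) (nat_lit 5) (nat_lit 111) (nat_lit 5) (nat_lit 318) (nat_lit 288) (nat_lit 258)))) (XT.nd (nat_lit 94) (nat_lit 672) (nat_lit 0) (XT.lf (nat_lit 0) (nat_lit 4172146158) (nat_lit 504) (nat_lit 2781458877) (nat_lit 588) (nat_lit 1164611025) (nat_lit 104) (nat_lit 5) (nat_lit 110) (nat_lit 5) (nat_lit 111) (nat_lit 5) (nat_lit 319) (nat_lit 288) (nat_lit 257)) (XT.nd (nat_lit 94) (nat_lit 588) (nat_lit 0) (XT.lf (nat_lit 0) (nat_lit 754968837) (nat_lit 588) (nat_lit 2247098) (nat_lit 84) (nat_lit 7477191068) (nat_lit 103) (nat_lit 5) (nat_lit 110) (nat_lit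 5) (nat_lit 104) (nat_lit 5) (nat_lit 320) (nat_lit 288) (nat_lit 256)) (XT.lf (nat_lit 0) (nat_lit 2712011972) (nat_lit 672) (nat_lit 4285091806) (nat_lit 84) (nat_lit 1356867093) (nat_lit 96) (nat_lit 5) (nat_lit 104) (nat_lit 5) (nat_lit 97) (nat_lit 5) (nat_lit 321) (nat_lit 288) (nat_lit 255))))))))
noncomputable def xc44 : XT := (XT.nd (nat_lit 1974) (nat_lit 2184) (nat_lit 0) (XT.nd (nat_lit 940) (nat_lit 1596) (nat_lit 0) (XT.nd (nat_lit 470) (nat_lit 1344) (nat_lit 0) (XT.nd (nat_lit 188) (nat_lit 588) (nat_lit 0) (XT.nd (nat_lit 94) (nat_lit 504) (nat_lit 0) (XT.lf (nat_lit 0) (nat_lit 4686466433) (nat_lit 672) (nat_lit 271141412) (nat_lit 84) (nat_lit 3521174963) (nat_lit 96) (nat_lit 5) (nat_lit 104) (nat_lit 5) (nat_lit 97) (nat_lit 5) (nat_lit 322) (nat_lit 288) (nat_lit 254)) (XT.lf (nat_lit 0) (nat_lit 3894876582) (nat_lit 504) (nat_lit 2816399037) (nat_lit 588) (nat_lit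 1896719342) (nat_lit 90) (nat_lit 5) (nat_lit 96) (nat_lit 5) (nat_lit 97) (nat_lit 5) (nat_lit 323) (nat_lit 288) (nat_lit 253))) (XT.nd (nat_lit 94) (nat_lit 504) (nat_lit 0) (XT.lf (nat_lit 0) (nat_lit 10155819) (nat_lit 588) (nat_lit 597454147) (nat_lit 84) (nat_lit 8135204110) (nat_lit 89) (nat_lit 5) (nat_lit 96) (nat_lit 5) (nat_lit 90) (nat_lit 5) (nat_lit 324) (nat_lit 288) (nat_lit 252)) (XT.nd (nat_lit 94) (nat_lit 0) (nat_lit 0) (XT.lf (nat_lit 0) (nat_lit 1942358020) (nat_lit 588) (nat_lit 5248887780) (nat_lit 84) (nat_lit 1689968965) (nat_lit 83) (nat_lit 5) (nat_lit 90) (nat_lit 5) (nat_lit 84) (nat_lit 5) (nat_lit 325) (nat_lit 288) (nat_lit 251)) (XT.lf (nat_lit 0) (nat_lit 3900185464) (nat_lit 588) (nat_lit 1075151416) (nat_lit 84) (nat_lit 4049803681) (nat_lit 83) (nat_lit 5) (nat_lit 90) (nat_lit 5) (nat_lit 84) (nat_lit 5) (nat_lit 326) (nat_lit 288) (nat_lit 250)))))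 (XT.nd (nat_lit 188) (nat_lit 924) (nat_lit 0) (XT.nd (nat_lit 94) (nat_lit 0) (nat_lit 0) (XT.lf (nat_lit 0) (nat_lit 3243803678) (nat_lit 420) (nat_lit 2661700190) (nat_lit 504) (nat_lit 3268600483) (nat_lit 78) (nat_lit 5) (nat_lit 83) (nat_lit 5) (nat_lit 84) (nat_lit 5) (nat_lit 327) (nat_lit 288) (nat_lit 249)) (XT.lf (nat_lit 0) (nat_lit 7670417887) (nat_lit 420) (nat_lit 269289213) (nat_lit 504) (nat_lit 1389172622) (nat_lit 78) (nat_lit 5) (nat_lit 83) (nat_lit 5) (nat_lit 84) (nat_lit 5) (nat_lit 328) (nat_lit 288) (nat_lit 248))) (XT.nd (nat_lit 94) (nat_lit 420) (nat_lit 0) (XT.lf (nat_lit 0) (nat_lit 543041722) (nat_lit 504) (nat_lit 6763920916) (nat_lit 84) (nat_lit 2181301389) (nat_lit 72) (nat_lit 5) (nat_lit 78) (nat_lit 5) (nat_lit 73) (nat_lit 5) (nat_lit 329) (nat_lit 288) (nat_lit 247)) (XT.nd (nat_lit 94) (nat_lit 420) (nat_lit 0) (XT.lf (nat_lit 0) (nat_lit 2483567822)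 (nat_lit 504) (nat_lit 2440552607) (nat_lit 84) (nat_lit 4728880856) (nat_lit 72) (nat_lit 5) (nat_lit 78) (nat_lit 5) (nat_lit 73) (nat_lit 5) (nat_lit 330) (nat_lit 288) (nat_lit 246)) (XT.lf (nat_lit 0) (nat_lit 2009277660) (nat_lit 420) (nat_lit 2453224261) (nat_lit 504) (nat_lit 5361161070) (nat_lit 67) (nat_lit 5) (nat_lit 72) (nat_lit 5) (nat_lit 73) (nat_lit 5) (nat_lit 331) (nat_lit 288) (nat_lit 245)))))) (XT.nd (nat_lit 470) (nat_lit 756) (nat_lit 0) (XT.nd (nat_lit 188) (nat_lit 420) (nat_lit 0) (XT.nd (nat_lit 94) (nat_lit 420) (nat_lit 0) (XT.lf (nat_lit 0) (nat_lit 6488487857) (nat_lit 504) (nat_lit 3400129527) (nat_lit 84) (nat_lit 111580059) (nat_lit 67) (nat_lit 5) (nat_lit 73) (nat_lit 5) (nat_lit 68) (nat_lit 5) (nat_lit 332) (nat_lit 288) (nat_lit 244)) (XT.lf (nat_lit 0) (nat_lit 1100623497) (nat_lit 420) (nat_lit 7472931438) (nat_lit 504) (nat_lit 1608899886) (nat_lit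 62) (nat_lit 5) (nat_lit 67) (nat_lit 5) (nat_lit 68) (nat_lit 5) (nat_lit 333) (nat_lit 288) (nat_lit 243))) (XT.nd (nat_lit 94) (nat_lit 336) (nat_lit 0) (XT.lf (nat_lit 0) (nat_lit 342108561) (nat_lit 504) (nat_lit 4608033610) (nat_lit 84) (nat_lit 5420352421) (nat_lit 61) (nat_lit 5) (nat_lit 67) (nat_lit 5) (nat_lit 62) (nat_lit 5) (nat_lit 334) (nat_lit 288) (nat_lit 242)) (XT.nd (nat_lit 94) (nat_lit 336) (nat_lit 0) (XT.lf (nat_lit 0) (nat_lit 2281834640) (nat_lit 504) (nat_lit 58452209) (nat_lit 84) (nat_lit 8224878362) (nat_lit 61) (nat_lit 5) (nat_lit 67) (nat_lit 5) (nat_lit 62) (nat_lit 5) (nat_lit 335) (nat_lit 288) (nat_lit 241)) (XT.lf (nat_lit 0) (nat_lit 4294816264) (nat_lit 420) (nat_lit 6088142462) (nat_lit 84) (nat_lit 382624443) (nat_lit 57) (nat_lit 5) (nat_lit 62) (nat_lit 5) (nat_lit 58) (nat_lit 5) (nat_lit 336) (nat_lit 288) (nat_lit 240))))) (XT.nd (nat_lit 282)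 (nat_lit 420) (nat_lit 0) (XT.nd (nat_lit 94) (nat_lit 336) (nat_lit 0) (XT.lf (nat_lit 0) (nat_lit 6358157865) (nat_lit 420) (nat_lit 1480515203) (nat_lit 84) (nat_lit 3134030136) (nat_lit 57) (nat_lit 5) (nat_lit 62) (nat_lit 5) (nat_lit 58) (nat_lit 5) (nat_lit 337) (nat_lit 288) (nat_lit 239)) (XT.nd (nat_lit 94) (nat_lit 0) (nat_lit 0) (XT.lf (nat_lit 0) (nat_lit 3291885037) (nat_lit 336) (nat_lit 5190739798) (nat_lit 420) (nat_lit 2703819432) (nat_lit 53) (nat_lit 5) (nat_lit 57) (nat_lit 5) (nat_lit 58) (nat_lit 5) (nat_lit 338) (nat_lit 288) (nat_lit 238)) (XT.lf (nat_lit 0) (nat_lit 8199677603) (nat_lit 336) (nat_lit 2453863455) (nat_lit 420) (nat_lit 753980876) (nat_lit 53) (nat_lit 5) (nat_lit 57) (nat_lit 5) (nat_lit 58) (nat_lit 5) (nat_lit 339) (nat_lit 288) (nat_lit 237)))) (XT.nd (nat_lit 94) (nat_lit 0) (nat_lit 0) (XT.lf (nat_lit 0) (nat_lit 1216452579) (nat_lit 420) (nat_lit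 10039068487) (nat_lit 84) (nat_lit 380098782) (nat_lit 48) (nat_lit 5) (nat_lit 53) (nat_lit 5) (nat_lit 49) (nat_lit 5) (nat_lit 340) (nat_lit 288) (nat_lit 236)) (XT.nd (nat_lit 94) (nat_lit 0) (nat_lit 0) (XT.lf (nat_lit 0) (nat_lit 3257477972) (nat_lit 420) (nat_lit 5329048902) (nat_lit 84) (nat_lit 3283341996) (nat_lit 48) (nat_lit 5) (nat_lit 53) (nat_lit 5) (nat_lit 49) (nat_lit 5) (nat_lit 341) (nat_lit 288) (nat_lit 235)) (XT.lf (nat_lit 0) (nat_lit 5329037454) (nat_lit 420) (nat_lit 515729541) (nat_lit 84) (nat_lit 6267723905) (nat_lit 48) (nat_lit 5) (nat_lit 53) (nat_lit 5) (nat_lit 49) (nat_lit 5) (nat_lit 342) (nat_lit 288) (nat_lit 234))))))) (XT.nd (nat_lit 940) (nat_lit 1008) (nat_lit 0) (XT.nd (nat_lit 470) (nat_lit 504) (nat_lit 0) (XT.nd (nat_lit 188) (nat_lit 336) (nat_lit 0) (XT.nd (nat_lit 94) (nat_lit 0) (nat_lit 0) (XT.lf (nat_lit 0) (nat_lit 4495959681) (nat_lit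 336) (nat_lit 2981702731) (nat_lit 420) (nat_lit 4884667064) (nat_lit 44) (nat_lit 5) (nat_lit 48) (nat_lit 5) (nat_lit 49) (nat_lit 5) (nat_lit 343) (nat_lit 288) (nat_lit 233)) (XT.lf (nat_lit 0) (nat_lit 9632937266) (nat_lit 336) (nat_lit 34135251) (nat_lit 420) (nat_lit 2953731728) (nat_lit 44) (nat_lit 5) (nat_lit 48) (nat_lit 5) (nat_lit 49) (nat_lit 5) (nat_lit 344) (nat_lit 288) (nat_lit 232))) (XT.nd (nat_lit 94) (nat_lit 84) (nat_lit 0) (XT.lf (nat_lit 0) (nat_lit 2011890323) (nat_lit 252) (nat_lit 9931868854) (nat_lit 336) (nat_lit 943018988) (nat_lit 41) (nat_lit 5) (nat_lit 44) (nat_lit 5) (nat_lit 45) (nat_lit 5) (nat_lit 345) (nat_lit 288) (nat_lit 231)) (XT.nd (nat_lit 94) (nat_lit 0) (nat_lit 0) (XT.lf (nat_lit 0) (nat_lit 1108876512) (nat_lit 336) (nat_lit 5982925798) (nat_lit 84) (nat_lit 6068880065) (nat_lit 40) (nat_lit 5) (nat_lit 44) (nat_lit 5) (nat_lit 41) (nat_lit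 5) (nat_lit 346) (nat_lit 288) (nat_lit 230)) (XT.lf (nat_lit 0) (nat_lit 3175464090) (nat_lit 336) (nat_lit 988723602) (nat_lit 84) (nat_lit 9279580383) (nat_lit 40) (nat_lit 5) (nat_lit 44) (nat_lit 5) (nat_lit 41) (nat_lit 5) (nat_lit 347) (nat_lit 288) (nat_lit 229))))) (XT.nd (nat_lit 188) (nat_lit 252) (nat_lit 0) (XT.nd (nat_lit 94) (nat_lit 0) (nat_lit 0) (XT.lf (nat_lit 0) (nat_lit 4206479926) (nat_lit 252) (nat_lit 1112918625) (nat_lit 336) (nat_lit 8415896985) (nat_lit 37) (nat_lit 5) (nat_lit 40) (nat_lit 5) (nat_lit 41) (nat_lit 5) (nat_lit 348) (nat_lit 288) (nat_lit 228)) (XT.lf (nat_lit 0) (nat_lit 7532316945) (nat_lit 336) (nat_lit 4511138745) (nat_lit 84) (nat_lit 1992402005) (nat_lit 37) (nat_lit 5) (nat_lit 41) (nat_lit 5) (nat_lit 38) (nat_lit 5) (nat_lit 349) (nat_lit 288) (nat_lit 227))) (XT.nd (nat_lit 94) (nat_lit 0) (nat_lit 0) (XT.lf (nat_lit 0) (nat_lit 625457472)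 (nat_lit 252) (nat_lit 9178738675) (nat_lit 336) (nat_lit 4541913221) (nat_lit 34) (nat_lit 5) (nat_lit 37) (nat_lit 5) (nat_lit 38) (nat_lit 5) (nat_lit 350) (nat_lit 288) (nat_lit 226)) (XT.nd (nat_lit 94) (nat_lit 0) (nat_lit 0) (XT.lf (nat_lit 0) (nat_lit 5979457453) (nat_lit 252) (nat_lit 6187353370) (nat_lit 336) (nat_lit 2498609548) (nat_lit 34) (nat_lit 5) (nat_lit 37) (nat_lit 5) (nat_lit 38) (nat_lit 5) (nat_lit 351) (nat_lit 288) (nat_lit 225)) (XT.lf (nat_lit 0) (nat_lit 11463093421) (nat_lit 252) (nat_lit 3113598530) (nat_lit 336) (nat_lit 418812195) (nat_lit 34) (nat_lit 5) (nat_lit 37) (nat_lit 5) (nat_lit 38) (nat_lit 5) (nat_lit 352) (nat_lit 288) (nat_lit 224)))))) (XT.nd (nat_lit 470) (nat_lit 504) (nat_lit 0) (XT.nd (nat_lit 188) (nat_lit 168) (nat_lit 0) (XT.nd (nat_lit 94) (nat_lit 0) (nat_lit 0) (XT.lf (nat_lit 0) (nat_lit 1683473520) (nat_lit 336) (nat_lit 13572924974)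 (nat_lit 84) (nat_lit 79180097) (nat_lit 30) (nat_lit 5) (nat_lit 34) (nat_lit 5) (nat_lit 31) (nat_lit 5) (nat_lit 353) (nat_lit 288) (nat_lit 223)) (XT.lf (nat_lit 0) (nat_lit 3886119092) (nat_lit 336) (nat_lit 8461017761) (nat_lit 84) (nat_lit 3337628038) (nat_lit 30) (nat_lit 5) (nat_lit 34) (nat_lit 5) (nat_lit 31) (nat_lit 5) (nat_lit 354) (nat_lit 288) (nat_lit 222))) (XT.nd (nat_lit 94) (nat_lit 168) (nat_lit 0) (XT.lf (nat_lit 0) (nat_lit 6132600215) (nat_lit 336) (nat_lit 3225762931) (nat_lit 84) (nat_lit 6687231657) (nat_lit 30) (nat_lit 5) (nat_lit 34) (nat_lit 5) (nat_lit 31) (nat_lit 5) (nat_lit 355) (nat_lit 288) (nat_lit 221)) (XT.nd (nat_lit 94) (nat_lit 0) (nat_lit 0) (XT.lf (nat_lit 0) (nat_lit 2181675217) (nat_lit 168) (nat_lit 6264978115) (nat_lit 252) (nat_lit 7971080407) (nat_lit 28) (nat_lit 5) (nat_lit 30) (nat_lit 5) (nat_lit 31) (nat_lit 5) (nat_lit 356) (nat_lit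 288) (nat_lit 220)) (XT.lf (nat_lit 0) (nat_lit 7791407834) (nat_lit 168) (nat_lit 3051371642) (nat_lit 252) (nat_lit 5958366429) (nat_lit 28) (nat_lit 5) (nat_lit 30) (nat_lit 5) (nat_lit 31) (nat_lit 5) (nat_lit 357) (nat_lit 288) (nat_lit 219))))) (XT.nd (nat_lit 282) (nat_lit 168) (nat_lit 0) (XT.nd (nat_lit 94) (nat_lit 336) (nat_lit 0) (XT.lf (nat_lit 0) (nat_lit 13293051837) (nat_lit 252) (nat_lit 3657363306) (nat_lit 84) (nat_lit 246708507) (nat_lit 28) (nat_lit 5) (nat_lit 31) (nat_lit 5) (nat_lit 29) (nat_lit 5) (nat_lit 358) (nat_lit 288) (nat_lit 218)) (XT.nd (nat_lit 94) (nat_lit 84) (nat_lit 0) (XT.lf (nat_lit 0) (nat_lit 1834323470) (nat_lit 252) (nat_lit 14012316381) (nat_lit 336) (nat_lit 1757942763) (nat_lit 25) (nat_lit 5) (nat_lit 28) (nat_lit 5) (nat_lit 29) (nat_lit 5) (nat_lit 359) (nat_lit 288) (nat_lit 217)) (XT.lf (nat_lit 0) (nat_lit 462144609) (nat_lit 336) (nat_lit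 10487139756) (nat_lit 84) (nat_lit 7074785105) (nat_lit 24) (nat_lit 5) (nat_lit 28) (nat_lit 5) (nat_lit 25) (nat_lit 5) (nat_lit 360) (nat_lit 288) (nat_lit 216)))) (XT.nd (nat_lit 94) (nat_lit 168) (nat_lit 0) (XT.lf (nat_lit 0) (nat_lit 2693222882) (nat_lit 336) (nat_lit 5089780819) (nat_lit 84) (nat_lit 10673709380) (nat_lit 24) (nat_lit 5) (nat_lit 28) (nat_lit 5) (nat_lit 25) (nat_lit 5) (nat_lit 361) (nat_lit 288) (nat_lit 215)) (XT.nd (nat_lit 94) (nat_lit 0) (nat_lit 0) (XT.lf (nat_lit 0) (nat_lit 453423043) (nat_lit 168) (nat_lit 4523865253) (nat_lit 252) (nat_lit 13926029591) (nat_lit 22) (nat_lit 5) (nat_lit 24) (nat_lit 5) (nat_lit 25) (nat_lit 5) (nat_lit 362) (nat_lit 288) (nat_lit 214)) (XT.lf (nat_lit 0) (nat_lit 6246068126) (nat_lit 168) (nat_lit 1118865251) (nat_lit 252) (nat_lit 11997864422) (nat_lit 22) (nat_lit 5) (nat_lit 24) (nat_lit 5) (nat_lit 25) (nat_lit 5) (nat_lit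 363) (nat_lit 288) (nat_lit 213))))))))
noncomputable def xc45 : XT := (XT.nd (nat_lit 48128) (nat_lit 0) (nat_lit 7392) (XT.nd (nat_lit 940) (nat_lit 168) (nat_lit 0) (XT.nd (nat_lit 470) (nat_lit 252) (nat_lit 0) (XT.nd (nat_lit 188) (nat_lit 168) (nat_lit 0) (XT.nd (nat_lit 94) (nat_lit 0) (nat_lit 0) (XT.lf (nat_lit 0) (nat_lit 9830484366) (nat_lit 252) (nat_lit 7671911232) (nat_lit 84) (nat_lit 2334050382) (nat_lit 22) (nat_lit 5) (nat_lit 25) (nat_lit 5) (nat_lit 23) (nat_lit 5) (nat_lit 364) (nat_lit 288) (nat_lit 212)) (XT.lf (nat_lit 0) (nat_lit 12364670300) (nat_lit 252) (nat_lit 2098795266) (nat_lit 84) (nat_lit 5861596996) (nat_lit 22) (nat_lit 5) (nat_lit 25) (nat_lit 5) (nat_lit 23) (nat_lit 5) (nat_lit 365) (nat_lit 288) (nat_lit 211))) (XT.nd (nat_lit 94) (nat_lit 0) (nat_lit 0) (XT.lf (nat_lit 0) (nat_lit 3693324492) (nat_lit 168) (nat_lit 11302067770) (nat_lit 252) (nat_lit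 5832919018) (nat_lit 20) (nat_lit 5) (nat_lit 22) (nat_lit 5) (nat_lit 23) (nat_lit 5) (nat_lit 366) (nat_lit 288) (nat_lit 210)) (XT.nd (nat_lit 94) (nat_lit 0) (nat_lit 0) (XT.lf (nat_lit 0) (nat_lit 9681603505) (nat_lit 168) (nat_lit 8029592700) (nat_lit 252) (nat_lit 3635896097) (nat_lit 20) (nat_lit 5) (nat_lit 22) (nat_lit 5) (nat_lit 23) (nat_lit 5) (nat_lit 367) (nat_lit 288) (nat_lit 209)) (XT.lf (nat_lit 0) (nat_lit 15828467943) (nat_lit 168) (nat_lit 4664897185) (nat_lit 252) (nat_lit 1389182764) (nat_lit 20) (nat_lit 5) (nat_lit 22) (nat_lit 5) (nat_lit 23) (nat_lit 5) (nat_lit 368) (nat_lit 288) (nat_lit 208))))) (XT.nd (nat_lit 188) (nat_lit 0) (nat_lit 0) (XT.nd (nat_lit 94) (nat_lit 168) (nat_lit 0) (XT.lf (nat_lit 0) (nat_lit 890994480) (nat_lit 252) (nat_lit 304550341) (nat_lit 84) (nat_lit 21239352691) (nat_lit 19) (nat_lit 5) (nat_lit 22) (nat_lit 5) (nat_lit 20) (nat_lit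 5) (nat_lit 369) (nat_lit 288) (nat_lit 207)) (XT.lf (nat_lit 0) (nat_lit 3276806836) (nat_lit 252) (nat_lit 17329025017) (nat_lit 84) (nat_lit 2396155972) (nat_lit 17) (nat_lit 5) (nat_lit 20) (nat_lit 5) (nat_lit 18) (nat_lit 5) (nat_lit 370) (nat_lit 288) (nat_lit 206))) (XT.nd (nat_lit 94) (nat_lit 0) (nat_lit 0) (XT.lf (nat_lit 0) (nat_lit 5735210032) (nat_lit 252) (nat_lit 11782622846) (nat_lit 84) (nat_lit 6068902719) (nat_lit 17) (nat_lit 5) (nat_lit 20) (nat_lit 5) (nat_lit 18) (nat_lit 5) (nat_lit 371) (nat_lit 288) (nat_lit 205)) (XT.nd (nat_lit 94) (nat_lit 0) (nat_lit 0) (XT.lf (nat_lit 0) (nat_lit 8253520769) (nat_lit 252) (nat_lit 6089537787) (nat_lit 84) (nat_lit 9847091534) (nat_lit 17) (nat_lit 5) (nat_lit 20) (nat_lit 5) (nat_lit 18) (nat_lit 5) (nat_lit 372) (nat_lit 288) (nat_lit 204)) (XT.lf (nat_lit 0) (nat_lit 10834086377) (nat_lit 252) (nat_lit 244463288) (nat_lit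 84) (nat_lit 13734244085) (nat_lit 17) (nat_lit 5) (nat_lit 20) (nat_lit 5) (nat_lit 18) (nat_lit 5) (nat_lit 373) (nat_lit 288) (nat_lit 203)))))) (XT.nd (nat_lit 46624) (nat_lit 0) (nat_lit 15204) (XT.nd (nat_lit 46342) (nat_lit 0) (nat_lit 16128) (XT.nd (nat_lit 46248) (nat_lit 0) (nat_lit 16380) (XT.lf (nat_lit 0) (nat_lit 5876446165) (nat_lit 168) (nat_lit 7661161121) (nat_lit 252) (nat_lit 11915832512) (nat_lit 15) (nat_lit 5) (nat_lit 17) (nat_lit 5) (nat_lit 18) (nat_lit 5) (nat_lit 374) (nat_lit 288) (nat_lit 202)) (XT.lf (nat_lit 0) (nat_lit 1288995757) (nat_lit 0) (nat_lit 1288995757) (nat_lit 84) (nat_lit 645405397) (nat_lit 210) (nat_lit 5) (nat_lit 210) (nat_lit 3) (nat_lit 211) (nat_lit 0) (nat_lit 289) (nat_lit 289) (nat_lit 286))) (XT.nd (nat_lit 94) (nat_lit 0) (nat_lit 0) (XT.lf (nat_lit 0) (nat_lit 1206781861) (nat_lit 252) (nat_lit 1225334331) (nat_lit 252) (nat_lit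 4021402985) (nat_lit 207) (nat_lit 3) (nat_lit 210) (nat_lit 3) (nat_lit 210) (nat_lit 5) (nat_lit 290) (nat_lit 289) (nat_lit 285)) (XT.nd (nat_lit 94) (nat_lit 0) (nat_lit 0) (XT.lf (nat_lit 84) (nat_lit 1464303832) (nat_lit 0) (nat_lit 2204825097) (nat_lit 252) (nat_lit 2794236305) (nat_lit 208) (nat_lit 5) (nat_lit 207) (nat_lit 3) (nat_lit 210) (nat_lit 5) (nat_lit 291) (nat_lit 289) (nat_lit 284)) (XT.lf (nat_lit 84) (nat_lit 4211746642) (nat_lit 0) (nat_lit 1910975175) (nat_lit 252) (nat_lit 354072441) (nat_lit 208) (nat_lit 5) (nat_lit 207) (nat_lit 3) (nat_lit 210) (nat_lit 5) (nat_lit 292) (nat_lit 289) (nat_lit 283))))) (XT.nd (nat_lit 282) (nat_lit 336) (nat_lit 0) (XT.nd (nat_lit 94) (nat_lit 336) (nat_lit 0) (XT.lf (nat_lit 84) (nat_lit 489552076) (nat_lit 0) (nat_lit 1536973461) (nat_lit 336) (nat_lit 4466892754) (nat_lit 205) (nat_lit 5) (nat_lit 204) (nat_lit 5) (nat_lit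 208) (nat_lit 5) (nat_lit 293) (nat_lit 289) (nat_lit 282)) (XT.nd (nat_lit 94) (nat_lit 336) (nat_lit 0) (XT.lf (nat_lit 84) (nat_lit 3321811580) (nat_lit 0) (nat_lit 1081233698) (nat_lit 336) (nat_lit 2110170338) (nat_lit 205) (nat_lit 5) (nat_lit 204) (nat_lit 5) (nat_lit 208) (nat_lit 5) (nat_lit 294) (nat_lit 289) (nat_lit 281)) (XT.lf (nat_lit 0) (nat_lit 220384793) (nat_lit 336) (nat_lit 347873046) (nat_lit 420) (nat_lit 5968696340) (nat_lit 200) (nat_lit 5) (nat_lit 204) (nat_lit 5) (nat_lit 205) (nat_lit 5) (nat_lit 295) (nat_lit 289) (nat_lit 280)))) (XT.nd (nat_lit 94) (nat_lit 420) (nat_lit 0) (XT.lf (nat_lit 0) (nat_lit 2515251284) (nat_lit 336) (nat_lit 4001268735) (nat_lit 84) (nat_lit 46759671) (nat_lit 201) (nat_lit 5) (nat_lit 205) (nat_lit 5) (nat_lit 202) (nat_lit 5) (nat_lit 296) (nat_lit 289) (nat_lit 279)) (XT.nd (nat_lit 94) (nat_lit 420) (nat_lit 0) (XT.lf (nat_lit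 0) (nat_lit 4803310796) (nat_lit 336) (nat_lit 1081121907) (nat_lit 84) (nat_lit 708921864) (nat_lit 201) (nat_lit 5) (nat_lit 205) (nat_lit 5) (nat_lit 202) (nat_lit 5) (nat_lit 297) (nat_lit 289) (nat_lit 278)) (XT.lf (nat_lit 0) (nat_lit 460137056) (nat_lit 420) (nat_lit 4716225419) (nat_lit 84) (nat_lit 1450395993) (nat_lit 196) (nat_lit 5) (nat_lit 201) (nat_lit 5) (nat_lit 197) (nat_lit 5) (nat_lit 298) (nat_lit 289) (nat_lit 277))))))) (XT.nd (nat_lit 1034) (nat_lit 4620) (nat_lit 0) (XT.nd (nat_lit 470) (nat_lit 2184) (nat_lit 0) (XT.nd (nat_lit 188) (nat_lit 588) (nat_lit 0) (XT.nd (nat_lit 94) (nat_lit 420) (nat_lit 0) (XT.lf (nat_lit 0) (nat_lit 2670199181) (nat_lit 420) (nat_lit 1715892327) (nat_lit 84) (nat_lit 2277263908) (nat_lit 196) (nat_lit 5) (nat_lit 201) (nat_lit 5) (nat_lit 197) (nat_lit 5) (nat_lit 299) (nat_lit 289) (nat_lit 276)) (XT.lf (nat_lit 0) (nat_lit 1351856327)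 (nat_lit 420) (nat_lit 3528764923) (nat_lit 504) (nat_lit 1823035802) (nat_lit 191) (nat_lit 5) (nat_lit 196) (nat_lit 5) (nat_lit 197) (nat_lit 5) (nat_lit 300) (nat_lit 289) (nat_lit 275))) (XT.nd (nat_lit 94) (nat_lit 504) (nat_lit 0) (XT.lf (nat_lit 0) (nat_lit 343225412) (nat_lit 504) (nat_lit 2252255458) (nat_lit 84) (nat_lit 4151976441) (nat_lit 190) (nat_lit 5) (nat_lit 196) (nat_lit 5) (nat_lit 191) (nat_lit 5) (nat_lit 301) (nat_lit 289) (nat_lit 274)) (XT.nd (nat_lit 94) (nat_lit 0) (nat_lit 0) (XT.lf (nat_lit 0) (nat_lit 889905169) (nat_lit 504) (nat_lit 1579248486) (nat_lit 588) (nat_lit 4325459322) (nat_lit 184) (nat_lit 5) (nat_lit 190) (nat_lit 5) (nat_lit 191) (nat_lit 5) (nat_lit 302) (nat_lit 289) (nat_lit 273)) (XT.lf (nat_lit 0) (nat_lit 4124998723) (nat_lit 504) (nat_lit 482890261) (nat_lit 588) (nat_lit 2237392365) (nat_lit 184) (nat_lit 5) (nat_lit 190) (nat_lit 5)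 (nat_lit 191) (nat_lit 5) (nat_lit 303) (nat_lit 289) (nat_lit 272))))) (XT.nd (nat_lit 282) (nat_lit 840) (nat_lit 0) (XT.nd (nat_lit 94) (nat_lit 756) (nat_lit 0) (XT.lf (nat_lit 0) (nat_lit 513195418) (nat_lit 588) (nat_lit 6237175866) (nat_lit 672) (nat_lit 149481034) (nat_lit 177) (nat_lit 5) (nat_lit 184) (nat_lit 5) (nat_lit 185) (nat_lit 5) (nat_lit 304) (nat_lit 289) (nat_lit 271)) (XT.nd (nat_lit 94) (nat_lit 672) (nat_lit 0) (XT.lf (nat_lit 0) (nat_lit 1922939754) (nat_lit 672) (nat_lit 3130674828) (nat_lit 84) (nat_lit 1903489395) (nat_lit 176) (nat_lit 5) (nat_lit 184) (nat_lit 5) (nat_lit 177) (nat_lit 5) (nat_lit 305) (nat_lit 289) (nat_lit 270)) (XT.lf (nat_lit 0) (nat_lit 174971318) (nat_lit 672) (nat_lit 3811994241) (nat_lit 756) (nat_lit 3031631406) (nat_lit 168) (nat_lit 5) (nat_lit 176) (nat_lit 5) (nat_lit 177) (nat_lit 5) (nat_lit 306) (nat_lit 289) (nat_lit 269))))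 (XT.nd (nat_lit 94) (nat_lit 840) (nat_lit 0) (XT.lf (nat_lit 0) (nat_lit 3596732632) (nat_lit 672) (nat_lit 2481270553) (nat_lit 756) (nat_lit 1005486780) (nat_lit 168) (nat_lit 5) (nat_lit 176) (nat_lit 5) (nat_lit 177) (nat_lit 5) (nat_lit 307) (nat_lit 289) (nat_lit 268)) (XT.nd (nat_lit 94) (nat_lit 756) (nat_lit 0) (XT.lf (nat_lit 0) (nat_lit 993061037) (nat_lit 756) (nat_lit 89454411) (nat_lit 84) (nat_lit 6069998900) (nat_lit 167) (nat_lit 5) (nat_lit 176) (nat_lit 5) (nat_lit 168) (nat_lit 5) (nat_lit 308) (nat_lit 289) (nat_lit 267)) (XT.lf (nat_lit 0) (nat_lit 3004264079) (nat_lit 840) (nat_lit 3808350941) (nat_lit 84) (nat_lit 411942632) (nat_lit 158) (nat_lit 5) (nat_lit 168) (nat_lit 5) (nat_lit 159) (nat_lit 5) (nat_lit 309) (nat_lit 289) (nat_lit 266)))))) (XT.nd (nat_lit 470) (nat_lit 2772) (nat_lit 0) (XT.nd (nat_lit 188) (nat_lit 1008) (nat_lit 0) (XT.nd (nat_lit 94) (nat_lit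 840) (nat_lit 0) (XT.lf (nat_lit 0) (nat_lit 5024951129) (nat_lit 840) (nat_lit 330682244) (nat_lit 84) (nat_lit 1945147300) (nat_lit 158) (nat_lit 5) (nat_lit 168) (nat_lit 5) (nat_lit 159) (nat_lit 5) (nat_lit 310) (nat_lit 289) (nat_lit 265)) (XT.lf (nat_lit 0) (nat_lit 3269022917) (nat_lit 840) (nat_lit 3808758278) (nat_lit 924) (nat_lit 302829222) (nat_lit 148) (nat_lit 5) (nat_lit 158) (nat_lit 5) (nat_lit 159) (nat_lit 5) (nat_lit 311) (nat_lit 289) (nat_lit 264))) (XT.nd (nat_lit 94) (nat_lit 924) (nat_lit 0) (XT.lf (nat_lit 0) (nat_lit 1637483201) (nat_lit 924) (nat_lit 545365939) (nat_lit 84) (nat_lit 5281642026) (nat_lit 147) (nat_lit 5) (nat_lit 158) (nat_lit 5) (nat_lit 148) (nat_lit 5) (nat_lit 312) (nat_lit 289) (nat_lit 263)) (XT.nd (nat_lit 94) (nat_lit 0) (nat_lit 0) (XT.lf (nat_lit 0) (nat_lit 3140492127) (nat_lit 924) (nat_lit 461739346) (nat_lit 1008) (nat_lit 3949829105)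 (nat_lit 136) (nat_lit 5) (nat_lit 147) (nat_lit 5) (nat_lit 148) (nat_lit 5) (nat_lit 313) (nat_lit 289) (nat_lit 262)) (XT.lf (nat_lit 0) (nat_lit 5587488470) (nat_lit 1008) (nat_lit 755838481) (nat_lit 84) (nat_lit 1300534106) (nat_lit 136) (nat_lit 5) (nat_lit 148) (nat_lit 5) (nat_lit 137) (nat_lit 5) (nat_lit 314) (nat_lit 289) (nat_lit 261))))) (XT.nd (nat_lit 282) (nat_lit 588) (nat_lit 0) (XT.nd (nat_lit 94) (nat_lit 1176) (nat_lit 0) (XT.lf (nat_lit 0) (nat_lit 3018128689) (nat_lit 1008) (nat_lit 4593430039) (nat_lit 1092) (nat_lit 127909370) (nat_lit 124) (nat_lit 5) (nat_lit 136) (nat_lit 5) (nat_lit 137) (nat_lit 5) (nat_lit 315) (nat_lit 289) (nat_lit 260)) (XT.nd (nat_lit 94) (nat_lit 1092) (nat_lit 0) (XT.lf (nat_lit 0) (nat_lit 1773837484) (nat_lit 1092) (nat_lit 983288717) (nat_lit 84) (nat_lit 5082101141) (nat_lit 123) (nat_lit 5) (nat_lit 136) (nat_lit 5) (nat_lit 124)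 (nat_lit 5) (nat_lit 316) (nat_lit 289) (nat_lit 259)) (XT.lf (nat_lit 0) (nat_lit 2876788787) (nat_lit 1092) (nat_lit 828357123) (nat_lit 1176) (nat_lit 4237955171) (nat_lit 110) (nat_lit 5) (nat_lit 123) (nat_lit 5) (nat_lit 124) (nat_lit 5) (nat_lit 317) (nat_lit 289) (nat_lit 258)))) (XT.nd (nat_lit 94) (nat_lit 588) (nat_lit 0) (XT.lf (nat_lit 0) (nat_lit 5664135872) (nat_lit 1176) (nat_lit 1236056110) (nat_lit 84) (nat_lit 1151227465) (nat_lit 110) (nat_lit 5) (nat_lit 124) (nat_lit 5) (nat_lit 111) (nat_lit 5) (nat_lit 318) (nat_lit 289) (nat_lit 257)) (XT.nd (nat_lit 94) (nat_lit 84) (nat_lit 0) (XT.lf (nat_lit 0) (nat_lit 2708662137) (nat_lit 504) (nat_lit 4958093591) (nat_lit 588) (nat_lit 497089882) (nat_lit 104) (nat_lit 5) (nat_lit 110) (nat_lit 5) (nat_lit 111) (nat_lit 5) (nat_lit 319) (nat_lit 289) (nat_lit 256)) (XT.lf (nat_lit 0) (nat_lit 1383391810) (nat_lit 588) (nat_lit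 1543164837) (nat_lit 84) (nat_lit 5354171591) (nat_lit 103) (nat_lit 5) (nat_lit 110) (nat_lit 5) (nat_lit 104) (nat_lit 5) (nat_lit 320) (nat_lit 289) (nat_lit 255))))))))
noncomputable def xc46 : XT := (XT.nd (nat_lit 1974) (nat_lit 2184) (nat_lit 0) (XT.nd (nat_lit 940) (nat_lit 2016) (nat_lit 0) (XT.nd (nat_lit 470) (nat_lit 924) (nat_lit 0) (XT.nd (nat_lit 188) (nat_lit 1092) (nat_lit 0) (XT.nd (nat_lit 94) (nat_lit 0) (nat_lit 0) (XT.lf (nat_lit 0) (nat_lit 2485512478) (nat_lit 588) (nat_lit 800459824) (nat_lit 672) (nat_lit 5116106927) (nat_lit 96) (nat_lit 5) (nat_lit 103) (nat_lit 5) (nat_lit 104) (nat_lit 5) (nat_lit 321) (nat_lit 289) (nat_lit 254)) (XT.lf (nat_lit 0) (nat_lit 5228118293) (nat_lit 672) (nat_lit 1919706689) (nat_lit 84) (nat_lit 1380163558) (nat_lit 96) (nat_lit 5) (nat_lit 104) (nat_lit 5) (nat_lit 97) (nat_lit 5) (nat_lit 322) (nat_lit 289) (nat_lit 253))) (XT.nd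 (nat_lit 94) (nat_lit 588) (nat_lit 0) (XT.lf (nat_lit 0) (nat_lit 2187635847) (nat_lit 504) (nat_lit 5024720472) (nat_lit 588) (nat_lit 1446195009) (nat_lit 90) (nat_lit 5) (nat_lit 96) (nat_lit 5) (nat_lit 97) (nat_lit 5) (nat_lit 323) (nat_lit 289) (nat_lit 252)) (XT.nd (nat_lit 94) (nat_lit 504) (nat_lit 0) (XT.lf (nat_lit 0) (nat_lit 428115001) (nat_lit 588) (nat_lit 2384323460) (nat_lit 84) (nat_lit 5981608990) (nat_lit 89) (nat_lit 5) (nat_lit 96) (nat_lit 5) (nat_lit 90) (nat_lit 5) (nat_lit 324) (nat_lit 289) (nat_lit 251)) (XT.lf (nat_lit 0) (nat_lit 1802001913) (nat_lit 504) (nat_lit 500091978) (nat_lit 588) (nat_lit 6632243969) (nat_lit 83) (nat_lit 5) (nat_lit 89) (nat_lit 5) (nat_lit 90) (nat_lit 5) (nat_lit 325) (nat_lit 289) (nat_lit 250))))) (XT.nd (nat_lit 188) (nat_lit 504) (nat_lit 0) (XT.nd (nat_lit 94) (nat_lit 420) (nat_lit 0) (XT.lf (nat_lit 0) (nat_lit 4232616381)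 (nat_lit 588) (nat_lit 2978021923) (nat_lit 84) (nat_lit 1868554052) (nat_lit 83) (nat_lit 5) (nat_lit 90) (nat_lit 5) (nat_lit 84) (nat_lit 5) (nat_lit 326) (nat_lit 289) (nat_lit 249)) (XT.lf (nat_lit 0) (nat_lit 1277669796) (nat_lit 420) (nat_lit 4919088554) (nat_lit 504) (nat_lit 3032754040) (nat_lit 78) (nat_lit 5) (nat_lit 83) (nat_lit 5) (nat_lit 84) (nat_lit 5) (nat_lit 327) (nat_lit 289) (nat_lit 248))) (XT.nd (nat_lit 94) (nat_lit 504) (nat_lit 0) (XT.lf (nat_lit 0) (nat_lit 5680873282) (nat_lit 420) (nat_lit 2528835555) (nat_lit 504) (nat_lit 1175315134) (nat_lit 78) (nat_lit 5) (nat_lit 83) (nat_lit 5) (nat_lit 84) (nat_lit 5) (nat_lit 328) (nat_lit 289) (nat_lit 247)) (XT.nd (nat_lit 94) (nat_lit 0) (nat_lit 0) (XT.lf (nat_lit 0) (nat_lit 633507355) (nat_lit 420) (nat_lit 55134084) (nat_lit 504) (nat_lit 8857756283) (nat_lit 72) (nat_lit 5) (nat_lit 77) (nat_lit 5) (nat_lit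 78) (nat_lit 5) (nat_lit 329) (nat_lit 289) (nat_lit 246)) (XT.lf (nat_lit 0) (nat_lit 2608098400) (nat_lit 504) (nat_lit 4612630919) (nat_lit 84) (nat_lit 2491129407) (nat_lit 72) (nat_lit 5) (nat_lit 78) (nat_lit 5) (nat_lit 73) (nat_lit 5) (nat_lit 330) (nat_lit 289) (nat_lit 245)))))) (XT.nd (nat_lit 470) (nat_lit 1092) (nat_lit 0) (XT.nd (nat_lit 188) (nat_lit 504) (nat_lit 0) (XT.nd (nat_lit 94) (nat_lit 420) (nat_lit 0) (XT.lf (nat_lit 0) (nat_lit 4547195073) (nat_lit 504) (nat_lit 226227637) (nat_lit 84) (nat_lit 5110401162) (nat_lit 72) (nat_lit 5) (nat_lit 78) (nat_lit 5) (nat_lit 73) (nat_lit 5) (nat_lit 331) (nat_lit 289) (nat_lit 244)) (XT.lf (nat_lit 0) (nat_lit 4338363355) (nat_lit 420) (nat_lit 2211865709) (nat_lit 504) (nat_lit 3510907192) (nat_lit 67) (nat_lit 5) (nat_lit 72) (nat_lit 5) (nat_lit 73) (nat_lit 5) (nat_lit 332) (nat_lit 289) (nat_lit 243))) (XT.nd (nat_lit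 94) (nat_lit 504) (nat_lit 0) (XT.lf (nat_lit 0) (nat_lit 8583460579) (nat_lit 504) (nat_lit 1244903431) (nat_lit 84) (nat_lit 416700951) (nat_lit 67) (nat_lit 5) (nat_lit 73) (nat_lit 5) (nat_lit 68) (nat_lit 5) (nat_lit 333) (nat_lit 289) (nat_lit 242)) (XT.nd (nat_lit 94) (nat_lit 0) (nat_lit 0) (XT.lf (nat_lit 0) (nat_lit 258854633) (nat_lit 504) (nat_lit 7064377325) (nat_lit 84) (nat_lit 3110929541) (nat_lit 61) (nat_lit 5) (nat_lit 67) (nat_lit 5) (nat_lit 62) (nat_lit 5) (nat_lit 334) (nat_lit 289) (nat_lit 241)) (XT.lf (nat_lit 0) (nat_lit 2180269485) (nat_lit 504) (nat_lit 2536978181) (nat_lit 84) (nat_lit 5912210886) (nat_lit 61) (nat_lit 5) (nat_lit 67) (nat_lit 5) (nat_lit 62) (nat_lit 5) (nat_lit 335) (nat_lit 289) (nat_lit 240))))) (XT.nd (nat_lit 282) (nat_lit 420) (nat_lit 0) (XT.nd (nat_lit 94) (nat_lit 336) (nat_lit 0) (XT.lf (nat_lit 0) (nat_lit 2129987292) (nat_lit 336)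 (nat_lit 2016318769) (nat_lit 420) (nat_lit 6685082764) (nat_lit 57) (nat_lit 5) (nat_lit 61) (nat_lit 5) (nat_lit 62) (nat_lit 5) (nat_lit 336) (nat_lit 289) (nat_lit 239)) (XT.nd (nat_lit 94) (nat_lit 336) (nat_lit 0) (XT.lf (nat_lit 0) (nat_lit 6172169348) (nat_lit 420) (nat_lit 4095627196) (nat_lit 84) (nat_lit 771929449) (nat_lit 57) (nat_lit 5) (nat_lit 62) (nat_lit 5) (nat_lit 58) (nat_lit 5) (nat_lit 337) (nat_lit 289) (nat_lit 238)) (XT.lf (nat_lit 0) (nat_lit 601367189) (nat_lit 336) (nat_lit 7651628148) (nat_lit 420) (nat_lit 3001878230) (nat_lit 53) (nat_lit 5) (nat_lit 57) (nat_lit 5) (nat_lit 58) (nat_lit 5) (nat_lit 338) (nat_lit 289) (nat_lit 237)))) (XT.nd (nat_lit 94) (nat_lit 420) (nat_lit 0) (XT.lf (nat_lit 0) (nat_lit 5488176449) (nat_lit 336) (nat_lit 4919085916) (nat_lit 420) (nat_lit 1069257022) (nat_lit 53) (nat_lit 5) (nat_lit 57) (nat_lit 5) (nat_lit 58) (nat_lit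 5) (nat_lit 339) (nat_lit 289) (nat_lit 236)) (XT.nd (nat_lit 94) (nat_lit 336) (nat_lit 0) (XT.lf (nat_lit 0) (nat_lit 871439843) (nat_lit 420) (nat_lit 1229836892) (nat_lit 84) (nat_lit 9604605218) (nat_lit 52) (nat_lit 5) (nat_lit 57) (nat_lit 5) (nat_lit 53) (nat_lit 5) (nat_lit 340) (nat_lit 289) (nat_lit 235)) (XT.lf (nat_lit 0) (nat_lit 2862922968) (nat_lit 420) (nat_lit 8251430400) (nat_lit 84) (nat_lit 827360892) (nat_lit 48) (nat_lit 5) (nat_lit 53) (nat_lit 5) (nat_lit 49) (nat_lit 5) (nat_lit 341) (nat_lit 289) (nat_lit 234))))))) (XT.nd (nat_lit 1034) (nat_lit 1008) (nat_lit 0) (XT.nd (nat_lit 470) (nat_lit 504) (nat_lit 0) (XT.nd (nat_lit 188) (nat_lit 336) (nat_lit 0) (XT.nd (nat_lit 94) (nat_lit 336) (nat_lit 0) (XT.lf (nat_lit 0) (nat_lit 4918848110) (nat_lit 420) (nat_lit 3458508186) (nat_lit 84) (nat_lit 3807510706) (nat_lit 48) (nat_lit 5) (nat_lit 53) (nat_lit 5) (nat_lit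 49) (nat_lit 5) (nat_lit 342) (nat_lit 289) (nat_lit 233)) (XT.lf (nat_lit 0) (nat_lit 1472480827) (nat_lit 336) (nat_lit 5549834707) (nat_lit 420) (nat_lit 5413834589) (nat_lit 44) (nat_lit 5) (nat_lit 48) (nat_lit 5) (nat_lit 49) (nat_lit 5) (nat_lit 343) (nat_lit 289) (nat_lit 232))) (XT.nd (nat_lit 94) (nat_lit 336) (nat_lit 0) (XT.lf (nat_lit 0) (nat_lit 6589874858) (nat_lit 336) (nat_lit 2606948220) (nat_lit 420) (nat_lit 3498307114) (nat_lit 44) (nat_lit 5) (nat_lit 48) (nat_lit 5) (nat_lit 49) (nat_lit 5) (nat_lit 344) (nat_lit 289) (nat_lit 231)) (XT.nd (nat_lit 94) (nat_lit 336) (nat_lit 0) (XT.lf (nat_lit 0) (nat_lit 11413529400) (nat_lit 420) (nat_lit 1139950298) (nat_lit 84) (nat_lit 409525821) (nat_lit 44) (nat_lit 5) (nat_lit 49) (nat_lit 5) (nat_lit 45) (nat_lit 5) (nat_lit 345) (nat_lit 289) (nat_lit 230)) (XT.lf (nat_lit 0) (nat_lit 488538971) (nat_lit 336) (nat_lit 9248236517)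 (nat_lit 84) (nat_lit 3501169345) (nat_lit 40) (nat_lit 5) (nat_lit 44) (nat_lit 5) (nat_lit 41) (nat_lit 5) (nat_lit 346) (nat_lit 289) (nat_lit 229))))) (XT.nd (nat_lit 282) (nat_lit 252) (nat_lit 0) (XT.nd (nat_lit 94) (nat_lit 252) (nat_lit 0) (XT.lf (nat_lit 0) (nat_lit 2541120575) (nat_lit 336) (nat_lit 4273025030) (nat_lit 84) (nat_lit 6707357452) (nat_lit 40) (nat_lit 5) (nat_lit 44) (nat_lit 5) (nat_lit 41) (nat_lit 5) (nat_lit 347) (nat_lit 289) (nat_lit 228)) (XT.nd (nat_lit 94) (nat_lit 0) (nat_lit 0) (XT.lf (nat_lit 0) (nat_lit 835848078) (nat_lit 252) (nat_lit 3802185030) (nat_lit 336) (nat_lit 9176492278) (nat_lit 37) (nat_lit 5) (nat_lit 40) (nat_lit 5) (nat_lit 41) (nat_lit 5) (nat_lit 348) (nat_lit 289) (nat_lit 227)) (XT.lf (nat_lit 0) (nat_lit 6156650477) (nat_lit 252) (nat_lit 660772492) (nat_lit 336) (nat_lit 7298740029) (nat_lit 37) (nat_lit 5) (nat_lit 40) (nat_lit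 5) (nat_lit 41) (nat_lit 5) (nat_lit 349) (nat_lit 289) (nat_lit 226)))) (XT.nd (nat_lit 94) (nat_lit 252) (nat_lit 0) (XT.lf (nat_lit 0) (nat_lit 9063540068) (nat_lit 336) (nat_lit 2847037608) (nat_lit 84) (nat_lit 2516670604) (nat_lit 37) (nat_lit 5) (nat_lit 41) (nat_lit 5) (nat_lit 38) (nat_lit 5) (nat_lit 350) (nat_lit 289) (nat_lit 225)) (XT.nd (nat_lit 94) (nat_lit 0) (nat_lit 0) (XT.lf (nat_lit 0) (nat_lit 2430529755) (nat_lit 252) (nat_lit 8954012220) (nat_lit 336) (nat_lit 3363341239) (nat_lit 34) (nat_lit 5) (nat_lit 37) (nat_lit 5) (nat_lit 38) (nat_lit 5) (nat_lit 351) (nat_lit 289) (nat_lit 224)) (XT.lf (nat_lit 0) (nat_lit 7896812003) (nat_lit 252) (nat_lit 5885206569) (nat_lit 336) (nat_lit 1296365870) (nat_lit 34) (nat_lit 5) (nat_lit 37) (nat_lit 5) (nat_lit 38) (nat_lit 5) (nat_lit 352) (nat_lit 289) (nat_lit 223)))))) (XT.nd (nat_lit 470) (nat_lit 504) (nat_lit 0) (XT.nd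 (nat_lit 188) (nat_lit 168) (nat_lit 0) (XT.nd (nat_lit 94) (nat_lit 252) (nat_lit 0) (XT.lf (nat_lit 0) (nat_lit 793119141) (nat_lit 336) (nat_lit 1929619830) (nat_lit 84) (nat_lit 12696965672) (nat_lit 33) (nat_lit 5) (nat_lit 37) (nat_lit 5) (nat_lit 34) (nat_lit 5) (nat_lit 353) (nat_lit 289) (nat_lit 222)) (XT.lf (nat_lit 0) (nat_lit 2936982671) (nat_lit 336) (nat_lit 12267782812) (nat_lit 84) (nat_lit 565977736) (nat_lit 30) (nat_lit 5) (nat_lit 34) (nat_lit 5) (nat_lit 31) (nat_lit 5) (nat_lit 354) (nat_lit 289) (nat_lit 221))) (XT.nd (nat_lit 94) (nat_lit 168) (nat_lit 0) (XT.lf (nat_lit 0) (nat_lit 5171789048) (nat_lit 336) (nat_lit 7049300741) (nat_lit 84) (nat_lit 3910874387) (nat_lit 30) (nat_lit 5) (nat_lit 34) (nat_lit 5) (nat_lit 31) (nat_lit 5) (nat_lit 355) (nat_lit 289) (nat_lit 220)) (XT.nd (nat_lit 94) (nat_lit 168) (nat_lit 0) (XT.lf (nat_lit 0) (nat_lit 7452875967)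 (nat_lit 336) (nat_lit 1702086924) (nat_lit 84) (nat_lit 7350190426) (nat_lit 30) (nat_lit 5) (nat_lit 34) (nat_lit 5) (nat_lit 31) (nat_lit 5) (nat_lit 356) (nat_lit 289) (nat_lit 219)) (XT.lf (nat_lit 0) (nat_lit 3856543558) (nat_lit 168) (nat_lit 5964083469) (nat_lit 252) (nat_lit 7068845487) (nat_lit 28) (nat_lit 5) (nat_lit 30) (nat_lit 5) (nat_lit 31) (nat_lit 5) (nat_lit 357) (nat_lit 289) (nat_lit 218))))) (XT.nd (nat_lit 282) (nat_lit 252) (nat_lit 0) (XT.nd (nat_lit 94) (nat_lit 252) (nat_lit 0) (XT.lf (nat_lit 0) (nat_lit 9591851670) (nat_lit 168) (nat_lit 2665742080) (nat_lit 252) (nat_lit 5028295563) (nat_lit 28) (nat_lit 5) (nat_lit 30) (nat_lit 5) (nat_lit 31) (nat_lit 5) (nat_lit 358) (nat_lit 289) (nat_lit 217)) (XT.nd (nat_lit 94) (nat_lit 252) (nat_lit 0) (XT.lf (nat_lit 0) (nat_lit 14756011297) (nat_lit 252) (nat_lit 2228318245) (nat_lit 84) (nat_lit 710754800) (nat_lit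 28) (nat_lit 5) (nat_lit 31) (nat_lit 5) (nat_lit 29) (nat_lit 5) (nat_lit 359) (nat_lit 289) (nat_lit 216)) (XT.lf (nat_lit 0) (nat_lit 3417995169) (nat_lit 252) (nat_lit 13954313895) (nat_lit 336) (nat_lit 743452831) (nat_lit 25) (nat_lit 5) (nat_lit 28) (nat_lit 5) (nat_lit 29) (nat_lit 5) (nat_lit 360) (nat_lit 289) (nat_lit 215)))) (XT.nd (nat_lit 94) (nat_lit 168) (nat_lit 0) (XT.lf (nat_lit 0) (nat_lit 1492424990) (nat_lit 336) (nat_lit 9308103381) (nat_lit 84) (nat_lit 7748444849) (nat_lit 24) (nat_lit 5) (nat_lit 28) (nat_lit 5) (nat_lit 25) (nat_lit 5) (nat_lit 361) (nat_lit 289) (nat_lit 214)) (XT.nd (nat_lit 94) (nat_lit 168) (nat_lit 0) (XT.lf (nat_lit 0) (nat_lit 3762119095) (nat_lit 336) (nat_lit 3788652572) (nat_lit 84) (nat_lit 11445274686) (nat_lit 24) (nat_lit 5) (nat_lit 28) (nat_lit 5) (nat_lit 25) (nat_lit 5) (nat_lit 362) (nat_lit 289) (nat_lit 213)) (XT.lf (nat_lit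 0) (nat_lit 1911620442) (nat_lit 168) (nat_lit 4190067061) (nat_lit 252) (nat_lit 13355351270) (nat_lit 22) (nat_lit 5) (nat_lit 24) (nat_lit 5) (nat_lit 25) (nat_lit 5) (nat_lit 363) (nat_lit 289) (nat_lit 212))))))))
noncomputable def xc47 : XT := (XT.nd (nat_lit 48222) (nat_lit 0) (nat_lit 6804) (XT.nd (nat_lit 940) (nat_lit 168) (nat_lit 0) (XT.nd (nat_lit 470) (nat_lit 252) (nat_lit 0) (XT.nd (nat_lit 188) (nat_lit 168) (nat_lit 0) (XT.nd (nat_lit 94) (nat_lit 0) (nat_lit 0) (XT.lf (nat_lit 0) (nat_lit 7840415234) (nat_lit 168) (nat_lit 693765385) (nat_lit 252) (nat_lit 11397552595) (nat_lit 22) (nat_lit 5) (nat_lit 24) (nat_lit 5) (nat_lit 25) (nat_lit 5) (nat_lit 364) (nat_lit 289) (nat_lit 211)) (XT.lf (nat_lit 0) (nat_lit 11052295751) (nat_lit 252) (nat_lit 6525192282) (nat_lit 84) (nat_lit 2843380777) (nat_lit 22) (nat_lit 5) (nat_lit 25) (nat_lit 5) (nat_lit 23) (nat_lit 5) (nat_lit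 365) (nat_lit 289) (nat_lit 210))) (XT.nd (nat_lit 94) (nat_lit 168) (nat_lit 0) (XT.lf (nat_lit 0) (nat_lit 13637467194) (nat_lit 252) (nat_lit 820940171) (nat_lit 84) (nat_lit 6467142422) (nat_lit 22) (nat_lit 5) (nat_lit 25) (nat_lit 5) (nat_lit 23) (nat_lit 5) (nat_lit 366) (nat_lit 289) (nat_lit 209)) (XT.nd (nat_lit 94) (nat_lit 0) (nat_lit 0) (XT.lf (nat_lit 0) (nat_lit 5137139462) (nat_lit 168) (nat_lit 11199043956) (nat_lit 252) (nat_lit 5108696699) (nat_lit 20) (nat_lit 5) (nat_lit 22) (nat_lit 5) (nat_lit 23) (nat_lit 5) (nat_lit 367) (nat_lit 289) (nat_lit 208)) (XT.lf (nat_lit 0) (nat_lit 11271085213) (nat_lit 168) (nat_lit 7838754580) (nat_lit 252) (nat_lit 2870778800) (nat_lit 20) (nat_lit 5) (nat_lit 22) (nat_lit 5) (nat_lit 23) (nat_lit 5) (nat_lit 368) (nat_lit 289) (nat_lit 207))))) (XT.nd (nat_lit 188) (nat_lit 0) (nat_lit 0) (XT.nd (nat_lit 94) (nat_lit 252) (nat_lit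 0) (XT.lf (nat_lit 0) (nat_lit 17569734348) (nat_lit 168) (nat_lit 4382976026) (nat_lit 252) (nat_lit 580811856) (nat_lit 20) (nat_lit 5) (nat_lit 22) (nat_lit 5) (nat_lit 23) (nat_lit 5) (nat_lit 369) (nat_lit 289) (nat_lit 206)) (XT.lf (nat_lit 0) (nat_lit 936221717) (nat_lit 168) (nat_lit 800876995) (nat_lit 252) (nat_lit 21366177500) (nat_lit 17) (nat_lit 5) (nat_lit 19) (nat_lit 5) (nat_lit 20) (nat_lit 5) (nat_lit 370) (nat_lit 289) (nat_lit 205))) (XT.nd (nat_lit 94) (nat_lit 0) (nat_lit 0) (XT.lf (nat_lit 0) (nat_lit 4179530050) (nat_lit 252) (nat_lit 16625142571) (nat_lit 84) (nat_lit 2883863303) (nat_lit 17) (nat_lit 5) (nat_lit 20) (nat_lit 5) (nat_lit 18) (nat_lit 5) (nat_lit 371) (nat_lit 289) (nat_lit 204)) (XT.nd (nat_lit 94) (nat_lit 0) (nat_lit 0) (XT.lf (nat_lit 0) (nat_lit 6690055085) (nat_lit 252) (nat_lit 10944118663) (nat_lit 84) (nat_lit 6658034335) (nat_lit 17) (nat_lit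 5) (nat_lit 20) (nat_lit 5) (nat_lit 18) (nat_lit 5) (nat_lit 372) (nat_lit 289) (nat_lit 203)) (XT.lf (nat_lit 0) (nat_lit 9263069090) (nat_lit 252) (nat_lit 5110742662) (nat_lit 84) (nat_lit 10541289909) (nat_lit 17) (nat_lit 5) (nat_lit 20) (nat_lit 5) (nat_lit 18) (nat_lit 5) (nat_lit 373) (nat_lit 289) (nat_lit 202)))))) (XT.nd (nat_lit 46718) (nat_lit 0) (nat_lit 15120) (XT.nd (nat_lit 46436) (nat_lit 0) (nat_lit 15876) (XT.nd (nat_lit 46342) (nat_lit 0) (nat_lit 16128) (XT.lf (nat_lit 0) (nat_lit 898526047) (nat_lit 168) (nat_lit 11011357827) (nat_lit 252) (nat_lit 13647637067) (nat_lit 15) (nat_lit 5) (nat_lit 17) (nat_lit 5) (nat_lit 18) (nat_lit 5) (nat_lit 374) (nat_lit 289) (nat_lit 201)) (XT.lf (nat_lit 0) (nat_lit 1814470864) (nat_lit 252) (nat_lit 708190739) (nat_lit 252) (nat_lit 708190739) (nat_lit 207) (nat_lit 3) (nat_lit 210) (nat_lit 3) (nat_lit 210) (nat_lit 5) (nat_lit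 290) (nat_lit 290) (nat_lit 284))) (XT.nd (nat_lit 94) (nat_lit 252) (nat_lit 0) (XT.lf (nat_lit 84) (nat_lit 1243946492) (nat_lit 0) (nat_lit 4797216632) (nat_lit 252) (nat_lit 432256649) (nat_lit 208) (nat_lit 5) (nat_lit 207) (nat_lit 3) (nat_lit 210) (nat_lit 5) (nat_lit 291) (nat_lit 290) (nat_lit 283)) (XT.nd (nat_lit 94) (nat_lit 0) (nat_lit 0) (XT.lf (nat_lit 0) (nat_lit 1919932314) (nat_lit 252) (nat_lit 2541270459) (nat_lit 336) (nat_lit 2026798138) (nat_lit 204) (nat_lit 5) (nat_lit 207) (nat_lit 3) (nat_lit 208) (nat_lit 5) (nat_lit 292) (nat_lit 290) (nat_lit 282)) (XT.lf (nat_lit 84) (nat_lit 178434723) (nat_lit 0) (nat_lit 4065784263) (nat_lit 336) (nat_lit 2262109135) (nat_lit 205) (nat_lit 5) (nat_lit 204) (nat_lit 5) (nat_lit 208) (nat_lit 5) (nat_lit 293) (nat_lit 290) (nat_lit 281))))) (XT.nd (nat_lit 282) (nat_lit 420) (nat_lit 0) (XT.nd (nat_lit 94) (nat_lit 0) (nat_lit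 0) (XT.lf (nat_lit 0) (nat_lit 47022030) (nat_lit 336) (nat_lit 3542439189) (nat_lit 420) (nat_lit 2938321889) (nat_lit 200) (nat_lit 5) (nat_lit 204) (nat_lit 5) (nat_lit 205) (nat_lit 5) (nat_lit 294) (nat_lit 290) (nat_lit 280)) (XT.nd (nat_lit 94) (nat_lit 0) (nat_lit 0) (XT.lf (nat_lit 0) (nat_lit 2290750580) (nat_lit 336) (nat_lit 745126894) (nat_lit 420) (nat_lit 3516631312) (nat_lit 200) (nat_lit 5) (nat_lit 204) (nat_lit 5) (nat_lit 205) (nat_lit 5) (nat_lit 295) (nat_lit 290) (nat_lit 279)) (XT.lf (nat_lit 84) (nat_lit 2132047278) (nat_lit 0) (nat_lit 2405847257) (nat_lit 420) (nat_lit 2042673664) (nat_lit 201) (nat_lit 5) (nat_lit 200) (nat_lit 5) (nat_lit 205) (nat_lit 5) (nat_lit 296) (nat_lit 290) (nat_lit 278)))) (XT.nd (nat_lit 94) (nat_lit 0) (nat_lit 0) (XT.lf (nat_lit 0) (nat_lit 161602332) (nat_lit 420) (nat_lit 1549129941) (nat_lit 504) (nat_lit 4901614504) (nat_lit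 195) (nat_lit 5) (nat_lit 200) (nat_lit 5) (nat_lit 201) (nat_lit 5) (nat_lit 297) (nat_lit 290) (nat_lit 277)) (XT.nd (nat_lit 94) (nat_lit 0) (nat_lit 0) (XT.lf (nat_lit 84) (nat_lit 1397383470) (nat_lit 0) (nat_lit 924342853) (nat_lit 504) (nat_lit 4325379836) (nat_lit 196) (nat_lit 5) (nat_lit 195) (nat_lit 5) (nat_lit 201) (nat_lit 5) (nat_lit 298) (nat_lit 290) (nat_lit 276)) (XT.lf (nat_lit 84) (nat_lit 4418564854) (nat_lit 0) (nat_lit 64535378) (nat_lit 504) (nat_lit 2202337455) (nat_lit 196) (nat_lit 5) (nat_lit 195) (nat_lit 5) (nat_lit 201) (nat_lit 5) (nat_lit 299) (nat_lit 290) (nat_lit 275))))))) (XT.nd (nat_lit 1034) (nat_lit 5208) (nat_lit 0) (XT.nd (nat_lit 470) (nat_lit 2100) (nat_lit 0) (XT.nd (nat_lit 188) (nat_lit 588) (nat_lit 0) (XT.nd (nat_lit 94) (nat_lit 84) (nat_lit 0) (XT.lf (nat_lit 0) (nat_lit 764450617) (nat_lit 420) (nat_lit 5883653022) (nat_lit 504) (nat_lit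 79262137) (nat_lit 191) (nat_lit 5) (nat_lit 196) (nat_lit 5) (nat_lit 197) (nat_lit 5) (nat_lit 300) (nat_lit 290) (nat_lit 274)) (XT.lf (nat_lit 0) (nat_lit 2013241455) (nat_lit 504) (nat_lit 2906643123) (nat_lit 84) (nat_lit 1852148095) (nat_lit 190) (nat_lit 5) (nat_lit 196) (nat_lit 5) (nat_lit 191) (nat_lit 5) (nat_lit 301) (nat_lit 290) (nat_lit 273))) (XT.nd (nat_lit 94) (nat_lit 84) (nat_lit 0) (XT.lf (nat_lit 0) (nat_lit 196350142) (nat_lit 504) (nat_lit 3898476292) (nat_lit 588) (nat_lit 2725935898) (nat_lit 184) (nat_lit 5) (nat_lit 190) (nat_lit 5) (nat_lit 191) (nat_lit 5) (nat_lit 302) (nat_lit 290) (nat_lit 272)) (XT.nd (nat_lit 94) (nat_lit 84) (nat_lit 0) (XT.lf (nat_lit 0) (nat_lit 3406504986) (nat_lit 504) (nat_lit 2790472705) (nat_lit 588) (nat_lit 675780476) (nat_lit 184) (nat_lit 5) (nat_lit 190) (nat_lit 5) (nat_lit 191) (nat_lit 5) (nat_lit 303) (nat_lit 290) (nat_lit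 271)) (XT.lf (nat_lit 0) (nat_lit 1335780233) (nat_lit 588) (nat_lit 275457398) (nat_lit 84) (nat_lit 5317324027) (nat_lit 183) (nat_lit 5) (nat_lit 190) (nat_lit 5) (nat_lit 184) (nat_lit 5) (nat_lit 304) (nat_lit 290) (nat_lit 270))))) (XT.nd (nat_lit 282) (nat_lit 756) (nat_lit 0) (XT.nd (nat_lit 94) (nat_lit 756) (nat_lit 0) (XT.lf (nat_lit 0) (nat_lit 3018693150) (nat_lit 588) (nat_lit 335936304) (nat_lit 672) (nat_lit 3632881683) (nat_lit 176) (nat_lit 5) (nat_lit 183) (nat_lit 5) (nat_lit 184) (nat_lit 5) (nat_lit 305) (nat_lit 290) (nat_lit 269)) (XT.nd (nat_lit 94) (nat_lit 756) (nat_lit 0) (XT.lf (nat_lit 0) (nat_lit 5379550691) (nat_lit 672) (nat_lit 688803373) (nat_lit 84) (nat_lit 982033434) (nat_lit 176) (nat_lit 5) (nat_lit 184) (nat_lit 5) (nat_lit 177) (nat_lit 5) (nat_lit 306) (nat_lit 290) (nat_lit 268)) (XT.lf (nat_lit 0) (nat_lit 307338774) (nat_lit 756) (nat_lit 4426191841)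 (nat_lit 84) (nat_lit 2383066733) (nat_lit 167) (nat_lit 5) (nat_lit 176) (nat_lit 5) (nat_lit 168) (nat_lit 5) (nat_lit 307) (nat_lit 290) (nat_lit 267)))) (XT.nd (nat_lit 94) (nat_lit 756) (nat_lit 0) (XT.lf (nat_lit 0) (nat_lit 2252877989) (nat_lit 756) (nat_lit 1064117126) (nat_lit 84) (nat_lit 3869488816) (nat_lit 167) (nat_lit 5) (nat_lit 176) (nat_lit 5) (nat_lit 168) (nat_lit 5) (nat_lit 308) (nat_lit 290) (nat_lit 266)) (XT.nd (nat_lit 94) (nat_lit 0) (nat_lit 0) (XT.lf (nat_lit 0) (nat_lit 2400804784) (nat_lit 756) (nat_lit 1817224578) (nat_lit 840) (nat_lit 3042076935) (nat_lit 158) (nat_lit 5) (nat_lit 167) (nat_lit 5) (nat_lit 168) (nat_lit 5) (nat_lit 309) (nat_lit 290) (nat_lit 265)) (XT.lf (nat_lit 0) (nat_lit 5946453666) (nat_lit 756) (nat_lit 245689469) (nat_lit 840) (nat_lit 1145776858) (nat_lit 158) (nat_lit 5) (nat_lit 167) (nat_lit 5) (nat_lit 168) (nat_lit 5) (nat_lit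 310) (nat_lit 290) (nat_lit 264)))))) (XT.nd (nat_lit 470) (nat_lit 2268) (nat_lit 0) (XT.nd (nat_lit 188) (nat_lit 2016) (nat_lit 0) (XT.nd (nat_lit 94) (nat_lit 0) (nat_lit 0) (XT.lf (nat_lit 0) (nat_lit 766519134) (nat_lit 924) (nat_lit 5263251226) (nat_lit 84) (nat_lit 1389228355) (nat_lit 147) (nat_lit 5) (nat_lit 158) (nat_lit 5) (nat_lit 148) (nat_lit 5) (nat_lit 311) (nat_lit 290) (nat_lit 263)) (XT.lf (nat_lit 0) (nat_lit 2670903817) (nat_lit 924) (nat_lit 1725190365) (nat_lit 84) (nat_lit 3107750820) (nat_lit 147) (nat_lit 5) (nat_lit 158) (nat_lit 5) (nat_lit 148) (nat_lit 5) (nat_lit 312) (nat_lit 290) (nat_lit 262))) (XT.nd (nat_lit 94) (nat_lit 1092) (nat_lit 0) (XT.lf (nat_lit 0) (nat_lit 1911506180) (nat_lit 924) (nat_lit 2683024626) (nat_lit 1008) (nat_lit 2998288384) (nat_lit 136) (nat_lit 5) (nat_lit 147) (nat_lit 5) (nat_lit 148) (nat_lit 5) (nat_lit 313) (nat_lit 290)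 (nat_lit 261)) (XT.nd (nat_lit 94) (nat_lit 1092) (nat_lit 0) (XT.lf (nat_lit 0) (nat_lit 5648458377) (nat_lit 924) (nat_lit 889863346) (nat_lit 1008) (nat_lit 1147709503) (nat_lit 136) (nat_lit 5) (nat_lit 147) (nat_lit 5) (nat_lit 148) (nat_lit 5) (nat_lit 314) (nat_lit 290) (nat_lit 260)) (XT.lf (nat_lit 0) (nat_lit 715027901) (nat_lit 1092) (nat_lit 6096424361) (nat_lit 84) (nat_lit 971614399) (nat_lit 123) (nat_lit 5) (nat_lit 136) (nat_lit 5) (nat_lit 124) (nat_lit 5) (nat_lit 315) (nat_lit 290) (nat_lit 259))))) (XT.nd (nat_lit 282) (nat_lit 1176) (nat_lit 0) (XT.nd (nat_lit 94) (nat_lit 1092) (nat_lit 0) (XT.lf (nat_lit 0) (nat_lit 2586982648) (nat_lit 1092) (nat_lit 2384509818) (nat_lit 84) (nat_lit 2912252841) (nat_lit 123) (nat_lit 5) (nat_lit 136) (nat_lit 5) (nat_lit 124) (nat_lit 5) (nat_lit 316) (nat_lit 290) (nat_lit 258)) (XT.nd (nat_lit 94) (nat_lit 0) (nat_lit 0) (XT.lf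 (nat_lit 0) (nat_lit 1422140193) (nat_lit 1092) (nat_lit 3055323865) (nat_lit 1176) (nat_lit 3511532234) (nat_lit 110) (nat_lit 5) (nat_lit 123) (nat_lit 5) (nat_lit 124) (nat_lit 5) (nat_lit 317) (nat_lit 290) (nat_lit 257)) (XT.lf (nat_lit 0) (nat_lit 5348855821) (nat_lit 1092) (nat_lit 1050103182) (nat_lit 1176) (nat_lit 1699626256) (nat_lit 110) (nat_lit 5) (nat_lit 123) (nat_lit 5) (nat_lit 124) (nat_lit 5) (nat_lit 318) (nat_lit 290) (nat_lit 256)))) (XT.nd (nat_lit 94) (nat_lit 588) (nat_lit 0) (XT.lf (nat_lit 0) (nat_lit 135180349) (nat_lit 588) (nat_lit 7064120746) (nat_lit 84) (nat_lit 1013351541) (nat_lit 103) (nat_lit 5) (nat_lit 110) (nat_lit 5) (nat_lit 104) (nat_lit 5) (nat_lit 319) (nat_lit 290) (nat_lit 255)) (XT.nd (nat_lit 94) (nat_lit 588) (nat_lit 0) (XT.lf (nat_lit 0) (nat_lit 1980768897) (nat_lit 588) (nat_lit 3181458402) (nat_lit 84) (nat_lit 3168025094) (nat_lit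 103) (nat_lit 5) (nat_lit 110) (nat_lit 5) (nat_lit 104) (nat_lit 5) (nat_lit 320) (nat_lit 290) (nat_lit 254)) (XT.lf (nat_lit 0) (nat_lit 789354421) (nat_lit 588) (nat_lit 3053039003) (nat_lit 672) (nat_lit 4610575405) (nat_lit 96) (nat_lit 5) (nat_lit 103) (nat_lit 5) (nat_lit 104) (nat_lit 5) (nat_lit 321) (nat_lit 290) (nat_lit 253))))))))
noncomputable def xc48 : XT := (XT.nd (nat_lit 1974) (nat_lit 2016) (nat_lit 0) (XT.nd (nat_lit 940) (nat_lit 2016) (nat_lit 0) (XT.nd (nat_lit 470) (nat_lit 924) (nat_lit 0) (XT.nd (nat_lit 188) (nat_lit 588) (nat_lit 0) (XT.nd (nat_lit 94) (nat_lit 504) (nat_lit 0) (XT.lf (nat_lit 0) (nat_lit 4903079031) (nat_lit 588) (nat_lit 843850500) (nat_lit 672) (nat_lit 2833207444) (nat_lit 96) (nat_lit 5) (nat_lit 103) (nat_lit 5) (nat_lit 104) (nat_lit 5) (nat_lit 322) (nat_lit 290) (nat_lit 252)) (XT.lf (nat_lit 0) (nat_lit 378660508) (nat_lit 504) (nat_lit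 7303266227) (nat_lit 588) (nat_lit 1030389630) (nat_lit 90) (nat_lit 5) (nat_lit 96) (nat_lit 5) (nat_lit 97) (nat_lit 5) (nat_lit 323) (nat_lit 290) (nat_lit 251))) (XT.nd (nat_lit 94) (nat_lit 504) (nat_lit 0) (XT.lf (nat_lit 0) (nat_lit 812760977) (nat_lit 588) (nat_lit 4275051872) (nat_lit 84) (nat_lit 3760662804) (nat_lit 89) (nat_lit 5) (nat_lit 96) (nat_lit 5) (nat_lit 90) (nat_lit 5) (nat_lit 324) (nat_lit 290) (nat_lit 250)) (XT.nd (nat_lit 94) (nat_lit 504) (nat_lit 0) (XT.lf (nat_lit 0) (nat_lit 2646766935) (nat_lit 588) (nat_lit 148178499) (nat_lit 84) (nat_lit 6195142034) (nat_lit 89) (nat_lit 5) (nat_lit 96) (nat_lit 5) (nat_lit 90) (nat_lit 5) (nat_lit 325) (nat_lit 290) (nat_lit 249)) (XT.lf (nat_lit 0) (nat_lit 4144535688) (nat_lit 504) (nat_lit 390676402) (nat_lit 588) (nat_lit 4601114045) (nat_lit 83) (nat_lit 5) (nat_lit 89) (nat_lit 5) (nat_lit 90) (nat_lit 5) (nat_lit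 326) (nat_lit 290) (nat_lit 248))))) (XT.nd (nat_lit 188) (nat_lit 504) (nat_lit 0) (XT.nd (nat_lit 94) (nat_lit 420) (nat_lit 0) (XT.lf (nat_lit 0) (nat_lit 6461783352) (nat_lit 588) (nat_lit 780904416) (nat_lit 84) (nat_lit 2045200468) (nat_lit 83) (nat_lit 5) (nat_lit 90) (nat_lit 5) (nat_lit 84) (nat_lit 5) (nat_lit 327) (nat_lit 290) (nat_lit 247)) (XT.lf (nat_lit 0) (nat_lit 3583535261) (nat_lit 420) (nat_lit 4862678902) (nat_lit 504) (nat_lit 998144814) (nat_lit 78) (nat_lit 5) (nat_lit 83) (nat_lit 5) (nat_lit 84) (nat_lit 5) (nat_lit 328) (nat_lit 290) (nat_lit 246))) (XT.nd (nat_lit 94) (nat_lit 420) (nat_lit 0) (XT.lf (nat_lit 0) (nat_lit 835687977) (nat_lit 504) (nat_lit 1560198439) (nat_lit 84) (nat_lit 7210685610) (nat_lit 77) (nat_lit 5) (nat_lit 83) (nat_lit 5) (nat_lit 78) (nat_lit 5) (nat_lit 329) (nat_lit 290) (nat_lit 245)) (XT.nd (nat_lit 94) (nat_lit 0) (nat_lit 0)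 (XT.lf (nat_lit 0) (nat_lit 2696062082) (nat_lit 504) (nat_lit 6898643976) (nat_lit 84) (nat_lit 179227022) (nat_lit 72) (nat_lit 5) (nat_lit 78) (nat_lit 5) (nat_lit 73) (nat_lit 5) (nat_lit 330) (nat_lit 290) (nat_lit 244)) (XT.lf (nat_lit 0) (nat_lit 4615852117) (nat_lit 504) (nat_lit 2534495319) (nat_lit 84) (nat_lit 2796215717) (nat_lit 72) (nat_lit 5) (nat_lit 78) (nat_lit 5) (nat_lit 73) (nat_lit 5) (nat_lit 331) (nat_lit 290) (nat_lit 243)))))) (XT.nd (nat_lit 470) (nat_lit 1092) (nat_lit 0) (XT.nd (nat_lit 188) (nat_lit 504) (nat_lit 0) (XT.nd (nat_lit 94) (nat_lit 0) (nat_lit 0) (XT.lf (nat_lit 0) (nat_lit 1960603639) (nat_lit 420) (nat_lit 4615968671) (nat_lit 504) (nat_lit 3548679379) (nat_lit 67) (nat_lit 5) (nat_lit 72) (nat_lit 5) (nat_lit 73) (nat_lit 5) (nat_lit 332) (nat_lit 290) (nat_lit 242)) (XT.lf (nat_lit 0) (nat_lit 6605384376) (nat_lit 420) (nat_lit 1981825691) (nat_lit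 504) (nat_lit 1722733221) (nat_lit 67) (nat_lit 5) (nat_lit 72) (nat_lit 5) (nat_lit 73) (nat_lit 5) (nat_lit 333) (nat_lit 290) (nat_lit 241))) (XT.nd (nat_lit 94) (nat_lit 0) (nat_lit 0) (XT.lf (nat_lit 0) (nat_lit 135829732) (nat_lit 504) (nat_lit 9641919859) (nat_lit 84) (nat_lit 723324778) (nat_lit 61) (nat_lit 5) (nat_lit 67) (nat_lit 5) (nat_lit 62) (nat_lit 5) (nat_lit 334) (nat_lit 290) (nat_lit 240)) (XT.nd (nat_lit 94) (nat_lit 0) (nat_lit 0) (XT.lf (nat_lit 0) (nat_lit 2039483937) (nat_lit 504) (nat_lit 5136035998) (nat_lit 84) (nat_lit 3521459085) (nat_lit 61) (nat_lit 5) (nat_lit 67) (nat_lit 5) (nat_lit 62) (nat_lit 5) (nat_lit 335) (nat_lit 290) (nat_lit 239)) (XT.lf (nat_lit 0) (nat_lit 3967164154) (nat_lit 504) (nat_lit 532853386) (nat_lit 84) (nat_lit 6400136104) (nat_lit 61) (nat_lit 5) (nat_lit 67) (nat_lit 5) (nat_lit 62) (nat_lit 5) (nat_lit 336) (nat_lit 290) (nat_lit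 238))))) (XT.nd (nat_lit 282) (nat_lit 420) (nat_lit 0) (XT.nd (nat_lit 94) (nat_lit 336) (nat_lit 0) (XT.lf (nat_lit 0) (nat_lit 4257701829) (nat_lit 336) (nat_lit 1705202281) (nat_lit 420) (nat_lit 5146574164) (nat_lit 57) (nat_lit 5) (nat_lit 61) (nat_lit 5) (nat_lit 62) (nat_lit 5) (nat_lit 337) (nat_lit 290) (nat_lit 237)) (XT.nd (nat_lit 94) (nat_lit 336) (nat_lit 0) (XT.lf (nat_lit 0) (nat_lit 8004407608) (nat_lit 420) (nat_lit 2170542991) (nat_lit 84) (nat_lit 1150946276) (nat_lit 57) (nat_lit 5) (nat_lit 62) (nat_lit 5) (nat_lit 58) (nat_lit 5) (nat_lit 338) (nat_lit 290) (nat_lit 236)) (XT.lf (nat_lit 0) (nat_lit 2651283069) (nat_lit 336) (nat_lit 7469268179) (nat_lit 420) (nat_lit 1428223737) (nat_lit 53) (nat_lit 5) (nat_lit 57) (nat_lit 5) (nat_lit 58) (nat_lit 5) (nat_lit 339) (nat_lit 290) (nat_lit 235)))) (XT.nd (nat_lit 94) (nat_lit 336) (nat_lit 0) (XT.lf (nat_lit 0) (nat_lit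 503834317) (nat_lit 420) (nat_lit 4155539123) (nat_lit 84) (nat_lit 7119413984) (nat_lit 52) (nat_lit 5) (nat_lit 57) (nat_lit 5) (nat_lit 53) (nat_lit 5) (nat_lit 340) (nat_lit 290) (nat_lit 234)) (XT.nd (nat_lit 94) (nat_lit 0) (nat_lit 0) (XT.lf (nat_lit 0) (nat_lit 693148531) (nat_lit 336) (nat_lit 1748581022) (nat_lit 420) (nat_lit 9574597448) (nat_lit 48) (nat_lit 5) (nat_lit 52) (nat_lit 5) (nat_lit 53) (nat_lit 5) (nat_lit 341) (nat_lit 290) (nat_lit 233)) (XT.lf (nat_lit 0) (nat_lit 4465144307) (nat_lit 420) (nat_lit 6532693965) (nat_lit 84) (nat_lit 1262693957) (nat_lit 48) (nat_lit 5) (nat_lit 53) (nat_lit 5) (nat_lit 49) (nat_lit 5) (nat_lit 342) (nat_lit 290) (nat_lit 232))))))) (XT.nd (nat_lit 940) (nat_lit 840) (nat_lit 0) (XT.nd (nat_lit 470) (nat_lit 504) (nat_lit 0) (XT.nd (nat_lit 188) (nat_lit 336) (nat_lit 0) (XT.nd (nat_lit 94) (nat_lit 336) (nat_lit 0) (XT.lf (nat_lit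 0) (nat_lit 6539296249) (nat_lit 420) (nat_lit 1650561147) (nat_lit 84) (nat_lit 4322910053) (nat_lit 48) (nat_lit 5) (nat_lit 53) (nat_lit 5) (nat_lit 49) (nat_lit 5) (nat_lit 343) (nat_lit 290) (nat_lit 231)) (XT.lf (nat_lit 0) (nat_lit 3413899243) (nat_lit 336) (nat_lit 5268739626) (nat_lit 420) (nat_lit 4090116779) (nat_lit 44) (nat_lit 5) (nat_lit 48) (nat_lit 5) (nat_lit 49) (nat_lit 5) (nat_lit 344) (nat_lit 290) (nat_lit 230))) (XT.nd (nat_lit 94) (nat_lit 336) (nat_lit 0) (XT.lf (nat_lit 0) (nat_lit 8632930630) (nat_lit 336) (nat_lit 2248248622) (nat_lit 420) (nat_lit 2160055623) (nat_lit 44) (nat_lit 5) (nat_lit 48) (nat_lit 5) (nat_lit 49) (nat_lit 5) (nat_lit 345) (nat_lit 290) (nat_lit 229)) (XT.nd (nat_lit 94) (nat_lit 84) (nat_lit 0) (XT.lf (nat_lit 0) (nat_lit 663346774) (nat_lit 252) (nat_lit 12471993482) (nat_lit 336) (nat_lit 183165542) (nat_lit 41) (nat_lit 5) (nat_lit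 44) (nat_lit 5) (nat_lit 45) (nat_lit 5) (nat_lit 346) (nat_lit 290) (nat_lit 228)) (XT.lf (nat_lit 0) (nat_lit 1859521595) (nat_lit 336) (nat_lit 7696550212) (nat_lit 84) (nat_lit 4046506860) (nat_lit 40) (nat_lit 5) (nat_lit 44) (nat_lit 5) (nat_lit 41) (nat_lit 5) (nat_lit 347) (nat_lit 290) (nat_lit 227))))) (XT.nd (nat_lit 188) (nat_lit 252) (nat_lit 0) (XT.nd (nat_lit 94) (nat_lit 252) (nat_lit 0) (XT.lf (nat_lit 0) (nat_lit 3934966036) (nat_lit 336) (nat_lit 2622383436) (nat_lit 84) (nat_lit 7338953104) (nat_lit 40) (nat_lit 5) (nat_lit 44) (nat_lit 5) (nat_lit 41) (nat_lit 5) (nat_lit 348) (nat_lit 290) (nat_lit 226)) (XT.lf (nat_lit 0) (nat_lit 2626812398) (nat_lit 252) (nat_lit 3448038595) (nat_lit 336) (nat_lit 8124348832) (nat_lit 37) (nat_lit 5) (nat_lit 40) (nat_lit 5) (nat_lit 41) (nat_lit 5) (nat_lit 349) (nat_lit 290) (nat_lit 225))) (XT.nd (nat_lit 94) (nat_lit 252) (nat_lit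 0) (XT.lf (nat_lit 0) (nat_lit 8059488242) (nat_lit 252) (nat_lit 223434741) (nat_lit 336) (nat_lit 6228575455) (nat_lit 37) (nat_lit 5) (nat_lit 40) (nat_lit 5) (nat_lit 41) (nat_lit 5) (nat_lit 350) (nat_lit 290) (nat_lit 224)) (XT.nd (nat_lit 94) (nat_lit 252) (nat_lit 0) (XT.lf (nat_lit 0) (nat_lit 10565364854) (nat_lit 336) (nat_lit 1238200172) (nat_lit 84) (nat_lit 3029796618) (nat_lit 37) (nat_lit 5) (nat_lit 41) (nat_lit 5) (nat_lit 38) (nat_lit 5) (nat_lit 351) (nat_lit 290) (nat_lit 223)) (XT.lf (nat_lit 0) (nat_lit 4185790210) (nat_lit 252) (nat_lit 8752484022) (nat_lit 336) (nat_lit 2226382146) (nat_lit 34) (nat_lit 5) (nat_lit 37) (nat_lit 5) (nat_lit 38) (nat_lit 5) (nat_lit 352) (nat_lit 290) (nat_lit 222)))))) (XT.nd (nat_lit 470) (nat_lit 504) (nat_lit 0) (XT.nd (nat_lit 188) (nat_lit 252) (nat_lit 0) (XT.nd (nat_lit 94) (nat_lit 84) (nat_lit 0) (XT.lf (nat_lit 0) (nat_lit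 9771015729) (nat_lit 252) (nat_lit 5602951002) (nat_lit 336) (nat_lit 132651494) (nat_lit 34) (nat_lit 5) (nat_lit 37) (nat_lit 5) (nat_lit 38) (nat_lit 5) (nat_lit 353) (nat_lit 290) (nat_lit 221)) (XT.lf (nat_lit 0) (nat_lit 1961882150) (nat_lit 336) (nat_lit 382594364) (nat_lit 84) (nat_lit 13514862287) (nat_lit 33) (nat_lit 5) (nat_lit 37) (nat_lit 5) (nat_lit 34) (nat_lit 5) (nat_lit 354) (nat_lit 290) (nat_lit 220))) (XT.nd (nat_lit 94) (nat_lit 0) (nat_lit 0) (XT.lf (nat_lit 0) (nat_lit 4158194279) (nat_lit 336) (nat_lit 11024409422) (nat_lit 84) (nat_lit 1039177632) (nat_lit 30) (nat_lit 5) (nat_lit 34) (nat_lit 5) (nat_lit 31) (nat_lit 5) (nat_lit 355) (nat_lit 290) (nat_lit 219)) (XT.nd (nat_lit 94) (nat_lit 0) (nat_lit 0) (XT.lf (nat_lit 0) (nat_lit 6428297966) (nat_lit 336) (nat_lit 5692974886) (nat_lit 84) (nat_lit 4474065505) (nat_lit 30) (nat_lit 5) (nat_lit 34) (nat_lit 5)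 (nat_lit 31) (nat_lit 5) (nat_lit 356) (nat_lit 290) (nat_lit 218)) (XT.lf (nat_lit 0) (nat_lit 8747138650) (nat_lit 336) (nat_lit 227349992) (nat_lit 84) (nat_lit 8006711715) (nat_lit 30) (nat_lit 5) (nat_lit 34) (nat_lit 5) (nat_lit 31) (nat_lit 5) (nat_lit 357) (nat_lit 290) (nat_lit 217))))) (XT.nd (nat_lit 282) (nat_lit 336) (nat_lit 0) (XT.nd (nat_lit 94) (nat_lit 0) (nat_lit 0) (XT.lf (nat_lit 0) (nat_lit 5488133453) (nat_lit 168) (nat_lit 5683187241) (nat_lit 252) (nat_lit 6206718567) (nat_lit 28) (nat_lit 5) (nat_lit 30) (nat_lit 5) (nat_lit 31) (nat_lit 5) (nat_lit 358) (nat_lit 290) (nat_lit 216)) (XT.nd (nat_lit 94) (nat_lit 0) (nat_lit 0) (XT.lf (nat_lit 0) (nat_lit 11355772345) (nat_lit 168) (nat_lit 2296602378) (nat_lit 252) (nat_lit 4135422841) (nat_lit 28) (nat_lit 5) (nat_lit 30) (nat_lit 5) (nat_lit 31) (nat_lit 5) (nat_lit 359) (nat_lit 290) (nat_lit 215)) (XT.lf (nat_lit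 0) (nat_lit 16202077383) (nat_lit 252) (nat_lit 846333162) (nat_lit 84) (nat_lit 1162153274) (nat_lit 28) (nat_lit 5) (nat_lit 31) (nat_lit 5) (nat_lit 29) (nat_lit 5) (nat_lit 360) (nat_lit 290) (nat_lit 214)))) (XT.nd (nat_lit 94) (nat_lit 0) (nat_lit 0) (XT.lf (nat_lit 0) (nat_lit 234349698) (nat_lit 336) (nat_lit 13686882269) (nat_lit 84) (nat_lit 4723529431) (nat_lit 24) (nat_lit 5) (nat_lit 28) (nat_lit 5) (nat_lit 25) (nat_lit 5) (nat_lit 361) (nat_lit 290) (nat_lit 213)) (XT.nd (nat_lit 94) (nat_lit 0) (nat_lit 0) (XT.lf (nat_lit 0) (nat_lit 2494467375) (nat_lit 336) (nat_lit 8181609530) (nat_lit 84) (nat_lit 8416076625) (nat_lit 24) (nat_lit 5) (nat_lit 28) (nat_lit 5) (nat_lit 25) (nat_lit 5) (nat_lit 362) (nat_lit 290) (nat_lit 212)) (XT.lf (nat_lit 0) (nat_lit 4805783787) (nat_lit 336) (nat_lit 2533603172) (nat_lit 84) (nat_lit 12214656267) (nat_lit 24) (nat_lit 5) (nat_lit 28)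 (nat_lit 5) (nat_lit 25) (nat_lit 5) (nat_lit 363) (nat_lit 290) (nat_lit 211))))))))
noncomputable def xc49 : XT := (XT.nd (nat_lit 48316) (nat_lit 0) (nat_lit 6636) (XT.nd (nat_lit 940) (nat_lit 0) (nat_lit 0) (XT.nd (nat_lit 470) (nat_lit 252) (nat_lit 0) (XT.nd (nat_lit 188) (nat_lit 168) (nat_lit 0) (XT.nd (nat_lit 94) (nat_lit 0) (nat_lit 0) (XT.lf (nat_lit 0) (nat_lit 3329482999) (nat_lit 168) (nat_lit 3873999209) (nat_lit 252) (nat_lit 12826354915) (nat_lit 22) (nat_lit 5) (nat_lit 24) (nat_lit 5) (nat_lit 25) (nat_lit 5) (nat_lit 364) (nat_lit 290) (nat_lit 210)) (XT.lf (nat_lit 0) (nat_lit 9401220117) (nat_lit 168) (nat_lit 282721257) (nat_lit 252) (nat_lit 10836218875) (nat_lit 22) (nat_lit 5) (nat_lit 24) (nat_lit 5) (nat_lit 25) (nat_lit 5) (nat_lit 365) (nat_lit 290) (nat_lit 209))) (XT.nd (nat_lit 94) (nat_lit 168) (nat_lit 0) (XT.lf (nat_lit 0) (nat_lit 12257663878) (nat_lit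 252) (nat_lit 5424934206) (nat_lit 84) (nat_lit 3342617646) (nat_lit 22) (nat_lit 5) (nat_lit 25) (nat_lit 5) (nat_lit 23) (nat_lit 5) (nat_lit 366) (nat_lit 290) (nat_lit 208)) (XT.nd (nat_lit 94) (nat_lit 0) (nat_lit 0) (XT.lf (nat_lit 0) (nat_lit 425559181) (nat_lit 168) (nat_lit 14475697069) (nat_lit 252) (nat_lit 6645017647) (nat_lit 20) (nat_lit 5) (nat_lit 22) (nat_lit 5) (nat_lit 23) (nat_lit 5) (nat_lit 367) (nat_lit 290) (nat_lit 207)) (XT.lf (nat_lit 0) (nat_lit 6546974684) (nat_lit 168) (nat_lit 11119681347) (nat_lit 252) (nat_lit 4415630723) (nat_lit 20) (nat_lit 5) (nat_lit 22) (nat_lit 5) (nat_lit 23) (nat_lit 5) (nat_lit 368) (nat_lit 290) (nat_lit 206))))) (XT.nd (nat_lit 188) (nat_lit 168) (nat_lit 0) (XT.nd (nat_lit 94) (nat_lit 84) (nat_lit 0) (XT.lf (nat_lit 0) (nat_lit 12833470328) (nat_lit 168) (nat_lit 7668047948) (nat_lit 252) (nat_lit 2133938245) (nat_lit 20) (nat_lit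 5) (nat_lit 22) (nat_lit 5) (nat_lit 23) (nat_lit 5) (nat_lit 369) (nat_lit 290) (nat_lit 205)) (XT.lf (nat_lit 0) (nat_lit 198112953) (nat_lit 252) (nat_lit 3917398742) (nat_lit 84) (nat_lit 19090724939) (nat_lit 19) (nat_lit 5) (nat_lit 22) (nat_lit 5) (nat_lit 20) (nat_lit 5) (nat_lit 370) (nat_lit 290) (nat_lit 204))) (XT.nd (nat_lit 94) (nat_lit 0) (nat_lit 0) (XT.lf (nat_lit 0) (nat_lit 2147479336) (nat_lit 168) (nat_lit 416463258) (nat_lit 252) (nat_lit 21229944714) (nat_lit 17) (nat_lit 5) (nat_lit 19) (nat_lit 5) (nat_lit 20) (nat_lit 5) (nat_lit 371) (nat_lit 290) (nat_lit 203)) (XT.nd (nat_lit 94) (nat_lit 0) (nat_lit 0) (XT.lf (nat_lit 0) (nat_lit 5062784659) (nat_lit 252) (nat_lit 15972951194) (nat_lit 84) (nat_lit 3362201603) (nat_lit 17) (nat_lit 5) (nat_lit 20) (nat_lit 5) (nat_lit 18) (nat_lit 5) (nat_lit 372) (nat_lit 290) (nat_lit 202)) (XT.lf (nat_lit 0) (nat_lit 7628474122)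 (nat_lit 252) (nat_lit 10150921941) (nat_lit 84) (nat_lit 7241677373) (nat_lit 17) (nat_lit 5) (nat_lit 20) (nat_lit 5) (nat_lit 18) (nat_lit 5) (nat_lit 373) (nat_lit 290) (nat_lit 201)))))) (XT.nd (nat_lit 46812) (nat_lit 0) (nat_lit 14448) (XT.nd (nat_lit 46530) (nat_lit 0) (nat_lit 15372) (XT.nd (nat_lit 46436) (nat_lit 0) (nat_lit 15708) (XT.lf (nat_lit 0) (nat_lit 10259271109) (nat_lit 252) (nat_lit 4170762105) (nat_lit 84) (nat_lit 11233970937) (nat_lit 17) (nat_lit 5) (nat_lit 20) (nat_lit 5) (nat_lit 18) (nat_lit 5) (nat_lit 374) (nat_lit 290) (nat_lit 200)) (XT.lf (nat_lit 0) (nat_lit 468844573) (nat_lit 0) (nat_lit 468844573) (nat_lit 252) (nat_lit 2305548720) (nat_lit 204) (nat_lit 5) (nat_lit 204) (nat_lit 3) (nat_lit 207) (nat_lit 3) (nat_lit 291) (nat_lit 291) (nat_lit 282))) (XT.nd (nat_lit 94) (nat_lit 336) (nat_lit 0) (XT.lf (nat_lit 0) (nat_lit 3616595905) (nat_lit 0)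 (nat_lit 552348503) (nat_lit 252) (nat_lit 2333814421) (nat_lit 204) (nat_lit 5) (nat_lit 204) (nat_lit 3) (nat_lit 207) (nat_lit 3) (nat_lit 292) (nat_lit 291) (nat_lit 281)) (XT.nd (nat_lit 94) (nat_lit 336) (nat_lit 0) (XT.lf (nat_lit 0) (nat_lit 6332924190) (nat_lit 0) (nat_lit 109437715) (nat_lit 252) (nat_lit 80579987) (nat_lit 204) (nat_lit 5) (nat_lit 204) (nat_lit 3) (nat_lit 207) (nat_lit 3) (nat_lit 293) (nat_lit 291) (nat_lit 280)) (XT.lf (nat_lit 0) (nat_lit 2137257806) (nat_lit 336) (nat_lit 3977293451) (nat_lit 420) (nat_lit 430904696) (nat_lit 200) (nat_lit 5) (nat_lit 204) (nat_lit 5) (nat_lit 205) (nat_lit 5) (nat_lit 294) (nat_lit 291) (nat_lit 279))))) (XT.nd (nat_lit 282) (nat_lit 504) (nat_lit 0) (XT.nd (nat_lit 94) (nat_lit 420) (nat_lit 0) (XT.lf (nat_lit 0) (nat_lit 4338007354) (nat_lit 336) (nat_lit 1204506417) (nat_lit 420) (nat_lit 1029254710) (nat_lit 200) (nat_lit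 5) (nat_lit 204) (nat_lit 5) (nat_lit 205) (nat_lit 5) (nat_lit 295) (nat_lit 291) (nat_lit 278)) (XT.nd (nat_lit 94) (nat_lit 420) (nat_lit 0) (XT.lf (nat_lit 84) (nat_lit 1638945006) (nat_lit 0) (nat_lit 4899627952) (nat_lit 420) (nat_lit 62945712) (nat_lit 201) (nat_lit 5) (nat_lit 200) (nat_lit 5) (nat_lit 205) (nat_lit 5) (nat_lit 296) (nat_lit 291) (nat_lit 277)) (XT.lf (nat_lit 0) (nat_lit 2060125777) (nat_lit 420) (nat_lit 2107450637) (nat_lit 504) (nat_lit 2466625090) (nat_lit 195) (nat_lit 5) (nat_lit 200) (nat_lit 5) (nat_lit 201) (nat_lit 5) (nat_lit 297) (nat_lit 291) (nat_lit 276)))) (XT.nd (nat_lit 94) (nat_lit 504) (nat_lit 0) (XT.lf (nat_lit 84) (nat_lit 803203095) (nat_lit 0) (nat_lit 3371077256) (nat_lit 504) (nat_lit 2496330831) (nat_lit 196) (nat_lit 5) (nat_lit 195) (nat_lit 5) (nat_lit 201) (nat_lit 5) (nat_lit 298) (nat_lit 291) (nat_lit 275)) (XT.nd (nat_lit 94)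 (nat_lit 504) (nat_lit 0) (XT.lf (nat_lit 84) (nat_lit 3800738058) (nat_lit 0) (nat_lit 2495811527) (nat_lit 504) (nat_lit 413823842) (nat_lit 196) (nat_lit 5) (nat_lit 195) (nat_lit 5) (nat_lit 201) (nat_lit 5) (nat_lit 299) (nat_lit 291) (nat_lit 274)) (XT.lf (nat_lit 84) (nat_lit 75548348) (nat_lit 0) (nat_lit 1545277887) (nat_lit 588) (nat_lit 5132828792) (nat_lit 190) (nat_lit 5) (nat_lit 189) (nat_lit 5) (nat_lit 196) (nat_lit 5) (nat_lit 300) (nat_lit 291) (nat_lit 273))))))) (XT.nd (nat_lit 1034) (nat_lit 4284) (nat_lit 0) (XT.nd (nat_lit 470) (nat_lit 2436) (nat_lit 0) (XT.nd (nat_lit 188) (nat_lit 1092) (nat_lit 0) (XT.nd (nat_lit 94) (nat_lit 0) (nat_lit 84) (XT.lf (nat_lit 84) (nat_lit 3162520025) (nat_lit 0) (nat_lit 501394281) (nat_lit 588) (nat_lit 3136064973) (nat_lit 190) (nat_lit 5) (nat_lit 189) (nat_lit 5) (nat_lit 196) (nat_lit 5) (nat_lit 301) (nat_lit 291) (nat_lit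 272)) (XT.lf (nat_lit 0) (nat_lit 5702240898) (nat_lit 504) (nat_lit 557884363) (nat_lit 84) (nat_lit 590118043) (nat_lit 190) (nat_lit 5) (nat_lit 196) (nat_lit 5) (nat_lit 191) (nat_lit 5) (nat_lit 302) (nat_lit 291) (nat_lit 271))) (XT.nd (nat_lit 94) (nat_lit 588) (nat_lit 0) (XT.lf (nat_lit 0) (nat_lit 842240048) (nat_lit 588) (nat_lit 4295618327) (nat_lit 84) (nat_lit 1765579071) (nat_lit 183) (nat_lit 5) (nat_lit 190) (nat_lit 5) (nat_lit 184) (nat_lit 5) (nat_lit 303) (nat_lit 291) (nat_lit 270)) (XT.nd (nat_lit 94) (nat_lit 588) (nat_lit 0) (XT.lf (nat_lit 0) (nat_lit 2805237907) (nat_lit 588) (nat_lit 1135882942) (nat_lit 84) (nat_lit 3019172073) (nat_lit 183) (nat_lit 5) (nat_lit 190) (nat_lit 5) (nat_lit 184) (nat_lit 5) (nat_lit 304) (nat_lit 291) (nat_lit 269)) (XT.lf (nat_lit 0) (nat_lit 2116465508) (nat_lit 588) (nat_lit 2664774825) (nat_lit 672) (nat_lit 2239501450) (nat_lit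 176) (nat_lit 5) (nat_lit 183) (nat_lit 5) (nat_lit 184) (nat_lit 5) (nat_lit 305) (nat_lit 291) (nat_lit 268))))) (XT.nd (nat_lit 282) (nat_lit 1680) (nat_lit 0) (XT.nd (nat_lit 94) (nat_lit 756) (nat_lit 0) (XT.lf (nat_lit 0) (nat_lit 5446221850) (nat_lit 588) (nat_lit 1316888143) (nat_lit 672) (nat_lit 322008735) (nat_lit 176) (nat_lit 5) (nat_lit 183) (nat_lit 5) (nat_lit 184) (nat_lit 5) (nat_lit 306) (nat_lit 291) (nat_lit 267)) (XT.nd (nat_lit 94) (nat_lit 0) (nat_lit 0) (XT.lf (nat_lit 0) (nat_lit 1573459767) (nat_lit 756) (nat_lit 5456322756) (nat_lit 84) (nat_lit 123008879) (nat_lit 167) (nat_lit 5) (nat_lit 176) (nat_lit 5) (nat_lit 168) (nat_lit 5) (nat_lit 307) (nat_lit 291) (nat_lit 266)) (XT.lf (nat_lit 0) (nat_lit 3487233429) (nat_lit 756) (nat_lit 2118742372) (nat_lit 84) (nat_lit 1617838374) (nat_lit 167) (nat_lit 5) (nat_lit 176) (nat_lit 5) (nat_lit 168) (nat_lit 5) (nat_lit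 308) (nat_lit 291) (nat_lit 265)))) (XT.nd (nat_lit 94) (nat_lit 924) (nat_lit 0) (XT.lf (nat_lit 0) (nat_lit 1300247933) (nat_lit 756) (nat_lit 4110408779) (nat_lit 840) (nat_lit 1888220303) (nat_lit 158) (nat_lit 5) (nat_lit 167) (nat_lit 5) (nat_lit 168) (nat_lit 5) (nat_lit 309) (nat_lit 291) (nat_lit 264)) (XT.nd (nat_lit 94) (nat_lit 924) (nat_lit 0) (XT.lf (nat_lit 0) (nat_lit 4822379504) (nat_lit 756) (nat_lit 2532273662) (nat_lit 840) (nat_lit 23113670) (nat_lit 158) (nat_lit 5) (nat_lit 167) (nat_lit 5) (nat_lit 168) (nat_lit 5) (nat_lit 310) (nat_lit 291) (nat_lit 263)) (XT.lf (nat_lit 0) (nat_lit 946990482) (nat_lit 840) (nat_lit 863727180) (nat_lit 924) (nat_lit 5649647907) (nat_lit 147) (nat_lit 5) (nat_lit 157) (nat_lit 5) (nat_lit 158) (nat_lit 5) (nat_lit 311) (nat_lit 291) (nat_lit 262)))))) (XT.nd (nat_lit 470) (nat_lit 2268) (nat_lit 0) (XT.nd (nat_lit 188) (nat_lit 1092)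 (nat_lit 0) (XT.nd (nat_lit 94) (nat_lit 924) (nat_lit 0) (XT.lf (nat_lit 0) (nat_lit 3677604476) (nat_lit 924) (nat_lit 2991146139) (nat_lit 84) (nat_lit 877753692) (nat_lit 147) (nat_lit 5) (nat_lit 158) (nat_lit 5) (nat_lit 148) (nat_lit 5) (nat_lit 312) (nat_lit 291) (nat_lit 261)) (XT.lf (nat_lit 0) (nat_lit 595366598) (nat_lit 924) (nat_lit 4964748863) (nat_lit 1008) (nat_lit 2076763739) (nat_lit 136) (nat_lit 5) (nat_lit 147) (nat_lit 5) (nat_lit 148) (nat_lit 5) (nat_lit 313) (nat_lit 291) (nat_lit 260))) (XT.nd (nat_lit 94) (nat_lit 1092) (nat_lit 0) (XT.lf (nat_lit 0) (nat_lit 4308891868) (nat_lit 924) (nat_lit 3167566072) (nat_lit 1008) (nat_lit 254606513) (nat_lit 136) (nat_lit 5) (nat_lit 147) (nat_lit 5) (nat_lit 148) (nat_lit 5) (nat_lit 314) (nat_lit 291) (nat_lit 259)) (XT.nd (nat_lit 94) (nat_lit 0) (nat_lit 0) (XT.lf (nat_lit 0) (nat_lit 250798127) (nat_lit 1008) (nat_lit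 1288145985) (nat_lit 1092) (nat_lit 6290583170) (nat_lit 123) (nat_lit 5) (nat_lit 135) (nat_lit 5) (nat_lit 136) (nat_lit 5) (nat_lit 315) (nat_lit 291) (nat_lit 258)) (XT.lf (nat_lit 0) (nat_lit 3371723572) (nat_lit 1092) (nat_lit 3878155610) (nat_lit 84) (nat_lit 681652790) (nat_lit 123) (nat_lit 5) (nat_lit 136) (nat_lit 5) (nat_lit 124) (nat_lit 5) (nat_lit 316) (nat_lit 291) (nat_lit 257))))) (XT.nd (nat_lit 282) (nat_lit 1092) (nat_lit 0) (XT.nd (nat_lit 94) (nat_lit 1176) (nat_lit 0) (XT.lf (nat_lit 0) (nat_lit 5222494150) (nat_lit 1092) (nat_lit 123552895) (nat_lit 84) (nat_lit 2692075205) (nat_lit 123) (nat_lit 5) (nat_lit 136) (nat_lit 5) (nat_lit 124) (nat_lit 5) (nat_lit 317) (nat_lit 291) (nat_lit 256)) (XT.nd (nat_lit 94) (nat_lit 84) (nat_lit 0) (XT.lf (nat_lit 0) (nat_lit 3777464737) (nat_lit 1092) (nat_lit 3340210572) (nat_lit 1176) (nat_lit 1030956634) (nat_lit 110) (nat_lit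 5) (nat_lit 123) (nat_lit 5) (nat_lit 124) (nat_lit 5) (nat_lit 318) (nat_lit 291) (nat_lit 255)) (XT.lf (nat_lit 0) (nat_lit 743962236) (nat_lit 1176) (nat_lit 515382309) (nat_lit 84) (nat_lit 7004686805) (nat_lit 109) (nat_lit 5) (nat_lit 123) (nat_lit 5) (nat_lit 110) (nat_lit 5) (nat_lit 319) (nat_lit 291) (nat_lit 254)))) (XT.nd (nat_lit 94) (nat_lit 588) (nat_lit 0) (XT.lf (nat_lit 0) (nat_lit 2547656915) (nat_lit 588) (nat_lit 4918654853) (nat_lit 84) (nat_lit 916713860) (nat_lit 103) (nat_lit 5) (nat_lit 110) (nat_lit 5) (nat_lit 104) (nat_lit 5) (nat_lit 320) (nat_lit 291) (nat_lit 253)) (XT.nd (nat_lit 94) (nat_lit 588) (nat_lit 0) (XT.lf (nat_lit 0) (nat_lit 4378046616) (nat_lit 588) (nat_lit 986724120) (nat_lit 84) (nat_lit 3142032535) (nat_lit 103) (nat_lit 5) (nat_lit 110) (nat_lit 5) (nat_lit 104) (nat_lit 5) (nat_lit 321) (nat_lit 291) (nat_lit 252)) (XT.lf (nat_lit 0) (nat_lit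 3083965695) (nat_lit 588) (nat_lit 3165701080) (nat_lit 672) (nat_lit 2385415174) (nat_lit 96) (nat_lit 5) (nat_lit 103) (nat_lit 5) (nat_lit 104) (nat_lit 5) (nat_lit 322) (nat_lit 291) (nat_lit 251))))))))
noncomputable def xc50 : XT := (XT.nd (nat_lit 1974) (nat_lit 2184) (nat_lit 0) (XT.nd (nat_lit 940) (nat_lit 2016) (nat_lit 0) (XT.nd (nat_lit 470) (nat_lit 924) (nat_lit 0) (XT.nd (nat_lit 188) (nat_lit 504) (nat_lit 0) (XT.nd (nat_lit 94) (nat_lit 588) (nat_lit 0) (XT.lf (nat_lit 0) (nat_lit 7256957398) (nat_lit 588) (nat_lit 887485975) (nat_lit 672) (nat_lit 624152230) (nat_lit 96) (nat_lit 5) (nat_lit 103) (nat_lit 5) (nat_lit 104) (nat_lit 5) (nat_lit 323) (nat_lit 291) (nat_lit 250)) (XT.lf (nat_lit 0) (nat_lit 1164452275) (nat_lit 588) (nat_lit 6271401739) (nat_lit 84) (nat_lit 1470295396) (nat_lit 89) (nat_lit 5) (nat_lit 96) (nat_lit 5) (nat_lit 90) (nat_lit 5) (nat_lit 324)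 (nat_lit 291) (nat_lit 249))) (XT.nd (nat_lit 94) (nat_lit 504) (nat_lit 0) (XT.lf (nat_lit 0) (nat_lit 2977025789) (nat_lit 588) (nat_lit 2166978103) (nat_lit 84) (nat_lit 3904501512) (nat_lit 89) (nat_lit 5) (nat_lit 96) (nat_lit 5) (nat_lit 90) (nat_lit 5) (nat_lit 325) (nat_lit 291) (nat_lit 248)) (XT.nd (nat_lit 94) (nat_lit 0) (nat_lit 0) (XT.lf (nat_lit 0) (nat_lit 2062002970) (nat_lit 504) (nat_lit 2762020977) (nat_lit 588) (nat_lit 4372082357) (nat_lit 83) (nat_lit 5) (nat_lit 89) (nat_lit 5) (nat_lit 90) (nat_lit 5) (nat_lit 326) (nat_lit 291) (nat_lit 247)) (XT.lf (nat_lit 0) (nat_lit 6424244530) (nat_lit 504) (nat_lit 285268076) (nat_lit 588) (nat_lit 2639504410) (nat_lit 83) (nat_lit 5) (nat_lit 89) (nat_lit 5) (nat_lit 90) (nat_lit 5) (nat_lit 327) (nat_lit 291) (nat_lit 246))))) (XT.nd (nat_lit 188) (nat_lit 420) (nat_lit 0) (XT.nd (nat_lit 94) (nat_lit 84) (nat_lit 0) (XT.lf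 (nat_lit 0) (nat_lit 1376448884) (nat_lit 420) (nat_lit 7272994641) (nat_lit 504) (nat_lit 857496519) (nat_lit 78) (nat_lit 5) (nat_lit 83) (nat_lit 5) (nat_lit 84) (nat_lit 5) (nat_lit 328) (nat_lit 291) (nat_lit 245)) (XT.lf (nat_lit 0) (nat_lit 953842264) (nat_lit 504) (nat_lit 3853095716) (nat_lit 84) (nat_lit 4862849809) (nat_lit 77) (nat_lit 5) (nat_lit 83) (nat_lit 5) (nat_lit 78) (nat_lit 5) (nat_lit 329) (nat_lit 291) (nat_lit 244))) (XT.nd (nat_lit 94) (nat_lit 0) (nat_lit 0) (XT.lf (nat_lit 0) (nat_lit 515502391) (nat_lit 420) (nat_lit 2254402416) (nat_lit 504) (nat_lit 7068684116) (nat_lit 72) (nat_lit 5) (nat_lit 77) (nat_lit 5) (nat_lit 78) (nat_lit 5) (nat_lit 330) (nat_lit 291) (nat_lit 243)) (XT.nd (nat_lit 94) (nat_lit 0) (nat_lit 0) (XT.lf (nat_lit 0) (nat_lit 4648604765) (nat_lit 504) (nat_lit 4958159400) (nat_lit 84) (nat_lit 405793049) (nat_lit 72) (nat_lit 5) (nat_lit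 78) (nat_lit 5) (nat_lit 73) (nat_lit 5) (nat_lit 331) (nat_lit 291) (nat_lit 242)) (XT.lf (nat_lit 0) (nat_lit 6571712456) (nat_lit 504) (nat_lit 523498680) (nat_lit 84) (nat_lit 3097263088) (nat_lit 72) (nat_lit 5) (nat_lit 78) (nat_lit 5) (nat_lit 73) (nat_lit 5) (nat_lit 332) (nat_lit 291) (nat_lit 241)))))) (XT.nd (nat_lit 470) (nat_lit 756) (nat_lit 0) (XT.nd (nat_lit 188) (nat_lit 756) (nat_lit 0) (XT.nd (nat_lit 94) (nat_lit 84) (nat_lit 0) (XT.lf (nat_lit 0) (nat_lit 4089793367) (nat_lit 420) (nat_lit 4469434355) (nat_lit 504) (nat_lit 1818715507) (nat_lit 67) (nat_lit 5) (nat_lit 72) (nat_lit 5) (nat_lit 73) (nat_lit 5) (nat_lit 333) (nat_lit 291) (nat_lit 240)) (XT.lf (nat_lit 0) (nat_lit 8339392) (nat_lit 504) (nat_lit 1753915048) (nat_lit 84) (nat_lit 8807943102) (nat_lit 66) (nat_lit 5) (nat_lit 72) (nat_lit 5) (nat_lit 67) (nat_lit 5) (nat_lit 334) (nat_lit 291) (nat_lit 239)))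 (XT.nd (nat_lit 94) (nat_lit 336) (nat_lit 0) (XT.lf (nat_lit 0) (nat_lit 1859346768) (nat_lit 504) (nat_lit 7858048256) (nat_lit 84) (nat_lit 1050394527) (nat_lit 61) (nat_lit 5) (nat_lit 67) (nat_lit 5) (nat_lit 62) (nat_lit 5) (nat_lit 335) (nat_lit 291) (nat_lit 238)) (XT.nd (nat_lit 94) (nat_lit 336) (nat_lit 0) (XT.lf (nat_lit 0) (nat_lit 3770318331) (nat_lit 504) (nat_lit 3275106539) (nat_lit 84) (nat_lit 3926110913) (nat_lit 61) (nat_lit 5) (nat_lit 67) (nat_lit 5) (nat_lit 62) (nat_lit 5) (nat_lit 336) (nat_lit 291) (nat_lit 237)) (XT.lf (nat_lit 0) (nat_lit 1439026351) (nat_lit 336) (nat_lit 4282864068) (nat_lit 420) (nat_lit 5460391227) (nat_lit 57) (nat_lit 5) (nat_lit 61) (nat_lit 5) (nat_lit 62) (nat_lit 5) (nat_lit 337) (nat_lit 291) (nat_lit 236))))) (XT.nd (nat_lit 282) (nat_lit 336) (nat_lit 0) (XT.nd (nat_lit 94) (nat_lit 420) (nat_lit 0) (XT.lf (nat_lit 0) (nat_lit 6329258389)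 (nat_lit 336) (nat_lit 1406571475) (nat_lit 420) (nat_lit 3663775332) (nat_lit 57) (nat_lit 5) (nat_lit 61) (nat_lit 5) (nat_lit 62) (nat_lit 5) (nat_lit 338) (nat_lit 291) (nat_lit 235)) (XT.nd (nat_lit 94) (nat_lit 420) (nat_lit 0) (XT.lf (nat_lit 0) (nat_lit 9796251878) (nat_lit 420) (nat_lit 307327532) (nat_lit 84) (nat_lit 1520680213) (nat_lit 57) (nat_lit 5) (nat_lit 62) (nat_lit 5) (nat_lit 58) (nat_lit 5) (nat_lit 339) (nat_lit 291) (nat_lit 234)) (XT.lf (nat_lit 0) (nat_lit 93567849) (nat_lit 420) (nat_lit 7211561827) (nat_lit 84) (nat_lit 4549886029) (nat_lit 52) (nat_lit 5) (nat_lit 57) (nat_lit 5) (nat_lit 53) (nat_lit 5) (nat_lit 340) (nat_lit 291) (nat_lit 233)))) (XT.nd (nat_lit 94) (nat_lit 336) (nat_lit 0) (XT.lf (nat_lit 0) (nat_lit 2009655854) (nat_lit 420) (nat_lit 2395762417) (nat_lit 84) (nat_lit 7687857699) (nat_lit 52) (nat_lit 5) (nat_lit 57) (nat_lit 5) (nat_lit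 53) (nat_lit 5) (nat_lit 341) (nat_lit 291) (nat_lit 232)) (XT.nd (nat_lit 94) (nat_lit 0) (nat_lit 0) (XT.lf (nat_lit 0) (nat_lit 2584114191) (nat_lit 336) (nat_lit 1397249848) (nat_lit 420) (nat_lit 8357763382) (nat_lit 48) (nat_lit 5) (nat_lit 52) (nat_lit 5) (nat_lit 53) (nat_lit 5) (nat_lit 342) (nat_lit 291) (nat_lit 231)) (XT.lf (nat_lit 0) (nat_lit 6027389046) (nat_lit 420) (nat_lit 4877631538) (nat_lit 84) (nat_lit 1687256010) (nat_lit 48) (nat_lit 5) (nat_lit 53) (nat_lit 5) (nat_lit 49) (nat_lit 5) (nat_lit 343) (nat_lit 291) (nat_lit 230))))))) (XT.nd (nat_lit 1034) (nat_lit 924) (nat_lit 0) (XT.nd (nat_lit 470) (nat_lit 588) (nat_lit 0) (XT.nd (nat_lit 188) (nat_lit 336) (nat_lit 0) (XT.nd (nat_lit 94) (nat_lit 0) (nat_lit 0) (XT.lf (nat_lit 0) (nat_lit 102050079) (nat_lit 336) (nat_lit 8021990540) (nat_lit 420) (nat_lit 4729712352) (nat_lit 44) (nat_lit 5) (nat_lit 48) (nat_lit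 5) (nat_lit 49) (nat_lit 5) (nat_lit 344) (nat_lit 291) (nat_lit 229)) (XT.lf (nat_lit 0) (nat_lit 5303211837) (nat_lit 336) (nat_lit 5005770853) (nat_lit 420) (nat_lit 2813710582) (nat_lit 44) (nat_lit 5) (nat_lit 48) (nat_lit 5) (nat_lit 49) (nat_lit 5) (nat_lit 345) (nat_lit 291) (nat_lit 228))) (XT.nd (nat_lit 94) (nat_lit 336) (nat_lit 0) (XT.lf (nat_lit 0) (nat_lit 10630407656) (nat_lit 336) (nat_lit 1904462563) (nat_lit 420) (nat_lit 866008794) (nat_lit 44) (nat_lit 5) (nat_lit 48) (nat_lit 5) (nat_lit 49) (nat_lit 5) (nat_lit 346) (nat_lit 291) (nat_lit 227)) (XT.nd (nat_lit 94) (nat_lit 0) (nat_lit 0) (XT.lf (nat_lit 0) (nat_lit 1130031827) (nat_lit 336) (nat_lit 11262490231) (nat_lit 84) (nat_lit 1294548417) (nat_lit 40) (nat_lit 5) (nat_lit 44) (nat_lit 5) (nat_lit 41) (nat_lit 5) (nat_lit 347) (nat_lit 291) (nat_lit 226)) (XT.lf (nat_lit 0) (nat_lit 3192696079) (nat_lit 336)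 (nat_lit 6205652124) (nat_lit 84) (nat_lit 4582877352) (nat_lit 40) (nat_lit 5) (nat_lit 44) (nat_lit 5) (nat_lit 41) (nat_lit 5) (nat_lit 348) (nat_lit 291) (nat_lit 225))))) (XT.nd (nat_lit 282) (nat_lit 336) (nat_lit 0) (XT.nd (nat_lit 94) (nat_lit 252) (nat_lit 0) (XT.lf (nat_lit 0) (nat_lit 5294126816) (nat_lit 336) (nat_lit 1026188336) (nat_lit 84) (nat_lit 7965033665) (nat_lit 40) (nat_lit 5) (nat_lit 44) (nat_lit 5) (nat_lit 41) (nat_lit 5) (nat_lit 349) (nat_lit 291) (nat_lit 224)) (XT.nd (nat_lit 94) (nat_lit 0) (nat_lit 0) (XT.lf (nat_lit 0) (nat_lit 4368749500) (nat_lit 252) (nat_lit 3110871828) (nat_lit 336) (nat_lit 7118758917) (nat_lit 37) (nat_lit 5) (nat_lit 40) (nat_lit 5) (nat_lit 41) (nat_lit 5) (nat_lit 350) (nat_lit 291) (nat_lit 223)) (XT.lf (nat_lit 0) (nat_lit 9721554887) (nat_lit 336) (nat_lit 5003669791) (nat_lit 84) (nat_lit 196306453) (nat_lit 37) (nat_lit 5)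 (nat_lit 41) (nat_lit 5) (nat_lit 38) (nat_lit 5) (nat_lit 351) (nat_lit 291) (nat_lit 222)))) (XT.nd (nat_lit 94) (nat_lit 84) (nat_lit 0) (XT.lf (nat_lit 0) (nat_lit 326568983) (nat_lit 252) (nat_lit 11718103494) (nat_lit 336) (nat_lit 3209727896) (nat_lit 34) (nat_lit 5) (nat_lit 37) (nat_lit 5) (nat_lit 38) (nat_lit 5) (nat_lit 352) (nat_lit 291) (nat_lit 221)) (XT.nd (nat_lit 94) (nat_lit 84) (nat_lit 0) (XT.lf (nat_lit 0) (nat_lit 5895959556) (nat_lit 252) (nat_lit 8573086517) (nat_lit 336) (nat_lit 1127697065) (nat_lit 34) (nat_lit 5) (nat_lit 37) (nat_lit 5) (nat_lit 38) (nat_lit 5) (nat_lit 353) (nat_lit 291) (nat_lit 220)) (XT.lf (nat_lit 0) (nat_lit 975765135) (nat_lit 336) (nat_lit 4353520188) (nat_lit 84) (nat_lit 10620857346) (nat_lit 33) (nat_lit 5) (nat_lit 37) (nat_lit 5) (nat_lit 34) (nat_lit 5) (nat_lit 354) (nat_lit 291) (nat_lit 219)))))) (XT.nd (nat_lit 470) (nat_lit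 504) (nat_lit 0) (XT.nd (nat_lit 188) (nat_lit 168) (nat_lit 0) (XT.nd (nat_lit 94) (nat_lit 0) (nat_lit 0) (XT.lf (nat_lit 0) (nat_lit 1140184974) (nat_lit 252) (nat_lit 1970231092) (nat_lit 336) (nat_lit 13204108035) (nat_lit 30) (nat_lit 5) (nat_lit 33) (nat_lit 5) (nat_lit 34) (nat_lit 5) (nat_lit 355) (nat_lit 291) (nat_lit 218)) (XT.lf (nat_lit 0) (nat_lit 5350321830) (nat_lit 336) (nat_lit 9838664487) (nat_lit 84) (nat_lit 1500057525) (nat_lit 30) (nat_lit 5) (nat_lit 34) (nat_lit 5) (nat_lit 31) (nat_lit 5) (nat_lit 356) (nat_lit 291) (nat_lit 217))) (XT.nd (nat_lit 94) (nat_lit 168) (nat_lit 0) (XT.lf (nat_lit 0) (nat_lit 7658829838) (nat_lit 336) (nat_lit 4387884240) (nat_lit 84) (nat_lit 5028537856) (nat_lit 30) (nat_lit 5) (nat_lit 34) (nat_lit 5) (nat_lit 31) (nat_lit 5) (nat_lit 357) (nat_lit 291) (nat_lit 216)) (XT.nd (nat_lit 94) (nat_lit 0) (nat_lit 0) (XT.lf (nat_lit 0)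 (nat_lit 1227355730) (nat_lit 168) (nat_lit 8803366716) (nat_lit 252) (nat_lit 7443014369) (nat_lit 28) (nat_lit 5) (nat_lit 30) (nat_lit 5) (nat_lit 31) (nat_lit 5) (nat_lit 358) (nat_lit 291) (nat_lit 215)) (XT.lf (nat_lit 0) (nat_lit 7080742092) (nat_lit 168) (nat_lit 5421172344) (nat_lit 252) (nat_lit 5381910660) (nat_lit 28) (nat_lit 5) (nat_lit 30) (nat_lit 5) (nat_lit 31) (nat_lit 5) (nat_lit 359) (nat_lit 291) (nat_lit 214))))) (XT.nd (nat_lit 282) (nat_lit 168) (nat_lit 0) (XT.nd (nat_lit 94) (nat_lit 336) (nat_lit 0) (XT.lf (nat_lit 0) (nat_lit 13087506915) (nat_lit 168) (nat_lit 1942778912) (nat_lit 252) (nat_lit 3276990317) (nat_lit 28) (nat_lit 5) (nat_lit 30) (nat_lit 5) (nat_lit 31) (nat_lit 5) (nat_lit 360) (nat_lit 291) (nat_lit 213)) (XT.nd (nat_lit 94) (nat_lit 84) (nat_lit 0) (XT.lf (nat_lit 0) (nat_lit 502672240) (nat_lit 252) (nat_lit 17136727616) (nat_lit 336) (nat_lit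 1104427403) (nat_lit 25) (nat_lit 5) (nat_lit 28) (nat_lit 5) (nat_lit 29) (nat_lit 5) (nat_lit 361) (nat_lit 291) (nat_lit 212)) (XT.lf (nat_lit 0) (nat_lit 1168653539) (nat_lit 336) (nat_lit 12738677990) (nat_lit 84) (nat_lit 5284536909) (nat_lit 24) (nat_lit 5) (nat_lit 28) (nat_lit 5) (nat_lit 25) (nat_lit 5) (nat_lit 362) (nat_lit 291) (nat_lit 211)))) (XT.nd (nat_lit 94) (nat_lit 168) (nat_lit 0) (XT.lf (nat_lit 0) (nat_lit 3470960752) (nat_lit 336) (nat_lit 7104009911) (nat_lit 84) (nat_lit 9079087577) (nat_lit 24) (nat_lit 5) (nat_lit 28) (nat_lit 5) (nat_lit 25) (nat_lit 5) (nat_lit 363) (nat_lit 291) (nat_lit 210)) (XT.nd (nat_lit 94) (nat_lit 168) (nat_lit 0) (XT.lf (nat_lit 0) (nat_lit 5826891978) (nat_lit 336) (nat_lit 1320942626) (nat_lit 84) (nat_lit 12983332509) (nat_lit 24) (nat_lit 5) (nat_lit 28) (nat_lit 5) (nat_lit 25) (nat_lit 5) (nat_lit 364) (nat_lit 291) (nat_lit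 209)) (XT.lf (nat_lit 0) (nat_lit 4710826954) (nat_lit 168) (nat_lit 3574548223) (nat_lit 252) (nat_lit 12336815903) (nat_lit 22) (nat_lit 5) (nat_lit 24) (nat_lit 5) (nat_lit 25) (nat_lit 5) (nat_lit 365) (nat_lit 291) (nat_lit 208))))))))
noncomputable def xc51 : XT := (XT.nd (nat_lit 48504) (nat_lit 0) (nat_lit 6048) (XT.nd (nat_lit 47470) (nat_lit 0) (nat_lit 13860) (XT.nd (nat_lit 470) (nat_lit 252) (nat_lit 0) (XT.nd (nat_lit 188) (nat_lit 168) (nat_lit 0) (XT.nd (nat_lit 94) (nat_lit 0) (nat_lit 0) (XT.lf (nat_lit 0) (nat_lit 10818057957) (nat_lit 252) (nat_lit 10197361273) (nat_lit 84) (nat_lit 113118560) (nat_lit 22) (nat_lit 5) (nat_lit 25) (nat_lit 5) (nat_lit 23) (nat_lit 5) (nat_lit 366) (nat_lit 291) (nat_lit 207)) (XT.lf (nat_lit 0) (nat_lit 13449296438) (nat_lit 252) (nat_lit 4367719746) (nat_lit 84) (nat_lit 3832981171) (nat_lit 22) (nat_lit 5) (nat_lit 25) (nat_lit 5) (nat_lit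 23) (nat_lit 5) (nat_lit 367) (nat_lit 291) (nat_lit 206))) (XT.nd (nat_lit 94) (nat_lit 0) (nat_lit 0) (XT.lf (nat_lit 0) (nat_lit 1651732989) (nat_lit 168) (nat_lit 14510735654) (nat_lit 252) (nat_lit 6025178496) (nat_lit 20) (nat_lit 5) (nat_lit 22) (nat_lit 5) (nat_lit 23) (nat_lit 5) (nat_lit 368) (nat_lit 291) (nat_lit 205)) (XT.nd (nat_lit 94) (nat_lit 0) (nat_lit 0) (XT.lf (nat_lit 0) (nat_lit 7926440572) (nat_lit 168) (nat_lit 11063122775) (nat_lit 252) (nat_lit 3751511689) (nat_lit 20) (nat_lit 5) (nat_lit 22) (nat_lit 5) (nat_lit 23) (nat_lit 5) (nat_lit 369) (nat_lit 291) (nat_lit 204)) (XT.lf (nat_lit 0) (nat_lit 14372442411) (nat_lit 168) (nat_lit 7516554046) (nat_lit 252) (nat_lit 1423171236) (nat_lit 20) (nat_lit 5) (nat_lit 22) (nat_lit 5) (nat_lit 23) (nat_lit 5) (nat_lit 370) (nat_lit 291) (nat_lit 203))))) (XT.nd (nat_lit 188) (nat_lit 0) (nat_lit 0) (XT.nd (nat_lit 94)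 (nat_lit 168) (nat_lit 0) (XT.lf (nat_lit 0) (nat_lit 942630697) (nat_lit 252) (nat_lit 2915253865) (nat_lit 84) (nat_lit 20043277027) (nat_lit 19) (nat_lit 5) (nat_lit 22) (nat_lit 5) (nat_lit 20) (nat_lit 5) (nat_lit 371) (nat_lit 291) (nat_lit 202)) (XT.lf (nat_lit 0) (nat_lit 3326260153) (nat_lit 168) (nat_lit 44372735) (nat_lit 252) (nat_lit 21136790227) (nat_lit 17) (nat_lit 5) (nat_lit 19) (nat_lit 5) (nat_lit 20) (nat_lit 5) (nat_lit 372) (nat_lit 291) (nat_lit 201))) (XT.nd (nat_lit 46624) (nat_lit 0) (nat_lit 15288) (XT.lf (nat_lit 0) (nat_lit 5928777860) (nat_lit 252) (nat_lit 15369699102) (nat_lit 84) (nat_lit 3832330894) (nat_lit 17) (nat_lit 5) (nat_lit 20) (nat_lit 5) (nat_lit 18) (nat_lit 5) (nat_lit 373) (nat_lit 291) (nat_lit 200)) (XT.nd (nat_lit 94) (nat_lit 420) (nat_lit 0) (XT.lf (nat_lit 0) (nat_lit 1604395581) (nat_lit 0) (nat_lit 1604395581) (nat_lit 252) (nat_lit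 51565641) (nat_lit 204) (nat_lit 5) (nat_lit 204) (nat_lit 3) (nat_lit 207) (nat_lit 3) (nat_lit 292) (nat_lit 292) (nat_lit 280)) (XT.lf (nat_lit 0) (nat_lit 2062495295) (nat_lit 420) (nat_lit 660068210) (nat_lit 420) (nat_lit 3819307282) (nat_lit 199) (nat_lit 3) (nat_lit 204) (nat_lit 3) (nat_lit 204) (nat_lit 5) (nat_lit 293) (nat_lit 292) (nat_lit 279)))))) (XT.nd (nat_lit 470) (nat_lit 1008) (nat_lit 0) (XT.nd (nat_lit 188) (nat_lit 420) (nat_lit 0) (XT.nd (nat_lit 94) (nat_lit 0) (nat_lit 0) (XT.lf (nat_lit 84) (nat_lit 2069399527) (nat_lit 0) (nat_lit 2156998704) (nat_lit 420) (nat_lit 2339837988) (nat_lit 200) (nat_lit 5) (nat_lit 199) (nat_lit 3) (nat_lit 204) (nat_lit 5) (nat_lit 294) (nat_lit 292) (nat_lit 278)) (XT.lf (nat_lit 84) (nat_lit 4852698829) (nat_lit 0) (nat_lit 1526507687) (nat_lit 420) (nat_lit 215075260) (nat_lit 200) (nat_lit 5) (nat_lit 199) (nat_lit 3) (nat_lit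 204) (nat_lit 5) (nat_lit 295) (nat_lit 292) (nat_lit 277))) (XT.nd (nat_lit 94) (nat_lit 0) (nat_lit 0) (XT.lf (nat_lit 84) (nat_lit 1055120158) (nat_lit 0) (nat_lit 807270842) (nat_lit 504) (nat_lit 4762944062) (nat_lit 195) (nat_lit 5) (nat_lit 194) (nat_lit 5) (nat_lit 200) (nat_lit 5) (nat_lit 296) (nat_lit 292) (nat_lit 276)) (XT.nd (nat_lit 94) (nat_lit 0) (nat_lit 84) (XT.lf (nat_lit 84) (nat_lit 3928034587) (nat_lit 0) (nat_lit 8157308) (nat_lit 504) (nat_lit 2723519961) (nat_lit 195) (nat_lit 5) (nat_lit 194) (nat_lit 5) (nat_lit 200) (nat_lit 5) (nat_lit 297) (nat_lit 292) (nat_lit 275)) (XT.lf (nat_lit 84) (nat_lit 142577246) (nat_lit 0) (nat_lit 5862264712) (nat_lit 504) (nat_lit 692908689) (nat_lit 196) (nat_lit 5) (nat_lit 195) (nat_lit 5) (nat_lit 201) (nat_lit 5) (nat_lit 298) (nat_lit 292) (nat_lit 274))))) (XT.nd (nat_lit 282) (nat_lit 588) (nat_lit 0) (XT.nd (nat_lit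 94) (nat_lit 0) (nat_lit 0) (XT.lf (nat_lit 0) (nat_lit 1323076551) (nat_lit 504) (nat_lit 3635118768) (nat_lit 588) (nat_lit 1780290028) (nat_lit 189) (nat_lit 5) (nat_lit 195) (nat_lit 5) (nat_lit 196) (nat_lit 5) (nat_lit 299) (nat_lit 292) (nat_lit 273)) (XT.nd (nat_lit 94) (nat_lit 0) (nat_lit 0) (XT.lf (nat_lit 0) (nat_lit 3311273464) (nat_lit 504) (nat_lit 678775843) (nat_lit 588) (nat_lit 2792971314) (nat_lit 189) (nat_lit 5) (nat_lit 195) (nat_lit 5) (nat_lit 196) (nat_lit 5) (nat_lit 300) (nat_lit 292) (nat_lit 272)) (XT.lf (nat_lit 84) (nat_lit 2371260346) (nat_lit 0) (nat_lit 2939758674) (nat_lit 588) (nat_lit 1519862828) (nat_lit 190) (nat_lit 5) (nat_lit 189) (nat_lit 5) (nat_lit 196) (nat_lit 5) (nat_lit 301) (nat_lit 292) (nat_lit 271)))) (XT.nd (nat_lit 94) (nat_lit 0) (nat_lit 0) (XT.lf (nat_lit 0) (nat_lit 416811552) (nat_lit 588) (nat_lit 1401863724) (nat_lit 672) (nat_lit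 5063809125) (nat_lit 182) (nat_lit 5) (nat_lit 189) (nat_lit 5) (nat_lit 190) (nat_lit 5) (nat_lit 302) (nat_lit 292) (nat_lit 270)) (XT.nd (nat_lit 94) (nat_lit 0) (nat_lit 84) (XT.lf (nat_lit 84) (nat_lit 1724159649) (nat_lit 0) (nat_lit 604136995) (nat_lit 672) (nat_lit 4608929755) (nat_lit 183) (nat_lit 5) (nat_lit 182) (nat_lit 5) (nat_lit 190) (nat_lit 5) (nat_lit 303) (nat_lit 292) (nat_lit 269)) (XT.lf (nat_lit 0) (nat_lit 4251404803) (nat_lit 588) (nat_lit 2070962473) (nat_lit 84) (nat_lit 673122309) (nat_lit 183) (nat_lit 5) (nat_lit 190) (nat_lit 5) (nat_lit 184) (nat_lit 5) (nat_lit 304) (nat_lit 292) (nat_lit 268))))))) (XT.nd (nat_lit 1034) (nat_lit 3864) (nat_lit 0) (XT.nd (nat_lit 470) (nat_lit 1932) (nat_lit 0) (XT.nd (nat_lit 188) (nat_lit 1428) (nat_lit 0) (XT.nd (nat_lit 94) (nat_lit 84) (nat_lit 0) (XT.lf (nat_lit 0) (nat_lit 1138773777) (nat_lit 588) (nat_lit 5046057242)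 (nat_lit 672) (nat_lit 872593274) (nat_lit 176) (nat_lit 5) (nat_lit 183) (nat_lit 5) (nat_lit 184) (nat_lit 5) (nat_lit 305) (nat_lit 292) (nat_lit 267)) (XT.lf (nat_lit 0) (nat_lit 991247005) (nat_lit 672) (nat_lit 2687145037) (nat_lit 84) (nat_lit 3444254619) (nat_lit 175) (nat_lit 5) (nat_lit 183) (nat_lit 5) (nat_lit 176) (nat_lit 5) (nat_lit 306) (nat_lit 292) (nat_lit 266))) (XT.nd (nat_lit 94) (nat_lit 756) (nat_lit 0) (XT.lf (nat_lit 0) (nat_lit 601419882) (nat_lit 672) (nat_lit 2235066931) (nat_lit 756) (nat_lit 4355240924) (nat_lit 167) (nat_lit 5) (nat_lit 175) (nat_lit 5) (nat_lit 176) (nat_lit 5) (nat_lit 307) (nat_lit 292) (nat_lit 265)) (XT.nd (nat_lit 94) (nat_lit 756) (nat_lit 0) (XT.lf (nat_lit 0) (nat_lit 4003055301) (nat_lit 672) (nat_lit 701178380) (nat_lit 756) (nat_lit 2560090564) (nat_lit 167) (nat_lit 5) (nat_lit 175) (nat_lit 5) (nat_lit 176) (nat_lit 5) (nat_lit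 308) (nat_lit 292) (nat_lit 264)) (XT.lf (nat_lit 0) (nat_lit 117810161) (nat_lit 756) (nat_lit 6461277073) (nat_lit 840) (nat_lit 761948000) (nat_lit 158) (nat_lit 5) (nat_lit 167) (nat_lit 5) (nat_lit 168) (nat_lit 5) (nat_lit 309) (nat_lit 292) (nat_lit 263))))) (XT.nd (nat_lit 282) (nat_lit 1008) (nat_lit 0) (XT.nd (nat_lit 94) (nat_lit 840) (nat_lit 0) (XT.lf (nat_lit 0) (nat_lit 1051286504) (nat_lit 840) (nat_lit 3814480616) (nat_lit 84) (nat_lit 2554871758) (nat_lit 157) (nat_lit 5) (nat_lit 167) (nat_lit 5) (nat_lit 158) (nat_lit 5) (nat_lit 310) (nat_lit 292) (nat_lit 262)) (XT.nd (nat_lit 94) (nat_lit 840) (nat_lit 0) (XT.lf (nat_lit 0) (nat_lit 2846503336) (nat_lit 840) (nat_lit 354257450) (nat_lit 84) (nat_lit 4303782348) (nat_lit 157) (nat_lit 5) (nat_lit 167) (nat_lit 5) (nat_lit 158) (nat_lit 5) (nat_lit 311) (nat_lit 292) (nat_lit 261)) (XT.lf (nat_lit 0) (nat_lit 3233373607)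 (nat_lit 840) (nat_lit 1439429238) (nat_lit 924) (nat_lit 2919263341) (nat_lit 147) (nat_lit 5) (nat_lit 157) (nat_lit 5) (nat_lit 158) (nat_lit 5) (nat_lit 312) (nat_lit 292) (nat_lit 260)))) (XT.nd (nat_lit 94) (nat_lit 1008) (nat_lit 0) (XT.lf (nat_lit 0) (nat_lit 6507912364) (nat_lit 924) (nat_lit 792850762) (nat_lit 84) (nat_lit 383269713) (nat_lit 147) (nat_lit 5) (nat_lit 158) (nat_lit 5) (nat_lit 148) (nat_lit 5) (nat_lit 313) (nat_lit 292) (nat_lit 259)) (XT.nd (nat_lit 94) (nat_lit 0) (nat_lit 0) (XT.lf (nat_lit 0) (nat_lit 597899889) (nat_lit 1008) (nat_lit 4903814740) (nat_lit 84) (nat_lit 2277508602) (nat_lit 135) (nat_lit 5) (nat_lit 147) (nat_lit 5) (nat_lit 136) (nat_lit 5) (nat_lit 314) (nat_lit 292) (nat_lit 258)) (XT.lf (nat_lit 0) (nat_lit 2357633337) (nat_lit 1008) (nat_lit 1261112414) (nat_lit 84) (nat_lit 4259862934) (nat_lit 135) (nat_lit 5) (nat_lit 147) (nat_lit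 5) (nat_lit 136) (nat_lit 5) (nat_lit 315) (nat_lit 292) (nat_lit 257)))))) (XT.nd (nat_lit 470) (nat_lit 1176) (nat_lit 0) (XT.nd (nat_lit 188) (nat_lit 1680) (nat_lit 0) (XT.nd (nat_lit 94) (nat_lit 0) (nat_lit 0) (XT.lf (nat_lit 0) (nat_lit 2500189896) (nat_lit 1008) (nat_lit 1644919627) (nat_lit 1092) (nat_lit 3837016507) (nat_lit 123) (nat_lit 5) (nat_lit 135) (nat_lit 5) (nat_lit 136) (nat_lit 5) (nat_lit 316) (nat_lit 292) (nat_lit 256)) (XT.lf (nat_lit 0) (nat_lit 5954729098) (nat_lit 1092) (nat_lit 1733706535) (nat_lit 84) (nat_lit 401661356) (nat_lit 123) (nat_lit 5) (nat_lit 136) (nat_lit 5) (nat_lit 124) (nat_lit 5) (nat_lit 317) (nat_lit 292) (nat_lit 255))) (XT.nd (nat_lit 94) (nat_lit 588) (nat_lit 0) (XT.lf (nat_lit 0) (nat_lit 2111741838) (nat_lit 1092) (nat_lit 5697557726) (nat_lit 1176) (nat_lit 392667893) (nat_lit 110) (nat_lit 5) (nat_lit 123) (nat_lit 5) (nat_lit 124)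 (nat_lit 5) (nat_lit 318) (nat_lit 292) (nat_lit 254)) (XT.nd (nat_lit 94) (nat_lit 504) (nat_lit 0) (XT.lf (nat_lit 0) (nat_lit 1345474537) (nat_lit 1176) (nat_lit 2263146041) (nat_lit 84) (nat_lit 4709387214) (nat_lit 109) (nat_lit 5) (nat_lit 123) (nat_lit 5) (nat_lit 110) (nat_lit 5) (nat_lit 319) (nat_lit 292) (nat_lit 253)) (XT.lf (nat_lit 0) (nat_lit 1668091144) (nat_lit 504) (nat_lit 1430685698) (nat_lit 588) (nat_lit 5339880320) (nat_lit 103) (nat_lit 5) (nat_lit 109) (nat_lit 5) (nat_lit 110) (nat_lit 5) (nat_lit 320) (nat_lit 292) (nat_lit 252))))) (XT.nd (nat_lit 282) (nat_lit 588) (nat_lit 0) (XT.nd (nat_lit 94) (nat_lit 588) (nat_lit 0) (XT.lf (nat_lit 0) (nat_lit 4892273351) (nat_lit 588) (nat_lit 2846730154) (nat_lit 84) (nat_lit 824665125) (nat_lit 103) (nat_lit 5) (nat_lit 110) (nat_lit 5) (nat_lit 104) (nat_lit 5) (nat_lit 321) (nat_lit 292) (nat_lit 251)) (XT.nd (nat_lit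 94) (nat_lit 0) (nat_lit 0) (XT.lf (nat_lit 0) (nat_lit 1163652315) (nat_lit 588) (nat_lit 5559173395) (nat_lit 672) (nat_lit 1970482124) (nat_lit 96) (nat_lit 5) (nat_lit 103) (nat_lit 5) (nat_lit 104) (nat_lit 5) (nat_lit 322) (nat_lit 292) (nat_lit 250)) (XT.lf (nat_lit 0) (nat_lit 5315245563) (nat_lit 588) (nat_lit 3280788453) (nat_lit 672) (nat_lit 231540886) (nat_lit 96) (nat_lit 5) (nat_lit 103) (nat_lit 5) (nat_lit 104) (nat_lit 5) (nat_lit 323) (nat_lit 292) (nat_lit 249)))) (XT.nd (nat_lit 94) (nat_lit 0) (nat_lit 0) (XT.lf (nat_lit 0) (nat_lit 582581847) (nat_lit 504) (nat_lit 909961797) (nat_lit 588) (nat_lit 7474299004) (nat_lit 89) (nat_lit 5) (nat_lit 95) (nat_lit 5) (nat_lit 96) (nat_lit 5) (nat_lit 324) (nat_lit 292) (nat_lit 248)) (XT.nd (nat_lit 94) (nat_lit 0) (nat_lit 0) (XT.lf (nat_lit 0) (nat_lit 3275302209) (nat_lit 588) (nat_lit 4292584953) (nat_lit 84) (nat_lit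 1542313120) (nat_lit 89) (nat_lit 5) (nat_lit 96) (nat_lit 5) (nat_lit 90) (nat_lit 5) (nat_lit 325) (nat_lit 292) (nat_lit 247)) (XT.lf (nat_lit 0) (nat_lit 5081682079) (nat_lit 588) (nat_lit 126268644) (nat_lit 84) (nat_lit 4051184674) (nat_lit 89) (nat_lit 5) (nat_lit 96) (nat_lit 5) (nat_lit 90) (nat_lit 5) (nat_lit 326) (nat_lit 292) (nat_lit 246))))))))
noncomputable def xc52 : XT := (XT.nd (nat_lit 1974) (nat_lit 1764) (nat_lit 0) (XT.nd (nat_lit 940) (nat_lit 1512) (nat_lit 0) (XT.nd (nat_lit 470) (nat_lit 924) (nat_lit 0) (XT.nd (nat_lit 188) (nat_lit 924) (nat_lit 0) (XT.nd (nat_lit 94) (nat_lit 0) (nat_lit 0) (XT.lf (nat_lit 0) (nat_lit 4212470392) (nat_lit 504) (nat_lit 2733657891) (nat_lit 588) (nat_lit 2466642933) (nat_lit 83) (nat_lit 5) (nat_lit 89) (nat_lit 5) (nat_lit 90) (nat_lit 5) (nat_lit 327) (nat_lit 292) (nat_lit 245)) (XT.lf (nat_lit 0) (nat_lit 8647203413) (nat_lit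 504) (nat_lit 183552961) (nat_lit 588) (nat_lit 741722861) (nat_lit 83) (nat_lit 5) (nat_lit 89) (nat_lit 5) (nat_lit 90) (nat_lit 5) (nat_lit 328) (nat_lit 292) (nat_lit 244))) (XT.nd (nat_lit 94) (nat_lit 420) (nat_lit 0) (XT.lf (nat_lit 0) (nat_lit 1036929964) (nat_lit 504) (nat_lit 6260085456) (nat_lit 84) (nat_lit 2439283335) (nat_lit 77) (nat_lit 5) (nat_lit 83) (nat_lit 5) (nat_lit 78) (nat_lit 5) (nat_lit 329) (nat_lit 292) (nat_lit 243)) (XT.nd (nat_lit 94) (nat_lit 420) (nat_lit 0) (XT.lf (nat_lit 0) (nat_lit 2829382913) (nat_lit 504) (nat_lit 1922414856) (nat_lit 84) (nat_lit 5154098440) (nat_lit 77) (nat_lit 5) (nat_lit 83) (nat_lit 5) (nat_lit 78) (nat_lit 5) (nat_lit 330) (nat_lit 292) (nat_lit 242)) (XT.lf (nat_lit 0) (nat_lit 2560854099) (nat_lit 420) (nat_lit 2105516430) (nat_lit 504) (nat_lit 5414849541) (nat_lit 72) (nat_lit 5) (nat_lit 77) (nat_lit 5) (nat_lit 78) (nat_lit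 5) (nat_lit 331) (nat_lit 292) (nat_lit 241))))) (XT.nd (nat_lit 188) (nat_lit 504) (nat_lit 0) (XT.nd (nat_lit 94) (nat_lit 420) (nat_lit 0) (XT.lf (nat_lit 0) (nat_lit 6550974289) (nat_lit 504) (nat_lit 3085125199) (nat_lit 84) (nat_lit 626291822) (nat_lit 72) (nat_lit 5) (nat_lit 78) (nat_lit 5) (nat_lit 73) (nat_lit 5) (nat_lit 332) (nat_lit 292) (nat_lit 240)) (XT.lf (nat_lit 0) (nat_lit 1455393212) (nat_lit 420) (nat_lit 7039875526) (nat_lit 504) (nat_lit 1953990209) (nat_lit 67) (nat_lit 5) (nat_lit 72) (nat_lit 5) (nat_lit 73) (nat_lit 5) (nat_lit 333) (nat_lit 292) (nat_lit 239))) (XT.nd (nat_lit 94) (nat_lit 504) (nat_lit 0) (XT.lf (nat_lit 0) (nat_lit 6162472450) (nat_lit 420) (nat_lit 4335512717) (nat_lit 504) (nat_lit 144107502) (nat_lit 67) (nat_lit 5) (nat_lit 72) (nat_lit 5) (nat_lit 73) (nat_lit 5) (nat_lit 334) (nat_lit 292) (nat_lit 238)) (XT.nd (nat_lit 94) (nat_lit 0)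 (nat_lit 0) (XT.lf (nat_lit 0) (nat_lit 120712769) (nat_lit 420) (nat_lit 1534196724) (nat_lit 504) (nat_lit 9186574851) (nat_lit 61) (nat_lit 5) (nat_lit 66) (nat_lit 5) (nat_lit 67) (nat_lit 5) (nat_lit 335) (nat_lit 292) (nat_lit 237)) (XT.lf (nat_lit 0) (nat_lit 3534455375) (nat_lit 504) (nat_lit 6142242732) (nat_lit 84) (nat_lit 1369558693) (nat_lit 61) (nat_lit 5) (nat_lit 67) (nat_lit 5) (nat_lit 62) (nat_lit 5) (nat_lit 336) (nat_lit 292) (nat_lit 236)))))) (XT.nd (nat_lit 470) (nat_lit 756) (nat_lit 0) (XT.nd (nat_lit 188) (nat_lit 420) (nat_lit 0) (XT.nd (nat_lit 94) (nat_lit 336) (nat_lit 0) (XT.lf (nat_lit 0) (nat_lit 5456033173) (nat_lit 504) (nat_lit 1476145008) (nat_lit 84) (nat_lit 4325804770) (nat_lit 61) (nat_lit 5) (nat_lit 67) (nat_lit 5) (nat_lit 62) (nat_lit 5) (nat_lit 337) (nat_lit 292) (nat_lit 235)) (XT.lf (nat_lit 0) (nat_lit 3364885250) (nat_lit 336) (nat_lit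 4074709404) (nat_lit 420) (nat_lit 4036702510) (nat_lit 57) (nat_lit 5) (nat_lit 61) (nat_lit 5) (nat_lit 62) (nat_lit 5) (nat_lit 338) (nat_lit 292) (nat_lit 234))) (XT.nd (nat_lit 94) (nat_lit 420) (nat_lit 0) (XT.lf (nat_lit 0) (nat_lit 8350149281) (nat_lit 336) (nat_lit 1119502591) (nat_lit 420) (nat_lit 2232288502) (nat_lit 57) (nat_lit 5) (nat_lit 61) (nat_lit 5) (nat_lit 62) (nat_lit 5) (nat_lit 339) (nat_lit 292) (nat_lit 233)) (XT.nd (nat_lit 94) (nat_lit 84) (nat_lit 0) (XT.lf (nat_lit 0) (nat_lit 1530129346) (nat_lit 336) (nat_lit 10037256600) (nat_lit 420) (nat_lit 367139001) (nat_lit 53) (nat_lit 5) (nat_lit 57) (nat_lit 5) (nat_lit 58) (nat_lit 5) (nat_lit 340) (nat_lit 292) (nat_lit 232)) (XT.lf (nat_lit 0) (nat_lit 1541863868) (nat_lit 420) (nat_lit 5603308005) (nat_lit 84) (nat_lit 5028218511) (nat_lit 52) (nat_lit 5) (nat_lit 57) (nat_lit 5) (nat_lit 53) (nat_lit 5) (nat_lit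 341) (nat_lit 292) (nat_lit 231))))) (XT.nd (nat_lit 282) (nat_lit 420) (nat_lit 0) (XT.nd (nat_lit 94) (nat_lit 336) (nat_lit 0) (XT.lf (nat_lit 0) (nat_lit 3473890603) (nat_lit 420) (nat_lit 693297552) (nat_lit 84) (nat_lit 8253325822) (nat_lit 52) (nat_lit 5) (nat_lit 57) (nat_lit 5) (nat_lit 53) (nat_lit 5) (nat_lit 342) (nat_lit 292) (nat_lit 230)) (XT.nd (nat_lit 94) (nat_lit 0) (nat_lit 0) (XT.lf (nat_lit 0) (nat_lit 4422967400) (nat_lit 336) (nat_lit 1059048069) (nat_lit 420) (nat_lit 7192863340) (nat_lit 48) (nat_lit 5) (nat_lit 52) (nat_lit 5) (nat_lit 53) (nat_lit 5) (nat_lit 343) (nat_lit 292) (nat_lit 229)) (XT.lf (nat_lit 0) (nat_lit 7553727764) (nat_lit 420) (nat_lit 3281289580) (nat_lit 84) (nat_lit 2102150487) (nat_lit 48) (nat_lit 5) (nat_lit 53) (nat_lit 5) (nat_lit 49) (nat_lit 5) (nat_lit 344) (nat_lit 292) (nat_lit 228)))) (XT.nd (nat_lit 94) (nat_lit 84) (nat_lit 0)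 (XT.lf (nat_lit 0) (nat_lit 1835069808) (nat_lit 336) (nat_lit 7857190480) (nat_lit 420) (nat_lit 3515324882) (nat_lit 44) (nat_lit 5) (nat_lit 48) (nat_lit 5) (nat_lit 49) (nat_lit 5) (nat_lit 345) (nat_lit 292) (nat_lit 227)) (XT.nd (nat_lit 94) (nat_lit 84) (nat_lit 0) (XT.lf (nat_lit 0) (nat_lit 7145454447) (nat_lit 336) (nat_lit 4759900510) (nat_lit 420) (nat_lit 1580849720) (nat_lit 44) (nat_lit 5) (nat_lit 48) (nat_lit 5) (nat_lit 49) (nat_lit 5) (nat_lit 346) (nat_lit 292) (nat_lit 226)) (XT.lf (nat_lit 0) (nat_lit 379730578) (nat_lit 420) (nat_lit 1190816181) (nat_lit 84) (nat_lit 12203649939) (nat_lit 43) (nat_lit 5) (nat_lit 48) (nat_lit 5) (nat_lit 44) (nat_lit 5) (nat_lit 347) (nat_lit 292) (nat_lit 225))))))) (XT.nd (nat_lit 940) (nat_lit 672) (nat_lit 0) (XT.nd (nat_lit 470) (nat_lit 588) (nat_lit 0) (XT.nd (nat_lit 188) (nat_lit 252) (nat_lit 0) (XT.nd (nat_lit 94) (nat_lit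 0) (nat_lit 0) (XT.lf (nat_lit 0) (nat_lit 2402239647) (nat_lit 336) (nat_lit 9934138442) (nat_lit 84) (nat_lit 1733252433) (nat_lit 40) (nat_lit 5) (nat_lit 44) (nat_lit 5) (nat_lit 41) (nat_lit 5) (nat_lit 348) (nat_lit 292) (nat_lit 224)) (XT.lf (nat_lit 0) (nat_lit 4491647186) (nat_lit 336) (nat_lit 4770976917) (nat_lit 84) (nat_lit 5111535313) (nat_lit 40) (nat_lit 5) (nat_lit 44) (nat_lit 5) (nat_lit 41) (nat_lit 5) (nat_lit 349) (nat_lit 292) (nat_lit 223))) (XT.nd (nat_lit 94) (nat_lit 0) (nat_lit 0) (XT.lf (nat_lit 0) (nat_lit 530823170) (nat_lit 252) (nat_lit 6096584139) (nat_lit 336) (nat_lit 8061357224) (nat_lit 37) (nat_lit 5) (nat_lit 40) (nat_lit 5) (nat_lit 41) (nat_lit 5) (nat_lit 350) (nat_lit 292) (nat_lit 222)) (XT.nd (nat_lit 94) (nat_lit 0) (nat_lit 0) (XT.lf (nat_lit 0) (nat_lit 6066332042) (nat_lit 252) (nat_lit 2789555086) (nat_lit 336) (nat_lit 6156476319) (nat_lit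 37) (nat_lit 5) (nat_lit 40) (nat_lit 5) (nat_lit 41) (nat_lit 5) (nat_lit 351) (nat_lit 292) (nat_lit 221)) (XT.lf (nat_lit 0) (nat_lit 11136930565) (nat_lit 336) (nat_lit 3610215442) (nat_lit 84) (nat_lit 599421013) (nat_lit 37) (nat_lit 5) (nat_lit 41) (nat_lit 5) (nat_lit 38) (nat_lit 5) (nat_lit 352) (nat_lit 292) (nat_lit 220))))) (XT.nd (nat_lit 188) (nat_lit 336) (nat_lit 0) (XT.nd (nat_lit 94) (nat_lit 0) (nat_lit 0) (XT.lf (nat_lit 0) (nat_lit 1869582873) (nat_lit 252) (nat_lit 11644192530) (nat_lit 336) (nat_lit 2176636902) (nat_lit 34) (nat_lit 5) (nat_lit 37) (nat_lit 5) (nat_lit 38) (nat_lit 5) (nat_lit 353) (nat_lit 292) (nat_lit 219)) (XT.lf (nat_lit 0) (nat_lit 7565533770) (nat_lit 252) (nat_lit 8414824873) (nat_lit 336) (nat_lit 64117790) (nat_lit 34) (nat_lit 5) (nat_lit 37) (nat_lit 5) (nat_lit 38) (nat_lit 5) (nat_lit 354) (nat_lit 292) (nat_lit 218))) (XT.nd (nat_lit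 94) (nat_lit 252) (nat_lit 0) (XT.lf (nat_lit 0) (nat_lit 2050053421) (nat_lit 336) (nat_lit 3022264398) (nat_lit 84) (nat_lit 11337261262) (nat_lit 33) (nat_lit 5) (nat_lit 37) (nat_lit 5) (nat_lit 34) (nat_lit 5) (nat_lit 355) (nat_lit 292) (nat_lit 217)) (XT.nd (nat_lit 94) (nat_lit 0) (nat_lit 0) (XT.lf (nat_lit 0) (nat_lit 2626901514) (nat_lit 252) (nat_lit 1606982722) (nat_lit 336) (nat_lit 12551978688) (nat_lit 30) (nat_lit 5) (nat_lit 33) (nat_lit 5) (nat_lit 34) (nat_lit 5) (nat_lit 356) (nat_lit 292) (nat_lit 216)) (XT.lf (nat_lit 0) (nat_lit 6516428785) (nat_lit 336) (nat_lit 8706637996) (nat_lit 84) (nat_lit 1949834109) (nat_lit 30) (nat_lit 5) (nat_lit 34) (nat_lit 5) (nat_lit 31) (nat_lit 5) (nat_lit 357) (nat_lit 292) (nat_lit 215)))))) (XT.nd (nat_lit 470) (nat_lit 252) (nat_lit 0) (XT.nd (nat_lit 188) (nat_lit 252) (nat_lit 0) (XT.nd (nat_lit 94) (nat_lit 168) (nat_lit 0)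 (XT.lf (nat_lit 0) (nat_lit 8866425220) (nat_lit 336) (nat_lit 3130091881) (nat_lit 84) (nat_lit 5575571705) (nat_lit 30) (nat_lit 5) (nat_lit 34) (nat_lit 5) (nat_lit 31) (nat_lit 5) (nat_lit 358) (nat_lit 292) (nat_lit 214)) (XT.lf (nat_lit 0) (nat_lit 2645109385) (nat_lit 168) (nat_lit 8651252945) (nat_lit 252) (nat_lit 6687117181) (nat_lit 28) (nat_lit 5) (nat_lit 30) (nat_lit 5) (nat_lit 31) (nat_lit 5) (nat_lit 359) (nat_lit 292) (nat_lit 213))) (XT.nd (nat_lit 94) (nat_lit 252) (nat_lit 0) (XT.lf (nat_lit 0) (nat_lit 8638465880) (nat_lit 168) (nat_lit 5176989948) (nat_lit 252) (nat_lit 4591785164) (nat_lit 28) (nat_lit 5) (nat_lit 30) (nat_lit 5) (nat_lit 31) (nat_lit 5) (nat_lit 360) (nat_lit 292) (nat_lit 212)) (XT.nd (nat_lit 94) (nat_lit 252) (nat_lit 0) (XT.lf (nat_lit 0) (nat_lit 14791202930) (nat_lit 168) (nat_lit 1603161471) (nat_lit 252) (nat_lit 2450386205) (nat_lit 28)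 (nat_lit 5) (nat_lit 30) (nat_lit 5) (nat_lit 31) (nat_lit 5) (nat_lit 361) (nat_lit 292) (nat_lit 211)) (XT.lf (nat_lit 0) (nat_lit 1828917982) (nat_lit 252) (nat_lit 17245286984) (nat_lit 336) (nat_lit 221011090) (nat_lit 25) (nat_lit 5) (nat_lit 28) (nat_lit 5) (nat_lit 29) (nat_lit 5) (nat_lit 362) (nat_lit 292) (nat_lit 210))))) (XT.nd (nat_lit 282) (nat_lit 168) (nat_lit 0) (XT.nd (nat_lit 94) (nat_lit 0) (nat_lit 0) (XT.lf (nat_lit 0) (nat_lit 2077010692) (nat_lit 336) (nat_lit 11842374763) (nat_lit 84) (nat_lit 5838379450) (nat_lit 24) (nat_lit 5) (nat_lit 28) (nat_lit 5) (nat_lit 25) (nat_lit 5) (nat_lit 363) (nat_lit 292) (nat_lit 209)) (XT.nd (nat_lit 94) (nat_lit 0) (nat_lit 0) (XT.lf (nat_lit 0) (nat_lit 4424466349) (nat_lit 336) (nat_lit 6071855707) (nat_lit 84) (nat_lit 9738834051) (nat_lit 24) (nat_lit 5) (nat_lit 28) (nat_lit 5) (nat_lit 25) (nat_lit 5) (nat_lit 364) (nat_lit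 292) (nat_lit 208)) (XT.lf (nat_lit 0) (nat_lit 6827996835) (nat_lit 336) (nat_lit 147169722) (nat_lit 84) (nat_lit 13752736049) (nat_lit 24) (nat_lit 5) (nat_lit 28) (nat_lit 5) (nat_lit 25) (nat_lit 5) (nat_lit 365) (nat_lit 292) (nat_lit 207)))) (XT.nd (nat_lit 94) (nat_lit 0) (nat_lit 0) (XT.lf (nat_lit 0) (nat_lit 6059286744) (nat_lit 168) (nat_lit 3290664624) (nat_lit 252) (nat_lit 11884648952) (nat_lit 22) (nat_lit 5) (nat_lit 24) (nat_lit 5) (nat_lit 25) (nat_lit 5) (nat_lit 366) (nat_lit 292) (nat_lit 206)) (XT.nd (nat_lit 94) (nat_lit 0) (nat_lit 0) (XT.lf (nat_lit 0) (nat_lit 11940658277) (nat_lit 252) (nat_lit 9324936873) (nat_lit 84) (nat_lit 491739084) (nat_lit 22) (nat_lit 5) (nat_lit 25) (nat_lit 5) (nat_lit 23) (nat_lit 5) (nat_lit 367) (nat_lit 292) (nat_lit 205)) (XT.lf (nat_lit 0) (nat_lit 14629794485) (nat_lit 252) (nat_lit 3350313433) (nat_lit 84) (nat_lit 4315638552)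 (nat_lit 22) (nat_lit 5) (nat_lit 25) (nat_lit 5) (nat_lit 23) (nat_lit 5) (nat_lit 368) (nat_lit 292) (nat_lit 204))))))))
noncomputable def xc53 : XT := (XT.nd (nat_lit 48598) (nat_lit 0) (nat_lit 5040) (XT.nd (nat_lit 47564) (nat_lit 0) (nat_lit 12600) (XT.nd (nat_lit 47094) (nat_lit 0) (nat_lit 14868) (XT.nd (nat_lit 188) (nat_lit 252) (nat_lit 0) (XT.nd (nat_lit 94) (nat_lit 0) (nat_lit 0) (XT.lf (nat_lit 0) (nat_lit 2844071215) (nat_lit 168) (nat_lit 14571365071) (nat_lit 252) (nat_lit 5435039935) (nat_lit 20) (nat_lit 5) (nat_lit 22) (nat_lit 5) (nat_lit 23) (nat_lit 5) (nat_lit 369) (nat_lit 292) (nat_lit 203)) (XT.lf (nat_lit 0) (nat_lit 9278983221) (nat_lit 168) (nat_lit 11028578719) (nat_lit 252) (nat_lit 3114249779) (nat_lit 20) (nat_lit 5) (nat_lit 22) (nat_lit 5) (nat_lit 23) (nat_lit 5) (nat_lit 370) (nat_lit 292) (nat_lit 202))) (XT.nd (nat_lit 94) (nat_lit 252) (nat_lit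 0) (XT.lf (nat_lit 0) (nat_lit 15891531279) (nat_lit 168) (nat_lit 7383417015) (nat_lit 252) (nat_lit 736388698) (nat_lit 20) (nat_lit 5) (nat_lit 22) (nat_lit 5) (nat_lit 23) (nat_lit 5) (nat_lit 371) (nat_lit 292) (nat_lit 201)) (XT.nd (nat_lit 94) (nat_lit 168) (nat_lit 0) (XT.lf (nat_lit 0) (nat_lit 1666493202) (nat_lit 252) (nat_lit 1948594314) (nat_lit 84) (nat_lit 21003991004) (nat_lit 19) (nat_lit 5) (nat_lit 22) (nat_lit 5) (nat_lit 20) (nat_lit 5) (nat_lit 372) (nat_lit 292) (nat_lit 200)) (XT.lf (nat_lit 0) (nat_lit 4162396009) (nat_lit 252) (nat_lit 20771938591) (nat_lit 84) (nat_lit 310072602) (nat_lit 17) (nat_lit 5) (nat_lit 20) (nat_lit 5) (nat_lit 18) (nat_lit 5) (nat_lit 373) (nat_lit 292) (nat_lit 199))))) (XT.nd (nat_lit 188) (nat_lit 420) (nat_lit 0) (XT.nd (nat_lit 94) (nat_lit 0) (nat_lit 0) (XT.lf (nat_lit 0) (nat_lit 2091543795) (nat_lit 420) (nat_lit 595373702)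 (nat_lit 420) (nat_lit 595373702) (nat_lit 199) (nat_lit 3) (nat_lit 204) (nat_lit 3) (nat_lit 204) (nat_lit 5) (nat_lit 293) (nat_lit 293) (nat_lit 278)) (XT.lf (nat_lit 84) (nat_lit 1505762672) (nat_lit 0) (nat_lit 4793971697) (nat_lit 420) (nat_lit 290925252) (nat_lit 200) (nat_lit 5) (nat_lit 199) (nat_lit 3) (nat_lit 204) (nat_lit 5) (nat_lit 294) (nat_lit 293) (nat_lit 277))) (XT.nd (nat_lit 94) (nat_lit 0) (nat_lit 0) (XT.lf (nat_lit 0) (nat_lit 1755615487) (nat_lit 420) (nat_lit 2370298946) (nat_lit 504) (nat_lit 2493738525) (nat_lit 194) (nat_lit 5) (nat_lit 199) (nat_lit 3) (nat_lit 200) (nat_lit 5) (nat_lit 295) (nat_lit 293) (nat_lit 276)) (XT.nd (nat_lit 94) (nat_lit 0) (nat_lit 0) (XT.lf (nat_lit 84) (nat_lit 389062603) (nat_lit 0) (nat_lit 3393045264) (nat_lit 504) (nat_lit 2870203340) (nat_lit 195) (nat_lit 5) (nat_lit 194) (nat_lit 5) (nat_lit 200) (nat_lit 5) (nat_lit 296)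 (nat_lit 293) (nat_lit 275)) (XT.lf (nat_lit 84) (nat_lit 3240409214) (nat_lit 0) (nat_lit 2576456087) (nat_lit 504) (nat_lit 871251520) (nat_lit 195) (nat_lit 5) (nat_lit 194) (nat_lit 5) (nat_lit 200) (nat_lit 5) (nat_lit 297) (nat_lit 293) (nat_lit 274)))))) (XT.nd (nat_lit 470) (nat_lit 1260) (nat_lit 0) (XT.nd (nat_lit 188) (nat_lit 504) (nat_lit 0) (XT.nd (nat_lit 94) (nat_lit 0) (nat_lit 0) (XT.lf (nat_lit 0) (nat_lit 1087577339) (nat_lit 504) (nat_lit 601197401) (nat_lit 588) (nat_lit 5038731014) (nat_lit 188) (nat_lit 5) (nat_lit 194) (nat_lit 5) (nat_lit 195) (nat_lit 5) (nat_lit 298) (nat_lit 293) (nat_lit 273)) (XT.lf (nat_lit 84) (nat_lit 2328382936) (nat_lit 0) (nat_lit 707974495) (nat_lit 588) (nat_lit 3733519872) (nat_lit 189) (nat_lit 5) (nat_lit 188) (nat_lit 5) (nat_lit 195) (nat_lit 5) (nat_lit 299) (nat_lit 293) (nat_lit 272))) (XT.nd (nat_lit 94) (nat_lit 588) (nat_lit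 0) (XT.lf (nat_lit 0) (nat_lit 4981288580) (nat_lit 504) (nat_lit 1500643746) (nat_lit 588) (nat_lit 334014847) (nat_lit 189) (nat_lit 5) (nat_lit 195) (nat_lit 5) (nat_lit 196) (nat_lit 5) (nat_lit 300) (nat_lit 293) (nat_lit 271)) (XT.nd (nat_lit 94) (nat_lit 0) (nat_lit 0) (XT.lf (nat_lit 0) (nat_lit 70538638) (nat_lit 588) (nat_lit 5355859014) (nat_lit 672) (nat_lit 1438930687) (nat_lit 182) (nat_lit 5) (nat_lit 189) (nat_lit 5) (nat_lit 190) (nat_lit 5) (nat_lit 301) (nat_lit 293) (nat_lit 270)) (XT.lf (nat_lit 0) (nat_lit 1941751709) (nat_lit 588) (nat_lit 2335688679) (nat_lit 672) (nat_lit 2640279569) (nat_lit 182) (nat_lit 5) (nat_lit 189) (nat_lit 5) (nat_lit 190) (nat_lit 5) (nat_lit 302) (nat_lit 293) (nat_lit 269))))) (XT.nd (nat_lit 282) (nat_lit 588) (nat_lit 0) (XT.nd (nat_lit 94) (nat_lit 672) (nat_lit 0) (XT.lf (nat_lit 84) (nat_lit 748851018) (nat_lit 0) (nat_lit 3060918688)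 (nat_lit 672) (nat_lit 3164210857) (nat_lit 183) (nat_lit 5) (nat_lit 182) (nat_lit 5) (nat_lit 190) (nat_lit 5) (nat_lit 303) (nat_lit 293) (nat_lit 268)) (XT.nd (nat_lit 94) (nat_lit 672) (nat_lit 0) (XT.lf (nat_lit 84) (nat_lit 3934632160) (nat_lit 0) (nat_lit 1758440689) (nat_lit 672) (nat_lit 1340570842) (nat_lit 183) (nat_lit 5) (nat_lit 182) (nat_lit 5) (nat_lit 190) (nat_lit 5) (nat_lit 304) (nat_lit 293) (nat_lit 267)) (XT.lf (nat_lit 84) (nat_lit 75944803) (nat_lit 0) (nat_lit 387565176) (nat_lit 756) (nat_lit 6633819431) (nat_lit 175) (nat_lit 5) (nat_lit 174) (nat_lit 5) (nat_lit 183) (nat_lit 5) (nat_lit 305) (nat_lit 293) (nat_lit 266)))) (XT.nd (nat_lit 94) (nat_lit 672) (nat_lit 0) (XT.lf (nat_lit 0) (nat_lit 2274304930) (nat_lit 672) (nat_lit 3817492204) (nat_lit 84) (nat_lit 1071737159) (nat_lit 175) (nat_lit 5) (nat_lit 183) (nat_lit 5) (nat_lit 176) (nat_lit 5) (nat_lit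 306) (nat_lit 293) (nat_lit 265)) (XT.nd (nat_lit 94) (nat_lit 672) (nat_lit 0) (XT.lf (nat_lit 0) (nat_lit 4082909495) (nat_lit 672) (nat_lit 563160498) (nat_lit 84) (nat_lit 2587827972) (nat_lit 175) (nat_lit 5) (nat_lit 183) (nat_lit 5) (nat_lit 176) (nat_lit 5) (nat_lit 307) (nat_lit 293) (nat_lit 264)) (XT.lf (nat_lit 0) (nat_lit 2805003145) (nat_lit 672) (nat_lit 3109987622) (nat_lit 756) (nat_lit 1392751826) (nat_lit 167) (nat_lit 5) (nat_lit 175) (nat_lit 5) (nat_lit 176) (nat_lit 5) (nat_lit 308) (nat_lit 293) (nat_lit 263))))))) (XT.nd (nat_lit 1034) (nat_lit 2688) (nat_lit 0) (XT.nd (nat_lit 470) (nat_lit 3192) (nat_lit 0) (XT.nd (nat_lit 188) (nat_lit 840) (nat_lit 0) (XT.nd (nat_lit 94) (nat_lit 756) (nat_lit 0) (XT.lf (nat_lit 0) (nat_lit 357560661) (nat_lit 756) (nat_lit 1143031958) (nat_lit 84) (nat_lit 5885099877) (nat_lit 166) (nat_lit 5) (nat_lit 175) (nat_lit 5) (nat_lit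 167) (nat_lit 5) (nat_lit 309) (nat_lit 293) (nat_lit 262)) (XT.lf (nat_lit 0) (nat_lit 2100112469) (nat_lit 840) (nat_lit 5159241624) (nat_lit 84) (nat_lit 207553012) (nat_lit 157) (nat_lit 5) (nat_lit 167) (nat_lit 5) (nat_lit 158) (nat_lit 5) (nat_lit 310) (nat_lit 293) (nat_lit 261))) (XT.nd (nat_lit 94) (nat_lit 840) (nat_lit 0) (XT.lf (nat_lit 0) (nat_lit 3867439339) (nat_lit 840) (nat_lit 1721177148) (nat_lit 84) (nat_lit 1963185569) (nat_lit 157) (nat_lit 5) (nat_lit 167) (nat_lit 5) (nat_lit 158) (nat_lit 5) (nat_lit 311) (nat_lit 293) (nat_lit 260)) (XT.nd (nat_lit 94) (nat_lit 0) (nat_lit 0) (XT.lf (nat_lit 0) (nat_lit 1816412883) (nat_lit 840) (nat_lit 3836218171) (nat_lit 924) (nat_lit 1988090712) (nat_lit 147) (nat_lit 5) (nat_lit 157) (nat_lit 5) (nat_lit 158) (nat_lit 5) (nat_lit 312) (nat_lit 293) (nat_lit 259)) (XT.lf (nat_lit 0) (nat_lit 5456947069) (nat_lit 840) (nat_lit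 2000464202) (nat_lit 924) (nat_lit 276335994) (nat_lit 147) (nat_lit 5) (nat_lit 157) (nat_lit 5) (nat_lit 158) (nat_lit 5) (nat_lit 313) (nat_lit 293) (nat_lit 258))))) (XT.nd (nat_lit 282) (nat_lit 1176) (nat_lit 0) (XT.nd (nat_lit 94) (nat_lit 1008) (nat_lit 0) (XT.lf (nat_lit 0) (nat_lit 1349888910) (nat_lit 924) (nat_lit 69130955) (nat_lit 1008) (nat_lit 6411629311) (nat_lit 135) (nat_lit 5) (nat_lit 146) (nat_lit 5) (nat_lit 147) (nat_lit 5) (nat_lit 314) (nat_lit 293) (nat_lit 257)) (XT.nd (nat_lit 94) (nat_lit 1008) (nat_lit 0) (XT.lf (nat_lit 0) (nat_lit 3152655811) (nat_lit 1008) (nat_lit 2859379558) (nat_lit 84) (nat_lit 1918916537) (nat_lit 135) (nat_lit 5) (nat_lit 147) (nat_lit 5) (nat_lit 136) (nat_lit 5) (nat_lit 315) (nat_lit 293) (nat_lit 256)) (XT.lf (nat_lit 0) (nat_lit 847274501) (nat_lit 1008) (nat_lit 4051812734) (nat_lit 1092) (nat_lit 3136759404) (nat_lit 123) (nat_lit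 5) (nat_lit 135) (nat_lit 5) (nat_lit 136) (nat_lit 5) (nat_lit 316) (nat_lit 293) (nat_lit 255)))) (XT.nd (nat_lit 94) (nat_lit 1176) (nat_lit 0) (XT.lf (nat_lit 0) (nat_lit 4686537996) (nat_lit 1008) (nat_lit 1993986210) (nat_lit 1092) (nat_lit 1464268895) (nat_lit 123) (nat_lit 5) (nat_lit 135) (nat_lit 5) (nat_lit 136) (nat_lit 5) (nat_lit 317) (nat_lit 293) (nat_lit 254)) (XT.nd (nat_lit 94) (nat_lit 0) (nat_lit 0) (XT.lf (nat_lit 0) (nat_lit 211486327) (nat_lit 1176) (nat_lit 7910648128) (nat_lit 84) (nat_lit 136440685) (nat_lit 109) (nat_lit 5) (nat_lit 123) (nat_lit 5) (nat_lit 110) (nat_lit 5) (nat_lit 318) (nat_lit 293) (nat_lit 253)) (XT.lf (nat_lit 0) (nat_lit 1918520143) (nat_lit 1176) (nat_lit 4109164558) (nat_lit 84) (nat_lit 2347622062) (nat_lit 109) (nat_lit 5) (nat_lit 123) (nat_lit 5) (nat_lit 110) (nat_lit 5) (nat_lit 319) (nat_lit 293) (nat_lit 252)))))) (XT.nd (nat_lit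 470) (nat_lit 1512) (nat_lit 0) (XT.nd (nat_lit 188) (nat_lit 672) (nat_lit 0) (XT.nd (nat_lit 94) (nat_lit 504) (nat_lit 0) (XT.lf (nat_lit 0) (nat_lit 3632775039) (nat_lit 1176) (nat_lit 232583892) (nat_lit 84) (nat_lit 4631897809) (nat_lit 109) (nat_lit 5) (nat_lit 123) (nat_lit 5) (nat_lit 110) (nat_lit 5) (nat_lit 320) (nat_lit 293) (nat_lit 251)) (XT.lf (nat_lit 0) (nat_lit 3799253746) (nat_lit 504) (nat_lit 1594284200) (nat_lit 588) (nat_lit 3229832430) (nat_lit 103) (nat_lit 5) (nat_lit 109) (nat_lit 5) (nat_lit 110) (nat_lit 5) (nat_lit 321) (nat_lit 293) (nat_lit 250))) (XT.nd (nat_lit 94) (nat_lit 672) (nat_lit 0) (XT.lf (nat_lit 0) (nat_lit 7175375216) (nat_lit 588) (nat_lit 842330988) (nat_lit 84) (nat_lit 736898339) (nat_lit 103) (nat_lit 5) (nat_lit 110) (nat_lit 5) (nat_lit 104) (nat_lit 5) (nat_lit 322) (nat_lit 293) (nat_lit 249)) (XT.nd (nat_lit 94) (nat_lit 0) (nat_lit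 0) (XT.lf (nat_lit 0) (nat_lit 126664677) (nat_lit 672) (nat_lit 5619961942) (nat_lit 84) (nat_lit 3143200361) (nat_lit 95) (nat_lit 5) (nat_lit 103) (nat_lit 5) (nat_lit 96) (nat_lit 5) (nat_lit 323) (nat_lit 293) (nat_lit 248)) (XT.lf (nat_lit 0) (nat_lit 1819728433) (nat_lit 672) (nat_lit 1559716852) (nat_lit 84) (nat_lit 5650472639) (nat_lit 95) (nat_lit 5) (nat_lit 103) (nat_lit 5) (nat_lit 96) (nat_lit 5) (nat_lit 324) (nat_lit 293) (nat_lit 247))))) (XT.nd (nat_lit 282) (nat_lit 504) (nat_lit 0) (XT.nd (nat_lit 94) (nat_lit 504) (nat_lit 0) (XT.lf (nat_lit 0) (nat_lit 2638921655) (nat_lit 504) (nat_lit 911999713) (nat_lit 588) (nat_lit 5624027774) (nat_lit 89) (nat_lit 5) (nat_lit 95) (nat_lit 5) (nat_lit 96) (nat_lit 5) (nat_lit 325) (nat_lit 293) (nat_lit 246)) (XT.nd (nat_lit 94) (nat_lit 504) (nat_lit 0) (XT.lf (nat_lit 0) (nat_lit 5328697382) (nat_lit 588) (nat_lit 2381148995)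 (nat_lit 84) (nat_lit 1614997391) (nat_lit 89) (nat_lit 5) (nat_lit 96) (nat_lit 5) (nat_lit 90) (nat_lit 5) (nat_lit 326) (nat_lit 293) (nat_lit 245)) (XT.lf (nat_lit 0) (nat_lit 1890947501) (nat_lit 504) (nat_lit 5260197614) (nat_lit 588) (nat_lit 2328707029) (nat_lit 83) (nat_lit 5) (nat_lit 89) (nat_lit 5) (nat_lit 90) (nat_lit 5) (nat_lit 327) (nat_lit 293) (nat_lit 244)))) (XT.nd (nat_lit 94) (nat_lit 504) (nat_lit 0) (XT.lf (nat_lit 0) (nat_lit 6306012652) (nat_lit 504) (nat_lit 2711167119) (nat_lit 588) (nat_lit 623025271) (nat_lit 83) (nat_lit 5) (nat_lit 89) (nat_lit 5) (nat_lit 90) (nat_lit 5) (nat_lit 328) (nat_lit 293) (nat_lit 243)) (XT.nd (nat_lit 94) (nat_lit 0) (nat_lit 0) (XT.lf (nat_lit 0) (nat_lit 1022105690) (nat_lit 420) (nat_lit 63553287) (nat_lit 504) (nat_lit 8720488394) (nat_lit 77) (nat_lit 5) (nat_lit 82) (nat_lit 5) (nat_lit 83) (nat_lit 5) (nat_lit 329) (nat_lit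 293) (nat_lit 242)) (XT.lf (nat_lit 0) (nat_lit 2859541852) (nat_lit 504) (nat_lit 4465664276) (nat_lit 84) (nat_lit 2651176857) (nat_lit 77) (nat_lit 5) (nat_lit 83) (nat_lit 5) (nat_lit 78) (nat_lit 5) (nat_lit 330) (nat_lit 293) (nat_lit 241))))))))
noncomputable def xc54 : XT := (XT.nd (nat_lit 1974) (nat_lit 1512) (nat_lit 0) (XT.nd (nat_lit 940) (nat_lit 1680) (nat_lit 0) (XT.nd (nat_lit 470) (nat_lit 756) (nat_lit 0) (XT.nd (nat_lit 188) (nat_lit 504) (nat_lit 0) (XT.nd (nat_lit 94) (nat_lit 420) (nat_lit 0) (XT.lf (nat_lit 0) (nat_lit 4653725267) (nat_lit 504) (nat_lit 53315412) (nat_lit 84) (nat_lit 5446053706) (nat_lit 77) (nat_lit 5) (nat_lit 83) (nat_lit 5) (nat_lit 78) (nat_lit 5) (nat_lit 331) (nat_lit 293) (nat_lit 240)) (XT.lf (nat_lit 0) (nat_lit 4549408584) (nat_lit 420) (nat_lit 1964973245) (nat_lit 504) (nat_lit 3820684946) (nat_lit 72) (nat_lit 5) (nat_lit 77) (nat_lit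 5) (nat_lit 78) (nat_lit 5) (nat_lit 332) (nat_lit 293) (nat_lit 239))) (XT.nd (nat_lit 94) (nat_lit 504) (nat_lit 0) (XT.lf (nat_lit 0) (nat_lit 8408172354) (nat_lit 504) (nat_lit 1274074048) (nat_lit 84) (nat_lit 841310648) (nat_lit 72) (nat_lit 5) (nat_lit 78) (nat_lit 5) (nat_lit 73) (nat_lit 5) (nat_lit 333) (nat_lit 293) (nat_lit 238)) (XT.nd (nat_lit 94) (nat_lit 84) (nat_lit 0) (XT.lf (nat_lit 0) (nat_lit 3387896909) (nat_lit 420) (nat_lit 6993830286) (nat_lit 504) (nat_lit 335622891) (nat_lit 67) (nat_lit 5) (nat_lit 72) (nat_lit 5) (nat_lit 73) (nat_lit 5) (nat_lit 334) (nat_lit 293) (nat_lit 237)) (XT.lf (nat_lit 0) (nat_lit 1450067592) (nat_lit 504) (nat_lit 2748375292) (nat_lit 84) (nat_lit 6718942539) (nat_lit 66) (nat_lit 5) (nat_lit 72) (nat_lit 5) (nat_lit 67) (nat_lit 5) (nat_lit 335) (nat_lit 293) (nat_lit 236))))) (XT.nd (nat_lit 188) (nat_lit 336) (nat_lit 0) (XT.nd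 (nat_lit 94) (nat_lit 0) (nat_lit 0) (XT.lf (nat_lit 0) (nat_lit 1974175844) (nat_lit 420) (nat_lit 1298056473) (nat_lit 504) (nat_lit 7851754843) (nat_lit 61) (nat_lit 5) (nat_lit 66) (nat_lit 5) (nat_lit 67) (nat_lit 5) (nat_lit 336) (nat_lit 293) (nat_lit 235)) (XT.lf (nat_lit 0) (nat_lit 5165686900) (nat_lit 504) (nat_lit 4489306152) (nat_lit 84) (nat_lit 1681641025) (nat_lit 61) (nat_lit 5) (nat_lit 67) (nat_lit 5) (nat_lit 62) (nat_lit 5) (nat_lit 337) (nat_lit 293) (nat_lit 234))) (XT.nd (nat_lit 94) (nat_lit 0) (nat_lit 0) (XT.lf (nat_lit 0) (nat_lit 271484879) (nat_lit 336) (nat_lit 6832288677) (nat_lit 420) (nat_lit 4452631928) (nat_lit 57) (nat_lit 5) (nat_lit 61) (nat_lit 5) (nat_lit 62) (nat_lit 5) (nat_lit 338) (nat_lit 293) (nat_lit 233)) (XT.nd (nat_lit 94) (nat_lit 0) (nat_lit 0) (XT.lf (nat_lit 0) (nat_lit 5239016170) (nat_lit 336) (nat_lit 3880295425) (nat_lit 420) (nat_lit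 2663233241) (nat_lit 57) (nat_lit 5) (nat_lit 61) (nat_lit 5) (nat_lit 62) (nat_lit 5) (nat_lit 339) (nat_lit 293) (nat_lit 232)) (XT.lf (nat_lit 0) (nat_lit 10325608639) (nat_lit 336) (nat_lit 843120876) (nat_lit 420) (nat_lit 847942359) (nat_lit 57) (nat_lit 5) (nat_lit 61) (nat_lit 5) (nat_lit 62) (nat_lit 5) (nat_lit 340) (nat_lit 293) (nat_lit 231)))))) (XT.nd (nat_lit 470) (nat_lit 924) (nat_lit 0) (XT.nd (nat_lit 188) (nat_lit 336) (nat_lit 0) (XT.nd (nat_lit 94) (nat_lit 0) (nat_lit 0) (XT.lf (nat_lit 0) (nat_lit 1031041447) (nat_lit 420) (nat_lit 8946443397) (nat_lit 84) (nat_lit 2279473233) (nat_lit 52) (nat_lit 5) (nat_lit 57) (nat_lit 5) (nat_lit 53) (nat_lit 5) (nat_lit 341) (nat_lit 293) (nat_lit 230)) (XT.lf (nat_lit 0) (nat_lit 2949443819) (nat_lit 420) (nat_lit 4053699690) (nat_lit 84) (nat_lit 5501401272) (nat_lit 52) (nat_lit 5) (nat_lit 57) (nat_lit 5) (nat_lit 53) (nat_lit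 5) (nat_lit 342) (nat_lit 293) (nat_lit 229))) (XT.nd (nat_lit 94) (nat_lit 0) (nat_lit 0) (XT.lf (nat_lit 0) (nat_lit 976376568) (nat_lit 336) (nat_lit 3933786803) (nat_lit 420) (nat_lit 7850255335) (nat_lit 48) (nat_lit 5) (nat_lit 52) (nat_lit 5) (nat_lit 53) (nat_lit 5) (nat_lit 343) (nat_lit 293) (nat_lit 228)) (XT.nd (nat_lit 94) (nat_lit 0) (nat_lit 0) (XT.lf (nat_lit 0) (nat_lit 6214651542) (nat_lit 336) (nat_lit 732959912) (nat_lit 420) (nat_lit 6076196803) (nat_lit 48) (nat_lit 5) (nat_lit 52) (nat_lit 5) (nat_lit 53) (nat_lit 5) (nat_lit 344) (nat_lit 293) (nat_lit 227)) (XT.lf (nat_lit 0) (nat_lit 9048042716) (nat_lit 420) (nat_lit 1738971313) (nat_lit 84) (nat_lit 2508429894) (nat_lit 48) (nat_lit 5) (nat_lit 53) (nat_lit 5) (nat_lit 49) (nat_lit 5) (nat_lit 345) (nat_lit 293) (nat_lit 226))))) (XT.nd (nat_lit 282) (nat_lit 252) (nat_lit 0) (XT.nd (nat_lit 94) (nat_lit 336)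 (nat_lit 0) (XT.lf (nat_lit 0) (nat_lit 3519350805) (nat_lit 336) (nat_lit 7711772851) (nat_lit 420) (nat_lit 2343906267) (nat_lit 44) (nat_lit 5) (nat_lit 48) (nat_lit 5) (nat_lit 49) (nat_lit 5) (nat_lit 346) (nat_lit 293) (nat_lit 225)) (XT.nd (nat_lit 94) (nat_lit 336) (nat_lit 0) (XT.lf (nat_lit 0) (nat_lit 8945425060) (nat_lit 336) (nat_lit 4530163018) (nat_lit 420) (nat_lit 387961118) (nat_lit 44) (nat_lit 5) (nat_lit 48) (nat_lit 5) (nat_lit 49) (nat_lit 5) (nat_lit 347) (nat_lit 293) (nat_lit 224)) (XT.lf (nat_lit 0) (nat_lit 337625325) (nat_lit 252) (nat_lit 1237510887) (nat_lit 336) (nat_lit 12586083104) (nat_lit 40) (nat_lit 5) (nat_lit 43) (nat_lit 5) (nat_lit 44) (nat_lit 5) (nat_lit 348) (nat_lit 293) (nat_lit 223)))) (XT.nd (nat_lit 94) (nat_lit 252) (nat_lit 0) (XT.lf (nat_lit 0) (nat_lit 3640605806) (nat_lit 336) (nat_lit 8663968292) (nat_lit 84) (nat_lit 2161948111) (nat_lit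 40) (nat_lit 5) (nat_lit 44) (nat_lit 5) (nat_lit 41) (nat_lit 5) (nat_lit 349) (nat_lit 293) (nat_lit 222)) (XT.nd (nat_lit 94) (nat_lit 252) (nat_lit 0) (XT.lf (nat_lit 0) (nat_lit 5759789055) (nat_lit 336) (nat_lit 3388199760) (nat_lit 84) (nat_lit 5633683357) (nat_lit 40) (nat_lit 5) (nat_lit 44) (nat_lit 5) (nat_lit 41) (nat_lit 5) (nat_lit 350) (nat_lit 293) (nat_lit 221)) (XT.lf (nat_lit 0) (nat_lit 2062459394) (nat_lit 252) (nat_lit 5880385455) (nat_lit 336) (nat_lit 7163864414) (nat_lit 37) (nat_lit 5) (nat_lit 40) (nat_lit 5) (nat_lit 41) (nat_lit 5) (nat_lit 351) (nat_lit 293) (nat_lit 220))))))) (XT.nd (nat_lit 1034) (nat_lit 756) (nat_lit 0) (XT.nd (nat_lit 470) (nat_lit 420) (nat_lit 0) (XT.nd (nat_lit 188) (nat_lit 336) (nat_lit 0) (XT.nd (nat_lit 94) (nat_lit 0) (nat_lit 0) (XT.lf (nat_lit 0) (nat_lit 7724010747) (nat_lit 252) (nat_lit 2483021796) (nat_lit 336) (nat_lit 5234431951)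 (nat_lit 37) (nat_lit 5) (nat_lit 40) (nat_lit 5) (nat_lit 41) (nat_lit 5) (nat_lit 352) (nat_lit 293) (nat_lit 219)) (XT.lf (nat_lit 0) (nat_lit 12530198320) (nat_lit 336) (nat_lit 2265288349) (nat_lit 84) (nat_lit 991515414) (nat_lit 37) (nat_lit 5) (nat_lit 41) (nat_lit 5) (nat_lit 38) (nat_lit 5) (nat_lit 353) (nat_lit 293) (nat_lit 218))) (XT.nd (nat_lit 94) (nat_lit 84) (nat_lit 0) (XT.lf (nat_lit 0) (nat_lit 3369634479) (nat_lit 252) (nat_lit 11593884781) (nat_lit 336) (nat_lit 1178605484) (nat_lit 34) (nat_lit 5) (nat_lit 37) (nat_lit 5) (nat_lit 38) (nat_lit 5) (nat_lit 354) (nat_lit 293) (nat_lit 217)) (XT.nd (nat_lit 94) (nat_lit 0) (nat_lit 0) (XT.lf (nat_lit 0) (nat_lit 947873929) (nat_lit 336) (nat_lit 7319005193) (nat_lit 84) (nat_lit 8241031317) (nat_lit 33) (nat_lit 5) (nat_lit 37) (nat_lit 5) (nat_lit 34) (nat_lit 5) (nat_lit 355) (nat_lit 293) (nat_lit 216)) (XT.lf (nat_lit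 0) (nat_lit 3095804393) (nat_lit 336) (nat_lit 1736586099) (nat_lit 84) (nat_lit 12052941707) (nat_lit 33) (nat_lit 5) (nat_lit 37) (nat_lit 5) (nat_lit 34) (nat_lit 5) (nat_lit 356) (nat_lit 293) (nat_lit 215))))) (XT.nd (nat_lit 282) (nat_lit 168) (nat_lit 0) (XT.nd (nat_lit 94) (nat_lit 0) (nat_lit 0) (XT.lf (nat_lit 0) (nat_lit 4073739090) (nat_lit 252) (nat_lit 1257607181) (nat_lit 336) (nat_lit 11942505229) (nat_lit 30) (nat_lit 5) (nat_lit 33) (nat_lit 5) (nat_lit 34) (nat_lit 5) (nat_lit 357) (nat_lit 293) (nat_lit 214)) (XT.nd (nat_lit 94) (nat_lit 0) (nat_lit 0) (XT.lf (nat_lit 0) (nat_lit 7659438714) (nat_lit 336) (nat_lit 7624636140) (nat_lit 84) (nat_lit 2389667110) (nat_lit 30) (nat_lit 5) (nat_lit 34) (nat_lit 5) (nat_lit 31) (nat_lit 5) (nat_lit 358) (nat_lit 293) (nat_lit 213)) (XT.lf (nat_lit 0) (nat_lit 10053991130) (nat_lit 336) (nat_lit 1915866112) (nat_lit 84) (nat_lit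 6116395169) (nat_lit 30) (nat_lit 5) (nat_lit 34) (nat_lit 5) (nat_lit 31) (nat_lit 5) (nat_lit 359) (nat_lit 293) (nat_lit 212)))) (XT.nd (nat_lit 94) (nat_lit 0) (nat_lit 0) (XT.lf (nat_lit 0) (nat_lit 4025091077) (nat_lit 168) (nat_lit 8519598199) (nat_lit 252) (nat_lit 5966227003) (nat_lit 28) (nat_lit 5) (nat_lit 30) (nat_lit 5) (nat_lit 31) (nat_lit 5) (nat_lit 360) (nat_lit 293) (nat_lit 211)) (XT.nd (nat_lit 94) (nat_lit 0) (nat_lit 0) (XT.lf (nat_lit 0) (nat_lit 10165213997) (nat_lit 168) (nat_lit 4949655503) (nat_lit 252) (nat_lit 3833848437) (nat_lit 28) (nat_lit 5) (nat_lit 30) (nat_lit 5) (nat_lit 31) (nat_lit 5) (nat_lit 361) (nat_lit 293) (nat_lit 210)) (XT.lf (nat_lit 0) (nat_lit 16470831749) (nat_lit 168) (nat_lit 1276699309) (nat_lit 252) (nat_lit 1653135697) (nat_lit 28) (nat_lit 5) (nat_lit 30) (nat_lit 5) (nat_lit 31) (nat_lit 5) (nat_lit 362) (nat_lit 293) (nat_lit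 209)))))) (XT.nd (nat_lit 470) (nat_lit 252) (nat_lit 0) (XT.nd (nat_lit 188) (nat_lit 168) (nat_lit 0) (XT.nd (nat_lit 94) (nat_lit 0) (nat_lit 0) (XT.lf (nat_lit 0) (nat_lit 622634299) (nat_lit 336) (nat_lit 16753114380) (nat_lit 84) (nat_lit 2489511209) (nat_lit 24) (nat_lit 5) (nat_lit 28) (nat_lit 5) (nat_lit 25) (nat_lit 5) (nat_lit 363) (nat_lit 293) (nat_lit 208)) (XT.lf (nat_lit 0) (nat_lit 2961869229) (nat_lit 336) (nat_lit 10994766255) (nat_lit 84) (nat_lit 6386289446) (nat_lit 24) (nat_lit 5) (nat_lit 28) (nat_lit 5) (nat_lit 25) (nat_lit 5) (nat_lit 364) (nat_lit 293) (nat_lit 207))) (XT.nd (nat_lit 94) (nat_lit 168) (nat_lit 0) (XT.lf (nat_lit 0) (nat_lit 5357426169) (nat_lit 336) (nat_lit 5081885247) (nat_lit 84) (nat_lit 10396625620) (nat_lit 24) (nat_lit 5) (nat_lit 28) (nat_lit 5) (nat_lit 25) (nat_lit 5) (nat_lit 365) (nat_lit 293) (nat_lit 206)) (XT.nd (nat_lit 94) (nat_lit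 0) (nat_lit 0) (XT.lf (nat_lit 0) (nat_lit 1011417885) (nat_lit 168) (nat_lit 6810153533) (nat_lit 252) (nat_lit 13522873290) (nat_lit 22) (nat_lit 5) (nat_lit 24) (nat_lit 5) (nat_lit 25) (nat_lit 5) (nat_lit 366) (nat_lit 293) (nat_lit 205)) (XT.lf (nat_lit 0) (nat_lit 7378327146) (nat_lit 168) (nat_lit 3021359069) (nat_lit 252) (nat_lit 11467900100) (nat_lit 22) (nat_lit 5) (nat_lit 24) (nat_lit 5) (nat_lit 25) (nat_lit 5) (nat_lit 367) (nat_lit 293) (nat_lit 204))))) (XT.nd (nat_lit 282) (nat_lit 84) (nat_lit 0) (XT.nd (nat_lit 94) (nat_lit 168) (nat_lit 0) (XT.lf (nat_lit 0) (nat_lit 13051429603) (nat_lit 252) (nat_lit 8495866730) (nat_lit 84) (nat_lit 859878209) (nat_lit 22) (nat_lit 5) (nat_lit 25) (nat_lit 5) (nat_lit 23) (nat_lit 5) (nat_lit 368) (nat_lit 293) (nat_lit 203)) (XT.nd (nat_lit 94) (nat_lit 168) (nat_lit 0) (XT.lf (nat_lit 0) (nat_lit 15801660421) (nat_lit 252) (nat_lit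 2369650176) (nat_lit 84) (nat_lit 4791707744) (nat_lit 22) (nat_lit 5) (nat_lit 25) (nat_lit 5) (nat_lit 23) (nat_lit 5) (nat_lit 369) (nat_lit 293) (nat_lit 202)) (XT.lf (nat_lit 0) (nat_lit 4005780576) (nat_lit 168) (nat_lit 14656927182) (nat_lit 252) (nat_lit 4872625327) (nat_lit 20) (nat_lit 5) (nat_lit 22) (nat_lit 5) (nat_lit 23) (nat_lit 5) (nat_lit 370) (nat_lit 293) (nat_lit 201)))) (XT.nd (nat_lit 94) (nat_lit 84) (nat_lit 0) (XT.lf (nat_lit 0) (nat_lit 10607895670) (nat_lit 168) (nat_lit 11015323819) (nat_lit 252) (nat_lit 2501867326) (nat_lit 20) (nat_lit 5) (nat_lit 22) (nat_lit 5) (nat_lit 23) (nat_lit 5) (nat_lit 371) (nat_lit 293) (nat_lit 200)) (XT.nd (nat_lit 94) (nat_lit 84) (nat_lit 0) (XT.lf (nat_lit 0) (nat_lit 17394124103) (nat_lit 168) (nat_lit 7267840441) (nat_lit 252) (nat_lit 71608410) (nat_lit 20) (nat_lit 5) (nat_lit 22) (nat_lit 5) (nat_lit 23) (nat_lit 5) (nat_lit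 372) (nat_lit 293) (nat_lit 199)) (XT.lf (nat_lit 0) (nat_lit 2371650672) (nat_lit 252) (nat_lit 1014578158) (nat_lit 84) (nat_lit 21974385507) (nat_lit 19) (nat_lit 5) (nat_lit 22) (nat_lit 5) (nat_lit 20) (nat_lit 5) (nat_lit 373) (nat_lit 293) (nat_lit 198))))))))
noncomputable def xc55 : XT := (XT.nd (nat_lit 1974) (nat_lit 6720) (nat_lit 0) (XT.nd (nat_lit 940) (nat_lit 2940) (nat_lit 0) (XT.nd (nat_lit 470) (nat_lit 588) (nat_lit 0) (XT.nd (nat_lit 188) (nat_lit 504) (nat_lit 0) (XT.nd (nat_lit 94) (nat_lit 0) (nat_lit 0) (XT.lf (nat_lit 0) (nat_lit 427363885) (nat_lit 0) (nat_lit 427363885) (nat_lit 420) (nat_lit 2454315963) (nat_lit 194) (nat_lit 5) (nat_lit 194) (nat_lit 3) (nat_lit 199) (nat_lit 3) (nat_lit 294) (nat_lit 294) (nat_lit 276)) (XT.lf (nat_lit 0) (nat_lit 3582533143) (nat_lit 0) (nat_lit 120282634) (nat_lit 420) (nat_lit 2945867694) (nat_lit 194) (nat_lit 5) (nat_lit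 194) (nat_lit 3) (nat_lit 199) (nat_lit 3) (nat_lit 295) (nat_lit 294) (nat_lit 275))) (XT.nd (nat_lit 94) (nat_lit 504) (nat_lit 0) (XT.lf (nat_lit 0) (nat_lit 5685425884) (nat_lit 420) (nat_lit 334567579) (nat_lit 504) (nat_lit 662927079) (nat_lit 194) (nat_lit 5) (nat_lit 199) (nat_lit 3) (nat_lit 200) (nat_lit 5) (nat_lit 296) (nat_lit 294) (nat_lit 274)) (XT.nd (nat_lit 94) (nat_lit 0) (nat_lit 0) (XT.lf (nat_lit 0) (nat_lit 939393735) (nat_lit 504) (nat_lit 4240747221) (nat_lit 588) (nat_lit 1539781236) (nat_lit 188) (nat_lit 5) (nat_lit 194) (nat_lit 5) (nat_lit 195) (nat_lit 5) (nat_lit 297) (nat_lit 294) (nat_lit 273)) (XT.lf (nat_lit 0) (nat_lit 2843360908) (nat_lit 504) (nat_lit 1424136737) (nat_lit 588) (nat_lit 2492901448) (nat_lit 188) (nat_lit 5) (nat_lit 194) (nat_lit 5) (nat_lit 195) (nat_lit 5) (nat_lit 298) (nat_lit 294) (nat_lit 272))))) (XT.nd (nat_lit 188) (nat_lit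 588) (nat_lit 0) (XT.nd (nat_lit 94) (nat_lit 0) (nat_lit 0) (XT.lf (nat_lit 84) (nat_lit 1467480687) (nat_lit 0) (nat_lit 3279933914) (nat_lit 588) (nat_lit 2056935915) (nat_lit 189) (nat_lit 5) (nat_lit 188) (nat_lit 5) (nat_lit 195) (nat_lit 5) (nat_lit 299) (nat_lit 294) (nat_lit 271)) (XT.lf (nat_lit 84) (nat_lit 4437478691) (nat_lit 0) (nat_lit 2216184900) (nat_lit 588) (nat_lit 198143486) (nat_lit 189) (nat_lit 5) (nat_lit 188) (nat_lit 5) (nat_lit 195) (nat_lit 5) (nat_lit 300) (nat_lit 294) (nat_lit 270))) (XT.nd (nat_lit 94) (nat_lit 0) (nat_lit 84) (XT.lf (nat_lit 84) (nat_lit 550850313) (nat_lit 0) (nat_lit 1067653419) (nat_lit 672) (nat_lit 5284080593) (nat_lit 182) (nat_lit 5) (nat_lit 181) (nat_lit 5) (nat_lit 189) (nat_lit 5) (nat_lit 301) (nat_lit 294) (nat_lit 269)) (XT.nd (nat_lit 94) (nat_lit 0) (nat_lit 0) (XT.lf (nat_lit 0) (nat_lit 3445333637) (nat_lit 588) (nat_lit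 3342805804) (nat_lit 672) (nat_lit 168383510) (nat_lit 182) (nat_lit 5) (nat_lit 189) (nat_lit 5) (nat_lit 190) (nat_lit 5) (nat_lit 302) (nat_lit 294) (nat_lit 268)) (XT.lf (nat_lit 0) (nat_lit 5273147080) (nat_lit 588) (nat_lit 294530683) (nat_lit 672) (nat_lit 1446518121) (nat_lit 182) (nat_lit 5) (nat_lit 189) (nat_lit 5) (nat_lit 190) (nat_lit 5) (nat_lit 303) (nat_lit 294) (nat_lit 267)))))) (XT.nd (nat_lit 470) (nat_lit 1764) (nat_lit 0) (XT.nd (nat_lit 188) (nat_lit 588) (nat_lit 0) (XT.nd (nat_lit 94) (nat_lit 0) (nat_lit 0) (XT.lf (nat_lit 0) (nat_lit 45431497) (nat_lit 672) (nat_lit 4211332542) (nat_lit 756) (nat_lit 2818326094) (nat_lit 174) (nat_lit 5) (nat_lit 182) (nat_lit 5) (nat_lit 183) (nat_lit 5) (nat_lit 304) (nat_lit 294) (nat_lit 266)) (XT.lf (nat_lit 0) (nat_lit 1790242800) (nat_lit 672) (nat_lit 1072336456) (nat_lit 756) (nat_lit 4276935857) (nat_lit 174) (nat_lit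 5) (nat_lit 182) (nat_lit 5) (nat_lit 183) (nat_lit 5) (nat_lit 305) (nat_lit 294) (nat_lit 265))) (XT.nd (nat_lit 94) (nat_lit 588) (nat_lit 0) (XT.lf (nat_lit 84) (nat_lit 2165980567) (nat_lit 0) (nat_lit 1382583574) (nat_lit 756) (nat_lit 3658929441) (nat_lit 175) (nat_lit 5) (nat_lit 174) (nat_lit 5) (nat_lit 183) (nat_lit 5) (nat_lit 306) (nat_lit 294) (nat_lit 264)) (XT.nd (nat_lit 94) (nat_lit 672) (nat_lit 0) (XT.lf (nat_lit 0) (nat_lit 5313706378) (nat_lit 672) (nat_lit 1794916872) (nat_lit 84) (nat_lit 170723823) (nat_lit 175) (nat_lit 5) (nat_lit 183) (nat_lit 5) (nat_lit 176) (nat_lit 5) (nat_lit 307) (nat_lit 294) (nat_lit 263)) (XT.lf (nat_lit 0) (nat_lit 1526685541) (nat_lit 672) (nat_lit 5577568539) (nat_lit 756) (nat_lit 250363365) (nat_lit 167) (nat_lit 5) (nat_lit 175) (nat_lit 5) (nat_lit 176) (nat_lit 5) (nat_lit 308) (nat_lit 294) (nat_lit 262))))) (XT.nd (nat_lit 282)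 (nat_lit 924) (nat_lit 0) (XT.nd (nat_lit 94) (nat_lit 756) (nat_lit 0) (XT.lf (nat_lit 0) (nat_lit 1448323607) (nat_lit 756) (nat_lit 2500870661) (nat_lit 84) (nat_lit 3484038661) (nat_lit 166) (nat_lit 5) (nat_lit 175) (nat_lit 5) (nat_lit 167) (nat_lit 5) (nat_lit 309) (nat_lit 294) (nat_lit 261)) (XT.nd (nat_lit 94) (nat_lit 0) (nat_lit 0) (XT.lf (nat_lit 0) (nat_lit 902975428) (nat_lit 756) (nat_lit 2244093788) (nat_lit 840) (nat_lit 4368862423) (nat_lit 157) (nat_lit 5) (nat_lit 166) (nat_lit 5) (nat_lit 167) (nat_lit 5) (nat_lit 310) (nat_lit 294) (nat_lit 260)) (XT.lf (nat_lit 0) (nat_lit 4423796596) (nat_lit 756) (nat_lit 445707911) (nat_lit 840) (nat_lit 2732836038) (nat_lit 157) (nat_lit 5) (nat_lit 166) (nat_lit 5) (nat_lit 167) (nat_lit 5) (nat_lit 311) (nat_lit 294) (nat_lit 259)))) (XT.nd (nat_lit 94) (nat_lit 84) (nat_lit 0) (XT.lf (nat_lit 0) (nat_lit 312317189) (nat_lit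 840) (nat_lit 6296798748) (nat_lit 924) (nat_lit 1083675943) (nat_lit 147) (nat_lit 5) (nat_lit 157) (nat_lit 5) (nat_lit 158) (nat_lit 5) (nat_lit 312) (nat_lit 294) (nat_lit 258)) (XT.nd (nat_lit 94) (nat_lit 0) (nat_lit 0) (XT.lf (nat_lit 0) (nat_lit 589395484) (nat_lit 924) (nat_lit 3860478586) (nat_lit 84) (nat_lit 3336668668) (nat_lit 146) (nat_lit 5) (nat_lit 157) (nat_lit 5) (nat_lit 147) (nat_lit 5) (nat_lit 313) (nat_lit 294) (nat_lit 257)) (XT.lf (nat_lit 0) (nat_lit 2240546455) (nat_lit 924) (nat_lit 284370078) (nat_lit 84) (nat_lit 5359749146) (nat_lit 146) (nat_lit 5) (nat_lit 157) (nat_lit 5) (nat_lit 147) (nat_lit 5) (nat_lit 314) (nat_lit 294) (nat_lit 256))))))) (XT.nd (nat_lit 1034) (nat_lit 1932) (nat_lit 0) (XT.nd (nat_lit 470) (nat_lit 1680) (nat_lit 0) (XT.nd (nat_lit 188) (nat_lit 2184) (nat_lit 0) (XT.nd (nat_lit 94) (nat_lit 0) (nat_lit 0) (XT.lf (nat_lit 0) (nat_lit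 3431062604) (nat_lit 924) (nat_lit 496123634) (nat_lit 1008) (nat_lit 4059344053) (nat_lit 135) (nat_lit 5) (nat_lit 146) (nat_lit 5) (nat_lit 147) (nat_lit 5) (nat_lit 315) (nat_lit 294) (nat_lit 255)) (XT.lf (nat_lit 0) (nat_lit 5636384452) (nat_lit 1008) (nat_lit 881666582) (nat_lit 84) (nat_lit 1574630062) (nat_lit 135) (nat_lit 5) (nat_lit 147) (nat_lit 5) (nat_lit 136) (nat_lit 5) (nat_lit 316) (nat_lit 294) (nat_lit 254))) (XT.nd (nat_lit 94) (nat_lit 1176) (nat_lit 0) (XT.lf (nat_lit 0) (nat_lit 2918973776) (nat_lit 1008) (nat_lit 4466530543) (nat_lit 1092) (nat_lit 817223850) (nat_lit 123) (nat_lit 5) (nat_lit 135) (nat_lit 5) (nat_lit 136) (nat_lit 5) (nat_lit 317) (nat_lit 294) (nat_lit 253)) (XT.nd (nat_lit 94) (nat_lit 1092) (nat_lit 0) (XT.lf (nat_lit 0) (nat_lit 817634286) (nat_lit 1092) (nat_lit 1510049708) (nat_lit 84) (nat_lit 5989583840) (nat_lit 122) (nat_lit 5) (nat_lit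 135) (nat_lit 5) (nat_lit 123) (nat_lit 5) (nat_lit 318) (nat_lit 294) (nat_lit 252)) (XT.lf (nat_lit 0) (nat_lit 2379958764) (nat_lit 1092) (nat_lit 84512807) (nat_lit 1176) (nat_lit 5971484114) (nat_lit 109) (nat_lit 5) (nat_lit 122) (nat_lit 5) (nat_lit 123) (nat_lit 5) (nat_lit 319) (nat_lit 294) (nat_lit 251))))) (XT.nd (nat_lit 282) (nat_lit 1176) (nat_lit 0) (XT.nd (nat_lit 94) (nat_lit 504) (nat_lit 0) (XT.lf (nat_lit 0) (nat_lit 4156064870) (nat_lit 1176) (nat_lit 2198993202) (nat_lit 84) (nat_lit 2203637523) (nat_lit 109) (nat_lit 5) (nat_lit 123) (nat_lit 5) (nat_lit 110) (nat_lit 5) (nat_lit 320) (nat_lit 294) (nat_lit 250)) (XT.nd (nat_lit 94) (nat_lit 0) (nat_lit 0) (XT.lf (nat_lit 0) (nat_lit 1772202388) (nat_lit 504) (nat_lit 4103349747) (nat_lit 588) (nat_lit 2810621437) (nat_lit 103) (nat_lit 5) (nat_lit 109) (nat_lit 5) (nat_lit 110) (nat_lit 5) (nat_lit 321) (nat_lit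 294) (nat_lit 249)) (XT.lf (nat_lit 0) (nat_lit 5873312899) (nat_lit 504) (nat_lit 1755891037) (nat_lit 588) (nat_lit 1189159802) (nat_lit 103) (nat_lit 5) (nat_lit 109) (nat_lit 5) (nat_lit 110) (nat_lit 5) (nat_lit 322) (nat_lit 294) (nat_lit 248)))) (XT.nd (nat_lit 94) (nat_lit 504) (nat_lit 0) (XT.lf (nat_lit 0) (nat_lit 449374178) (nat_lit 672) (nat_lit 7837201764) (nat_lit 84) (nat_lit 668812183) (nat_lit 95) (nat_lit 5) (nat_lit 103) (nat_lit 5) (nat_lit 96) (nat_lit 5) (nat_lit 323) (nat_lit 294) (nat_lit 247)) (XT.nd (nat_lit 94) (nat_lit 504) (nat_lit 0) (XT.lf (nat_lit 0) (nat_lit 2122480166) (nat_lit 672) (nat_lit 3796967786) (nat_lit 84) (nat_lit 3176724856) (nat_lit 95) (nat_lit 5) (nat_lit 103) (nat_lit 5) (nat_lit 96) (nat_lit 5) (nat_lit 324) (nat_lit 294) (nat_lit 246)) (XT.lf (nat_lit 0) (nat_lit 335859735) (nat_lit 504) (nat_lit 3475609026) (nat_lit 588) (nat_lit 5431116391)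 (nat_lit 89) (nat_lit 5) (nat_lit 95) (nat_lit 5) (nat_lit 96) (nat_lit 5) (nat_lit 325) (nat_lit 294) (nat_lit 245)))))) (XT.nd (nat_lit 470) (nat_lit 924) (nat_lit 0) (XT.nd (nat_lit 188) (nat_lit 1008) (nat_lit 0) (XT.nd (nat_lit 94) (nat_lit 0) (nat_lit 0) (XT.lf (nat_lit 0) (nat_lit 4638277197) (nat_lit 504) (nat_lit 915650951) (nat_lit 588) (nat_lit 3839717050) (nat_lit 89) (nat_lit 5) (nat_lit 95) (nat_lit 5) (nat_lit 96) (nat_lit 5) (nat_lit 326) (nat_lit 294) (nat_lit 244)) (XT.lf (nat_lit 0) (nat_lit 7330135749) (nat_lit 588) (nat_lit 531558119) (nat_lit 84) (nat_lit 1688461631) (nat_lit 89) (nat_lit 5) (nat_lit 96) (nat_lit 5) (nat_lit 90) (nat_lit 5) (nat_lit 327) (nat_lit 294) (nat_lit 243))) (XT.nd (nat_lit 94) (nat_lit 504) (nat_lit 0) (XT.lf (nat_lit 0) (nat_lit 3853500605) (nat_lit 504) (nat_lit 5319253879) (nat_lit 588) (nat_lit 538546226) (nat_lit 83) (nat_lit 5) (nat_lit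 89) (nat_lit 5) (nat_lit 90) (nat_lit 5) (nat_lit 328) (nat_lit 294) (nat_lit 242)) (XT.nd (nat_lit 94) (nat_lit 420) (nat_lit 0) (XT.lf (nat_lit 0) (nat_lit 1140562398) (nat_lit 588) (nat_lit 1541863266) (nat_lit 84) (nat_lit 7195717965) (nat_lit 82) (nat_lit 5) (nat_lit 89) (nat_lit 5) (nat_lit 83) (nat_lit 5) (nat_lit 329) (nat_lit 294) (nat_lit 241)) (XT.lf (nat_lit 0) (nat_lit 2855295889) (nat_lit 504) (nat_lit 7127002668) (nat_lit 84) (nat_lit 67974926) (nat_lit 77) (nat_lit 5) (nat_lit 83) (nat_lit 5) (nat_lit 78) (nat_lit 5) (nat_lit 330) (nat_lit 294) (nat_lit 240))))) (XT.nd (nat_lit 282) (nat_lit 504) (nat_lit 0) (XT.nd (nat_lit 94) (nat_lit 420) (nat_lit 0) (XT.lf (nat_lit 0) (nat_lit 4632602280) (nat_lit 504) (nat_lit 2733397343) (nat_lit 84) (nat_lit 2861567233) (nat_lit 77) (nat_lit 5) (nat_lit 83) (nat_lit 5) (nat_lit 78) (nat_lit 5) (nat_lit 331) (nat_lit 294) (nat_lit 239))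 (XT.nd (nat_lit 94) (nat_lit 0) (nat_lit 0) (XT.lf (nat_lit 0) (nat_lit 1795664894) (nat_lit 420) (nat_lit 4653906901) (nat_lit 504) (nat_lit 3961378766) (nat_lit 72) (nat_lit 5) (nat_lit 77) (nat_lit 5) (nat_lit 78) (nat_lit 5) (nat_lit 332) (nat_lit 294) (nat_lit 238)) (XT.lf (nat_lit 0) (nat_lit 6486524967) (nat_lit 420) (nat_lit 1832263949) (nat_lit 504) (nat_lit 2281469002) (nat_lit 72) (nat_lit 5) (nat_lit 77) (nat_lit 5) (nat_lit 78) (nat_lit 5) (nat_lit 333) (nat_lit 294) (nat_lit 237)))) (XT.nd (nat_lit 94) (nat_lit 84) (nat_lit 0) (XT.lf (nat_lit 0) (nat_lit 490056723) (nat_lit 420) (nat_lit 9739772026) (nat_lit 504) (nat_lit 566213812) (nat_lit 67) (nat_lit 5) (nat_lit 72) (nat_lit 5) (nat_lit 73) (nat_lit 5) (nat_lit 334) (nat_lit 294) (nat_lit 236)) (XT.nd (nat_lit 94) (nat_lit 0) (nat_lit 0) (XT.lf (nat_lit 0) (nat_lit 1208615645) (nat_lit 504) (nat_lit 5740780370) (nat_lit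 84) (nat_lit 4047283972) (nat_lit 66) (nat_lit 5) (nat_lit 72) (nat_lit 5) (nat_lit 67) (nat_lit 5) (nat_lit 335) (nat_lit 294) (nat_lit 235)) (XT.lf (nat_lit 0) (nat_lit 2996155642) (nat_lit 504) (nat_lit 1075618355) (nat_lit 84) (nat_lit 7132630040) (nat_lit 66) (nat_lit 5) (nat_lit 72) (nat_lit 5) (nat_lit 67) (nat_lit 5) (nat_lit 336) (nat_lit 294) (nat_lit 234))))))))
noncomputable def xc56 : XT := (XT.nd (nat_lit 1974) (nat_lit 1176) (nat_lit 0) (XT.nd (nat_lit 940) (nat_lit 1260) (nat_lit 0) (XT.nd (nat_lit 470) (nat_lit 672) (nat_lit 0) (XT.nd (nat_lit 188) (nat_lit 420) (nat_lit 0) (XT.nd (nat_lit 94) (nat_lit 0) (nat_lit 0) (XT.lf (nat_lit 0) (nat_lit 3775534135) (nat_lit 420) (nat_lit 1071399932) (nat_lit 504) (nat_lit 6571487323) (nat_lit 61) (nat_lit 5) (nat_lit 66) (nat_lit 5) (nat_lit 67) (nat_lit 5) (nat_lit 337) (nat_lit 294) (nat_lit 233)) (XT.lf (nat_lit 0) (nat_lit 6757355872)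 (nat_lit 504) (nat_lit 2894313083) (nat_lit 84) (nat_lit 1987427499) (nat_lit 61) (nat_lit 5) (nat_lit 67) (nat_lit 5) (nat_lit 62) (nat_lit 5) (nat_lit 338) (nat_lit 294) (nat_lit 232))) (XT.nd (nat_lit 94) (nat_lit 84) (nat_lit 0) (XT.lf (nat_lit 0) (nat_lit 1996505641) (nat_lit 336) (nat_lit 6733003331) (nat_lit 420) (nat_lit 3137116431) (nat_lit 57) (nat_lit 5) (nat_lit 61) (nat_lit 5) (nat_lit 62) (nat_lit 5) (nat_lit 339) (nat_lit 294) (nat_lit 231)) (XT.nd (nat_lit 94) (nat_lit 84) (nat_lit 0) (XT.lf (nat_lit 0) (nat_lit 7066415711) (nat_lit 336) (nat_lit 3698851998) (nat_lit 420) (nat_lit 1335951486) (nat_lit 57) (nat_lit 5) (nat_lit 61) (nat_lit 5) (nat_lit 62) (nat_lit 5) (nat_lit 340) (nat_lit 294) (nat_lit 230)) (XT.lf (nat_lit 0) (nat_lit 483285099) (nat_lit 420) (nat_lit 88267897) (nat_lit 84) (nat_lit 11772300196) (nat_lit 56) (nat_lit 5) (nat_lit 61) (nat_lit 5) (nat_lit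 57) (nat_lit 5) (nat_lit 341) (nat_lit 294) (nat_lit 229))))) (XT.nd (nat_lit 188) (nat_lit 336) (nat_lit 0) (XT.nd (nat_lit 94) (nat_lit 0) (nat_lit 0) (XT.lf (nat_lit 0) (nat_lit 2381900114) (nat_lit 420) (nat_lit 7552288609) (nat_lit 84) (nat_lit 2657904108) (nat_lit 52) (nat_lit 5) (nat_lit 57) (nat_lit 5) (nat_lit 53) (nat_lit 5) (nat_lit 342) (nat_lit 294) (nat_lit 228)) (XT.lf (nat_lit 0) (nat_lit 4320116522) (nat_lit 420) (nat_lit 2558128169) (nat_lit 84) (nat_lit 5970458003) (nat_lit 52) (nat_lit 5) (nat_lit 57) (nat_lit 5) (nat_lit 53) (nat_lit 5) (nat_lit 343) (nat_lit 294) (nat_lit 227))) (XT.nd (nat_lit 94) (nat_lit 0) (nat_lit 0) (XT.lf (nat_lit 0) (nat_lit 2611466891) (nat_lit 336) (nat_lit 3707607475) (nat_lit 420) (nat_lit 6794248265) (nat_lit 48) (nat_lit 5) (nat_lit 52) (nat_lit 5) (nat_lit 53) (nat_lit 5) (nat_lit 344) (nat_lit 294) (nat_lit 226)) (XT.nd (nat_lit 94)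 (nat_lit 0) (nat_lit 0) (XT.lf (nat_lit 0) (nat_lit 7963874750) (nat_lit 336) (nat_lit 418022388) (nat_lit 420) (nat_lit 5004263089) (nat_lit 48) (nat_lit 5) (nat_lit 52) (nat_lit 5) (nat_lit 53) (nat_lit 5) (nat_lit 345) (nat_lit 294) (nat_lit 225)) (XT.lf (nat_lit 0) (nat_lit 10514040625) (nat_lit 420) (nat_lit 246220380) (nat_lit 84) (nat_lit 2907099270) (nat_lit 48) (nat_lit 5) (nat_lit 53) (nat_lit 5) (nat_lit 49) (nat_lit 5) (nat_lit 346) (nat_lit 294) (nat_lit 224)))))) (XT.nd (nat_lit 470) (nat_lit 588) (nat_lit 0) (XT.nd (nat_lit 188) (nat_lit 252) (nat_lit 0) (XT.nd (nat_lit 94) (nat_lit 84) (nat_lit 0) (XT.lf (nat_lit 0) (nat_lit 5159451190) (nat_lit 336) (nat_lit 7584887851) (nat_lit 420) (nat_lit 1212013586) (nat_lit 44) (nat_lit 5) (nat_lit 48) (nat_lit 5) (nat_lit 49) (nat_lit 5) (nat_lit 347) (nat_lit 294) (nat_lit 223)) (XT.lf (nat_lit 0) (nat_lit 752866976) (nat_lit 420)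 (nat_lit 3554926095) (nat_lit 84) (nat_lit 9946974421) (nat_lit 43) (nat_lit 5) (nat_lit 48) (nat_lit 5) (nat_lit 44) (nat_lit 5) (nat_lit 348) (nat_lit 294) (nat_lit 222))) (XT.nd (nat_lit 94) (nat_lit 0) (nat_lit 0) (XT.lf (nat_lit 0) (nat_lit 1844479147) (nat_lit 252) (nat_lit 904705054) (nat_lit 336) (nat_lit 11813060871) (nat_lit 40) (nat_lit 5) (nat_lit 43) (nat_lit 5) (nat_lit 44) (nat_lit 5) (nat_lit 349) (nat_lit 294) (nat_lit 221)) (XT.nd (nat_lit 94) (nat_lit 0) (nat_lit 0) (XT.lf (nat_lit 0) (nat_lit 4848421720) (nat_lit 336) (nat_lit 7447898117) (nat_lit 84) (nat_lit 2581723546) (nat_lit 40) (nat_lit 5) (nat_lit 44) (nat_lit 5) (nat_lit 41) (nat_lit 5) (nat_lit 350) (nat_lit 294) (nat_lit 220)) (XT.lf (nat_lit 0) (nat_lit 7000376593) (nat_lit 336) (nat_lit 2053221158) (nat_lit 84) (nat_lit 6150475982) (nat_lit 40) (nat_lit 5) (nat_lit 44) (nat_lit 5) (nat_lit 41) (nat_lit 5)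 (nat_lit 351) (nat_lit 294) (nat_lit 219))))) (XT.nd (nat_lit 282) (nat_lit 336) (nat_lit 0) (XT.nd (nat_lit 94) (nat_lit 0) (nat_lit 0) (XT.lf (nat_lit 0) (nat_lit 3551829594) (nat_lit 252) (nat_lit 5681484875) (nat_lit 336) (nat_lit 6306511491) (nat_lit 37) (nat_lit 5) (nat_lit 40) (nat_lit 5) (nat_lit 41) (nat_lit 5) (nat_lit 352) (nat_lit 294) (nat_lit 218)) (XT.nd (nat_lit 94) (nat_lit 0) (nat_lit 0) (XT.lf (nat_lit 0) (nat_lit 9346029241) (nat_lit 252) (nat_lit 2190264600) (nat_lit 336) (nat_lit 4349722891) (nat_lit 37) (nat_lit 5) (nat_lit 40) (nat_lit 5) (nat_lit 41) (nat_lit 5) (nat_lit 353) (nat_lit 294) (nat_lit 217)) (XT.lf (nat_lit 0) (nat_lit 13904581183) (nat_lit 336) (nat_lit 964959867) (nat_lit 84) (nat_lit 1373640965) (nat_lit 37) (nat_lit 5) (nat_lit 41) (nat_lit 5) (nat_lit 38) (nat_lit 5) (nat_lit 354) (nat_lit 294) (nat_lit 216)))) (XT.nd (nat_lit 94) (nat_lit 84) (nat_lit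 0) (XT.lf (nat_lit 0) (nat_lit 4830769957) (nat_lit 252) (nat_lit 11566378176) (nat_lit 336) (nat_lit 212746906) (nat_lit 34) (nat_lit 5) (nat_lit 37) (nat_lit 5) (nat_lit 38) (nat_lit 5) (nat_lit 355) (nat_lit 294) (nat_lit 215)) (XT.nd (nat_lit 94) (nat_lit 0) (nat_lit 0) (XT.lf (nat_lit 0) (nat_lit 1929924671) (nat_lit 336) (nat_lit 6208000565) (nat_lit 84) (nat_lit 8849777144) (nat_lit 33) (nat_lit 5) (nat_lit 37) (nat_lit 5) (nat_lit 34) (nat_lit 5) (nat_lit 356) (nat_lit 294) (nat_lit 214)) (XT.lf (nat_lit 0) (nat_lit 4115796298) (nat_lit 336) (nat_lit 492754130) (nat_lit 84) (nat_lit 12769234555) (nat_lit 33) (nat_lit 5) (nat_lit 37) (nat_lit 5) (nat_lit 34) (nat_lit 5) (nat_lit 357) (nat_lit 294) (nat_lit 213))))))) (XT.nd (nat_lit 940) (nat_lit 252) (nat_lit 0) (XT.nd (nat_lit 470) (nat_lit 504) (nat_lit 0) (XT.nd (nat_lit 188) (nat_lit 168) (nat_lit 0) (XT.nd (nat_lit 94) (nat_lit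 0) (nat_lit 0) (XT.lf (nat_lit 0) (nat_lit 5484553436) (nat_lit 252) (nat_lit 921045824) (nat_lit 336) (nat_lit 11373285979) (nat_lit 30) (nat_lit 5) (nat_lit 33) (nat_lit 5) (nat_lit 34) (nat_lit 5) (nat_lit 358) (nat_lit 294) (nat_lit 212)) (XT.lf (nat_lit 0) (nat_lit 8782144872) (nat_lit 336) (nat_lit 6589168030) (nat_lit 84) (nat_lit 2820663125) (nat_lit 30) (nat_lit 5) (nat_lit 34) (nat_lit 5) (nat_lit 31) (nat_lit 5) (nat_lit 359) (nat_lit 294) (nat_lit 211))) (XT.nd (nat_lit 94) (nat_lit 168) (nat_lit 0) (XT.lf (nat_lit 0) (nat_lit 11224310402) (nat_lit 336) (nat_lit 741667438) (nat_lit 84) (nat_lit 6652188031) (nat_lit 30) (nat_lit 5) (nat_lit 34) (nat_lit 5) (nat_lit 31) (nat_lit 5) (nat_lit 360) (nat_lit 294) (nat_lit 210)) (XT.nd (nat_lit 94) (nat_lit 0) (nat_lit 0) (XT.lf (nat_lit 0) (nat_lit 5370970428) (nat_lit 168) (nat_lit 8407545576) (nat_lit 252) (nat_lit 5277967560) (nat_lit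 28) (nat_lit 5) (nat_lit 30) (nat_lit 5) (nat_lit 31) (nat_lit 5) (nat_lit 361) (nat_lit 294) (nat_lit 209)) (XT.lf (nat_lit 0) (nat_lit 11664721206) (nat_lit 168) (nat_lit 4738245001) (nat_lit 252) (nat_lit 3105740920) (nat_lit 28) (nat_lit 5) (nat_lit 30) (nat_lit 5) (nat_lit 31) (nat_lit 5) (nat_lit 362) (nat_lit 294) (nat_lit 208))))) (XT.nd (nat_lit 188) (nat_lit 168) (nat_lit 0) (XT.nd (nat_lit 94) (nat_lit 336) (nat_lit 0) (XT.lf (nat_lit 0) (nat_lit 18130201126) (nat_lit 168) (nat_lit 962397432) (nat_lit 252) (nat_lit 882892294) (nat_lit 28) (nat_lit 5) (nat_lit 30) (nat_lit 5) (nat_lit 31) (nat_lit 5) (nat_lit 363) (nat_lit 294) (nat_lit 207)) (XT.lf (nat_lit 0) (nat_lit 1437737326) (nat_lit 336) (nat_lit 16094262938) (nat_lit 84) (nat_lit 2922573770) (nat_lit 24) (nat_lit 5) (nat_lit 28) (nat_lit 5) (nat_lit 25) (nat_lit 5) (nat_lit 364) (nat_lit 294) (nat_lit 206))) (XT.nd (nat_lit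 94) (nat_lit 168) (nat_lit 0) (XT.lf (nat_lit 0) (nat_lit 3825560467) (nat_lit 336) (nat_lit 10192831956) (nat_lit 84) (nat_lit 6929451338) (nat_lit 24) (nat_lit 5) (nat_lit 28) (nat_lit 5) (nat_lit 25) (nat_lit 5) (nat_lit 365) (nat_lit 294) (nat_lit 205)) (XT.nd (nat_lit 94) (nat_lit 168) (nat_lit 0) (XT.lf (nat_lit 0) (nat_lit 6272171067) (nat_lit 336) (nat_lit 4131012386) (nat_lit 84) (nat_lit 11053728889) (nat_lit 24) (nat_lit 5) (nat_lit 28) (nat_lit 5) (nat_lit 25) (nat_lit 5) (nat_lit 366) (nat_lit 294) (nat_lit 204)) (XT.lf (nat_lit 0) (nat_lit 2139961474) (nat_lit 168) (nat_lit 6661116830) (nat_lit 252) (nat_lit 13180517892) (nat_lit 22) (nat_lit 5) (nat_lit 24) (nat_lit 5) (nat_lit 25) (nat_lit 5) (nat_lit 367) (nat_lit 294) (nat_lit 203)))))) (XT.nd (nat_lit 470) (nat_lit 84) (nat_lit 0) (XT.nd (nat_lit 188) (nat_lit 168) (nat_lit 0) (XT.nd (nat_lit 94) (nat_lit 0) (nat_lit 0)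 (XT.lf (nat_lit 0) (nat_lit 8671254739) (nat_lit 168) (nat_lit 2765698734) (nat_lit 252) (nat_lit 11084739173) (nat_lit 22) (nat_lit 5) (nat_lit 24) (nat_lit 5) (nat_lit 25) (nat_lit 5) (nat_lit 368) (nat_lit 294) (nat_lit 202)) (XT.lf (nat_lit 0) (nat_lit 14152767186) (nat_lit 252) (nat_lit 7707324948) (nat_lit 84) (nat_lit 1218527059) (nat_lit 22) (nat_lit 5) (nat_lit 25) (nat_lit 5) (nat_lit 23) (nat_lit 5) (nat_lit 369) (nat_lit 294) (nat_lit 201))) (XT.nd (nat_lit 94) (nat_lit 168) (nat_lit 0) (XT.lf (nat_lit 0) (nat_lit 16967305557) (nat_lit 252) (nat_lit 1422824510) (nat_lit 84) (nat_lit 5262260990) (nat_lit 22) (nat_lit 5) (nat_lit 25) (nat_lit 5) (nat_lit 23) (nat_lit 5) (nat_lit 370) (nat_lit 294) (nat_lit 200)) (XT.nd (nat_lit 94) (nat_lit 0) (nat_lit 0) (XT.lf (nat_lit 0) (nat_lit 5139915127) (nat_lit 168) (nat_lit 14766829422) (nat_lit 252) (nat_lit 4336068374) (nat_lit 20)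 (nat_lit 5) (nat_lit 22) (nat_lit 5) (nat_lit 23) (nat_lit 5) (nat_lit 371) (nat_lit 294) (nat_lit 199)) (XT.lf (nat_lit 0) (nat_lit 11916328558) (nat_lit 168) (nat_lit 11022693618) (nat_lit 252) (nat_lit 1912491810) (nat_lit 20) (nat_lit 5) (nat_lit 22) (nat_lit 5) (nat_lit 23) (nat_lit 5) (nat_lit 372) (nat_lit 294) (nat_lit 198))))) (XT.nd (nat_lit 47094) (nat_lit 0) (nat_lit 14112) (XT.nd (nat_lit 46906) (nat_lit 0) (nat_lit 14112) (XT.lf (nat_lit 0) (nat_lit 561506129) (nat_lit 252) (nat_lit 6601716994) (nat_lit 84) (nat_lit 18316108817) (nat_lit 19) (nat_lit 5) (nat_lit 22) (nat_lit 5) (nat_lit 20) (nat_lit 5) (nat_lit 373) (nat_lit 294) (nat_lit 197)) (XT.nd (nat_lit 94) (nat_lit 588) (nat_lit 0) (XT.lf (nat_lit 0) (nat_lit 1414288238) (nat_lit 0) (nat_lit 1414288238) (nat_lit 420) (nat_lit 511777355) (nat_lit 194) (nat_lit 5) (nat_lit 194) (nat_lit 3) (nat_lit 199) (nat_lit 3) (nat_lit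 295) (nat_lit 295) (nat_lit 274)) (XT.lf (nat_lit 0) (nat_lit 860960642) (nat_lit 588) (nat_lit 1142863455) (nat_lit 588) (nat_lit 4712443730) (nat_lit 187) (nat_lit 3) (nat_lit 194) (nat_lit 3) (nat_lit 194) (nat_lit 5) (nat_lit 296) (nat_lit 295) (nat_lit 273)))) (XT.nd (nat_lit 94) (nat_lit 0) (nat_lit 0) (XT.lf (nat_lit 84) (nat_lit 1633593487) (nat_lit 0) (nat_lit 1089513302) (nat_lit 588) (nat_lit 4031749280) (nat_lit 188) (nat_lit 5) (nat_lit 187) (nat_lit 3) (nat_lit 194) (nat_lit 5) (nat_lit 297) (nat_lit 295) (nat_lit 272)) (XT.nd (nat_lit 94) (nat_lit 0) (nat_lit 84) (XT.lf (nat_lit 84) (nat_lit 4481503199) (nat_lit 0) (nat_lit 99564205) (nat_lit 588) (nat_lit 2215885126) (nat_lit 188) (nat_lit 5) (nat_lit 187) (nat_lit 3) (nat_lit 194) (nat_lit 5) (nat_lit 298) (nat_lit 295) (nat_lit 271)) (XT.lf (nat_lit 84) (nat_lit 538439958) (nat_lit 0) (nat_lit 5901379152) (nat_lit 588)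 (nat_lit 402676750) (nat_lit 189) (nat_lit 5) (nat_lit 188) (nat_lit 5) (nat_lit 195) (nat_lit 5) (nat_lit 299) (nat_lit 295) (nat_lit 270))))))))
noncomputable def xc57 : XT := (XT.nd (nat_lit 1974) (nat_lit 4788) (nat_lit 0) (XT.nd (nat_lit 940) (nat_lit 4704) (nat_lit 0) (XT.nd (nat_lit 470) (nat_lit 756) (nat_lit 0) (XT.nd (nat_lit 188) (nat_lit 588) (nat_lit 0) (XT.nd (nat_lit 94) (nat_lit 0) (nat_lit 0) (XT.lf (nat_lit 0) (nat_lit 1392010621) (nat_lit 588) (nat_lit 3416645898) (nat_lit 672) (nat_lit 2082102342) (nat_lit 181) (nat_lit 5) (nat_lit 188) (nat_lit 5) (nat_lit 189) (nat_lit 5) (nat_lit 300) (nat_lit 295) (nat_lit 269)) (XT.lf (nat_lit 0) (nat_lit 3165479004) (nat_lit 588) (nat_lit 484595801) (nat_lit 672) (nat_lit 3292786287) (nat_lit 181) (nat_lit 5) (nat_lit 188) (nat_lit 5) (nat_lit 189) (nat_lit 5) (nat_lit 301) (nat_lit 295) (nat_lit 268))) (XT.nd (nat_lit 94) (nat_lit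 588) (nat_lit 0) (XT.lf (nat_lit 84) (nat_lit 2550202874) (nat_lit 0) (nat_lit 2402589949) (nat_lit 672) (nat_lit 2045397879) (nat_lit 182) (nat_lit 5) (nat_lit 181) (nat_lit 5) (nat_lit 189) (nat_lit 5) (nat_lit 302) (nat_lit 295) (nat_lit 267)) (XT.nd (nat_lit 94) (nat_lit 588) (nat_lit 0) (XT.lf (nat_lit 84) (nat_lit 5650227771) (nat_lit 0) (nat_lit 1085522666) (nat_lit 672) (nat_lit 321664724) (nat_lit 182) (nat_lit 5) (nat_lit 181) (nat_lit 5) (nat_lit 189) (nat_lit 5) (nat_lit 303) (nat_lit 295) (nat_lit 266)) (XT.lf (nat_lit 0) (nat_lit 1382563150) (nat_lit 672) (nat_lit 5414764469) (nat_lit 756) (nat_lit 322360058) (nat_lit 174) (nat_lit 5) (nat_lit 182) (nat_lit 5) (nat_lit 183) (nat_lit 5) (nat_lit 304) (nat_lit 295) (nat_lit 265))))) (XT.nd (nat_lit 188) (nat_lit 756) (nat_lit 0) (XT.nd (nat_lit 94) (nat_lit 0) (nat_lit 0) (XT.lf (nat_lit 0) (nat_lit 3096815168) (nat_lit 672)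 (nat_lit 2296264505) (nat_lit 756) (nat_lit 1792127227) (nat_lit 174) (nat_lit 5) (nat_lit 182) (nat_lit 5) (nat_lit 183) (nat_lit 5) (nat_lit 305) (nat_lit 295) (nat_lit 264)) (XT.lf (nat_lit 84) (nat_lit 896597431) (nat_lit 0) (nat_lit 3916306210) (nat_lit 756) (nat_lit 2441733434) (nat_lit 175) (nat_lit 5) (nat_lit 174) (nat_lit 5) (nat_lit 183) (nat_lit 5) (nat_lit 306) (nat_lit 295) (nat_lit 263))) (XT.nd (nat_lit 94) (nat_lit 756) (nat_lit 0) (XT.lf (nat_lit 84) (nat_lit 4197150492) (nat_lit 0) (nat_lit 2350222540) (nat_lit 756) (nat_lit 780206595) (nat_lit 175) (nat_lit 5) (nat_lit 174) (nat_lit 5) (nat_lit 183) (nat_lit 5) (nat_lit 307) (nat_lit 295) (nat_lit 262)) (XT.nd (nat_lit 94) (nat_lit 0) (nat_lit 84) (XT.lf (nat_lit 84) (nat_lit 150802440) (nat_lit 0) (nat_lit 706858245) (nat_lit 840) (nat_lit 6546847459) (nat_lit 166) (nat_lit 5) (nat_lit 165) (nat_lit 5) (nat_lit 175)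 (nat_lit 5) (nat_lit 308) (nat_lit 295) (nat_lit 261)) (XT.lf (nat_lit 0) (nat_lit 2516542552) (nat_lit 756) (nat_lit 3942788731) (nat_lit 84) (nat_lit 1024919045) (nat_lit 166) (nat_lit 5) (nat_lit 175) (nat_lit 5) (nat_lit 167) (nat_lit 5) (nat_lit 309) (nat_lit 295) (nat_lit 260)))))) (XT.nd (nat_lit 470) (nat_lit 3108) (nat_lit 0) (XT.nd (nat_lit 188) (nat_lit 924) (nat_lit 0) (XT.nd (nat_lit 94) (nat_lit 756) (nat_lit 0) (XT.lf (nat_lit 0) (nat_lit 4179416156) (nat_lit 756) (nat_lit 577186754) (nat_lit 84) (nat_lit 2811580475) (nat_lit 166) (nat_lit 5) (nat_lit 175) (nat_lit 5) (nat_lit 167) (nat_lit 5) (nat_lit 310) (nat_lit 295) (nat_lit 259)) (XT.lf (nat_lit 0) (nat_lit 2911918100) (nat_lit 756) (nat_lit 2957787836) (nat_lit 840) (nat_lit 1786001504) (nat_lit 157) (nat_lit 5) (nat_lit 166) (nat_lit 5) (nat_lit 167) (nat_lit 5) (nat_lit 311) (nat_lit 295) (nat_lit 258))) (XT.nd (nat_lit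 94) (nat_lit 924) (nat_lit 0) (XT.lf (nat_lit 0) (nat_lit 6482321714) (nat_lit 756) (nat_lit 1084284450) (nat_lit 840) (nat_lit 180991730) (nat_lit 157) (nat_lit 5) (nat_lit 166) (nat_lit 5) (nat_lit 167) (nat_lit 5) (nat_lit 312) (nat_lit 295) (nat_lit 257)) (XT.nd (nat_lit 94) (nat_lit 0) (nat_lit 0) (XT.lf (nat_lit 0) (nat_lit 1424949318) (nat_lit 924) (nat_lit 5538001294) (nat_lit 84) (nat_lit 879746039) (nat_lit 146) (nat_lit 5) (nat_lit 157) (nat_lit 5) (nat_lit 147) (nat_lit 5) (nat_lit 313) (nat_lit 295) (nat_lit 256)) (XT.lf (nat_lit 0) (nat_lit 3051613123) (nat_lit 924) (nat_lit 1981914181) (nat_lit 84) (nat_lit 2908156390) (nat_lit 146) (nat_lit 5) (nat_lit 157) (nat_lit 5) (nat_lit 147) (nat_lit 5) (nat_lit 314) (nat_lit 295) (nat_lit 255))))) (XT.nd (nat_lit 282) (nat_lit 1176) (nat_lit 0) (XT.nd (nat_lit 94) (nat_lit 1008) (nat_lit 0) (XT.lf (nat_lit 0) (nat_lit 1678794816)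 (nat_lit 924) (nat_lit 3018324488) (nat_lit 1008) (nat_lit 3347805987) (nat_lit 135) (nat_lit 5) (nat_lit 146) (nat_lit 5) (nat_lit 147) (nat_lit 5) (nat_lit 315) (nat_lit 295) (nat_lit 254)) (XT.nd (nat_lit 94) (nat_lit 1008) (nat_lit 0) (XT.lf (nat_lit 0) (nat_lit 5455959844) (nat_lit 924) (nat_lit 911188516) (nat_lit 1008) (nat_lit 1785240760) (nat_lit 135) (nat_lit 5) (nat_lit 146) (nat_lit 5) (nat_lit 147) (nat_lit 5) (nat_lit 316) (nat_lit 295) (nat_lit 253)) (XT.lf (nat_lit 0) (nat_lit 1056242762) (nat_lit 1008) (nat_lit 7010017331) (nat_lit 1092) (nat_lit 197822163) (nat_lit 123) (nat_lit 5) (nat_lit 135) (nat_lit 5) (nat_lit 136) (nat_lit 5) (nat_lit 317) (nat_lit 295) (nat_lit 252)))) (XT.nd (nat_lit 94) (nat_lit 1092) (nat_lit 0) (XT.lf (nat_lit 0) (nat_lit 1402234756) (nat_lit 1092) (nat_lit 3460108816) (nat_lit 84) (nat_lit 3516869973) (nat_lit 122) (nat_lit 5) (nat_lit 135)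 (nat_lit 5) (nat_lit 123) (nat_lit 5) (nat_lit 318) (nat_lit 295) (nat_lit 251)) (XT.nd (nat_lit 94) (nat_lit 0) (nat_lit 0) (XT.lf (nat_lit 0) (nat_lit 370173731) (nat_lit 1092) (nat_lit 2637310507) (nat_lit 1176) (nat_lit 5491793808) (nat_lit 109) (nat_lit 5) (nat_lit 122) (nat_lit 5) (nat_lit 123) (nat_lit 5) (nat_lit 319) (nat_lit 295) (nat_lit 250)) (XT.lf (nat_lit 0) (nat_lit 4353880300) (nat_lit 1092) (nat_lit 301699018) (nat_lit 1176) (nat_lit 3967871878) (nat_lit 109) (nat_lit 5) (nat_lit 122) (nat_lit 5) (nat_lit 123) (nat_lit 5) (nat_lit 320) (nat_lit 295) (nat_lit 249))))))) (XT.nd (nat_lit 1034) (nat_lit 2100) (nat_lit 0) (XT.nd (nat_lit 470) (nat_lit 1512) (nat_lit 0) (XT.nd (nat_lit 188) (nat_lit 672) (nat_lit 0) (XT.nd (nat_lit 94) (nat_lit 504) (nat_lit 0) (XT.lf (nat_lit 0) (nat_lit 6333962633) (nat_lit 1176) (nat_lit 350294433) (nat_lit 84) (nat_lit 2068028577) (nat_lit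 109) (nat_lit 5) (nat_lit 123) (nat_lit 5) (nat_lit 110) (nat_lit 5) (nat_lit 321) (nat_lit 295) (nat_lit 248)) (XT.lf (nat_lit 0) (nat_lit 3724601659) (nat_lit 504) (nat_lit 4339364479) (nat_lit 588) (nat_lit 821322541) (nat_lit 103) (nat_lit 5) (nat_lit 109) (nat_lit 5) (nat_lit 110) (nat_lit 5) (nat_lit 322) (nat_lit 295) (nat_lit 247))) (XT.nd (nat_lit 94) (nat_lit 588) (nat_lit 0) (XT.lf (nat_lit 0) (nat_lit 772094728) (nat_lit 588) (nat_lit 1135709019) (nat_lit 84) (nat_lit 7115640122) (nat_lit 102) (nat_lit 5) (nat_lit 109) (nat_lit 5) (nat_lit 103) (nat_lit 5) (nat_lit 323) (nat_lit 295) (nat_lit 246)) (XT.nd (nat_lit 94) (nat_lit 0) (nat_lit 0) (XT.lf (nat_lit 0) (nat_lit 2395301755) (nat_lit 672) (nat_lit 6142994033) (nat_lit 84) (nat_lit 627552426) (nat_lit 95) (nat_lit 5) (nat_lit 103) (nat_lit 5) (nat_lit 96) (nat_lit 5) (nat_lit 324) (nat_lit 295) (nat_lit 245)) (XT.lf (nat_lit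 0) (nat_lit 4062182946) (nat_lit 672) (nat_lit 2035759156) (nat_lit 84) (nat_lit 3215074389) (nat_lit 95) (nat_lit 5) (nat_lit 103) (nat_lit 5) (nat_lit 96) (nat_lit 5) (nat_lit 325) (nat_lit 295) (nat_lit 244))))) (XT.nd (nat_lit 282) (nat_lit 504) (nat_lit 0) (XT.nd (nat_lit 94) (nat_lit 504) (nat_lit 0) (XT.lf (nat_lit 0) (nat_lit 2206163696) (nat_lit 504) (nat_lit 3559472448) (nat_lit 588) (nat_lit 3699718065) (nat_lit 89) (nat_lit 5) (nat_lit 95) (nat_lit 5) (nat_lit 96) (nat_lit 5) (nat_lit 326) (nat_lit 295) (nat_lit 243)) (XT.nd (nat_lit 94) (nat_lit 504) (nat_lit 0) (XT.lf (nat_lit 0) (nat_lit 6586033052) (nat_lit 504) (nat_lit 920873708) (nat_lit 588) (nat_lit 2116107218) (nat_lit 89) (nat_lit 5) (nat_lit 95) (nat_lit 5) (nat_lit 96) (nat_lit 5) (nat_lit 327) (nat_lit 295) (nat_lit 242)) (XT.lf (nat_lit 0) (nat_lit 1287381277) (nat_lit 504) (nat_lit 8010244252) (nat_lit 588) (nat_lit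 488206984) (nat_lit 83) (nat_lit 5) (nat_lit 89) (nat_lit 5) (nat_lit 90) (nat_lit 5) (nat_lit 328) (nat_lit 295) (nat_lit 241)))) (XT.nd (nat_lit 94) (nat_lit 420) (nat_lit 0) (XT.lf (nat_lit 0) (nat_lit 1172686500) (nat_lit 588) (nat_lit 4201374628) (nat_lit 84) (nat_lit 4579192659) (nat_lit 82) (nat_lit 5) (nat_lit 89) (nat_lit 5) (nat_lit 83) (nat_lit 5) (nat_lit 329) (nat_lit 295) (nat_lit 240)) (XT.nd (nat_lit 94) (nat_lit 0) (nat_lit 0) (XT.lf (nat_lit 0) (nat_lit 191608990) (nat_lit 420) (nat_lit 2651333632) (nat_lit 504) (nat_lit 7283878603) (nat_lit 77) (nat_lit 5) (nat_lit 82) (nat_lit 5) (nat_lit 83) (nat_lit 5) (nat_lit 330) (nat_lit 295) (nat_lit 239)) (XT.lf (nat_lit 0) (nat_lit 4577577889) (nat_lit 504) (nat_lit 5533485312) (nat_lit 84) (nat_lit 194431221) (nat_lit 77) (nat_lit 5) (nat_lit 83) (nat_lit 5) (nat_lit 78) (nat_lit 5) (nat_lit 331) (nat_lit 295) (nat_lit 238))))))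 (XT.nd (nat_lit 470) (nat_lit 1176) (nat_lit 0) (XT.nd (nat_lit 188) (nat_lit 504) (nat_lit 0) (XT.nd (nat_lit 94) (nat_lit 420) (nat_lit 0) (XT.lf (nat_lit 0) (nat_lit 6360856818) (nat_lit 504) (nat_lit 1058235047) (nat_lit 84) (nat_lit 3070885975) (nat_lit 77) (nat_lit 5) (nat_lit 83) (nat_lit 5) (nat_lit 78) (nat_lit 5) (nat_lit 332) (nat_lit 295) (nat_lit 237)) (XT.lf (nat_lit 0) (nat_lit 3593410736) (nat_lit 420) (nat_lit 4610376399) (nat_lit 504) (nat_lit 2476366593) (nat_lit 72) (nat_lit 5) (nat_lit 77) (nat_lit 5) (nat_lit 78) (nat_lit 5) (nat_lit 333) (nat_lit 295) (nat_lit 236))) (XT.nd (nat_lit 94) (nat_lit 504) (nat_lit 0) (XT.lf (nat_lit 0) (nat_lit 8377306785) (nat_lit 420) (nat_lit 1706909314) (nat_lit 504) (nat_lit 792723237) (nat_lit 72) (nat_lit 5) (nat_lit 77) (nat_lit 5) (nat_lit 78) (nat_lit 5) (nat_lit 334) (nat_lit 295) (nat_lit 235)) (XT.nd (nat_lit 94) (nat_lit 0)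 (nat_lit 0) (XT.lf (nat_lit 0) (nat_lit 929131107) (nat_lit 504) (nat_lit 8861723793) (nat_lit 84) (nat_lit 1288624168) (nat_lit 66) (nat_lit 5) (nat_lit 72) (nat_lit 5) (nat_lit 67) (nat_lit 5) (nat_lit 335) (nat_lit 295) (nat_lit 234)) (XT.lf (nat_lit 0) (nat_lit 2702082686) (nat_lit 504) (nat_lit 4213646045) (nat_lit 84) (nat_lit 4371974103) (nat_lit 66) (nat_lit 5) (nat_lit 72) (nat_lit 5) (nat_lit 67) (nat_lit 5) (nat_lit 336) (nat_lit 295) (nat_lit 233))))) (XT.nd (nat_lit 282) (nat_lit 756) (nat_lit 0) (XT.nd (nat_lit 94) (nat_lit 0) (nat_lit 0) (XT.lf (nat_lit 0) (nat_lit 556070856) (nat_lit 420) (nat_lit 3950703005) (nat_lit 504) (nat_lit 6996421078) (nat_lit 61) (nat_lit 5) (nat_lit 66) (nat_lit 5) (nat_lit 67) (nat_lit 5) (nat_lit 337) (nat_lit 295) (nat_lit 232)) (XT.nd (nat_lit 94) (nat_lit 0) (nat_lit 0) (XT.lf (nat_lit 0) (nat_lit 5529661944) (nat_lit 420) (nat_lit 853525763)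 (nat_lit 504) (nat_lit 5341781206) (nat_lit 61) (nat_lit 5) (nat_lit 66) (nat_lit 5) (nat_lit 67) (nat_lit 5) (nat_lit 338) (nat_lit 295) (nat_lit 231)) (XT.lf (nat_lit 0) (nat_lit 8313574451) (nat_lit 504) (nat_lit 1352592588) (nat_lit 84) (nat_lit 2287668899) (nat_lit 61) (nat_lit 5) (nat_lit 67) (nat_lit 5) (nat_lit 62) (nat_lit 5) (nat_lit 339) (nat_lit 295) (nat_lit 230)))) (XT.nd (nat_lit 94) (nat_lit 420) (nat_lit 0) (XT.lf (nat_lit 0) (nat_lit 3673324609) (nat_lit 336) (nat_lit 6649066313) (nat_lit 420) (nat_lit 1866916036) (nat_lit 57) (nat_lit 5) (nat_lit 61) (nat_lit 5) (nat_lit 62) (nat_lit 5) (nat_lit 340) (nat_lit 295) (nat_lit 229)) (XT.nd (nat_lit 94) (nat_lit 420) (nat_lit 0) (XT.lf (nat_lit 0) (nat_lit 8851844427) (nat_lit 336) (nat_lit 3529655962) (nat_lit 420) (nat_lit 51031351) (nat_lit 57) (nat_lit 5) (nat_lit 61) (nat_lit 5) (nat_lit 62) (nat_lit 5) (nat_lit 341) (nat_lit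 295) (nat_lit 228)) (XT.lf (nat_lit 0) (nat_lit 1487993666) (nat_lit 336) (nat_lit 285569700) (nat_lit 420) (nat_lit 10909588550) (nat_lit 52) (nat_lit 5) (nat_lit 56) (nat_lit 5) (nat_lit 57) (nat_lit 5) (nat_lit 342) (nat_lit 295) (nat_lit 227))))))))
noncomputable def xc58 : XT := (XT.nd (nat_lit 1974) (nat_lit 672) (nat_lit 0) (XT.nd (nat_lit 940) (nat_lit 1008) (nat_lit 0) (XT.nd (nat_lit 470) (nat_lit 336) (nat_lit 0) (XT.nd (nat_lit 188) (nat_lit 672) (nat_lit 0) (XT.nd (nat_lit 94) (nat_lit 0) (nat_lit 0) (XT.lf (nat_lit 0) (nat_lit 3696514910) (nat_lit 420) (nat_lit 6213920506) (nat_lit 84) (nat_lit 3029836760) (nat_lit 52) (nat_lit 5) (nat_lit 57) (nat_lit 5) (nat_lit 53) (nat_lit 5) (nat_lit 343) (nat_lit 295) (nat_lit 226)) (XT.lf (nat_lit 0) (nat_lit 5657508506) (nat_lit 420) (nat_lit 1112222529) (nat_lit 84) (nat_lit 6436374039) (nat_lit 52) (nat_lit 5) (nat_lit 57) (nat_lit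 5) (nat_lit 53) (nat_lit 5) (nat_lit 344) (nat_lit 295) (nat_lit 225))) (XT.nd (nat_lit 94) (nat_lit 336) (nat_lit 0) (XT.lf (nat_lit 0) (nat_lit 4202188622) (nat_lit 336) (nat_lit 3495036729) (nat_lit 420) (nat_lit 5782468589) (nat_lit 48) (nat_lit 5) (nat_lit 52) (nat_lit 5) (nat_lit 53) (nat_lit 5) (nat_lit 345) (nat_lit 295) (nat_lit 224)) (XT.nd (nat_lit 94) (nat_lit 336) (nat_lit 0) (XT.lf (nat_lit 0) (nat_lit 9675125631) (nat_lit 336) (nat_lit 113321938) (nat_lit 420) (nat_lit 3973748909) (nat_lit 48) (nat_lit 5) (nat_lit 52) (nat_lit 5) (nat_lit 53) (nat_lit 5) (nat_lit 346) (nat_lit 295) (nat_lit 223)) (XT.lf (nat_lit 0) (nat_lit 1225893592) (nat_lit 336) (nat_lit 10741532190) (nat_lit 420) (nat_lit 2085386888) (nat_lit 44) (nat_lit 5) (nat_lit 48) (nat_lit 5) (nat_lit 49) (nat_lit 5) (nat_lit 347) (nat_lit 295) (nat_lit 222))))) (XT.nd (nat_lit 188) (nat_lit 252) (nat_lit 0) (XT.nd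 (nat_lit 94) (nat_lit 84) (nat_lit 0) (XT.lf (nat_lit 0) (nat_lit 6759710906) (nat_lit 336) (nat_lit 7475745259) (nat_lit 420) (nat_lit 116380014) (nat_lit 44) (nat_lit 5) (nat_lit 48) (nat_lit 5) (nat_lit 49) (nat_lit 5) (nat_lit 348) (nat_lit 295) (nat_lit 221)) (XT.lf (nat_lit 0) (nat_lit 1853193648) (nat_lit 420) (nat_lit 2242976947) (nat_lit 84) (nat_lit 10564110725) (nat_lit 43) (nat_lit 5) (nat_lit 48) (nat_lit 5) (nat_lit 44) (nat_lit 5) (nat_lit 349) (nat_lit 295) (nat_lit 220))) (XT.nd (nat_lit 94) (nat_lit 0) (nat_lit 0) (XT.lf (nat_lit 0) (nat_lit 3309411848) (nat_lit 252) (nat_lit 583567195) (nat_lit 336) (nat_lit 11084972732) (nat_lit 40) (nat_lit 5) (nat_lit 43) (nat_lit 5) (nat_lit 44) (nat_lit 5) (nat_lit 350) (nat_lit 295) (nat_lit 219)) (XT.nd (nat_lit 94) (nat_lit 0) (nat_lit 0) (XT.lf (nat_lit 0) (nat_lit 6028823742) (nat_lit 336) (nat_lit 6282068318) (nat_lit 84) (nat_lit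 2993617734) (nat_lit 40) (nat_lit 5) (nat_lit 44) (nat_lit 5) (nat_lit 41) (nat_lit 5) (nat_lit 351) (nat_lit 295) (nat_lit 218)) (XT.lf (nat_lit 0) (nat_lit 8216516249) (nat_lit 336) (nat_lit 762152642) (nat_lit 84) (nat_lit 6663023141) (nat_lit 40) (nat_lit 5) (nat_lit 44) (nat_lit 5) (nat_lit 41) (nat_lit 5) (nat_lit 352) (nat_lit 295) (nat_lit 217)))))) (XT.nd (nat_lit 470) (nat_lit 420) (nat_lit 0) (XT.nd (nat_lit 188) (nat_lit 336) (nat_lit 0) (XT.nd (nat_lit 94) (nat_lit 0) (nat_lit 0) (XT.lf (nat_lit 0) (nat_lit 5002939377) (nat_lit 252) (nat_lit 5498997064) (nat_lit 336) (nat_lit 5486517276) (nat_lit 37) (nat_lit 5) (nat_lit 40) (nat_lit 5) (nat_lit 41) (nat_lit 5) (nat_lit 353) (nat_lit 295) (nat_lit 216)) (XT.lf (nat_lit 0) (nat_lit 10936438072) (nat_lit 252) (nat_lit 1910331723) (nat_lit 336) (nat_lit 3499602059) (nat_lit 37) (nat_lit 5) (nat_lit 40) (nat_lit 5) (nat_lit 41)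 (nat_lit 5) (nat_lit 354) (nat_lit 295) (nat_lit 215))) (XT.nd (nat_lit 94) (nat_lit 84) (nat_lit 0) (XT.lf (nat_lit 0) (nat_lit 300554126) (nat_lit 252) (nat_lit 14965598011) (nat_lit 336) (nat_lit 1449226468) (nat_lit 34) (nat_lit 5) (nat_lit 37) (nat_lit 5) (nat_lit 38) (nat_lit 5) (nat_lit 355) (nat_lit 295) (nat_lit 214)) (XT.nd (nat_lit 94) (nat_lit 0) (nat_lit 0) (XT.lf (nat_lit 0) (nat_lit 709099161) (nat_lit 336) (nat_lit 10844435922) (nat_lit 84) (nat_lit 5540341641) (nat_lit 33) (nat_lit 5) (nat_lit 37) (nat_lit 5) (nat_lit 34) (nat_lit 5) (nat_lit 356) (nat_lit 295) (nat_lit 213)) (XT.lf (nat_lit 0) (nat_lit 2885990909) (nat_lit 336) (nat_lit 5141800534) (nat_lit 84) (nat_lit 9456469077) (nat_lit 33) (nat_lit 5) (nat_lit 37) (nat_lit 5) (nat_lit 34) (nat_lit 5) (nat_lit 357) (nat_lit 295) (nat_lit 212))))) (XT.nd (nat_lit 282) (nat_lit 168) (nat_lit 0) (XT.nd (nat_lit 94) (nat_lit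 0) (nat_lit 0) (XT.lf (nat_lit 0) (nat_lit 727429730) (nat_lit 252) (nat_lit 4392463011) (nat_lit 336) (nat_lit 12767223100) (nat_lit 30) (nat_lit 5) (nat_lit 33) (nat_lit 5) (nat_lit 34) (nat_lit 5) (nat_lit 358) (nat_lit 295) (nat_lit 211)) (XT.nd (nat_lit 94) (nat_lit 0) (nat_lit 0) (XT.lf (nat_lit 0) (nat_lit 6863018207) (nat_lit 252) (nat_lit 596295367) (nat_lit 336) (nat_lit 10842065390) (nat_lit 30) (nat_lit 5) (nat_lit 33) (nat_lit 5) (nat_lit 34) (nat_lit 5) (nat_lit 359) (nat_lit 295) (nat_lit 210)) (XT.lf (nat_lit 0) (nat_lit 9887219245) (nat_lit 336) (nat_lit 5596933186) (nat_lit 84) (nat_lit 3243879251) (nat_lit 30) (nat_lit 5) (nat_lit 34) (nat_lit 5) (nat_lit 31) (nat_lit 5) (nat_lit 360) (nat_lit 295) (nat_lit 209)))) (XT.nd (nat_lit 94) (nat_lit 0) (nat_lit 0) (XT.lf (nat_lit 0) (nat_lit 404003485) (nat_lit 168) (nat_lit 11980054804) (nat_lit 252) (nat_lit 6784089644) (nat_lit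 28) (nat_lit 5) (nat_lit 30) (nat_lit 5) (nat_lit 31) (nat_lit 5) (nat_lit 361) (nat_lit 295) (nat_lit 208)) (XT.nd (nat_lit 94) (nat_lit 0) (nat_lit 0) (XT.lf (nat_lit 0) (nat_lit 6686244104) (nat_lit 168) (nat_lit 8314299932) (nat_lit 252) (nat_lit 4620093944) (nat_lit 28) (nat_lit 5) (nat_lit 30) (nat_lit 5) (nat_lit 31) (nat_lit 5) (nat_lit 362) (nat_lit 295) (nat_lit 207)) (XT.lf (nat_lit 0) (nat_lit 13140559952) (nat_lit 168) (nat_lit 4541891453) (nat_lit 252) (nat_lit 2405228772) (nat_lit 28) (nat_lit 5) (nat_lit 30) (nat_lit 5) (nat_lit 31) (nat_lit 5) (nat_lit 363) (nat_lit 295) (nat_lit 206))))))) (XT.nd (nat_lit 47940) (nat_lit 0) (nat_lit 12180) (XT.nd (nat_lit 470) (nat_lit 168) (nat_lit 0) (XT.nd (nat_lit 188) (nat_lit 168) (nat_lit 0) (XT.nd (nat_lit 94) (nat_lit 336) (nat_lit 0) (XT.lf (nat_lit 0) (nat_lit 19772967128) (nat_lit 168) (nat_lit 659313088) (nat_lit 252) (nat_lit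 137429641) (nat_lit 28) (nat_lit 5) (nat_lit 30) (nat_lit 5) (nat_lit 31) (nat_lit 5) (nat_lit 364) (nat_lit 295) (nat_lit 205)) (XT.lf (nat_lit 0) (nat_lit 2230971869) (nat_lit 336) (nat_lit 15484773786) (nat_lit 84) (nat_lit 3347981432) (nat_lit 24) (nat_lit 5) (nat_lit 28) (nat_lit 5) (nat_lit 25) (nat_lit 5) (nat_lit 365) (nat_lit 295) (nat_lit 204))) (XT.nd (nat_lit 94) (nat_lit 168) (nat_lit 0) (XT.lf (nat_lit 0) (nat_lit 4670306756) (nat_lit 336) (nat_lit 9433726038) (nat_lit 84) (nat_lit 7469005236) (nat_lit 24) (nat_lit 5) (nat_lit 28) (nat_lit 5) (nat_lit 25) (nat_lit 5) (nat_lit 366) (nat_lit 295) (nat_lit 203)) (XT.nd (nat_lit 94) (nat_lit 168) (nat_lit 0) (XT.lf (nat_lit 0) (nat_lit 7170928365) (nat_lit 336) (nat_lit 3216315566) (nat_lit 84) (nat_lit 11711371116) (nat_lit 24) (nat_lit 5) (nat_lit 28) (nat_lit 5) (nat_lit 25) (nat_lit 5) (nat_lit 367) (nat_lit 295) (nat_lit 202))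 (XT.lf (nat_lit 0) (nat_lit 3238501494) (nat_lit 168) (nat_lit 6528792377) (nat_lit 252) (nat_lit 12872658243) (nat_lit 22) (nat_lit 5) (nat_lit 24) (nat_lit 5) (nat_lit 25) (nat_lit 5) (nat_lit 368) (nat_lit 295) (nat_lit 201))))) (XT.nd (nat_lit 282) (nat_lit 168) (nat_lit 0) (XT.nd (nat_lit 94) (nat_lit 0) (nat_lit 0) (XT.lf (nat_lit 0) (nat_lit 9941228732) (nat_lit 168) (nat_lit 2522803897) (nat_lit 252) (nat_lit 10733452699) (nat_lit 22) (nat_lit 5) (nat_lit 24) (nat_lit 5) (nat_lit 25) (nat_lit 5) (nat_lit 369) (nat_lit 295) (nat_lit 200)) (XT.nd (nat_lit 94) (nat_lit 0) (nat_lit 0) (XT.lf (nat_lit 0) (nat_lit 15246976939) (nat_lit 252) (nat_lit 6956645017) (nat_lit 84) (nat_lit 1568629532) (nat_lit 22) (nat_lit 5) (nat_lit 25) (nat_lit 5) (nat_lit 23) (nat_lit 5) (nat_lit 370) (nat_lit 295) (nat_lit 199)) (XT.lf (nat_lit 0) (nat_lit 18129057276) (nat_lit 252) (nat_lit 507080465) (nat_lit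 84) (nat_lit 5728328165) (nat_lit 22) (nat_lit 5) (nat_lit 25) (nat_lit 5) (nat_lit 23) (nat_lit 5) (nat_lit 371) (nat_lit 295) (nat_lit 198)))) (XT.nd (nat_lit 94) (nat_lit 0) (nat_lit 0) (XT.lf (nat_lit 0) (nat_lit 6249386465) (nat_lit 168) (nat_lit 14900541736) (nat_lit 252) (nat_lit 3823606375) (nat_lit 20) (nat_lit 5) (nat_lit 22) (nat_lit 5) (nat_lit 23) (nat_lit 5) (nat_lit 372) (nat_lit 295) (nat_lit 197)) (XT.nd (nat_lit 47000) (nat_lit 0) (nat_lit 14028) (XT.lf (nat_lit 0) (nat_lit 13207300184) (nat_lit 168) (nat_lit 11050081505) (nat_lit 252) (nat_lit 1344349261) (nat_lit 20) (nat_lit 5) (nat_lit 22) (nat_lit 5) (nat_lit 23) (nat_lit 5) (nat_lit 373) (nat_lit 295) (nat_lit 196)) (XT.lf (nat_lit 0) (nat_lit 1343782562) (nat_lit 588) (nat_lit 1016325848) (nat_lit 588) (nat_lit 1016325848) (nat_lit 187) (nat_lit 3) (nat_lit 194) (nat_lit 3) (nat_lit 194) (nat_lit 5) (nat_lit 296)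 (nat_lit 296) (nat_lit 272)))))) (XT.nd (nat_lit 470) (nat_lit 1260) (nat_lit 0) (XT.nd (nat_lit 188) (nat_lit 588) (nat_lit 0) (XT.nd (nat_lit 94) (nat_lit 0) (nat_lit 0) (XT.lf (nat_lit 84) (nat_lit 706383080) (nat_lit 0) (nat_lit 3797962812) (nat_lit 588) (nat_lit 2288710554) (nat_lit 188) (nat_lit 5) (nat_lit 187) (nat_lit 3) (nat_lit 194) (nat_lit 5) (nat_lit 297) (nat_lit 296) (nat_lit 271)) (XT.lf (nat_lit 84) (nat_lit 3535741586) (nat_lit 0) (nat_lit 2791301030) (nat_lit 588) (nat_lit 509391016) (nat_lit 188) (nat_lit 5) (nat_lit 187) (nat_lit 3) (nat_lit 194) (nat_lit 5) (nat_lit 298) (nat_lit 296) (nat_lit 270))) (XT.nd (nat_lit 94) (nat_lit 0) (nat_lit 0) (XT.lf (nat_lit 0) (nat_lit 1227849901) (nat_lit 588) (nat_lit 479843740) (nat_lit 672) (nat_lit 5175599452) (nat_lit 180) (nat_lit 5) (nat_lit 187) (nat_lit 3) (nat_lit 188) (nat_lit 5) (nat_lit 299) (nat_lit 296) (nat_lit 269))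 (XT.nd (nat_lit 94) (nat_lit 0) (nat_lit 84) (XT.lf (nat_lit 84) (nat_lit 2435102686) (nat_lit 0) (nat_lit 528998894) (nat_lit 672) (nat_lit 3969061816) (nat_lit 181) (nat_lit 5) (nat_lit 180) (nat_lit 5) (nat_lit 188) (nat_lit 5) (nat_lit 300) (nat_lit 296) (nat_lit 268)) (XT.lf (nat_lit 0) (nat_lit 4699614001) (nat_lit 588) (nat_lit 1580224168) (nat_lit 672) (nat_lit 706770078) (nat_lit 181) (nat_lit 5) (nat_lit 188) (nat_lit 5) (nat_lit 189) (nat_lit 5) (nat_lit 301) (nat_lit 296) (nat_lit 267))))) (XT.nd (nat_lit 282) (nat_lit 672) (nat_lit 0) (XT.nd (nat_lit 94) (nat_lit 672) (nat_lit 0) (XT.lf (nat_lit 84) (nat_lit 1412781880) (nat_lit 0) (nat_lit 5031137822) (nat_lit 672) (nat_lit 599512400) (nat_lit 182) (nat_lit 5) (nat_lit 181) (nat_lit 5) (nat_lit 189) (nat_lit 5) (nat_lit 302) (nat_lit 296) (nat_lit 266)) (XT.nd (nat_lit 94) (nat_lit 0) (nat_lit 0) (XT.lf (nat_lit 0) (nat_lit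 1070144373) (nat_lit 672) (nat_lit 2620484857) (nat_lit 756) (nat_lit 3412807266) (nat_lit 173) (nat_lit 5) (nat_lit 181) (nat_lit 5) (nat_lit 182) (nat_lit 5) (nat_lit 303) (nat_lit 296) (nat_lit 265)) (XT.lf (nat_lit 84) (nat_lit 447500650) (nat_lit 0) (nat_lit 2274139068) (nat_lit 756) (nat_lit 4445551081) (nat_lit 174) (nat_lit 5) (nat_lit 173) (nat_lit 5) (nat_lit 182) (nat_lit 5) (nat_lit 304) (nat_lit 296) (nat_lit 264)))) (XT.nd (nat_lit 94) (nat_lit 672) (nat_lit 0) (XT.lf (nat_lit 84) (nat_lit 3628155645) (nat_lit 0) (nat_lit 763106026) (nat_lit 756) (nat_lit 2842974370) (nat_lit 174) (nat_lit 5) (nat_lit 173) (nat_lit 5) (nat_lit 182) (nat_lit 5) (nat_lit 305) (nat_lit 296) (nat_lit 263)) (XT.nd (nat_lit 94) (nat_lit 756) (nat_lit 0) (XT.lf (nat_lit 0) (nat_lit 6062136474) (nat_lit 672) (nat_lit 442994894) (nat_lit 756) (nat_lit 800074673) (nat_lit 174) (nat_lit 5) (nat_lit 182)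 (nat_lit 5) (nat_lit 183) (nat_lit 5) (nat_lit 306) (nat_lit 296) (nat_lit 262)) (XT.lf (nat_lit 0) (nat_lit 377002892) (nat_lit 756) (nat_lit 4553746393) (nat_lit 840) (nat_lit 2448424366) (nat_lit 165) (nat_lit 5) (nat_lit 174) (nat_lit 5) (nat_lit 175) (nat_lit 5) (nat_lit 307) (nat_lit 296) (nat_lit 261))))))))
noncomputable def xc59 : XT := (XT.nd (nat_lit 1974) (nat_lit 3864) (nat_lit 0) (XT.nd (nat_lit 940) (nat_lit 3780) (nat_lit 0) (XT.nd (nat_lit 470) (nat_lit 1848) (nat_lit 0) (XT.nd (nat_lit 188) (nat_lit 756) (nat_lit 0) (XT.nd (nat_lit 94) (nat_lit 0) (nat_lit 0) (XT.lf (nat_lit 0) (nat_lit 1970018882) (nat_lit 756) (nat_lit 1302500238) (nat_lit 840) (nat_lit 4184372310) (nat_lit 165) (nat_lit 5) (nat_lit 174) (nat_lit 5) (nat_lit 175) (nat_lit 5) (nat_lit 308) (nat_lit 296) (nat_lit 260)) (XT.lf (nat_lit 84) (nat_lit 2053062010) (nat_lit 0) (nat_lit 1525282163) (nat_lit 840)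 (nat_lit 3959979011) (nat_lit 166) (nat_lit 5) (nat_lit 165) (nat_lit 5) (nat_lit 175) (nat_lit 5) (nat_lit 309) (nat_lit 296) (nat_lit 259))) (XT.nd (nat_lit 94) (nat_lit 840) (nat_lit 0) (XT.lf (nat_lit 0) (nat_lit 5199981672) (nat_lit 756) (nat_lit 2123976484) (nat_lit 84) (nat_lit 299695042) (nat_lit 166) (nat_lit 5) (nat_lit 175) (nat_lit 5) (nat_lit 167) (nat_lit 5) (nat_lit 310) (nat_lit 296) (nat_lit 258)) (XT.nd (nat_lit 94) (nat_lit 84) (nat_lit 0) (XT.lf (nat_lit 0) (nat_lit 1314071823) (nat_lit 756) (nat_lit 5535028604) (nat_lit 840) (nat_lit 863468198) (nat_lit 157) (nat_lit 5) (nat_lit 166) (nat_lit 5) (nat_lit 167) (nat_lit 5) (nat_lit 311) (nat_lit 296) (nat_lit 257)) (XT.lf (nat_lit 0) (nat_lit 701494628) (nat_lit 840) (nat_lit 2946636852) (nat_lit 84) (nat_lit 4156986115) (nat_lit 156) (nat_lit 5) (nat_lit 166) (nat_lit 5) (nat_lit 157) (nat_lit 5) (nat_lit 312) (nat_lit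 296) (nat_lit 256))))) (XT.nd (nat_lit 188) (nat_lit 1008) (nat_lit 0) (XT.nd (nat_lit 94) (nat_lit 0) (nat_lit 0) (XT.lf (nat_lit 0) (nat_lit 577011167) (nat_lit 840) (nat_lit 1676289721) (nat_lit 924) (nat_lit 5648529940) (nat_lit 146) (nat_lit 5) (nat_lit 156) (nat_lit 5) (nat_lit 157) (nat_lit 5) (nat_lit 313) (nat_lit 296) (nat_lit 255)) (XT.lf (nat_lit 0) (nat_lit 3839584803) (nat_lit 924) (nat_lit 3771522941) (nat_lit 84) (nat_lit 391063747) (nat_lit 146) (nat_lit 5) (nat_lit 157) (nat_lit 5) (nat_lit 147) (nat_lit 5) (nat_lit 314) (nat_lit 296) (nat_lit 254))) (XT.nd (nat_lit 94) (nat_lit 1008) (nat_lit 0) (XT.lf (nat_lit 0) (nat_lit 5445400382) (nat_lit 924) (nat_lit 163473412) (nat_lit 84) (nat_lit 2497868482) (nat_lit 146) (nat_lit 5) (nat_lit 157) (nat_lit 5) (nat_lit 147) (nat_lit 5) (nat_lit 315) (nat_lit 296) (nat_lit 253)) (XT.nd (nat_lit 94) (nat_lit 84) (nat_lit 0) (XT.lf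 (nat_lit 0) (nat_lit 3591685466) (nat_lit 924) (nat_lit 3499559908) (nat_lit 1008) (nat_lit 1123806248) (nat_lit 135) (nat_lit 5) (nat_lit 146) (nat_lit 5) (nat_lit 147) (nat_lit 5) (nat_lit 316) (nat_lit 296) (nat_lit 252)) (XT.lf (nat_lit 0) (nat_lit 408801211) (nat_lit 1008) (nat_lit 902378122) (nat_lit 84) (nat_lit 7016922570) (nat_lit 134) (nat_lit 5) (nat_lit 146) (nat_lit 5) (nat_lit 135) (nat_lit 5) (nat_lit 317) (nat_lit 296) (nat_lit 251)))))) (XT.nd (nat_lit 470) (nat_lit 1176) (nat_lit 0) (XT.nd (nat_lit 188) (nat_lit 1596) (nat_lit 0) (XT.nd (nat_lit 94) (nat_lit 0) (nat_lit 0) (XT.lf (nat_lit 0) (nat_lit 1960985701) (nat_lit 1092) (nat_lit 5509682459) (nat_lit 84) (nat_lit 973952113) (nat_lit 122) (nat_lit 5) (nat_lit 135) (nat_lit 5) (nat_lit 123) (nat_lit 5) (nat_lit 318) (nat_lit 296) (nat_lit 250)) (XT.lf (nat_lit 0) (nat_lit 3541563510) (nat_lit 1092) (nat_lit 1705513019)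 (nat_lit 84) (nat_lit 3318457861) (nat_lit 122) (nat_lit 5) (nat_lit 135) (nat_lit 5) (nat_lit 123) (nat_lit 5) (nat_lit 319) (nat_lit 296) (nat_lit 249))) (XT.nd (nat_lit 94) (nat_lit 504) (nat_lit 0) (XT.lf (nat_lit 0) (nat_lit 2224658635) (nat_lit 1092) (nat_lit 2927181890) (nat_lit 1176) (nat_lit 3539121624) (nat_lit 109) (nat_lit 5) (nat_lit 122) (nat_lit 5) (nat_lit 123) (nat_lit 5) (nat_lit 320) (nat_lit 296) (nat_lit 248)) (XT.nd (nat_lit 94) (nat_lit 504) (nat_lit 0) (XT.lf (nat_lit 0) (nat_lit 6276444690) (nat_lit 1092) (nat_lit 512908873) (nat_lit 1176) (nat_lit 2031789784) (nat_lit 109) (nat_lit 5) (nat_lit 122) (nat_lit 5) (nat_lit 123) (nat_lit 5) (nat_lit 321) (nat_lit 296) (nat_lit 247)) (XT.lf (nat_lit 0) (nat_lit 1471828719) (nat_lit 504) (nat_lit 7000777913) (nat_lit 588) (nat_lit 483066390) (nat_lit 103) (nat_lit 5) (nat_lit 109) (nat_lit 5) (nat_lit 110) (nat_lit 5)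 (nat_lit 322) (nat_lit 296) (nat_lit 246))))) (XT.nd (nat_lit 282) (nat_lit 504) (nat_lit 0) (XT.nd (nat_lit 94) (nat_lit 588) (nat_lit 0) (XT.lf (nat_lit 0) (nat_lit 1084357608) (nat_lit 588) (nat_lit 3480574534) (nat_lit 84) (nat_lit 4529459365) (nat_lit 102) (nat_lit 5) (nat_lit 109) (nat_lit 5) (nat_lit 103) (nat_lit 5) (nat_lit 323) (nat_lit 296) (nat_lit 245)) (XT.nd (nat_lit 94) (nat_lit 0) (nat_lit 0) (XT.lf (nat_lit 0) (nat_lit 618156900) (nat_lit 588) (nat_lit 2040532938) (nat_lit 672) (nat_lit 6579691735) (nat_lit 95) (nat_lit 5) (nat_lit 102) (nat_lit 5) (nat_lit 103) (nat_lit 5) (nat_lit 324) (nat_lit 296) (nat_lit 244)) (XT.lf (nat_lit 0) (nat_lit 4287117598) (nat_lit 672) (nat_lit 4511007224) (nat_lit 84) (nat_lit 588685564) (nat_lit 95) (nat_lit 5) (nat_lit 103) (nat_lit 5) (nat_lit 96) (nat_lit 5) (nat_lit 325) (nat_lit 296) (nat_lit 243)))) (XT.nd (nat_lit 94) (nat_lit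 504) (nat_lit 0) (XT.lf (nat_lit 0) (nat_lit 5951021858) (nat_lit 672) (nat_lit 331244388) (nat_lit 84) (nat_lit 3258174297) (nat_lit 95) (nat_lit 5) (nat_lit 103) (nat_lit 5) (nat_lit 96) (nat_lit 5) (nat_lit 326) (nat_lit 296) (nat_lit 242)) (XT.nd (nat_lit 94) (nat_lit 0) (nat_lit 0) (XT.lf (nat_lit 0) (nat_lit 4024282473) (nat_lit 504) (nat_lit 3647350116) (nat_lit 588) (nat_lit 2027172603) (nat_lit 89) (nat_lit 5) (nat_lit 95) (nat_lit 5) (nat_lit 96) (nat_lit 5) (nat_lit 327) (nat_lit 296) (nat_lit 241)) (XT.lf (nat_lit 0) (nat_lit 8487317150) (nat_lit 504) (nat_lit 927630319) (nat_lit 588) (nat_lit 448208266) (nat_lit 89) (nat_lit 5) (nat_lit 95) (nat_lit 5) (nat_lit 96) (nat_lit 5) (nat_lit 328) (nat_lit 296) (nat_lit 240))))))) (XT.nd (nat_lit 1034) (nat_lit 1512) (nat_lit 0) (XT.nd (nat_lit 470) (nat_lit 924) (nat_lit 0) (XT.nd (nat_lit 188) (nat_lit 840) (nat_lit 0) (XT.nd (nat_lit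 94) (nat_lit 0) (nat_lit 0) (XT.lf (nat_lit 0) (nat_lit 1171921812) (nat_lit 588) (nat_lit 6979500491) (nat_lit 84) (nat_lit 1880439875) (nat_lit 82) (nat_lit 5) (nat_lit 89) (nat_lit 5) (nat_lit 83) (nat_lit 5) (nat_lit 329) (nat_lit 296) (nat_lit 239)) (XT.lf (nat_lit 0) (nat_lit 2824095073) (nat_lit 588) (nat_lit 2607650681) (nat_lit 84) (nat_lit 4774301450) (nat_lit 82) (nat_lit 5) (nat_lit 89) (nat_lit 5) (nat_lit 83) (nat_lit 5) (nat_lit 330) (nat_lit 296) (nat_lit 238))) (XT.nd (nat_lit 94) (nat_lit 420) (nat_lit 0) (XT.lf (nat_lit 0) (nat_lit 1904061816) (nat_lit 420) (nat_lit 2610434825) (nat_lit 504) (nat_lit 5871650307) (nat_lit 77) (nat_lit 5) (nat_lit 82) (nat_lit 5) (nat_lit 83) (nat_lit 5) (nat_lit 331) (nat_lit 296) (nat_lit 237)) (XT.nd (nat_lit 94) (nat_lit 420) (nat_lit 0) (XT.lf (nat_lit 0) (nat_lit 6256479765) (nat_lit 504) (nat_lit 3998042161) (nat_lit 84) (nat_lit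 317442252) (nat_lit 77) (nat_lit 5) (nat_lit 83) (nat_lit 5) (nat_lit 78) (nat_lit 5) (nat_lit 332) (nat_lit 296) (nat_lit 236)) (XT.lf (nat_lit 0) (nat_lit 576225183) (nat_lit 420) (nat_lit 7478317120) (nat_lit 504) (nat_lit 2709040693) (nat_lit 72) (nat_lit 5) (nat_lit 77) (nat_lit 5) (nat_lit 78) (nat_lit 5) (nat_lit 333) (nat_lit 296) (nat_lit 235))))) (XT.nd (nat_lit 282) (nat_lit 420) (nat_lit 0) (XT.nd (nat_lit 94) (nat_lit 504) (nat_lit 0) (XT.lf (nat_lit 0) (nat_lit 5343700304) (nat_lit 420) (nat_lit 4576620261) (nat_lit 504) (nat_lit 1040552673) (nat_lit 72) (nat_lit 5) (nat_lit 77) (nat_lit 5) (nat_lit 78) (nat_lit 5) (nat_lit 334) (nat_lit 296) (nat_lit 234)) (XT.nd (nat_lit 94) (nat_lit 420) (nat_lit 0) (XT.lf (nat_lit 0) (nat_lit 636711399) (nat_lit 504) (nat_lit 945100666) (nat_lit 84) (nat_lit 9583261683) (nat_lit 71) (nat_lit 5) (nat_lit 77) (nat_lit 5) (nat_lit 72) (nat_lit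 5) (nat_lit 335) (nat_lit 296) (nat_lit 233)) (XT.lf (nat_lit 0) (nat_lit 2370155274) (nat_lit 504) (nat_lit 7482607438) (nat_lit 84) (nat_lit 1521805588) (nat_lit 66) (nat_lit 5) (nat_lit 72) (nat_lit 5) (nat_lit 67) (nat_lit 5) (nat_lit 336) (nat_lit 296) (nat_lit 232)))) (XT.nd (nat_lit 94) (nat_lit 420) (nat_lit 0) (XT.lf (nat_lit 0) (nat_lit 4155605835) (nat_lit 504) (nat_lit 2740166461) (nat_lit 84) (nat_lit 4694929230) (nat_lit 66) (nat_lit 5) (nat_lit 72) (nat_lit 5) (nat_lit 67) (nat_lit 5) (nat_lit 337) (nat_lit 296) (nat_lit 231)) (XT.nd (nat_lit 94) (nat_lit 0) (nat_lit 0) (XT.lf (nat_lit 0) (nat_lit 2161171566) (nat_lit 420) (nat_lit 3829636905) (nat_lit 504) (nat_lit 5822987897) (nat_lit 61) (nat_lit 5) (nat_lit 66) (nat_lit 5) (nat_lit 67) (nat_lit 5) (nat_lit 338) (nat_lit 296) (nat_lit 230)) (XT.lf (nat_lit 0) (nat_lit 7241200295) (nat_lit 420) (nat_lit 643769841) (nat_lit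 504) (nat_lit 4158858252) (nat_lit 61) (nat_lit 5) (nat_lit 66) (nat_lit 5) (nat_lit 67) (nat_lit 5) (nat_lit 339) (nat_lit 296) (nat_lit 229)))))) (XT.nd (nat_lit 470) (nat_lit 756) (nat_lit 0) (XT.nd (nat_lit 188) (nat_lit 420) (nat_lit 0) (XT.nd (nat_lit 94) (nat_lit 0) (nat_lit 0) (XT.lf (nat_lit 0) (nat_lit 143172617) (nat_lit 336) (nat_lit 9696513730) (nat_lit 420) (nat_lit 2441330922) (nat_lit 57) (nat_lit 5) (nat_lit 61) (nat_lit 5) (nat_lit 62) (nat_lit 5) (nat_lit 340) (nat_lit 296) (nat_lit 228)) (XT.lf (nat_lit 0) (nat_lit 5306470057) (nat_lit 336) (nat_lit 6579862007) (nat_lit 420) (nat_lit 638335893) (nat_lit 57) (nat_lit 5) (nat_lit 61) (nat_lit 5) (nat_lit 62) (nat_lit 5) (nat_lit 341) (nat_lit 296) (nat_lit 227))) (XT.nd (nat_lit 94) (nat_lit 336) (nat_lit 0) (XT.lf (nat_lit 0) (nat_lit 1171080420) (nat_lit 420) (nat_lit 2188724291) (nat_lit 84) (nat_lit 9416538568) (nat_lit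 56) (nat_lit 5) (nat_lit 61) (nat_lit 5) (nat_lit 57) (nat_lit 5) (nat_lit 342) (nat_lit 296) (nat_lit 226)) (XT.nd (nat_lit 94) (nat_lit 0) (nat_lit 0) (XT.lf (nat_lit 0) (nat_lit 3021352989) (nat_lit 336) (nat_lit 7816043) (nat_lit 420) (nat_lit 10006341328) (nat_lit 52) (nat_lit 5) (nat_lit 56) (nat_lit 5) (nat_lit 57) (nat_lit 5) (nat_lit 343) (nat_lit 296) (nat_lit 225)) (XT.lf (nat_lit 0) (nat_lit 4978389483) (nat_lit 420) (nat_lit 4927204211) (nat_lit 84) (nat_lit 3396149516) (nat_lit 52) (nat_lit 5) (nat_lit 57) (nat_lit 5) (nat_lit 53) (nat_lit 5) (nat_lit 344) (nat_lit 296) (nat_lit 224))))) (XT.nd (nat_lit 282) (nat_lit 420) (nat_lit 0) (XT.nd (nat_lit 94) (nat_lit 0) (nat_lit 0) (XT.lf (nat_lit 0) (nat_lit 294090802) (nat_lit 336) (nat_lit 6673902764) (nat_lit 420) (nat_lit 6608925937) (nat_lit 48) (nat_lit 5) (nat_lit 52) (nat_lit 5) (nat_lit 53) (nat_lit 5) (nat_lit 345) (nat_lit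 296) (nat_lit 223)) (XT.nd (nat_lit 94) (nat_lit 0) (nat_lit 0) (XT.lf (nat_lit 0) (nat_lit 5752796685) (nat_lit 336) (nat_lit 3295275066) (nat_lit 420) (nat_lit 4811728669) (nat_lit 48) (nat_lit 5) (nat_lit 52) (nat_lit 5) (nat_lit 53) (nat_lit 5) (nat_lit 346) (nat_lit 296) (nat_lit 222)) (XT.lf (nat_lit 0) (nat_lit 11172484920) (nat_lit 420) (nat_lit 2801313471) (nat_lit 84) (nat_lit 178341659) (nat_lit 48) (nat_lit 5) (nat_lit 53) (nat_lit 5) (nat_lit 49) (nat_lit 5) (nat_lit 347) (nat_lit 296) (nat_lit 221)))) (XT.nd (nat_lit 94) (nat_lit 84) (nat_lit 0) (XT.lf (nat_lit 0) (nat_lit 2660905729) (nat_lit 336) (nat_lit 10740597170) (nat_lit 420) (nat_lit 1050901007) (nat_lit 44) (nat_lit 5) (nat_lit 48) (nat_lit 5) (nat_lit 49) (nat_lit 5) (nat_lit 348) (nat_lit 296) (nat_lit 220)) (XT.nd (nat_lit 94) (nat_lit 0) (nat_lit 0) (XT.lf (nat_lit 0) (nat_lit 927034731) (nat_lit 420) (nat_lit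 6446900119) (nat_lit 84) (nat_lit 7387555174) (nat_lit 43) (nat_lit 5) (nat_lit 48) (nat_lit 5) (nat_lit 44) (nat_lit 5) (nat_lit 349) (nat_lit 296) (nat_lit 219)) (XT.lf (nat_lit 0) (nat_lit 2923838616) (nat_lit 420) (nat_lit 974593864) (nat_lit 84) (nat_lit 11182088680) (nat_lit 43) (nat_lit 5) (nat_lit 48) (nat_lit 5) (nat_lit 44) (nat_lit 5) (nat_lit 350) (nat_lit 296) (nat_lit 218))))))))
noncomputable def xc60 : XT := (XT.nd (nat_lit 1974) (nat_lit 168) (nat_lit 0) (XT.nd (nat_lit 940) (nat_lit 672) (nat_lit 0) (XT.nd (nat_lit 470) (nat_lit 588) (nat_lit 0) (XT.nd (nat_lit 188) (nat_lit 252) (nat_lit 0) (XT.nd (nat_lit 94) (nat_lit 0) (nat_lit 0) (XT.lf (nat_lit 0) (nat_lit 4736373792) (nat_lit 252) (nat_lit 273156813) (nat_lit 336) (nat_lit 10399130711) (nat_lit 40) (nat_lit 5) (nat_lit 43) (nat_lit 5) (nat_lit 44) (nat_lit 5) (nat_lit 351) (nat_lit 296) (nat_lit 217)) (XT.lf (nat_lit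 0) (nat_lit 7184803584) (nat_lit 336) (nat_lit 5162827594) (nat_lit 84) (nat_lit 3398623960) (nat_lit 40) (nat_lit 5) (nat_lit 44) (nat_lit 5) (nat_lit 41) (nat_lit 5) (nat_lit 352) (nat_lit 296) (nat_lit 216))) (XT.nd (nat_lit 94) (nat_lit 0) (nat_lit 0) (XT.lf (nat_lit 0) (nat_lit 498745315) (nat_lit 252) (nat_lit 8917378472) (nat_lit 336) (nat_lit 6678595916) (nat_lit 37) (nat_lit 5) (nat_lit 40) (nat_lit 5) (nat_lit 41) (nat_lit 5) (nat_lit 353) (nat_lit 296) (nat_lit 215)) (XT.nd (nat_lit 94) (nat_lit 0) (nat_lit 0) (XT.lf (nat_lit 0) (nat_lit 6419603655) (nat_lit 252) (nat_lit 5332093442) (nat_lit 336) (nat_lit 4701252811) (nat_lit 37) (nat_lit 5) (nat_lit 40) (nat_lit 5) (nat_lit 41) (nat_lit 5) (nat_lit 354) (nat_lit 296) (nat_lit 214)) (XT.lf (nat_lit 0) (nat_lit 12499107961) (nat_lit 252) (nat_lit 1642323557) (nat_lit 336) (nat_lit 2681468481) (nat_lit 37) (nat_lit 5) (nat_lit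 40) (nat_lit 5) (nat_lit 41) (nat_lit 5) (nat_lit 355) (nat_lit 296) (nat_lit 213))))) (XT.nd (nat_lit 188) (nat_lit 252) (nat_lit 0) (XT.nd (nat_lit 94) (nat_lit 84) (nat_lit 0) (XT.lf (nat_lit 0) (nat_lit 1547813611) (nat_lit 252) (nat_lit 15076476967) (nat_lit 336) (nat_lit 579485413) (nat_lit 34) (nat_lit 5) (nat_lit 37) (nat_lit 5) (nat_lit 38) (nat_lit 5) (nat_lit 356) (nat_lit 296) (nat_lit 212)) (XT.lf (nat_lit 0) (nat_lit 1600371800) (nat_lit 336) (nat_lit 9959810285) (nat_lit 84) (nat_lit 6034448043) (nat_lit 33) (nat_lit 5) (nat_lit 37) (nat_lit 5) (nat_lit 34) (nat_lit 5) (nat_lit 357) (nat_lit 296) (nat_lit 211))) (XT.nd (nat_lit 94) (nat_lit 252) (nat_lit 0) (XT.lf (nat_lit 0) (nat_lit 3818609455) (nat_lit 336) (nat_lit 4117100181) (nat_lit 84) (nat_lit 10062282869) (nat_lit 33) (nat_lit 5) (nat_lit 37) (nat_lit 5) (nat_lit 34) (nat_lit 5) (nat_lit 358) (nat_lit 296) (nat_lit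 210)) (XT.nd (nat_lit 94) (nat_lit 0) (nat_lit 0) (XT.lf (nat_lit 0) (nat_lit 1922088311) (nat_lit 252) (nat_lit 4185949561) (nat_lit 336) (nat_lit 12305788341) (nat_lit 30) (nat_lit 5) (nat_lit 33) (nat_lit 5) (nat_lit 34) (nat_lit 5) (nat_lit 359) (nat_lit 296) (nat_lit 209)) (XT.lf (nat_lit 0) (nat_lit 8212637203) (nat_lit 252) (nat_lit 282404380) (nat_lit 336) (nat_lit 10346725503) (nat_lit 30) (nat_lit 5) (nat_lit 33) (nat_lit 5) (nat_lit 34) (nat_lit 5) (nat_lit 360) (nat_lit 296) (nat_lit 208)))))) (XT.nd (nat_lit 470) (nat_lit 168) (nat_lit 0) (XT.nd (nat_lit 188) (nat_lit 336) (nat_lit 0) (XT.nd (nat_lit 94) (nat_lit 168) (nat_lit 0) (XT.lf (nat_lit 0) (nat_lit 10977221103) (nat_lit 336) (nat_lit 4644809750) (nat_lit 84) (nat_lit 3660326515) (nat_lit 30) (nat_lit 5) (nat_lit 34) (nat_lit 5) (nat_lit 31) (nat_lit 5) (nat_lit 361) (nat_lit 296) (nat_lit 207)) (XT.lf (nat_lit 0) (nat_lit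 1530759982) (nat_lit 168) (nat_lit 12008197360) (nat_lit 252) (nat_lit 6197606307) (nat_lit 28) (nat_lit 5) (nat_lit 30) (nat_lit 5) (nat_lit 31) (nat_lit 5) (nat_lit 362) (nat_lit 296) (nat_lit 206))) (XT.nd (nat_lit 94) (nat_lit 336) (nat_lit 0) (XT.lf (nat_lit 0) (nat_lit 7974247438) (nat_lit 168) (nat_lit 8239124566) (nat_lit 252) (nat_lit 3990484542) (nat_lit 28) (nat_lit 5) (nat_lit 30) (nat_lit 5) (nat_lit 31) (nat_lit 5) (nat_lit 363) (nat_lit 296) (nat_lit 205)) (XT.nd (nat_lit 94) (nat_lit 336) (nat_lit 0) (XT.lf (nat_lit 0) (nat_lit 14596151808) (nat_lit 168) (nat_lit 4359781588) (nat_lit 252) (nat_lit 1730195991) (nat_lit 28) (nat_lit 5) (nat_lit 30) (nat_lit 5) (nat_lit 31) (nat_lit 5) (nat_lit 364) (nat_lit 296) (nat_lit 204)) (XT.lf (nat_lit 0) (nat_lit 217386652) (nat_lit 252) (nat_lit 358342198) (nat_lit 336) (nat_lit 20607855982) (nat_lit 24) (nat_lit 5) (nat_lit 27) (nat_lit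 5) (nat_lit 28) (nat_lit 5) (nat_lit 365) (nat_lit 296) (nat_lit 203))))) (XT.nd (nat_lit 282) (nat_lit 168) (nat_lit 0) (XT.nd (nat_lit 94) (nat_lit 0) (nat_lit 0) (XT.lf (nat_lit 0) (nat_lit 3004451992) (nat_lit 336) (nat_lit 14922043569) (nat_lit 84) (nat_lit 3766745487) (nat_lit 24) (nat_lit 5) (nat_lit 28) (nat_lit 5) (nat_lit 25) (nat_lit 5) (nat_lit 366) (nat_lit 296) (nat_lit 202)) (XT.nd (nat_lit 94) (nat_lit 0) (nat_lit 0) (XT.lf (nat_lit 0) (nat_lit 5498228841) (nat_lit 336) (nat_lit 8714766885) (nat_lit 84) (nat_lit 8006050345) (nat_lit 24) (nat_lit 5) (nat_lit 28) (nat_lit 5) (nat_lit 25) (nat_lit 5) (nat_lit 367) (nat_lit 296) (nat_lit 201)) (XT.lf (nat_lit 0) (nat_lit 8055829060) (nat_lit 336) (nat_lit 2335027498) (nat_lit 84) (nat_lit 12370743647) (nat_lit 24) (nat_lit 5) (nat_lit 28) (nat_lit 5) (nat_lit 25) (nat_lit 5) (nat_lit 368) (nat_lit 296) (nat_lit 200)))) (XT.nd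 (nat_lit 94) (nat_lit 0) (nat_lit 0) (XT.lf (nat_lit 0) (nat_lit 4309957209) (nat_lit 168) (nat_lit 6412434700) (nat_lit 252) (nat_lit 12597691844) (nat_lit 22) (nat_lit 5) (nat_lit 24) (nat_lit 5) (nat_lit 25) (nat_lit 5) (nat_lit 369) (nat_lit 296) (nat_lit 199)) (XT.nd (nat_lit 94) (nat_lit 0) (nat_lit 0) (XT.lf (nat_lit 0) (nat_lit 11191271196) (nat_lit 168) (nat_lit 2291844725) (nat_lit 252) (nat_lit 10412437254) (nat_lit 22) (nat_lit 5) (nat_lit 24) (nat_lit 5) (nat_lit 25) (nat_lit 5) (nat_lit 370) (nat_lit 296) (nat_lit 198)) (XT.lf (nat_lit 0) (nat_lit 16336282348) (nat_lit 252) (nat_lit 6241310126) (nat_lit 84) (nat_lit 1911085451) (nat_lit 22) (nat_lit 5) (nat_lit 25) (nat_lit 5) (nat_lit 23) (nat_lit 5) (nat_lit 371) (nat_lit 296) (nat_lit 197))))))) (XT.nd (nat_lit 48034) (nat_lit 0) (nat_lit 9660) (XT.nd (nat_lit 47470) (nat_lit 0) (nat_lit 12768) (XT.nd (nat_lit 47188) (nat_lit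 0) (nat_lit 13440) (XT.nd (nat_lit 94) (nat_lit 0) (nat_lit 0) (XT.lf (nat_lit 0) (nat_lit 388015640) (nat_lit 168) (nat_lit 18904999357) (nat_lit 252) (nat_lit 5806733463) (nat_lit 20) (nat_lit 5) (nat_lit 22) (nat_lit 5) (nat_lit 23) (nat_lit 5) (nat_lit 372) (nat_lit 296) (nat_lit 196)) (XT.lf (nat_lit 0) (nat_lit 7336973353) (nat_lit 168) (nat_lit 15057593725) (nat_lit 252) (nat_lit 3333573871) (nat_lit 20) (nat_lit 5) (nat_lit 22) (nat_lit 5) (nat_lit 23) (nat_lit 5) (nat_lit 373) (nat_lit 296) (nat_lit 195))) (XT.nd (nat_lit 94) (nat_lit 588) (nat_lit 0) (XT.lf (nat_lit 0) (nat_lit 3136015992) (nat_lit 588) (nat_lit 140730466) (nat_lit 588) (nat_lit 140730466) (nat_lit 187) (nat_lit 3) (nat_lit 194) (nat_lit 3) (nat_lit 194) (nat_lit 5) (nat_lit 297) (nat_lit 297) (nat_lit 270)) (XT.nd (nat_lit 94) (nat_lit 0) (nat_lit 0) (XT.lf (nat_lit 0) (nat_lit 1154279641) (nat_lit 588) (nat_lit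 4367230887) (nat_lit 672) (nat_lit 1357788793) (nat_lit 180) (nat_lit 5) (nat_lit 187) (nat_lit 3) (nat_lit 188) (nat_lit 5) (nat_lit 298) (nat_lit 297) (nat_lit 269)) (XT.lf (nat_lit 0) (nat_lit 2847570130) (nat_lit 588) (nat_lit 1569752001) (nat_lit 672) (nat_lit 2509895441) (nat_lit 180) (nat_lit 5) (nat_lit 187) (nat_lit 3) (nat_lit 188) (nat_lit 5) (nat_lit 299) (nat_lit 297) (nat_lit 268))))) (XT.nd (nat_lit 282) (nat_lit 0) (nat_lit 84) (XT.nd (nat_lit 94) (nat_lit 672) (nat_lit 0) (XT.lf (nat_lit 84) (nat_lit 1304652914) (nat_lit 0) (nat_lit 3235280265) (nat_lit 672) (nat_lit 2438681226) (nat_lit 181) (nat_lit 5) (nat_lit 180) (nat_lit 5) (nat_lit 188) (nat_lit 5) (nat_lit 300) (nat_lit 297) (nat_lit 267)) (XT.nd (nat_lit 94) (nat_lit 672) (nat_lit 0) (XT.lf (nat_lit 84) (nat_lit 4265725929) (nat_lit 0) (nat_lit 1970697830) (nat_lit 672) (nat_lit 797006169) (nat_lit 181) (nat_lit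 5) (nat_lit 180) (nat_lit 5) (nat_lit 188) (nat_lit 5) (nat_lit 301) (nat_lit 297) (nat_lit 266)) (XT.lf (nat_lit 84) (nat_lit 187276164) (nat_lit 0) (nat_lit 628371403) (nat_lit 756) (nat_lit 6276247329) (nat_lit 173) (nat_lit 5) (nat_lit 172) (nat_lit 5) (nat_lit 181) (nat_lit 5) (nat_lit 302) (nat_lit 297) (nat_lit 265)))) (XT.nd (nat_lit 94) (nat_lit 0) (nat_lit 0) (XT.lf (nat_lit 0) (nat_lit 2436511052) (nat_lit 672) (nat_lit 3913063942) (nat_lit 756) (nat_lit 803424983) (nat_lit 173) (nat_lit 5) (nat_lit 181) (nat_lit 5) (nat_lit 182) (nat_lit 5) (nat_lit 303) (nat_lit 297) (nat_lit 264)) (XT.nd (nat_lit 94) (nat_lit 0) (nat_lit 0) (XT.lf (nat_lit 0) (nat_lit 4054002704) (nat_lit 672) (nat_lit 872423247) (nat_lit 756) (nat_lit 2291524932) (nat_lit 173) (nat_lit 5) (nat_lit 181) (nat_lit 5) (nat_lit 182) (nat_lit 5) (nat_lit 304) (nat_lit 297) (nat_lit 263)) (XT.lf (nat_lit 84) (nat_lit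 2272149825) (nat_lit 0) (nat_lit 3413786856) (nat_lit 756) (nat_lit 1600365973) (nat_lit 174) (nat_lit 5) (nat_lit 173) (nat_lit 5) (nat_lit 182) (nat_lit 5) (nat_lit 305) (nat_lit 297) (nat_lit 262)))))) (XT.nd (nat_lit 470) (nat_lit 2436) (nat_lit 0) (XT.nd (nat_lit 188) (nat_lit 0) (nat_lit 84) (XT.nd (nat_lit 94) (nat_lit 756) (nat_lit 0) (XT.lf (nat_lit 84) (nat_lit 5496958881) (nat_lit 0) (nat_lit 1823764715) (nat_lit 756) (nat_lit 37801831) (nat_lit 174) (nat_lit 5) (nat_lit 173) (nat_lit 5) (nat_lit 182) (nat_lit 5) (nat_lit 306) (nat_lit 297) (nat_lit 261)) (XT.lf (nat_lit 84) (nat_lit 1364563713) (nat_lit 0) (nat_lit 134521414) (nat_lit 840) (nat_lit 5934989330) (nat_lit 165) (nat_lit 5) (nat_lit 164) (nat_lit 5) (nat_lit 174) (nat_lit 5) (nat_lit 307) (nat_lit 297) (nat_lit 260))) (XT.nd (nat_lit 94) (nat_lit 0) (nat_lit 0) (XT.lf (nat_lit 0) (nat_lit 3063961714) (nat_lit 756)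 (nat_lit 2835559940) (nat_lit 840) (nat_lit 1613265221) (nat_lit 165) (nat_lit 5) (nat_lit 174) (nat_lit 5) (nat_lit 175) (nat_lit 5) (nat_lit 308) (nat_lit 297) (nat_lit 259)) (XT.nd (nat_lit 94) (nat_lit 0) (nat_lit 0) (XT.lf (nat_lit 84) (nat_lit 470038249) (nat_lit 0) (nat_lit 4160545997) (nat_lit 840) (nat_lit 2965045806) (nat_lit 166) (nat_lit 5) (nat_lit 165) (nat_lit 5) (nat_lit 175) (nat_lit 5) (nat_lit 309) (nat_lit 297) (nat_lit 258)) (XT.lf (nat_lit 84) (nat_lit 3901894436) (nat_lit 0) (nat_lit 2321898494) (nat_lit 840) (nat_lit 1458163499) (nat_lit 166) (nat_lit 5) (nat_lit 165) (nat_lit 5) (nat_lit 175) (nat_lit 5) (nat_lit 310) (nat_lit 297) (nat_lit 257))))) (XT.nd (nat_lit 282) (nat_lit 1680) (nat_lit 0) (XT.nd (nat_lit 94) (nat_lit 0) (nat_lit 84) (XT.lf (nat_lit 0) (nat_lit 42749874) (nat_lit 840) (nat_lit 368266669) (nat_lit 924) (nat_lit 7361706447) (nat_lit 155) (nat_lit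 5) (nat_lit 165) (nat_lit 5) (nat_lit 166) (nat_lit 5) (nat_lit 311) (nat_lit 297) (nat_lit 256)) (XT.nd (nat_lit 94) (nat_lit 0) (nat_lit 0) (XT.lf (nat_lit 0) (nat_lit 1558120269) (nat_lit 840) (nat_lit 4719984654) (nat_lit 84) (nat_lit 1588004558) (nat_lit 156) (nat_lit 5) (nat_lit 166) (nat_lit 5) (nat_lit 157) (nat_lit 5) (nat_lit 312) (nat_lit 297) (nat_lit 255)) (XT.lf (nat_lit 0) (nat_lit 3080583073) (nat_lit 840) (nat_lit 1226116154) (nat_lit 84) (nat_lit 3657134977) (nat_lit 156) (nat_lit 5) (nat_lit 166) (nat_lit 5) (nat_lit 157) (nat_lit 5) (nat_lit 313) (nat_lit 297) (nat_lit 254)))) (XT.nd (nat_lit 94) (nat_lit 924) (nat_lit 0) (XT.lf (nat_lit 0) (nat_lit 2388421433) (nat_lit 840) (nat_lit 2238985546) (nat_lit 924) (nat_lit 3438089928) (nat_lit 146) (nat_lit 5) (nat_lit 156) (nat_lit 5) (nat_lit 157) (nat_lit 5) (nat_lit 314) (nat_lit 297) (nat_lit 253)) (XT.nd (nat_lit 94)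 (nat_lit 924) (nat_lit 0) (XT.lf (nat_lit 0) (nat_lit 6105602559) (nat_lit 840) (nat_lit 83897173) (nat_lit 924) (nat_lit 1982019178) (nat_lit 146) (nat_lit 5) (nat_lit 156) (nat_lit 5) (nat_lit 157) (nat_lit 5) (nat_lit 315) (nat_lit 297) (nat_lit 252)) (XT.lf (nat_lit 0) (nat_lit 1632889590) (nat_lit 924) (nat_lit 6160519124) (nat_lit 1008) (nat_lit 487812489) (nat_lit 135) (nat_lit 5) (nat_lit 146) (nat_lit 5) (nat_lit 147) (nat_lit 5) (nat_lit 316) (nat_lit 297) (nat_lit 251))))))))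
noncomputable def xc61 : XT := (XT.nd (nat_lit 1974) (nat_lit 2772) (nat_lit 0) (XT.nd (nat_lit 940) (nat_lit 2436) (nat_lit 0) (XT.nd (nat_lit 470) (nat_lit 1176) (nat_lit 0) (XT.nd (nat_lit 188) (nat_lit 1092) (nat_lit 0) (XT.nd (nat_lit 94) (nat_lit 1008) (nat_lit 0) (XT.lf (nat_lit 0) (nat_lit 1010481415) (nat_lit 1008) (nat_lit 2951722656) (nat_lit 84) (nat_lit 4432625745) (nat_lit 134) (nat_lit 5) (nat_lit 146) (nat_lit 5) (nat_lit 135) (nat_lit 5) (nat_lit 317) (nat_lit 297) (nat_lit 250)) (XT.lf (nat_lit 0) (nat_lit 835733616) (nat_lit 1008) (nat_lit 1675293435) (nat_lit 1092) (nat_lit 6002006735) (nat_lit 122) (nat_lit 5) (nat_lit 134) (nat_lit 5) (nat_lit 135) (nat_lit 5) (nat_lit 318) (nat_lit 297) (nat_lit 249))) (XT.nd (nat_lit 94) (nat_lit 1092) (nat_lit 0) (XT.lf (nat_lit 0) (nat_lit 4054617651) (nat_lit 1092) (nat_lit 3874605631) (nat_lit 84) (nat_lit 705953472) (nat_lit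 122) (nat_lit 5) (nat_lit 135) (nat_lit 5) (nat_lit 123) (nat_lit 5) (nat_lit 319) (nat_lit 297) (nat_lit 248)) (XT.nd (nat_lit 94) (nat_lit 1092) (nat_lit 0) (XT.lf (nat_lit 0) (nat_lit 5623070110) (nat_lit 1092) (nat_lit 6805859) (nat_lit 84) (nat_lit 3132104879) (nat_lit 122) (nat_lit 5) (nat_lit 135) (nat_lit 5) (nat_lit 123) (nat_lit 5) (nat_lit 320) (nat_lit 297) (nat_lit 247)) (XT.lf (nat_lit 0) (nat_lit 4027467962) (nat_lit 1092) (nat_lit 3213712292) (nat_lit 1176) (nat_lit 1651660658) (nat_lit 109) (nat_lit 5) (nat_lit 122) (nat_lit 5) (nat_lit 123) (nat_lit 5) (nat_lit 321) (nat_lit 297) (nat_lit 246))))) (XT.nd (nat_lit 188) (nat_lit 588) (nat_lit 0) (XT.nd (nat_lit 94) (nat_lit 588) (nat_lit 0) (XT.lf (nat_lit 0) (nat_lit 8152726318) (nat_lit 1092) (nat_lit 718709886) (nat_lit 1176) (nat_lit 157652342) (nat_lit 109) (nat_lit 5) (nat_lit 122) (nat_lit 5) (nat_lit 123) (nat_lit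 5) (nat_lit 322) (nat_lit 297) (nat_lit 245)) (XT.lf (nat_lit 0) (nat_lit 1368520956) (nat_lit 588) (nat_lit 5934284428) (nat_lit 84) (nat_lit 1866047701) (nat_lit 102) (nat_lit 5) (nat_lit 109) (nat_lit 5) (nat_lit 103) (nat_lit 5) (nat_lit 323) (nat_lit 297) (nat_lit 244))) (XT.nd (nat_lit 94) (nat_lit 588) (nat_lit 0) (XT.lf (nat_lit 0) (nat_lit 2918678785) (nat_lit 588) (nat_lit 1865273105) (nat_lit 84) (nat_lit 4529709148) (nat_lit 102) (nat_lit 5) (nat_lit 109) (nat_lit 5) (nat_lit 103) (nat_lit 5) (nat_lit 324) (nat_lit 297) (nat_lit 243)) (XT.nd (nat_lit 94) (nat_lit 0) (nat_lit 0) (XT.lf (nat_lit 0) (nat_lit 2343073159) (nat_lit 588) (nat_lit 2161519998) (nat_lit 672) (nat_lit 4958881032) (nat_lit 95) (nat_lit 5) (nat_lit 102) (nat_lit 5) (nat_lit 103) (nat_lit 5) (nat_lit 325) (nat_lit 297) (nat_lit 242)) (XT.lf (nat_lit 0) (nat_lit 6129922454) (nat_lit 672) (nat_lit 2936373859)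 (nat_lit 84) (nat_lit 552068281) (nat_lit 95) (nat_lit 5) (nat_lit 103) (nat_lit 5) (nat_lit 96) (nat_lit 5) (nat_lit 326) (nat_lit 297) (nat_lit 241)))))) (XT.nd (nat_lit 470) (nat_lit 1344) (nat_lit 0) (XT.nd (nat_lit 188) (nat_lit 588) (nat_lit 0) (XT.nd (nat_lit 94) (nat_lit 0) (nat_lit 0) (XT.lf (nat_lit 0) (nat_lit 1348581901) (nat_lit 504) (nat_lit 6458790722) (nat_lit 588) (nat_lit 1970757084) (nat_lit 89) (nat_lit 5) (nat_lit 95) (nat_lit 5) (nat_lit 96) (nat_lit 5) (nat_lit 327) (nat_lit 297) (nat_lit 240)) (XT.lf (nat_lit 0) (nat_lit 5795123565) (nat_lit 504) (nat_lit 3739282690) (nat_lit 588) (nat_lit 408639322) (nat_lit 89) (nat_lit 5) (nat_lit 95) (nat_lit 5) (nat_lit 96) (nat_lit 5) (nat_lit 328) (nat_lit 297) (nat_lit 239))) (XT.nd (nat_lit 94) (nat_lit 0) (nat_lit 0) (XT.lf (nat_lit 0) (nat_lit 225785664) (nat_lit 504) (nat_lit 921624586) (nat_lit 588) (nat_lit 8966348402)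 (nat_lit 82) (nat_lit 5) (nat_lit 88) (nat_lit 5) (nat_lit 89) (nat_lit 5) (nat_lit 329) (nat_lit 297) (nat_lit 238)) (XT.nd (nat_lit 94) (nat_lit 0) (nat_lit 0) (XT.lf (nat_lit 0) (nat_lit 2774745367) (nat_lit 588) (nat_lit 5523734491) (nat_lit 84) (nat_lit 1990289106) (nat_lit 82) (nat_lit 5) (nat_lit 89) (nat_lit 5) (nat_lit 83) (nat_lit 5) (nat_lit 330) (nat_lit 297) (nat_lit 237)) (XT.lf (nat_lit 0) (nat_lit 4431034822) (nat_lit 588) (nat_lit 1066634782) (nat_lit 84) (nat_lit 4972310221) (nat_lit 82) (nat_lit 5) (nat_lit 89) (nat_lit 5) (nat_lit 83) (nat_lit 5) (nat_lit 331) (nat_lit 297) (nat_lit 236))))) (XT.nd (nat_lit 282) (nat_lit 504) (nat_lit 0) (XT.nd (nat_lit 94) (nat_lit 420) (nat_lit 0) (XT.lf (nat_lit 0) (nat_lit 3568520997) (nat_lit 420) (nat_lit 2575558996) (nat_lit 504) (nat_lit 4512666168) (nat_lit 77) (nat_lit 5) (nat_lit 82) (nat_lit 5) (nat_lit 83) (nat_lit 5) (nat_lit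 332) (nat_lit 297) (nat_lit 235)) (XT.nd (nat_lit 94) (nat_lit 420) (nat_lit 0) (XT.lf (nat_lit 0) (nat_lit 7896388638) (nat_lit 504) (nat_lit 2516107691) (nat_lit 84) (nat_lit 437337483) (nat_lit 77) (nat_lit 5) (nat_lit 83) (nat_lit 5) (nat_lit 78) (nat_lit 5) (nat_lit 333) (nat_lit 297) (nat_lit 234)) (XT.lf (nat_lit 0) (nat_lit 2183703911) (nat_lit 420) (nat_lit 7538779475) (nat_lit 504) (nat_lit 1325919806) (nat_lit 72) (nat_lit 5) (nat_lit 77) (nat_lit 5) (nat_lit 78) (nat_lit 5) (nat_lit 334) (nat_lit 297) (nat_lit 233)))) (XT.nd (nat_lit 94) (nat_lit 420) (nat_lit 0) (XT.lf (nat_lit 0) (nat_lit 343123378) (nat_lit 504) (nat_lit 4205577730) (nat_lit 84) (nat_lit 6704469479) (nat_lit 71) (nat_lit 5) (nat_lit 77) (nat_lit 5) (nat_lit 72) (nat_lit 5) (nat_lit 335) (nat_lit 297) (nat_lit 232)) (XT.nd (nat_lit 94) (nat_lit 0) (nat_lit 0) (XT.lf (nat_lit 0) (nat_lit 564704412) (nat_lit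 420) (nat_lit 1449741214) (nat_lit 504) (nat_lit 9450189946) (nat_lit 66) (nat_lit 5) (nat_lit 71) (nat_lit 5) (nat_lit 72) (nat_lit 5) (nat_lit 336) (nat_lit 297) (nat_lit 231)) (XT.lf (nat_lit 0) (nat_lit 3772202916) (nat_lit 504) (nat_lit 6158697646) (nat_lit 84) (nat_lit 1750770048) (nat_lit 66) (nat_lit 5) (nat_lit 72) (nat_lit 5) (nat_lit 67) (nat_lit 5) (nat_lit 337) (nat_lit 297) (nat_lit 230))))))) (XT.nd (nat_lit 1034) (nat_lit 1260) (nat_lit 0) (XT.nd (nat_lit 470) (nat_lit 672) (nat_lit 0) (XT.nd (nat_lit 188) (nat_lit 420) (nat_lit 0) (XT.nd (nat_lit 94) (nat_lit 420) (nat_lit 0) (XT.lf (nat_lit 0) (nat_lit 5573055056) (nat_lit 504) (nat_lit 1316022753) (nat_lit 84) (nat_lit 5016794526) (nat_lit 66) (nat_lit 5) (nat_lit 72) (nat_lit 5) (nat_lit 67) (nat_lit 5) (nat_lit 338) (nat_lit 297) (nat_lit 229)) (XT.lf (nat_lit 0) (nat_lit 3721978583) (nat_lit 420) (nat_lit 3719242923)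 (nat_lit 504) (nat_lit 4695529454) (nat_lit 61) (nat_lit 5) (nat_lit 66) (nat_lit 5) (nat_lit 67) (nat_lit 5) (nat_lit 339) (nat_lit 297) (nat_lit 228))) (XT.nd (nat_lit 94) (nat_lit 420) (nat_lit 0) (XT.lf (nat_lit 0) (nat_lit 8914572458) (nat_lit 420) (nat_lit 441502917) (nat_lit 504) (nat_lit 3019139727) (nat_lit 61) (nat_lit 5) (nat_lit 66) (nat_lit 5) (nat_lit 67) (nat_lit 5) (nat_lit 340) (nat_lit 297) (nat_lit 227)) (XT.nd (nat_lit 94) (nat_lit 84) (nat_lit 0) (XT.lf (nat_lit 0) (nat_lit 1621202031) (nat_lit 336) (nat_lit 9730058749) (nat_lit 420) (nat_lit 1269238621) (nat_lit 57) (nat_lit 5) (nat_lit 61) (nat_lit 5) (nat_lit 62) (nat_lit 5) (nat_lit 341) (nat_lit 297) (nat_lit 226)) (XT.lf (nat_lit 0) (nat_lit 541007113) (nat_lit 420) (nat_lit 5978166243) (nat_lit 84) (nat_lit 6353599791) (nat_lit 56) (nat_lit 5) (nat_lit 61) (nat_lit 5) (nat_lit 57) (nat_lit 5) (nat_lit 342) (nat_lit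 297) (nat_lit 225))))) (XT.nd (nat_lit 282) (nat_lit 336) (nat_lit 0) (XT.nd (nat_lit 94) (nat_lit 336) (nat_lit 0) (XT.lf (nat_lit 0) (nat_lit 2357598929) (nat_lit 420) (nat_lit 843124581) (nat_lit 84) (nat_lit 9932538103) (nat_lit 56) (nat_lit 5) (nat_lit 61) (nat_lit 5) (nat_lit 57) (nat_lit 5) (nat_lit 343) (nat_lit 297) (nat_lit 224)) (XT.nd (nat_lit 94) (nat_lit 0) (nat_lit 0) (XT.lf (nat_lit 0) (nat_lit 4255178213) (nat_lit 420) (nat_lit 8889649355) (nat_lit 84) (nat_lit 256301704) (nat_lit 52) (nat_lit 5) (nat_lit 57) (nat_lit 5) (nat_lit 53) (nat_lit 5) (nat_lit 344) (nat_lit 297) (nat_lit 223)) (XT.lf (nat_lit 0) (nat_lit 6230862021) (nat_lit 420) (nat_lit 3688224015) (nat_lit 84) (nat_lit 3757683970) (nat_lit 52) (nat_lit 5) (nat_lit 57) (nat_lit 5) (nat_lit 53) (nat_lit 5) (nat_lit 345) (nat_lit 297) (nat_lit 222)))) (XT.nd (nat_lit 94) (nat_lit 0) (nat_lit 0) (XT.lf (nat_lit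 0) (nat_lit 1680841192) (nat_lit 336) (nat_lit 6581950101) (nat_lit 420) (nat_lit 5698384168) (nat_lit 48) (nat_lit 5) (nat_lit 52) (nat_lit 5) (nat_lit 53) (nat_lit 5) (nat_lit 346) (nat_lit 297) (nat_lit 221)) (XT.nd (nat_lit 94) (nat_lit 0) (nat_lit 0) (XT.lf (nat_lit 0) (nat_lit 7267344416) (nat_lit 336) (nat_lit 3107570543) (nat_lit 420) (nat_lit 3879012070) (nat_lit 48) (nat_lit 5) (nat_lit 52) (nat_lit 5) (nat_lit 53) (nat_lit 5) (nat_lit 347) (nat_lit 297) (nat_lit 220)) (XT.lf (nat_lit 0) (nat_lit 12536512274) (nat_lit 420) (nat_lit 1560450203) (nat_lit 84) (nat_lit 459348481) (nat_lit 48) (nat_lit 5) (nat_lit 53) (nat_lit 5) (nat_lit 49) (nat_lit 5) (nat_lit 348) (nat_lit 297) (nat_lit 219)))))) (XT.nd (nat_lit 470) (nat_lit 588) (nat_lit 0) (XT.nd (nat_lit 188) (nat_lit 252) (nat_lit 0) (XT.nd (nat_lit 94) (nat_lit 84) (nat_lit 0) (XT.lf (nat_lit 0) (nat_lit 4057655982) (nat_lit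 336) (nat_lit 10759411967) (nat_lit 420) (nat_lit 49449587) (nat_lit 44) (nat_lit 5) (nat_lit 48) (nat_lit 5) (nat_lit 49) (nat_lit 5) (nat_lit 349) (nat_lit 297) (nat_lit 218)) (XT.lf (nat_lit 0) (nat_lit 1938504102) (nat_lit 420) (nat_lit 5349066954) (nat_lit 84) (nat_lit 7898325469) (nat_lit 43) (nat_lit 5) (nat_lit 48) (nat_lit 5) (nat_lit 44) (nat_lit 5) (nat_lit 350) (nat_lit 297) (nat_lit 217))) (XT.nd (nat_lit 94) (nat_lit 0) (nat_lit 0) (XT.lf (nat_lit 0) (nat_lit 259082000) (nat_lit 252) (nat_lit 3711148371) (nat_lit 336) (nat_lit 11545505826) (nat_lit 40) (nat_lit 5) (nat_lit 43) (nat_lit 5) (nat_lit 44) (nat_lit 5) (nat_lit 351) (nat_lit 297) (nat_lit 216)) (XT.nd (nat_lit 94) (nat_lit 0) (nat_lit 0) (XT.lf (nat_lit 0) (nat_lit 6101980222) (nat_lit 336) (nat_lit 9725858602) (nat_lit 84) (nat_lit 26866192) (nat_lit 40) (nat_lit 5) (nat_lit 44) (nat_lit 5) (nat_lit 41) (nat_lit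 5) (nat_lit 352) (nat_lit 297) (nat_lit 215)) (XT.lf (nat_lit 0) (nat_lit 8319218159) (nat_lit 336) (nat_lit 4086719980) (nat_lit 84) (nat_lit 3797692998) (nat_lit 40) (nat_lit 5) (nat_lit 44) (nat_lit 5) (nat_lit 41) (nat_lit 5) (nat_lit 353) (nat_lit 297) (nat_lit 214))))) (XT.nd (nat_lit 282) (nat_lit 336) (nat_lit 0) (XT.nd (nat_lit 94) (nat_lit 0) (nat_lit 0) (XT.lf (nat_lit 0) (nat_lit 1737846728) (nat_lit 252) (nat_lit 8866588756) (nat_lit 336) (nat_lit 5959011147) (nat_lit 37) (nat_lit 5) (nat_lit 40) (nat_lit 5) (nat_lit 41) (nat_lit 5) (nat_lit 354) (nat_lit 297) (nat_lit 213)) (XT.nd (nat_lit 94) (nat_lit 0) (nat_lit 0) (XT.lf (nat_lit 0) (nat_lit 7805459387) (nat_lit 252) (nat_lit 5179998960) (nat_lit 336) (nat_lit 3948231956) (nat_lit 37) (nat_lit 5) (nat_lit 40) (nat_lit 5) (nat_lit 41) (nat_lit 5) (nat_lit 355) (nat_lit 297) (nat_lit 212)) (XT.lf (nat_lit 0) (nat_lit 14037742305)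 (nat_lit 252) (nat_lit 1385389440) (nat_lit 336) (nat_lit 1892858124) (nat_lit 37) (nat_lit 5) (nat_lit 40) (nat_lit 5) (nat_lit 41) (nat_lit 5) (nat_lit 356) (nat_lit 297) (nat_lit 211)))) (XT.nd (nat_lit 94) (nat_lit 0) (nat_lit 0) (XT.lf (nat_lit 0) (nat_lit 257740641) (nat_lit 336) (nat_lit 14951274271) (nat_lit 84) (nat_lit 2499981772) (nat_lit 33) (nat_lit 5) (nat_lit 37) (nat_lit 5) (nat_lit 34) (nat_lit 5) (nat_lit 357) (nat_lit 297) (nat_lit 210)) (XT.nd (nat_lit 94) (nat_lit 0) (nat_lit 0) (XT.lf (nat_lit 0) (nat_lit 2467784323) (nat_lit 336) (nat_lit 9120071514) (nat_lit 84) (nat_lit 6524778057) (nat_lit 33) (nat_lit 5) (nat_lit 37) (nat_lit 5) (nat_lit 34) (nat_lit 5) (nat_lit 358) (nat_lit 297) (nat_lit 209)) (XT.lf (nat_lit 0) (nat_lit 4730197790) (nat_lit 336) (nat_lit 3130770161) (nat_lit 84) (nat_lit 10668357308) (nat_lit 33) (nat_lit 5) (nat_lit 37) (nat_lit 5) (nat_lit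 34) (nat_lit 5) (nat_lit 359) (nat_lit 297) (nat_lit 208))))))))
noncomputable def xc62 : XT := (XT.nd (nat_lit 49068) (nat_lit 0) (nat_lit 6300) (XT.nd (nat_lit 940) (nat_lit 336) (nat_lit 0) (XT.nd (nat_lit 470) (nat_lit 336) (nat_lit 0) (XT.nd (nat_lit 188) (nat_lit 168) (nat_lit 0) (XT.nd (nat_lit 94) (nat_lit 0) (nat_lit 0) (XT.lf (nat_lit 0) (nat_lit 3084355329) (nat_lit 252) (nat_lit 3993331706) (nat_lit 336) (nat_lit 11880823633) (nat_lit 30) (nat_lit 5) (nat_lit 33) (nat_lit 5) (nat_lit 34) (nat_lit 5) (nat_lit 360) (nat_lit 297) (nat_lit 207)) (XT.lf (nat_lit 0) (nat_lit 9515439463) (nat_lit 336) (nat_lit 9863961488) (nat_lit 84) (nat_lit 21096236) (nat_lit 30) (nat_lit 5) (nat_lit 34) (nat_lit 5) (nat_lit 31) (nat_lit 5) (nat_lit 361) (nat_lit 297) (nat_lit 206))) (XT.nd (nat_lit 94) (nat_lit 168) (nat_lit 0) (XT.lf (nat_lit 0) (nat_lit 12054605086) (nat_lit 336) (nat_lit 3729843382)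 (nat_lit 84) (nat_lit 4070973116) (nat_lit 30) (nat_lit 5) (nat_lit 34) (nat_lit 5) (nat_lit 31) (nat_lit 5) (nat_lit 362) (nat_lit 297) (nat_lit 205)) (XT.nd (nat_lit 94) (nat_lit 0) (nat_lit 0) (XT.lf (nat_lit 0) (nat_lit 2626448039) (nat_lit 168) (nat_lit 12057542977) (nat_lit 252) (nat_lit 5640137229) (nat_lit 28) (nat_lit 5) (nat_lit 30) (nat_lit 5) (nat_lit 31) (nat_lit 5) (nat_lit 363) (nat_lit 297) (nat_lit 204)) (XT.lf (nat_lit 0) (nat_lit 9238165401) (nat_lit 168) (nat_lit 8181338105) (nat_lit 252) (nat_lit 3387133430) (nat_lit 28) (nat_lit 5) (nat_lit 30) (nat_lit 5) (nat_lit 31) (nat_lit 5) (nat_lit 364) (nat_lit 297) (nat_lit 203))))) (XT.nd (nat_lit 188) (nat_lit 0) (nat_lit 0) (XT.nd (nat_lit 94) (nat_lit 336) (nat_lit 0) (XT.lf (nat_lit 0) (nat_lit 16034778287) (nat_lit 168) (nat_lit 4191152739) (nat_lit 252) (nat_lit 1078636981) (nat_lit 28) (nat_lit 5) (nat_lit 30) (nat_lit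 5) (nat_lit 31) (nat_lit 5) (nat_lit 365) (nat_lit 297) (nat_lit 202)) (XT.lf (nat_lit 0) (nat_lit 1215963016) (nat_lit 252) (nat_lit 57663031) (nat_lit 336) (nat_lit 20543989660) (nat_lit 24) (nat_lit 5) (nat_lit 27) (nat_lit 5) (nat_lit 28) (nat_lit 5) (nat_lit 366) (nat_lit 297) (nat_lit 201))) (XT.nd (nat_lit 94) (nat_lit 0) (nat_lit 0) (XT.lf (nat_lit 0) (nat_lit 3760191919) (nat_lit 336) (nat_lit 14403633069) (nat_lit 84) (nat_lit 4179834623) (nat_lit 24) (nat_lit 5) (nat_lit 28) (nat_lit 5) (nat_lit 25) (nat_lit 5) (nat_lit 367) (nat_lit 297) (nat_lit 200)) (XT.nd (nat_lit 94) (nat_lit 0) (nat_lit 0) (XT.lf (nat_lit 0) (nat_lit 6311352805) (nat_lit 336) (nat_lit 8033427229) (nat_lit 84) (nat_lit 8541648212) (nat_lit 24) (nat_lit 5) (nat_lit 28) (nat_lit 5) (nat_lit 25) (nat_lit 5) (nat_lit 368) (nat_lit 297) (nat_lit 199)) (XT.lf (nat_lit 0) (nat_lit 8928914630) (nat_lit 336) (nat_lit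 1484525446) (nat_lit 84) (nat_lit 13033005183) (nat_lit 24) (nat_lit 5) (nat_lit 28) (nat_lit 5) (nat_lit 25) (nat_lit 5) (nat_lit 369) (nat_lit 297) (nat_lit 198)))))) (XT.nd (nat_lit 47564) (nat_lit 0) (nat_lit 12768) (XT.nd (nat_lit 188) (nat_lit 168) (nat_lit 0) (XT.nd (nat_lit 94) (nat_lit 0) (nat_lit 0) (XT.lf (nat_lit 0) (nat_lit 5357110376) (nat_lit 168) (nat_lit 6311350057) (nat_lit 252) (nat_lit 12354124773) (nat_lit 22) (nat_lit 5) (nat_lit 24) (nat_lit 5) (nat_lit 25) (nat_lit 5) (nat_lit 370) (nat_lit 297) (nat_lit 197)) (XT.lf (nat_lit 0) (nat_lit 12424276736) (nat_lit 168) (nat_lit 2072038257) (nat_lit 252) (nat_lit 10120193210) (nat_lit 22) (nat_lit 5) (nat_lit 24) (nat_lit 5) (nat_lit 25) (nat_lit 5) (nat_lit 371) (nat_lit 297) (nat_lit 196))) (XT.nd (nat_lit 94) (nat_lit 168) (nat_lit 0) (XT.lf (nat_lit 0) (nat_lit 17422831041) (nat_lit 252) (nat_lit 5558944037) (nat_lit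 84) (nat_lit 2246753545) (nat_lit 22) (nat_lit 5) (nat_lit 25) (nat_lit 5) (nat_lit 23) (nat_lit 5) (nat_lit 372) (nat_lit 297) (nat_lit 195)) (XT.nd (nat_lit 47188) (nat_lit 0) (nat_lit 13440) (XT.lf (nat_lit 0) (nat_lit 1267023667) (nat_lit 168) (nat_lit 19195356174) (nat_lit 252) (nat_lit 5396476146) (nat_lit 20) (nat_lit 5) (nat_lit 22) (nat_lit 5) (nat_lit 23) (nat_lit 5) (nat_lit 373) (nat_lit 297) (nat_lit 194)) (XT.lf (nat_lit 0) (nat_lit 701108507) (nat_lit 0) (nat_lit 701108507) (nat_lit 588) (nat_lit 2060467826) (nat_lit 180) (nat_lit 5) (nat_lit 180) (nat_lit 3) (nat_lit 187) (nat_lit 3) (nat_lit 298) (nat_lit 298) (nat_lit 268))))) (XT.nd (nat_lit 282) (nat_lit 0) (nat_lit 0) (XT.nd (nat_lit 94) (nat_lit 672) (nat_lit 0) (XT.lf (nat_lit 0) (nat_lit 4243221130) (nat_lit 0) (nat_lit 210002039) (nat_lit 588) (nat_lit 2521610289) (nat_lit 180) (nat_lit 5) (nat_lit 180) (nat_lit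 3) (nat_lit 187) (nat_lit 3) (nat_lit 299) (nat_lit 298) (nat_lit 267)) (XT.nd (nat_lit 94) (nat_lit 672) (nat_lit 0) (XT.lf (nat_lit 84) (nat_lit 103442829) (nat_lit 0) (nat_lit 5996452014) (nat_lit 672) (nat_lit 927912875) (nat_lit 181) (nat_lit 5) (nat_lit 180) (nat_lit 5) (nat_lit 188) (nat_lit 5) (nat_lit 300) (nat_lit 298) (nat_lit 266)) (XT.lf (nat_lit 0) (nat_lit 668004066) (nat_lit 672) (nat_lit 4043041494) (nat_lit 756) (nat_lit 2372482339) (nat_lit 172) (nat_lit 5) (nat_lit 180) (nat_lit 5) (nat_lit 181) (nat_lit 5) (nat_lit 301) (nat_lit 298) (nat_lit 265)))) (XT.nd (nat_lit 94) (nat_lit 0) (nat_lit 0) (XT.lf (nat_lit 0) (nat_lit 2232308157) (nat_lit 672) (nat_lit 1117057598) (nat_lit 756) (nat_lit 3793529962) (nat_lit 172) (nat_lit 5) (nat_lit 180) (nat_lit 5) (nat_lit 181) (nat_lit 5) (nat_lit 302) (nat_lit 298) (nat_lit 264)) (XT.nd (nat_lit 94) (nat_lit 0) (nat_lit 0) (XT.lf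 (nat_lit 84) (nat_lit 1903878030) (nat_lit 0) (nat_lit 1900161544) (nat_lit 756) (nat_lit 3401626805) (nat_lit 173) (nat_lit 5) (nat_lit 172) (nat_lit 5) (nat_lit 181) (nat_lit 5) (nat_lit 303) (nat_lit 298) (nat_lit 263)) (XT.lf (nat_lit 84) (nat_lit 5008376391) (nat_lit 0) (nat_lit 369292937) (nat_lit 756) (nat_lit 1894445878) (nat_lit 173) (nat_lit 5) (nat_lit 172) (nat_lit 5) (nat_lit 181) (nat_lit 5) (nat_lit 304) (nat_lit 298) (nat_lit 262))))))) (XT.nd (nat_lit 1034) (nat_lit 4284) (nat_lit 0) (XT.nd (nat_lit 470) (nat_lit 1512) (nat_lit 0) (XT.nd (nat_lit 188) (nat_lit 0) (nat_lit 0) (XT.nd (nat_lit 94) (nat_lit 756) (nat_lit 0) (XT.lf (nat_lit 84) (nat_lit 838367128) (nat_lit 0) (nat_lit 6125536163) (nat_lit 756) (nat_lit 378114434) (nat_lit 174) (nat_lit 5) (nat_lit 173) (nat_lit 5) (nat_lit 182) (nat_lit 5) (nat_lit 305) (nat_lit 298) (nat_lit 261)) (XT.lf (nat_lit 0) (nat_lit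 1133034331) (nat_lit 756) (nat_lit 3380575284) (nat_lit 840) (nat_lit 2901246836) (nat_lit 164) (nat_lit 5) (nat_lit 173) (nat_lit 5) (nat_lit 174) (nat_lit 5) (nat_lit 306) (nat_lit 298) (nat_lit 260))) (XT.nd (nat_lit 94) (nat_lit 0) (nat_lit 0) (XT.lf (nat_lit 0) (nat_lit 2628900084) (nat_lit 756) (nat_lit 199539985) (nat_lit 840) (nat_lit 4663324151) (nat_lit 164) (nat_lit 5) (nat_lit 173) (nat_lit 5) (nat_lit 174) (nat_lit 5) (nat_lit 307) (nat_lit 298) (nat_lit 259)) (XT.nd (nat_lit 94) (nat_lit 0) (nat_lit 84) (XT.lf (nat_lit 84) (nat_lit 3108806829) (nat_lit 0) (nat_lit 1040528211) (nat_lit 840) (nat_lit 3422637925) (nat_lit 165) (nat_lit 5) (nat_lit 164) (nat_lit 5) (nat_lit 174) (nat_lit 5) (nat_lit 308) (nat_lit 298) (nat_lit 258)) (XT.lf (nat_lit 0) (nat_lit 5675755334) (nat_lit 756) (nat_lit 1174242344) (nat_lit 840) (nat_lit 806179805) (nat_lit 165) (nat_lit 5) (nat_lit 174)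 (nat_lit 5) (nat_lit 175) (nat_lit 5) (nat_lit 309) (nat_lit 298) (nat_lit 257))))) (XT.nd (nat_lit 282) (nat_lit 756) (nat_lit 0) (XT.nd (nat_lit 94) (nat_lit 840) (nat_lit 0) (XT.lf (nat_lit 84) (nat_lit 2216120108) (nat_lit 0) (nat_lit 5016324654) (nat_lit 840) (nat_lit 511302806) (nat_lit 166) (nat_lit 5) (nat_lit 165) (nat_lit 5) (nat_lit 175) (nat_lit 5) (nat_lit 310) (nat_lit 298) (nat_lit 256)) (XT.nd (nat_lit 94) (nat_lit 0) (nat_lit 0) (XT.lf (nat_lit 0) (nat_lit 946292515) (nat_lit 840) (nat_lit 2142655812) (nat_lit 924) (nat_lit 4746131087) (nat_lit 155) (nat_lit 5) (nat_lit 165) (nat_lit 5) (nat_lit 166) (nat_lit 5) (nat_lit 311) (nat_lit 298) (nat_lit 255)) (XT.lf (nat_lit 84) (nat_lit 1334571884) (nat_lit 0) (nat_lit 1069366600) (nat_lit 924) (nat_lit 5526418722) (nat_lit 156) (nat_lit 5) (nat_lit 155) (nat_lit 5) (nat_lit 166) (nat_lit 5) (nat_lit 312) (nat_lit 298) (nat_lit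 254)))) (XT.nd (nat_lit 94) (nat_lit 840) (nat_lit 0) (XT.lf (nat_lit 0) (nat_lit 3892883792) (nat_lit 840) (nat_lit 3108916748) (nat_lit 84) (nat_lit 1027419210) (nat_lit 156) (nat_lit 5) (nat_lit 166) (nat_lit 5) (nat_lit 157) (nat_lit 5) (nat_lit 313) (nat_lit 298) (nat_lit 253)) (XT.nd (nat_lit 94) (nat_lit 0) (nat_lit 0) (XT.lf (nat_lit 0) (nat_lit 449476688) (nat_lit 840) (nat_lit 4948776026) (nat_lit 924) (nat_lit 2734010656) (nat_lit 146) (nat_lit 5) (nat_lit 156) (nat_lit 5) (nat_lit 157) (nat_lit 5) (nat_lit 314) (nat_lit 298) (nat_lit 252)) (XT.lf (nat_lit 0) (nat_lit 4149751985) (nat_lit 840) (nat_lit 2788873480) (nat_lit 924) (nat_lit 1300426157) (nat_lit 146) (nat_lit 5) (nat_lit 156) (nat_lit 5) (nat_lit 157) (nat_lit 5) (nat_lit 315) (nat_lit 298) (nat_lit 251)))))) (XT.nd (nat_lit 470) (nat_lit 2268) (nat_lit 0) (XT.nd (nat_lit 188) (nat_lit 1008) (nat_lit 0) (XT.nd (nat_lit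 94) (nat_lit 924) (nat_lit 0) (XT.lf (nat_lit 0) (nat_lit 130617315) (nat_lit 924) (nat_lit 420549671) (nat_lit 84) (nat_lit 7799451790) (nat_lit 145) (nat_lit 5) (nat_lit 156) (nat_lit 5) (nat_lit 146) (nat_lit 5) (nat_lit 316) (nat_lit 298) (nat_lit 250)) (XT.lf (nat_lit 0) (nat_lit 1588460758) (nat_lit 1008) (nat_lit 5100193429) (nat_lit 84) (nat_lit 1776457270) (nat_lit 134) (nat_lit 5) (nat_lit 146) (nat_lit 5) (nat_lit 135) (nat_lit 5) (nat_lit 317) (nat_lit 298) (nat_lit 249))) (XT.nd (nat_lit 94) (nat_lit 1008) (nat_lit 0) (XT.lf (nat_lit 0) (nat_lit 3060489581) (nat_lit 1008) (nat_lit 1346574952) (nat_lit 84) (nat_lit 4177217163) (nat_lit 134) (nat_lit 5) (nat_lit 146) (nat_lit 5) (nat_lit 135) (nat_lit 5) (nat_lit 318) (nat_lit 298) (nat_lit 248)) (XT.nd (nat_lit 94) (nat_lit 0) (nat_lit 0) (XT.lf (nat_lit 0) (nat_lit 2541115396) (nat_lit 1008) (nat_lit 2022399770) (nat_lit 1092)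 (nat_lit 4144246786) (nat_lit 122) (nat_lit 5) (nat_lit 134) (nat_lit 5) (nat_lit 135) (nat_lit 5) (nat_lit 319) (nat_lit 298) (nat_lit 247)) (XT.lf (nat_lit 0) (nat_lit 6092743515) (nat_lit 1092) (nat_lit 2295806608) (nat_lit 84) (nat_lit 447309247) (nat_lit 122) (nat_lit 5) (nat_lit 135) (nat_lit 5) (nat_lit 123) (nat_lit 5) (nat_lit 320) (nat_lit 298) (nat_lit 246))))) (XT.nd (nat_lit 282) (nat_lit 588) (nat_lit 0) (XT.nd (nat_lit 94) (nat_lit 588) (nat_lit 0) (XT.lf (nat_lit 0) (nat_lit 1674550720) (nat_lit 1092) (nat_lit 5994376204) (nat_lit 1176) (nat_lit 1299167287) (nat_lit 109) (nat_lit 5) (nat_lit 122) (nat_lit 5) (nat_lit 123) (nat_lit 5) (nat_lit 321) (nat_lit 298) (nat_lit 245)) (XT.nd (nat_lit 94) (nat_lit 504) (nat_lit 0) (XT.lf (nat_lit 0) (nat_lit 172469256) (nat_lit 1176) (nat_lit 3323258811) (nat_lit 84) (nat_lit 5609196293) (nat_lit 108) (nat_lit 5) (nat_lit 122) (nat_lit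 5) (nat_lit 109) (nat_lit 5) (nat_lit 322) (nat_lit 298) (nat_lit 244)) (XT.lf (nat_lit 0) (nat_lit 738617306) (nat_lit 504) (nat_lit 895111959) (nat_lit 588) (nat_lit 7612893480) (nat_lit 102) (nat_lit 5) (nat_lit 108) (nat_lit 5) (nat_lit 109) (nat_lit 5) (nat_lit 323) (nat_lit 298) (nat_lit 243)))) (XT.nd (nat_lit 94) (nat_lit 588) (nat_lit 0) (XT.lf (nat_lit 0) (nat_lit 3157507755) (nat_lit 588) (nat_lit 4446860980) (nat_lit 84) (nat_lit 1787946143) (nat_lit 102) (nat_lit 5) (nat_lit 109) (nat_lit 5) (nat_lit 103) (nat_lit 5) (nat_lit 324) (nat_lit 298) (nat_lit 242)) (XT.nd (nat_lit 94) (nat_lit 588) (nat_lit 0) (XT.lf (nat_lit 0) (nat_lit 4703205014) (nat_lit 588) (nat_lit 301965373) (nat_lit 84) (nat_lit 4538268797) (nat_lit 102) (nat_lit 5) (nat_lit 109) (nat_lit 5) (nat_lit 103) (nat_lit 5) (nat_lit 325) (nat_lit 298) (nat_lit 241)) (XT.lf (nat_lit 0) (nat_lit 4020427127) (nat_lit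 588) (nat_lit 2282838179) (nat_lit 672) (nat_lit 3395910109) (nat_lit 95) (nat_lit 5) (nat_lit 102) (nat_lit 5) (nat_lit 103) (nat_lit 5) (nat_lit 326) (nat_lit 298) (nat_lit 240))))))))
noncomputable def xc63 : XT := (XT.nd (nat_lit 1974) (nat_lit 2016) (nat_lit 0) (XT.nd (nat_lit 940) (nat_lit 1932) (nat_lit 0) (XT.nd (nat_lit 470) (nat_lit 924) (nat_lit 0) (XT.nd (nat_lit 188) (nat_lit 588) (nat_lit 0) (XT.nd (nat_lit 94) (nat_lit 504) (nat_lit 0) (XT.lf (nat_lit 0) (nat_lit 7928573705) (nat_lit 672) (nat_lit 1414478125) (nat_lit 84) (nat_lit 517565702) (nat_lit 95) (nat_lit 5) (nat_lit 103) (nat_lit 5) (nat_lit 96) (nat_lit 5) (nat_lit 327) (nat_lit 298) (nat_lit 239)) (XT.lf (nat_lit 0) (nat_lit 2986981864) (nat_lit 504) (nat_lit 6638513448) (nat_lit 588) (nat_lit 401030349) (nat_lit 89) (nat_lit 5) (nat_lit 95) (nat_lit 5) (nat_lit 96) (nat_lit 5) (nat_lit 328) (nat_lit 298) (nat_lit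 238))) (XT.nd (nat_lit 94) (nat_lit 504) (nat_lit 0) (XT.lf (nat_lit 0) (nat_lit 1137096692) (nat_lit 588) (nat_lit 2686351403) (nat_lit 84) (nat_lit 6374394451) (nat_lit 88) (nat_lit 5) (nat_lit 95) (nat_lit 5) (nat_lit 89) (nat_lit 5) (nat_lit 329) (nat_lit 298) (nat_lit 237)) (XT.nd (nat_lit 94) (nat_lit 0) (nat_lit 0) (XT.lf (nat_lit 0) (nat_lit 1802705202) (nat_lit 504) (nat_lit 899161308) (nat_lit 588) (nat_lit 7672979513) (nat_lit 82) (nat_lit 5) (nat_lit 88) (nat_lit 5) (nat_lit 89) (nat_lit 5) (nat_lit 330) (nat_lit 298) (nat_lit 236)) (XT.lf (nat_lit 0) (nat_lit 4334470331) (nat_lit 588) (nat_lit 4121882899) (nat_lit 84) (nat_lit 2100489938) (nat_lit 82) (nat_lit 5) (nat_lit 89) (nat_lit 5) (nat_lit 83) (nat_lit 5) (nat_lit 331) (nat_lit 298) (nat_lit 235))))) (XT.nd (nat_lit 188) (nat_lit 504) (nat_lit 0) (XT.nd (nat_lit 94) (nat_lit 0) (nat_lit 0) (XT.lf (nat_lit 0) (nat_lit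 434848706) (nat_lit 420) (nat_lit 5567258512) (nat_lit 504) (nat_lit 4742960404) (nat_lit 77) (nat_lit 5) (nat_lit 82) (nat_lit 5) (nat_lit 83) (nat_lit 5) (nat_lit 332) (nat_lit 298) (nat_lit 234)) (XT.lf (nat_lit 0) (nat_lit 5189485851) (nat_lit 420) (nat_lit 2546461007) (nat_lit 504) (nat_lit 3202829903) (nat_lit 77) (nat_lit 5) (nat_lit 82) (nat_lit 5) (nat_lit 83) (nat_lit 5) (nat_lit 333) (nat_lit 298) (nat_lit 233))) (XT.nd (nat_lit 94) (nat_lit 504) (nat_lit 0) (XT.lf (nat_lit 0) (nat_lit 9501488118) (nat_lit 504) (nat_lit 1083351906) (nat_lit 84) (nat_lit 554430748) (nat_lit 77) (nat_lit 5) (nat_lit 83) (nat_lit 5) (nat_lit 78) (nat_lit 5) (nat_lit 334) (nat_lit 298) (nat_lit 232)) (XT.nd (nat_lit 94) (nat_lit 0) (nat_lit 0) (XT.lf (nat_lit 0) (nat_lit 12913390) (nat_lit 504) (nat_lit 7598218254) (nat_lit 84) (nat_lit 3733810637) (nat_lit 71) (nat_lit 5) (nat_lit 77) (nat_lit 5)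 (nat_lit 72) (nat_lit 5) (nat_lit 335) (nat_lit 298) (nat_lit 231)) (XT.lf (nat_lit 0) (nat_lit 1665490791) (nat_lit 504) (nat_lit 2854160471) (nat_lit 84) (nat_lit 7037380414) (nat_lit 71) (nat_lit 5) (nat_lit 77) (nat_lit 5) (nat_lit 72) (nat_lit 5) (nat_lit 336) (nat_lit 298) (nat_lit 230)))))) (XT.nd (nat_lit 470) (nat_lit 1092) (nat_lit 0) (XT.nd (nat_lit 188) (nat_lit 420) (nat_lit 0) (XT.nd (nat_lit 94) (nat_lit 0) (nat_lit 0) (XT.lf (nat_lit 0) (nat_lit 2048998623) (nat_lit 420) (nat_lit 1314735151) (nat_lit 504) (nat_lit 8412219902) (nat_lit 66) (nat_lit 5) (nat_lit 71) (nat_lit 5) (nat_lit 72) (nat_lit 5) (nat_lit 337) (nat_lit 298) (nat_lit 229)) (XT.lf (nat_lit 0) (nat_lit 5139020391) (nat_lit 504) (nat_lit 4885903531) (nat_lit 84) (nat_lit 1976064763) (nat_lit 66) (nat_lit 5) (nat_lit 72) (nat_lit 5) (nat_lit 67) (nat_lit 5) (nat_lit 338) (nat_lit 298) (nat_lit 228))) (XT.nd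 (nat_lit 94) (nat_lit 0) (nat_lit 0) (XT.lf (nat_lit 0) (nat_lit 64176504) (nat_lit 420) (nat_lit 6894577845) (nat_lit 504) (nat_lit 5274653896) (nat_lit 61) (nat_lit 5) (nat_lit 66) (nat_lit 5) (nat_lit 67) (nat_lit 5) (nat_lit 339) (nat_lit 298) (nat_lit 227)) (XT.nd (nat_lit 94) (nat_lit 0) (nat_lit 0) (XT.lf (nat_lit 0) (nat_lit 5242689652) (nat_lit 420) (nat_lit 3618997467) (nat_lit 504) (nat_lit 3610593165) (nat_lit 61) (nat_lit 5) (nat_lit 66) (nat_lit 5) (nat_lit 67) (nat_lit 5) (nat_lit 340) (nat_lit 298) (nat_lit 226)) (XT.lf (nat_lit 0) (nat_lit 10553998630) (nat_lit 420) (nat_lit 246128415) (nat_lit 504) (nat_lit 1919233833) (nat_lit 61) (nat_lit 5) (nat_lit 66) (nat_lit 5) (nat_lit 67) (nat_lit 5) (nat_lit 341) (nat_lit 298) (nat_lit 225))))) (XT.nd (nat_lit 282) (nat_lit 336) (nat_lit 0) (XT.nd (nat_lit 94) (nat_lit 420) (nat_lit 0) (XT.lf (nat_lit 0) (nat_lit 3057767034) (nat_lit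 336) (nat_lit 9780461308) (nat_lit 420) (nat_lit 134719223) (nat_lit 57) (nat_lit 5) (nat_lit 61) (nat_lit 5) (nat_lit 62) (nat_lit 5) (nat_lit 342) (nat_lit 298) (nat_lit 224)) (XT.nd (nat_lit 94) (nat_lit 336) (nat_lit 0) (XT.lf (nat_lit 0) (nat_lit 1673408804) (nat_lit 420) (nat_lit 4792538705) (nat_lit 84) (nat_lit 6767910404) (nat_lit 56) (nat_lit 5) (nat_lit 61) (nat_lit 5) (nat_lit 57) (nat_lit 5) (nat_lit 343) (nat_lit 298) (nat_lit 223)) (XT.lf (nat_lit 0) (nat_lit 469935805) (nat_lit 336) (nat_lit 3047496323) (nat_lit 420) (nat_lit 9985986592) (nat_lit 52) (nat_lit 5) (nat_lit 56) (nat_lit 5) (nat_lit 57) (nat_lit 5) (nat_lit 344) (nat_lit 298) (nat_lit 222)))) (XT.nd (nat_lit 94) (nat_lit 336) (nat_lit 0) (XT.lf (nat_lit 0) (nat_lit 5452212369) (nat_lit 420) (nat_lit 7815351156) (nat_lit 84) (nat_lit 512795863) (nat_lit 52) (nat_lit 5) (nat_lit 57) (nat_lit 5) (nat_lit 53) (nat_lit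 5) (nat_lit 345) (nat_lit 298) (nat_lit 221)) (XT.nd (nat_lit 94) (nat_lit 336) (nat_lit 0) (XT.lf (nat_lit 0) (nat_lit 7457116348) (nat_lit 420) (nat_lit 2493269601) (nat_lit 84) (nat_lit 4115247640) (nat_lit 52) (nat_lit 5) (nat_lit 57) (nat_lit 5) (nat_lit 53) (nat_lit 5) (nat_lit 346) (nat_lit 298) (nat_lit 220)) (XT.lf (nat_lit 0) (nat_lit 3028981249) (nat_lit 336) (nat_lit 6504847927) (nat_lit 420) (nat_lit 4825683750) (nat_lit 48) (nat_lit 5) (nat_lit 52) (nat_lit 5) (nat_lit 53) (nat_lit 5) (nat_lit 347) (nat_lit 298) (nat_lit 219))))))) (XT.nd (nat_lit 1034) (nat_lit 756) (nat_lit 0) (XT.nd (nat_lit 470) (nat_lit 588) (nat_lit 0) (XT.nd (nat_lit 188) (nat_lit 672) (nat_lit 0) (XT.nd (nat_lit 94) (nat_lit 0) (nat_lit 0) (XT.lf (nat_lit 0) (nat_lit 8749697059) (nat_lit 336) (nat_lit 2931215969) (nat_lit 420) (nat_lit 2981462872) (nat_lit 48) (nat_lit 5) (nat_lit 52) (nat_lit 5) (nat_lit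 53) (nat_lit 5) (nat_lit 348) (nat_lit 298) (nat_lit 218)) (XT.lf (nat_lit 0) (nat_lit 13882545529) (nat_lit 420) (nat_lit 359762354) (nat_lit 84) (nat_lit 732749467) (nat_lit 48) (nat_lit 5) (nat_lit 53) (nat_lit 5) (nat_lit 49) (nat_lit 5) (nat_lit 349) (nat_lit 298) (nat_lit 217))) (XT.nd (nat_lit 94) (nat_lit 252) (nat_lit 0) (XT.lf (nat_lit 0) (nat_lit 903227293) (nat_lit 420) (nat_lit 9884762160) (nat_lit 84) (nat_lit 4507204360) (nat_lit 43) (nat_lit 5) (nat_lit 48) (nat_lit 5) (nat_lit 44) (nat_lit 5) (nat_lit 350) (nat_lit 298) (nat_lit 216)) (XT.nd (nat_lit 94) (nat_lit 252) (nat_lit 0) (XT.lf (nat_lit 0) (nat_lit 2923120167) (nat_lit 420) (nat_lit 4294065187) (nat_lit 84) (nat_lit 8408240747) (nat_lit 43) (nat_lit 5) (nat_lit 48) (nat_lit 5) (nat_lit 44) (nat_lit 5) (nat_lit 351) (nat_lit 298) (nat_lit 215)) (XT.lf (nat_lit 0) (nat_lit 1475576649) (nat_lit 252) (nat_lit 3526442961)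 (nat_lit 336) (nat_lit 10964038679) (nat_lit 40) (nat_lit 5) (nat_lit 43) (nat_lit 5) (nat_lit 44) (nat_lit 5) (nat_lit 352) (nat_lit 298) (nat_lit 214))))) (XT.nd (nat_lit 282) (nat_lit 336) (nat_lit 0) (XT.nd (nat_lit 94) (nat_lit 252) (nat_lit 0) (XT.lf (nat_lit 0) (nat_lit 7175414805) (nat_lit 336) (nat_lit 8828373536) (nat_lit 84) (nat_lit 312579446) (nat_lit 40) (nat_lit 5) (nat_lit 44) (nat_lit 5) (nat_lit 41) (nat_lit 5) (nat_lit 353) (nat_lit 298) (nat_lit 213)) (XT.nd (nat_lit 94) (nat_lit 252) (nat_lit 0) (XT.lf (nat_lit 0) (nat_lit 9434798884) (nat_lit 336) (nat_lit 3050472622) (nat_lit 84) (nat_lit 4191736129) (nat_lit 40) (nat_lit 5) (nat_lit 44) (nat_lit 5) (nat_lit 41) (nat_lit 5) (nat_lit 354) (nat_lit 298) (nat_lit 212)) (XT.lf (nat_lit 0) (nat_lit 2942881974) (nat_lit 252) (nat_lit 8833606859) (nat_lit 336) (nat_lit 5272004613) (nat_lit 37) (nat_lit 5) (nat_lit 40) (nat_lit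 5) (nat_lit 41) (nat_lit 5) (nat_lit 355) (nat_lit 298) (nat_lit 211)))) (XT.nd (nat_lit 94) (nat_lit 336) (nat_lit 0) (XT.lf (nat_lit 0) (nat_lit 9163977608) (nat_lit 252) (nat_lit 5041989066) (nat_lit 336) (nat_lit 3225102531) (nat_lit 37) (nat_lit 5) (nat_lit 40) (nat_lit 5) (nat_lit 41) (nat_lit 5) (nat_lit 356) (nat_lit 298) (nat_lit 210)) (XT.nd (nat_lit 94) (nat_lit 336) (nat_lit 0) (XT.lf (nat_lit 0) (nat_lit 15555889017) (nat_lit 252) (nat_lit 1138724619) (nat_lit 336) (nat_lit 1131435255) (nat_lit 37) (nat_lit 5) (nat_lit 40) (nat_lit 5) (nat_lit 41) (nat_lit 5) (nat_lit 357) (nat_lit 298) (nat_lit 209)) (XT.lf (nat_lit 0) (nat_lit 1058942043) (nat_lit 336) (nat_lit 14300803648) (nat_lit 84) (nat_lit 2871624877) (nat_lit 33) (nat_lit 5) (nat_lit 37) (nat_lit 5) (nat_lit 34) (nat_lit 5) (nat_lit 358) (nat_lit 298) (nat_lit 208)))))) (XT.nd (nat_lit 470) (nat_lit 504) (nat_lit 0)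 (XT.nd (nat_lit 188) (nat_lit 252) (nat_lit 0) (XT.nd (nat_lit 94) (nat_lit 0) (nat_lit 0) (XT.lf (nat_lit 0) (nat_lit 3313646881) (nat_lit 336) (nat_lit 8322328041) (nat_lit 84) (nat_lit 7012345566) (nat_lit 33) (nat_lit 5) (nat_lit 37) (nat_lit 5) (nat_lit 34) (nat_lit 5) (nat_lit 359) (nat_lit 298) (nat_lit 207)) (XT.lf (nat_lit 0) (nat_lit 5623062092) (nat_lit 336) (nat_lit 2179845675) (nat_lit 84) (nat_lit 11275797422) (nat_lit 33) (nat_lit 5) (nat_lit 37) (nat_lit 5) (nat_lit 34) (nat_lit 5) (nat_lit 360) (nat_lit 298) (nat_lit 206))) (XT.nd (nat_lit 94) (nat_lit 0) (nat_lit 0) (XT.lf (nat_lit 0) (nat_lit 4217338865) (nat_lit 252) (nat_lit 3813837952) (nat_lit 336) (nat_lit 11490452088) (nat_lit 30) (nat_lit 5) (nat_lit 33) (nat_lit 5) (nat_lit 34) (nat_lit 5) (nat_lit 361) (nat_lit 298) (nat_lit 205)) (XT.nd (nat_lit 94) (nat_lit 0) (nat_lit 0) (XT.lf (nat_lit 0) (nat_lit 10525345467)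 (nat_lit 336) (nat_lit 9142629386) (nat_lit 84) (nat_lit 309991227) (nat_lit 30) (nat_lit 5) (nat_lit 34) (nat_lit 5) (nat_lit 31) (nat_lit 5) (nat_lit 362) (nat_lit 298) (nat_lit 204)) (XT.lf (nat_lit 0) (nat_lit 13121728862) (nat_lit 336) (nat_lit 2849236802) (nat_lit 84) (nat_lit 4476747490) (nat_lit 30) (nat_lit 5) (nat_lit 34) (nat_lit 5) (nat_lit 31) (nat_lit 5) (nat_lit 363) (nat_lit 298) (nat_lit 203))))) (XT.nd (nat_lit 282) (nat_lit 336) (nat_lit 0) (XT.nd (nat_lit 94) (nat_lit 0) (nat_lit 0) (XT.lf (nat_lit 0) (nat_lit 3694013701) (nat_lit 168) (nat_lit 12127544732) (nat_lit 252) (nat_lit 5109786397) (nat_lit 28) (nat_lit 5) (nat_lit 30) (nat_lit 5) (nat_lit 31) (nat_lit 5) (nat_lit 364) (nat_lit 298) (nat_lit 202)) (XT.nd (nat_lit 94) (nat_lit 0) (nat_lit 0) (XT.lf (nat_lit 0) (nat_lit 10481042973) (nat_lit 168) (nat_lit 8140311597) (nat_lit 252) (nat_lit 2808143212) (nat_lit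 28) (nat_lit 5) (nat_lit 30) (nat_lit 5) (nat_lit 31) (nat_lit 5) (nat_lit 365) (nat_lit 298) (nat_lit 201)) (XT.lf (nat_lit 0) (nat_lit 17459591085) (nat_lit 168) (nat_lit 4035289929) (nat_lit 252) (nat_lit 448649554) (nat_lit 28) (nat_lit 5) (nat_lit 30) (nat_lit 5) (nat_lit 31) (nat_lit 5) (nat_lit 366) (nat_lit 298) (nat_lit 200)))) (XT.nd (nat_lit 94) (nat_lit 0) (nat_lit 0) (XT.lf (nat_lit 0) (nat_lit 1955197568) (nat_lit 336) (nat_lit 20288216738) (nat_lit 84) (nat_lit 229157517) (nat_lit 24) (nat_lit 5) (nat_lit 28) (nat_lit 5) (nat_lit 25) (nat_lit 5) (nat_lit 367) (nat_lit 298) (nat_lit 199)) (XT.nd (nat_lit 94) (nat_lit 0) (nat_lit 0) (XT.lf (nat_lit 0) (nat_lit 4500112739) (nat_lit 336) (nat_lit 13927257790) (nat_lit 84) (nat_lit 4588177980) (nat_lit 24) (nat_lit 5) (nat_lit 28) (nat_lit 5) (nat_lit 25) (nat_lit 5) (nat_lit 368) (nat_lit 298) (nat_lit 198)) (XT.lf (nat_lit 0)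 (nat_lit 7111616643) (nat_lit 336) (nat_lit 7387324865) (nat_lit 84) (nat_lit 9076825809) (nat_lit 24) (nat_lit 5) (nat_lit 28) (nat_lit 5) (nat_lit 25) (nat_lit 5) (nat_lit 369) (nat_lit 298) (nat_lit 197))))))))
noncomputable def xc64 : XT := (XT.nd (nat_lit 49162) (nat_lit 0) (nat_lit 4116) (XT.nd (nat_lit 48128) (nat_lit 0) (nat_lit 10416) (XT.nd (nat_lit 47658) (nat_lit 0) (nat_lit 12516) (XT.nd (nat_lit 188) (nat_lit 0) (nat_lit 0) (XT.nd (nat_lit 94) (nat_lit 168) (nat_lit 0) (XT.lf (nat_lit 0) (nat_lit 9792143477) (nat_lit 336) (nat_lit 662322061) (nat_lit 84) (nat_lit 13699284893) (nat_lit 24) (nat_lit 5) (nat_lit 28) (nat_lit 5) (nat_lit 25) (nat_lit 5) (nat_lit 370) (nat_lit 298) (nat_lit 196)) (XT.lf (nat_lit 0) (nat_lit 6382614487) (nat_lit 168) (nat_lit 6224893611) (nat_lit 252) (nat_lit 12140565687) (nat_lit 22) (nat_lit 5) (nat_lit 24) (nat_lit 5) (nat_lit 25) (nat_lit 5)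 (nat_lit 371) (nat_lit 298) (nat_lit 195))) (XT.nd (nat_lit 94) (nat_lit 0) (nat_lit 0) (XT.lf (nat_lit 0) (nat_lit 13643021642) (nat_lit 168) (nat_lit 1862645548) (nat_lit 252) (nat_lit 9855318856) (nat_lit 22) (nat_lit 5) (nat_lit 24) (nat_lit 5) (nat_lit 25) (nat_lit 5) (nat_lit 372) (nat_lit 298) (nat_lit 194)) (XT.nd (nat_lit 47282) (nat_lit 0) (nat_lit 13272) (XT.lf (nat_lit 0) (nat_lit 18508701010) (nat_lit 252) (nat_lit 4907302499) (nat_lit 84) (nat_lit 2576454256) (nat_lit 22) (nat_lit 5) (nat_lit 25) (nat_lit 5) (nat_lit 23) (nat_lit 5) (nat_lit 373) (nat_lit 298) (nat_lit 193)) (XT.lf (nat_lit 0) (nat_lit 1517540589) (nat_lit 0) (nat_lit 1517540589) (nat_lit 588) (nat_lit 477641610) (nat_lit 180) (nat_lit 5) (nat_lit 180) (nat_lit 3) (nat_lit 187) (nat_lit 3) (nat_lit 299) (nat_lit 299) (nat_lit 266))))) (XT.nd (nat_lit 188) (nat_lit 0) (nat_lit 84) (XT.nd (nat_lit 94) (nat_lit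 0) (nat_lit 0) (XT.lf (nat_lit 0) (nat_lit 582615803) (nat_lit 756) (nat_lit 1169420646) (nat_lit 756) (nat_lit 5327669528) (nat_lit 171) (nat_lit 3) (nat_lit 180) (nat_lit 3) (nat_lit 180) (nat_lit 5) (nat_lit 300) (nat_lit 299) (nat_lit 265)) (XT.lf (nat_lit 84) (nat_lit 1732103553) (nat_lit 0) (nat_lit 371645801) (nat_lit 756) (nat_lit 5033277080) (nat_lit 172) (nat_lit 5) (nat_lit 171) (nat_lit 3) (nat_lit 180) (nat_lit 5) (nat_lit 301) (nat_lit 299) (nat_lit 264))) (XT.nd (nat_lit 94) (nat_lit 0) (nat_lit 0) (XT.lf (nat_lit 0) (nat_lit 3634847813) (nat_lit 672) (nat_lit 2492048209) (nat_lit 756) (nat_lit 1070670093) (nat_lit 172) (nat_lit 5) (nat_lit 180) (nat_lit 5) (nat_lit 181) (nat_lit 5) (nat_lit 302) (nat_lit 299) (nat_lit 263)) (XT.nd (nat_lit 94) (nat_lit 0) (nat_lit 0) (XT.lf (nat_lit 84) (nat_lit 483988841) (nat_lit 0) (nat_lit 4679873621) (nat_lit 756) (nat_lit 2097936737)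 (nat_lit 173) (nat_lit 5) (nat_lit 172) (nat_lit 5) (nat_lit 181) (nat_lit 5) (nat_lit 303) (nat_lit 299) (nat_lit 262)) (XT.lf (nat_lit 84) (nat_lit 3572361158) (nat_lit 0) (nat_lit 3137200677) (nat_lit 756) (nat_lit 619686080) (nat_lit 173) (nat_lit 5) (nat_lit 172) (nat_lit 5) (nat_lit 181) (nat_lit 5) (nat_lit 304) (nat_lit 299) (nat_lit 261)))))) (XT.nd (nat_lit 470) (nat_lit 1428) (nat_lit 0) (XT.nd (nat_lit 188) (nat_lit 0) (nat_lit 84) (XT.nd (nat_lit 94) (nat_lit 0) (nat_lit 84) (XT.lf (nat_lit 0) (nat_lit 830326465) (nat_lit 756) (nat_lit 684457759) (nat_lit 840) (nat_lit 5885712436) (nat_lit 163) (nat_lit 5) (nat_lit 172) (nat_lit 5) (nat_lit 173) (nat_lit 5) (nat_lit 305) (nat_lit 299) (nat_lit 260)) (XT.lf (nat_lit 0) (nat_lit 2285106884) (nat_lit 756) (nat_lit 4982048045) (nat_lit 840) (nat_lit 207697749) (nat_lit 164) (nat_lit 5) (nat_lit 173) (nat_lit 5) (nat_lit 174) (nat_lit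 5) (nat_lit 306) (nat_lit 299) (nat_lit 259))) (XT.nd (nat_lit 94) (nat_lit 0) (nat_lit 0) (XT.lf (nat_lit 0) (nat_lit 3755053197) (nat_lit 756) (nat_lit 1817721809) (nat_lit 840) (nat_lit 1979907582) (nat_lit 164) (nat_lit 5) (nat_lit 173) (nat_lit 5) (nat_lit 174) (nat_lit 5) (nat_lit 307) (nat_lit 299) (nat_lit 258)) (XT.nd (nat_lit 94) (nat_lit 0) (nat_lit 0) (XT.lf (nat_lit 84) (nat_lit 1440811969) (nat_lit 0) (nat_lit 3792989370) (nat_lit 840) (nat_lit 2400497356) (nat_lit 165) (nat_lit 5) (nat_lit 164) (nat_lit 5) (nat_lit 174) (nat_lit 5) (nat_lit 308) (nat_lit 299) (nat_lit 257)) (XT.lf (nat_lit 84) (nat_lit 4806312564) (nat_lit 0) (nat_lit 1921203890) (nat_lit 840) (nat_lit 992112229) (nat_lit 165) (nat_lit 5) (nat_lit 164) (nat_lit 5) (nat_lit 174) (nat_lit 5) (nat_lit 309) (nat_lit 299) (nat_lit 256))))) (XT.nd (nat_lit 282) (nat_lit 756) (nat_lit 0) (XT.nd (nat_lit 94) (nat_lit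 0) (nat_lit 0) (XT.lf (nat_lit 0) (nat_lit 406310349) (nat_lit 840) (nat_lit 7369381181) (nat_lit 924) (nat_lit 33359218) (nat_lit 155) (nat_lit 5) (nat_lit 165) (nat_lit 5) (nat_lit 166) (nat_lit 5) (nat_lit 310) (nat_lit 299) (nat_lit 255)) (XT.nd (nat_lit 94) (nat_lit 0) (nat_lit 0) (XT.lf (nat_lit 0) (nat_lit 1830092014) (nat_lit 840) (nat_lit 4006388316) (nat_lit 924) (nat_lit 2064575741) (nat_lit 155) (nat_lit 5) (nat_lit 165) (nat_lit 5) (nat_lit 166) (nat_lit 5) (nat_lit 311) (nat_lit 299) (nat_lit 254)) (XT.lf (nat_lit 0) (nat_lit 3251693777) (nat_lit 840) (nat_lit 572447520) (nat_lit 924) (nat_lit 4173408717) (nat_lit 155) (nat_lit 5) (nat_lit 165) (nat_lit 5) (nat_lit 166) (nat_lit 5) (nat_lit 312) (nat_lit 299) (nat_lit 253)))) (XT.nd (nat_lit 94) (nat_lit 756) (nat_lit 0) (XT.lf (nat_lit 84) (nat_lit 2996004818) (nat_lit 0) (nat_lit 1706156640) (nat_lit 924) (nat_lit 3395539718)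 (nat_lit 156) (nat_lit 5) (nat_lit 155) (nat_lit 5) (nat_lit 166) (nat_lit 5) (nat_lit 313) (nat_lit 299) (nat_lit 252)) (XT.nd (nat_lit 94) (nat_lit 840) (nat_lit 0) (XT.lf (nat_lit 0) (nat_lit 6164593938) (nat_lit 840) (nat_lit 1551998803) (nat_lit 84) (nat_lit 485576013) (nat_lit 156) (nat_lit 5) (nat_lit 166) (nat_lit 5) (nat_lit 157) (nat_lit 5) (nat_lit 314) (nat_lit 299) (nat_lit 251)) (XT.lf (nat_lit 0) (nat_lit 2099966708) (nat_lit 840) (nat_lit 5568220461) (nat_lit 924) (nat_lit 642000138) (nat_lit 146) (nat_lit 5) (nat_lit 156) (nat_lit 5) (nat_lit 157) (nat_lit 5) (nat_lit 315) (nat_lit 299) (nat_lit 250))))))) (XT.nd (nat_lit 940) (nat_lit 2604) (nat_lit 0) (XT.nd (nat_lit 470) (nat_lit 1680) (nat_lit 0) (XT.nd (nat_lit 188) (nat_lit 1008) (nat_lit 0) (XT.nd (nat_lit 94) (nat_lit 924) (nat_lit 0) (XT.lf (nat_lit 0) (nat_lit 755049378) (nat_lit 924) (nat_lit 2564417778) (nat_lit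 84) (nat_lit 5102812192) (nat_lit 145) (nat_lit 5) (nat_lit 156) (nat_lit 5) (nat_lit 146) (nat_lit 5) (nat_lit 316) (nat_lit 299) (nat_lit 249)) (XT.lf (nat_lit 0) (nat_lit 1179260883) (nat_lit 924) (nat_lit 973676084) (nat_lit 1008) (nat_lit 6385775942) (nat_lit 134) (nat_lit 5) (nat_lit 145) (nat_lit 5) (nat_lit 146) (nat_lit 5) (nat_lit 317) (nat_lit 299) (nat_lit 248))) (XT.nd (nat_lit 94) (nat_lit 1008) (nat_lit 0) (XT.lf (nat_lit 0) (nat_lit 3595688728) (nat_lit 1008) (nat_lit 3612663046) (nat_lit 84) (nat_lit 1450518736) (nat_lit 134) (nat_lit 5) (nat_lit 146) (nat_lit 5) (nat_lit 135) (nat_lit 5) (nat_lit 318) (nat_lit 299) (nat_lit 247)) (XT.nd (nat_lit 94) (nat_lit 0) (nat_lit 0) (XT.lf (nat_lit 0) (nat_lit 212110330) (nat_lit 1008) (nat_lit 4844471765) (nat_lit 1092) (nat_lit 3727152146) (nat_lit 122) (nat_lit 5) (nat_lit 134) (nat_lit 5) (nat_lit 135) (nat_lit 5) (nat_lit 319)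 (nat_lit 299) (nat_lit 246)) (XT.lf (nat_lit 0) (nat_lit 4199885888) (nat_lit 1008) (nat_lit 2362782845) (nat_lit 1092) (nat_lit 2349955365) (nat_lit 122) (nat_lit 5) (nat_lit 134) (nat_lit 5) (nat_lit 135) (nat_lit 5) (nat_lit 320) (nat_lit 299) (nat_lit 245))))) (XT.nd (nat_lit 188) (nat_lit 504) (nat_lit 0) (XT.nd (nat_lit 94) (nat_lit 1176) (nat_lit 0) (XT.lf (nat_lit 0) (nat_lit 8080774617) (nat_lit 1092) (nat_lit 768694269) (nat_lit 84) (nat_lit 197263250) (nat_lit 122) (nat_lit 5) (nat_lit 135) (nat_lit 5) (nat_lit 123) (nat_lit 5) (nat_lit 321) (nat_lit 299) (nat_lit 244)) (XT.lf (nat_lit 0) (nat_lit 473212132) (nat_lit 1176) (nat_lit 5880703055) (nat_lit 84) (nat_lit 2830411465) (nat_lit 108) (nat_lit 5) (nat_lit 122) (nat_lit 5) (nat_lit 109) (nat_lit 5) (nat_lit 322) (nat_lit 299) (nat_lit 243))) (XT.nd (nat_lit 94) (nat_lit 504) (nat_lit 0) (XT.lf (nat_lit 0) (nat_lit 1909791404)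 (nat_lit 1176) (nat_lit 1849506936) (nat_lit 84) (nat_lit 5567558222) (nat_lit 108) (nat_lit 5) (nat_lit 122) (nat_lit 5) (nat_lit 109) (nat_lit 5) (nat_lit 323) (nat_lit 299) (nat_lit 242)) (XT.nd (nat_lit 94) (nat_lit 0) (nat_lit 0) (XT.lf (nat_lit 0) (nat_lit 2322323932) (nat_lit 504) (nat_lit 1057433104) (nat_lit 588) (nat_lit 6094524283) (nat_lit 102) (nat_lit 5) (nat_lit 108) (nat_lit 5) (nat_lit 109) (nat_lit 5) (nat_lit 324) (nat_lit 299) (nat_lit 241)) (XT.lf (nat_lit 0) (nat_lit 4898501249) (nat_lit 588) (nat_lit 3012326475) (nat_lit 84) (nat_lit 1715475931) (nat_lit 102) (nat_lit 5) (nat_lit 109) (nat_lit 5) (nat_lit 103) (nat_lit 5) (nat_lit 325) (nat_lit 299) (nat_lit 240)))))) (XT.nd (nat_lit 470) (nat_lit 1428) (nat_lit 0) (XT.nd (nat_lit 188) (nat_lit 588) (nat_lit 0) (XT.nd (nat_lit 94) (nat_lit 0) (nat_lit 0) (XT.lf (nat_lit 0) (nat_lit 1238740379) (nat_lit 588) (nat_lit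 5216258319) (nat_lit 672) (nat_lit 3328452245) (nat_lit 95) (nat_lit 5) (nat_lit 102) (nat_lit 5) (nat_lit 103) (nat_lit 5) (nat_lit 326) (nat_lit 299) (nat_lit 239)) (XT.lf (nat_lit 0) (nat_lit 5654728833) (nat_lit 588) (nat_lit 2404700286) (nat_lit 672) (nat_lit 1886169945) (nat_lit 95) (nat_lit 5) (nat_lit 102) (nat_lit 5) (nat_lit 103) (nat_lit 5) (nat_lit 327) (nat_lit 299) (nat_lit 238))) (XT.nd (nat_lit 94) (nat_lit 84) (nat_lit 0) (XT.lf (nat_lit 0) (nat_lit 60274564) (nat_lit 504) (nat_lit 9628024979) (nat_lit 588) (nat_lit 425374254) (nat_lit 89) (nat_lit 5) (nat_lit 95) (nat_lit 5) (nat_lit 96) (nat_lit 5) (nat_lit 328) (nat_lit 299) (nat_lit 237)) (XT.nd (nat_lit 94) (nat_lit 0) (nat_lit 0) (XT.lf (nat_lit 0) (nat_lit 1098180792) (nat_lit 588) (nat_lit 5715378269) (nat_lit 84) (nat_lit 3471959686) (nat_lit 88) (nat_lit 5) (nat_lit 95) (nat_lit 5) (nat_lit 89) (nat_lit 5) (nat_lit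 329) (nat_lit 299) (nat_lit 236)) (XT.lf (nat_lit 0) (nat_lit 2630457978) (nat_lit 588) (nat_lit 1277591644) (nat_lit 84) (nat_lit 6555531902) (nat_lit 88) (nat_lit 5) (nat_lit 95) (nat_lit 5) (nat_lit 89) (nat_lit 5) (nat_lit 330) (nat_lit 299) (nat_lit 235))))) (XT.nd (nat_lit 282) (nat_lit 504) (nat_lit 0) (XT.nd (nat_lit 94) (nat_lit 420) (nat_lit 0) (XT.lf (nat_lit 0) (nat_lit 3335520186) (nat_lit 504) (nat_lit 879024477) (nat_lit 588) (nat_lit 6432588501) (nat_lit 82) (nat_lit 5) (nat_lit 88) (nat_lit 5) (nat_lit 89) (nat_lit 5) (nat_lit 331) (nat_lit 299) (nat_lit 234)) (XT.nd (nat_lit 94) (nat_lit 420) (nat_lit 0) (XT.lf (nat_lit 0) (nat_lit 5855256530) (nat_lit 588) (nat_lit 2769750565) (nat_lit 84) (nat_lit 2211234146) (nat_lit 82) (nat_lit 5) (nat_lit 89) (nat_lit 5) (nat_lit 83) (nat_lit 5) (nat_lit 332) (nat_lit 299) (nat_lit 233)) (XT.lf (nat_lit 0) (nat_lit 1913256953) (nat_lit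 420) (nat_lit 5634178815) (nat_lit 504) (nat_lit 3483853558) (nat_lit 77) (nat_lit 5) (nat_lit 82) (nat_lit 5) (nat_lit 83) (nat_lit 5) (nat_lit 333) (nat_lit 299) (nat_lit 232)))) (XT.nd (nat_lit 94) (nat_lit 504) (nat_lit 0) (XT.lf (nat_lit 0) (nat_lit 6771240549) (nat_lit 420) (nat_lit 2522913702) (nat_lit 504) (nat_lit 1938258640) (nat_lit 77) (nat_lit 5) (nat_lit 82) (nat_lit 5) (nat_lit 83) (nat_lit 5) (nat_lit 334) (nat_lit 299) (nat_lit 231)) (XT.nd (nat_lit 94) (nat_lit 84) (nat_lit 0) (XT.lf (nat_lit 0) (nat_lit 310592441) (nat_lit 420) (nat_lit 10768260781) (nat_lit 504) (nat_lit 361509976) (nat_lit 72) (nat_lit 5) (nat_lit 77) (nat_lit 5) (nat_lit 78) (nat_lit 5) (nat_lit 335) (nat_lit 299) (nat_lit 230)) (XT.lf (nat_lit 0) (nat_lit 1285603315) (nat_lit 504) (nat_lit 6396527163) (nat_lit 84) (nat_lit 3970870486) (nat_lit 71) (nat_lit 5) (nat_lit 77) (nat_lit 5) (nat_lit 72) (nat_lit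 5) (nat_lit 336) (nat_lit 299) (nat_lit 229))))))))
noncomputable def xc65 : XT := (XT.nd (nat_lit 1974) (nat_lit 1260) (nat_lit 0) (XT.nd (nat_lit 940) (nat_lit 1260) (nat_lit 0) (XT.nd (nat_lit 470) (nat_lit 756) (nat_lit 0) (XT.nd (nat_lit 188) (nat_lit 420) (nat_lit 0) (XT.nd (nat_lit 94) (nat_lit 420) (nat_lit 0) (XT.lf (nat_lit 0) (nat_lit 2951155546) (nat_lit 504) (nat_lit 1548618245) (nat_lit 84) (nat_lit 7373203338) (nat_lit 71) (nat_lit 5) (nat_lit 77) (nat_lit 5) (nat_lit 72) (nat_lit 5) (nat_lit 337) (nat_lit 299) (nat_lit 228)) (XT.lf (nat_lit 0) (nat_lit 3492425567) (nat_lit 420) (nat_lit 1186202530) (nat_lit 504) (nat_lit 7420905807) (nat_lit 66) (nat_lit 5) (nat_lit 71) (nat_lit 5) (nat_lit 72) (nat_lit 5) (nat_lit 338) (nat_lit 299) (nat_lit 227))) (XT.nd (nat_lit 94) (nat_lit 420) (nat_lit 0) (XT.lf (nat_lit 0) (nat_lit 6474176724) (nat_lit 504) (nat_lit 3660351070) (nat_lit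 84) (nat_lit 2198213756) (nat_lit 66) (nat_lit 5) (nat_lit 72) (nat_lit 5) (nat_lit 67) (nat_lit 5) (nat_lit 339) (nat_lit 299) (nat_lit 226)) (XT.nd (nat_lit 94) (nat_lit 0) (nat_lit 0) (XT.lf (nat_lit 0) (nat_lit 1429240402) (nat_lit 420) (nat_lit 6899248665) (nat_lit 504) (nat_lit 4244668941) (nat_lit 61) (nat_lit 5) (nat_lit 66) (nat_lit 5) (nat_lit 67) (nat_lit 5) (nat_lit 340) (nat_lit 299) (nat_lit 225)) (XT.lf (nat_lit 0) (nat_lit 6727302678) (nat_lit 420) (nat_lit 3528411322) (nat_lit 504) (nat_lit 2564908336) (nat_lit 61) (nat_lit 5) (nat_lit 66) (nat_lit 5) (nat_lit 67) (nat_lit 5) (nat_lit 341) (nat_lit 299) (nat_lit 224))))) (XT.nd (nat_lit 188) (nat_lit 336) (nat_lit 0) (XT.nd (nat_lit 94) (nat_lit 420) (nat_lit 0) (XT.lf (nat_lit 0) (nat_lit 12163509782) (nat_lit 420) (nat_lit 57080349) (nat_lit 504) (nat_lit 855923858) (nat_lit 61) (nat_lit 5) (nat_lit 66) (nat_lit 5) (nat_lit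 67) (nat_lit 5) (nat_lit 342) (nat_lit 299) (nat_lit 223)) (XT.lf (nat_lit 0) (nat_lit 945988727) (nat_lit 420) (nat_lit 8891444177) (nat_lit 84) (nat_lit 3500889262) (nat_lit 56) (nat_lit 5) (nat_lit 61) (nat_lit 5) (nat_lit 57) (nat_lit 5) (nat_lit 343) (nat_lit 299) (nat_lit 222))) (XT.nd (nat_lit 94) (nat_lit 336) (nat_lit 0) (XT.lf (nat_lit 0) (nat_lit 2774834245) (nat_lit 420) (nat_lit 3651360470) (nat_lit 84) (nat_lit 7182190692) (nat_lit 56) (nat_lit 5) (nat_lit 61) (nat_lit 5) (nat_lit 57) (nat_lit 5) (nat_lit 344) (nat_lit 299) (nat_lit 221)) (XT.nd (nat_lit 94) (nat_lit 0) (nat_lit 0) (XT.lf (nat_lit 0) (nat_lit 1761193220) (nat_lit 336) (nat_lit 2895936236) (nat_lit 420) (nat_lit 9229854617) (nat_lit 52) (nat_lit 5) (nat_lit 56) (nat_lit 5) (nat_lit 57) (nat_lit 5) (nat_lit 345) (nat_lit 299) (nat_lit 220)) (XT.lf (nat_lit 0) (nat_lit 6623265487) (nat_lit 420) (nat_lit 6787705258)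 (nat_lit 84) (nat_lit 762519370) (nat_lit 52) (nat_lit 5) (nat_lit 57) (nat_lit 5) (nat_lit 53) (nat_lit 5) (nat_lit 346) (nat_lit 299) (nat_lit 219)))))) (XT.nd (nat_lit 470) (nat_lit 504) (nat_lit 0) (XT.nd (nat_lit 188) (nat_lit 420) (nat_lit 0) (XT.nd (nat_lit 94) (nat_lit 336) (nat_lit 0) (XT.lf (nat_lit 0) (nat_lit 8660192420) (nat_lit 420) (nat_lit 1338823050) (nat_lit 84) (nat_lit 4469616471) (nat_lit 52) (nat_lit 5) (nat_lit 57) (nat_lit 5) (nat_lit 53) (nat_lit 5) (nat_lit 347) (nat_lit 299) (nat_lit 218)) (XT.lf (nat_lit 0) (nat_lit 4342147336) (nat_lit 336) (nat_lit 6442008144) (nat_lit 420) (nat_lit 3988084435) (nat_lit 48) (nat_lit 5) (nat_lit 52) (nat_lit 5) (nat_lit 53) (nat_lit 5) (nat_lit 348) (nat_lit 299) (nat_lit 217))) (XT.nd (nat_lit 94) (nat_lit 420) (nat_lit 0) (XT.lf (nat_lit 0) (nat_lit 10203544524) (nat_lit 336) (nat_lit 2765546256) (nat_lit 420) (nat_lit 2116375602)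 (nat_lit 48) (nat_lit 5) (nat_lit 52) (nat_lit 5) (nat_lit 53) (nat_lit 5) (nat_lit 349) (nat_lit 299) (nat_lit 216)) (XT.nd (nat_lit 94) (nat_lit 84) (nat_lit 0) (XT.lf (nat_lit 0) (nat_lit 820697983) (nat_lit 336) (nat_lit 14401040733) (nat_lit 420) (nat_lit 186718765) (nat_lit 44) (nat_lit 5) (nat_lit 48) (nat_lit 5) (nat_lit 49) (nat_lit 5) (nat_lit 350) (nat_lit 299) (nat_lit 215)) (XT.lf (nat_lit 0) (nat_lit 1827951332) (nat_lit 420) (nat_lit 9007074518) (nat_lit 84) (nat_lit 4904024872) (nat_lit 43) (nat_lit 5) (nat_lit 48) (nat_lit 5) (nat_lit 44) (nat_lit 5) (nat_lit 351) (nat_lit 299) (nat_lit 214))))) (XT.nd (nat_lit 282) (nat_lit 252) (nat_lit 0) (XT.nd (nat_lit 94) (nat_lit 252) (nat_lit 0) (XT.lf (nat_lit 0) (nat_lit 3883498283) (nat_lit 420) (nat_lit 3278669793) (nat_lit 84) (nat_lit 8918263015) (nat_lit 43) (nat_lit 5) (nat_lit 48) (nat_lit 5) (nat_lit 44) (nat_lit 5) (nat_lit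 352) (nat_lit 299) (nat_lit 213)) (XT.nd (nat_lit 94) (nat_lit 0) (nat_lit 0) (XT.lf (nat_lit 0) (nat_lit 2658203293) (nat_lit 252) (nat_lit 3353766449) (nat_lit 336) (nat_lit 10420187008) (nat_lit 40) (nat_lit 5) (nat_lit 43) (nat_lit 5) (nat_lit 44) (nat_lit 5) (nat_lit 353) (nat_lit 299) (nat_lit 212)) (XT.lf (nat_lit 0) (nat_lit 8229748844) (nat_lit 336) (nat_lit 7974084468) (nat_lit 84) (nat_lit 590275858) (nat_lit 40) (nat_lit 5) (nat_lit 44) (nat_lit 5) (nat_lit 41) (nat_lit 5) (nat_lit 354) (nat_lit 299) (nat_lit 211)))) (XT.nd (nat_lit 94) (nat_lit 252) (nat_lit 0) (XT.lf (nat_lit 0) (nat_lit 10534160462) (nat_lit 336) (nat_lit 2050984268) (nat_lit 84) (nat_lit 4581628008) (nat_lit 40) (nat_lit 5) (nat_lit 44) (nat_lit 5) (nat_lit 41) (nat_lit 5) (nat_lit 355) (nat_lit 299) (nat_lit 210)) (XT.nd (nat_lit 94) (nat_lit 0) (nat_lit 0) (XT.lf (nat_lit 0) (nat_lit 4117088016) (nat_lit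 252) (nat_lit 8817836779) (nat_lit 336) (nat_lit 4615335285) (nat_lit 37) (nat_lit 5) (nat_lit 40) (nat_lit 5) (nat_lit 41) (nat_lit 5) (nat_lit 356) (nat_lit 299) (nat_lit 209)) (XT.lf (nat_lit 0) (nat_lit 10498474785) (nat_lit 252) (nat_lit 4917386853) (nat_lit 336) (nat_lit 2529637963) (nat_lit 37) (nat_lit 5) (nat_lit 40) (nat_lit 5) (nat_lit 41) (nat_lit 5) (nat_lit 357) (nat_lit 299) (nat_lit 208))))))) (XT.nd (nat_lit 1034) (nat_lit 168) (nat_lit 0) (XT.nd (nat_lit 470) (nat_lit 504) (nat_lit 0) (XT.nd (nat_lit 188) (nat_lit 252) (nat_lit 0) (XT.nd (nat_lit 94) (nat_lit 336) (nat_lit 0) (XT.lf (nat_lit 0) (nat_lit 17056951714) (nat_lit 252) (nat_lit 901567397) (nat_lit 336) (nat_lit 394984292) (nat_lit 37) (nat_lit 5) (nat_lit 40) (nat_lit 5) (nat_lit 41) (nat_lit 5) (nat_lit 358) (nat_lit 299) (nat_lit 207)) (XT.lf (nat_lit 0) (nat_lit 1837997417) (nat_lit 336) (nat_lit 13696150200)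 (nat_lit 84) (nat_lit 3237366286) (nat_lit 33) (nat_lit 5) (nat_lit 37) (nat_lit 5) (nat_lit 34) (nat_lit 5) (nat_lit 359) (nat_lit 299) (nat_lit 206))) (XT.nd (nat_lit 94) (nat_lit 252) (nat_lit 0) (XT.lf (nat_lit 0) (nat_lit 4140160594) (nat_lit 336) (nat_lit 7563852353) (nat_lit 84) (nat_lit 7498128897) (nat_lit 33) (nat_lit 5) (nat_lit 37) (nat_lit 5) (nat_lit 34) (nat_lit 5) (nat_lit 360) (nat_lit 299) (nat_lit 205)) (XT.nd (nat_lit 94) (nat_lit 252) (nat_lit 0) (XT.lf (nat_lit 0) (nat_lit 6499404815) (nat_lit 336) (nat_lit 1261516084) (nat_lit 84) (nat_lit 11885677519) (nat_lit 33) (nat_lit 5) (nat_lit 37) (nat_lit 5) (nat_lit 34) (nat_lit 5) (nat_lit 361) (nat_lit 299) (nat_lit 204)) (XT.lf (nat_lit 0) (nat_lit 5323999777) (nat_lit 252) (nat_lit 3646744102) (nat_lit 336) (nat_lit 11132916767) (nat_lit 30) (nat_lit 5) (nat_lit 33) (nat_lit 5) (nat_lit 34) (nat_lit 5) (nat_lit 362)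 (nat_lit 299) (nat_lit 203))))) (XT.nd (nat_lit 282) (nat_lit 336) (nat_lit 0) (XT.nd (nat_lit 94) (nat_lit 168) (nat_lit 0) (XT.lf (nat_lit 0) (nat_lit 11524212183) (nat_lit 336) (nat_lit 8459773764) (nat_lit 84) (nat_lit 590768954) (nat_lit 30) (nat_lit 5) (nat_lit 34) (nat_lit 5) (nat_lit 31) (nat_lit 5) (nat_lit 363) (nat_lit 299) (nat_lit 202)) (XT.nd (nat_lit 94) (nat_lit 168) (nat_lit 0) (XT.lf (nat_lit 0) (nat_lit 14180860369) (nat_lit 336) (nat_lit 2000339929) (nat_lit 84) (nat_lit 4878541210) (nat_lit 30) (nat_lit 5) (nat_lit 34) (nat_lit 5) (nat_lit 31) (nat_lit 5) (nat_lit 364) (nat_lit 299) (nat_lit 201)) (XT.lf (nat_lit 0) (nat_lit 4736262796) (nat_lit 168) (nat_lit 12217710073) (nat_lit 252) (nat_lit 4604764602) (nat_lit 28) (nat_lit 5) (nat_lit 30) (nat_lit 5) (nat_lit 31) (nat_lit 5) (nat_lit 365) (nat_lit 299) (nat_lit 200)))) (XT.nd (nat_lit 94) (nat_lit 336) (nat_lit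 0) (XT.lf (nat_lit 0) (nat_lit 11705794947) (nat_lit 168) (nat_lit 8115465771) (nat_lit 252) (nat_lit 2251718277) (nat_lit 28) (nat_lit 5) (nat_lit 30) (nat_lit 5) (nat_lit 31) (nat_lit 5) (nat_lit 366) (nat_lit 299) (nat_lit 199)) (XT.nd (nat_lit 94) (nat_lit 252) (nat_lit 0) (XT.lf (nat_lit 0) (nat_lit 158316364) (nat_lit 252) (nat_lit 3731554254) (nat_lit 84) (nat_lit 18713652903) (nat_lit 27) (nat_lit 5) (nat_lit 30) (nat_lit 5) (nat_lit 28) (nat_lit 5) (nat_lit 367) (nat_lit 299) (nat_lit 198)) (XT.lf (nat_lit 0) (nat_lit 2620420594) (nat_lit 336) (nat_lit 20022012848) (nat_lit 84) (nat_lit 506647902) (nat_lit 24) (nat_lit 5) (nat_lit 28) (nat_lit 5) (nat_lit 25) (nat_lit 5) (nat_lit 368) (nat_lit 299) (nat_lit 197)))))) (XT.nd (nat_lit 47752) (nat_lit 0) (nat_lit 11844) (XT.nd (nat_lit 188) (nat_lit 168) (nat_lit 0) (XT.nd (nat_lit 94) (nat_lit 0) (nat_lit 0) (XT.lf (nat_lit 0) (nat_lit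 5226048727) (nat_lit 336) (nat_lit 13490779107) (nat_lit 84) (nat_lit 4992668047) (nat_lit 24) (nat_lit 5) (nat_lit 28) (nat_lit 5) (nat_lit 25) (nat_lit 5) (nat_lit 369) (nat_lit 299) (nat_lit 196)) (XT.lf (nat_lit 0) (nat_lit 7900876462) (nat_lit 336) (nat_lit 6774213920) (nat_lit 84) (nat_lit 9612578455) (nat_lit 24) (nat_lit 5) (nat_lit 28) (nat_lit 5) (nat_lit 25) (nat_lit 5) (nat_lit 370) (nat_lit 299) (nat_lit 195))) (XT.nd (nat_lit 94) (nat_lit 0) (nat_lit 0) (XT.lf (nat_lit 0) (nat_lit 136697402) (nat_lit 168) (nat_lit 10512055671) (nat_lit 252) (nat_lit 14235344022) (nat_lit 22) (nat_lit 5) (nat_lit 24) (nat_lit 5) (nat_lit 25) (nat_lit 5) (nat_lit 371) (nat_lit 299) (nat_lit 194)) (XT.nd (nat_lit 94) (nat_lit 0) (nat_lit 0) (XT.lf (nat_lit 0) (nat_lit 7389003496) (nat_lit 168) (nat_lit 6152466773) (nat_lit 252) (nat_lit 11955720175) (nat_lit 22) (nat_lit 5) (nat_lit 24) (nat_lit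 5) (nat_lit 25) (nat_lit 5) (nat_lit 372) (nat_lit 299) (nat_lit 193)) (XT.lf (nat_lit 0) (nat_lit 14850172539) (nat_lit 168) (nat_lit 1662968995) (nat_lit 252) (nat_lit 9616504886) (nat_lit 22) (nat_lit 5) (nat_lit 24) (nat_lit 5) (nat_lit 25) (nat_lit 5) (nat_lit 373) (nat_lit 299) (nat_lit 192))))) (XT.nd (nat_lit 282) (nat_lit 672) (nat_lit 0) (XT.nd (nat_lit 94) (nat_lit 0) (nat_lit 0) (XT.lf (nat_lit 0) (nat_lit 1035424855) (nat_lit 756) (nat_lit 1265978191) (nat_lit 756) (nat_lit 1265978191) (nat_lit 171) (nat_lit 3) (nat_lit 180) (nat_lit 3) (nat_lit 180) (nat_lit 5) (nat_lit 300) (nat_lit 300) (nat_lit 264)) (XT.nd (nat_lit 94) (nat_lit 0) (nat_lit 0) (XT.lf (nat_lit 84) (nat_lit 325956704) (nat_lit 0) (nat_lit 3222573733) (nat_lit 756) (nat_lit 3645042021) (nat_lit 172) (nat_lit 5) (nat_lit 171) (nat_lit 3) (nat_lit 180) (nat_lit 5) (nat_lit 301) (nat_lit 300) (nat_lit 263)) (XT.lf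 (nat_lit 84) (nat_lit 3295420969) (nat_lit 0) (nat_lit 1744601742) (nat_lit 756) (nat_lit 2215455422) (nat_lit 172) (nat_lit 5) (nat_lit 171) (nat_lit 3) (nat_lit 180) (nat_lit 5) (nat_lit 302) (nat_lit 300) (nat_lit 262)))) (XT.nd (nat_lit 94) (nat_lit 672) (nat_lit 0) (XT.lf (nat_lit 84) (nat_lit 6327142048) (nat_lit 0) (nat_lit 193940928) (nat_lit 756) (nat_lit 800248874) (nat_lit 172) (nat_lit 5) (nat_lit 171) (nat_lit 3) (nat_lit 180) (nat_lit 5) (nat_lit 303) (nat_lit 300) (nat_lit 261)) (XT.nd (nat_lit 94) (nat_lit 0) (nat_lit 0) (XT.lf (nat_lit 0) (nat_lit 624754374) (nat_lit 756) (nat_lit 5336384287) (nat_lit 840) (nat_lit 1428786714) (nat_lit 163) (nat_lit 5) (nat_lit 172) (nat_lit 5) (nat_lit 173) (nat_lit 5) (nat_lit 304) (nat_lit 300) (nat_lit 260)) (XT.lf (nat_lit 0) (nat_lit 2035613301) (nat_lit 756) (nat_lit 2285944192) (nat_lit 840) (nat_lit 3140375091) (nat_lit 163) (nat_lit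 5) (nat_lit 172) (nat_lit 5) (nat_lit 173) (nat_lit 5) (nat_lit 305) (nat_lit 300) (nat_lit 259))))))))
noncomputable def xc66 : XT := (XT.nd (nat_lit 1974) (nat_lit 4200) (nat_lit 0) (XT.nd (nat_lit 940) (nat_lit 4368) (nat_lit 0) (XT.nd (nat_lit 470) (nat_lit 0) (nat_lit 0) (XT.nd (nat_lit 188) (nat_lit 756) (nat_lit 0) (XT.nd (nat_lit 94) (nat_lit 0) (nat_lit 0) (XT.lf (nat_lit 84) (nat_lit 844875133) (nat_lit 0) (nat_lit 2601180198) (nat_lit 840) (nat_lit 4091726399) (nat_lit 164) (nat_lit 5) (nat_lit 163) (nat_lit 5) (nat_lit 173) (nat_lit 5) (nat_lit 306) (nat_lit 300) (nat_lit 258)) (XT.lf (nat_lit 84) (nat_lit 4090319854) (nat_lit 0) (nat_lit 782500161) (nat_lit 840) (nat_lit 2744245326) (nat_lit 164) (nat_lit 5) (nat_lit 163) (nat_lit 5) (nat_lit 173) (nat_lit 5) (nat_lit 307) (nat_lit 300) (nat_lit 257))) (XT.nd (nat_lit 94) (nat_lit 840) (nat_lit 0) (XT.lf (nat_lit 0) (nat_lit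 6305128439) (nat_lit 756) (nat_lit 305197718) (nat_lit 840) (nat_lit 1089906534) (nat_lit 164) (nat_lit 5) (nat_lit 173) (nat_lit 5) (nat_lit 174) (nat_lit 5) (nat_lit 308) (nat_lit 300) (nat_lit 256)) (XT.nd (nat_lit 94) (nat_lit 840) (nat_lit 0) (XT.lf (nat_lit 84) (nat_lit 3038467173) (nat_lit 0) (nat_lit 4733481162) (nat_lit 840) (nat_lit 14556351) (nat_lit 165) (nat_lit 5) (nat_lit 164) (nat_lit 5) (nat_lit 174) (nat_lit 5) (nat_lit 309) (nat_lit 300) (nat_lit 255)) (XT.lf (nat_lit 0) (nat_lit 1336039267) (nat_lit 840) (nat_lit 1428942410) (nat_lit 924) (nat_lit 5111618367) (nat_lit 154) (nat_lit 5) (nat_lit 164) (nat_lit 5) (nat_lit 165) (nat_lit 5) (nat_lit 310) (nat_lit 300) (nat_lit 254))))) (XT.nd (nat_lit 188) (nat_lit 0) (nat_lit 84) (XT.nd (nat_lit 94) (nat_lit 0) (nat_lit 84) (XT.lf (nat_lit 84) (nat_lit 2002358297) (nat_lit 0) (nat_lit 699553524) (nat_lit 924) (nat_lit 5268587510)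 (nat_lit 155) (nat_lit 5) (nat_lit 154) (nat_lit 5) (nat_lit 165) (nat_lit 5) (nat_lit 311) (nat_lit 300) (nat_lit 253)) (XT.lf (nat_lit 0) (nat_lit 4094454540) (nat_lit 840) (nat_lit 2543165771) (nat_lit 924) (nat_lit 1430369603) (nat_lit 155) (nat_lit 5) (nat_lit 165) (nat_lit 5) (nat_lit 166) (nat_lit 5) (nat_lit 312) (nat_lit 300) (nat_lit 252))) (XT.nd (nat_lit 94) (nat_lit 0) (nat_lit 0) (XT.lf (nat_lit 84) (nat_lit 969020395) (nat_lit 0) (nat_lit 4534339587) (nat_lit 924) (nat_lit 2666162453) (nat_lit 156) (nat_lit 5) (nat_lit 155) (nat_lit 5) (nat_lit 166) (nat_lit 5) (nat_lit 313) (nat_lit 300) (nat_lit 251)) (XT.nd (nat_lit 94) (nat_lit 0) (nat_lit 0) (XT.lf (nat_lit 84) (nat_lit 4612983175) (nat_lit 0) (nat_lit 2326932560) (nat_lit 924) (nat_lit 1334966593) (nat_lit 156) (nat_lit 5) (nat_lit 155) (nat_lit 5) (nat_lit 166) (nat_lit 5) (nat_lit 314) (nat_lit 300) (nat_lit 250))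 (XT.lf (nat_lit 84) (nat_lit 8339826420) (nat_lit 0) (nat_lit 39887129) (nat_lit 924) (nat_lit 5252414) (nat_lit 156) (nat_lit 5) (nat_lit 155) (nat_lit 5) (nat_lit 166) (nat_lit 5) (nat_lit 315) (nat_lit 300) (nat_lit 249)))))) (XT.nd (nat_lit 470) (nat_lit 1680) (nat_lit 0) (XT.nd (nat_lit 188) (nat_lit 1932) (nat_lit 0) (XT.nd (nat_lit 94) (nat_lit 0) (nat_lit 0) (XT.lf (nat_lit 0) (nat_lit 1358005811) (nat_lit 924) (nat_lit 4807083170) (nat_lit 84) (nat_lit 2332505284) (nat_lit 145) (nat_lit 5) (nat_lit 156) (nat_lit 5) (nat_lit 146) (nat_lit 5) (nat_lit 316) (nat_lit 300) (nat_lit 248)) (XT.lf (nat_lit 0) (nat_lit 2724694611) (nat_lit 924) (nat_lit 1102607147) (nat_lit 84) (nat_lit 4787773004) (nat_lit 145) (nat_lit 5) (nat_lit 156) (nat_lit 5) (nat_lit 146) (nat_lit 5) (nat_lit 317) (nat_lit 300) (nat_lit 247))) (XT.nd (nat_lit 94) (nat_lit 1008) (nat_lit 0) (XT.lf (nat_lit 0) (nat_lit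 2741521197) (nat_lit 924) (nat_lit 1381011381) (nat_lit 1008) (nat_lit 4614169489) (nat_lit 134) (nat_lit 5) (nat_lit 145) (nat_lit 5) (nat_lit 146) (nat_lit 5) (nat_lit 318) (nat_lit 300) (nat_lit 246)) (XT.nd (nat_lit 94) (nat_lit 1008) (nat_lit 0) (XT.lf (nat_lit 0) (nat_lit 5549165920) (nat_lit 1008) (nat_lit 2176493082) (nat_lit 84) (nat_lit 1137043905) (nat_lit 134) (nat_lit 5) (nat_lit 146) (nat_lit 5) (nat_lit 135) (nat_lit 5) (nat_lit 319) (nat_lit 300) (nat_lit 245)) (XT.lf (nat_lit 0) (nat_lit 1751174513) (nat_lit 1008) (nat_lit 5263989557) (nat_lit 1092) (nat_lit 1977744229) (nat_lit 122) (nat_lit 5) (nat_lit 134) (nat_lit 5) (nat_lit 135) (nat_lit 5) (nat_lit 320) (nat_lit 300) (nat_lit 244))))) (XT.nd (nat_lit 282) (nat_lit 504) (nat_lit 0) (XT.nd (nat_lit 94) (nat_lit 1176) (nat_lit 0) (XT.lf (nat_lit 0) (nat_lit 5816492403) (nat_lit 1008) (nat_lit 2697269818) (nat_lit 1092)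 (nat_lit 613929459) (nat_lit 122) (nat_lit 5) (nat_lit 134) (nat_lit 5) (nat_lit 135) (nat_lit 5) (nat_lit 321) (nat_lit 300) (nat_lit 243)) (XT.nd (nat_lit 94) (nat_lit 0) (nat_lit 0) (XT.lf (nat_lit 0) (nat_lit 717588587) (nat_lit 1092) (nat_lit 30749404) (nat_lit 1176) (nat_lit 8519070469) (nat_lit 108) (nat_lit 5) (nat_lit 121) (nat_lit 5) (nat_lit 122) (nat_lit 5) (nat_lit 322) (nat_lit 300) (nat_lit 242)) (XT.lf (nat_lit 0) (nat_lit 2167780449) (nat_lit 1176) (nat_lit 4533642194) (nat_lit 84) (nat_lit 2709111391) (nat_lit 108) (nat_lit 5) (nat_lit 122) (nat_lit 5) (nat_lit 109) (nat_lit 5) (nat_lit 323) (nat_lit 300) (nat_lit 241)))) (XT.nd (nat_lit 94) (nat_lit 504) (nat_lit 0) (XT.lf (nat_lit 0) (nat_lit 3598382659) (nat_lit 1176) (nat_lit 423463710) (nat_lit 84) (nat_lit 5537395175) (nat_lit 108) (nat_lit 5) (nat_lit 122) (nat_lit 5) (nat_lit 109) (nat_lit 5) (nat_lit 324) (nat_lit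 300) (nat_lit 240)) (XT.nd (nat_lit 94) (nat_lit 0) (nat_lit 0) (XT.lf (nat_lit 0) (nat_lit 3862676045) (nat_lit 504) (nat_lit 1216815235) (nat_lit 588) (nat_lit 4632999914) (nat_lit 102) (nat_lit 5) (nat_lit 108) (nat_lit 5) (nat_lit 109) (nat_lit 5) (nat_lit 325) (nat_lit 300) (nat_lit 239)) (XT.lf (nat_lit 0) (nat_lit 6596141278) (nat_lit 588) (nat_lit 1626456587) (nat_lit 84) (nat_lit 1648334674) (nat_lit 102) (nat_lit 5) (nat_lit 109) (nat_lit 5) (nat_lit 103) (nat_lit 5) (nat_lit 326) (nat_lit 300) (nat_lit 238))))))) (XT.nd (nat_lit 1034) (nat_lit 1596) (nat_lit 0) (XT.nd (nat_lit 470) (nat_lit 924) (nat_lit 0) (XT.nd (nat_lit 188) (nat_lit 1092) (nat_lit 0) (XT.nd (nat_lit 94) (nat_lit 0) (nat_lit 0) (XT.lf (nat_lit 0) (nat_lit 2741417242) (nat_lit 588) (nat_lit 5427520158) (nat_lit 672) (nat_lit 1865180940) (nat_lit 95) (nat_lit 5) (nat_lit 102) (nat_lit 5) (nat_lit 103) (nat_lit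 5) (nat_lit 327) (nat_lit 300) (nat_lit 237)) (XT.lf (nat_lit 0) (nat_lit 7250273643) (nat_lit 588) (nat_lit 2527313726) (nat_lit 672) (nat_lit 425287843) (nat_lit 95) (nat_lit 5) (nat_lit 102) (nat_lit 5) (nat_lit 103) (nat_lit 5) (nat_lit 328) (nat_lit 300) (nat_lit 236))) (XT.nd (nat_lit 94) (nat_lit 504) (nat_lit 0) (XT.lf (nat_lit 0) (nat_lit 1028386456) (nat_lit 588) (nat_lit 8868667379) (nat_lit 84) (nat_lit 479884577) (nat_lit 88) (nat_lit 5) (nat_lit 95) (nat_lit 5) (nat_lit 89) (nat_lit 5) (nat_lit 329) (nat_lit 300) (nat_lit 235)) (XT.nd (nat_lit 94) (nat_lit 504) (nat_lit 0) (XT.lf (nat_lit 0) (nat_lit 2546493348) (nat_lit 588) (nat_lit 4445380744) (nat_lit 84) (nat_lit 3563616841) (nat_lit 88) (nat_lit 5) (nat_lit 95) (nat_lit 5) (nat_lit 89) (nat_lit 5) (nat_lit 330) (nat_lit 300) (nat_lit 234)) (XT.lf (nat_lit 0) (nat_lit 88241655) (nat_lit 504) (nat_lit 3996380749) (nat_lit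 588) (nat_lit 6655893801) (nat_lit 82) (nat_lit 5) (nat_lit 88) (nat_lit 5) (nat_lit 89) (nat_lit 5) (nat_lit 331) (nat_lit 300) (nat_lit 233))))) (XT.nd (nat_lit 282) (nat_lit 504) (nat_lit 0) (XT.nd (nat_lit 94) (nat_lit 420) (nat_lit 0) (XT.lf (nat_lit 0) (nat_lit 4828371274) (nat_lit 504) (nat_lit 861107169) (nat_lit 588) (nat_lit 5241304845) (nat_lit 82) (nat_lit 5) (nat_lit 88) (nat_lit 5) (nat_lit 89) (nat_lit 5) (nat_lit 332) (nat_lit 300) (nat_lit 232)) (XT.nd (nat_lit 94) (nat_lit 420) (nat_lit 0) (XT.lf (nat_lit 0) (nat_lit 7341067211) (nat_lit 588) (nat_lit 1463359774) (nat_lit 84) (nat_lit 2322708739) (nat_lit 82) (nat_lit 5) (nat_lit 89) (nat_lit 5) (nat_lit 83) (nat_lit 5) (nat_lit 333) (nat_lit 300) (nat_lit 231)) (XT.lf (nat_lit 0) (nat_lit 3350725666) (nat_lit 420) (nat_lit 5709432348) (nat_lit 504) (nat_lit 2269002397) (nat_lit 77) (nat_lit 5) (nat_lit 82) (nat_lit 5)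 (nat_lit 83) (nat_lit 5) (nat_lit 334) (nat_lit 300) (nat_lit 230)))) (XT.nd (nat_lit 94) (nat_lit 504) (nat_lit 0) (XT.lf (nat_lit 0) (nat_lit 8317868450) (nat_lit 420) (nat_lit 2504706946) (nat_lit 504) (nat_lit 715269371) (nat_lit 77) (nat_lit 5) (nat_lit 82) (nat_lit 5) (nat_lit 83) (nat_lit 5) (nat_lit 335) (nat_lit 300) (nat_lit 229)) (XT.nd (nat_lit 94) (nat_lit 0) (nat_lit 0) (XT.lf (nat_lit 0) (nat_lit 868827166) (nat_lit 504) (nat_lit 10077075055) (nat_lit 84) (nat_lit 806904326) (nat_lit 71) (nat_lit 5) (nat_lit 77) (nat_lit 5) (nat_lit 72) (nat_lit 5) (nat_lit 336) (nat_lit 300) (nat_lit 228)) (XT.lf (nat_lit 0) (nat_lit 2522386737) (nat_lit 504) (nat_lit 5242713588) (nat_lit 84) (nat_lit 4208093689) (nat_lit 71) (nat_lit 5) (nat_lit 77) (nat_lit 5) (nat_lit 72) (nat_lit 5) (nat_lit 337) (nat_lit 300) (nat_lit 227)))))) (XT.nd (nat_lit 470) (nat_lit 756) (nat_lit 0) (XT.nd (nat_lit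 188) (nat_lit 420) (nat_lit 0) (XT.nd (nat_lit 94) (nat_lit 420) (nat_lit 0) (XT.lf (nat_lit 0) (nat_lit 4203581929) (nat_lit 504) (nat_lit 285174473) (nat_lit 84) (nat_lit 7712467324) (nat_lit 71) (nat_lit 5) (nat_lit 77) (nat_lit 5) (nat_lit 72) (nat_lit 5) (nat_lit 338) (nat_lit 300) (nat_lit 226)) (XT.lf (nat_lit 0) (nat_lit 4898864435) (nat_lit 420) (nat_lit 1063712699) (nat_lit 504) (nat_lit 6473024583) (nat_lit 66) (nat_lit 5) (nat_lit 71) (nat_lit 5) (nat_lit 72) (nat_lit 5) (nat_lit 339) (nat_lit 300) (nat_lit 225))) (XT.nd (nat_lit 94) (nat_lit 420) (nat_lit 0) (XT.lf (nat_lit 0) (nat_lit 7781075490) (nat_lit 504) (nat_lit 2478369467) (nat_lit 84) (nat_lit 2417719520) (nat_lit 66) (nat_lit 5) (nat_lit 72) (nat_lit 5) (nat_lit 67) (nat_lit 5) (nat_lit 340) (nat_lit 300) (nat_lit 224)) (XT.nd (nat_lit 94) (nat_lit 0) (nat_lit 0) (XT.lf (nat_lit 0) (nat_lit 2755884048) (nat_lit 420)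 (nat_lit 6916447327) (nat_lit 504) (nat_lit 3253447455) (nat_lit 61) (nat_lit 5) (nat_lit 66) (nat_lit 5) (nat_lit 67) (nat_lit 5) (nat_lit 341) (nat_lit 300) (nat_lit 223)) (XT.lf (nat_lit 0) (nat_lit 8179629074) (nat_lit 420) (nat_lit 3447027721) (nat_lit 504) (nat_lit 1555374691) (nat_lit 61) (nat_lit 5) (nat_lit 66) (nat_lit 5) (nat_lit 67) (nat_lit 5) (nat_lit 342) (nat_lit 300) (nat_lit 222))))) (XT.nd (nat_lit 282) (nat_lit 336) (nat_lit 0) (XT.nd (nat_lit 94) (nat_lit 0) (nat_lit 0) (XT.lf (nat_lit 0) (nat_lit 174660664) (nat_lit 420) (nat_lit 13143661609) (nat_lit 84) (nat_lit 128429470) (nat_lit 56) (nat_lit 5) (nat_lit 61) (nat_lit 5) (nat_lit 57) (nat_lit 5) (nat_lit 343) (nat_lit 300) (nat_lit 221)) (XT.nd (nat_lit 94) (nat_lit 0) (nat_lit 0) (XT.lf (nat_lit 0) (nat_lit 1993306393) (nat_lit 420) (nat_lit 7916111988) (nat_lit 84) (nat_lit 3807743759) (nat_lit 56) (nat_lit 5)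 (nat_lit 61) (nat_lit 5) (nat_lit 57) (nat_lit 5) (nat_lit 344) (nat_lit 300) (nat_lit 220)) (XT.lf (nat_lit 0) (nat_lit 3848237245) (nat_lit 420) (nat_lit 2551199628) (nat_lit 84) (nat_lit 7597202260) (nat_lit 56) (nat_lit 5) (nat_lit 61) (nat_lit 5) (nat_lit 57) (nat_lit 5) (nat_lit 345) (nat_lit 300) (nat_lit 219)))) (XT.nd (nat_lit 94) (nat_lit 0) (nat_lit 0) (XT.lf (nat_lit 0) (nat_lit 3016859116) (nat_lit 336) (nat_lit 2754250711) (nat_lit 420) (nat_lit 8513405643) (nat_lit 52) (nat_lit 5) (nat_lit 56) (nat_lit 5) (nat_lit 57) (nat_lit 5) (nat_lit 346) (nat_lit 300) (nat_lit 218)) (XT.nd (nat_lit 94) (nat_lit 0) (nat_lit 0) (XT.lf (nat_lit 0) (nat_lit 7771269030) (nat_lit 420) (nat_lit 5803421979) (nat_lit 84) (nat_lit 1006134341) (nat_lit 52) (nat_lit 5) (nat_lit 57) (nat_lit 5) (nat_lit 53) (nat_lit 5) (nat_lit 347) (nat_lit 300) (nat_lit 217)) (XT.lf (nat_lit 0) (nat_lit 9842996226)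 (nat_lit 420) (nat_lit 221546601) (nat_lit 84) (nat_lit 4821537212) (nat_lit 52) (nat_lit 5) (nat_lit 57) (nat_lit 5) (nat_lit 53) (nat_lit 5) (nat_lit 348) (nat_lit 300) (nat_lit 216))))))))
noncomputable def xc67 : XT := (XT.nd (nat_lit 1974) (nat_lit 168) (nat_lit 0) (XT.nd (nat_lit 940) (nat_lit 1092) (nat_lit 0) (XT.nd (nat_lit 470) (nat_lit 504) (nat_lit 0) (XT.nd (nat_lit 188) (nat_lit 420) (nat_lit 0) (XT.nd (nat_lit 94) (nat_lit 0) (nat_lit 0) (XT.lf (nat_lit 0) (nat_lit 5623802260) (nat_lit 336) (nat_lit 6392886527) (nat_lit 420) (nat_lit 3182992822) (nat_lit 48) (nat_lit 5) (nat_lit 52) (nat_lit 5) (nat_lit 53) (nat_lit 5) (nat_lit 349) (nat_lit 300) (nat_lit 215)) (XT.lf (nat_lit 0) (nat_lit 11632413431) (nat_lit 336) (nat_lit 2609935930) (nat_lit 420) (nat_lit 1281185737) (nat_lit 48) (nat_lit 5) (nat_lit 52) (nat_lit 5) (nat_lit 53) (nat_lit 5) (nat_lit 350) (nat_lit 300) (nat_lit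 214))) (XT.nd (nat_lit 94) (nat_lit 0) (nat_lit 0) (XT.lf (nat_lit 0) (nat_lit 681132931) (nat_lit 420) (nat_lit 13889558934) (nat_lit 84) (nat_lit 1286103780) (nat_lit 43) (nat_lit 5) (nat_lit 48) (nat_lit 5) (nat_lit 44) (nat_lit 5) (nat_lit 351) (nat_lit 300) (nat_lit 213)) (XT.nd (nat_lit 94) (nat_lit 0) (nat_lit 0) (XT.lf (nat_lit 0) (nat_lit 2728227320) (nat_lit 420) (nat_lit 8172315734) (nat_lit 84) (nat_lit 5297918513) (nat_lit 43) (nat_lit 5) (nat_lit 48) (nat_lit 5) (nat_lit 44) (nat_lit 5) (nat_lit 352) (nat_lit 300) (nat_lit 212)) (XT.lf (nat_lit 0) (nat_lit 4822130664) (nat_lit 420) (nat_lit 2299825440) (nat_lit 84) (nat_lit 9429325551) (nat_lit 43) (nat_lit 5) (nat_lit 48) (nat_lit 5) (nat_lit 44) (nat_lit 5) (nat_lit 353) (nat_lit 300) (nat_lit 211))))) (XT.nd (nat_lit 188) (nat_lit 252) (nat_lit 0) (XT.nd (nat_lit 94) (nat_lit 0) (nat_lit 0) (XT.lf (nat_lit 0) (nat_lit 3810151791)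 (nat_lit 252) (nat_lit 3192440085) (nat_lit 336) (nat_lit 9911821183) (nat_lit 40) (nat_lit 5) (nat_lit 43) (nat_lit 5) (nat_lit 44) (nat_lit 5) (nat_lit 354) (nat_lit 300) (nat_lit 210)) (XT.lf (nat_lit 0) (nat_lit 9267492603) (nat_lit 336) (nat_lit 7160123952) (nat_lit 84) (nat_lit 860706377) (nat_lit 40) (nat_lit 5) (nat_lit 44) (nat_lit 5) (nat_lit 41) (nat_lit 5) (nat_lit 355) (nat_lit 300) (nat_lit 209))) (XT.nd (nat_lit 94) (nat_lit 252) (nat_lit 0) (XT.lf (nat_lit 0) (nat_lit 11619809199) (nat_lit 336) (nat_lit 1085314408) (nat_lit 84) (nat_lit 4968209366) (nat_lit 40) (nat_lit 5) (nat_lit 44) (nat_lit 5) (nat_lit 41) (nat_lit 5) (nat_lit 356) (nat_lit 300) (nat_lit 208)) (XT.nd (nat_lit 94) (nat_lit 0) (nat_lit 0) (XT.lf (nat_lit 0) (nat_lit 5263547882) (nat_lit 252) (nat_lit 8818732034) (nat_lit 336) (nat_lit 3986885223) (nat_lit 37) (nat_lit 5) (nat_lit 40) (nat_lit 5) (nat_lit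 41) (nat_lit 5) (nat_lit 357) (nat_lit 300) (nat_lit 207)) (XT.lf (nat_lit 0) (nat_lit 11812123562) (nat_lit 252) (nat_lit 4805560390) (nat_lit 336) (nat_lit 1859729430) (nat_lit 37) (nat_lit 5) (nat_lit 40) (nat_lit 5) (nat_lit 41) (nat_lit 5) (nat_lit 358) (nat_lit 300) (nat_lit 206)))))) (XT.nd (nat_lit 470) (nat_lit 504) (nat_lit 0) (XT.nd (nat_lit 188) (nat_lit 252) (nat_lit 0) (XT.nd (nat_lit 94) (nat_lit 252) (nat_lit 0) (XT.lf (nat_lit 0) (nat_lit 312178840) (nat_lit 336) (nat_lit 357759089) (nat_lit 84) (nat_lit 18228762953) (nat_lit 36) (nat_lit 5) (nat_lit 40) (nat_lit 5) (nat_lit 37) (nat_lit 5) (nat_lit 359) (nat_lit 300) (nat_lit 205)) (XT.lf (nat_lit 0) (nat_lit 2597003135) (nat_lit 336) (nat_lit 13134826049) (nat_lit 84) (nat_lit 3598055018) (nat_lit 33) (nat_lit 5) (nat_lit 37) (nat_lit 5) (nat_lit 34) (nat_lit 5) (nat_lit 360) (nat_lit 300) (nat_lit 204))) (XT.nd (nat_lit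 94) (nat_lit 252) (nat_lit 0) (XT.lf (nat_lit 0) (nat_lit 4949424872) (nat_lit 336) (nat_lit 6842071051) (nat_lit 84) (nat_lit 7983073683) (nat_lit 33) (nat_lit 5) (nat_lit 37) (nat_lit 5) (nat_lit 34) (nat_lit 5) (nat_lit 361) (nat_lit 300) (nat_lit 203)) (XT.nd (nat_lit 94) (nat_lit 252) (nat_lit 0) (XT.lf (nat_lit 0) (nat_lit 7361331854) (nat_lit 336) (nat_lit 373115104) (nat_lit 84) (nat_lit 12499044085) (nat_lit 33) (nat_lit 5) (nat_lit 37) (nat_lit 5) (nat_lit 34) (nat_lit 5) (nat_lit 362) (nat_lit 300) (nat_lit 202)) (XT.lf (nat_lit 0) (nat_lit 6407161563) (nat_lit 252) (nat_lit 3491370502) (nat_lit 336) (nat_lit 10806573853) (nat_lit 30) (nat_lit 5) (nat_lit 33) (nat_lit 5) (nat_lit 34) (nat_lit 5) (nat_lit 363) (nat_lit 300) (nat_lit 201))))) (XT.nd (nat_lit 282) (nat_lit 336) (nat_lit 0) (XT.nd (nat_lit 94) (nat_lit 168) (nat_lit 0) (XT.lf (nat_lit 0) (nat_lit 12514205644) (nat_lit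 336) (nat_lit 7812983866) (nat_lit 84) (nat_lit 864189046) (nat_lit 30) (nat_lit 5) (nat_lit 34) (nat_lit 5) (nat_lit 31) (nat_lit 5) (nat_lit 364) (nat_lit 300) (nat_lit 200)) (XT.nd (nat_lit 94) (nat_lit 168) (nat_lit 0) (XT.lf (nat_lit 0) (nat_lit 15234184676) (nat_lit 336) (nat_lit 1180640589) (nat_lit 84) (nat_lit 5277211734) (nat_lit 30) (nat_lit 5) (nat_lit 34) (nat_lit 5) (nat_lit 31) (nat_lit 5) (nat_lit 365) (nat_lit 300) (nat_lit 199)) (XT.lf (nat_lit 0) (nat_lit 5755870300) (nat_lit 168) (nat_lit 12327598286) (nat_lit 252) (nat_lit 4123382941) (nat_lit 28) (nat_lit 5) (nat_lit 30) (nat_lit 5) (nat_lit 31) (nat_lit 5) (nat_lit 366) (nat_lit 300) (nat_lit 198)))) (XT.nd (nat_lit 94) (nat_lit 336) (nat_lit 0) (XT.lf (nat_lit 0) (nat_lit 12915215189) (nat_lit 168) (nat_lit 8106268488) (nat_lit 252) (nat_lit 1716158436) (nat_lit 28) (nat_lit 5) (nat_lit 30) (nat_lit 5) (nat_lit 31)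 (nat_lit 5) (nat_lit 367) (nat_lit 300) (nat_lit 197)) (XT.nd (nat_lit 94) (nat_lit 252) (nat_lit 0) (XT.lf (nat_lit 0) (nat_lit 738555297) (nat_lit 252) (nat_lit 3012960319) (nat_lit 84) (nat_lit 19533526645) (nat_lit 27) (nat_lit 5) (nat_lit 30) (nat_lit 5) (nat_lit 28) (nat_lit 5) (nat_lit 368) (nat_lit 300) (nat_lit 196)) (XT.lf (nat_lit 0) (nat_lit 3270453335) (nat_lit 336) (nat_lit 19800577231) (nat_lit 84) (nat_lit 776725034) (nat_lit 24) (nat_lit 5) (nat_lit 28) (nat_lit 5) (nat_lit 25) (nat_lit 5) (nat_lit 369) (nat_lit 300) (nat_lit 195))))))) (XT.nd (nat_lit 48410) (nat_lit 0) (nat_lit 9408) (XT.nd (nat_lit 47846) (nat_lit 0) (nat_lit 11760) (XT.nd (nat_lit 188) (nat_lit 168) (nat_lit 0) (XT.nd (nat_lit 94) (nat_lit 0) (nat_lit 0) (XT.lf (nat_lit 0) (nat_lit 5939753331) (nat_lit 336) (nat_lit 13092195960) (nat_lit 84) (nat_lit 5394163400) (nat_lit 24) (nat_lit 5) (nat_lit 28)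 (nat_lit 5) (nat_lit 25) (nat_lit 5) (nat_lit 370) (nat_lit 300) (nat_lit 194)) (XT.lf (nat_lit 0) (nat_lit 8680912355) (nat_lit 336) (nat_lit 6191976628) (nat_lit 84) (nat_lit 10149872601) (nat_lit 24) (nat_lit 5) (nat_lit 28) (nat_lit 5) (nat_lit 25) (nat_lit 5) (nat_lit 371) (nat_lit 300) (nat_lit 193))) (XT.nd (nat_lit 94) (nat_lit 0) (nat_lit 0) (XT.lf (nat_lit 0) (nat_lit 925152248) (nat_lit 168) (nat_lit 10580510832) (nat_lit 252) (nat_lit 14132310832) (nat_lit 22) (nat_lit 5) (nat_lit 24) (nat_lit 5) (nat_lit 25) (nat_lit 5) (nat_lit 372) (nat_lit 300) (nat_lit 192)) (XT.nd (nat_lit 47470) (nat_lit 0) (nat_lit 12516) (XT.lf (nat_lit 0) (nat_lit 8378700070) (nat_lit 168) (nat_lit 6093514712) (nat_lit 252) (nat_lit 11798385468) (nat_lit 22) (nat_lit 5) (nat_lit 24) (nat_lit 5) (nat_lit 25) (nat_lit 5) (nat_lit 373) (nat_lit 300) (nat_lit 191)) (XT.lf (nat_lit 0) (nat_lit 2495563770)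 (nat_lit 756) (nat_lit 565620174) (nat_lit 756) (nat_lit 565620174) (nat_lit 171) (nat_lit 3) (nat_lit 180) (nat_lit 3) (nat_lit 180) (nat_lit 5) (nat_lit 301) (nat_lit 301) (nat_lit 262))))) (XT.nd (nat_lit 282) (nat_lit 0) (nat_lit 84) (XT.nd (nat_lit 94) (nat_lit 756) (nat_lit 0) (XT.lf (nat_lit 84) (nat_lit 1800292404) (nat_lit 0) (nat_lit 4642972958) (nat_lit 756) (nat_lit 873602584) (nat_lit 172) (nat_lit 5) (nat_lit 171) (nat_lit 3) (nat_lit 180) (nat_lit 5) (nat_lit 302) (nat_lit 301) (nat_lit 261)) (XT.nd (nat_lit 94) (nat_lit 0) (nat_lit 0) (XT.lf (nat_lit 0) (nat_lit 503224951) (nat_lit 756) (nat_lit 2571001609) (nat_lit 840) (nat_lit 4309306129) (nat_lit 162) (nat_lit 5) (nat_lit 171) (nat_lit 3) (nat_lit 172) (nat_lit 5) (nat_lit 303) (nat_lit 301) (nat_lit 260)) (XT.lf (nat_lit 84) (nat_lit 436349007) (nat_lit 0) (nat_lit 1418459059) (nat_lit 840) (nat_lit 5598970571) (nat_lit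 163) (nat_lit 5) (nat_lit 162) (nat_lit 5) (nat_lit 172) (nat_lit 5) (nat_lit 304) (nat_lit 301) (nat_lit 259)))) (XT.nd (nat_lit 94) (nat_lit 0) (nat_lit 0) (XT.lf (nat_lit 0) (nat_lit 3225729240) (nat_lit 756) (nat_lit 3968283467) (nat_lit 840) (nat_lit 333129848) (nat_lit 163) (nat_lit 5) (nat_lit 172) (nat_lit 5) (nat_lit 173) (nat_lit 5) (nat_lit 305) (nat_lit 301) (nat_lit 258)) (XT.nd (nat_lit 94) (nat_lit 0) (nat_lit 0) (XT.lf (nat_lit 0) (nat_lit 4602701291) (nat_lit 756) (nat_lit 869389711) (nat_lit 840) (nat_lit 2132053339) (nat_lit 163) (nat_lit 5) (nat_lit 172) (nat_lit 5) (nat_lit 173) (nat_lit 5) (nat_lit 306) (nat_lit 301) (nat_lit 257)) (XT.lf (nat_lit 84) (nat_lit 2343426235) (nat_lit 0) (nat_lit 3652757254) (nat_lit 840) (nat_lit 1688387830) (nat_lit 164) (nat_lit 5) (nat_lit 163) (nat_lit 5) (nat_lit 173) (nat_lit 5) (nat_lit 307) (nat_lit 301) (nat_lit 256)))))) (XT.nd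 (nat_lit 470) (nat_lit 1680) (nat_lit 0) (XT.nd (nat_lit 188) (nat_lit 0) (nat_lit 0) (XT.nd (nat_lit 94) (nat_lit 756) (nat_lit 0) (XT.lf (nat_lit 84) (nat_lit 5645208977) (nat_lit 0) (nat_lit 1748504000) (nat_lit 840) (nat_lit 375212094) (nat_lit 164) (nat_lit 5) (nat_lit 163) (nat_lit 5) (nat_lit 173) (nat_lit 5) (nat_lit 308) (nat_lit 301) (nat_lit 255)) (XT.lf (nat_lit 0) (nat_lit 925707364) (nat_lit 840) (nat_lit 6681326787) (nat_lit 924) (nat_lit 249796161) (nat_lit 154) (nat_lit 5) (nat_lit 164) (nat_lit 5) (nat_lit 165) (nat_lit 5) (nat_lit 309) (nat_lit 301) (nat_lit 254))) (XT.nd (nat_lit 94) (nat_lit 0) (nat_lit 0) (XT.lf (nat_lit 0) (nat_lit 2253285529) (nat_lit 840) (nat_lit 3377580675) (nat_lit 924) (nat_lit 2316858220) (nat_lit 154) (nat_lit 5) (nat_lit 164) (nat_lit 5) (nat_lit 165) (nat_lit 5) (nat_lit 310) (nat_lit 301) (nat_lit 253)) (XT.nd (nat_lit 94) (nat_lit 0) (nat_lit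 0) (XT.lf (nat_lit 0) (nat_lit 3577253533) (nat_lit 840) (nat_lit 1370445) (nat_lit 924) (nat_lit 4464394583) (nat_lit 154) (nat_lit 5) (nat_lit 164) (nat_lit 5) (nat_lit 165) (nat_lit 5) (nat_lit 311) (nat_lit 301) (nat_lit 252)) (XT.lf (nat_lit 84) (nat_lit 3521399230) (nat_lit 0) (nat_lit 1412378940) (nat_lit 924) (nat_lit 3207940465) (nat_lit 155) (nat_lit 5) (nat_lit 154) (nat_lit 5) (nat_lit 165) (nat_lit 5) (nat_lit 312) (nat_lit 301) (nat_lit 251))))) (XT.nd (nat_lit 282) (nat_lit 840) (nat_lit 0) (XT.nd (nat_lit 94) (nat_lit 924) (nat_lit 0) (XT.lf (nat_lit 0) (nat_lit 6298250619) (nat_lit 840) (nat_lit 1128608965) (nat_lit 924) (nat_lit 817859130) (nat_lit 155) (nat_lit 5) (nat_lit 165) (nat_lit 5) (nat_lit 166) (nat_lit 5) (nat_lit 313) (nat_lit 301) (nat_lit 250)) (XT.nd (nat_lit 94) (nat_lit 924) (nat_lit 0) (XT.lf (nat_lit 84) (nat_lit 2477335689) (nat_lit 0) (nat_lit 5225714070)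 (nat_lit 924) (nat_lit 648100729) (nat_lit 156) (nat_lit 5) (nat_lit 155) (nat_lit 5) (nat_lit 166) (nat_lit 5) (nat_lit 314) (nat_lit 301) (nat_lit 249)) (XT.lf (nat_lit 0) (nat_lit 647876521) (nat_lit 924) (nat_lit 2278676705) (nat_lit 1008) (nat_lit 5535173654) (nat_lit 144) (nat_lit 5) (nat_lit 155) (nat_lit 5) (nat_lit 156) (nat_lit 5) (nat_lit 315) (nat_lit 301) (nat_lit 248)))) (XT.nd (nat_lit 94) (nat_lit 840) (nat_lit 0) (XT.lf (nat_lit 84) (nat_lit 1420631842) (nat_lit 0) (nat_lit 524621096) (nat_lit 1008) (nat_lit 6631219458) (nat_lit 145) (nat_lit 5) (nat_lit 144) (nat_lit 5) (nat_lit 156) (nat_lit 5) (nat_lit 316) (nat_lit 301) (nat_lit 247)) (XT.nd (nat_lit 94) (nat_lit 924) (nat_lit 0) (XT.lf (nat_lit 0) (nat_lit 3287823392) (nat_lit 924) (nat_lit 3461139042) (nat_lit 84) (nat_lit 1945815502) (nat_lit 145) (nat_lit 5) (nat_lit 156) (nat_lit 5) (nat_lit 146) (nat_lit 5) (nat_lit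 317) (nat_lit 301) (nat_lit 246)) (XT.lf (nat_lit 0) (nat_lit 319665880) (nat_lit 924) (nat_lit 4323625040) (nat_lit 1008) (nat_lit 4174502853) (nat_lit 134) (nat_lit 5) (nat_lit 145) (nat_lit 5) (nat_lit 146) (nat_lit 5) (nat_lit 318) (nat_lit 301) (nat_lit 245))))))))
noncomputable def xc68 : XT := (XT.nd (nat_lit 1974) (nat_lit 2772) (nat_lit 0) (XT.nd (nat_lit 940) (nat_lit 2436) (nat_lit 0) (XT.nd (nat_lit 470) (nat_lit 1092) (nat_lit 0) (XT.nd (nat_lit 188) (nat_lit 2184) (nat_lit 0) (XT.nd (nat_lit 94) (nat_lit 0) (nat_lit 0) (XT.lf (nat_lit 0) (nat_lit 4261841566) (nat_lit 924) (nat_lit 1778634753) (nat_lit 1008) (nat_lit 2904303973) (nat_lit 134) (nat_lit 5) (nat_lit 145) (nat_lit 5) (nat_lit 146) (nat_lit 5) (nat_lit 319) (nat_lit 301) (nat_lit 244)) (XT.lf (nat_lit 0) (nat_lit 7454095448) (nat_lit 1008) (nat_lit 787502166) (nat_lit 84) (nat_lit 835082423) (nat_lit 134) (nat_lit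 5) (nat_lit 146) (nat_lit 5) (nat_lit 135) (nat_lit 5) (nat_lit 320) (nat_lit 301) (nat_lit 243))) (XT.nd (nat_lit 94) (nat_lit 1176) (nat_lit 0) (XT.lf (nat_lit 0) (nat_lit 3247177753) (nat_lit 1008) (nat_lit 5680558981) (nat_lit 1092) (nat_lit 284568827) (nat_lit 122) (nat_lit 5) (nat_lit 134) (nat_lit 5) (nat_lit 135) (nat_lit 5) (nat_lit 321) (nat_lit 301) (nat_lit 242)) (XT.nd (nat_lit 94) (nat_lit 1092) (nat_lit 0) (XT.lf (nat_lit 0) (nat_lit 1047237170) (nat_lit 1092) (nat_lit 1968483975) (nat_lit 84) (nat_lit 6337002927) (nat_lit 121) (nat_lit 5) (nat_lit 134) (nat_lit 5) (nat_lit 122) (nat_lit 5) (nat_lit 322) (nat_lit 301) (nat_lit 241)) (XT.lf (nat_lit 0) (nat_lit 2164347833) (nat_lit 1092) (nat_lit 238629094) (nat_lit 1176) (nat_lit 7094909991) (nat_lit 108) (nat_lit 5) (nat_lit 121) (nat_lit 5) (nat_lit 122) (nat_lit 5) (nat_lit 323) (nat_lit 301) (nat_lit 240))))) (XT.nd (nat_lit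 188) (nat_lit 588) (nat_lit 0) (XT.nd (nat_lit 94) (nat_lit 504) (nat_lit 0) (XT.lf (nat_lit 0) (nat_lit 3815377105) (nat_lit 1176) (nat_lit 3235409214) (nat_lit 84) (nat_lit 2596432980) (nat_lit 108) (nat_lit 5) (nat_lit 122) (nat_lit 5) (nat_lit 109) (nat_lit 5) (nat_lit 324) (nat_lit 301) (nat_lit 239)) (XT.lf (nat_lit 0) (nat_lit 978641280) (nat_lit 504) (nat_lit 4273875781) (nat_lit 588) (nat_lit 4549373702) (nat_lit 102) (nat_lit 5) (nat_lit 108) (nat_lit 5) (nat_lit 109) (nat_lit 5) (nat_lit 325) (nat_lit 301) (nat_lit 238))) (XT.nd (nat_lit 94) (nat_lit 588) (nat_lit 0) (XT.lf (nat_lit 0) (nat_lit 5363805592) (nat_lit 504) (nat_lit 1373639376) (nat_lit 588) (nat_lit 3223927542) (nat_lit 102) (nat_lit 5) (nat_lit 108) (nat_lit 5) (nat_lit 109) (nat_lit 5) (nat_lit 326) (nat_lit 301) (nat_lit 237)) (XT.nd (nat_lit 94) (nat_lit 588) (nat_lit 0) (XT.lf (nat_lit 0) (nat_lit 8254848567)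 (nat_lit 588) (nat_lit 285243361) (nat_lit 84) (nat_lit 1586238857) (nat_lit 102) (nat_lit 5) (nat_lit 109) (nat_lit 5) (nat_lit 103) (nat_lit 5) (nat_lit 327) (nat_lit 301) (nat_lit 236)) (XT.lf (nat_lit 0) (nat_lit 4203945519) (nat_lit 588) (nat_lit 5642395718) (nat_lit 672) (nat_lit 449331937) (nat_lit 95) (nat_lit 5) (nat_lit 102) (nat_lit 5) (nat_lit 103) (nat_lit 5) (nat_lit 328) (nat_lit 301) (nat_lit 235)))))) (XT.nd (nat_lit 470) (nat_lit 1344) (nat_lit 0) (XT.nd (nat_lit 188) (nat_lit 504) (nat_lit 0) (XT.nd (nat_lit 94) (nat_lit 504) (nat_lit 0) (XT.lf (nat_lit 0) (nat_lit 970923523) (nat_lit 672) (nat_lit 1669823075) (nat_lit 84) (nat_lit 7830098635) (nat_lit 94) (nat_lit 5) (nat_lit 102) (nat_lit 5) (nat_lit 95) (nat_lit 5) (nat_lit 329) (nat_lit 301) (nat_lit 234)) (XT.lf (nat_lit 0) (nat_lit 2432011297) (nat_lit 588) (nat_lit 7739935300) (nat_lit 84) (nat_lit 479267696) (nat_lit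 88) (nat_lit 5) (nat_lit 95) (nat_lit 5) (nat_lit 89) (nat_lit 5) (nat_lit 330) (nat_lit 301) (nat_lit 233))) (XT.nd (nat_lit 94) (nat_lit 504) (nat_lit 0) (XT.lf (nat_lit 0) (nat_lit 3955934022) (nat_lit 588) (nat_lit 3221731904) (nat_lit 84) (nat_lit 3659061511) (nat_lit 88) (nat_lit 5) (nat_lit 95) (nat_lit 5) (nat_lit 89) (nat_lit 5) (nat_lit 331) (nat_lit 301) (nat_lit 232)) (XT.nd (nat_lit 94) (nat_lit 0) (nat_lit 0) (XT.lf (nat_lit 0) (nat_lit 1438649273) (nat_lit 504) (nat_lit 4076459564) (nat_lit 588) (nat_lit 5513347848) (nat_lit 82) (nat_lit 5) (nat_lit 88) (nat_lit 5) (nat_lit 89) (nat_lit 5) (nat_lit 332) (nat_lit 301) (nat_lit 231)) (XT.lf (nat_lit 0) (nat_lit 6285201247) (nat_lit 504) (nat_lit 845309746) (nat_lit 588) (nat_lit 4095464577) (nat_lit 82) (nat_lit 5) (nat_lit 88) (nat_lit 5) (nat_lit 89) (nat_lit 5) (nat_lit 333) (nat_lit 301) (nat_lit 230))))) (XT.nd (nat_lit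 282) (nat_lit 840) (nat_lit 0) (XT.nd (nat_lit 94) (nat_lit 504) (nat_lit 0) (XT.lf (nat_lit 0) (nat_lit 8795682236) (nat_lit 588) (nat_lit 198936401) (nat_lit 84) (nat_lit 2435096445) (nat_lit 82) (nat_lit 5) (nat_lit 89) (nat_lit 5) (nat_lit 83) (nat_lit 5) (nat_lit 334) (nat_lit 301) (nat_lit 229)) (XT.nd (nat_lit 94) (nat_lit 84) (nat_lit 0) (XT.lf (nat_lit 0) (nat_lit 4751125265) (nat_lit 420) (nat_lit 5792906729) (nat_lit 504) (nat_lit 1094845558) (nat_lit 77) (nat_lit 5) (nat_lit 82) (nat_lit 5) (nat_lit 83) (nat_lit 5) (nat_lit 335) (nat_lit 301) (nat_lit 228)) (XT.lf (nat_lit 0) (nat_lit 460171744) (nat_lit 504) (nat_lit 2026671736) (nat_lit 84) (nat_lit 9368290642) (nat_lit 76) (nat_lit 5) (nat_lit 82) (nat_lit 5) (nat_lit 77) (nat_lit 5) (nat_lit 336) (nat_lit 301) (nat_lit 227)))) (XT.nd (nat_lit 94) (nat_lit 420) (nat_lit 0) (XT.lf (nat_lit 0) (nat_lit 2056701369) (nat_lit 504)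 (nat_lit 9078013444) (nat_lit 84) (nat_lit 942613043) (nat_lit 71) (nat_lit 5) (nat_lit 77) (nat_lit 5) (nat_lit 72) (nat_lit 5) (nat_lit 337) (nat_lit 301) (nat_lit 226)) (XT.nd (nat_lit 94) (nat_lit 420) (nat_lit 0) (XT.lf (nat_lit 0) (nat_lit 3726614248) (nat_lit 504) (nat_lit 4133219341) (nat_lit 84) (nat_lit 4445910920) (nat_lit 71) (nat_lit 5) (nat_lit 77) (nat_lit 5) (nat_lit 72) (nat_lit 5) (nat_lit 338) (nat_lit 301) (nat_lit 225)) (XT.lf (nat_lit 0) (nat_lit 959079893) (nat_lit 420) (nat_lit 4476503331) (nat_lit 504) (nat_lit 7106126157) (nat_lit 66) (nat_lit 5) (nat_lit 71) (nat_lit 5) (nat_lit 72) (nat_lit 5) (nat_lit 339) (nat_lit 301) (nat_lit 224))))))) (XT.nd (nat_lit 940) (nat_lit 1260) (nat_lit 0) (XT.nd (nat_lit 470) (nat_lit 672) (nat_lit 0) (XT.nd (nat_lit 188) (nat_lit 840) (nat_lit 0) (XT.nd (nat_lit 94) (nat_lit 0) (nat_lit 0) (XT.lf (nat_lit 0) (nat_lit 6272009857)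 (nat_lit 420) (nat_lit 946859051) (nat_lit 504) (nat_lit 5565529810) (nat_lit 66) (nat_lit 5) (nat_lit 71) (nat_lit 5) (nat_lit 72) (nat_lit 5) (nat_lit 340) (nat_lit 301) (nat_lit 223)) (XT.lf (nat_lit 0) (nat_lit 9062966040) (nat_lit 504) (nat_lit 1336478302) (nat_lit 84) (nat_lit 2635064583) (nat_lit 66) (nat_lit 5) (nat_lit 72) (nat_lit 5) (nat_lit 67) (nat_lit 5) (nat_lit 341) (nat_lit 301) (nat_lit 222))) (XT.nd (nat_lit 94) (nat_lit 420) (nat_lit 0) (XT.lf (nat_lit 0) (nat_lit 4047698619) (nat_lit 420) (nat_lit 6945828725) (nat_lit 504) (nat_lit 2298003837) (nat_lit 61) (nat_lit 5) (nat_lit 66) (nat_lit 5) (nat_lit 67) (nat_lit 5) (nat_lit 342) (nat_lit 301) (nat_lit 221)) (XT.nd (nat_lit 94) (nat_lit 420) (nat_lit 0) (XT.lf (nat_lit 0) (nat_lit 9603306369) (nat_lit 420) (nat_lit 3374420528) (nat_lit 504) (nat_lit 579051551) (nat_lit 61) (nat_lit 5) (nat_lit 66) (nat_lit 5) (nat_lit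 67) (nat_lit 5) (nat_lit 343) (nat_lit 301) (nat_lit 220)) (XT.lf (nat_lit 0) (nat_lit 1167458283) (nat_lit 420) (nat_lit 12337762103) (nat_lit 84) (nat_lit 324774440) (nat_lit 56) (nat_lit 5) (nat_lit 61) (nat_lit 5) (nat_lit 57) (nat_lit 5) (nat_lit 344) (nat_lit 301) (nat_lit 219))))) (XT.nd (nat_lit 188) (nat_lit 672) (nat_lit 0) (XT.nd (nat_lit 94) (nat_lit 0) (nat_lit 0) (XT.lf (nat_lit 0) (nat_lit 3012793497) (nat_lit 420) (nat_lit 6984641415) (nat_lit 84) (nat_lit 4112363502) (nat_lit 56) (nat_lit 5) (nat_lit 61) (nat_lit 5) (nat_lit 57) (nat_lit 5) (nat_lit 345) (nat_lit 301) (nat_lit 218)) (XT.lf (nat_lit 0) (nat_lit 4896431345) (nat_lit 420) (nat_lit 1488802778) (nat_lit 84) (nat_lit 8013685158) (nat_lit 56) (nat_lit 5) (nat_lit 61) (nat_lit 5) (nat_lit 57) (nat_lit 5) (nat_lit 346) (nat_lit 301) (nat_lit 217))) (XT.nd (nat_lit 94) (nat_lit 336) (nat_lit 0) (XT.lf (nat_lit 0)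 (nat_lit 4240309287) (nat_lit 336) (nat_lit 2621882680) (nat_lit 420) (nat_lit 7834130953) (nat_lit 52) (nat_lit 5) (nat_lit 56) (nat_lit 5) (nat_lit 57) (nat_lit 5) (nat_lit 347) (nat_lit 301) (nat_lit 216)) (XT.nd (nat_lit 94) (nat_lit 336) (nat_lit 0) (XT.lf (nat_lit 0) (nat_lit 8899023996) (nat_lit 420) (nat_lit 4859390171) (nat_lit 84) (nat_lit 1244271770) (nat_lit 52) (nat_lit 5) (nat_lit 57) (nat_lit 5) (nat_lit 53) (nat_lit 5) (nat_lit 348) (nat_lit 301) (nat_lit 215)) (XT.lf (nat_lit 0) (nat_lit 879447808) (nat_lit 336) (nat_lit 10137585576) (nat_lit 420) (nat_lit 4301006083) (nat_lit 48) (nat_lit 5) (nat_lit 52) (nat_lit 5) (nat_lit 53) (nat_lit 5) (nat_lit 349) (nat_lit 301) (nat_lit 214)))))) (XT.nd (nat_lit 470) (nat_lit 840) (nat_lit 0) (XT.nd (nat_lit 188) (nat_lit 420) (nat_lit 0) (XT.nd (nat_lit 94) (nat_lit 0) (nat_lit 0) (XT.lf (nat_lit 0) (nat_lit 6877246849) (nat_lit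 336) (nat_lit 6356980404) (nat_lit 420) (nat_lit 2407953177) (nat_lit 48) (nat_lit 5) (nat_lit 52) (nat_lit 5) (nat_lit 53) (nat_lit 5) (nat_lit 350) (nat_lit 301) (nat_lit 213)) (XT.lf (nat_lit 0) (nat_lit 13039678498) (nat_lit 336) (nat_lit 2463796801) (nat_lit 420) (nat_lit 473460766) (nat_lit 48) (nat_lit 5) (nat_lit 52) (nat_lit 5) (nat_lit 53) (nat_lit 5) (nat_lit 351) (nat_lit 301) (nat_lit 212))) (XT.nd (nat_lit 94) (nat_lit 0) (nat_lit 0) (XT.lf (nat_lit 0) (nat_lit 1520491986) (nat_lit 420) (nat_lit 13239652144) (nat_lit 84) (nat_lit 1560569379) (nat_lit 43) (nat_lit 5) (nat_lit 48) (nat_lit 5) (nat_lit 44) (nat_lit 5) (nat_lit 352) (nat_lit 301) (nat_lit 211)) (XT.nd (nat_lit 94) (nat_lit 0) (nat_lit 0) (XT.lf (nat_lit 0) (nat_lit 3606443428) (nat_lit 420) (nat_lit 7377662258) (nat_lit 84) (nat_lit 5689696550) (nat_lit 43) (nat_lit 5) (nat_lit 48) (nat_lit 5) (nat_lit 44) (nat_lit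 5) (nat_lit 353) (nat_lit 301) (nat_lit 210)) (XT.lf (nat_lit 0) (nat_lit 5741394659) (nat_lit 420) (nat_lit 1354635776) (nat_lit 84) (nat_lit 9942335480) (nat_lit 43) (nat_lit 5) (nat_lit 48) (nat_lit 5) (nat_lit 44) (nat_lit 5) (nat_lit 354) (nat_lit 301) (nat_lit 209))))) (XT.nd (nat_lit 282) (nat_lit 588) (nat_lit 0) (XT.nd (nat_lit 94) (nat_lit 0) (nat_lit 0) (XT.lf (nat_lit 0) (nat_lit 4934459759) (nat_lit 252) (nat_lit 3041826369) (nat_lit 336) (nat_lit 9436940767) (nat_lit 40) (nat_lit 5) (nat_lit 43) (nat_lit 5) (nat_lit 44) (nat_lit 5) (nat_lit 355) (nat_lit 301) (nat_lit 208)) (XT.nd (nat_lit 94) (nat_lit 0) (nat_lit 0) (XT.lf (nat_lit 0) (nat_lit 10291050405) (nat_lit 336) (nat_lit 6383784814) (nat_lit 84) (nat_lit 1124586034) (nat_lit 40) (nat_lit 5) (nat_lit 44) (nat_lit 5) (nat_lit 41) (nat_lit 5) (nat_lit 356) (nat_lit 301) (nat_lit 207)) (XT.lf (nat_lit 0) (nat_lit 12694150860)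 (nat_lit 336) (nat_lit 150673044) (nat_lit 84) (nat_lit 5352289578) (nat_lit 40) (nat_lit 5) (nat_lit 44) (nat_lit 5) (nat_lit 41) (nat_lit 5) (nat_lit 357) (nat_lit 301) (nat_lit 206)))) (XT.nd (nat_lit 94) (nat_lit 336) (nat_lit 0) (XT.lf (nat_lit 0) (nat_lit 6385200950) (nat_lit 252) (nat_lit 8835793177) (nat_lit 336) (nat_lit 3384651982) (nat_lit 37) (nat_lit 5) (nat_lit 40) (nat_lit 5) (nat_lit 41) (nat_lit 5) (nat_lit 358) (nat_lit 301) (nat_lit 205)) (XT.nd (nat_lit 94) (nat_lit 336) (nat_lit 0) (XT.lf (nat_lit 0) (nat_lit 13107962907) (nat_lit 252) (nat_lit 4705920202) (nat_lit 336) (nat_lit 1213378441) (nat_lit 37) (nat_lit 5) (nat_lit 40) (nat_lit 5) (nat_lit 41) (nat_lit 5) (nat_lit 359) (nat_lit 301) (nat_lit 204)) (XT.lf (nat_lit 0) (nat_lit 559623774) (nat_lit 252) (nat_lit 436861274) (nat_lit 336) (nat_lit 18465431936) (nat_lit 33) (nat_lit 5) (nat_lit 36) (nat_lit 5) (nat_lit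 37) (nat_lit 5) (nat_lit 360) (nat_lit 301) (nat_lit 203))))))))
noncomputable def xc69 : XT := (XT.nd (nat_lit 49444) (nat_lit 0) (nat_lit 5544) (XT.nd (nat_lit 940) (nat_lit 168) (nat_lit 0) (XT.nd (nat_lit 470) (nat_lit 504) (nat_lit 0) (XT.nd (nat_lit 188) (nat_lit 252) (nat_lit 0) (XT.nd (nat_lit 94) (nat_lit 0) (nat_lit 0) (XT.lf (nat_lit 0) (nat_lit 3337955722) (nat_lit 336) (nat_lit 12614497678) (nat_lit 84) (nat_lit 3954505286) (nat_lit 33) (nat_lit 5) (nat_lit 37) (nat_lit 5) (nat_lit 34) (nat_lit 5) (nat_lit 361) (nat_lit 301) (nat_lit 202)) (XT.lf (nat_lit 0) (nat_lit 5743444327) (nat_lit 336) (nat_lit 6154555488) (nat_lit 84) (nat_lit 8468095585) (nat_lit 33) (nat_lit 5) (nat_lit 37) (nat_lit 5) (nat_lit 34) (nat_lit 5) (nat_lit 362) (nat_lit 301) (nat_lit 201))) (XT.nd (nat_lit 94) (nat_lit 0) (nat_lit 0) (XT.lf (nat_lit 0) (nat_lit 497920406) (nat_lit 252) (nat_lit 7717878339)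 (nat_lit 336) (nat_lit 12623937568) (nat_lit 30) (nat_lit 5) (nat_lit 33) (nat_lit 5) (nat_lit 34) (nat_lit 5) (nat_lit 363) (nat_lit 301) (nat_lit 200)) (XT.nd (nat_lit 94) (nat_lit 0) (nat_lit 0) (XT.lf (nat_lit 0) (nat_lit 7469519675) (nat_lit 252) (nat_lit 3347079455) (nat_lit 336) (nat_lit 10509886233) (nat_lit 30) (nat_lit 5) (nat_lit 33) (nat_lit 5) (nat_lit 34) (nat_lit 5) (nat_lit 364) (nat_lit 301) (nat_lit 199)) (XT.lf (nat_lit 0) (nat_lit 13497410457) (nat_lit 336) (nat_lit 7199987648) (nat_lit 84) (nat_lit 1130974781) (nat_lit 30) (nat_lit 5) (nat_lit 34) (nat_lit 5) (nat_lit 31) (nat_lit 5) (nat_lit 365) (nat_lit 301) (nat_lit 198))))) (XT.nd (nat_lit 188) (nat_lit 336) (nat_lit 0) (XT.nd (nat_lit 94) (nat_lit 168) (nat_lit 0) (XT.lf (nat_lit 0) (nat_lit 16283810491) (nat_lit 336) (nat_lit 387755755) (nat_lit 84) (nat_lit 5673585001) (nat_lit 30) (nat_lit 5) (nat_lit 34) (nat_lit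 5) (nat_lit 31) (nat_lit 5) (nat_lit 366) (nat_lit 301) (nat_lit 197)) (XT.lf (nat_lit 0) (nat_lit 6755389184) (nat_lit 168) (nat_lit 12456818118) (nat_lit 252) (nat_lit 3664046698) (nat_lit 28) (nat_lit 5) (nat_lit 30) (nat_lit 5) (nat_lit 31) (nat_lit 5) (nat_lit 367) (nat_lit 301) (nat_lit 196))) (XT.nd (nat_lit 94) (nat_lit 336) (nat_lit 0) (XT.lf (nat_lit 0) (nat_lit 14111985410) (nat_lit 168) (nat_lit 8112232342) (nat_lit 252) (nat_lit 1199852933) (nat_lit 28) (nat_lit 5) (nat_lit 30) (nat_lit 5) (nat_lit 31) (nat_lit 5) (nat_lit 368) (nat_lit 301) (nat_lit 195)) (XT.nd (nat_lit 94) (nat_lit 252) (nat_lit 0) (XT.lf (nat_lit 0) (nat_lit 1302703789) (nat_lit 252) (nat_lit 2321505337) (nat_lit 84) (nat_lit 20364615641) (nat_lit 27) (nat_lit 5) (nat_lit 30) (nat_lit 5) (nat_lit 28) (nat_lit 5) (nat_lit 369) (nat_lit 301) (nat_lit 194)) (XT.lf (nat_lit 0) (nat_lit 3906946111) (nat_lit 336)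 (nat_lit 19622157202) (nat_lit 84) (nat_lit 1040107724) (nat_lit 24) (nat_lit 5) (nat_lit 28) (nat_lit 5) (nat_lit 25) (nat_lit 5) (nat_lit 370) (nat_lit 301) (nat_lit 193)))))) (XT.nd (nat_lit 47940) (nat_lit 0) (nat_lit 11004) (XT.nd (nat_lit 188) (nat_lit 168) (nat_lit 0) (XT.nd (nat_lit 94) (nat_lit 0) (nat_lit 0) (XT.lf (nat_lit 0) (nat_lit 6642904813) (nat_lit 336) (nat_lit 12729637038) (nat_lit 84) (nat_lit 5793491306) (nat_lit 24) (nat_lit 5) (nat_lit 28) (nat_lit 5) (nat_lit 25) (nat_lit 5) (nat_lit 371) (nat_lit 301) (nat_lit 192)) (XT.lf (nat_lit 0) (nat_lit 9453433955) (nat_lit 336) (nat_lit 5638615588) (nat_lit 84) (nat_lit 10689648467) (nat_lit 24) (nat_lit 5) (nat_lit 28) (nat_lit 5) (nat_lit 25) (nat_lit 5) (nat_lit 372) (nat_lit 301) (nat_lit 191))) (XT.nd (nat_lit 47564) (nat_lit 0) (nat_lit 11760) (XT.lf (nat_lit 0) (nat_lit 1691598665) (nat_lit 168) (nat_lit 10666335445)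 (nat_lit 252) (nat_lit 14058325143) (nat_lit 22) (nat_lit 5) (nat_lit 24) (nat_lit 5) (nat_lit 25) (nat_lit 5) (nat_lit 373) (nat_lit 301) (nat_lit 190)) (XT.nd (nat_lit 94) (nat_lit 0) (nat_lit 0) (XT.lf (nat_lit 0) (nat_lit 111500580) (nat_lit 0) (nat_lit 111500580) (nat_lit 756) (nat_lit 3467959310) (nat_lit 162) (nat_lit 5) (nat_lit 162) (nat_lit 3) (nat_lit 171) (nat_lit 3) (nat_lit 302) (nat_lit 302) (nat_lit 260)) (XT.lf (nat_lit 0) (nat_lit 1776375485) (nat_lit 756) (nat_lit 4234271914) (nat_lit 840) (nat_lit 1438686398) (nat_lit 162) (nat_lit 5) (nat_lit 171) (nat_lit 3) (nat_lit 172) (nat_lit 5) (nat_lit 303) (nat_lit 302) (nat_lit 259))))) (XT.nd (nat_lit 282) (nat_lit 756) (nat_lit 0) (XT.nd (nat_lit 94) (nat_lit 0) (nat_lit 0) (XT.lf (nat_lit 0) (nat_lit 3097789976) (nat_lit 756) (nat_lit 1249749632) (nat_lit 840) (nat_lit 3173094002) (nat_lit 162) (nat_lit 5) (nat_lit 171)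 (nat_lit 3) (nat_lit 172) (nat_lit 5) (nat_lit 304) (nat_lit 302) (nat_lit 258)) (XT.nd (nat_lit 94) (nat_lit 0) (nat_lit 0) (XT.lf (nat_lit 84) (nat_lit 1836645461) (nat_lit 0) (nat_lit 2590839582) (nat_lit 840) (nat_lit 3167905565) (nat_lit 163) (nat_lit 5) (nat_lit 162) (nat_lit 5) (nat_lit 172) (nat_lit 5) (nat_lit 305) (nat_lit 302) (nat_lit 257)) (XT.lf (nat_lit 84) (nat_lit 5017841097) (nat_lit 0) (nat_lit 743960377) (nat_lit 840) (nat_lit 1912024855) (nat_lit 163) (nat_lit 5) (nat_lit 162) (nat_lit 5) (nat_lit 172) (nat_lit 5) (nat_lit 306) (nat_lit 302) (nat_lit 256)))) (XT.nd (nat_lit 94) (nat_lit 840) (nat_lit 0) (XT.lf (nat_lit 84) (nat_lit 513317809) (nat_lit 0) (nat_lit 6592828117) (nat_lit 840) (nat_lit 649738907) (nat_lit 164) (nat_lit 5) (nat_lit 163) (nat_lit 5) (nat_lit 173) (nat_lit 5) (nat_lit 307) (nat_lit 302) (nat_lit 255)) (XT.nd (nat_lit 94) (nat_lit 0) (nat_lit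 0) (XT.lf (nat_lit 0) (nat_lit 626700960) (nat_lit 840) (nat_lit 4046180300) (nat_lit 924) (nat_lit 3167979586) (nat_lit 153) (nat_lit 5) (nat_lit 163) (nat_lit 5) (nat_lit 164) (nat_lit 5) (nat_lit 308) (nat_lit 302) (nat_lit 254)) (XT.lf (nat_lit 0) (nat_lit 1883178328) (nat_lit 840) (nat_lit 785837862) (nat_lit 924) (nat_lit 5260876646) (nat_lit 153) (nat_lit 5) (nat_lit 163) (nat_lit 5) (nat_lit 164) (nat_lit 5) (nat_lit 309) (nat_lit 302) (nat_lit 253))))))) (XT.nd (nat_lit 1034) (nat_lit 3864) (nat_lit 0) (XT.nd (nat_lit 470) (nat_lit 840) (nat_lit 0) (XT.nd (nat_lit 188) (nat_lit 756) (nat_lit 0) (XT.nd (nat_lit 94) (nat_lit 0) (nat_lit 84) (XT.lf (nat_lit 84) (nat_lit 2600335730) (nat_lit 0) (nat_lit 559415078) (nat_lit 924) (nat_lit 4862713126) (nat_lit 154) (nat_lit 5) (nat_lit 153) (nat_lit 5) (nat_lit 164) (nat_lit 5) (nat_lit 310) (nat_lit 302) (nat_lit 252)) (XT.lf (nat_lit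 0) (nat_lit 4456791162) (nat_lit 840) (nat_lit 2054672505) (nat_lit 924) (nat_lit 1607222092) (nat_lit 154) (nat_lit 5) (nat_lit 164) (nat_lit 5) (nat_lit 165) (nat_lit 5) (nat_lit 311) (nat_lit 302) (nat_lit 251))) (XT.nd (nat_lit 94) (nat_lit 840) (nat_lit 0) (XT.lf (nat_lit 84) (nat_lit 1411717888) (nat_lit 0) (nat_lit 4359934225) (nat_lit 924) (nat_lit 2447115430) (nat_lit 155) (nat_lit 5) (nat_lit 154) (nat_lit 5) (nat_lit 165) (nat_lit 5) (nat_lit 312) (nat_lit 302) (nat_lit 250)) (XT.nd (nat_lit 94) (nat_lit 840) (nat_lit 0) (XT.lf (nat_lit 84) (nat_lit 5001231734) (nat_lit 0) (nat_lit 2106364583) (nat_lit 924) (nat_lit 1215143105) (nat_lit 155) (nat_lit 5) (nat_lit 154) (nat_lit 5) (nat_lit 165) (nat_lit 5) (nat_lit 313) (nat_lit 302) (nat_lit 249)) (XT.lf (nat_lit 0) (nat_lit 18219948) (nat_lit 924) (nat_lit 8185075918) (nat_lit 1008) (nat_lit 227895135) (nat_lit 144) (nat_lit 5)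 (nat_lit 155) (nat_lit 5) (nat_lit 156) (nat_lit 5) (nat_lit 314) (nat_lit 302) (nat_lit 248))))) (XT.nd (nat_lit 282) (nat_lit 840) (nat_lit 0) (XT.nd (nat_lit 94) (nat_lit 0) (nat_lit 0) (XT.lf (nat_lit 0) (nat_lit 1281736954) (nat_lit 924) (nat_lit 4610780085) (nat_lit 1008) (nat_lit 2649732299) (nat_lit 144) (nat_lit 5) (nat_lit 155) (nat_lit 5) (nat_lit 156) (nat_lit 5) (nat_lit 315) (nat_lit 302) (nat_lit 247)) (XT.nd (nat_lit 94) (nat_lit 0) (nat_lit 0) (XT.lf (nat_lit 0) (nat_lit 2546201459) (nat_lit 924) (nat_lit 954073755) (nat_lit 1008) (nat_lit 5157817284) (nat_lit 144) (nat_lit 5) (nat_lit 155) (nat_lit 5) (nat_lit 156) (nat_lit 5) (nat_lit 316) (nat_lit 302) (nat_lit 246)) (XT.lf (nat_lit 84) (nat_lit 2845787785) (nat_lit 0) (nat_lit 995234859) (nat_lit 1008) (nat_lit 4936930671) (nat_lit 145) (nat_lit 5) (nat_lit 144) (nat_lit 5) (nat_lit 156) (nat_lit 5) (nat_lit 317) (nat_lit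 302) (nat_lit 245)))) (XT.nd (nat_lit 94) (nat_lit 924) (nat_lit 0) (XT.lf (nat_lit 0) (nat_lit 5165652465) (nat_lit 924) (nat_lit 2162019906) (nat_lit 84) (nat_lit 1574325542) (nat_lit 145) (nat_lit 5) (nat_lit 156) (nat_lit 5) (nat_lit 146) (nat_lit 5) (nat_lit 318) (nat_lit 302) (nat_lit 244)) (XT.nd (nat_lit 94) (nat_lit 0) (nat_lit 0) (XT.lf (nat_lit 0) (nat_lit 1721751285) (nat_lit 924) (nat_lit 4801800985) (nat_lit 1008) (nat_lit 2506720618) (nat_lit 134) (nat_lit 5) (nat_lit 145) (nat_lit 5) (nat_lit 146) (nat_lit 5) (nat_lit 319) (nat_lit 302) (nat_lit 243)) (XT.lf (nat_lit 0) (nat_lit 5744274623) (nat_lit 924) (nat_lit 2167568326) (nat_lit 1008) (nat_lit 1251183348) (nat_lit 134) (nat_lit 5) (nat_lit 145) (nat_lit 5) (nat_lit 146) (nat_lit 5) (nat_lit 320) (nat_lit 302) (nat_lit 242)))))) (XT.nd (nat_lit 470) (nat_lit 1680) (nat_lit 0) (XT.nd (nat_lit 188) (nat_lit 1092) (nat_lit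 0) (XT.nd (nat_lit 94) (nat_lit 0) (nat_lit 0) (XT.lf (nat_lit 0) (nat_lit 19961892) (nat_lit 1092) (nat_lit 8731158583) (nat_lit 84) (nat_lit 549587819) (nat_lit 121) (nat_lit 5) (nat_lit 134) (nat_lit 5) (nat_lit 122) (nat_lit 5) (nat_lit 321) (nat_lit 302) (nat_lit 241)) (XT.lf (nat_lit 0) (nat_lit 1329829804) (nat_lit 1092) (nat_lit 4751323084) (nat_lit 84) (nat_lit 3360451237) (nat_lit 121) (nat_lit 5) (nat_lit 134) (nat_lit 5) (nat_lit 122) (nat_lit 5) (nat_lit 322) (nat_lit 302) (nat_lit 240))) (XT.nd (nat_lit 94) (nat_lit 1092) (nat_lit 0) (XT.lf (nat_lit 0) (nat_lit 2648381544) (nat_lit 1092) (nat_lit 675662927) (nat_lit 84) (nat_lit 6263935936) (nat_lit 121) (nat_lit 5) (nat_lit 134) (nat_lit 5) (nat_lit 122) (nat_lit 5) (nat_lit 323) (nat_lit 302) (nat_lit 239)) (XT.nd (nat_lit 94) (nat_lit 0) (nat_lit 0) (XT.lf (nat_lit 0) (nat_lit 3571580211) (nat_lit 1092) (nat_lit 440696446)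 (nat_lit 1176) (nat_lit 5726598574) (nat_lit 108) (nat_lit 5) (nat_lit 121) (nat_lit 5) (nat_lit 122) (nat_lit 5) (nat_lit 324) (nat_lit 302) (nat_lit 238)) (XT.lf (nat_lit 0) (nat_lit 5420439729) (nat_lit 1176) (nat_lit 1982152171) (nat_lit 84) (nat_lit 2491910098) (nat_lit 108) (nat_lit 5) (nat_lit 122) (nat_lit 5) (nat_lit 109) (nat_lit 5) (nat_lit 325) (nat_lit 302) (nat_lit 237))))) (XT.nd (nat_lit 282) (nat_lit 588) (nat_lit 0) (XT.nd (nat_lit 94) (nat_lit 588) (nat_lit 0) (XT.lf (nat_lit 0) (nat_lit 2348830362) (nat_lit 504) (nat_lit 4521887627) (nat_lit 588) (nat_lit 3184395199) (nat_lit 102) (nat_lit 5) (nat_lit 108) (nat_lit 5) (nat_lit 109) (nat_lit 5) (nat_lit 326) (nat_lit 302) (nat_lit 236)) (XT.nd (nat_lit 94) (nat_lit 588) (nat_lit 0) (XT.lf (nat_lit 0) (nat_lit 6829648262) (nat_lit 504) (nat_lit 1528270399) (nat_lit 588) (nat_lit 1863142733) (nat_lit 102) (nat_lit 5) (nat_lit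 108) (nat_lit 5) (nat_lit 109) (nat_lit 5) (nat_lit 327) (nat_lit 302) (nat_lit 235)) (XT.lf (nat_lit 0) (nat_lit 1035991567) (nat_lit 588) (nat_lit 8853125029) (nat_lit 672) (nat_lit 503208352) (nat_lit 95) (nat_lit 5) (nat_lit 102) (nat_lit 5) (nat_lit 103) (nat_lit 5) (nat_lit 328) (nat_lit 302) (nat_lit 234)))) (XT.nd (nat_lit 94) (nat_lit 504) (nat_lit 0) (XT.lf (nat_lit 0) (nat_lit 904521591) (nat_lit 672) (nat_lit 4947207953) (nat_lit 84) (nat_lit 4716254920) (nat_lit 94) (nat_lit 5) (nat_lit 102) (nat_lit 5) (nat_lit 95) (nat_lit 5) (nat_lit 329) (nat_lit 302) (nat_lit 233)) (XT.nd (nat_lit 94) (nat_lit 504) (nat_lit 0) (XT.lf (nat_lit 0) (nat_lit 2318625583) (nat_lit 672) (nat_lit 432773186) (nat_lit 84) (nat_lit 7998458727) (nat_lit 94) (nat_lit 5) (nat_lit 102) (nat_lit 5) (nat_lit 95) (nat_lit 5) (nat_lit 330) (nat_lit 302) (nat_lit 232)) (XT.lf (nat_lit 0) (nat_lit 3797897711)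 (nat_lit 588) (nat_lit 6659353758) (nat_lit 84) (nat_lit 479549387) (nat_lit 88) (nat_lit 5) (nat_lit 95) (nat_lit 5) (nat_lit 89) (nat_lit 5) (nat_lit 331) (nat_lit 302) (nat_lit 231))))))))
noncomputable def xc70 : XT := (XT.nd (nat_lit 1974) (nat_lit 1932) (nat_lit 0) (XT.nd (nat_lit 940) (nat_lit 1596) (nat_lit 0) (XT.nd (nat_lit 470) (nat_lit 840) (nat_lit 0) (XT.nd (nat_lit 188) (nat_lit 504) (nat_lit 0) (XT.nd (nat_lit 94) (nat_lit 504) (nat_lit 0) (XT.lf (nat_lit 0) (nat_lit 5330259600) (nat_lit 588) (nat_lit 2040791299) (nat_lit 84) (nat_lit 3758355068) (nat_lit 88) (nat_lit 5) (nat_lit 95) (nat_lit 5) (nat_lit 89) (nat_lit 5) (nat_lit 332) (nat_lit 302) (nat_lit 230)) (XT.lf (nat_lit 0) (nat_lit 2751094600) (nat_lit 504) (nat_lit 4161615703) (nat_lit 588) (nat_lit 4415279363) (nat_lit 82) (nat_lit 5) (nat_lit 88) (nat_lit 5) (nat_lit 89) (nat_lit 5) (nat_lit 333) (nat_lit 302)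 (nat_lit 229))) (XT.nd (nat_lit 94) (nat_lit 504) (nat_lit 0) (XT.lf (nat_lit 0) (nat_lit 7709768188) (nat_lit 504) (nat_lit 831539463) (nat_lit 588) (nat_lit 2991597336) (nat_lit 82) (nat_lit 5) (nat_lit 88) (nat_lit 5) (nat_lit 89) (nat_lit 5) (nat_lit 334) (nat_lit 302) (nat_lit 228)) (XT.nd (nat_lit 94) (nat_lit 84) (nat_lit 0) (XT.lf (nat_lit 0) (nat_lit 1048222485) (nat_lit 420) (nat_lit 9184886542) (nat_lit 504) (nat_lit 1510752183) (nat_lit 77) (nat_lit 5) (nat_lit 82) (nat_lit 5) (nat_lit 83) (nat_lit 5) (nat_lit 335) (nat_lit 302) (nat_lit 227)) (XT.lf (nat_lit 0) (nat_lit 41150382) (nat_lit 504) (nat_lit 5842928140) (nat_lit 84) (nat_lit 6076561824) (nat_lit 76) (nat_lit 5) (nat_lit 82) (nat_lit 5) (nat_lit 77) (nat_lit 5) (nat_lit 336) (nat_lit 302) (nat_lit 226))))) (XT.nd (nat_lit 188) (nat_lit 420) (nat_lit 0) (XT.nd (nat_lit 94) (nat_lit 420) (nat_lit 0) (XT.lf (nat_lit 0)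 (nat_lit 1587137006) (nat_lit 504) (nat_lit 879850864) (nat_lit 84) (nat_lit 9717450231) (nat_lit 76) (nat_lit 5) (nat_lit 82) (nat_lit 5) (nat_lit 77) (nat_lit 5) (nat_lit 337) (nat_lit 302) (nat_lit 225)) (XT.lf (nat_lit 0) (nat_lit 3212635176) (nat_lit 504) (nat_lit 8125660407) (nat_lit 84) (nat_lit 1075972095) (nat_lit 71) (nat_lit 5) (nat_lit 77) (nat_lit 5) (nat_lit 72) (nat_lit 5) (nat_lit 338) (nat_lit 302) (nat_lit 224))) (XT.nd (nat_lit 94) (nat_lit 420) (nat_lit 0) (XT.lf (nat_lit 0) (nat_lit 4901475918) (nat_lit 504) (nat_lit 3064674598) (nat_lit 84) (nat_lit 4684740994) (nat_lit 71) (nat_lit 5) (nat_lit 77) (nat_lit 5) (nat_lit 72) (nat_lit 5) (nat_lit 339) (nat_lit 302) (nat_lit 223)) (XT.nd (nat_lit 94) (nat_lit 0) (nat_lit 0) (XT.lf (nat_lit 0) (nat_lit 2173370657) (nat_lit 420) (nat_lit 4469951227) (nat_lit 504) (nat_lit 6251577528) (nat_lit 66) (nat_lit 5) (nat_lit 71)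 (nat_lit 5) (nat_lit 72) (nat_lit 5) (nat_lit 340) (nat_lit 302) (nat_lit 222)) (XT.lf (nat_lit 0) (nat_lit 7615384246) (nat_lit 420) (nat_lit 835257553) (nat_lit 504) (nat_lit 4695540826) (nat_lit 66) (nat_lit 5) (nat_lit 71) (nat_lit 5) (nat_lit 72) (nat_lit 5) (nat_lit 341) (nat_lit 302) (nat_lit 221)))))) (XT.nd (nat_lit 470) (nat_lit 756) (nat_lit 0) (XT.nd (nat_lit 188) (nat_lit 420) (nat_lit 0) (XT.nd (nat_lit 94) (nat_lit 420) (nat_lit 0) (XT.lf (nat_lit 0) (nat_lit 10322954104) (nat_lit 504) (nat_lit 231375421) (nat_lit 84) (nat_lit 2850712999) (nat_lit 66) (nat_lit 5) (nat_lit 72) (nat_lit 5) (nat_lit 67) (nat_lit 5) (nat_lit 342) (nat_lit 302) (nat_lit 220)) (XT.lf (nat_lit 0) (nat_lit 5308103362) (nat_lit 420) (nat_lit 6987080499) (nat_lit 504) (nat_lit 1375507954) (nat_lit 61) (nat_lit 5) (nat_lit 66) (nat_lit 5) (nat_lit 67) (nat_lit 5) (nat_lit 343) (nat_lit 302) (nat_lit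 219))) (XT.nd (nat_lit 94) (nat_lit 336) (nat_lit 0) (XT.lf (nat_lit 0) (nat_lit 359461105) (nat_lit 504) (nat_lit 2946979392) (nat_lit 84) (nat_lit 10638596971) (nat_lit 60) (nat_lit 5) (nat_lit 66) (nat_lit 5) (nat_lit 61) (nat_lit 5) (nat_lit 344) (nat_lit 302) (nat_lit 218)) (XT.nd (nat_lit 94) (nat_lit 0) (nat_lit 0) (XT.lf (nat_lit 0) (nat_lit 2132548234) (nat_lit 420) (nat_lit 11578748689) (nat_lit 84) (nat_lit 515812076) (nat_lit 56) (nat_lit 5) (nat_lit 61) (nat_lit 5) (nat_lit 57) (nat_lit 5) (nat_lit 345) (nat_lit 302) (nat_lit 217)) (XT.lf (nat_lit 0) (nat_lit 4007158809) (nat_lit 420) (nat_lit 6094003282) (nat_lit 84) (nat_lit 4415375023) (nat_lit 56) (nat_lit 5) (nat_lit 61) (nat_lit 5) (nat_lit 57) (nat_lit 5) (nat_lit 346) (nat_lit 302) (nat_lit 216))))) (XT.nd (nat_lit 282) (nat_lit 420) (nat_lit 0) (XT.nd (nat_lit 94) (nat_lit 336) (nat_lit 0) (XT.lf (nat_lit 0) (nat_lit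 5922099198) (nat_lit 420) (nat_lit 461083679) (nat_lit 84) (nat_lit 8432359884) (nat_lit 56) (nat_lit 5) (nat_lit 61) (nat_lit 5) (nat_lit 57) (nat_lit 5) (nat_lit 347) (nat_lit 302) (nat_lit 215)) (XT.nd (nat_lit 94) (nat_lit 0) (nat_lit 0) (XT.lf (nat_lit 0) (nat_lit 5434758871) (nat_lit 336) (nat_lit 2498308934) (nat_lit 420) (nat_lit 7189665521) (nat_lit 52) (nat_lit 5) (nat_lit 56) (nat_lit 5) (nat_lit 57) (nat_lit 5) (nat_lit 348) (nat_lit 302) (nat_lit 214)) (XT.lf (nat_lit 0) (nat_lit 10009209981) (nat_lit 420) (nat_lit 3952666144) (nat_lit 84) (nat_lit 1477533619) (nat_lit 52) (nat_lit 5) (nat_lit 57) (nat_lit 5) (nat_lit 53) (nat_lit 5) (nat_lit 349) (nat_lit 302) (nat_lit 213)))) (XT.nd (nat_lit 94) (nat_lit 84) (nat_lit 0) (XT.lf (nat_lit 0) (nat_lit 1953370941) (nat_lit 336) (nat_lit 10224803585) (nat_lit 420) (nat_lit 3586895543) (nat_lit 48) (nat_lit 5) (nat_lit 52) (nat_lit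 5) (nat_lit 53) (nat_lit 5) (nat_lit 350) (nat_lit 302) (nat_lit 212)) (XT.nd (nat_lit 94) (nat_lit 84) (nat_lit 0) (XT.lf (nat_lit 0) (nat_lit 8105630882) (nat_lit 336) (nat_lit 6333826483) (nat_lit 420) (nat_lit 1660638785) (nat_lit 48) (nat_lit 5) (nat_lit 52) (nat_lit 5) (nat_lit 53) (nat_lit 5) (nat_lit 351) (nat_lit 302) (nat_lit 211)) (XT.lf (nat_lit 0) (nat_lit 302880411) (nat_lit 420) (nat_lit 2020533887) (nat_lit 84) (nat_lit 14122531442) (nat_lit 47) (nat_lit 5) (nat_lit 52) (nat_lit 5) (nat_lit 48) (nat_lit 5) (nat_lit 352) (nat_lit 302) (nat_lit 210))))))) (XT.nd (nat_lit 1034) (nat_lit 756) (nat_lit 0) (XT.nd (nat_lit 470) (nat_lit 588) (nat_lit 0) (XT.nd (nat_lit 188) (nat_lit 252) (nat_lit 0) (XT.nd (nat_lit 94) (nat_lit 0) (nat_lit 0) (XT.lf (nat_lit 0) (nat_lit 2337405183) (nat_lit 420) (nat_lit 12633597109) (nat_lit 84) (nat_lit 1829647867) (nat_lit 43) (nat_lit 5) (nat_lit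 48) (nat_lit 5) (nat_lit 44) (nat_lit 5) (nat_lit 353) (nat_lit 302) (nat_lit 209)) (XT.lf (nat_lit 0) (nat_lit 4464875517) (nat_lit 420) (nat_lit 6620449078) (nat_lit 84) (nat_lit 6080141971) (nat_lit 43) (nat_lit 5) (nat_lit 48) (nat_lit 5) (nat_lit 44) (nat_lit 5) (nat_lit 354) (nat_lit 302) (nat_lit 208))) (XT.nd (nat_lit 94) (nat_lit 252) (nat_lit 0) (XT.lf (nat_lit 0) (nat_lit 6643560573) (nat_lit 420) (nat_lit 440353336) (nat_lit 84) (nat_lit 10458176229) (nat_lit 43) (nat_lit 5) (nat_lit 48) (nat_lit 5) (nat_lit 44) (nat_lit 5) (nat_lit 355) (nat_lit 302) (nat_lit 207)) (XT.nd (nat_lit 94) (nat_lit 0) (nat_lit 0) (XT.lf (nat_lit 0) (nat_lit 6034022724) (nat_lit 252) (nat_lit 2901326642) (nat_lit 336) (nat_lit 8993666956) (nat_lit 40) (nat_lit 5) (nat_lit 43) (nat_lit 5) (nat_lit 44) (nat_lit 5) (nat_lit 356) (nat_lit 302) (nat_lit 206)) (XT.lf (nat_lit 0) (nat_lit 11302728230) (nat_lit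 336) (nat_lit 5642510358) (nat_lit 84) (nat_lit 1382596331) (nat_lit 40) (nat_lit 5) (nat_lit 44) (nat_lit 5) (nat_lit 41) (nat_lit 5) (nat_lit 357) (nat_lit 302) (nat_lit 205))))) (XT.nd (nat_lit 282) (nat_lit 336) (nat_lit 0) (XT.nd (nat_lit 94) (nat_lit 0) (nat_lit 0) (XT.lf (nat_lit 0) (nat_lit 771125416) (nat_lit 252) (nat_lit 12996022357) (nat_lit 336) (nat_lit 4971173334) (nat_lit 37) (nat_lit 5) (nat_lit 40) (nat_lit 5) (nat_lit 41) (nat_lit 5) (nat_lit 358) (nat_lit 302) (nat_lit 204)) (XT.nd (nat_lit 94) (nat_lit 0) (nat_lit 0) (XT.lf (nat_lit 0) (nat_lit 7484852668) (nat_lit 252) (nat_lit 8868565461) (nat_lit 336) (nat_lit 2806741468) (nat_lit 37) (nat_lit 5) (nat_lit 40) (nat_lit 5) (nat_lit 41) (nat_lit 5) (nat_lit 359) (nat_lit 302) (nat_lit 203)) (XT.lf (nat_lit 0) (nat_lit 14388907710) (nat_lit 252) (nat_lit 4617916915) (nat_lit 336) (nat_lit 588689850) (nat_lit 37) (nat_lit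 5) (nat_lit 40) (nat_lit 5) (nat_lit 41) (nat_lit 5) (nat_lit 360) (nat_lit 302) (nat_lit 202)))) (XT.nd (nat_lit 94) (nat_lit 0) (nat_lit 0) (XT.lf (nat_lit 0) (nat_lit 1457585512) (nat_lit 252) (nat_lit 207972910) (nat_lit 336) (nat_lit 18378266678) (nat_lit 33) (nat_lit 5) (nat_lit 36) (nat_lit 5) (nat_lit 37) (nat_lit 5) (nat_lit 361) (nat_lit 302) (nat_lit 201)) (XT.nd (nat_lit 94) (nat_lit 0) (nat_lit 0) (XT.lf (nat_lit 0) (nat_lit 4062758522) (nat_lit 336) (nat_lit 12132977014) (nat_lit 84) (nat_lit 4307499041) (nat_lit 33) (nat_lit 5) (nat_lit 37) (nat_lit 5) (nat_lit 34) (nat_lit 5) (nat_lit 362) (nat_lit 302) (nat_lit 200)) (XT.lf (nat_lit 0) (nat_lit 6524135303) (nat_lit 336) (nat_lit 5499012962) (nat_lit 84) (nat_lit 8954082873) (nat_lit 33) (nat_lit 5) (nat_lit 37) (nat_lit 5) (nat_lit 34) (nat_lit 5) (nat_lit 363) (nat_lit 302) (nat_lit 199)))))) (XT.nd (nat_lit 470) (nat_lit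 336) (nat_lit 0) (XT.nd (nat_lit 188) (nat_lit 168) (nat_lit 0) (XT.nd (nat_lit 94) (nat_lit 0) (nat_lit 0) (XT.lf (nat_lit 0) (nat_lit 1351121316) (nat_lit 252) (nat_lit 7712201886) (nat_lit 336) (nat_lit 12402581854) (nat_lit 30) (nat_lit 5) (nat_lit 33) (nat_lit 5) (nat_lit 34) (nat_lit 5) (nat_lit 364) (nat_lit 302) (nat_lit 198)) (XT.lf (nat_lit 0) (nat_lit 8513650321) (nat_lit 252) (nat_lit 3213272787) (nat_lit 336) (nat_lit 10241417459) (nat_lit 30) (nat_lit 5) (nat_lit 33) (nat_lit 5) (nat_lit 34) (nat_lit 5) (nat_lit 365) (nat_lit 302) (nat_lit 197))) (XT.nd (nat_lit 94) (nat_lit 168) (nat_lit 0) (XT.lf (nat_lit 0) (nat_lit 14475836088) (nat_lit 336) (nat_lit 6618643431) (nat_lit 84) (nat_lit 1391815506) (nat_lit 30) (nat_lit 5) (nat_lit 34) (nat_lit 5) (nat_lit 31) (nat_lit 5) (nat_lit 366) (nat_lit 302) (nat_lit 196)) (XT.nd (nat_lit 94) (nat_lit 0) (nat_lit 0) (XT.lf (nat_lit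 0) (nat_lit 388402148) (nat_lit 168) (nat_lit 16947227173) (nat_lit 252) (nat_lit 5683908749) (nat_lit 28) (nat_lit 5) (nat_lit 30) (nat_lit 5) (nat_lit 31) (nat_lit 5) (nat_lit 367) (nat_lit 302) (nat_lit 195)) (XT.lf (nat_lit 0) (nat_lit 7737258771) (nat_lit 168) (nat_lit 12605025580) (nat_lit 252) (nat_lit 3225249590) (nat_lit 28) (nat_lit 5) (nat_lit 30) (nat_lit 5) (nat_lit 31) (nat_lit 5) (nat_lit 368) (nat_lit 302) (nat_lit 194))))) (XT.nd (nat_lit 282) (nat_lit 0) (nat_lit 0) (XT.nd (nat_lit 94) (nat_lit 336) (nat_lit 0) (XT.lf (nat_lit 0) (nat_lit 15298683458) (nat_lit 168) (nat_lit 8132912418) (nat_lit 252) (nat_lit 701274799) (nat_lit 28) (nat_lit 5) (nat_lit 30) (nat_lit 5) (nat_lit 31) (nat_lit 5) (nat_lit 369) (nat_lit 302) (nat_lit 193)) (XT.nd (nat_lit 94) (nat_lit 252) (nat_lit 0) (XT.lf (nat_lit 0) (nat_lit 1852281526) (nat_lit 252) (nat_lit 1655103661) (nat_lit 84) (nat_lit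 21208108702) (nat_lit 27) (nat_lit 5) (nat_lit 30) (nat_lit 5) (nat_lit 28) (nat_lit 5) (nat_lit 370) (nat_lit 302) (nat_lit 192)) (XT.lf (nat_lit 0) (nat_lit 4531474757) (nat_lit 336) (nat_lit 19485131760) (nat_lit 84) (nat_lit 1297480879) (nat_lit 24) (nat_lit 5) (nat_lit 28) (nat_lit 5) (nat_lit 25) (nat_lit 5) (nat_lit 371) (nat_lit 302) (nat_lit 191)))) (XT.nd (nat_lit 94) (nat_lit 0) (nat_lit 0) (XT.lf (nat_lit 0) (nat_lit 7337111600) (nat_lit 336) (nat_lit 12401353444) (nat_lit 84) (nat_lit 6191450172) (nat_lit 24) (nat_lit 5) (nat_lit 28) (nat_lit 5) (nat_lit 25) (nat_lit 5) (nat_lit 372) (nat_lit 302) (nat_lit 190)) (XT.nd (nat_lit 47658) (nat_lit 0) (nat_lit 11592) (XT.lf (nat_lit 0) (nat_lit 10220085691) (nat_lit 336) (nat_lit 5112246481) (nat_lit 84) (nat_lit 11232822561) (nat_lit 24) (nat_lit 5) (nat_lit 28) (nat_lit 5) (nat_lit 25) (nat_lit 5) (nat_lit 373) (nat_lit 302) (nat_lit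 189)) (XT.lf (nat_lit 0) (nat_lit 762912259) (nat_lit 0) (nat_lit 762912259) (nat_lit 756) (nat_lit 2233462170) (nat_lit 162) (nat_lit 5) (nat_lit 162) (nat_lit 3) (nat_lit 171) (nat_lit 3) (nat_lit 303) (nat_lit 303) (nat_lit 258))))))))
noncomputable def xc71 : XT := (XT.nd (nat_lit 1974) (nat_lit 4368) (nat_lit 0) (XT.nd (nat_lit 940) (nat_lit 3696) (nat_lit 0) (XT.nd (nat_lit 470) (nat_lit 0) (nat_lit 84) (XT.nd (nat_lit 188) (nat_lit 840) (nat_lit 0) (XT.nd (nat_lit 94) (nat_lit 0) (nat_lit 0) (XT.lf (nat_lit 0) (nat_lit 4332864125) (nat_lit 756) (nat_lit 3006705025) (nat_lit 840) (nat_lit 251665292) (nat_lit 162) (nat_lit 5) (nat_lit 171) (nat_lit 3) (nat_lit 172) (nat_lit 5) (nat_lit 304) (nat_lit 303) (nat_lit 257)) (XT.lf (nat_lit 84) (nat_lit 30086484) (nat_lit 0) (nat_lit 5590241979) (nat_lit 840) (nat_lit 2047083741) (nat_lit 163) (nat_lit 5) (nat_lit 162) (nat_lit 5) (nat_lit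 172) (nat_lit 5) (nat_lit 305) (nat_lit 303) (nat_lit 256))) (XT.nd (nat_lit 94) (nat_lit 840) (nat_lit 0) (XT.lf (nat_lit 84) (nat_lit 3198210366) (nat_lit 0) (nat_lit 3732726346) (nat_lit 840) (nat_lit 815754421) (nat_lit 163) (nat_lit 5) (nat_lit 162) (nat_lit 5) (nat_lit 172) (nat_lit 5) (nat_lit 306) (nat_lit 303) (nat_lit 255)) (XT.nd (nat_lit 94) (nat_lit 0) (nat_lit 84) (XT.lf (nat_lit 0) (nat_lit 397214001) (nat_lit 840) (nat_lit 1395314587) (nat_lit 924) (nat_lit 6037435521) (nat_lit 152) (nat_lit 5) (nat_lit 162) (nat_lit 5) (nat_lit 163) (nat_lit 5) (nat_lit 307) (nat_lit 303) (nat_lit 254)) (XT.lf (nat_lit 0) (nat_lit 1605843751) (nat_lit 840) (nat_lit 6060565407) (nat_lit 924) (nat_lit 250126233) (nat_lit 153) (nat_lit 5) (nat_lit 163) (nat_lit 5) (nat_lit 164) (nat_lit 5) (nat_lit 308) (nat_lit 303) (nat_lit 253))))) (XT.nd (nat_lit 188) (nat_lit 0) (nat_lit 0) (XT.nd (nat_lit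 94) (nat_lit 0) (nat_lit 0) (XT.lf (nat_lit 0) (nat_lit 2840336216) (nat_lit 840) (nat_lit 2813827317) (nat_lit 924) (nat_lit 2352181190) (nat_lit 153) (nat_lit 5) (nat_lit 163) (nat_lit 5) (nat_lit 164) (nat_lit 5) (nat_lit 309) (nat_lit 303) (nat_lit 252)) (XT.lf (nat_lit 84) (nat_lit 517180036) (nat_lit 0) (nat_lit 3557739634) (nat_lit 924) (nat_lit 4025390742) (nat_lit 154) (nat_lit 5) (nat_lit 153) (nat_lit 5) (nat_lit 164) (nat_lit 5) (nat_lit 310) (nat_lit 303) (nat_lit 251))) (XT.nd (nat_lit 94) (nat_lit 0) (nat_lit 84) (XT.lf (nat_lit 84) (nat_lit 3984571960) (nat_lit 0) (nat_lit 1350304110) (nat_lit 924) (nat_lit 2862895904) (nat_lit 154) (nat_lit 5) (nat_lit 153) (nat_lit 5) (nat_lit 164) (nat_lit 5) (nat_lit 311) (nat_lit 303) (nat_lit 250)) (XT.nd (nat_lit 94) (nat_lit 0) (nat_lit 0) (XT.lf (nat_lit 0) (nat_lit 6602225503) (nat_lit 840) (nat_lit 775314153) (nat_lit 924) (nat_lit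 921874383) (nat_lit 154) (nat_lit 5) (nat_lit 164) (nat_lit 5) (nat_lit 165) (nat_lit 5) (nat_lit 312) (nat_lit 303) (nat_lit 249)) (XT.lf (nat_lit 84) (nat_lit 2784937134) (nat_lit 0) (nat_lit 5125743879) (nat_lit 924) (nat_lit 493641853) (nat_lit 155) (nat_lit 5) (nat_lit 154) (nat_lit 5) (nat_lit 165) (nat_lit 5) (nat_lit 313) (nat_lit 303) (nat_lit 248)))))) (XT.nd (nat_lit 470) (nat_lit 2940) (nat_lit 0) (XT.nd (nat_lit 188) (nat_lit 0) (nat_lit 84) (XT.nd (nat_lit 94) (nat_lit 0) (nat_lit 0) (XT.lf (nat_lit 0) (nat_lit 701087998) (nat_lit 924) (nat_lit 2074945289) (nat_lit 1008) (nat_lit 5737346046) (nat_lit 143) (nat_lit 5) (nat_lit 154) (nat_lit 5) (nat_lit 155) (nat_lit 5) (nat_lit 314) (nat_lit 303) (nat_lit 247)) (XT.lf (nat_lit 84) (nat_lit 1579761286) (nat_lit 0) (nat_lit 320443082) (nat_lit 1008) (nat_lit 6726307097) (nat_lit 144) (nat_lit 5) (nat_lit 143) (nat_lit 5) (nat_lit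 155) (nat_lit 5) (nat_lit 315) (nat_lit 303) (nat_lit 246))) (XT.nd (nat_lit 94) (nat_lit 0) (nat_lit 0) (XT.lf (nat_lit 0) (nat_lit 3143236819) (nat_lit 924) (nat_lit 3400424329) (nat_lit 1008) (nat_lit 2199432920) (nat_lit 144) (nat_lit 5) (nat_lit 155) (nat_lit 5) (nat_lit 156) (nat_lit 5) (nat_lit 316) (nat_lit 303) (nat_lit 245)) (XT.nd (nat_lit 94) (nat_lit 0) (nat_lit 0) (XT.lf (nat_lit 84) (nat_lit 335713189) (nat_lit 0) (nat_lit 4059740181) (nat_lit 1008) (nat_lit 4468895050) (nat_lit 145) (nat_lit 5) (nat_lit 144) (nat_lit 5) (nat_lit 156) (nat_lit 5) (nat_lit 317) (nat_lit 303) (nat_lit 244)) (XT.lf (nat_lit 84) (nat_lit 4233317675) (nat_lit 0) (nat_lit 1453525689) (nat_lit 1008) (nat_lit 3302650691) (nat_lit 145) (nat_lit 5) (nat_lit 144) (nat_lit 5) (nat_lit 156) (nat_lit 5) (nat_lit 318) (nat_lit 303) (nat_lit 243))))) (XT.nd (nat_lit 282) (nat_lit 2100) (nat_lit 0) (XT.nd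 (nat_lit 94) (nat_lit 1008) (nat_lit 0) (XT.lf (nat_lit 0) (nat_lit 6996504255) (nat_lit 924) (nat_lit 905932412) (nat_lit 84) (nat_lit 1216896252) (nat_lit 145) (nat_lit 5) (nat_lit 156) (nat_lit 5) (nat_lit 146) (nat_lit 5) (nat_lit 319) (nat_lit 303) (nat_lit 242)) (XT.nd (nat_lit 94) (nat_lit 84) (nat_lit 0) (XT.lf (nat_lit 0) (nat_lit 3084840384) (nat_lit 924) (nat_lit 5274416172) (nat_lit 1008) (nat_lit 893687882) (nat_lit 134) (nat_lit 5) (nat_lit 145) (nat_lit 5) (nat_lit 146) (nat_lit 5) (nat_lit 320) (nat_lit 303) (nat_lit 241)) (XT.lf (nat_lit 0) (nat_lit 342883626) (nat_lit 1008) (nat_lit 2202324910) (nat_lit 84) (nat_lit 6846218950) (nat_lit 133) (nat_lit 5) (nat_lit 145) (nat_lit 5) (nat_lit 134) (nat_lit 5) (nat_lit 321) (nat_lit 303) (nat_lit 240)))) (XT.nd (nat_lit 94) (nat_lit 1092) (nat_lit 0) (XT.lf (nat_lit 0) (nat_lit 1589260733) (nat_lit 1092) (nat_lit 7647980448)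 (nat_lit 84) (nat_lit 297110959) (nat_lit 121) (nat_lit 5) (nat_lit 134) (nat_lit 5) (nat_lit 122) (nat_lit 5) (nat_lit 322) (nat_lit 303) (nat_lit 239)) (XT.nd (nat_lit 94) (nat_lit 1092) (nat_lit 0) (XT.lf (nat_lit 0) (nat_lit 2892567643) (nat_lit 1092) (nat_lit 3585477290) (nat_lit 84) (nat_lit 3203214864) (nat_lit 121) (nat_lit 5) (nat_lit 134) (nat_lit 5) (nat_lit 122) (nat_lit 5) (nat_lit 323) (nat_lit 303) (nat_lit 238)) (XT.lf (nat_lit 0) (nat_lit 588910301) (nat_lit 1092) (nat_lit 3623177551) (nat_lit 1176) (nat_lit 5621499410) (nat_lit 108) (nat_lit 5) (nat_lit 121) (nat_lit 5) (nat_lit 122) (nat_lit 5) (nat_lit 324) (nat_lit 303) (nat_lit 237))))))) (XT.nd (nat_lit 1034) (nat_lit 2184) (nat_lit 0) (XT.nd (nat_lit 470) (nat_lit 1008) (nat_lit 0) (XT.nd (nat_lit 188) (nat_lit 1176) (nat_lit 0) (XT.nd (nat_lit 94) (nat_lit 0) (nat_lit 0) (XT.lf (nat_lit 0) (nat_lit 4943058150) (nat_lit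 1092) (nat_lit 637497257) (nat_lit 1176) (nat_lit 4409944486) (nat_lit 108) (nat_lit 5) (nat_lit 121) (nat_lit 5) (nat_lit 122) (nat_lit 5) (nat_lit 325) (nat_lit 303) (nat_lit 236)) (XT.lf (nat_lit 0) (nat_lit 6987194417) (nat_lit 1176) (nat_lit 770217523) (nat_lit 84) (nat_lit 2395105601) (nat_lit 108) (nat_lit 5) (nat_lit 122) (nat_lit 5) (nat_lit 109) (nat_lit 5) (nat_lit 326) (nat_lit 303) (nat_lit 235))) (XT.nd (nat_lit 94) (nat_lit 672) (nat_lit 0) (XT.lf (nat_lit 0) (nat_lit 3682133625) (nat_lit 504) (nat_lit 4770745292) (nat_lit 588) (nat_lit 1866305860) (nat_lit 102) (nat_lit 5) (nat_lit 108) (nat_lit 5) (nat_lit 109) (nat_lit 5) (nat_lit 327) (nat_lit 303) (nat_lit 234)) (XT.nd (nat_lit 94) (nat_lit 672) (nat_lit 0) (XT.lf (nat_lit 0) (nat_lit 8263956613) (nat_lit 504) (nat_lit 1681058177) (nat_lit 588) (nat_lit 546694929) (nat_lit 102) (nat_lit 5) (nat_lit 108) (nat_lit 5) (nat_lit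 109) (nat_lit 5) (nat_lit 328) (nat_lit 303) (nat_lit 233)) (XT.lf (nat_lit 0) (nat_lit 809248440) (nat_lit 672) (nat_lit 8352418674) (nat_lit 84) (nat_lit 1507395514) (nat_lit 94) (nat_lit 5) (nat_lit 102) (nat_lit 5) (nat_lit 95) (nat_lit 5) (nat_lit 329) (nat_lit 303) (nat_lit 232))))) (XT.nd (nat_lit 282) (nat_lit 504) (nat_lit 0) (XT.nd (nat_lit 94) (nat_lit 504) (nat_lit 0) (XT.lf (nat_lit 0) (nat_lit 2210547629) (nat_lit 672) (nat_lit 3850508931) (nat_lit 84) (nat_lit 4790322095) (nat_lit 94) (nat_lit 5) (nat_lit 102) (nat_lit 5) (nat_lit 95) (nat_lit 5) (nat_lit 330) (nat_lit 303) (nat_lit 231)) (XT.nd (nat_lit 94) (nat_lit 0) (nat_lit 0) (XT.lf (nat_lit 0) (nat_lit 782042989) (nat_lit 504) (nat_lit 2855777474) (nat_lit 588) (nat_lit 7402158193) (nat_lit 88) (nat_lit 5) (nat_lit 94) (nat_lit 5) (nat_lit 95) (nat_lit 5) (nat_lit 331) (nat_lit 303) (nat_lit 230)) (XT.lf (nat_lit 0)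 (nat_lit 5129688431) (nat_lit 588) (nat_lit 5623490820) (nat_lit 84) (nat_lit 480703148) (nat_lit 88) (nat_lit 5) (nat_lit 95) (nat_lit 5) (nat_lit 89) (nat_lit 5) (nat_lit 332) (nat_lit 303) (nat_lit 229)))) (XT.nd (nat_lit 94) (nat_lit 504) (nat_lit 0) (XT.lf (nat_lit 0) (nat_lit 6673049434) (nat_lit 588) (nat_lit 899106359) (nat_lit 84) (nat_lit 3861564104) (nat_lit 88) (nat_lit 5) (nat_lit 95) (nat_lit 5) (nat_lit 89) (nat_lit 5) (nat_lit 333) (nat_lit 303) (nat_lit 228)) (XT.nd (nat_lit 94) (nat_lit 0) (nat_lit 0) (XT.lf (nat_lit 0) (nat_lit 4029128972) (nat_lit 504) (nat_lit 4251852865) (nat_lit 588) (nat_lit 3358334748) (nat_lit 82) (nat_lit 5) (nat_lit 88) (nat_lit 5) (nat_lit 89) (nat_lit 5) (nat_lit 334) (nat_lit 303) (nat_lit 227)) (XT.lf (nat_lit 0) (nat_lit 9105657946) (nat_lit 504) (nat_lit 819710081) (nat_lit 588) (nat_lit 1926414181) (nat_lit 82) (nat_lit 5) (nat_lit 88)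 (nat_lit 5) (nat_lit 89) (nat_lit 5) (nat_lit 335) (nat_lit 303) (nat_lit 226)))))) (XT.nd (nat_lit 470) (nat_lit 1260) (nat_lit 0) (XT.nd (nat_lit 188) (nat_lit 420) (nat_lit 0) (XT.nd (nat_lit 94) (nat_lit 84) (nat_lit 0) (XT.lf (nat_lit 0) (nat_lit 2263774205) (nat_lit 420) (nat_lit 9384284573) (nat_lit 504) (nat_lit 422006170) (nat_lit 77) (nat_lit 5) (nat_lit 82) (nat_lit 5) (nat_lit 83) (nat_lit 5) (nat_lit 336) (nat_lit 303) (nat_lit 225)) (XT.lf (nat_lit 0) (nat_lit 1121669437) (nat_lit 504) (nat_lit 4850782777) (nat_lit 84) (nat_lit 6321911554) (nat_lit 76) (nat_lit 5) (nat_lit 82) (nat_lit 5) (nat_lit 77) (nat_lit 5) (nat_lit 337) (nat_lit 303) (nat_lit 224))) (XT.nd (nat_lit 94) (nat_lit 0) (nat_lit 0) (XT.lf (nat_lit 0) (nat_lit 235619150) (nat_lit 420) (nat_lit 2449849289) (nat_lit 504) (nat_lit 9840672564) (nat_lit 71) (nat_lit 5) (nat_lit 76) (nat_lit 5) (nat_lit 77) (nat_lit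 5) (nat_lit 338) (nat_lit 303) (nat_lit 223)) (XT.nd (nat_lit 94) (nat_lit 0) (nat_lit 0) (XT.lf (nat_lit 0) (nat_lit 4339711472) (nat_lit 504) (nat_lit 7216862822) (nat_lit 84) (nat_lit 1207297002) (nat_lit 71) (nat_lit 5) (nat_lit 77) (nat_lit 5) (nat_lit 72) (nat_lit 5) (nat_lit 339) (nat_lit 303) (nat_lit 222)) (XT.lf (nat_lit 0) (nat_lit 6050011978) (nat_lit 504) (nat_lit 2033886050) (nat_lit 84) (nat_lit 4924991992) (nat_lit 71) (nat_lit 5) (nat_lit 77) (nat_lit 5) (nat_lit 72) (nat_lit 5) (nat_lit 340) (nat_lit 303) (nat_lit 221))))) (XT.nd (nat_lit 282) (nat_lit 420) (nat_lit 0) (XT.nd (nat_lit 94) (nat_lit 420) (nat_lit 0) (XT.lf (nat_lit 0) (nat_lit 3355140960) (nat_lit 420) (nat_lit 4471803781) (nat_lit 504) (nat_lit 5434202418) (nat_lit 66) (nat_lit 5) (nat_lit 71) (nat_lit 5) (nat_lit 72) (nat_lit 5) (nat_lit 341) (nat_lit 303) (nat_lit 220)) (XT.nd (nat_lit 94) (nat_lit 420)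 (nat_lit 0) (XT.lf (nat_lit 0) (nat_lit 8932349433) (nat_lit 420) (nat_lit 728545362) (nat_lit 504) (nat_lit 3860332453) (nat_lit 66) (nat_lit 5) (nat_lit 71) (nat_lit 5) (nat_lit 72) (nat_lit 5) (nat_lit 342) (nat_lit 303) (nat_lit 219)) (XT.lf (nat_lit 0) (nat_lit 857348149) (nat_lit 420) (nat_lit 10715168663) (nat_lit 504) (nat_lit 2216268601) (nat_lit 61) (nat_lit 5) (nat_lit 66) (nat_lit 5) (nat_lit 67) (nat_lit 5) (nat_lit 343) (nat_lit 303) (nat_lit 218)))) (XT.nd (nat_lit 94) (nat_lit 420) (nat_lit 0) (XT.lf (nat_lit 0) (nat_lit 6540357035) (nat_lit 420) (nat_lit 7039921479) (nat_lit 504) (nat_lit 483275265) (nat_lit 61) (nat_lit 5) (nat_lit 66) (nat_lit 5) (nat_lit 67) (nat_lit 5) (nat_lit 344) (nat_lit 303) (nat_lit 217)) (XT.nd (nat_lit 94) (nat_lit 336) (nat_lit 0) (XT.lf (nat_lit 0) (nat_lit 1259098889) (nat_lit 504) (nat_lit 1981732560) (nat_lit 84) (nat_lit 11106223830) (nat_lit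 60) (nat_lit 5) (nat_lit 66) (nat_lit 5) (nat_lit 61) (nat_lit 5) (nat_lit 345) (nat_lit 303) (nat_lit 216)) (XT.lf (nat_lit 0) (nat_lit 3072535711) (nat_lit 420) (nat_lit 10863817913) (nat_lit 84) (nat_lit 702052737) (nat_lit 56) (nat_lit 5) (nat_lit 61) (nat_lit 5) (nat_lit 57) (nat_lit 5) (nat_lit 346) (nat_lit 303) (nat_lit 215))))))))
noncomputable def xc72 : XT := (XT.nd (nat_lit 1974) (nat_lit 504) (nat_lit 0) (XT.nd (nat_lit 940) (nat_lit 840) (nat_lit 0) (XT.nd (nat_lit 470) (nat_lit 672) (nat_lit 0) (XT.nd (nat_lit 188) (nat_lit 336) (nat_lit 0) (XT.nd (nat_lit 94) (nat_lit 336) (nat_lit 0) (XT.lf (nat_lit 0) (nat_lit 4978983527) (nat_lit 420) (nat_lit 5241334469) (nat_lit 84) (nat_lit 4717383062) (nat_lit 56) (nat_lit 5) (nat_lit 61) (nat_lit 5) (nat_lit 57) (nat_lit 5) (nat_lit 347) (nat_lit 303) (nat_lit 214)) (XT.lf (nat_lit 0) (nat_lit 545885817) (nat_lit 336) (nat_lit 6387330873)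 (nat_lit 420) (nat_lit 8313458737) (nat_lit 52) (nat_lit 5) (nat_lit 56) (nat_lit 5) (nat_lit 57) (nat_lit 5) (nat_lit 348) (nat_lit 303) (nat_lit 213))) (XT.nd (nat_lit 94) (nat_lit 336) (nat_lit 0) (XT.lf (nat_lit 0) (nat_lit 6603273082) (nat_lit 336) (nat_lit 2383038143) (nat_lit 420) (nat_lit 6577779351) (nat_lit 52) (nat_lit 5) (nat_lit 56) (nat_lit 5) (nat_lit 57) (nat_lit 5) (nat_lit 349) (nat_lit 303) (nat_lit 212)) (XT.nd (nat_lit 94) (nat_lit 336) (nat_lit 0) (XT.lf (nat_lit 0) (nat_lit 11104393753) (nat_lit 420) (nat_lit 3080463218) (nat_lit 84) (nat_lit 1706494797) (nat_lit 52) (nat_lit 5) (nat_lit 57) (nat_lit 5) (nat_lit 53) (nat_lit 5) (nat_lit 350) (nat_lit 303) (nat_lit 211)) (XT.lf (nat_lit 0) (nat_lit 2998590213) (nat_lit 336) (nat_lit 10328173743) (nat_lit 420) (nat_lit 2900843000) (nat_lit 48) (nat_lit 5) (nat_lit 52) (nat_lit 5) (nat_lit 53) (nat_lit 5) (nat_lit 351)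 (nat_lit 303) (nat_lit 210))))) (XT.nd (nat_lit 188) (nat_lit 588) (nat_lit 0) (XT.nd (nat_lit 94) (nat_lit 84) (nat_lit 0) (XT.lf (nat_lit 0) (nat_lit 9311963414) (nat_lit 336) (nat_lit 6322998816) (nat_lit 420) (nat_lit 938843801) (nat_lit 48) (nat_lit 5) (nat_lit 52) (nat_lit 5) (nat_lit 53) (nat_lit 5) (nat_lit 352) (nat_lit 303) (nat_lit 209)) (XT.lf (nat_lit 0) (nat_lit 1047182432) (nat_lit 420) (nat_lit 1139639795) (nat_lit 84) (nat_lit 14744087599) (nat_lit 47) (nat_lit 5) (nat_lit 52) (nat_lit 5) (nat_lit 48) (nat_lit 5) (nat_lit 353) (nat_lit 303) (nat_lit 208))) (XT.nd (nat_lit 94) (nat_lit 252) (nat_lit 0) (XT.lf (nat_lit 0) (nat_lit 3134047423) (nat_lit 420) (nat_lit 12068962469) (nat_lit 84) (nat_lit 2093995300) (nat_lit 43) (nat_lit 5) (nat_lit 48) (nat_lit 5) (nat_lit 44) (nat_lit 5) (nat_lit 354) (nat_lit 303) (nat_lit 207)) (XT.nd (nat_lit 94) (nat_lit 252) (nat_lit 0)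 (XT.lf (nat_lit 0) (nat_lit 5305694689) (nat_lit 420) (nat_lit 5898160061) (nat_lit 84) (nat_lit 6470011773) (nat_lit 43) (nat_lit 5) (nat_lit 48) (nat_lit 5) (nat_lit 44) (nat_lit 5) (nat_lit 355) (nat_lit 303) (nat_lit 206)) (XT.lf (nat_lit 0) (nat_lit 454793052) (nat_lit 252) (nat_lit 7080517601) (nat_lit 336) (nat_lit 10527428409) (nat_lit 40) (nat_lit 5) (nat_lit 43) (nat_lit 5) (nat_lit 44) (nat_lit 5) (nat_lit 356) (nat_lit 303) (nat_lit 205)))))) (XT.nd (nat_lit 470) (nat_lit 504) (nat_lit 0) (XT.nd (nat_lit 188) (nat_lit 336) (nat_lit 0) (XT.nd (nat_lit 94) (nat_lit 0) (nat_lit 0) (XT.lf (nat_lit 0) (nat_lit 7111603715) (nat_lit 252) (nat_lit 2770378812) (nat_lit 336) (nat_lit 8580235475) (nat_lit 40) (nat_lit 5) (nat_lit 43) (nat_lit 5) (nat_lit 44) (nat_lit 5) (nat_lit 357) (nat_lit 303) (nat_lit 204)) (XT.lf (nat_lit 0) (nat_lit 12304740911) (nat_lit 336) (nat_lit 4933885146)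 (nat_lit 84) (nat_lit 1635387501) (nat_lit 40) (nat_lit 5) (nat_lit 44) (nat_lit 5) (nat_lit 41) (nat_lit 5) (nat_lit 358) (nat_lit 303) (nat_lit 203))) (XT.nd (nat_lit 94) (nat_lit 84) (nat_lit 0) (XT.lf (nat_lit 0) (nat_lit 1669628257) (nat_lit 252) (nat_lit 13165012237) (nat_lit 336) (nat_lit 4462976385) (nat_lit 37) (nat_lit 5) (nat_lit 40) (nat_lit 5) (nat_lit 41) (nat_lit 5) (nat_lit 359) (nat_lit 303) (nat_lit 202)) (XT.nd (nat_lit 94) (nat_lit 84) (nat_lit 0) (XT.lf (nat_lit 0) (nat_lit 8565183734) (nat_lit 252) (nat_lit 8916636662) (nat_lit 336) (nat_lit 2251361198) (nat_lit 37) (nat_lit 5) (nat_lit 40) (nat_lit 5) (nat_lit 41) (nat_lit 5) (nat_lit 360) (nat_lit 303) (nat_lit 201)) (XT.lf (nat_lit 0) (nat_lit 15809648) (nat_lit 336) (nat_lit 4525064374) (nat_lit 84) (nat_lit 15641783199) (nat_lit 36) (nat_lit 5) (nat_lit 40) (nat_lit 5) (nat_lit 37) (nat_lit 5) (nat_lit 361) (nat_lit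 303) (nat_lit 200))))) (XT.nd (nat_lit 282) (nat_lit 252) (nat_lit 0) (XT.nd (nat_lit 94) (nat_lit 0) (nat_lit 0) (XT.lf (nat_lit 0) (nat_lit 2317707862) (nat_lit 336) (nat_lit 18313952196) (nat_lit 84) (nat_lit 13376340) (nat_lit 33) (nat_lit 5) (nat_lit 37) (nat_lit 5) (nat_lit 34) (nat_lit 5) (nat_lit 362) (nat_lit 303) (nat_lit 199)) (XT.nd (nat_lit 94) (nat_lit 0) (nat_lit 0) (XT.lf (nat_lit 0) (nat_lit 4773227995) (nat_lit 336) (nat_lit 11688213029) (nat_lit 84) (nat_lit 4657788373) (nat_lit 33) (nat_lit 5) (nat_lit 37) (nat_lit 5) (nat_lit 34) (nat_lit 5) (nat_lit 363) (nat_lit 303) (nat_lit 198)) (XT.lf (nat_lit 0) (nat_lit 7293332052) (nat_lit 336) (nat_lit 4873278414) (nat_lit 84) (nat_lit 9441898881) (nat_lit 33) (nat_lit 5) (nat_lit 37) (nat_lit 5) (nat_lit 34) (nat_lit 5) (nat_lit 364) (nat_lit 303) (nat_lit 197)))) (XT.nd (nat_lit 94) (nat_lit 0) (nat_lit 0) (XT.lf (nat_lit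 0) (nat_lit 2181149176) (nat_lit 252) (nat_lit 7720857127) (nat_lit 336) (nat_lit 12210655251) (nat_lit 30) (nat_lit 5) (nat_lit 33) (nat_lit 5) (nat_lit 34) (nat_lit 5) (nat_lit 365) (nat_lit 303) (nat_lit 196)) (XT.nd (nat_lit 94) (nat_lit 0) (nat_lit 0) (XT.lf (nat_lit 0) (nat_lit 9542018776) (nat_lit 252) (nat_lit 3089389561) (nat_lit 336) (nat_lit 9999826095) (nat_lit 30) (nat_lit 5) (nat_lit 33) (nat_lit 5) (nat_lit 34) (nat_lit 5) (nat_lit 366) (nat_lit 303) (nat_lit 195)) (XT.lf (nat_lit 0) (nat_lit 15451422805) (nat_lit 336) (nat_lit 6066932053) (nat_lit 84) (nat_lit 1647368929) (nat_lit 30) (nat_lit 5) (nat_lit 34) (nat_lit 5) (nat_lit 31) (nat_lit 5) (nat_lit 367) (nat_lit 303) (nat_lit 194))))))) (XT.nd (nat_lit 48598) (nat_lit 0) (nat_lit 9996) (XT.nd (nat_lit 470) (nat_lit 0) (nat_lit 0) (XT.nd (nat_lit 188) (nat_lit 336) (nat_lit 0) (XT.nd (nat_lit 94) (nat_lit 0) (nat_lit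 0) (XT.lf (nat_lit 0) (nat_lit 1149669114) (nat_lit 168) (nat_lit 17241792089) (nat_lit 252) (nat_lit 5324336345) (nat_lit 28) (nat_lit 5) (nat_lit 30) (nat_lit 5) (nat_lit 31) (nat_lit 5) (nat_lit 368) (nat_lit 303) (nat_lit 193)) (XT.lf (nat_lit 0) (nat_lit 8703812629) (nat_lit 168) (nat_lit 12771921891) (nat_lit 252) (nat_lit 2805568337) (nat_lit 28) (nat_lit 5) (nat_lit 30) (nat_lit 5) (nat_lit 31) (nat_lit 5) (nat_lit 369) (nat_lit 303) (nat_lit 192))) (XT.nd (nat_lit 94) (nat_lit 336) (nat_lit 0) (XT.lf (nat_lit 0) (nat_lit 16477791177) (nat_lit 168) (nat_lit 8167904204) (nat_lit 252) (nat_lit 218975529) (nat_lit 28) (nat_lit 5) (nat_lit 30) (nat_lit 5) (nat_lit 31) (nat_lit 5) (nat_lit 370) (nat_lit 303) (nat_lit 191)) (XT.nd (nat_lit 94) (nat_lit 252) (nat_lit 0) (XT.lf (nat_lit 0) (nat_lit 2388735746) (nat_lit 252) (nat_lit 1011778353) (nat_lit 84) (nat_lit 22065181673) (nat_lit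 27) (nat_lit 5) (nat_lit 30) (nat_lit 5) (nat_lit 28) (nat_lit 5) (nat_lit 371) (nat_lit 303) (nat_lit 190)) (XT.lf (nat_lit 0) (nat_lit 5145545759) (nat_lit 336) (nat_lit 19388004654) (nat_lit 84) (nat_lit 1549497777) (nat_lit 24) (nat_lit 5) (nat_lit 28) (nat_lit 5) (nat_lit 25) (nat_lit 5) (nat_lit 372) (nat_lit 303) (nat_lit 189))))) (XT.nd (nat_lit 47846) (nat_lit 0) (nat_lit 10752) (XT.nd (nat_lit 47752) (nat_lit 0) (nat_lit 11592) (XT.lf (nat_lit 0) (nat_lit 8023917331) (nat_lit 336) (nat_lit 12105711801) (nat_lit 84) (nat_lit 6588811889) (nat_lit 24) (nat_lit 5) (nat_lit 28) (nat_lit 5) (nat_lit 25) (nat_lit 5) (nat_lit 373) (nat_lit 303) (nat_lit 188)) (XT.lf (nat_lit 0) (nat_lit 1396138206) (nat_lit 0) (nat_lit 1396138206) (nat_lit 756) (nat_lit 1040184806) (nat_lit 162) (nat_lit 5) (nat_lit 162) (nat_lit 3) (nat_lit 171) (nat_lit 3) (nat_lit 304) (nat_lit 304) (nat_lit 256)))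 (XT.nd (nat_lit 94) (nat_lit 840) (nat_lit 0) (XT.lf (nat_lit 0) (nat_lit 5911852152) (nat_lit 0) (nat_lit 917691931) (nat_lit 756) (nat_lit 912981037) (nat_lit 162) (nat_lit 5) (nat_lit 162) (nat_lit 3) (nat_lit 171) (nat_lit 3) (nat_lit 305) (nat_lit 304) (nat_lit 255)) (XT.nd (nat_lit 94) (nat_lit 0) (nat_lit 0) (XT.lf (nat_lit 0) (nat_lit 260773780) (nat_lit 840) (nat_lit 6529695295) (nat_lit 924) (nat_lit 1032924892) (nat_lit 152) (nat_lit 5) (nat_lit 162) (nat_lit 5) (nat_lit 163) (nat_lit 5) (nat_lit 306) (nat_lit 304) (nat_lit 254)) (XT.lf (nat_lit 0) (nat_lit 1434674757) (nat_lit 840) (nat_lit 3397483128) (nat_lit 924) (nat_lit 3075058561) (nat_lit 152) (nat_lit 5) (nat_lit 162) (nat_lit 5) (nat_lit 163) (nat_lit 5) (nat_lit 307) (nat_lit 304) (nat_lit 253)))))) (XT.nd (nat_lit 470) (nat_lit 756) (nat_lit 0) (XT.nd (nat_lit 188) (nat_lit 0) (nat_lit 84) (XT.nd (nat_lit 94) (nat_lit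 0) (nat_lit 0) (XT.lf (nat_lit 0) (nat_lit 2600383530) (nat_lit 840) (nat_lit 193508917) (nat_lit 924) (nat_lit 5201321641) (nat_lit 152) (nat_lit 5) (nat_lit 162) (nat_lit 5) (nat_lit 163) (nat_lit 5) (nat_lit 308) (nat_lit 304) (nat_lit 252)) (XT.lf (nat_lit 84) (nat_lit 3148652097) (nat_lit 0) (nat_lit 641569583) (nat_lit 924) (nat_lit 4296278953) (nat_lit 153) (nat_lit 5) (nat_lit 152) (nat_lit 5) (nat_lit 163) (nat_lit 5) (nat_lit 309) (nat_lit 304) (nat_lit 251))) (XT.nd (nat_lit 94) (nat_lit 0) (nat_lit 0) (XT.lf (nat_lit 0) (nat_lit 4992627496) (nat_lit 840) (nat_lit 1623695297) (nat_lit 924) (nat_lit 1565231171) (nat_lit 153) (nat_lit 5) (nat_lit 163) (nat_lit 5) (nat_lit 164) (nat_lit 5) (nat_lit 310) (nat_lit 304) (nat_lit 250)) (XT.nd (nat_lit 94) (nat_lit 0) (nat_lit 0) (XT.lf (nat_lit 84) (nat_lit 1797641155) (nat_lit 0) (nat_lit 4418317792) (nat_lit 924) (nat_lit 2064279378)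 (nat_lit 154) (nat_lit 5) (nat_lit 153) (nat_lit 5) (nat_lit 164) (nat_lit 5) (nat_lit 311) (nat_lit 304) (nat_lit 249)) (XT.lf (nat_lit 84) (nat_lit 5334503524) (nat_lit 0) (nat_lit 2119892179) (nat_lit 924) (nat_lit 928465777) (nat_lit 154) (nat_lit 5) (nat_lit 153) (nat_lit 5) (nat_lit 164) (nat_lit 5) (nat_lit 312) (nat_lit 304) (nat_lit 248))))) (XT.nd (nat_lit 282) (nat_lit 0) (nat_lit 0) (XT.nd (nat_lit 94) (nat_lit 0) (nat_lit 0) (XT.lf (nat_lit 0) (nat_lit 205936917) (nat_lit 924) (nat_lit 8018189797) (nat_lit 1008) (nat_lit 265610425) (nat_lit 143) (nat_lit 5) (nat_lit 154) (nat_lit 5) (nat_lit 155) (nat_lit 5) (nat_lit 313) (nat_lit 304) (nat_lit 247)) (XT.nd (nat_lit 94) (nat_lit 0) (nat_lit 0) (XT.lf (nat_lit 0) (nat_lit 1371977789) (nat_lit 924) (nat_lit 4491640628) (nat_lit 1008) (nat_lit 2735681797) (nat_lit 143) (nat_lit 5) (nat_lit 154) (nat_lit 5) (nat_lit 155) (nat_lit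 5) (nat_lit 314) (nat_lit 304) (nat_lit 246)) (XT.lf (nat_lit 0) (nat_lit 2537243102) (nat_lit 924) (nat_lit 881366297) (nat_lit 1008) (nat_lit 5294947378) (nat_lit 143) (nat_lit 5) (nat_lit 154) (nat_lit 5) (nat_lit 155) (nat_lit 5) (nat_lit 315) (nat_lit 304) (nat_lit 245)))) (XT.nd (nat_lit 94) (nat_lit 0) (nat_lit 84) (XT.lf (nat_lit 84) (nat_lit 2873901050) (nat_lit 0) (nat_lit 857427409) (nat_lit 1008) (nat_lit 5100401074) (nat_lit 144) (nat_lit 5) (nat_lit 143) (nat_lit 5) (nat_lit 155) (nat_lit 5) (nat_lit 316) (nat_lit 304) (nat_lit 244)) (XT.nd (nat_lit 94) (nat_lit 0) (nat_lit 0) (XT.lf (nat_lit 0) (nat_lit 4954536859) (nat_lit 924) (nat_lit 2232705224) (nat_lit 1008) (nat_lit 1766711658) (nat_lit 144) (nat_lit 5) (nat_lit 155) (nat_lit 5) (nat_lit 156) (nat_lit 5) (nat_lit 317) (nat_lit 304) (nat_lit 243)) (XT.lf (nat_lit 84) (nat_lit 1606363236) (nat_lit 0) (nat_lit 4600178499)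 (nat_lit 1008) (nat_lit 2873847061) (nat_lit 145) (nat_lit 5) (nat_lit 144) (nat_lit 5) (nat_lit 156) (nat_lit 5) (nat_lit 318) (nat_lit 304) (nat_lit 242))))))))
noncomputable def xc73 : XT := (XT.nd (nat_lit 1974) (nat_lit 2856) (nat_lit 0) (XT.nd (nat_lit 940) (nat_lit 2604) (nat_lit 0) (XT.nd (nat_lit 470) (nat_lit 1596) (nat_lit 0) (XT.nd (nat_lit 188) (nat_lit 1092) (nat_lit 0) (XT.nd (nat_lit 94) (nat_lit 840) (nat_lit 0) (XT.lf (nat_lit 84) (nat_lit 5586900609) (nat_lit 0) (nat_lit 1900705619) (nat_lit 1008) (nat_lit 1723574341) (nat_lit 145) (nat_lit 5) (nat_lit 144) (nat_lit 5) (nat_lit 156) (nat_lit 5) (nat_lit 319) (nat_lit 304) (nat_lit 241)) (XT.lf (nat_lit 0) (nat_lit 317112833) (nat_lit 924) (nat_lit 8471186012) (nat_lit 1008) (nat_lit 558481519) (nat_lit 134) (nat_lit 5) (nat_lit 145) (nat_lit 5) (nat_lit 146) (nat_lit 5) (nat_lit 320) (nat_lit 304) (nat_lit 240))) (XT.nd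 (nat_lit 94) (nat_lit 1008) (nat_lit 0) (XT.lf (nat_lit 0) (nat_lit 655720422) (nat_lit 1008) (nat_lit 5079940809) (nat_lit 84) (nat_lit 3750043797) (nat_lit 133) (nat_lit 5) (nat_lit 145) (nat_lit 5) (nat_lit 134) (nat_lit 5) (nat_lit 321) (nat_lit 304) (nat_lit 239)) (XT.nd (nat_lit 94) (nat_lit 1008) (nat_lit 0) (XT.lf (nat_lit 0) (nat_lit 1865199371) (nat_lit 1008) (nat_lit 1038556103) (nat_lit 84) (nat_lit 6726076837) (nat_lit 133) (nat_lit 5) (nat_lit 145) (nat_lit 5) (nat_lit 134) (nat_lit 5) (nat_lit 322) (nat_lit 304) (nat_lit 238)) (XT.lf (nat_lit 0) (nat_lit 3114292233) (nat_lit 1092) (nat_lit 6611414292) (nat_lit 84) (nat_lit 52771097) (nat_lit 121) (nat_lit 5) (nat_lit 134) (nat_lit 5) (nat_lit 122) (nat_lit 5) (nat_lit 323) (nat_lit 304) (nat_lit 237))))) (XT.nd (nat_lit 188) (nat_lit 504) (nat_lit 0) (XT.nd (nat_lit 94) (nat_lit 1092) (nat_lit 0) (XT.lf (nat_lit 0) (nat_lit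 4413628528) (nat_lit 1092) (nat_lit 2461269617) (nat_lit 84) (nat_lit 3056587947) (nat_lit 121) (nat_lit 5) (nat_lit 134) (nat_lit 5) (nat_lit 122) (nat_lit 5) (nat_lit 324) (nat_lit 304) (nat_lit 236)) (XT.lf (nat_lit 0) (nat_lit 1830017104) (nat_lit 1092) (nat_lit 3913128666) (nat_lit 1176) (nat_lit 4346514054) (nat_lit 108) (nat_lit 5) (nat_lit 121) (nat_lit 5) (nat_lit 122) (nat_lit 5) (nat_lit 325) (nat_lit 304) (nat_lit 235))) (XT.nd (nat_lit 94) (nat_lit 504) (nat_lit 0) (XT.lf (nat_lit 0) (nat_lit 6282374993) (nat_lit 1092) (nat_lit 829551244) (nat_lit 1176) (nat_lit 3140976880) (nat_lit 108) (nat_lit 5) (nat_lit 121) (nat_lit 5) (nat_lit 122) (nat_lit 5) (nat_lit 326) (nat_lit 304) (nat_lit 234)) (XT.nd (nat_lit 94) (nat_lit 0) (nat_lit 0) (XT.lf (nat_lit 0) (nat_lit 412166780) (nat_lit 504) (nat_lit 8111591822) (nat_lit 588) (nat_lit 1897531630) (nat_lit 102) (nat_lit 5) (nat_lit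 108) (nat_lit 5) (nat_lit 109) (nat_lit 5) (nat_lit 327) (nat_lit 304) (nat_lit 233)) (XT.lf (nat_lit 0) (nat_lit 4982108337) (nat_lit 504) (nat_lit 5020880292) (nat_lit 588) (nat_lit 591275573) (nat_lit 102) (nat_lit 5) (nat_lit 108) (nat_lit 5) (nat_lit 109) (nat_lit 5) (nat_lit 328) (nat_lit 304) (nat_lit 232)))))) (XT.nd (nat_lit 470) (nat_lit 1428) (nat_lit 0) (XT.nd (nat_lit 188) (nat_lit 504) (nat_lit 0) (XT.nd (nat_lit 94) (nat_lit 588) (nat_lit 0) (XT.lf (nat_lit 0) (nat_lit 714475152) (nat_lit 588) (nat_lit 1110405871) (nat_lit 84) (nat_lit 8948379661) (nat_lit 101) (nat_lit 5) (nat_lit 108) (nat_lit 5) (nat_lit 102) (nat_lit 5) (nat_lit 329) (nat_lit 304) (nat_lit 231)) (XT.lf (nat_lit 0) (nat_lit 2073894666) (nat_lit 672) (nat_lit 7398867932) (nat_lit 84) (nat_lit 1484157046) (nat_lit 94) (nat_lit 5) (nat_lit 102) (nat_lit 5) (nat_lit 95) (nat_lit 5) (nat_lit 330) (nat_lit 304)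 (nat_lit 230))) (XT.nd (nat_lit 94) (nat_lit 504) (nat_lit 0) (XT.lf (nat_lit 0) (nat_lit 3481363184) (nat_lit 672) (nat_lit 2793855580) (nat_lit 84) (nat_lit 4870958134) (nat_lit 94) (nat_lit 5) (nat_lit 102) (nat_lit 5) (nat_lit 95) (nat_lit 5) (nat_lit 331) (nat_lit 304) (nat_lit 229)) (XT.nd (nat_lit 94) (nat_lit 0) (nat_lit 0) (XT.lf (nat_lit 0) (nat_lit 1970399312) (nat_lit 504) (nat_lit 2957880021) (nat_lit 588) (nat_lit 6413236831) (nat_lit 88) (nat_lit 5) (nat_lit 94) (nat_lit 5) (nat_lit 95) (nat_lit 5) (nat_lit 332) (nat_lit 304) (nat_lit 228)) (XT.lf (nat_lit 0) (nat_lit 6430854054) (nat_lit 588) (nat_lit 4629099860) (nat_lit 84) (nat_lit 482704877) (nat_lit 88) (nat_lit 5) (nat_lit 95) (nat_lit 5) (nat_lit 89) (nat_lit 5) (nat_lit 333) (nat_lit 304) (nat_lit 227))))) (XT.nd (nat_lit 282) (nat_lit 924) (nat_lit 0) (XT.nd (nat_lit 94) (nat_lit 0) (nat_lit 0) (XT.lf (nat_lit 0)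 (nat_lit 210847704) (nat_lit 504) (nat_lit 7778961274) (nat_lit 588) (nat_lit 3760004331) (nat_lit 82) (nat_lit 5) (nat_lit 88) (nat_lit 5) (nat_lit 89) (nat_lit 5) (nat_lit 334) (nat_lit 304) (nat_lit 226)) (XT.nd (nat_lit 94) (nat_lit 0) (nat_lit 0) (XT.lf (nat_lit 0) (nat_lit 5276133758) (nat_lit 504) (nat_lit 4347183965) (nat_lit 588) (nat_lit 2339336750) (nat_lit 82) (nat_lit 5) (nat_lit 88) (nat_lit 5) (nat_lit 89) (nat_lit 5) (nat_lit 335) (nat_lit 304) (nat_lit 225)) (XT.lf (nat_lit 0) (nat_lit 10476295891) (nat_lit 504) (nat_lit 809741522) (nat_lit 588) (nat_lit 896796090) (nat_lit 82) (nat_lit 5) (nat_lit 88) (nat_lit 5) (nat_lit 89) (nat_lit 5) (nat_lit 336) (nat_lit 304) (nat_lit 224)))) (XT.nd (nat_lit 94) (nat_lit 420) (nat_lit 0) (XT.lf (nat_lit 0) (nat_lit 620470514) (nat_lit 504) (nat_lit 8967971435) (nat_lit 84) (nat_lit 2819986592) (nat_lit 76) (nat_lit 5) (nat_lit 82)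 (nat_lit 5) (nat_lit 77) (nat_lit 5) (nat_lit 337) (nat_lit 304) (nat_lit 223)) (XT.nd (nat_lit 94) (nat_lit 420) (nat_lit 0) (XT.lf (nat_lit 0) (nat_lit 2171759148) (nat_lit 504) (nat_lit 3897376062) (nat_lit 84) (nat_lit 6571492321) (nat_lit 76) (nat_lit 5) (nat_lit 82) (nat_lit 5) (nat_lit 77) (nat_lit 5) (nat_lit 338) (nat_lit 304) (nat_lit 222)) (XT.lf (nat_lit 0) (nat_lit 1335529533) (nat_lit 420) (nat_lit 2428816701) (nat_lit 504) (nat_lit 9115955837) (nat_lit 71) (nat_lit 5) (nat_lit 76) (nat_lit 5) (nat_lit 77) (nat_lit 5) (nat_lit 339) (nat_lit 304) (nat_lit 221))))))) (XT.nd (nat_lit 1034) (nat_lit 1260) (nat_lit 0) (XT.nd (nat_lit 470) (nat_lit 756) (nat_lit 0) (XT.nd (nat_lit 188) (nat_lit 840) (nat_lit 0) (XT.nd (nat_lit 94) (nat_lit 0) (nat_lit 0) (XT.lf (nat_lit 0) (nat_lit 5440867461) (nat_lit 504) (nat_lit 6348642349) (nat_lit 84) (nat_lit 1336890064) (nat_lit 71) (nat_lit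 5) (nat_lit 77) (nat_lit 5) (nat_lit 72) (nat_lit 5) (nat_lit 340) (nat_lit 304) (nat_lit 220)) (XT.lf (nat_lit 0) (nat_lit 7175122905) (nat_lit 504) (nat_lit 1037825732) (nat_lit 84) (nat_lit 5167062336) (nat_lit 71) (nat_lit 5) (nat_lit 77) (nat_lit 5) (nat_lit 72) (nat_lit 5) (nat_lit 341) (nat_lit 304) (nat_lit 219))) (XT.nd (nat_lit 94) (nat_lit 420) (nat_lit 0) (XT.lf (nat_lit 0) (nat_lit 4507538570) (nat_lit 420) (nat_lit 4481811682) (nat_lit 504) (nat_lit 4651382248) (nat_lit 66) (nat_lit 5) (nat_lit 71) (nat_lit 5) (nat_lit 72) (nat_lit 5) (nat_lit 342) (nat_lit 304) (nat_lit 218)) (XT.nd (nat_lit 94) (nat_lit 420) (nat_lit 0) (XT.lf (nat_lit 0) (nat_lit 10226117679) (nat_lit 420) (nat_lit 626379526) (nat_lit 504) (nat_lit 3057325315) (nat_lit 66) (nat_lit 5) (nat_lit 71) (nat_lit 5) (nat_lit 72) (nat_lit 5) (nat_lit 343) (nat_lit 304) (nat_lit 217)) (XT.lf (nat_lit 0) (nat_lit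 1919524845) (nat_lit 420) (nat_lit 10888504249) (nat_lit 504) (nat_lit 1378209169) (nat_lit 61) (nat_lit 5) (nat_lit 66) (nat_lit 5) (nat_lit 67) (nat_lit 5) (nat_lit 344) (nat_lit 304) (nat_lit 216))))) (XT.nd (nat_lit 282) (nat_lit 336) (nat_lit 0) (XT.nd (nat_lit 94) (nat_lit 336) (nat_lit 0) (XT.lf (nat_lit 0) (nat_lit 373561295) (nat_lit 504) (nat_lit 6726639716) (nat_lit 84) (nat_lit 7370108218) (nat_lit 60) (nat_lit 5) (nat_lit 66) (nat_lit 5) (nat_lit 61) (nat_lit 5) (nat_lit 345) (nat_lit 304) (nat_lit 215)) (XT.nd (nat_lit 94) (nat_lit 336) (nat_lit 0) (XT.lf (nat_lit 0) (nat_lit 2133998395) (nat_lit 504) (nat_lit 1049147493) (nat_lit 84) (nat_lit 11580183195) (nat_lit 60) (nat_lit 5) (nat_lit 66) (nat_lit 5) (nat_lit 61) (nat_lit 5) (nat_lit 346) (nat_lit 304) (nat_lit 214)) (XT.lf (nat_lit 0) (nat_lit 3989901481) (nat_lit 420) (nat_lit 10190331560) (nat_lit 84) (nat_lit 883982631)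 (nat_lit 56) (nat_lit 5) (nat_lit 61) (nat_lit 5) (nat_lit 57) (nat_lit 5) (nat_lit 347) (nat_lit 304) (nat_lit 213)))) (XT.nd (nat_lit 94) (nat_lit 336) (nat_lit 0) (XT.lf (nat_lit 0) (nat_lit 5930729847) (nat_lit 420) (nat_lit 4423927663) (nat_lit 84) (nat_lit 5018972333) (nat_lit 56) (nat_lit 5) (nat_lit 61) (nat_lit 5) (nat_lit 57) (nat_lit 5) (nat_lit 348) (nat_lit 304) (nat_lit 212)) (XT.nd (nat_lit 94) (nat_lit 0) (nat_lit 0) (XT.lf (nat_lit 0) (nat_lit 1532775965) (nat_lit 336) (nat_lit 6398414397) (nat_lit 420) (nat_lit 7761509807) (nat_lit 52) (nat_lit 5) (nat_lit 56) (nat_lit 5) (nat_lit 57) (nat_lit 5) (nat_lit 349) (nat_lit 304) (nat_lit 211)) (XT.lf (nat_lit 0) (nat_lit 7748777348) (nat_lit 336) (nat_lit 2275608996) (nat_lit 420) (nat_lit 5996369317) (nat_lit 52) (nat_lit 5) (nat_lit 56) (nat_lit 5) (nat_lit 57) (nat_lit 5) (nat_lit 350) (nat_lit 304) (nat_lit 210)))))) (XT.nd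 (nat_lit 470) (nat_lit 504) (nat_lit 0) (XT.nd (nat_lit 188) (nat_lit 420) (nat_lit 0) (XT.nd (nat_lit 94) (nat_lit 336) (nat_lit 0) (XT.lf (nat_lit 0) (nat_lit 12187037353) (nat_lit 420) (nat_lit 2240141892) (nat_lit 84) (nat_lit 1931705031) (nat_lit 52) (nat_lit 5) (nat_lit 57) (nat_lit 5) (nat_lit 53) (nat_lit 5) (nat_lit 351) (nat_lit 304) (nat_lit 209)) (XT.lf (nat_lit 0) (nat_lit 4017887901) (nat_lit 336) (nat_lit 10447400196) (nat_lit 420) (nat_lit 2240745092) (nat_lit 48) (nat_lit 5) (nat_lit 52) (nat_lit 5) (nat_lit 53) (nat_lit 5) (nat_lit 352) (nat_lit 304) (nat_lit 208))) (XT.nd (nat_lit 94) (nat_lit 420) (nat_lit 0) (XT.lf (nat_lit 0) (nat_lit 10499122536) (nat_lit 336) (nat_lit 6324106898) (nat_lit 420) (nat_lit 240475562) (nat_lit 48) (nat_lit 5) (nat_lit 52) (nat_lit 5) (nat_lit 53) (nat_lit 5) (nat_lit 353) (nat_lit 304) (nat_lit 207)) (XT.nd (nat_lit 94) (nat_lit 336) (nat_lit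 0) (XT.lf (nat_lit 0) (nat_lit 1771027676) (nat_lit 420) (nat_lit 287324921) (nat_lit 84) (nat_lit 15374027714) (nat_lit 47) (nat_lit 5) (nat_lit 52) (nat_lit 5) (nat_lit 48) (nat_lit 5) (nat_lit 354) (nat_lit 304) (nat_lit 206)) (XT.lf (nat_lit 0) (nat_lit 3912490992) (nat_lit 420) (nat_lit 11543466030) (nat_lit 84) (nat_lit 2354239320) (nat_lit 43) (nat_lit 5) (nat_lit 48) (nat_lit 5) (nat_lit 44) (nat_lit 5) (nat_lit 355) (nat_lit 304) (nat_lit 205))))) (XT.nd (nat_lit 282) (nat_lit 252) (nat_lit 0) (XT.nd (nat_lit 94) (nat_lit 252) (nat_lit 0) (XT.lf (nat_lit 0) (nat_lit 6130974424) (nat_lit 420) (nat_lit 5208418856) (nat_lit 84) (nat_lit 6860039137) (nat_lit 43) (nat_lit 5) (nat_lit 48) (nat_lit 5) (nat_lit 44) (nat_lit 5) (nat_lit 356) (nat_lit 304) (nat_lit 204)) (XT.nd (nat_lit 94) (nat_lit 0) (nat_lit 0) (XT.lf (nat_lit 0) (nat_lit 1332641672) (nat_lit 252) (nat_lit 7085766357)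 (nat_lit 336) (nat_lit 10182357587) (nat_lit 40) (nat_lit 5) (nat_lit 43) (nat_lit 5) (nat_lit 44) (nat_lit 5) (nat_lit 357) (nat_lit 304) (nat_lit 203)) (XT.lf (nat_lit 0) (nat_lit 8169842320) (nat_lit 252) (nat_lit 2648455231) (nat_lit 336) (nat_lit 8194989892) (nat_lit 40) (nat_lit 5) (nat_lit 43) (nat_lit 5) (nat_lit 44) (nat_lit 5) (nat_lit 358) (nat_lit 304) (nat_lit 202)))) (XT.nd (nat_lit 94) (nat_lit 252) (nat_lit 0) (XT.lf (nat_lit 0) (nat_lit 13299218936) (nat_lit 336) (nat_lit 4255626320) (nat_lit 84) (nat_lit 1883580644) (nat_lit 40) (nat_lit 5) (nat_lit 44) (nat_lit 5) (nat_lit 41) (nat_lit 5) (nat_lit 359) (nat_lit 304) (nat_lit 201)) (XT.nd (nat_lit 94) (nat_lit 0) (nat_lit 0) (XT.lf (nat_lit 0) (nat_lit 2544180751) (nat_lit 252) (nat_lit 13353094320) (nat_lit 336) (nat_lit 3978254690) (nat_lit 37) (nat_lit 5) (nat_lit 40) (nat_lit 5) (nat_lit 41) (nat_lit 5) (nat_lit 360)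 (nat_lit 304) (nat_lit 200)) (XT.lf (nat_lit 0) (nat_lit 9628758765) (nat_lit 252) (nat_lit 8979635040) (nat_lit 336) (nat_lit 1716813955) (nat_lit 37) (nat_lit 5) (nat_lit 40) (nat_lit 5) (nat_lit 41) (nat_lit 5) (nat_lit 361) (nat_lit 304) (nat_lit 199))))))))
noncomputable def xc74 : XT := (XT.nd (nat_lit 49726) (nat_lit 0) (nat_lit 4872) (XT.nd (nat_lit 940) (nat_lit 252) (nat_lit 0) (XT.nd (nat_lit 470) (nat_lit 252) (nat_lit 0) (XT.nd (nat_lit 188) (nat_lit 252) (nat_lit 0) (XT.nd (nat_lit 94) (nat_lit 252) (nat_lit 0) (XT.lf (nat_lit 0) (nat_lit 590657989) (nat_lit 336) (nat_lit 3877987659) (nat_lit 84) (nat_lit 16320383635) (nat_lit 36) (nat_lit 5) (nat_lit 40) (nat_lit 5) (nat_lit 37) (nat_lit 5) (nat_lit 362) (nat_lit 304) (nat_lit 198)) (XT.lf (nat_lit 0) (nat_lit 2956505360) (nat_lit 336) (nat_lit 18085480764) (nat_lit 84) (nat_lit 224030446) (nat_lit 33) (nat_lit 5) (nat_lit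 37) (nat_lit 5) (nat_lit 34) (nat_lit 5) (nat_lit 363) (nat_lit 304) (nat_lit 197))) (XT.nd (nat_lit 94) (nat_lit 252) (nat_lit 0) (XT.lf (nat_lit 0) (nat_lit 5471099668) (nat_lit 336) (nat_lit 11278283861) (nat_lit 84) (nat_lit 5006097794) (nat_lit 33) (nat_lit 5) (nat_lit 37) (nat_lit 5) (nat_lit 34) (nat_lit 5) (nat_lit 364) (nat_lit 304) (nat_lit 196)) (XT.nd (nat_lit 94) (nat_lit 252) (nat_lit 0) (XT.lf (nat_lit 0) (nat_lit 8052792566) (nat_lit 336) (nat_lit 4275306619) (nat_lit 84) (nat_lit 9932384344) (nat_lit 33) (nat_lit 5) (nat_lit 37) (nat_lit 5) (nat_lit 34) (nat_lit 5) (nat_lit 365) (nat_lit 304) (nat_lit 195)) (XT.lf (nat_lit 0) (nat_lit 2990224835) (nat_lit 252) (nat_lit 7743429030) (nat_lit 336) (nat_lit 12046920475) (nat_lit 30) (nat_lit 5) (nat_lit 33) (nat_lit 5) (nat_lit 34) (nat_lit 5) (nat_lit 366) (nat_lit 304) (nat_lit 194))))) (XT.nd (nat_lit 188) (nat_lit 252) (nat_lit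 0) (XT.nd (nat_lit 94) (nat_lit 0) (nat_lit 0) (XT.lf (nat_lit 0) (nat_lit 10556987250) (nat_lit 252) (nat_lit 2974903927) (nat_lit 336) (nat_lit 9783860385) (nat_lit 30) (nat_lit 5) (nat_lit 33) (nat_lit 5) (nat_lit 34) (nat_lit 5) (nat_lit 367) (nat_lit 304) (nat_lit 193)) (XT.lf (nat_lit 0) (nat_lit 16426047323) (nat_lit 336) (nat_lit 5542949472) (nat_lit 84) (nat_lit 1898263268) (nat_lit 30) (nat_lit 5) (nat_lit 34) (nat_lit 5) (nat_lit 31) (nat_lit 5) (nat_lit 368) (nat_lit 304) (nat_lit 192))) (XT.nd (nat_lit 94) (nat_lit 84) (nat_lit 0) (XT.lf (nat_lit 0) (nat_lit 1890157389) (nat_lit 168) (nat_lit 17559159145) (nat_lit 252) (nat_lit 4985351983) (nat_lit 28) (nat_lit 5) (nat_lit 30) (nat_lit 5) (nat_lit 31) (nat_lit 5) (nat_lit 369) (nat_lit 304) (nat_lit 191)) (XT.nd (nat_lit 94) (nat_lit 84) (nat_lit 0) (XT.lf (nat_lit 0) (nat_lit 9657286040) (nat_lit 168) (nat_lit 12957251568)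 (nat_lit 252) (nat_lit 2403657552) (nat_lit 28) (nat_lit 5) (nat_lit 30) (nat_lit 5) (nat_lit 31) (nat_lit 5) (nat_lit 370) (nat_lit 304) (nat_lit 190)) (XT.lf (nat_lit 0) (nat_lit 243414828) (nat_lit 252) (nat_lit 7970886048) (nat_lit 84) (nat_lit 17405746270) (nat_lit 27) (nat_lit 5) (nat_lit 30) (nat_lit 5) (nat_lit 28) (nat_lit 5) (nat_lit 371) (nat_lit 304) (nat_lit 189)))))) (XT.nd (nat_lit 48222) (nat_lit 0) (nat_lit 9912) (XT.nd (nat_lit 47940) (nat_lit 0) (nat_lit 10668) (XT.nd (nat_lit 94) (nat_lit 252) (nat_lit 0) (XT.lf (nat_lit 0) (nat_lit 2913446072) (nat_lit 252) (nat_lit 389654294) (nat_lit 84) (nat_lit 22936999976) (nat_lit 27) (nat_lit 5) (nat_lit 30) (nat_lit 5) (nat_lit 28) (nat_lit 5) (nat_lit 372) (nat_lit 304) (nat_lit 188)) (XT.lf (nat_lit 0) (nat_lit 5750601102) (nat_lit 336) (nat_lit 19329397881) (nat_lit 84) (nat_lit 1796782219) (nat_lit 24) (nat_lit 5) (nat_lit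 28) (nat_lit 5) (nat_lit 25) (nat_lit 5) (nat_lit 373) (nat_lit 304) (nat_lit 187))) (XT.nd (nat_lit 94) (nat_lit 0) (nat_lit 0) (XT.lf (nat_lit 0) (nat_lit 112980145) (nat_lit 924) (nat_lit 1898728521) (nat_lit 924) (nat_lit 1898728521) (nat_lit 151) (nat_lit 3) (nat_lit 162) (nat_lit 3) (nat_lit 162) (nat_lit 5) (nat_lit 305) (nat_lit 305) (nat_lit 254)) (XT.nd (nat_lit 94) (nat_lit 0) (nat_lit 84) (XT.lf (nat_lit 0) (nat_lit 1335302256) (nat_lit 924) (nat_lit 709353181) (nat_lit 924) (nat_lit 5858332370) (nat_lit 151) (nat_lit 3) (nat_lit 162) (nat_lit 3) (nat_lit 162) (nat_lit 5) (nat_lit 306) (nat_lit 305) (nat_lit 253)) (XT.lf (nat_lit 0) (nat_lit 2459713662) (nat_lit 840) (nat_lit 5487055427) (nat_lit 924) (nat_lit 41671183) (nat_lit 152) (nat_lit 5) (nat_lit 162) (nat_lit 5) (nat_lit 163) (nat_lit 5) (nat_lit 307) (nat_lit 305) (nat_lit 252))))) (XT.nd (nat_lit 282) (nat_lit 840)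 (nat_lit 0) (XT.nd (nat_lit 94) (nat_lit 0) (nat_lit 0) (XT.lf (nat_lit 0) (nat_lit 3604131144) (nat_lit 840) (nat_lit 2295181029) (nat_lit 924) (nat_lit 2177878702) (nat_lit 152) (nat_lit 5) (nat_lit 162) (nat_lit 5) (nat_lit 163) (nat_lit 5) (nat_lit 308) (nat_lit 305) (nat_lit 251)) (XT.nd (nat_lit 94) (nat_lit 0) (nat_lit 0) (XT.lf (nat_lit 84) (nat_lit 991787984) (nat_lit 0) (nat_lit 3760133844) (nat_lit 924) (nat_lit 3417949199) (nat_lit 153) (nat_lit 5) (nat_lit 152) (nat_lit 5) (nat_lit 163) (nat_lit 5) (nat_lit 309) (nat_lit 305) (nat_lit 250)) (XT.lf (nat_lit 84) (nat_lit 4405715178) (nat_lit 0) (nat_lit 1512620490) (nat_lit 924) (nat_lit 2347791866) (nat_lit 153) (nat_lit 5) (nat_lit 152) (nat_lit 5) (nat_lit 163) (nat_lit 5) (nat_lit 310) (nat_lit 305) (nat_lit 249)))) (XT.nd (nat_lit 94) (nat_lit 924) (nat_lit 0) (XT.lf (nat_lit 0) (nat_lit 7089371286) (nat_lit 840) (nat_lit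 472329443) (nat_lit 924) (nat_lit 804817133) (nat_lit 153) (nat_lit 5) (nat_lit 163) (nat_lit 5) (nat_lit 164) (nat_lit 5) (nat_lit 311) (nat_lit 305) (nat_lit 248)) (XT.nd (nat_lit 94) (nat_lit 924) (nat_lit 0) (XT.lf (nat_lit 84) (nat_lit 3042902301) (nat_lit 0) (nat_lit 5261133017) (nat_lit 924) (nat_lit 165924900) (nat_lit 154) (nat_lit 5) (nat_lit 153) (nat_lit 5) (nat_lit 164) (nat_lit 5) (nat_lit 312) (nat_lit 305) (nat_lit 247)) (XT.lf (nat_lit 0) (nat_lit 927033561) (nat_lit 924) (nat_lit 1933522974) (nat_lit 1008) (nat_lit 5716930720) (nat_lit 142) (nat_lit 5) (nat_lit 153) (nat_lit 5) (nat_lit 154) (nat_lit 5) (nat_lit 313) (nat_lit 305) (nat_lit 246))))))) (XT.nd (nat_lit 1034) (nat_lit 3276) (nat_lit 0) (XT.nd (nat_lit 470) (nat_lit 1764) (nat_lit 0) (XT.nd (nat_lit 188) (nat_lit 0) (nat_lit 84) (XT.nd (nat_lit 94) (nat_lit 0) (nat_lit 84) (XT.lf (nat_lit 84) (nat_lit 1676714460)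 (nat_lit 0) (nat_lit 353534988) (nat_lit 1008) (nat_lit 6658823507) (nat_lit 143) (nat_lit 5) (nat_lit 142) (nat_lit 5) (nat_lit 154) (nat_lit 5) (nat_lit 314) (nat_lit 305) (nat_lit 245)) (XT.lf (nat_lit 0) (nat_lit 3174374645) (nat_lit 924) (nat_lit 3410801666) (nat_lit 1008) (nat_lit 2218881342) (nat_lit 143) (nat_lit 5) (nat_lit 154) (nat_lit 5) (nat_lit 155) (nat_lit 5) (nat_lit 315) (nat_lit 305) (nat_lit 244))) (XT.nd (nat_lit 94) (nat_lit 0) (nat_lit 0) (XT.lf (nat_lit 84) (nat_lit 280354453) (nat_lit 0) (nat_lit 4045274427) (nat_lit 1008) (nat_lit 4597999897) (nat_lit 144) (nat_lit 5) (nat_lit 143) (nat_lit 5) (nat_lit 155) (nat_lit 5) (nat_lit 316) (nat_lit 305) (nat_lit 243)) (XT.nd (nat_lit 94) (nat_lit 0) (nat_lit 84) (XT.lf (nat_lit 84) (nat_lit 4134405765) (nat_lit 0) (nat_lit 1379840141) (nat_lit 1008) (nat_lit 3532747893) (nat_lit 144) (nat_lit 5) (nat_lit 143) (nat_lit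 5) (nat_lit 155) (nat_lit 5) (nat_lit 317) (nat_lit 305) (nat_lit 242)) (XT.lf (nat_lit 0) (nat_lit 6720472356) (nat_lit 924) (nat_lit 1104196631) (nat_lit 1008) (nat_lit 1350245420) (nat_lit 144) (nat_lit 5) (nat_lit 155) (nat_lit 5) (nat_lit 156) (nat_lit 5) (nat_lit 318) (nat_lit 305) (nat_lit 241))))) (XT.nd (nat_lit 282) (nat_lit 1008) (nat_lit 0) (XT.nd (nat_lit 94) (nat_lit 924) (nat_lit 0) (XT.lf (nat_lit 84) (nat_lit 2841757087) (nat_lit 0) (nat_lit 5132813745) (nat_lit 1008) (nat_lit 1332035718) (nat_lit 145) (nat_lit 5) (nat_lit 144) (nat_lit 5) (nat_lit 156) (nat_lit 5) (nat_lit 319) (nat_lit 305) (nat_lit 240)) (XT.nd (nat_lit 94) (nat_lit 924) (nat_lit 0) (XT.lf (nat_lit 84) (nat_lit 6910042725) (nat_lit 0) (nat_lit 2337929833) (nat_lit 1008) (nat_lit 195142291) (nat_lit 145) (nat_lit 5) (nat_lit 144) (nat_lit 5) (nat_lit 156) (nat_lit 5) (nat_lit 320) (nat_lit 305) (nat_lit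 239)) (XT.lf (nat_lit 0) (nat_lit 947492881) (nat_lit 1008) (nat_lit 8071834394) (nat_lit 84) (nat_lit 564650924) (nat_lit 133) (nat_lit 5) (nat_lit 145) (nat_lit 5) (nat_lit 134) (nat_lit 5) (nat_lit 321) (nat_lit 305) (nat_lit 238)))) (XT.nd (nat_lit 94) (nat_lit 1008) (nat_lit 0) (XT.lf (nat_lit 0) (nat_lit 2142280881) (nat_lit 1008) (nat_lit 4042422972) (nat_lit 84) (nat_lit 3543914068) (nat_lit 133) (nat_lit 5) (nat_lit 145) (nat_lit 5) (nat_lit 134) (nat_lit 5) (nat_lit 322) (nat_lit 305) (nat_lit 237)) (XT.nd (nat_lit 94) (nat_lit 0) (nat_lit 0) (XT.lf (nat_lit 0) (nat_lit 90129555) (nat_lit 1008) (nat_lit 3255931675) (nat_lit 1092) (nat_lit 6532661994) (nat_lit 121) (nat_lit 5) (nat_lit 133) (nat_lit 5) (nat_lit 134) (nat_lit 5) (nat_lit 323) (nat_lit 305) (nat_lit 236)) (XT.lf (nat_lit 0) (nat_lit 4413140688) (nat_lit 1008) (nat_lit 187911070) (nat_lit 1092) (nat_lit 5432108296)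 (nat_lit 121) (nat_lit 5) (nat_lit 133) (nat_lit 5) (nat_lit 134) (nat_lit 5) (nat_lit 324) (nat_lit 305) (nat_lit 235)))))) (XT.nd (nat_lit 470) (nat_lit 1596) (nat_lit 0) (XT.nd (nat_lit 188) (nat_lit 588) (nat_lit 0) (XT.nd (nat_lit 94) (nat_lit 1092) (nat_lit 0) (XT.lf (nat_lit 0) (nat_lit 5897058544) (nat_lit 1092) (nat_lit 1375383845) (nat_lit 84) (nat_lit 2919982248) (nat_lit 121) (nat_lit 5) (nat_lit 134) (nat_lit 5) (nat_lit 122) (nat_lit 5) (nat_lit 325) (nat_lit 305) (nat_lit 234)) (XT.lf (nat_lit 0) (nat_lit 3037166684) (nat_lit 1092) (nat_lit 4201546781) (nat_lit 1176) (nat_lit 3117845820) (nat_lit 108) (nat_lit 5) (nat_lit 121) (nat_lit 5) (nat_lit 122) (nat_lit 5) (nat_lit 326) (nat_lit 305) (nat_lit 233))) (XT.nd (nat_lit 94) (nat_lit 588) (nat_lit 0) (XT.lf (nat_lit 0) (nat_lit 7592956988) (nat_lit 1092) (nat_lit 1017353780) (nat_lit 1176) (nat_lit 1915931867) (nat_lit 108)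 (nat_lit 5) (nat_lit 121) (nat_lit 5) (nat_lit 122) (nat_lit 5) (nat_lit 327) (nat_lit 305) (nat_lit 232)) (XT.nd (nat_lit 94) (nat_lit 84) (nat_lit 0) (XT.lf (nat_lit 0) (nat_lit 1575117151) (nat_lit 504) (nat_lit 8462218866) (nat_lit 588) (nat_lit 663546411) (nat_lit 102) (nat_lit 5) (nat_lit 108) (nat_lit 5) (nat_lit 109) (nat_lit 5) (nat_lit 328) (nat_lit 305) (nat_lit 231)) (XT.lf (nat_lit 0) (nat_lit 631349702) (nat_lit 588) (nat_lit 4634773817) (nat_lit 84) (nat_lit 5614203910) (nat_lit 101) (nat_lit 5) (nat_lit 108) (nat_lit 5) (nat_lit 102) (nat_lit 5) (nat_lit 329) (nat_lit 305) (nat_lit 230))))) (XT.nd (nat_lit 282) (nat_lit 1008) (nat_lit 0) (XT.nd (nat_lit 94) (nat_lit 588) (nat_lit 0) (XT.lf (nat_lit 0) (nat_lit 1928352916) (nat_lit 588) (nat_lit 33954037) (nat_lit 84) (nat_lit 9103657662) (nat_lit 101) (nat_lit 5) (nat_lit 108) (nat_lit 5) (nat_lit 102) (nat_lit 5) (nat_lit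 330) (nat_lit 305) (nat_lit 229)) (XT.nd (nat_lit 94) (nat_lit 0) (nat_lit 0) (XT.lf (nat_lit 0) (nat_lit 3304323691) (nat_lit 672) (nat_lit 6487574130) (nat_lit 84) (nat_lit 1464342495) (nat_lit 94) (nat_lit 5) (nat_lit 102) (nat_lit 5) (nat_lit 95) (nat_lit 5) (nat_lit 331) (nat_lit 305) (nat_lit 228)) (XT.lf (nat_lit 0) (nat_lit 4720360410) (nat_lit 672) (nat_lit 1774103602) (nat_lit 84) (nat_lit 4958113588) (nat_lit 94) (nat_lit 5) (nat_lit 102) (nat_lit 5) (nat_lit 95) (nat_lit 5) (nat_lit 332) (nat_lit 305) (nat_lit 227)))) (XT.nd (nat_lit 94) (nat_lit 504) (nat_lit 0) (XT.lf (nat_lit 0) (nat_lit 3126642276) (nat_lit 504) (nat_lit 3062343769) (nat_lit 588) (nat_lit 5465826131) (nat_lit 88) (nat_lit 5) (nat_lit 94) (nat_lit 5) (nat_lit 95) (nat_lit 5) (nat_lit 333) (nat_lit 305) (nat_lit 226)) (XT.nd (nat_lit 94) (nat_lit 504) (nat_lit 0) (XT.lf (nat_lit 0) (nat_lit 7704704592) (nat_lit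 588) (nat_lit 3673108017) (nat_lit 84) (nat_lit 485532753) (nat_lit 88) (nat_lit 5) (nat_lit 95) (nat_lit 5) (nat_lit 89) (nat_lit 5) (nat_lit 334) (nat_lit 305) (nat_lit 225)) (XT.lf (nat_lit 0) (nat_lit 1305746533) (nat_lit 504) (nat_lit 7984729502) (nat_lit 588) (nat_lit 2787227535) (nat_lit 82) (nat_lit 5) (nat_lit 88) (nat_lit 5) (nat_lit 89) (nat_lit 5) (nat_lit 335) (nat_lit 305) (nat_lit 224))))))))
noncomputable def xc75 : XT := (XT.nd (nat_lit 1974) (nat_lit 1596) (nat_lit 0) (XT.nd (nat_lit 940) (nat_lit 1512) (nat_lit 0) (XT.nd (nat_lit 470) (nat_lit 840) (nat_lit 0) (XT.nd (nat_lit 188) (nat_lit 840) (nat_lit 0) (XT.nd (nat_lit 94) (nat_lit 84) (nat_lit 0) (XT.lf (nat_lit 0) (nat_lit 6495331683) (nat_lit 504) (nat_lit 4447630886) (nat_lit 588) (nat_lit 1355273327) (nat_lit 82) (nat_lit 5) (nat_lit 88) (nat_lit 5) (nat_lit 89) (nat_lit 5) (nat_lit 336) (nat_lit 305) (nat_lit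 223)) (XT.lf (nat_lit 0) (nat_lit 98197723) (nat_lit 588) (nat_lit 702336824) (nat_lit 84) (nat_lit 11725735330) (nat_lit 81) (nat_lit 5) (nat_lit 88) (nat_lit 5) (nat_lit 82) (nat_lit 5) (nat_lit 337) (nat_lit 305) (nat_lit 222))) (XT.nd (nat_lit 94) (nat_lit 420) (nat_lit 0) (XT.lf (nat_lit 0) (nat_lit 1624494585) (nat_lit 504) (nat_lit 8175385939) (nat_lit 84) (nat_lit 2959396001) (nat_lit 76) (nat_lit 5) (nat_lit 82) (nat_lit 5) (nat_lit 77) (nat_lit 5) (nat_lit 338) (nat_lit 305) (nat_lit 221)) (XT.nd (nat_lit 94) (nat_lit 420) (nat_lit 0) (XT.lf (nat_lit 0) (nat_lit 3194262619) (nat_lit 504) (nat_lit 2979792576) (nat_lit 84) (nat_lit 6825635182) (nat_lit 76) (nat_lit 5) (nat_lit 82) (nat_lit 5) (nat_lit 77) (nat_lit 5) (nat_lit 339) (nat_lit 305) (nat_lit 220)) (XT.lf (nat_lit 0) (nat_lit 2404820203) (nat_lit 420) (nat_lit 2412876270) (nat_lit 504) (nat_lit 8429768380) (nat_lit 71)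 (nat_lit 5) (nat_lit 76) (nat_lit 5) (nat_lit 77) (nat_lit 5) (nat_lit 340) (nat_lit 305) (nat_lit 219))))) (XT.nd (nat_lit 188) (nat_lit 840) (nat_lit 0) (XT.nd (nat_lit 94) (nat_lit 0) (nat_lit 0) (XT.lf (nat_lit 0) (nat_lit 6518904436) (nat_lit 504) (nat_lit 5518184708) (nat_lit 84) (nat_lit 1465041311) (nat_lit 71) (nat_lit 5) (nat_lit 77) (nat_lit 5) (nat_lit 72) (nat_lit 5) (nat_lit 341) (nat_lit 305) (nat_lit 218)) (XT.lf (nat_lit 0) (nat_lit 8279578954) (nat_lit 504) (nat_lit 73620489) (nat_lit 84) (nat_lit 5411341806) (nat_lit 71) (nat_lit 5) (nat_lit 77) (nat_lit 5) (nat_lit 72) (nat_lit 5) (nat_lit 342) (nat_lit 305) (nat_lit 217))) (XT.nd (nat_lit 94) (nat_lit 420) (nat_lit 0) (XT.lf (nat_lit 0) (nat_lit 5633562676) (nat_lit 420) (nat_lit 4499748093) (nat_lit 504) (nat_lit 3900640622) (nat_lit 66) (nat_lit 5) (nat_lit 71) (nat_lit 5) (nat_lit 72) (nat_lit 5) (nat_lit 343) (nat_lit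 305) (nat_lit 216)) (XT.nd (nat_lit 94) (nat_lit 420) (nat_lit 0) (XT.lf (nat_lit 0) (nat_lit 11499762060) (nat_lit 420) (nat_lit 528435748) (nat_lit 504) (nat_lit 2284076720) (nat_lit 66) (nat_lit 5) (nat_lit 71) (nat_lit 5) (nat_lit 72) (nat_lit 5) (nat_lit 344) (nat_lit 305) (nat_lit 215)) (XT.lf (nat_lit 0) (nat_lit 2953288723) (nat_lit 420) (nat_lit 11076621286) (nat_lit 504) (nat_lit 567879064) (nat_lit 61) (nat_lit 5) (nat_lit 66) (nat_lit 5) (nat_lit 67) (nat_lit 5) (nat_lit 345) (nat_lit 305) (nat_lit 214)))))) (XT.nd (nat_lit 470) (nat_lit 756) (nat_lit 0) (XT.nd (nat_lit 188) (nat_lit 672) (nat_lit 0) (XT.nd (nat_lit 94) (nat_lit 0) (nat_lit 0) (XT.lf (nat_lit 0) (nat_lit 1195876361) (nat_lit 504) (nat_lit 5971034823) (nat_lit 84) (nat_lit 7724349202) (nat_lit 60) (nat_lit 5) (nat_lit 66) (nat_lit 5) (nat_lit 61) (nat_lit 5) (nat_lit 346) (nat_lit 305) (nat_lit 213)) (XT.lf (nat_lit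 0) (nat_lit 2986509926) (nat_lit 504) (nat_lit 146529723) (nat_lit 84) (nat_lit 12061154935) (nat_lit 60) (nat_lit 5) (nat_lit 66) (nat_lit 5) (nat_lit 61) (nat_lit 5) (nat_lit 347) (nat_lit 305) (nat_lit 212))) (XT.nd (nat_lit 94) (nat_lit 336) (nat_lit 0) (XT.lf (nat_lit 0) (nat_lit 4887010182) (nat_lit 420) (nat_lit 9555806838) (nat_lit 84) (nat_lit 1062065430) (nat_lit 56) (nat_lit 5) (nat_lit 61) (nat_lit 5) (nat_lit 57) (nat_lit 5) (nat_lit 348) (nat_lit 305) (nat_lit 211)) (XT.nd (nat_lit 94) (nat_lit 336) (nat_lit 0) (XT.lf (nat_lit 0) (nat_lit 6864749063) (nat_lit 420) (nat_lit 3639221699) (nat_lit 84) (nat_lit 5320709202) (nat_lit 56) (nat_lit 5) (nat_lit 61) (nat_lit 5) (nat_lit 57) (nat_lit 5) (nat_lit 349) (nat_lit 305) (nat_lit 210)) (XT.lf (nat_lit 0) (nat_lit 2492806861) (nat_lit 336) (nat_lit 6420913324) (nat_lit 420) (nat_lit 7240408373) (nat_lit 52) (nat_lit 5) (nat_lit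 56) (nat_lit 5) (nat_lit 57) (nat_lit 5) (nat_lit 350) (nat_lit 305) (nat_lit 209))))) (XT.nd (nat_lit 282) (nat_lit 420) (nat_lit 0) (XT.nd (nat_lit 94) (nat_lit 336) (nat_lit 0) (XT.lf (nat_lit 0) (nat_lit 8874066886) (nat_lit 336) (nat_lit 2175588452) (nat_lit 420) (nat_lit 5443451491) (nat_lit 52) (nat_lit 5) (nat_lit 56) (nat_lit 5) (nat_lit 57) (nat_lit 5) (nat_lit 351) (nat_lit 305) (nat_lit 208)) (XT.nd (nat_lit 94) (nat_lit 336) (nat_lit 0) (XT.lf (nat_lit 0) (nat_lit 13259505770) (nat_lit 420) (nat_lit 1429200571) (nat_lit 84) (nat_lit 2153690632) (nat_lit 52) (nat_lit 5) (nat_lit 57) (nat_lit 5) (nat_lit 53) (nat_lit 5) (nat_lit 352) (nat_lit 305) (nat_lit 207)) (XT.lf (nat_lit 0) (nat_lit 5013915031) (nat_lit 336) (nat_lit 10582225101) (nat_lit 420) (nat_lit 1604609357) (nat_lit 48) (nat_lit 5) (nat_lit 52) (nat_lit 5) (nat_lit 53) (nat_lit 5) (nat_lit 353) (nat_lit 305) (nat_lit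 206)))) (XT.nd (nat_lit 94) (nat_lit 336) (nat_lit 0) (XT.lf (nat_lit 0) (nat_lit 427659107) (nat_lit 420) (nat_lit 5904670888) (nat_lit 84) (nat_lit 11237741601) (nat_lit 47) (nat_lit 5) (nat_lit 52) (nat_lit 5) (nat_lit 48) (nat_lit 5) (nat_lit 354) (nat_lit 305) (nat_lit 205)) (XT.nd (nat_lit 94) (nat_lit 0) (nat_lit 0) (XT.lf (nat_lit 0) (nat_lit 549914610) (nat_lit 336) (nat_lit 1931900959) (nat_lit 420) (nat_lit 15468796997) (nat_lit 43) (nat_lit 5) (nat_lit 47) (nat_lit 5) (nat_lit 48) (nat_lit 5) (nat_lit 355) (nat_lit 305) (nat_lit 204)) (XT.lf (nat_lit 0) (nat_lit 4674712452) (nat_lit 420) (nat_lit 11054966080) (nat_lit 84) (nat_lit 2610981165) (nat_lit 43) (nat_lit 5) (nat_lit 48) (nat_lit 5) (nat_lit 44) (nat_lit 5) (nat_lit 356) (nat_lit 305) (nat_lit 203))))))) (XT.nd (nat_lit 1034) (nat_lit 504) (nat_lit 0) (XT.nd (nat_lit 470) (nat_lit 588) (nat_lit 0) (XT.nd (nat_lit 188)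 (nat_lit 252) (nat_lit 0) (XT.nd (nat_lit 94) (nat_lit 252) (nat_lit 0) (XT.lf (nat_lit 0) (nat_lit 6942697326) (nat_lit 420) (nat_lit 4548980328) (nat_lit 84) (nat_lit 7250935487) (nat_lit 43) (nat_lit 5) (nat_lit 48) (nat_lit 5) (nat_lit 44) (nat_lit 5) (nat_lit 357) (nat_lit 305) (nat_lit 202)) (XT.lf (nat_lit 0) (nat_lit 2186542206) (nat_lit 252) (nat_lit 7103868058) (nat_lit 336) (nat_lit 9866358991) (nat_lit 40) (nat_lit 5) (nat_lit 43) (nat_lit 5) (nat_lit 44) (nat_lit 5) (nat_lit 358) (nat_lit 305) (nat_lit 201))) (XT.nd (nat_lit 94) (nat_lit 252) (nat_lit 0) (XT.lf (nat_lit 0) (nat_lit 9211263244) (nat_lit 252) (nat_lit 2535060683) (nat_lit 336) (nat_lit 7836375334) (nat_lit 40) (nat_lit 5) (nat_lit 43) (nat_lit 5) (nat_lit 44) (nat_lit 5) (nat_lit 359) (nat_lit 305) (nat_lit 200)) (XT.nd (nat_lit 94) (nat_lit 252) (nat_lit 0) (XT.lf (nat_lit 0) (nat_lit 14288214901) (nat_lit 336)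 (nat_lit 3605575418) (nat_lit 84) (nat_lit 2127769741) (nat_lit 40) (nat_lit 5) (nat_lit 44) (nat_lit 5) (nat_lit 41) (nat_lit 5) (nat_lit 360) (nat_lit 305) (nat_lit 199)) (XT.lf (nat_lit 0) (nat_lit 3397108875) (nat_lit 252) (nat_lit 13560039896) (nat_lit 336) (nat_lit 3515412360) (nat_lit 37) (nat_lit 5) (nat_lit 40) (nat_lit 5) (nat_lit 41) (nat_lit 5) (nat_lit 361) (nat_lit 305) (nat_lit 198))))) (XT.nd (nat_lit 282) (nat_lit 252) (nat_lit 0) (XT.nd (nat_lit 94) (nat_lit 336) (nat_lit 0) (XT.lf (nat_lit 0) (nat_lit 10678034496) (nat_lit 252) (nat_lit 9057227444) (nat_lit 336) (nat_lit 1201491807) (nat_lit 37) (nat_lit 5) (nat_lit 40) (nat_lit 5) (nat_lit 41) (nat_lit 5) (nat_lit 362) (nat_lit 305) (nat_lit 197)) (XT.nd (nat_lit 94) (nat_lit 252) (nat_lit 0) (XT.lf (nat_lit 0) (nat_lit 1149306406) (nat_lit 336) (nat_lit 3257487873) (nat_lit 84) (nat_lit 17008547196) (nat_lit 36) (nat_lit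 5) (nat_lit 40) (nat_lit 5) (nat_lit 37) (nat_lit 5) (nat_lit 363) (nat_lit 305) (nat_lit 196)) (XT.lf (nat_lit 0) (nat_lit 3581524247) (nat_lit 336) (nat_lit 17897087242) (nat_lit 84) (nat_lit 428761987) (nat_lit 33) (nat_lit 5) (nat_lit 37) (nat_lit 5) (nat_lit 34) (nat_lit 5) (nat_lit 364) (nat_lit 305) (nat_lit 195)))) (XT.nd (nat_lit 94) (nat_lit 252) (nat_lit 0) (XT.lf (nat_lit 0) (nat_lit 6158033748) (nat_lit 336) (nat_lit 10901389393) (nat_lit 84) (nat_lit 5353126397) (nat_lit 33) (nat_lit 5) (nat_lit 37) (nat_lit 5) (nat_lit 34) (nat_lit 5) (nat_lit 365) (nat_lit 305) (nat_lit 194)) (XT.nd (nat_lit 94) (nat_lit 252) (nat_lit 0) (XT.lf (nat_lit 0) (nat_lit 8804204103) (nat_lit 336) (nat_lit 3703164823) (nat_lit 84) (nat_lit 10426359617) (nat_lit 33) (nat_lit 5) (nat_lit 37) (nat_lit 5) (nat_lit 34) (nat_lit 5) (nat_lit 366) (nat_lit 305) (nat_lit 193)) (XT.lf (nat_lit 0) (nat_lit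 3780463892) (nat_lit 252) (nat_lit 7779540597) (nat_lit 336) (nat_lit 11910229211) (nat_lit 30) (nat_lit 5) (nat_lit 33) (nat_lit 5) (nat_lit 34) (nat_lit 5) (nat_lit 367) (nat_lit 305) (nat_lit 192)))))) (XT.nd (nat_lit 470) (nat_lit 252) (nat_lit 0) (XT.nd (nat_lit 188) (nat_lit 252) (nat_lit 0) (XT.nd (nat_lit 94) (nat_lit 0) (nat_lit 0) (XT.lf (nat_lit 0) (nat_lit 11560822319) (nat_lit 252) (nat_lit 2869323104) (nat_lit 336) (nat_lit 9592353269) (nat_lit 30) (nat_lit 5) (nat_lit 33) (nat_lit 5) (nat_lit 34) (nat_lit 5) (nat_lit 368) (nat_lit 305) (nat_lit 191)) (XT.lf (nat_lit 0) (nat_lit 17401528164) (nat_lit 336) (nat_lit 5044899815) (nat_lit 84) (nat_lit 2145099302) (nat_lit 30) (nat_lit 5) (nat_lit 34) (nat_lit 5) (nat_lit 31) (nat_lit 5) (nat_lit 369) (nat_lit 305) (nat_lit 190))) (XT.nd (nat_lit 94) (nat_lit 84) (nat_lit 0) (XT.lf (nat_lit 0) (nat_lit 2611851414) (nat_lit 168)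 (nat_lit 17899225473) (nat_lit 252) (nat_lit 4665714187) (nat_lit 28) (nat_lit 5) (nat_lit 30) (nat_lit 5) (nat_lit 31) (nat_lit 5) (nat_lit 370) (nat_lit 305) (nat_lit 189)) (XT.nd (nat_lit 94) (nat_lit 84) (nat_lit 0) (XT.lf (nat_lit 0) (nat_lit 10599823058) (nat_lit 168) (nat_lit 13160800657) (nat_lit 252) (nat_lit 2018244934) (nat_lit 28) (nat_lit 5) (nat_lit 30) (nat_lit 5) (nat_lit 31) (nat_lit 5) (nat_lit 371) (nat_lit 305) (nat_lit 188)) (XT.lf (nat_lit 0) (nat_lit 688069823) (nat_lit 252) (nat_lit 7584143372) (nat_lit 84) (nat_lit 18127475395) (nat_lit 27) (nat_lit 5) (nat_lit 30) (nat_lit 5) (nat_lit 28) (nat_lit 5) (nat_lit 372) (nat_lit 305) (nat_lit 187))))) (XT.nd (nat_lit 48128) (nat_lit 0) (nat_lit 10668) (XT.nd (nat_lit 47940) (nat_lit 0) (nat_lit 10668) (XT.lf (nat_lit 0) (nat_lit 217429037) (nat_lit 252) (nat_lit 3212456969) (nat_lit 336) (nat_lit 23609448955) (nat_lit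 24) (nat_lit 5) (nat_lit 27) (nat_lit 5) (nat_lit 28) (nat_lit 5) (nat_lit 373) (nat_lit 305) (nat_lit 186)) (XT.nd (nat_lit 94) (nat_lit 0) (nat_lit 0) (XT.lf (nat_lit 0) (nat_lit 1211352045) (nat_lit 924) (nat_lit 1390793276) (nat_lit 924) (nat_lit 1390793276) (nat_lit 151) (nat_lit 3) (nat_lit 162) (nat_lit 3) (nat_lit 162) (nat_lit 5) (nat_lit 306) (nat_lit 306) (nat_lit 252)) (XT.lf (nat_lit 84) (nat_lit 375734016) (nat_lit 0) (nat_lit 3128588126) (nat_lit 924) (nat_lit 4568427042) (nat_lit 152) (nat_lit 5) (nat_lit 151) (nat_lit 3) (nat_lit 162) (nat_lit 5) (nat_lit 307) (nat_lit 306) (nat_lit 251)))) (XT.nd (nat_lit 94) (nat_lit 0) (nat_lit 84) (XT.lf (nat_lit 84) (nat_lit 3667751644) (nat_lit 0) (nat_lit 938612038) (nat_lit 924) (nat_lit 3556539893) (nat_lit 152) (nat_lit 5) (nat_lit 151) (nat_lit 3) (nat_lit 162) (nat_lit 5) (nat_lit 308) (nat_lit 306) (nat_lit 250)) (XT.nd (nat_lit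 94) (nat_lit 0) (nat_lit 0) (XT.lf (nat_lit 0) (nat_lit 5714974388) (nat_lit 840) (nat_lit 1230237207) (nat_lit 924) (nat_lit 1311674137) (nat_lit 152) (nat_lit 5) (nat_lit 162) (nat_lit 5) (nat_lit 163) (nat_lit 5) (nat_lit 309) (nat_lit 306) (nat_lit 249)) (XT.lf (nat_lit 84) (nat_lit 2147125910) (nat_lit 0) (nat_lit 4702267585) (nat_lit 924) (nat_lit 1504825377) (nat_lit 153) (nat_lit 5) (nat_lit 152) (nat_lit 5) (nat_lit 163) (nat_lit 5) (nat_lit 310) (nat_lit 306) (nat_lit 248))))))))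
noncomputable def xc76 : XT := (XT.nd (nat_lit 1974) (nat_lit 3528) (nat_lit 0) (XT.nd (nat_lit 940) (nat_lit 3192) (nat_lit 0) (XT.nd (nat_lit 470) (nat_lit 840) (nat_lit 0) (XT.nd (nat_lit 188) (nat_lit 0) (nat_lit 0) (XT.nd (nat_lit 94) (nat_lit 840) (nat_lit 0) (XT.lf (nat_lit 84) (nat_lit 5633070717) (nat_lit 0) (nat_lit 2360258177) (nat_lit 924) (nat_lit 462202660) (nat_lit 153) (nat_lit 5) (nat_lit 152) (nat_lit 5) (nat_lit 163) (nat_lit 5) (nat_lit 311) (nat_lit 306) (nat_lit 247)) (XT.lf (nat_lit 0) (nat_lit 569806003) (nat_lit 924) (nat_lit 7910066856) (nat_lit 1008) (nat_lit 81029076) (nat_lit 142) (nat_lit 5) (nat_lit 153) (nat_lit 5) (nat_lit 154) (nat_lit 5) (nat_lit 312) (nat_lit 306) (nat_lit 246))) (XT.nd (nat_lit 94) (nat_lit 0) (nat_lit 0) (XT.lf (nat_lit 0) (nat_lit 1641296953) (nat_lit 924) (nat_lit 4429838238) (nat_lit 1008) (nat_lit 2597879664) (nat_lit 142) (nat_lit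 5) (nat_lit 153) (nat_lit 5) (nat_lit 154) (nat_lit 5) (nat_lit 313) (nat_lit 306) (nat_lit 245)) (XT.nd (nat_lit 94) (nat_lit 0) (nat_lit 0) (XT.lf (nat_lit 0) (nat_lit 2710300094) (nat_lit 924) (nat_lit 864692591) (nat_lit 1008) (nat_lit 5206741257) (nat_lit 142) (nat_lit 5) (nat_lit 153) (nat_lit 5) (nat_lit 154) (nat_lit 5) (nat_lit 314) (nat_lit 306) (nat_lit 244)) (XT.lf (nat_lit 84) (nat_lit 2846034426) (nat_lit 0) (nat_lit 960010438) (nat_lit 1008) (nat_lit 5092244173) (nat_lit 143) (nat_lit 5) (nat_lit 142) (nat_lit 5) (nat_lit 154) (nat_lit 5) (nat_lit 315) (nat_lit 306) (nat_lit 243))))) (XT.nd (nat_lit 188) (nat_lit 924) (nat_lit 0) (XT.nd (nat_lit 94) (nat_lit 0) (nat_lit 0) (XT.lf (nat_lit 0) (nat_lit 4928405954) (nat_lit 924) (nat_lit 2368724113) (nat_lit 1008) (nat_lit 1721694261) (nat_lit 143) (nat_lit 5) (nat_lit 154) (nat_lit 5) (nat_lit 155) (nat_lit 5) (nat_lit 316)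 (nat_lit 306) (nat_lit 242)) (XT.lf (nat_lit 84) (nat_lit 1425237276) (nat_lit 0) (nat_lit 4651601778) (nat_lit 1008) (nat_lit 3066662419) (nat_lit 144) (nat_lit 5) (nat_lit 143) (nat_lit 5) (nat_lit 155) (nat_lit 5) (nat_lit 317) (nat_lit 306) (nat_lit 241))) (XT.nd (nat_lit 94) (nat_lit 924) (nat_lit 0) (XT.lf (nat_lit 84) (nat_lit 5364601281) (nat_lit 0) (nat_lit 1889078662) (nat_lit 1008) (nat_lit 2018717515) (nat_lit 144) (nat_lit 5) (nat_lit 143) (nat_lit 5) (nat_lit 155) (nat_lit 5) (nat_lit 318) (nat_lit 306) (nat_lit 240)) (XT.nd (nat_lit 94) (nat_lit 1008) (nat_lit 0) (XT.lf (nat_lit 0) (nat_lit 8445649907) (nat_lit 924) (nat_lit 11647422) (nat_lit 1008) (nat_lit 948780742) (nat_lit 144) (nat_lit 5) (nat_lit 155) (nat_lit 5) (nat_lit 156) (nat_lit 5) (nat_lit 319) (nat_lit 306) (nat_lit 239)) (XT.lf (nat_lit 0) (nat_lit 157727540) (nat_lit 1008) (nat_lit 5499484663) (nat_lit 1092)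 (nat_lit 3885849340) (nat_lit 132) (nat_lit 5) (nat_lit 144) (nat_lit 5) (nat_lit 145) (nat_lit 5) (nat_lit 320) (nat_lit 306) (nat_lit 238)))))) (XT.nd (nat_lit 470) (nat_lit 2268) (nat_lit 0) (XT.nd (nat_lit 188) (nat_lit 924) (nat_lit 0) (XT.nd (nat_lit 94) (nat_lit 0) (nat_lit 84) (XT.lf (nat_lit 0) (nat_lit 1261045033) (nat_lit 1008) (nat_lit 1492092744) (nat_lit 1092) (nat_lit 6931881088) (nat_lit 132) (nat_lit 5) (nat_lit 144) (nat_lit 5) (nat_lit 145) (nat_lit 5) (nat_lit 321) (nat_lit 306) (nat_lit 237)) (XT.lf (nat_lit 0) (nat_lit 2399011742) (nat_lit 1008) (nat_lit 7162996272) (nat_lit 84) (nat_lit 269467337) (nat_lit 133) (nat_lit 5) (nat_lit 145) (nat_lit 5) (nat_lit 134) (nat_lit 5) (nat_lit 322) (nat_lit 306) (nat_lit 236))) (XT.nd (nat_lit 94) (nat_lit 1008) (nat_lit 0) (XT.lf (nat_lit 0) (nat_lit 3588077215) (nat_lit 1008) (nat_lit 3043523741) (nat_lit 84) (nat_lit 3350489501)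 (nat_lit 133) (nat_lit 5) (nat_lit 145) (nat_lit 5) (nat_lit 134) (nat_lit 5) (nat_lit 323) (nat_lit 306) (nat_lit 235)) (XT.nd (nat_lit 94) (nat_lit 0) (nat_lit 0) (XT.lf (nat_lit 0) (nat_lit 1205756254) (nat_lit 1008) (nat_lit 3592982717) (nat_lit 1092) (nat_lit 5339214537) (nat_lit 121) (nat_lit 5) (nat_lit 133) (nat_lit 5) (nat_lit 134) (nat_lit 5) (nat_lit 324) (nat_lit 306) (nat_lit 234)) (XT.lf (nat_lit 0) (nat_lit 5629320195) (nat_lit 1008) (nat_lit 422753927) (nat_lit 1092) (nat_lit 4246517253) (nat_lit 121) (nat_lit 5) (nat_lit 133) (nat_lit 5) (nat_lit 134) (nat_lit 5) (nat_lit 325) (nat_lit 306) (nat_lit 233))))) (XT.nd (nat_lit 282) (nat_lit 1176) (nat_lit 0) (XT.nd (nat_lit 94) (nat_lit 1092) (nat_lit 0) (XT.lf (nat_lit 0) (nat_lit 7346713021) (nat_lit 1092) (nat_lit 324673829) (nat_lit 84) (nat_lit 2792845617) (nat_lit 121) (nat_lit 5) (nat_lit 134) (nat_lit 5) (nat_lit 122)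 (nat_lit 5) (nat_lit 326) (nat_lit 306) (nat_lit 232)) (XT.nd (nat_lit 94) (nat_lit 0) (nat_lit 0) (XT.lf (nat_lit 0) (nat_lit 4213596611) (nat_lit 1092) (nat_lit 4489007580) (nat_lit 1176) (nat_lit 1931845989) (nat_lit 108) (nat_lit 5) (nat_lit 121) (nat_lit 5) (nat_lit 122) (nat_lit 5) (nat_lit 327) (nat_lit 306) (nat_lit 231)) (XT.lf (nat_lit 0) (nat_lit 8878074600) (nat_lit 1092) (nat_lit 1201377536) (nat_lit 1176) (nat_lit 731239382) (nat_lit 108) (nat_lit 5) (nat_lit 121) (nat_lit 5) (nat_lit 122) (nat_lit 5) (nat_lit 328) (nat_lit 306) (nat_lit 230)))) (XT.nd (nat_lit 94) (nat_lit 588) (nat_lit 0) (XT.lf (nat_lit 0) (nat_lit 521396103) (nat_lit 588) (nat_lit 8291003067) (nat_lit 84) (nat_lit 2179153845) (nat_lit 101) (nat_lit 5) (nat_lit 108) (nat_lit 5) (nat_lit 102) (nat_lit 5) (nat_lit 329) (nat_lit 306) (nat_lit 229)) (XT.nd (nat_lit 94) (nat_lit 588) (nat_lit 0) (XT.lf (nat_lit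 0) (nat_lit 1806817793) (nat_lit 588) (nat_lit 3700979046) (nat_lit 84) (nat_lit 5669794407) (nat_lit 101) (nat_lit 5) (nat_lit 108) (nat_lit 5) (nat_lit 102) (nat_lit 5) (nat_lit 330) (nat_lit 306) (nat_lit 228)) (XT.lf (nat_lit 0) (nat_lit 1030837895) (nat_lit 588) (nat_lit 2088660883) (nat_lit 672) (nat_lit 8250370907) (nat_lit 94) (nat_lit 5) (nat_lit 101) (nat_lit 5) (nat_lit 102) (nat_lit 5) (nat_lit 331) (nat_lit 306) (nat_lit 227))))))) (XT.nd (nat_lit 940) (nat_lit 1596) (nat_lit 0) (XT.nd (nat_lit 470) (nat_lit 924) (nat_lit 0) (XT.nd (nat_lit 188) (nat_lit 1008) (nat_lit 0) (XT.nd (nat_lit 94) (nat_lit 0) (nat_lit 0) (XT.lf (nat_lit 0) (nat_lit 4503823649) (nat_lit 672) (nat_lit 5615593388) (nat_lit 84) (nat_lit 1447812526) (nat_lit 94) (nat_lit 5) (nat_lit 102) (nat_lit 5) (nat_lit 95) (nat_lit 5) (nat_lit 332) (nat_lit 306) (nat_lit 226)) (XT.lf (nat_lit 0) (nat_lit 5930771042)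 (nat_lit 672) (nat_lit 788270998) (nat_lit 84) (nat_lit 5051752465) (nat_lit 94) (nat_lit 5) (nat_lit 102) (nat_lit 5) (nat_lit 95) (nat_lit 5) (nat_lit 333) (nat_lit 306) (nat_lit 225))) (XT.nd (nat_lit 94) (nat_lit 504) (nat_lit 0) (XT.lf (nat_lit 0) (nat_lit 4253860535) (nat_lit 504) (nat_lit 3169289536) (nat_lit 588) (nat_lit 4556938333) (nat_lit 88) (nat_lit 5) (nat_lit 94) (nat_lit 5) (nat_lit 95) (nat_lit 5) (nat_lit 334) (nat_lit 306) (nat_lit 224)) (XT.nd (nat_lit 94) (nat_lit 504) (nat_lit 0) (XT.lf (nat_lit 0) (nat_lit 8954400372) (nat_lit 588) (nat_lit 2752605336) (nat_lit 84) (nat_lit 489167127) (nat_lit 88) (nat_lit 5) (nat_lit 95) (nat_lit 5) (nat_lit 89) (nat_lit 5) (nat_lit 335) (nat_lit 306) (nat_lit 223)) (XT.lf (nat_lit 0) (nat_lit 2370121647) (nat_lit 504) (nat_lit 8198972137) (nat_lit 588) (nat_lit 1848817950) (nat_lit 82) (nat_lit 5) (nat_lit 88) (nat_lit 5) (nat_lit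 89) (nat_lit 5) (nat_lit 336) (nat_lit 306) (nat_lit 222))))) (XT.nd (nat_lit 188) (nat_lit 420) (nat_lit 0) (XT.nd (nat_lit 94) (nat_lit 504) (nat_lit 0) (XT.lf (nat_lit 0) (nat_lit 7689797511) (nat_lit 504) (nat_lit 4553224244) (nat_lit 588) (nat_lit 403287151) (nat_lit 82) (nat_lit 5) (nat_lit 88) (nat_lit 5) (nat_lit 89) (nat_lit 5) (nat_lit 337) (nat_lit 306) (nat_lit 221)) (XT.lf (nat_lit 0) (nat_lit 267133449) (nat_lit 420) (nat_lit 781445860) (nat_lit 504) (nat_lit 11833451414) (nat_lit 76) (nat_lit 5) (nat_lit 81) (nat_lit 5) (nat_lit 82) (nat_lit 5) (nat_lit 338) (nat_lit 306) (nat_lit 220))) (XT.nd (nat_lit 94) (nat_lit 420) (nat_lit 0) (XT.lf (nat_lit 0) (nat_lit 2601312634) (nat_lit 504) (nat_lit 7421643327) (nat_lit 84) (nat_lit 3100047655) (nat_lit 76) (nat_lit 5) (nat_lit 82) (nat_lit 5) (nat_lit 77) (nat_lit 5) (nat_lit 339) (nat_lit 306) (nat_lit 219)) (XT.nd (nat_lit 94)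 (nat_lit 420) (nat_lit 0) (XT.lf (nat_lit 0) (nat_lit 4191886814) (nat_lit 504) (nat_lit 2095270340) (nat_lit 84) (nat_lit 7084669619) (nat_lit 76) (nat_lit 5) (nat_lit 82) (nat_lit 5) (nat_lit 77) (nat_lit 5) (nat_lit 340) (nat_lit 306) (nat_lit 218)) (XT.lf (nat_lit 0) (nat_lit 3446375243) (nat_lit 420) (nat_lit 2401845617) (nat_lit 504) (nat_lit 7779691734) (nat_lit 71) (nat_lit 5) (nat_lit 76) (nat_lit 5) (nat_lit 77) (nat_lit 5) (nat_lit 341) (nat_lit 306) (nat_lit 217)))))) (XT.nd (nat_lit 470) (nat_lit 672) (nat_lit 0) (XT.nd (nat_lit 188) (nat_lit 504) (nat_lit 0) (XT.nd (nat_lit 94) (nat_lit 420) (nat_lit 0) (XT.lf (nat_lit 0) (nat_lit 7576497010) (nat_lit 504) (nat_lit 4722829578) (nat_lit 84) (nat_lit 1592029403) (nat_lit 71) (nat_lit 5) (nat_lit 77) (nat_lit 5) (nat_lit 72) (nat_lit 5) (nat_lit 342) (nat_lit 306) (nat_lit 216)) (XT.lf (nat_lit 0) (nat_lit 879171293) (nat_lit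 420) (nat_lit 8495579352) (nat_lit 504) (nat_lit 4787762715) (nat_lit 66) (nat_lit 5) (nat_lit 71) (nat_lit 5) (nat_lit 72) (nat_lit 5) (nat_lit 343) (nat_lit 306) (nat_lit 215))) (XT.nd (nat_lit 94) (nat_lit 504) (nat_lit 0) (XT.lf (nat_lit 0) (nat_lit 6736073859) (nat_lit 420) (nat_lit 4525407556) (nat_lit 504) (nat_lit 3179634507) (nat_lit 66) (nat_lit 5) (nat_lit 71) (nat_lit 5) (nat_lit 72) (nat_lit 5) (nat_lit 344) (nat_lit 306) (nat_lit 214)) (XT.nd (nat_lit 94) (nat_lit 504) (nat_lit 0) (XT.lf (nat_lit 0) (nat_lit 12756226304) (nat_lit 420) (nat_lit 434407239) (nat_lit 504) (nat_lit 1538272066) (nat_lit 66) (nat_lit 5) (nat_lit 71) (nat_lit 5) (nat_lit 72) (nat_lit 5) (nat_lit 345) (nat_lit 306) (nat_lit 213)) (XT.lf (nat_lit 0) (nat_lit 212670448) (nat_lit 504) (nat_lit 11064530452) (nat_lit 84) (nat_lit 3746501983) (nat_lit 60) (nat_lit 5) (nat_lit 66) (nat_lit 5) (nat_lit 61)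 (nat_lit 5) (nat_lit 346) (nat_lit 306) (nat_lit 212))))) (XT.nd (nat_lit 282) (nat_lit 336) (nat_lit 0) (XT.nd (nat_lit 94) (nat_lit 336) (nat_lit 0) (XT.lf (nat_lit 0) (nat_lit 1995661991) (nat_lit 504) (nat_lit 5249113292) (nat_lit 84) (nat_lit 8082122225) (nat_lit 60) (nat_lit 5) (nat_lit 66) (nat_lit 5) (nat_lit 61) (nat_lit 5) (nat_lit 347) (nat_lit 306) (nat_lit 211)) (XT.nd (nat_lit 94) (nat_lit 0) (nat_lit 0) (XT.lf (nat_lit 0) (nat_lit 743662312) (nat_lit 336) (nat_lit 3082586917) (nat_lit 420) (nat_lit 11813526265) (nat_lit 56) (nat_lit 5) (nat_lit 60) (nat_lit 5) (nat_lit 61) (nat_lit 5) (nat_lit 348) (nat_lit 306) (nat_lit 210)) (XT.lf (nat_lit 0) (nat_lit 5766118159) (nat_lit 420) (nat_lit 8957907150) (nat_lit 84) (nat_lit 1236743800) (nat_lit 56) (nat_lit 5) (nat_lit 61) (nat_lit 5) (nat_lit 57) (nat_lit 5) (nat_lit 349) (nat_lit 306) (nat_lit 209)))) (XT.nd (nat_lit 94) (nat_lit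 336) (nat_lit 0) (XT.lf (nat_lit 0) (nat_lit 7783289224) (nat_lit 420) (nat_lit 2884792470) (nat_lit 84) (nat_lit 5623143275) (nat_lit 56) (nat_lit 5) (nat_lit 61) (nat_lit 5) (nat_lit 57) (nat_lit 5) (nat_lit 350) (nat_lit 306) (nat_lit 208)) (XT.nd (nat_lit 94) (nat_lit 0) (nat_lit 0) (XT.lf (nat_lit 0) (nat_lit 3428548898) (nat_lit 336) (nat_lit 6454525727) (nat_lit 420) (nat_lit 6748270077) (nat_lit 52) (nat_lit 5) (nat_lit 56) (nat_lit 5) (nat_lit 57) (nat_lit 5) (nat_lit 351) (nat_lit 306) (nat_lit 207)) (XT.lf (nat_lit 0) (nat_lit 9981815747) (nat_lit 336) (nat_lit 2082570094) (nat_lit 420) (nat_lit 4917153914) (nat_lit 52) (nat_lit 5) (nat_lit 56) (nat_lit 5) (nat_lit 57) (nat_lit 5) (nat_lit 352) (nat_lit 306) (nat_lit 206))))))))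
noncomputable def xc77 : XT := (XT.nd (nat_lit 49914) (nat_lit 0) (nat_lit 6804) (XT.nd (nat_lit 940) (nat_lit 840) (nat_lit 0) (XT.nd (nat_lit 470) (nat_lit 504) (nat_lit 0) (XT.nd (nat_lit 188) (nat_lit 420) (nat_lit 0) (XT.nd (nat_lit 94) (nat_lit 336) (nat_lit 0) (XT.lf (nat_lit 0) (nat_lit 14324074200) (nat_lit 420) (nat_lit 645266822) (nat_lit 84) (nat_lit 2372956163) (nat_lit 52) (nat_lit 5) (nat_lit 57) (nat_lit 5) (nat_lit 53) (nat_lit 5) (nat_lit 353) (nat_lit 306) (nat_lit 205)) (XT.lf (nat_lit 0) (nat_lit 5989200188) (nat_lit 336) (nat_lit 10732427006) (nat_lit 420) (nat_lit 990547241) (nat_lit 48) (nat_lit 5) (nat_lit 52) (nat_lit 5) (nat_lit 53) (nat_lit 5) (nat_lit 354) (nat_lit 306) (nat_lit 204))) (XT.nd (nat_lit 94) (nat_lit 336) (nat_lit 0) (XT.lf (nat_lit 0) (nat_lit 1071790268) (nat_lit 420) (nat_lit 5277757344) (nat_lit 84) (nat_lit 11743855347) (nat_lit 47) (nat_lit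 5) (nat_lit 52) (nat_lit 5) (nat_lit 48) (nat_lit 5) (nat_lit 355) (nat_lit 306) (nat_lit 203)) (XT.nd (nat_lit 94) (nat_lit 0) (nat_lit 0) (XT.lf (nat_lit 0) (nat_lit 1368720204) (nat_lit 336) (nat_lit 1809889873) (nat_lit 420) (nat_lit 15307525737) (nat_lit 43) (nat_lit 5) (nat_lit 47) (nat_lit 5) (nat_lit 48) (nat_lit 5) (nat_lit 356) (nat_lit 306) (nat_lit 202)) (XT.lf (nat_lit 0) (nat_lit 5422599144) (nat_lit 420) (nat_lit 10601453236) (nat_lit 84) (nat_lit 2864797562) (nat_lit 43) (nat_lit 5) (nat_lit 48) (nat_lit 5) (nat_lit 44) (nat_lit 5) (nat_lit 357) (nat_lit 306) (nat_lit 201))))) (XT.nd (nat_lit 188) (nat_lit 252) (nat_lit 0) (XT.nd (nat_lit 94) (nat_lit 252) (nat_lit 0) (XT.lf (nat_lit 0) (nat_lit 7742761493) (nat_lit 420) (nat_lit 3917722489) (nat_lit 84) (nat_lit 7643392451) (nat_lit 43) (nat_lit 5) (nat_lit 48) (nat_lit 5) (nat_lit 44) (nat_lit 5) (nat_lit 358) (nat_lit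 306) (nat_lit 200)) (XT.lf (nat_lit 0) (nat_lit 3018782641) (nat_lit 252) (nat_lit 7134469482) (nat_lit 336) (nat_lit 9577978249) (nat_lit 40) (nat_lit 5) (nat_lit 43) (nat_lit 5) (nat_lit 44) (nat_lit 5) (nat_lit 359) (nat_lit 306) (nat_lit 199))) (XT.nd (nat_lit 94) (nat_lit 252) (nat_lit 0) (XT.lf (nat_lit 0) (nat_lit 10238284399) (nat_lit 252) (nat_lit 2429730507) (nat_lit 336) (nat_lit 7502932581) (nat_lit 40) (nat_lit 5) (nat_lit 43) (nat_lit 5) (nat_lit 44) (nat_lit 5) (nat_lit 360) (nat_lit 306) (nat_lit 198)) (XT.nd (nat_lit 94) (nat_lit 252) (nat_lit 0) (XT.lf (nat_lit 0) (nat_lit 15273709618) (nat_lit 336) (nat_lit 2981690675) (nat_lit 84) (nat_lit 2368523560) (nat_lit 40) (nat_lit 5) (nat_lit 44) (nat_lit 5) (nat_lit 41) (nat_lit 5) (nat_lit 361) (nat_lit 306) (nat_lit 197)) (XT.lf (nat_lit 0) (nat_lit 4230628959) (nat_lit 252) (nat_lit 13785661771) (nat_lit 336) (nat_lit 3072941666)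 (nat_lit 37) (nat_lit 5) (nat_lit 40) (nat_lit 5) (nat_lit 41) (nat_lit 5) (nat_lit 362) (nat_lit 306) (nat_lit 196)))))) (XT.nd (nat_lit 470) (nat_lit 504) (nat_lit 0) (XT.nd (nat_lit 188) (nat_lit 252) (nat_lit 0) (XT.nd (nat_lit 94) (nat_lit 84) (nat_lit 0) (XT.lf (nat_lit 0) (nat_lit 11715367541) (nat_lit 252) (nat_lit 9149117535) (nat_lit 336) (nat_lit 703870471) (nat_lit 37) (nat_lit 5) (nat_lit 40) (nat_lit 5) (nat_lit 41) (nat_lit 5) (nat_lit 363) (nat_lit 306) (nat_lit 195)) (XT.lf (nat_lit 0) (nat_lit 1693267778) (nat_lit 336) (nat_lit 2661626554) (nat_lit 84) (nat_lit 17707249934) (nat_lit 36) (nat_lit 5) (nat_lit 40) (nat_lit 5) (nat_lit 37) (nat_lit 5) (nat_lit 364) (nat_lit 306) (nat_lit 194))) (XT.nd (nat_lit 94) (nat_lit 0) (nat_lit 0) (XT.lf (nat_lit 0) (nat_lit 4194326466) (nat_lit 336) (nat_lit 17747220645) (nat_lit 84) (nat_lit 628124967) (nat_lit 33) (nat_lit 5) (nat_lit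 37) (nat_lit 5) (nat_lit 34) (nat_lit 5) (nat_lit 365) (nat_lit 306) (nat_lit 193)) (XT.nd (nat_lit 94) (nat_lit 0) (nat_lit 0) (XT.lf (nat_lit 0) (nat_lit 6835620445) (nat_lit 336) (nat_lit 10555844296) (nat_lit 84) (nat_lit 5699549899) (nat_lit 33) (nat_lit 5) (nat_lit 37) (nat_lit 5) (nat_lit 34) (nat_lit 5) (nat_lit 366) (nat_lit 306) (nat_lit 192)) (XT.lf (nat_lit 0) (nat_lit 9549188407) (nat_lit 336) (nat_lit 3155025814) (nat_lit 84) (nat_lit 10924626799) (nat_lit 33) (nat_lit 5) (nat_lit 37) (nat_lit 5) (nat_lit 34) (nat_lit 5) (nat_lit 367) (nat_lit 306) (nat_lit 191))))) (XT.nd (nat_lit 282) (nat_lit 252) (nat_lit 0) (XT.nd (nat_lit 94) (nat_lit 0) (nat_lit 0) (XT.lf (nat_lit 0) (nat_lit 4553883747) (nat_lit 252) (nat_lit 7828851025) (nat_lit 336) (nat_lit 11799517327) (nat_lit 30) (nat_lit 5) (nat_lit 33) (nat_lit 5) (nat_lit 34) (nat_lit 5) (nat_lit 368) (nat_lit 306) (nat_lit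 190)) (XT.nd (nat_lit 94) (nat_lit 0) (nat_lit 0) (XT.lf (nat_lit 0) (nat_lit 12555701967) (nat_lit 252) (nat_lit 2772185476) (nat_lit 336) (nat_lit 9424217685) (nat_lit 30) (nat_lit 5) (nat_lit 33) (nat_lit 5) (nat_lit 34) (nat_lit 5) (nat_lit 369) (nat_lit 306) (nat_lit 189)) (XT.lf (nat_lit 0) (nat_lit 18379630740) (nat_lit 336) (nat_lit 4571088823) (nat_lit 84) (nat_lit 2388452291) (nat_lit 30) (nat_lit 5) (nat_lit 34) (nat_lit 5) (nat_lit 31) (nat_lit 5) (nat_lit 370) (nat_lit 306) (nat_lit 188)))) (XT.nd (nat_lit 94) (nat_lit 84) (nat_lit 0) (XT.lf (nat_lit 0) (nat_lit 3316641457) (nat_lit 168) (nat_lit 18261932976) (nat_lit 252) (nat_lit 4364254331) (nat_lit 28) (nat_lit 5) (nat_lit 30) (nat_lit 5) (nat_lit 31) (nat_lit 5) (nat_lit 371) (nat_lit 306) (nat_lit 187)) (XT.nd (nat_lit 94) (nat_lit 84) (nat_lit 0) (XT.lf (nat_lit 0) (nat_lit 11533483188) (nat_lit 168) (nat_lit 13382395094)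 (nat_lit 252) (nat_lit 1648126730) (nat_lit 28) (nat_lit 5) (nat_lit 30) (nat_lit 5) (nat_lit 31) (nat_lit 5) (nat_lit 372) (nat_lit 306) (nat_lit 186)) (XT.lf (nat_lit 0) (nat_lit 1120618400) (nat_lit 252) (nat_lit 7222955110) (nat_lit 84) (nat_lit 18860789008) (nat_lit 27) (nat_lit 5) (nat_lit 30) (nat_lit 5) (nat_lit 28) (nat_lit 5) (nat_lit 373) (nat_lit 306) (nat_lit 185))))))) (XT.nd (nat_lit 1034) (nat_lit 2772) (nat_lit 0) (XT.nd (nat_lit 470) (nat_lit 0) (nat_lit 0) (XT.nd (nat_lit 188) (nat_lit 840) (nat_lit 0) (XT.nd (nat_lit 94) (nat_lit 0) (nat_lit 0) (XT.lf (nat_lit 0) (nat_lit 2278922478) (nat_lit 924) (nat_lit 900684325) (nat_lit 924) (nat_lit 900684325) (nat_lit 151) (nat_lit 3) (nat_lit 162) (nat_lit 3) (nat_lit 162) (nat_lit 5) (nat_lit 307) (nat_lit 307) (nat_lit 250)) (XT.lf (nat_lit 84) (nat_lit 1443032035) (nat_lit 0) (nat_lit 4178492336) (nat_lit 924) (nat_lit 2630488932)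 (nat_lit 152) (nat_lit 5) (nat_lit 151) (nat_lit 3) (nat_lit 162) (nat_lit 5) (nat_lit 308) (nat_lit 307) (nat_lit 249))) (XT.nd (nat_lit 94) (nat_lit 840) (nat_lit 0) (XT.lf (nat_lit 84) (nat_lit 4805361028) (nat_lit 0) (nat_lit 1891974752) (nat_lit 924) (nat_lit 1649761254) (nat_lit 152) (nat_lit 5) (nat_lit 151) (nat_lit 3) (nat_lit 162) (nat_lit 5) (nat_lit 309) (nat_lit 307) (nat_lit 248)) (XT.nd (nat_lit 94) (nat_lit 924) (nat_lit 0) (XT.lf (nat_lit 0) (nat_lit 7772842758) (nat_lit 840) (nat_lit 199572945) (nat_lit 924) (nat_lit 473922994) (nat_lit 152) (nat_lit 5) (nat_lit 162) (nat_lit 5) (nat_lit 163) (nat_lit 5) (nat_lit 310) (nat_lit 307) (nat_lit 247)) (XT.lf (nat_lit 0) (nat_lit 341000042) (nat_lit 924) (nat_lit 5280148188) (nat_lit 1008) (nat_lit 2927108389) (nat_lit 141) (nat_lit 5) (nat_lit 152) (nat_lit 5) (nat_lit 153) (nat_lit 5) (nat_lit 311) (nat_lit 307) (nat_lit 246)))))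 (XT.nd (nat_lit 282) (nat_lit 0) (nat_lit 84) (XT.nd (nat_lit 94) (nat_lit 0) (nat_lit 0) (XT.lf (nat_lit 0) (nat_lit 1338323482) (nat_lit 924) (nat_lit 1834450214) (nat_lit 1008) (nat_lit 5481572774) (nat_lit 141) (nat_lit 5) (nat_lit 152) (nat_lit 5) (nat_lit 153) (nat_lit 5) (nat_lit 312) (nat_lit 307) (nat_lit 245)) (XT.nd (nat_lit 94) (nat_lit 0) (nat_lit 84) (XT.lf (nat_lit 84) (nat_lit 1731821944) (nat_lit 0) (nat_lit 616290212) (nat_lit 1008) (nat_lit 6416332795) (nat_lit 142) (nat_lit 5) (nat_lit 141) (nat_lit 5) (nat_lit 153) (nat_lit 5) (nat_lit 313) (nat_lit 307) (nat_lit 244)) (XT.lf (nat_lit 0) (nat_lit 3393950671) (nat_lit 924) (nat_lit 3472333353) (nat_lit 1008) (nat_lit 2011668720) (nat_lit 142) (nat_lit 5) (nat_lit 153) (nat_lit 5) (nat_lit 154) (nat_lit 5) (nat_lit 314) (nat_lit 307) (nat_lit 243)))) (XT.nd (nat_lit 94) (nat_lit 0) (nat_lit 0) (XT.lf (nat_lit 84) (nat_lit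 173916611) (nat_lit 0) (nat_lit 4272732826) (nat_lit 1008) (nat_lit 4549261310) (nat_lit 143) (nat_lit 5) (nat_lit 142) (nat_lit 5) (nat_lit 154) (nat_lit 5) (nat_lit 315) (nat_lit 307) (nat_lit 242)) (XT.nd (nat_lit 94) (nat_lit 0) (nat_lit 84) (XT.lf (nat_lit 84) (nat_lit 3985421242) (nat_lit 0) (nat_lit 1550013202) (nat_lit 1008) (nat_lit 3582118875) (nat_lit 143) (nat_lit 5) (nat_lit 142) (nat_lit 5) (nat_lit 154) (nat_lit 5) (nat_lit 316) (nat_lit 307) (nat_lit 241)) (XT.lf (nat_lit 0) (nat_lit 6638746689) (nat_lit 924) (nat_lit 1362329050) (nat_lit 1008) (nat_lit 1242617895) (nat_lit 143) (nat_lit 5) (nat_lit 154) (nat_lit 5) (nat_lit 155) (nat_lit 5) (nat_lit 317) (nat_lit 307) (nat_lit 240)))))) (XT.nd (nat_lit 470) (nat_lit 2016) (nat_lit 0) (XT.nd (nat_lit 188) (nat_lit 924) (nat_lit 0) (XT.nd (nat_lit 94) (nat_lit 0) (nat_lit 0) (XT.lf (nat_lit 84) (nat_lit 2538312879) (nat_lit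 0) (nat_lit 5248239334) (nat_lit 1008) (nat_lit 1586999989) (nat_lit 144) (nat_lit 5) (nat_lit 143) (nat_lit 5) (nat_lit 155) (nat_lit 5) (nat_lit 318) (nat_lit 307) (nat_lit 239)) (XT.lf (nat_lit 84) (nat_lit 6567657798) (nat_lit 0) (nat_lit 2386474146) (nat_lit 1008) (nat_lit 553917579) (nat_lit 144) (nat_lit 5) (nat_lit 143) (nat_lit 5) (nat_lit 155) (nat_lit 5) (nat_lit 319) (nat_lit 307) (nat_lit 238))) (XT.nd (nat_lit 94) (nat_lit 0) (nat_lit 0) (XT.lf (nat_lit 0) (nat_lit 487809267) (nat_lit 1008) (nat_lit 8582592740) (nat_lit 1092) (nat_lit 576678388) (nat_lit 132) (nat_lit 5) (nat_lit 144) (nat_lit 5) (nat_lit 145) (nat_lit 5) (nat_lit 320) (nat_lit 307) (nat_lit 237)) (XT.nd (nat_lit 94) (nat_lit 0) (nat_lit 0) (XT.lf (nat_lit 0) (nat_lit 1576955767) (nat_lit 1008) (nat_lit 4586061054) (nat_lit 1092) (nat_lit 3626515502) (nat_lit 132) (nat_lit 5) (nat_lit 144) (nat_lit 5) (nat_lit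 145) (nat_lit 5) (nat_lit 321) (nat_lit 307) (nat_lit 236)) (XT.lf (nat_lit 0) (nat_lit 2671949915) (nat_lit 1008) (nat_lit 487030807) (nat_lit 1092) (nat_lit 6778393876) (nat_lit 132) (nat_lit 5) (nat_lit 144) (nat_lit 5) (nat_lit 145) (nat_lit 5) (nat_lit 322) (nat_lit 307) (nat_lit 235))))) (XT.nd (nat_lit 282) (nat_lit 1092) (nat_lit 0) (XT.nd (nat_lit 94) (nat_lit 924) (nat_lit 0) (XT.lf (nat_lit 84) (nat_lit 3794774984) (nat_lit 0) (nat_lit 16682014) (nat_lit 1092) (nat_lit 6278121045) (nat_lit 133) (nat_lit 5) (nat_lit 132) (nat_lit 5) (nat_lit 145) (nat_lit 5) (nat_lit 323) (nat_lit 307) (nat_lit 234)) (XT.nd (nat_lit 94) (nat_lit 1008) (nat_lit 0) (XT.lf (nat_lit 0) (nat_lit 4996989864) (nat_lit 1008) (nat_lit 2080247774) (nat_lit 84) (nat_lit 3169032916) (nat_lit 133) (nat_lit 5) (nat_lit 145) (nat_lit 5) (nat_lit 134) (nat_lit 5) (nat_lit 324) (nat_lit 307) (nat_lit 233)) (XT.lf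 (nat_lit 0) (nat_lit 2290052395) (nat_lit 1008) (nat_lit 3926496718) (nat_lit 1092) (nat_lit 4191455308) (nat_lit 121) (nat_lit 5) (nat_lit 133) (nat_lit 5) (nat_lit 134) (nat_lit 5) (nat_lit 325) (nat_lit 307) (nat_lit 232)))) (XT.nd (nat_lit 94) (nat_lit 1092) (nat_lit 0) (XT.lf (nat_lit 0) (nat_lit 6819268208) (nat_lit 1008) (nat_lit 651311808) (nat_lit 1092) (nat_lit 3104371820) (nat_lit 121) (nat_lit 5) (nat_lit 133) (nat_lit 5) (nat_lit 134) (nat_lit 5) (nat_lit 326) (nat_lit 307) (nat_lit 231)) (XT.nd (nat_lit 94) (nat_lit 0) (nat_lit 0) (XT.lf (nat_lit 0) (nat_lit 708114312) (nat_lit 1092) (nat_lit 8065179617) (nat_lit 1176) (nat_lit 1973570162) (nat_lit 108) (nat_lit 5) (nat_lit 121) (nat_lit 5) (nat_lit 122) (nat_lit 5) (nat_lit 327) (nat_lit 307) (nat_lit 230)) (XT.lf (nat_lit 0) (nat_lit 5362390701) (nat_lit 1092) (nat_lit 4776067678) (nat_lit 1176) (nat_lit 785053900) (nat_lit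 108) (nat_lit 5) (nat_lit 121) (nat_lit 5) (nat_lit 122) (nat_lit 5) (nat_lit 328) (nat_lit 307) (nat_lit 229))))))))
noncomputable def xc78 : XT := (XT.nd (nat_lit 1974) (nat_lit 2184) (nat_lit 0) (XT.nd (nat_lit 940) (nat_lit 2100) (nat_lit 0) (XT.nd (nat_lit 470) (nat_lit 1092) (nat_lit 0) (XT.nd (nat_lit 188) (nat_lit 588) (nat_lit 0) (XT.nd (nat_lit 94) (nat_lit 504) (nat_lit 0) (XT.lf (nat_lit 0) (nat_lit 408097875) (nat_lit 1176) (nat_lit 969716454) (nat_lit 84) (nat_lit 9728495621) (nat_lit 107) (nat_lit 5) (nat_lit 121) (nat_lit 5) (nat_lit 108) (nat_lit 5) (nat_lit 329) (nat_lit 307) (nat_lit 228)) (XT.lf (nat_lit 0) (nat_lit 1658700265) (nat_lit 588) (nat_lit 7502948740) (nat_lit 84) (nat_lit 2131819327) (nat_lit 101) (nat_lit 5) (nat_lit 108) (nat_lit 5) (nat_lit 102) (nat_lit 5) (nat_lit 330) (nat_lit 307) (nat_lit 227))) (XT.nd (nat_lit 94) (nat_lit 588) (nat_lit 0) (XT.lf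 (nat_lit 0) (nat_lit 2950259680) (nat_lit 588) (nat_lit 2802057193) (nat_lit 84) (nat_lit 5734124196) (nat_lit 101) (nat_lit 5) (nat_lit 108) (nat_lit 5) (nat_lit 102) (nat_lit 5) (nat_lit 331) (nat_lit 307) (nat_lit 226)) (XT.nd (nat_lit 94) (nat_lit 0) (nat_lit 0) (XT.lf (nat_lit 0) (nat_lit 2066183755) (nat_lit 588) (nat_lit 2214707026) (nat_lit 672) (nat_lit 7404613014) (nat_lit 94) (nat_lit 5) (nat_lit 101) (nat_lit 5) (nat_lit 102) (nat_lit 5) (nat_lit 332) (nat_lit 307) (nat_lit 225)) (XT.lf (nat_lit 0) (nat_lit 5675527013) (nat_lit 672) (nat_lit 4780142529) (nat_lit 84) (nat_lit 1434438027) (nat_lit 94) (nat_lit 5) (nat_lit 102) (nat_lit 5) (nat_lit 95) (nat_lit 5) (nat_lit 333) (nat_lit 307) (nat_lit 224))))) (XT.nd (nat_lit 188) (nat_lit 588) (nat_lit 0) (XT.nd (nat_lit 94) (nat_lit 0) (nat_lit 0) (XT.lf (nat_lit 0) (nat_lit 169895295) (nat_lit 504) (nat_lit 6947467243) (nat_lit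 588) (nat_lit 4983641847) (nat_lit 88) (nat_lit 5) (nat_lit 94) (nat_lit 5) (nat_lit 95) (nat_lit 5) (nat_lit 334) (nat_lit 307) (nat_lit 223)) (XT.lf (nat_lit 0) (nat_lit 5354996580) (nat_lit 504) (nat_lit 3278839064) (nat_lit 588) (nat_lit 3683746252) (nat_lit 88) (nat_lit 5) (nat_lit 94) (nat_lit 5) (nat_lit 95) (nat_lit 5) (nat_lit 335) (nat_lit 307) (nat_lit 222))) (XT.nd (nat_lit 94) (nat_lit 588) (nat_lit 0) (XT.lf (nat_lit 0) (nat_lit 10182962350) (nat_lit 588) (nat_lit 1864834521) (nat_lit 84) (nat_lit 493590424) (nat_lit 88) (nat_lit 5) (nat_lit 95) (nat_lit 5) (nat_lit 89) (nat_lit 5) (nat_lit 336) (nat_lit 307) (nat_lit 221)) (XT.nd (nat_lit 94) (nat_lit 84) (nat_lit 0) (XT.lf (nat_lit 0) (nat_lit 3406845220) (nat_lit 504) (nat_lit 8421827762) (nat_lit 588) (nat_lit 942019134) (nat_lit 82) (nat_lit 5) (nat_lit 88) (nat_lit 5) (nat_lit 89) (nat_lit 5) (nat_lit 337) (nat_lit 307)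 (nat_lit 220)) (XT.lf (nat_lit 0) (nat_lit 508870867) (nat_lit 588) (nat_lit 4149820749) (nat_lit 84) (nat_lit 8348285705) (nat_lit 81) (nat_lit 5) (nat_lit 88) (nat_lit 5) (nat_lit 82) (nat_lit 5) (nat_lit 338) (nat_lit 307) (nat_lit 219)))))) (XT.nd (nat_lit 470) (nat_lit 1260) (nat_lit 0) (XT.nd (nat_lit 188) (nat_lit 420) (nat_lit 0) (XT.nd (nat_lit 94) (nat_lit 0) (nat_lit 0) (XT.lf (nat_lit 0) (nat_lit 1221951559) (nat_lit 420) (nat_lit 757255477) (nat_lit 504) (nat_lit 11271327521) (nat_lit 76) (nat_lit 5) (nat_lit 81) (nat_lit 5) (nat_lit 82) (nat_lit 5) (nat_lit 339) (nat_lit 307) (nat_lit 218)) (XT.lf (nat_lit 0) (nat_lit 3553536307) (nat_lit 504) (nat_lit 6704191664) (nat_lit 84) (nat_lit 3242162464) (nat_lit 76) (nat_lit 5) (nat_lit 82) (nat_lit 5) (nat_lit 77) (nat_lit 5) (nat_lit 340) (nat_lit 307) (nat_lit 217))) (XT.nd (nat_lit 94) (nat_lit 420) (nat_lit 0) (XT.lf (nat_lit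 0) (nat_lit 5167211621) (nat_lit 504) (nat_lit 1241191125) (nat_lit 84) (nat_lit 7348924185) (nat_lit 76) (nat_lit 5) (nat_lit 82) (nat_lit 5) (nat_lit 77) (nat_lit 5) (nat_lit 341) (nat_lit 307) (nat_lit 216)) (XT.nd (nat_lit 94) (nat_lit 0) (nat_lit 0) (XT.lf (nat_lit 0) (nat_lit 4462941092) (nat_lit 420) (nat_lit 2395556861) (nat_lit 504) (nat_lit 7163446463) (nat_lit 71) (nat_lit 5) (nat_lit 76) (nat_lit 5) (nat_lit 77) (nat_lit 5) (nat_lit 342) (nat_lit 307) (nat_lit 215)) (XT.lf (nat_lit 0) (nat_lit 8616201837) (nat_lit 504) (nat_lit 3960061082) (nat_lit 84) (nat_lit 1718122488) (nat_lit 71) (nat_lit 5) (nat_lit 77) (nat_lit 5) (nat_lit 72) (nat_lit 5) (nat_lit 343) (nat_lit 307) (nat_lit 214))))) (XT.nd (nat_lit 282) (nat_lit 840) (nat_lit 0) (XT.nd (nat_lit 94) (nat_lit 0) (nat_lit 0) (XT.lf (nat_lit 0) (nat_lit 1806397223) (nat_lit 420) (nat_lit 8648532294) (nat_lit 504) (nat_lit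 4119572327) (nat_lit 66) (nat_lit 5) (nat_lit 71) (nat_lit 5) (nat_lit 72) (nat_lit 5) (nat_lit 344) (nat_lit 307) (nat_lit 213)) (XT.nd (nat_lit 94) (nat_lit 0) (nat_lit 0) (XT.lf (nat_lit 0) (nat_lit 7817803516) (nat_lit 420) (nat_lit 4558604970) (nat_lit 504) (nat_lit 2486145919) (nat_lit 66) (nat_lit 5) (nat_lit 71) (nat_lit 5) (nat_lit 72) (nat_lit 5) (nat_lit 345) (nat_lit 307) (nat_lit 212)) (XT.lf (nat_lit 0) (nat_lit 13998334080) (nat_lit 420) (nat_lit 344003620) (nat_lit 504) (nat_lit 817716738) (nat_lit 66) (nat_lit 5) (nat_lit 71) (nat_lit 5) (nat_lit 72) (nat_lit 5) (nat_lit 346) (nat_lit 307) (nat_lit 211)))) (XT.nd (nat_lit 94) (nat_lit 336) (nat_lit 0) (XT.lf (nat_lit 0) (nat_lit 959043507) (nat_lit 504) (nat_lit 10527779577) (nat_lit 84) (nat_lit 3977404163) (nat_lit 60) (nat_lit 5) (nat_lit 66) (nat_lit 5) (nat_lit 61) (nat_lit 5) (nat_lit 347) (nat_lit 307) (nat_lit 210))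 (XT.nd (nat_lit 94) (nat_lit 336) (nat_lit 0) (XT.lf (nat_lit 0) (nat_lit 2775064152) (nat_lit 504) (nat_lit 4558536755) (nat_lit 84) (nat_lit 8443978021) (nat_lit 60) (nat_lit 5) (nat_lit 66) (nat_lit 5) (nat_lit 61) (nat_lit 5) (nat_lit 348) (nat_lit 307) (nat_lit 209)) (XT.lf (nat_lit 0) (nat_lit 1611376007) (nat_lit 336) (nat_lit 3037827905) (nat_lit 420) (nat_lit 11451427700) (nat_lit 56) (nat_lit 5) (nat_lit 60) (nat_lit 5) (nat_lit 61) (nat_lit 5) (nat_lit 349) (nat_lit 307) (nat_lit 208))))))) (XT.nd (nat_lit 1034) (nat_lit 840) (nat_lit 0) (XT.nd (nat_lit 470) (nat_lit 672) (nat_lit 0) (XT.nd (nat_lit 188) (nat_lit 672) (nat_lit 0) (XT.nd (nat_lit 94) (nat_lit 0) (nat_lit 0) (XT.lf (nat_lit 0) (nat_lit 6629380857) (nat_lit 420) (nat_lit 8394433404) (nat_lit 84) (nat_lit 1408440848) (nat_lit 56) (nat_lit 5) (nat_lit 61) (nat_lit 5) (nat_lit 57) (nat_lit 5) (nat_lit 350) (nat_lit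 307) (nat_lit 207)) (XT.lf (nat_lit 0) (nat_lit 8688502359) (nat_lit 420) (nat_lit 2158344347) (nat_lit 84) (nat_lit 5926808912) (nat_lit 56) (nat_lit 5) (nat_lit 61) (nat_lit 5) (nat_lit 57) (nat_lit 5) (nat_lit 351) (nat_lit 307) (nat_lit 206))) (XT.nd (nat_lit 94) (nat_lit 336) (nat_lit 0) (XT.lf (nat_lit 0) (nat_lit 4342450585) (nat_lit 336) (nat_lit 6498979168) (nat_lit 420) (nat_lit 6283320404) (nat_lit 52) (nat_lit 5) (nat_lit 56) (nat_lit 5) (nat_lit 57) (nat_lit 5) (nat_lit 352) (nat_lit 307) (nat_lit 205)) (XT.nd (nat_lit 94) (nat_lit 336) (nat_lit 0) (XT.lf (nat_lit 0) (nat_lit 11074585373) (nat_lit 336) (nat_lit 1996172583) (nat_lit 420) (nat_lit 4415709792) (nat_lit 52) (nat_lit 5) (nat_lit 56) (nat_lit 5) (nat_lit 57) (nat_lit 5) (nat_lit 353) (nat_lit 307) (nat_lit 204)) (XT.lf (nat_lit 0) (nat_lit 116253100) (nat_lit 336) (nat_lit 15267835064) (nat_lit 420) (nat_lit 2474886167)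 (nat_lit 48) (nat_lit 5) (nat_lit 52) (nat_lit 5) (nat_lit 53) (nat_lit 5) (nat_lit 354) (nat_lit 307) (nat_lit 203))))) (XT.nd (nat_lit 282) (nat_lit 252) (nat_lit 0) (XT.nd (nat_lit 94) (nat_lit 420) (nat_lit 0) (XT.lf (nat_lit 0) (nat_lit 6946157841) (nat_lit 336) (nat_lit 10897819358) (nat_lit 420) (nat_lit 396767507) (nat_lit 48) (nat_lit 5) (nat_lit 52) (nat_lit 5) (nat_lit 53) (nat_lit 5) (nat_lit 355) (nat_lit 307) (nat_lit 202)) (XT.nd (nat_lit 94) (nat_lit 336) (nat_lit 0) (XT.lf (nat_lit 0) (nat_lit 1698521764) (nat_lit 420) (nat_lit 4679384699) (nat_lit 84) (nat_lit 12256315186) (nat_lit 47) (nat_lit 5) (nat_lit 52) (nat_lit 5) (nat_lit 48) (nat_lit 5) (nat_lit 356) (nat_lit 307) (nat_lit 201)) (XT.lf (nat_lit 0) (nat_lit 2165419258) (nat_lit 336) (nat_lit 1694870692) (nat_lit 420) (nat_lit 15179210985) (nat_lit 43) (nat_lit 5) (nat_lit 47) (nat_lit 5) (nat_lit 48) (nat_lit 5)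 (nat_lit 357) (nat_lit 307) (nat_lit 200)))) (XT.nd (nat_lit 94) (nat_lit 252) (nat_lit 0) (XT.lf (nat_lit 0) (nat_lit 6157955343) (nat_lit 420) (nat_lit 10181042778) (nat_lit 84) (nat_lit 3116242527) (nat_lit 43) (nat_lit 5) (nat_lit 48) (nat_lit 5) (nat_lit 44) (nat_lit 5) (nat_lit 358) (nat_lit 307) (nat_lit 199)) (XT.nd (nat_lit 94) (nat_lit 252) (nat_lit 0) (XT.lf (nat_lit 0) (nat_lit 8532986542) (nat_lit 420) (nat_lit 3312638901) (nat_lit 84) (nat_lit 8038083728) (nat_lit 43) (nat_lit 5) (nat_lit 48) (nat_lit 5) (nat_lit 44) (nat_lit 5) (nat_lit 359) (nat_lit 307) (nat_lit 198)) (XT.lf (nat_lit 0) (nat_lit 3831542394) (nat_lit 252) (nat_lit 7177250977) (nat_lit 336) (nat_lit 9315855431) (nat_lit 40) (nat_lit 5) (nat_lit 43) (nat_lit 5) (nat_lit 44) (nat_lit 5) (nat_lit 360) (nat_lit 307) (nat_lit 197)))))) (XT.nd (nat_lit 470) (nat_lit 504) (nat_lit 0) (XT.nd (nat_lit 188) (nat_lit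 336) (nat_lit 0) (XT.nd (nat_lit 94) (nat_lit 0) (nat_lit 0) (XT.lf (nat_lit 0) (nat_lit 11253224553) (nat_lit 252) (nat_lit 2332028817) (nat_lit 336) (nat_lit 7193292507) (nat_lit 40) (nat_lit 5) (nat_lit 43) (nat_lit 5) (nat_lit 44) (nat_lit 5) (nat_lit 361) (nat_lit 307) (nat_lit 196)) (XT.lf (nat_lit 0) (nat_lit 16257617910) (nat_lit 336) (nat_lit 2382039763) (nat_lit 84) (nat_lit 2606387461) (nat_lit 40) (nat_lit 5) (nat_lit 44) (nat_lit 5) (nat_lit 41) (nat_lit 5) (nat_lit 362) (nat_lit 307) (nat_lit 195))) (XT.nd (nat_lit 94) (nat_lit 84) (nat_lit 0) (XT.lf (nat_lit 0) (nat_lit 5046855057) (nat_lit 252) (nat_lit 14029812669) (nat_lit 336) (nat_lit 2649417617) (nat_lit 37) (nat_lit 5) (nat_lit 40) (nat_lit 5) (nat_lit 41) (nat_lit 5) (nat_lit 363) (nat_lit 307) (nat_lit 194)) (XT.nd (nat_lit 94) (nat_lit 84) (nat_lit 0) (XT.lf (nat_lit 0) (nat_lit 12743021724) (nat_lit 252) (nat_lit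 9255044139) (nat_lit 336) (nat_lit 222503996) (nat_lit 37) (nat_lit 5) (nat_lit 40) (nat_lit 5) (nat_lit 41) (nat_lit 5) (nat_lit 364) (nat_lit 307) (nat_lit 193)) (XT.lf (nat_lit 0) (nat_lit 2223982526) (nat_lit 336) (nat_lit 2088568765) (nat_lit 84) (nat_lit 18417457903) (nat_lit 36) (nat_lit 5) (nat_lit 40) (nat_lit 5) (nat_lit 37) (nat_lit 5) (nat_lit 365) (nat_lit 307) (nat_lit 192))))) (XT.nd (nat_lit 282) (nat_lit 252) (nat_lit 0) (XT.nd (nat_lit 94) (nat_lit 0) (nat_lit 0) (XT.lf (nat_lit 0) (nat_lit 4796404563) (nat_lit 336) (nat_lit 17634447367) (nat_lit 84) (nat_lit 822646875) (nat_lit 33) (nat_lit 5) (nat_lit 37) (nat_lit 5) (nat_lit 34) (nat_lit 5) (nat_lit 366) (nat_lit 307) (nat_lit 191)) (XT.nd (nat_lit 94) (nat_lit 0) (nat_lit 0) (XT.lf (nat_lit 0) (nat_lit 7505384985) (nat_lit 336) (nat_lit 10240071475) (nat_lit 84) (nat_lit 6046022594) (nat_lit 33) (nat_lit 5) (nat_lit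 37) (nat_lit 5) (nat_lit 34) (nat_lit 5) (nat_lit 367) (nat_lit 307) (nat_lit 190)) (XT.lf (nat_lit 0) (nat_lit 10289306659) (nat_lit 336) (nat_lit 2629161397) (nat_lit 84) (nat_lit 11427971750) (nat_lit 33) (nat_lit 5) (nat_lit 37) (nat_lit 5) (nat_lit 34) (nat_lit 5) (nat_lit 368) (nat_lit 307) (nat_lit 189)))) (XT.nd (nat_lit 94) (nat_lit 0) (nat_lit 0) (XT.lf (nat_lit 0) (nat_lit 5312410260) (nat_lit 252) (nat_lit 7891053997) (nat_lit 336) (nat_lit 11713800390) (nat_lit 30) (nat_lit 5) (nat_lit 33) (nat_lit 5) (nat_lit 34) (nat_lit 5) (nat_lit 369) (nat_lit 307) (nat_lit 188)) (XT.nd (nat_lit 94) (nat_lit 0) (nat_lit 0) (XT.lf (nat_lit 0) (nat_lit 13543722245) (nat_lit 252) (nat_lit 2683058812) (nat_lit 336) (nat_lit 9278442174) (nat_lit 30) (nat_lit 5) (nat_lit 33) (nat_lit 5) (nat_lit 34) (nat_lit 5) (nat_lit 370) (nat_lit 307) (nat_lit 187)) (XT.lf (nat_lit 0) (nat_lit 19362072198)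 (nat_lit 336) (nat_lit 4119917685) (nat_lit 84) (nat_lit 2628873804) (nat_lit 30) (nat_lit 5) (nat_lit 34) (nat_lit 5) (nat_lit 31) (nat_lit 5) (nat_lit 371) (nat_lit 307) (nat_lit 186))))))))
noncomputable def xc79 : XT := (XT.nd (nat_lit 50008) (nat_lit 0) (nat_lit 2688) (XT.nd (nat_lit 48974) (nat_lit 0) (nat_lit 7812) (XT.nd (nat_lit 48504) (nat_lit 0) (nat_lit 9408) (XT.nd (nat_lit 48222) (nat_lit 0) (nat_lit 9408) (XT.nd (nat_lit 94) (nat_lit 0) (nat_lit 0) (XT.lf (nat_lit 0) (nat_lit 4006329907) (nat_lit 168) (nat_lit 18647266881) (nat_lit 252) (nat_lit 4079872309) (nat_lit 28) (nat_lit 5) (nat_lit 30) (nat_lit 5) (nat_lit 31) (nat_lit 5) (nat_lit 372) (nat_lit 307) (nat_lit 185)) (XT.lf (nat_lit 0) (nat_lit 12460247709) (nat_lit 168) (nat_lit 13621899179) (nat_lit 252) (nat_lit 1292163463) (nat_lit 28) (nat_lit 5) (nat_lit 30) (nat_lit 5) (nat_lit 31) (nat_lit 5) (nat_lit 373) (nat_lit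 307) (nat_lit 184))) (XT.nd (nat_lit 94) (nat_lit 924) (nat_lit 0) (XT.lf (nat_lit 0) (nat_lit 3318577835) (nat_lit 924) (nat_lit 426965741) (nat_lit 924) (nat_lit 426965741) (nat_lit 151) (nat_lit 3) (nat_lit 162) (nat_lit 3) (nat_lit 162) (nat_lit 5) (nat_lit 308) (nat_lit 308) (nat_lit 248)) (XT.nd (nat_lit 94) (nat_lit 924) (nat_lit 0) (XT.lf (nat_lit 84) (nat_lit 2480888320) (nat_lit 0) (nat_lit 5204500614) (nat_lit 924) (nat_lit 755650601) (nat_lit 152) (nat_lit 5) (nat_lit 151) (nat_lit 3) (nat_lit 162) (nat_lit 5) (nat_lit 309) (nat_lit 308) (nat_lit 247)) (XT.lf (nat_lit 0) (nat_lit 192693133) (nat_lit 924) (nat_lit 2625441412) (nat_lit 1008) (nat_lit 5722883960) (nat_lit 140) (nat_lit 5) (nat_lit 151) (nat_lit 3) (nat_lit 152) (nat_lit 5) (nat_lit 310) (nat_lit 308) (nat_lit 246))))) (XT.nd (nat_lit 188) (nat_lit 0) (nat_lit 84) (XT.nd (nat_lit 94) (nat_lit 0) (nat_lit 84) (XT.lf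 (nat_lit 84) (nat_lit 801137338) (nat_lit 0) (nat_lit 324849945) (nat_lit 1008) (nat_lit 7518913681) (nat_lit 141) (nat_lit 5) (nat_lit 140) (nat_lit 5) (nat_lit 152) (nat_lit 5) (nat_lit 311) (nat_lit 308) (nat_lit 245)) (XT.lf (nat_lit 0) (nat_lit 2102544262) (nat_lit 924) (nat_lit 4405249209) (nat_lit 1008) (nat_lit 2243913896) (nat_lit 141) (nat_lit 5) (nat_lit 152) (nat_lit 5) (nat_lit 153) (nat_lit 5) (nat_lit 312) (nat_lit 308) (nat_lit 244))) (XT.nd (nat_lit 94) (nat_lit 0) (nat_lit 0) (XT.lf (nat_lit 0) (nat_lit 3078136649) (nat_lit 924) (nat_lit 883962620) (nat_lit 1008) (nat_lit 4900837269) (nat_lit 141) (nat_lit 5) (nat_lit 152) (nat_lit 5) (nat_lit 153) (nat_lit 5) (nat_lit 313) (nat_lit 308) (nat_lit 243)) (XT.nd (nat_lit 94) (nat_lit 0) (nat_lit 84) (XT.lf (nat_lit 84) (nat_lit 2782665405) (nat_lit 0) (nat_lit 1295390226) (nat_lit 1008) (nat_lit 4899880686) (nat_lit 142) (nat_lit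 5) (nat_lit 141) (nat_lit 5) (nat_lit 153) (nat_lit 5) (nat_lit 314) (nat_lit 308) (nat_lit 242)) (XT.lf (nat_lit 0) (nat_lit 5100137697) (nat_lit 924) (nat_lit 2549994465) (nat_lit 1008) (nat_lit 1446777697) (nat_lit 142) (nat_lit 5) (nat_lit 153) (nat_lit 5) (nat_lit 154) (nat_lit 5) (nat_lit 315) (nat_lit 308) (nat_lit 241)))))) (XT.nd (nat_lit 470) (nat_lit 840) (nat_lit 0) (XT.nd (nat_lit 188) (nat_lit 924) (nat_lit 0) (XT.nd (nat_lit 94) (nat_lit 0) (nat_lit 0) (XT.lf (nat_lit 84) (nat_lit 1198861613) (nat_lit 0) (nat_lit 4948584673) (nat_lit 1008) (nat_lit 3072456338) (nat_lit 143) (nat_lit 5) (nat_lit 142) (nat_lit 5) (nat_lit 154) (nat_lit 5) (nat_lit 316) (nat_lit 308) (nat_lit 240)) (XT.lf (nat_lit 84) (nat_lit 5097867058) (nat_lit 0) (nat_lit 2125121932) (nat_lit 1008) (nat_lit 2123977292) (nat_lit 143) (nat_lit 5) (nat_lit 142) (nat_lit 5) (nat_lit 154) (nat_lit 5) (nat_lit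 317) (nat_lit 308) (nat_lit 239))) (XT.nd (nat_lit 94) (nat_lit 1008) (nat_lit 0) (XT.lf (nat_lit 0) (nat_lit 8309851032) (nat_lit 924) (nat_lit 388695654) (nat_lit 1008) (nat_lit 780228021) (nat_lit 143) (nat_lit 5) (nat_lit 154) (nat_lit 5) (nat_lit 155) (nat_lit 5) (nat_lit 318) (nat_lit 308) (nat_lit 238)) (XT.nd (nat_lit 94) (nat_lit 1008) (nat_lit 0) (XT.lf (nat_lit 84) (nat_lit 3622581448) (nat_lit 0) (nat_lit 5836573983) (nat_lit 1008) (nat_lit 154741917) (nat_lit 144) (nat_lit 5) (nat_lit 143) (nat_lit 5) (nat_lit 155) (nat_lit 5) (nat_lit 319) (nat_lit 308) (nat_lit 237)) (XT.lf (nat_lit 0) (nat_lit 848377431) (nat_lit 1008) (nat_lit 2016063246) (nat_lit 1092) (nat_lit 6889367607) (nat_lit 131) (nat_lit 5) (nat_lit 143) (nat_lit 5) (nat_lit 144) (nat_lit 5) (nat_lit 320) (nat_lit 308) (nat_lit 236))))) (XT.nd (nat_lit 282) (nat_lit 924) (nat_lit 0) (XT.nd (nat_lit 94) (nat_lit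 0) (nat_lit 0) (XT.lf (nat_lit 0) (nat_lit 1874743840) (nat_lit 1008) (nat_lit 7797336303) (nat_lit 1092) (nat_lit 226179892) (nat_lit 132) (nat_lit 5) (nat_lit 144) (nat_lit 5) (nat_lit 145) (nat_lit 5) (nat_lit 321) (nat_lit 308) (nat_lit 235)) (XT.nd (nat_lit 94) (nat_lit 0) (nat_lit 0) (XT.lf (nat_lit 0) (nat_lit 2956406368) (nat_lit 1008) (nat_lit 3708523019) (nat_lit 1092) (nat_lit 3381638233) (nat_lit 132) (nat_lit 5) (nat_lit 144) (nat_lit 5) (nat_lit 145) (nat_lit 5) (nat_lit 322) (nat_lit 308) (nat_lit 234)) (XT.lf (nat_lit 84) (nat_lit 496928761) (nat_lit 0) (nat_lit 3553338880) (nat_lit 1092) (nat_lit 6149968907) (nat_lit 133) (nat_lit 5) (nat_lit 132) (nat_lit 5) (nat_lit 145) (nat_lit 5) (nat_lit 323) (nat_lit 308) (nat_lit 233)))) (XT.nd (nat_lit 94) (nat_lit 924) (nat_lit 0) (XT.lf (nat_lit 84) (nat_lit 4891445328) (nat_lit 0) (nat_lit 299632289) (nat_lit 1092) (nat_lit 5167286797)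 (nat_lit 133) (nat_lit 5) (nat_lit 132) (nat_lit 5) (nat_lit 145) (nat_lit 5) (nat_lit 324) (nat_lit 308) (nat_lit 232)) (XT.nd (nat_lit 94) (nat_lit 1008) (nat_lit 0) (XT.lf (nat_lit 0) (nat_lit 6372714863) (nat_lit 1008) (nat_lit 1149755203) (nat_lit 84) (nat_lit 2998851273) (nat_lit 133) (nat_lit 5) (nat_lit 145) (nat_lit 5) (nat_lit 134) (nat_lit 5) (nat_lit 325) (nat_lit 308) (nat_lit 231)) (XT.lf (nat_lit 0) (nat_lit 3345950989) (nat_lit 1008) (nat_lit 4257192421) (nat_lit 1092) (nat_lit 3085903063) (nat_lit 121) (nat_lit 5) (nat_lit 133) (nat_lit 5) (nat_lit 134) (nat_lit 5) (nat_lit 326) (nat_lit 308) (nat_lit 230))))))) (XT.nd (nat_lit 1034) (nat_lit 2352) (nat_lit 0) (XT.nd (nat_lit 470) (nat_lit 1092) (nat_lit 0) (XT.nd (nat_lit 188) (nat_lit 588) (nat_lit 0) (XT.nd (nat_lit 94) (nat_lit 1092) (nat_lit 0) (XT.lf (nat_lit 0) (nat_lit 7985958412) (nat_lit 1008) (nat_lit 874193361)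 (nat_lit 1092) (nat_lit 2002268491) (nat_lit 121) (nat_lit 5) (nat_lit 133) (nat_lit 5) (nat_lit 134) (nat_lit 5) (nat_lit 327) (nat_lit 308) (nat_lit 229)) (XT.lf (nat_lit 0) (nat_lit 1717624144) (nat_lit 1092) (nat_lit 8458653980) (nat_lit 1176) (nat_lit 864353829) (nat_lit 108) (nat_lit 5) (nat_lit 121) (nat_lit 5) (nat_lit 122) (nat_lit 5) (nat_lit 328) (nat_lit 308) (nat_lit 228))) (XT.nd (nat_lit 94) (nat_lit 504) (nat_lit 0) (XT.lf (nat_lit 0) (nat_lit 319250613) (nat_lit 1176) (nat_lit 4740683281) (nat_lit 84) (nat_lit 6163906367) (nat_lit 107) (nat_lit 5) (nat_lit 121) (nat_lit 5) (nat_lit 108) (nat_lit 5) (nat_lit 329) (nat_lit 308) (nat_lit 227)) (XT.nd (nat_lit 94) (nat_lit 504) (nat_lit 0) (XT.lf (nat_lit 0) (nat_lit 1499637143) (nat_lit 1176) (nat_lit 44584831) (nat_lit 84) (nat_lit 9868992890) (nat_lit 107) (nat_lit 5) (nat_lit 121) (nat_lit 5) (nat_lit 108) (nat_lit 5) (nat_lit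 330) (nat_lit 308) (nat_lit 226)) (XT.lf (nat_lit 0) (nat_lit 2764853762) (nat_lit 588) (nat_lit 6752366336) (nat_lit 84) (nat_lit 2089822469) (nat_lit 101) (nat_lit 5) (nat_lit 108) (nat_lit 5) (nat_lit 102) (nat_lit 5) (nat_lit 331) (nat_lit 308) (nat_lit 225))))) (XT.nd (nat_lit 282) (nat_lit 504) (nat_lit 0) (XT.nd (nat_lit 94) (nat_lit 588) (nat_lit 0) (XT.lf (nat_lit 0) (nat_lit 4064737894) (nat_lit 588) (nat_lit 1935309118) (nat_lit 84) (nat_lit 5807048625) (nat_lit 101) (nat_lit 5) (nat_lit 108) (nat_lit 5) (nat_lit 102) (nat_lit 5) (nat_lit 332) (nat_lit 308) (nat_lit 224)) (XT.nd (nat_lit 94) (nat_lit 0) (nat_lit 0) (XT.lf (nat_lit 0) (nat_lit 3074192835) (nat_lit 588) (nat_lit 2341029834) (nat_lit 672) (nat_lit 6597881507) (nat_lit 94) (nat_lit 5) (nat_lit 101) (nat_lit 5) (nat_lit 102) (nat_lit 5) (nat_lit 333) (nat_lit 308) (nat_lit 223)) (XT.lf (nat_lit 0) (nat_lit 6822421029)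 (nat_lit 672) (nat_lit 3978589137) (nat_lit 84) (nat_lit 1424099563) (nat_lit 94) (nat_lit 5) (nat_lit 102) (nat_lit 5) (nat_lit 95) (nat_lit 5) (nat_lit 334) (nat_lit 308) (nat_lit 222)))) (XT.nd (nat_lit 94) (nat_lit 0) (nat_lit 0) (XT.lf (nat_lit 0) (nat_lit 1115284619) (nat_lit 504) (nat_lit 7173800466) (nat_lit 588) (nat_lit 4154180167) (nat_lit 88) (nat_lit 5) (nat_lit 94) (nat_lit 5) (nat_lit 95) (nat_lit 5) (nat_lit 335) (nat_lit 308) (nat_lit 221)) (XT.nd (nat_lit 94) (nat_lit 0) (nat_lit 0) (XT.lf (nat_lit 0) (nat_lit 6432856536) (nat_lit 504) (nat_lit 3391115217) (nat_lit 588) (nat_lit 2843573251) (nat_lit 88) (nat_lit 5) (nat_lit 94) (nat_lit 5) (nat_lit 95) (nat_lit 5) (nat_lit 336) (nat_lit 308) (nat_lit 220)) (XT.lf (nat_lit 0) (nat_lit 11393281837) (nat_lit 588) (nat_lit 1007181283) (nat_lit 84) (nat_lit 498787044) (nat_lit 88) (nat_lit 5) (nat_lit 95) (nat_lit 5) (nat_lit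 89) (nat_lit 5) (nat_lit 337) (nat_lit 308) (nat_lit 219)))))) (XT.nd (nat_lit 470) (nat_lit 1344) (nat_lit 0) (XT.nd (nat_lit 188) (nat_lit 420) (nat_lit 0) (XT.nd (nat_lit 94) (nat_lit 84) (nat_lit 0) (XT.lf (nat_lit 0) (nat_lit 4418652288) (nat_lit 504) (nat_lit 8653446604) (nat_lit 588) (nat_lit 64215569) (nat_lit 82) (nat_lit 5) (nat_lit 88) (nat_lit 5) (nat_lit 89) (nat_lit 5) (nat_lit 338) (nat_lit 308) (nat_lit 218)) (XT.lf (nat_lit 0) (nat_lit 1386655568) (nat_lit 588) (nat_lit 3378885791) (nat_lit 84) (nat_lit 8615022739) (nat_lit 81) (nat_lit 5) (nat_lit 88) (nat_lit 5) (nat_lit 82) (nat_lit 5) (nat_lit 339) (nat_lit 308) (nat_lit 217))) (XT.nd (nat_lit 94) (nat_lit 0) (nat_lit 0) (XT.lf (nat_lit 0) (nat_lit 2150304025) (nat_lit 420) (nat_lit 735182908) (nat_lit 504) (nat_lit 10746801731) (nat_lit 76) (nat_lit 5) (nat_lit 81) (nat_lit 5) (nat_lit 82) (nat_lit 5) (nat_lit 340)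 (nat_lit 308) (nat_lit 216)) (XT.nd (nat_lit 94) (nat_lit 0) (nat_lit 0) (XT.lf (nat_lit 0) (nat_lit 4483653562) (nat_lit 504) (nat_lit 6020622386) (nat_lit 84) (nat_lit 3385957385) (nat_lit 76) (nat_lit 5) (nat_lit 82) (nat_lit 5) (nat_lit 77) (nat_lit 5) (nat_lit 341) (nat_lit 308) (nat_lit 215)) (XT.lf (nat_lit 0) (nat_lit 6122698410) (nat_lit 504) (nat_lit 415071328) (nat_lit 84) (nat_lit 7618727144) (nat_lit 76) (nat_lit 5) (nat_lit 82) (nat_lit 5) (nat_lit 77) (nat_lit 5) (nat_lit 342) (nat_lit 308) (nat_lit 214))))) (XT.nd (nat_lit 282) (nat_lit 504) (nat_lit 0) (XT.nd (nat_lit 94) (nat_lit 420) (nat_lit 0) (XT.lf (nat_lit 0) (nat_lit 5457135722) (nat_lit 420) (nat_lit 2393855876) (nat_lit 504) (nat_lit 6578883789) (nat_lit 71) (nat_lit 5) (nat_lit 76) (nat_lit 5) (nat_lit 77) (nat_lit 5) (nat_lit 343) (nat_lit 308) (nat_lit 213)) (XT.nd (nat_lit 94) (nat_lit 420) (nat_lit 0) (XT.lf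 (nat_lit 0) (nat_lit 9640465852) (nat_lit 504) (nat_lit 3227498827) (nat_lit 84) (nat_lit 1843579007) (nat_lit 71) (nat_lit 5) (nat_lit 77) (nat_lit 5) (nat_lit 72) (nat_lit 5) (nat_lit 344) (nat_lit 308) (nat_lit 212)) (XT.lf (nat_lit 0) (nat_lit 2709060297) (nat_lit 420) (nat_lit 8812766552) (nat_lit 504) (nat_lit 3479037307) (nat_lit 66) (nat_lit 5) (nat_lit 71) (nat_lit 5) (nat_lit 72) (nat_lit 5) (nat_lit 345) (nat_lit 308) (nat_lit 211)))) (XT.nd (nat_lit 94) (nat_lit 504) (nat_lit 0) (XT.lf (nat_lit 0) (nat_lit 8881362758) (nat_lit 420) (nat_lit 4599174640) (nat_lit 504) (nat_lit 1818074093) (nat_lit 66) (nat_lit 5) (nat_lit 71) (nat_lit 5) (nat_lit 72) (nat_lit 5) (nat_lit 346) (nat_lit 308) (nat_lit 210)) (XT.nd (nat_lit 94) (nat_lit 504) (nat_lit 0) (XT.lf (nat_lit 0) (nat_lit 15228797793) (nat_lit 420) (nat_lit 256949901) (nat_lit 504) (nat_lit 120328469) (nat_lit 66) (nat_lit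 5) (nat_lit 71) (nat_lit 5) (nat_lit 72) (nat_lit 5) (nat_lit 347) (nat_lit 308) (nat_lit 209)) (XT.lf (nat_lit 0) (nat_lit 1684735678) (nat_lit 504) (nat_lit 10026498601) (nat_lit 84) (nat_lit 4208666842) (nat_lit 60) (nat_lit 5) (nat_lit 66) (nat_lit 5) (nat_lit 61) (nat_lit 5) (nat_lit 348) (nat_lit 308) (nat_lit 208))))))))
noncomputable def xc80 : XT := (XT.nd (nat_lit 1974) (nat_lit 420) (nat_lit 0) (XT.nd (nat_lit 940) (nat_lit 840) (nat_lit 0) (XT.nd (nat_lit 470) (nat_lit 756) (nat_lit 0) (XT.nd (nat_lit 188) (nat_lit 336) (nat_lit 0) (XT.nd (nat_lit 94) (nat_lit 336) (nat_lit 0) (XT.lf (nat_lit 0) (nat_lit 3536126856) (nat_lit 504) (nat_lit 3897094709) (nat_lit 84) (nat_lit 8810458265) (nat_lit 60) (nat_lit 5) (nat_lit 66) (nat_lit 5) (nat_lit 61) (nat_lit 5) (nat_lit 349) (nat_lit 308) (nat_lit 207)) (XT.lf (nat_lit 0) (nat_lit 2455958158) (nat_lit 336) (nat_lit 2999992710) (nat_lit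 420) (nat_lit 11121243595) (nat_lit 56) (nat_lit 5) (nat_lit 60) (nat_lit 5) (nat_lit 61) (nat_lit 5) (nat_lit 350) (nat_lit 308) (nat_lit 206))) (XT.nd (nat_lit 94) (nat_lit 336) (nat_lit 0) (XT.lf (nat_lit 0) (nat_lit 7478859820) (nat_lit 420) (nat_lit 7863315845) (nat_lit 84) (nat_lit 1577561482) (nat_lit 56) (nat_lit 5) (nat_lit 61) (nat_lit 5) (nat_lit 57) (nat_lit 5) (nat_lit 351) (nat_lit 308) (nat_lit 205)) (XT.nd (nat_lit 94) (nat_lit 336) (nat_lit 0) (XT.lf (nat_lit 0) (nat_lit 9582451322) (nat_lit 420) (nat_lit 1457702105) (nat_lit 84) (nat_lit 6232226669) (nat_lit 56) (nat_lit 5) (nat_lit 61) (nat_lit 5) (nat_lit 57) (nat_lit 5) (nat_lit 352) (nat_lit 308) (nat_lit 204)) (XT.lf (nat_lit 0) (nat_lit 5236846706) (nat_lit 336) (nat_lit 6554029302) (nat_lit 420) (nat_lit 5843888115) (nat_lit 52) (nat_lit 5) (nat_lit 56) (nat_lit 5) (nat_lit 57) (nat_lit 5) (nat_lit 353) (nat_lit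 308) (nat_lit 203))))) (XT.nd (nat_lit 188) (nat_lit 420) (nat_lit 0) (XT.nd (nat_lit 94) (nat_lit 336) (nat_lit 0) (XT.lf (nat_lit 0) (nat_lit 12154832682) (nat_lit 336) (nat_lit 1916038201) (nat_lit 420) (nat_lit 3937451091) (nat_lit 52) (nat_lit 5) (nat_lit 56) (nat_lit 5) (nat_lit 57) (nat_lit 5) (nat_lit 354) (nat_lit 308) (nat_lit 202)) (XT.lf (nat_lit 0) (nat_lit 867958253) (nat_lit 336) (nat_lit 15578855812) (nat_lit 420) (nat_lit 1945897940) (nat_lit 48) (nat_lit 5) (nat_lit 52) (nat_lit 5) (nat_lit 53) (nat_lit 5) (nat_lit 355) (nat_lit 308) (nat_lit 201))) (XT.nd (nat_lit 94) (nat_lit 336) (nat_lit 0) (XT.lf (nat_lit 0) (nat_lit 174835015) (nat_lit 420) (nat_lit 10901589166) (nat_lit 84) (nat_lit 7710436274) (nat_lit 47) (nat_lit 5) (nat_lit 52) (nat_lit 5) (nat_lit 48) (nat_lit 5) (nat_lit 356) (nat_lit 308) (nat_lit 200)) (XT.nd (nat_lit 94) (nat_lit 336) (nat_lit 0) (XT.lf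 (nat_lit 0) (nat_lit 2309527560) (nat_lit 420) (nat_lit 4107596068) (nat_lit 84) (nat_lit 12775871275) (nat_lit 47) (nat_lit 5) (nat_lit 52) (nat_lit 5) (nat_lit 48) (nat_lit 5) (nat_lit 357) (nat_lit 308) (nat_lit 199)) (XT.lf (nat_lit 0) (nat_lit 2942139354) (nat_lit 336) (nat_lit 1586421988) (nat_lit 420) (nat_lit 15082626197) (nat_lit 43) (nat_lit 5) (nat_lit 47) (nat_lit 5) (nat_lit 48) (nat_lit 5) (nat_lit 358) (nat_lit 308) (nat_lit 198)))))) (XT.nd (nat_lit 470) (nat_lit 588) (nat_lit 0) (XT.nd (nat_lit 188) (nat_lit 252) (nat_lit 0) (XT.nd (nat_lit 94) (nat_lit 0) (nat_lit 0) (XT.lf (nat_lit 0) (nat_lit 6882508062) (nat_lit 420) (nat_lit 9791967437) (nat_lit 84) (nat_lit 3365849063) (nat_lit 43) (nat_lit 5) (nat_lit 48) (nat_lit 5) (nat_lit 44) (nat_lit 5) (nat_lit 359) (nat_lit 308) (nat_lit 197)) (XT.lf (nat_lit 0) (nat_lit 9315119312) (nat_lit 420) (nat_lit 2731831514) (nat_lit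 84) (nat_lit 8435666863) (nat_lit 43) (nat_lit 5) (nat_lit 48) (nat_lit 5) (nat_lit 44) (nat_lit 5) (nat_lit 360) (nat_lit 308) (nat_lit 196))) (XT.nd (nat_lit 94) (nat_lit 0) (nat_lit 0) (XT.lf (nat_lit 0) (nat_lit 4626899586) (nat_lit 252) (nat_lit 7231924869) (nat_lit 336) (nat_lit 9078719710) (nat_lit 40) (nat_lit 5) (nat_lit 43) (nat_lit 5) (nat_lit 44) (nat_lit 5) (nat_lit 361) (nat_lit 308) (nat_lit 195)) (XT.nd (nat_lit 94) (nat_lit 0) (nat_lit 0) (XT.lf (nat_lit 0) (nat_lit 12258310574) (nat_lit 252) (nat_lit 2241546844) (nat_lit 336) (nat_lit 6906170861) (nat_lit 40) (nat_lit 5) (nat_lit 43) (nat_lit 5) (nat_lit 44) (nat_lit 5) (nat_lit 362) (nat_lit 308) (nat_lit 194)) (XT.lf (nat_lit 0) (nat_lit 17241794113) (nat_lit 336) (nat_lit 1804792953) (nat_lit 84) (nat_lit 2841885100) (nat_lit 40) (nat_lit 5) (nat_lit 44) (nat_lit 5) (nat_lit 41) (nat_lit 5) (nat_lit 363) (nat_lit 308)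 (nat_lit 193))))) (XT.nd (nat_lit 282) (nat_lit 252) (nat_lit 0) (XT.nd (nat_lit 94) (nat_lit 84) (nat_lit 0) (XT.lf (nat_lit 0) (nat_lit 5847805905) (nat_lit 252) (nat_lit 14292383768) (nat_lit 336) (nat_lit 2243492862) (nat_lit 37) (nat_lit 5) (nat_lit 40) (nat_lit 5) (nat_lit 41) (nat_lit 5) (nat_lit 364) (nat_lit 308) (nat_lit 192)) (XT.nd (nat_lit 94) (nat_lit 0) (nat_lit 0) (XT.lf (nat_lit 0) (nat_lit 239064586) (nat_lit 336) (nat_lit 9133219778) (nat_lit 84) (nat_lit 13521615100) (nat_lit 36) (nat_lit 5) (nat_lit 40) (nat_lit 5) (nat_lit 37) (nat_lit 5) (nat_lit 365) (nat_lit 308) (nat_lit 191)) (XT.lf (nat_lit 0) (nat_lit 2742823438) (nat_lit 336) (nat_lit 1536576611) (nat_lit 84) (nat_lit 19140129239) (nat_lit 36) (nat_lit 5) (nat_lit 40) (nat_lit 5) (nat_lit 37) (nat_lit 5) (nat_lit 366) (nat_lit 308) (nat_lit 190)))) (XT.nd (nat_lit 94) (nat_lit 0) (nat_lit 0) (XT.lf (nat_lit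 0) (nat_lit 5389186516) (nat_lit 336) (nat_lit 17557445018) (nat_lit 84) (nat_lit 1012830448) (nat_lit 33) (nat_lit 5) (nat_lit 37) (nat_lit 5) (nat_lit 34) (nat_lit 5) (nat_lit 367) (nat_lit 308) (nat_lit 189)) (XT.nd (nat_lit 94) (nat_lit 0) (nat_lit 0) (XT.lf (nat_lit 0) (nat_lit 8168792377) (nat_lit 336) (nat_lit 9952595925) (nat_lit 84) (nat_lit 6393179187) (nat_lit 33) (nat_lit 5) (nat_lit 37) (nat_lit 5) (nat_lit 34) (nat_lit 5) (nat_lit 368) (nat_lit 308) (nat_lit 188)) (XT.lf (nat_lit 0) (nat_lit 11026064163) (nat_lit 336) (nat_lit 2123936238) (nat_lit 84) (nat_lit 11937166026) (nat_lit 33) (nat_lit 5) (nat_lit 37) (nat_lit 5) (nat_lit 34) (nat_lit 5) (nat_lit 369) (nat_lit 308) (nat_lit 187))))))) (XT.nd (nat_lit 49068) (nat_lit 0) (nat_lit 8652) (XT.nd (nat_lit 48598) (nat_lit 0) (nat_lit 9408) (XT.nd (nat_lit 188) (nat_lit 168) (nat_lit 0) (XT.nd (nat_lit 94) (nat_lit 0) (nat_lit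 0) (XT.lf (nat_lit 0) (nat_lit 6057884034) (nat_lit 252) (nat_lit 7965876076) (nat_lit 336) (nat_lit 11652169464) (nat_lit 30) (nat_lit 5) (nat_lit 33) (nat_lit 5) (nat_lit 34) (nat_lit 5) (nat_lit 370) (nat_lit 308) (nat_lit 186)) (XT.lf (nat_lit 0) (nat_lit 14526903587) (nat_lit 252) (nat_lit 2601538587) (nat_lit 336) (nat_lit 9154086743) (nat_lit 30) (nat_lit 5) (nat_lit 33) (nat_lit 5) (nat_lit 34) (nat_lit 5) (nat_lit 371) (nat_lit 308) (nat_lit 185))) (XT.nd (nat_lit 94) (nat_lit 168) (nat_lit 0) (XT.lf (nat_lit 0) (nat_lit 20350526018) (nat_lit 336) (nat_lit 3689877238) (nat_lit 84) (nat_lit 2866893441) (nat_lit 30) (nat_lit 5) (nat_lit 34) (nat_lit 5) (nat_lit 31) (nat_lit 5) (nat_lit 372) (nat_lit 308) (nat_lit 184)) (XT.nd (nat_lit 48222) (nat_lit 0) (nat_lit 9408) (XT.lf (nat_lit 0) (nat_lit 4682637232) (nat_lit 168) (nat_lit 19055254402) (nat_lit 252) (nat_lit 3811532449) (nat_lit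 28) (nat_lit 5) (nat_lit 30) (nat_lit 5) (nat_lit 31) (nat_lit 5) (nat_lit 373) (nat_lit 308) (nat_lit 183)) (XT.lf (nat_lit 0) (nat_lit 31403946) (nat_lit 0) (nat_lit 31403946) (nat_lit 924) (nat_lit 4206769067) (nat_lit 140) (nat_lit 5) (nat_lit 140) (nat_lit 3) (nat_lit 151) (nat_lit 3) (nat_lit 309) (nat_lit 309) (nat_lit 246))))) (XT.nd (nat_lit 188) (nat_lit 0) (nat_lit 0) (XT.nd (nat_lit 94) (nat_lit 0) (nat_lit 0) (XT.lf (nat_lit 0) (nat_lit 1040042368) (nat_lit 924) (nat_lit 5158317119) (nat_lit 1008) (nat_lit 2441195538) (nat_lit 140) (nat_lit 5) (nat_lit 151) (nat_lit 3) (nat_lit 152) (nat_lit 5) (nat_lit 310) (nat_lit 309) (nat_lit 245)) (XT.lf (nat_lit 0) (nat_lit 1947863031) (nat_lit 924) (nat_lit 1757392409) (nat_lit 1008) (nat_lit 5039044515) (nat_lit 140) (nat_lit 5) (nat_lit 151) (nat_lit 3) (nat_lit 152) (nat_lit 5) (nat_lit 311) (nat_lit 309) (nat_lit 244))) (XT.nd (nat_lit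 94) (nat_lit 0) (nat_lit 84) (XT.lf (nat_lit 84) (nat_lit 1765798079) (nat_lit 0) (nat_lit 1101019751) (nat_lit 1008) (nat_lit 5986144799) (nat_lit 141) (nat_lit 5) (nat_lit 140) (nat_lit 5) (nat_lit 152) (nat_lit 5) (nat_lit 312) (nat_lit 309) (nat_lit 243)) (XT.nd (nat_lit 94) (nat_lit 0) (nat_lit 0) (XT.lf (nat_lit 0) (nat_lit 3814983212) (nat_lit 924) (nat_lit 3564745445) (nat_lit 1008) (nat_lit 1585381861) (nat_lit 141) (nat_lit 5) (nat_lit 152) (nat_lit 5) (nat_lit 153) (nat_lit 5) (nat_lit 313) (nat_lit 309) (nat_lit 242)) (XT.lf (nat_lit 84) (nat_lit 37069563) (nat_lit 0) (nat_lit 4734587490) (nat_lit 1008) (nat_lit 4309860264) (nat_lit 142) (nat_lit 5) (nat_lit 141) (nat_lit 5) (nat_lit 153) (nat_lit 5) (nat_lit 314) (nat_lit 309) (nat_lit 241)))))) (XT.nd (nat_lit 470) (nat_lit 0) (nat_lit 0) (XT.nd (nat_lit 188) (nat_lit 840) (nat_lit 0) (XT.nd (nat_lit 94) (nat_lit 0) (nat_lit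 84) (XT.lf (nat_lit 84) (nat_lit 3807021697) (nat_lit 0) (nat_lit 1956449706) (nat_lit 1008) (nat_lit 3438022178) (nat_lit 142) (nat_lit 5) (nat_lit 141) (nat_lit 5) (nat_lit 153) (nat_lit 5) (nat_lit 315) (nat_lit 309) (nat_lit 240)) (XT.lf (nat_lit 0) (nat_lit 6764388056) (nat_lit 924) (nat_lit 1660070622) (nat_lit 1008) (nat_lit 901528306) (nat_lit 142) (nat_lit 5) (nat_lit 153) (nat_lit 5) (nat_lit 154) (nat_lit 5) (nat_lit 316) (nat_lit 309) (nat_lit 239))) (XT.nd (nat_lit 94) (nat_lit 924) (nat_lit 0) (XT.lf (nat_lit 84) (nat_lit 2195190006) (nat_lit 0) (nat_lit 5613201585) (nat_lit 1008) (nat_lit 1645697375) (nat_lit 143) (nat_lit 5) (nat_lit 142) (nat_lit 5) (nat_lit 154) (nat_lit 5) (nat_lit 317) (nat_lit 309) (nat_lit 238)) (XT.nd (nat_lit 94) (nat_lit 924) (nat_lit 0) (XT.lf (nat_lit 84) (nat_lit 6186224586) (nat_lit 0) (nat_lit 2686840467) (nat_lit 1008) (nat_lit 713578969) (nat_lit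 143) (nat_lit 5) (nat_lit 142) (nat_lit 5) (nat_lit 154) (nat_lit 5) (nat_lit 318) (nat_lit 309) (nat_lit 237)) (XT.lf (nat_lit 0) (nat_lit 222982588) (nat_lit 1008) (nat_lit 9159915676) (nat_lit 1092) (nat_lit 341049736) (nat_lit 131) (nat_lit 5) (nat_lit 143) (nat_lit 5) (nat_lit 144) (nat_lit 5) (nat_lit 319) (nat_lit 309) (nat_lit 236))))) (XT.nd (nat_lit 282) (nat_lit 0) (nat_lit 84) (XT.nd (nat_lit 94) (nat_lit 0) (nat_lit 0) (XT.lf (nat_lit 0) (nat_lit 1209301319) (nat_lit 1008) (nat_lit 5196011721) (nat_lit 1092) (nat_lit 3458976121) (nat_lit 131) (nat_lit 5) (nat_lit 143) (nat_lit 5) (nat_lit 144) (nat_lit 5) (nat_lit 320) (nat_lit 309) (nat_lit 235)) (XT.nd (nat_lit 94) (nat_lit 0) (nat_lit 0) (XT.lf (nat_lit 0) (nat_lit 2199241518) (nat_lit 1008) (nat_lit 1128558949) (nat_lit 1092) (nat_lit 6682121686) (nat_lit 131) (nat_lit 5) (nat_lit 143) (nat_lit 5) (nat_lit 144) (nat_lit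 5) (nat_lit 321) (nat_lit 309) (nat_lit 234)) (XT.lf (nat_lit 84) (nat_lit 3108870747) (nat_lit 0) (nat_lit 115695550) (nat_lit 1092) (nat_lit 6935460375) (nat_lit 132) (nat_lit 5) (nat_lit 131) (nat_lit 5) (nat_lit 144) (nat_lit 5) (nat_lit 322) (nat_lit 309) (nat_lit 233)))) (XT.nd (nat_lit 94) (nat_lit 0) (nat_lit 0) (XT.lf (nat_lit 0) (nat_lit 4299808296) (nat_lit 1008) (nat_lit 2864180233) (nat_lit 1092) (nat_lit 3150333216) (nat_lit 132) (nat_lit 5) (nat_lit 144) (nat_lit 5) (nat_lit 145) (nat_lit 5) (nat_lit 323) (nat_lit 309) (nat_lit 232)) (XT.nd (nat_lit 94) (nat_lit 0) (nat_lit 0) (XT.lf (nat_lit 84) (nat_lit 1461928431) (nat_lit 0) (nat_lit 3937433349) (nat_lit 1092) (nat_lit 5074414257) (nat_lit 133) (nat_lit 5) (nat_lit 132) (nat_lit 5) (nat_lit 145) (nat_lit 5) (nat_lit 324) (nat_lit 309) (nat_lit 231)) (XT.lf (nat_lit 84) (nat_lit 5964122692) (nat_lit 0) (nat_lit 574625025)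 (nat_lit 1092) (nat_lit 4099341081) (nat_lit 133) (nat_lit 5) (nat_lit 132) (nat_lit 5) (nat_lit 145) (nat_lit 5) (nat_lit 325) (nat_lit 309) (nat_lit 230))))))))
noncomputable def xc81 : XT := (XT.nd (nat_lit 1974) (nat_lit 2772) (nat_lit 0) (XT.nd (nat_lit 940) (nat_lit 2352) (nat_lit 0) (XT.nd (nat_lit 470) (nat_lit 1092) (nat_lit 0) (XT.nd (nat_lit 188) (nat_lit 1176) (nat_lit 0) (XT.nd (nat_lit 94) (nat_lit 1008) (nat_lit 0) (XT.lf (nat_lit 0) (nat_lit 7718776178) (nat_lit 1008) (nat_lit 249351747) (nat_lit 84) (nat_lit 2839293074) (nat_lit 133) (nat_lit 5) (nat_lit 145) (nat_lit 5) (nat_lit 134) (nat_lit 5) (nat_lit 326) (nat_lit 309) (nat_lit 229)) (XT.lf (nat_lit 0) (nat_lit 4376244714) (nat_lit 1008) (nat_lit 4585761785) (nat_lit 1092) (nat_lit 2019258730) (nat_lit 121) (nat_lit 5) (nat_lit 133) (nat_lit 5) (nat_lit 134) (nat_lit 5) (nat_lit 327) (nat_lit 309) (nat_lit 228))) (XT.nd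 (nat_lit 94) (nat_lit 1176) (nat_lit 0) (XT.lf (nat_lit 0) (nat_lit 9132232380) (nat_lit 1008) (nat_lit 1091978515) (nat_lit 1092) (nat_lit 936979621) (nat_lit 121) (nat_lit 5) (nat_lit 133) (nat_lit 5) (nat_lit 134) (nat_lit 5) (nat_lit 328) (nat_lit 309) (nat_lit 227)) (XT.nd (nat_lit 94) (nat_lit 0) (nat_lit 0) (XT.lf (nat_lit 0) (nat_lit 205694097) (nat_lit 1176) (nat_lit 8647987912) (nat_lit 84) (nat_lit 2492092890) (nat_lit 107) (nat_lit 5) (nat_lit 121) (nat_lit 5) (nat_lit 108) (nat_lit 5) (nat_lit 329) (nat_lit 309) (nat_lit 226)) (XT.lf (nat_lit 0) (nat_lit 1375595718) (nat_lit 1176) (nat_lit 3961172267) (nat_lit 84) (nat_lit 6198744889) (nat_lit 107) (nat_lit 5) (nat_lit 121) (nat_lit 5) (nat_lit 108) (nat_lit 5) (nat_lit 330) (nat_lit 309) (nat_lit 225))))) (XT.nd (nat_lit 188) (nat_lit 588) (nat_lit 0) (XT.nd (nat_lit 94) (nat_lit 0) (nat_lit 0) (XT.lf (nat_lit 0) (nat_lit 870180360)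 (nat_lit 504) (nat_lit 1699561667) (nat_lit 588) (nat_lit 9161838917) (nat_lit 101) (nat_lit 5) (nat_lit 107) (nat_lit 5) (nat_lit 108) (nat_lit 5) (nat_lit 331) (nat_lit 309) (nat_lit 224)) (XT.lf (nat_lit 0) (nat_lit 3842824329) (nat_lit 588) (nat_lit 6036750946) (nat_lit 84) (nat_lit 2052925665) (nat_lit 101) (nat_lit 5) (nat_lit 108) (nat_lit 5) (nat_lit 102) (nat_lit 5) (nat_lit 332) (nat_lit 309) (nat_lit 223))) (XT.nd (nat_lit 94) (nat_lit 588) (nat_lit 0) (XT.lf (nat_lit 0) (nat_lit 5153169696) (nat_lit 588) (nat_lit 1098175915) (nat_lit 84) (nat_lit 5888443174) (nat_lit 101) (nat_lit 5) (nat_lit 108) (nat_lit 5) (nat_lit 102) (nat_lit 5) (nat_lit 333) (nat_lit 309) (nat_lit 222)) (XT.nd (nat_lit 94) (nat_lit 0) (nat_lit 0) (XT.lf (nat_lit 0) (nat_lit 4057537985) (nat_lit 588) (nat_lit 2467852940) (nat_lit 672) (nat_lit 5827521636) (nat_lit 94) (nat_lit 5) (nat_lit 101) (nat_lit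 5) (nat_lit 102) (nat_lit 5) (nat_lit 334) (nat_lit 309) (nat_lit 221)) (XT.lf (nat_lit 0) (nat_lit 7947357570) (nat_lit 672) (nat_lit 3208442185) (nat_lit 84) (nat_lit 1416686862) (nat_lit 94) (nat_lit 5) (nat_lit 102) (nat_lit 5) (nat_lit 95) (nat_lit 5) (nat_lit 335) (nat_lit 309) (nat_lit 220)))))) (XT.nd (nat_lit 470) (nat_lit 1260) (nat_lit 0) (XT.nd (nat_lit 188) (nat_lit 588) (nat_lit 0) (XT.nd (nat_lit 94) (nat_lit 0) (nat_lit 0) (XT.lf (nat_lit 0) (nat_lit 2034295941) (nat_lit 504) (nat_lit 7406500737) (nat_lit 588) (nat_lit 3357286488) (nat_lit 88) (nat_lit 5) (nat_lit 94) (nat_lit 5) (nat_lit 95) (nat_lit 5) (nat_lit 336) (nat_lit 309) (nat_lit 219)) (XT.lf (nat_lit 0) (nat_lit 7490119414) (nat_lit 504) (nat_lit 3506242171) (nat_lit 588) (nat_lit 2033883805) (nat_lit 88) (nat_lit 5) (nat_lit 94) (nat_lit 5) (nat_lit 95) (nat_lit 5) (nat_lit 337) (nat_lit 309) (nat_lit 218)))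 (XT.nd (nat_lit 94) (nat_lit 588) (nat_lit 0) (XT.lf (nat_lit 0) (nat_lit 12588129717) (nat_lit 588) (nat_lit 177165242) (nat_lit 84) (nat_lit 504743277) (nat_lit 88) (nat_lit 5) (nat_lit 95) (nat_lit 5) (nat_lit 89) (nat_lit 5) (nat_lit 338) (nat_lit 309) (nat_lit 217)) (XT.nd (nat_lit 94) (nat_lit 0) (nat_lit 0) (XT.lf (nat_lit 0) (nat_lit 771218542) (nat_lit 588) (nat_lit 8114721985) (nat_lit 84) (nat_lit 4628881419) (nat_lit 81) (nat_lit 5) (nat_lit 88) (nat_lit 5) (nat_lit 82) (nat_lit 5) (nat_lit 339) (nat_lit 309) (nat_lit 216)) (XT.lf (nat_lit 0) (nat_lit 2240593284) (nat_lit 588) (nat_lit 2637335478) (nat_lit 84) (nat_lit 8889558310) (nat_lit 81) (nat_lit 5) (nat_lit 88) (nat_lit 5) (nat_lit 82) (nat_lit 5) (nat_lit 340) (nat_lit 309) (nat_lit 215))))) (XT.nd (nat_lit 282) (nat_lit 420) (nat_lit 0) (XT.nd (nat_lit 94) (nat_lit 420) (nat_lit 0) (XT.lf (nat_lit 0) (nat_lit 3054691238)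 (nat_lit 420) (nat_lit 715123945) (nat_lit 504) (nat_lit 10257780423) (nat_lit 76) (nat_lit 5) (nat_lit 81) (nat_lit 5) (nat_lit 82) (nat_lit 5) (nat_lit 341) (nat_lit 309) (nat_lit 214)) (XT.nd (nat_lit 94) (nat_lit 420) (nat_lit 0) (XT.lf (nat_lit 0) (nat_lit 5394036957) (nat_lit 504) (nat_lit 5368661562) (nat_lit 84) (nat_lit 3531645932) (nat_lit 76) (nat_lit 5) (nat_lit 82) (nat_lit 5) (nat_lit 77) (nat_lit 5) (nat_lit 342) (nat_lit 309) (nat_lit 213)) (XT.lf (nat_lit 0) (nat_lit 393372210) (nat_lit 420) (nat_lit 6671228209) (nat_lit 504) (nat_lit 7504937163) (nat_lit 71) (nat_lit 5) (nat_lit 76) (nat_lit 5) (nat_lit 77) (nat_lit 5) (nat_lit 343) (nat_lit 309) (nat_lit 212)))) (XT.nd (nat_lit 94) (nat_lit 420) (nat_lit 0) (XT.lf (nat_lit 0) (nat_lit 6431457312) (nat_lit 420) (nat_lit 2396601593) (nat_lit 504) (nat_lit 6023977719) (nat_lit 71) (nat_lit 5) (nat_lit 76) (nat_lit 5) (nat_lit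 77) (nat_lit 5) (nat_lit 344) (nat_lit 309) (nat_lit 211)) (XT.nd (nat_lit 94) (nat_lit 420) (nat_lit 0) (XT.lf (nat_lit 0) (nat_lit 10651634064) (nat_lit 504) (nat_lit 2522889455) (nat_lit 84) (nat_lit 1968648461) (nat_lit 71) (nat_lit 5) (nat_lit 77) (nat_lit 5) (nat_lit 72) (nat_lit 5) (nat_lit 345) (nat_lit 309) (nat_lit 210)) (XT.lf (nat_lit 0) (nat_lit 3589556523) (nat_lit 420) (nat_lit 8988244484) (nat_lit 504) (nat_lit 2864149976) (nat_lit 66) (nat_lit 5) (nat_lit 71) (nat_lit 5) (nat_lit 72) (nat_lit 5) (nat_lit 346) (nat_lit 309) (nat_lit 209))))))) (XT.nd (nat_lit 1034) (nat_lit 1176) (nat_lit 0) (XT.nd (nat_lit 470) (nat_lit 756) (nat_lit 0) (XT.nd (nat_lit 188) (nat_lit 336) (nat_lit 0) (XT.nd (nat_lit 94) (nat_lit 504) (nat_lit 0) (XT.lf (nat_lit 0) (nat_lit 9929250820) (nat_lit 420) (nat_lit 4646969392) (nat_lit 504) (nat_lit 1173428097) (nat_lit 66) (nat_lit 5) (nat_lit 71)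 (nat_lit 5) (nat_lit 72) (nat_lit 5) (nat_lit 347) (nat_lit 309) (nat_lit 208)) (XT.lf (nat_lit 0) (nat_lit 385129549) (nat_lit 420) (nat_lit 163361301) (nat_lit 504) (nat_lit 15518562338) (nat_lit 60) (nat_lit 5) (nat_lit 65) (nat_lit 5) (nat_lit 66) (nat_lit 5) (nat_lit 348) (nat_lit 309) (nat_lit 207))) (XT.nd (nat_lit 94) (nat_lit 336) (nat_lit 0) (XT.lf (nat_lit 0) (nat_lit 2391701296) (nat_lit 504) (nat_lit 9558700576) (nat_lit 84) (nat_lit 4440703822) (nat_lit 60) (nat_lit 5) (nat_lit 66) (nat_lit 5) (nat_lit 61) (nat_lit 5) (nat_lit 349) (nat_lit 309) (nat_lit 206)) (XT.nd (nat_lit 94) (nat_lit 336) (nat_lit 0) (XT.lf (nat_lit 0) (nat_lit 4280798982) (nat_lit 504) (nat_lit 3262696613) (nat_lit 84) (nat_lit 9182096834) (nat_lit 60) (nat_lit 5) (nat_lit 66) (nat_lit 5) (nat_lit 61) (nat_lit 5) (nat_lit 350) (nat_lit 309) (nat_lit 205)) (XT.lf (nat_lit 0) (nat_lit 3279655090) (nat_lit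 336) (nat_lit 2968803676) (nat_lit 420) (nat_lit 10821408070) (nat_lit 56) (nat_lit 5) (nat_lit 60) (nat_lit 5) (nat_lit 61) (nat_lit 5) (nat_lit 351) (nat_lit 309) (nat_lit 204))))) (XT.nd (nat_lit 282) (nat_lit 420) (nat_lit 0) (XT.nd (nat_lit 94) (nat_lit 336) (nat_lit 0) (XT.lf (nat_lit 0) (nat_lit 8316529295) (nat_lit 420) (nat_lit 7362606360) (nat_lit 84) (nat_lit 1744493706) (nat_lit 56) (nat_lit 5) (nat_lit 61) (nat_lit 5) (nat_lit 57) (nat_lit 5) (nat_lit 352) (nat_lit 309) (nat_lit 203)) (XT.nd (nat_lit 94) (nat_lit 336) (nat_lit 0) (XT.lf (nat_lit 0) (nat_lit 10467116255) (nat_lit 420) (nat_lit 780803309) (nat_lit 84) (nat_lit 6539904666) (nat_lit 56) (nat_lit 5) (nat_lit 61) (nat_lit 5) (nat_lit 57) (nat_lit 5) (nat_lit 353) (nat_lit 309) (nat_lit 202)) (XT.lf (nat_lit 0) (nat_lit 6113966027) (nat_lit 336) (nat_lit 6619458593) (nat_lit 420) (nat_lit 5428399078) (nat_lit 52) (nat_lit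 5) (nat_lit 56) (nat_lit 5) (nat_lit 57) (nat_lit 5) (nat_lit 354) (nat_lit 309) (nat_lit 201)))) (XT.nd (nat_lit 94) (nat_lit 420) (nat_lit 0) (XT.lf (nat_lit 0) (nat_lit 13224917727) (nat_lit 336) (nat_lit 1841831488) (nat_lit 420) (nat_lit 3480802504) (nat_lit 52) (nat_lit 5) (nat_lit 56) (nat_lit 5) (nat_lit 57) (nat_lit 5) (nat_lit 355) (nat_lit 309) (nat_lit 200)) (XT.nd (nat_lit 94) (nat_lit 84) (nat_lit 0) (XT.lf (nat_lit 0) (nat_lit 1598654944) (nat_lit 336) (nat_lit 15909130452) (nat_lit 420) (nat_lit 1436388300) (nat_lit 48) (nat_lit 5) (nat_lit 52) (nat_lit 5) (nat_lit 53) (nat_lit 5) (nat_lit 356) (nat_lit 309) (nat_lit 199)) (XT.lf (nat_lit 0) (nat_lit 721818064) (nat_lit 420) (nat_lit 10544243030) (nat_lit 84) (nat_lit 8084872328) (nat_lit 47) (nat_lit 5) (nat_lit 52) (nat_lit 5) (nat_lit 48) (nat_lit 5) (nat_lit 357) (nat_lit 309) (nat_lit 198)))))) (XT.nd (nat_lit 470) (nat_lit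 588) (nat_lit 0) (XT.nd (nat_lit 188) (nat_lit 252) (nat_lit 0) (XT.nd (nat_lit 94) (nat_lit 336) (nat_lit 0) (XT.lf (nat_lit 0) (nat_lit 2906402413) (nat_lit 420) (nat_lit 3560542215) (nat_lit 84) (nat_lit 13303264244) (nat_lit 47) (nat_lit 5) (nat_lit 52) (nat_lit 5) (nat_lit 48) (nat_lit 5) (nat_lit 358) (nat_lit 309) (nat_lit 197)) (XT.lf (nat_lit 0) (nat_lit 3700907419) (nat_lit 336) (nat_lit 1484147070) (nat_lit 420) (nat_lit 15016639973) (nat_lit 43) (nat_lit 5) (nat_lit 47) (nat_lit 5) (nat_lit 48) (nat_lit 5) (nat_lit 359) (nat_lit 309) (nat_lit 196))) (XT.nd (nat_lit 94) (nat_lit 252) (nat_lit 0) (XT.lf (nat_lit 0) (nat_lit 7597912550) (nat_lit 420) (nat_lit 9432570616) (nat_lit 84) (nat_lit 3614130771) (nat_lit 43) (nat_lit 5) (nat_lit 48) (nat_lit 5) (nat_lit 44) (nat_lit 5) (nat_lit 360) (nat_lit 309) (nat_lit 195)) (XT.nd (nat_lit 94) (nat_lit 252) (nat_lit 0) (XT.lf (nat_lit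 0) (nat_lit 10090839260) (nat_lit 420) (nat_lit 2173503926) (nat_lit 84) (nat_lit 8836784939) (nat_lit 43) (nat_lit 5) (nat_lit 48) (nat_lit 5) (nat_lit 44) (nat_lit 5) (nat_lit 361) (nat_lit 309) (nat_lit 194)) (XT.lf (nat_lit 0) (nat_lit 5406837895) (nat_lit 252) (nat_lit 7298233971) (nat_lit 336) (nat_lit 8865384353) (nat_lit 40) (nat_lit 5) (nat_lit 43) (nat_lit 5) (nat_lit 44) (nat_lit 5) (nat_lit 362) (nat_lit 309) (nat_lit 193))))) (XT.nd (nat_lit 282) (nat_lit 336) (nat_lit 0) (XT.nd (nat_lit 94) (nat_lit 252) (nat_lit 0) (XT.lf (nat_lit 0) (nat_lit 13255684276) (nat_lit 252) (nat_lit 2157901363) (nat_lit 336) (nat_lit 6640363352) (nat_lit 40) (nat_lit 5) (nat_lit 43) (nat_lit 5) (nat_lit 44) (nat_lit 5) (nat_lit 363) (nat_lit 309) (nat_lit 192)) (XT.nd (nat_lit 94) (nat_lit 252) (nat_lit 0) (XT.lf (nat_lit 0) (nat_lit 18228037300) (nat_lit 336) (nat_lit 1248216670) (nat_lit 84)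 (nat_lit 3075520042) (nat_lit 40) (nat_lit 5) (nat_lit 44) (nat_lit 5) (nat_lit 41) (nat_lit 5) (nat_lit 364) (nat_lit 309) (nat_lit 191)) (XT.lf (nat_lit 0) (nat_lit 6635411489) (nat_lit 252) (nat_lit 14573303340) (nat_lit 336) (nat_lit 1853892872) (nat_lit 37) (nat_lit 5) (nat_lit 40) (nat_lit 5) (nat_lit 41) (nat_lit 5) (nat_lit 365) (nat_lit 309) (nat_lit 190)))) (XT.nd (nat_lit 94) (nat_lit 252) (nat_lit 0) (XT.lf (nat_lit 0) (nat_lit 682845572) (nat_lit 336) (nat_lit 8818155813) (nat_lit 84) (nat_lit 14087953102) (nat_lit 36) (nat_lit 5) (nat_lit 40) (nat_lit 5) (nat_lit 37) (nat_lit 5) (nat_lit 366) (nat_lit 309) (nat_lit 189)) (XT.nd (nat_lit 94) (nat_lit 252) (nat_lit 0) (XT.lf (nat_lit 0) (nat_lit 3251100222) (nat_lit 336) (nat_lit 1004003136) (nat_lit 84) (nat_lit 19876216150) (nat_lit 36) (nat_lit 5) (nat_lit 40) (nat_lit 5) (nat_lit 37) (nat_lit 5) (nat_lit 367) (nat_lit 309)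 (nat_lit 188)) (XT.lf (nat_lit 0) (nat_lit 5974040296) (nat_lit 336) (nat_lit 17514996651) (nat_lit 84) (nat_lit 1199155344) (nat_lit 33) (nat_lit 5) (nat_lit 37) (nat_lit 5) (nat_lit 34) (nat_lit 5) (nat_lit 368) (nat_lit 309) (nat_lit 187))))))))
noncomputable def xc82 : XT := (XT.nd (nat_lit 50196) (nat_lit 0) (nat_lit 3024) (XT.nd (nat_lit 49162) (nat_lit 0) (nat_lit 8400) (XT.nd (nat_lit 48692) (nat_lit 0) (nat_lit 9240) (XT.nd (nat_lit 188) (nat_lit 252) (nat_lit 0) (XT.nd (nat_lit 94) (nat_lit 0) (nat_lit 0) (XT.lf (nat_lit 0) (nat_lit 8827251903) (nat_lit 336) (nat_lit 9692038947) (nat_lit 84) (nat_lit 6741636561) (nat_lit 33) (nat_lit 5) (nat_lit 37) (nat_lit 5) (nat_lit 34) (nat_lit 5) (nat_lit 369) (nat_lit 309) (nat_lit 186)) (XT.lf (nat_lit 0) (nat_lit 11760914793) (nat_lit 336) (nat_lit 1637802072) (nat_lit 84) (nat_lit 12452968724) (nat_lit 33) (nat_lit 5) (nat_lit 37) (nat_lit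 5) (nat_lit 34) (nat_lit 5) (nat_lit 370) (nat_lit 309) (nat_lit 185))) (XT.nd (nat_lit 94) (nat_lit 0) (nat_lit 0) (XT.lf (nat_lit 0) (nat_lit 6792066366) (nat_lit 252) (nat_lit 8053075219) (nat_lit 336) (nat_lit 11613787166) (nat_lit 30) (nat_lit 5) (nat_lit 33) (nat_lit 5) (nat_lit 34) (nat_lit 5) (nat_lit 371) (nat_lit 309) (nat_lit 184)) (XT.nd (nat_lit 94) (nat_lit 0) (nat_lit 0) (XT.lf (nat_lit 0) (nat_lit 15507196790) (nat_lit 252) (nat_lit 2527246405) (nat_lit 336) (nat_lit 9050278998) (nat_lit 30) (nat_lit 5) (nat_lit 33) (nat_lit 5) (nat_lit 34) (nat_lit 5) (nat_lit 372) (nat_lit 309) (nat_lit 183)) (XT.lf (nat_lit 0) (nat_lit 21346626404) (nat_lit 336) (nat_lit 3279542491) (nat_lit 84) (nat_lit 3103020470) (nat_lit 30) (nat_lit 5) (nat_lit 34) (nat_lit 5) (nat_lit 31) (nat_lit 5) (nat_lit 373) (nat_lit 309) (nat_lit 182))))) (XT.nd (nat_lit 188) (nat_lit 0) (nat_lit 0) (XT.nd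 (nat_lit 94) (nat_lit 0) (nat_lit 0) (XT.lf (nat_lit 0) (nat_lit 471856414) (nat_lit 0) (nat_lit 471856414) (nat_lit 924) (nat_lit 3427340805) (nat_lit 140) (nat_lit 5) (nat_lit 140) (nat_lit 3) (nat_lit 151) (nat_lit 3) (nat_lit 310) (nat_lit 310) (nat_lit 244)) (XT.lf (nat_lit 0) (nat_lit 2768885438) (nat_lit 924) (nat_lit 4397334855) (nat_lit 1008) (nat_lit 1681519692) (nat_lit 140) (nat_lit 5) (nat_lit 151) (nat_lit 3) (nat_lit 152) (nat_lit 5) (nat_lit 311) (nat_lit 310) (nat_lit 243))) (XT.nd (nat_lit 94) (nat_lit 0) (nat_lit 0) (XT.lf (nat_lit 0) (nat_lit 3653835297) (nat_lit 924) (nat_lit 918670706) (nat_lit 1008) (nat_lit 4385019291) (nat_lit 140) (nat_lit 5) (nat_lit 151) (nat_lit 3) (nat_lit 152) (nat_lit 5) (nat_lit 312) (nat_lit 310) (nat_lit 242)) (XT.nd (nat_lit 94) (nat_lit 0) (nat_lit 84) (XT.lf (nat_lit 84) (nat_lit 2704695831) (nat_lit 0) (nat_lit 1855873438) (nat_lit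 1008) (nat_lit 4510454709) (nat_lit 141) (nat_lit 5) (nat_lit 140) (nat_lit 5) (nat_lit 152) (nat_lit 5) (nat_lit 313) (nat_lit 310) (nat_lit 241)) (XT.lf (nat_lit 0) (nat_lit 5482937734) (nat_lit 924) (nat_lit 2756059386) (nat_lit 1008) (nat_lit 949561549) (nat_lit 141) (nat_lit 5) (nat_lit 152) (nat_lit 5) (nat_lit 153) (nat_lit 5) (nat_lit 314) (nat_lit 310) (nat_lit 240)))))) (XT.nd (nat_lit 470) (nat_lit 0) (nat_lit 0) (XT.nd (nat_lit 188) (nat_lit 924) (nat_lit 0) (XT.nd (nat_lit 94) (nat_lit 0) (nat_lit 0) (XT.lf (nat_lit 84) (nat_lit 948105882) (nat_lit 0) (nat_lit 5483592857) (nat_lit 1008) (nat_lit 2878233334) (nat_lit 142) (nat_lit 5) (nat_lit 141) (nat_lit 5) (nat_lit 153) (nat_lit 5) (nat_lit 315) (nat_lit 310) (nat_lit 239)) (XT.lf (nat_lit 84) (nat_lit 4807568141) (nat_lit 0) (nat_lit 2601224919) (nat_lit 1008) (nat_lit 2026431517) (nat_lit 142) (nat_lit 5) (nat_lit 141) (nat_lit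 5) (nat_lit 153) (nat_lit 5) (nat_lit 316) (nat_lit 310) (nat_lit 238))) (XT.nd (nat_lit 94) (nat_lit 1008) (nat_lit 0) (XT.lf (nat_lit 0) (nat_lit 8391018564) (nat_lit 924) (nat_lit 799953110) (nat_lit 1008) (nat_lit 374328788) (nat_lit 142) (nat_lit 5) (nat_lit 153) (nat_lit 5) (nat_lit 154) (nat_lit 5) (nat_lit 317) (nat_lit 310) (nat_lit 237)) (XT.nd (nat_lit 94) (nat_lit 1008) (nat_lit 0) (XT.lf (nat_lit 84) (nat_lit 3165591672) (nat_lit 0) (nat_lit 6268141731) (nat_lit 1008) (nat_lit 264859852) (nat_lit 143) (nat_lit 5) (nat_lit 142) (nat_lit 5) (nat_lit 154) (nat_lit 5) (nat_lit 318) (nat_lit 310) (nat_lit 236)) (XT.lf (nat_lit 0) (nat_lit 639942846) (nat_lit 1008) (nat_lit 2589980301) (nat_lit 1092) (nat_lit 6606593999) (nat_lit 130) (nat_lit 5) (nat_lit 142) (nat_lit 5) (nat_lit 143) (nat_lit 5) (nat_lit 319) (nat_lit 310) (nat_lit 235))))) (XT.nd (nat_lit 282) (nat_lit 0) (nat_lit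 84) (XT.nd (nat_lit 94) (nat_lit 0) (nat_lit 84) (XT.lf (nat_lit 84) (nat_lit 1484543153) (nat_lit 0) (nat_lit 70616809) (nat_lit 1092) (nat_lit 8423954523) (nat_lit 131) (nat_lit 5) (nat_lit 130) (nat_lit 5) (nat_lit 143) (nat_lit 5) (nat_lit 320) (nat_lit 310) (nat_lit 234)) (XT.nd (nat_lit 94) (nat_lit 0) (nat_lit 0) (XT.lf (nat_lit 0) (nat_lit 2531527183) (nat_lit 1008) (nat_lit 4435650396) (nat_lit 1092) (nat_lit 3158041125) (nat_lit 131) (nat_lit 5) (nat_lit 143) (nat_lit 5) (nat_lit 144) (nat_lit 5) (nat_lit 321) (nat_lit 310) (nat_lit 233)) (XT.lf (nat_lit 0) (nat_lit 3513526175) (nat_lit 1008) (nat_lit 269812280) (nat_lit 1092) (nat_lit 6493376812) (nat_lit 131) (nat_lit 5) (nat_lit 143) (nat_lit 5) (nat_lit 144) (nat_lit 5) (nat_lit 322) (nat_lit 310) (nat_lit 232)))) (XT.nd (nat_lit 94) (nat_lit 0) (nat_lit 84) (XT.lf (nat_lit 84) (nat_lit 4089929503) (nat_lit 0) (nat_lit 452014842)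 (nat_lit 1092) (nat_lit 5890565009) (nat_lit 132) (nat_lit 5) (nat_lit 131) (nat_lit 5) (nat_lit 144) (nat_lit 5) (nat_lit 323) (nat_lit 310) (nat_lit 231)) (XT.nd (nat_lit 94) (nat_lit 0) (nat_lit 0) (XT.lf (nat_lit 0) (nat_lit 5610712191) (nat_lit 1008) (nat_lit 2050484216) (nat_lit 1092) (nat_lit 2931767641) (nat_lit 132) (nat_lit 5) (nat_lit 144) (nat_lit 5) (nat_lit 145) (nat_lit 5) (nat_lit 324) (nat_lit 310) (nat_lit 230)) (XT.lf (nat_lit 84) (nat_lit 2400596960) (nat_lit 0) (nat_lit 4317208754) (nat_lit 1092) (nat_lit 4040516825) (nat_lit 133) (nat_lit 5) (nat_lit 132) (nat_lit 5) (nat_lit 145) (nat_lit 5) (nat_lit 325) (nat_lit 310) (nat_lit 229))))))) (XT.nd (nat_lit 1034) (nat_lit 2352) (nat_lit 0) (XT.nd (nat_lit 470) (nat_lit 1092) (nat_lit 0) (XT.nd (nat_lit 188) (nat_lit 1176) (nat_lit 0) (XT.nd (nat_lit 94) (nat_lit 924) (nat_lit 0) (XT.lf (nat_lit 84) (nat_lit 7015498127)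 (nat_lit 0) (nat_lit 842404425) (nat_lit 1092) (nat_lit 3071033386) (nat_lit 133) (nat_lit 5) (nat_lit 132) (nat_lit 5) (nat_lit 145) (nat_lit 5) (nat_lit 326) (nat_lit 310) (nat_lit 228)) (XT.lf (nat_lit 0) (nat_lit 636341479) (nat_lit 1008) (nat_lit 8408508455) (nat_lit 1092) (nat_lit 2059717023) (nat_lit 121) (nat_lit 5) (nat_lit 133) (nat_lit 5) (nat_lit 134) (nat_lit 5) (nat_lit 327) (nat_lit 310) (nat_lit 227))) (XT.nd (nat_lit 94) (nat_lit 1176) (nat_lit 0) (XT.lf (nat_lit 0) (nat_lit 5383595261) (nat_lit 1008) (nat_lit 4912872058) (nat_lit 1092) (nat_lit 988393876) (nat_lit 121) (nat_lit 5) (nat_lit 133) (nat_lit 5) (nat_lit 134) (nat_lit 5) (nat_lit 328) (nat_lit 310) (nat_lit 226)) (XT.nd (nat_lit 94) (nat_lit 1092) (nat_lit 0) (XT.lf (nat_lit 0) (nat_lit 92652659) (nat_lit 1092) (nat_lit 1211600637) (nat_lit 84) (nat_lit 10167188990) (nat_lit 120) (nat_lit 5) (nat_lit 133) (nat_lit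 5) (nat_lit 121) (nat_lit 5) (nat_lit 329) (nat_lit 310) (nat_lit 225)) (XT.lf (nat_lit 0) (nat_lit 1227054451) (nat_lit 1176) (nat_lit 8017460411) (nat_lit 84) (nat_lit 2417803080) (nat_lit 107) (nat_lit 5) (nat_lit 121) (nat_lit 5) (nat_lit 108) (nat_lit 5) (nat_lit 330) (nat_lit 310) (nat_lit 224))))) (XT.nd (nat_lit 282) (nat_lit 588) (nat_lit 0) (XT.nd (nat_lit 94) (nat_lit 504) (nat_lit 0) (XT.lf (nat_lit 0) (nat_lit 2402704594) (nat_lit 1176) (nat_lit 3212372947) (nat_lit 84) (nat_lit 6243917921) (nat_lit 107) (nat_lit 5) (nat_lit 121) (nat_lit 5) (nat_lit 108) (nat_lit 5) (nat_lit 331) (nat_lit 310) (nat_lit 223)) (XT.nd (nat_lit 94) (nat_lit 0) (nat_lit 0) (XT.lf (nat_lit 0) (nat_lit 1759927489) (nat_lit 504) (nat_lit 1852899948) (nat_lit 588) (nat_lit 8449074748) (nat_lit 101) (nat_lit 5) (nat_lit 107) (nat_lit 5) (nat_lit 108) (nat_lit 5) (nat_lit 332) (nat_lit 310) (nat_lit 222))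 (XT.lf (nat_lit 0) (nat_lit 4895438719) (nat_lit 588) (nat_lit 5353737184) (nat_lit 84) (nat_lit 2020907817) (nat_lit 101) (nat_lit 5) (nat_lit 108) (nat_lit 5) (nat_lit 102) (nat_lit 5) (nat_lit 333) (nat_lit 310) (nat_lit 221)))) (XT.nd (nat_lit 94) (nat_lit 588) (nat_lit 0) (XT.lf (nat_lit 0) (nat_lit 6218336808) (nat_lit 588) (nat_lit 288229998) (nat_lit 84) (nat_lit 5978202620) (nat_lit 101) (nat_lit 5) (nat_lit 108) (nat_lit 5) (nat_lit 102) (nat_lit 5) (nat_lit 334) (nat_lit 310) (nat_lit 220)) (XT.nd (nat_lit 94) (nat_lit 0) (nat_lit 0) (XT.lf (nat_lit 0) (nat_lit 5018766399) (nat_lit 588) (nat_lit 2595394173) (nat_lit 672) (nat_lit 5091025262) (nat_lit 94) (nat_lit 5) (nat_lit 101) (nat_lit 5) (nat_lit 102) (nat_lit 5) (nat_lit 335) (nat_lit 310) (nat_lit 219)) (XT.lf (nat_lit 0) (nat_lit 9053062441) (nat_lit 672) (nat_lit 2467343219) (nat_lit 84) (nat_lit 1412098341) (nat_lit 94)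 (nat_lit 5) (nat_lit 102) (nat_lit 5) (nat_lit 95) (nat_lit 5) (nat_lit 336) (nat_lit 310) (nat_lit 218)))))) (XT.nd (nat_lit 470) (nat_lit 1260) (nat_lit 0) (XT.nd (nat_lit 188) (nat_lit 588) (nat_lit 0) (XT.nd (nat_lit 94) (nat_lit 0) (nat_lit 0) (XT.lf (nat_lit 0) (nat_lit 2929409868) (nat_lit 504) (nat_lit 7645803891) (nat_lit 588) (nat_lit 2590518318) (nat_lit 88) (nat_lit 5) (nat_lit 94) (nat_lit 5) (nat_lit 95) (nat_lit 5) (nat_lit 337) (nat_lit 310) (nat_lit 217)) (XT.lf (nat_lit 0) (nat_lit 8529345853) (nat_lit 504) (nat_lit 3624345603) (nat_lit 588) (nat_lit 1252274600) (nat_lit 88) (nat_lit 5) (nat_lit 94) (nat_lit 5) (nat_lit 95) (nat_lit 5) (nat_lit 338) (nat_lit 310) (nat_lit 216))) (XT.nd (nat_lit 94) (nat_lit 0) (nat_lit 0) (XT.lf (nat_lit 0) (nat_lit 120200398) (nat_lit 588) (nat_lit 13014590917) (nat_lit 84) (nat_lit 519017710) (nat_lit 81) (nat_lit 5) (nat_lit 88) (nat_lit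 5) (nat_lit 82) (nat_lit 5) (nat_lit 339) (nat_lit 310) (nat_lit 215)) (XT.nd (nat_lit 94) (nat_lit 0) (nat_lit 0) (XT.lf (nat_lit 0) (nat_lit 1581694109) (nat_lit 588) (nat_lit 7545428926) (nat_lit 84) (nat_lit 4779622006) (nat_lit 81) (nat_lit 5) (nat_lit 88) (nat_lit 5) (nat_lit 82) (nat_lit 5) (nat_lit 340) (nat_lit 310) (nat_lit 214)) (XT.lf (nat_lit 0) (nat_lit 3072969029) (nat_lit 588) (nat_lit 1922924652) (nat_lit 84) (nat_lit 9172162031) (nat_lit 81) (nat_lit 5) (nat_lit 88) (nat_lit 5) (nat_lit 82) (nat_lit 5) (nat_lit 341) (nat_lit 310) (nat_lit 213))))) (XT.nd (nat_lit 282) (nat_lit 420) (nat_lit 0) (XT.nd (nat_lit 94) (nat_lit 420) (nat_lit 0) (XT.lf (nat_lit 0) (nat_lit 3937494404) (nat_lit 420) (nat_lit 696981212) (nat_lit 504) (nat_lit 9802298119) (nat_lit 76) (nat_lit 5) (nat_lit 81) (nat_lit 5) (nat_lit 82) (nat_lit 5) (nat_lit 342) (nat_lit 310) (nat_lit 212)) (XT.nd (nat_lit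 94) (nat_lit 420) (nat_lit 0) (XT.lf (nat_lit 0) (nat_lit 6286951479) (nat_lit 504) (nat_lit 4746161674) (nat_lit 84) (nat_lit 3679438680) (nat_lit 76) (nat_lit 5) (nat_lit 82) (nat_lit 5) (nat_lit 77) (nat_lit 5) (nat_lit 343) (nat_lit 310) (nat_lit 211)) (XT.lf (nat_lit 0) (nat_lit 1186507954) (nat_lit 420) (nat_lit 6808721235) (nat_lit 504) (nat_lit 7001555815) (nat_lit 71) (nat_lit 5) (nat_lit 76) (nat_lit 5) (nat_lit 77) (nat_lit 5) (nat_lit 344) (nat_lit 310) (nat_lit 210)))) (XT.nd (nat_lit 94) (nat_lit 420) (nat_lit 0) (XT.lf (nat_lit 0) (nat_lit 7388292435) (nat_lit 420) (nat_lit 2403665351) (nat_lit 504) (nat_lit 5496817633) (nat_lit 71) (nat_lit 5) (nat_lit 76) (nat_lit 5) (nat_lit 77) (nat_lit 5) (nat_lit 345) (nat_lit 310) (nat_lit 209)) (XT.nd (nat_lit 94) (nat_lit 420) (nat_lit 0) (XT.lf (nat_lit 0) (nat_lit 11651956926) (nat_lit 504) (nat_lit 1844098691) (nat_lit 84) (nat_lit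 2093572138) (nat_lit 71) (nat_lit 5) (nat_lit 77) (nat_lit 5) (nat_lit 72) (nat_lit 5) (nat_lit 346) (nat_lit 310) (nat_lit 208)) (XT.lf (nat_lit 0) (nat_lit 4450169164) (nat_lit 420) (nat_lit 9174950227) (nat_lit 504) (nat_lit 2273010116) (nat_lit 66) (nat_lit 5) (nat_lit 71) (nat_lit 5) (nat_lit 72) (nat_lit 5) (nat_lit 347) (nat_lit 310) (nat_lit 207))))))))
noncomputable def xc83 : XT := (XT.nd (nat_lit 1974) (nat_lit 504) (nat_lit 0) (XT.nd (nat_lit 940) (nat_lit 1008) (nat_lit 0) (XT.nd (nat_lit 470) (nat_lit 672) (nat_lit 0) (XT.nd (nat_lit 188) (nat_lit 336) (nat_lit 0) (XT.nd (nat_lit 94) (nat_lit 504) (nat_lit 0) (XT.lf (nat_lit 0) (nat_lit 10963863016) (nat_lit 420) (nat_lit 4701859744) (nat_lit 504) (nat_lit 550319878) (nat_lit 66) (nat_lit 5) (nat_lit 71) (nat_lit 5) (nat_lit 72) (nat_lit 5) (nat_lit 348) (nat_lit 310) (nat_lit 206)) (XT.lf (nat_lit 0) (nat_lit 1131663409) (nat_lit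 420) (nat_lit 67885482) (nat_lit 504) (nat_lit 15343972388) (nat_lit 60) (nat_lit 5) (nat_lit 65) (nat_lit 5) (nat_lit 66) (nat_lit 5) (nat_lit 349) (nat_lit 310) (nat_lit 205))) (XT.nd (nat_lit 94) (nat_lit 336) (nat_lit 0) (XT.lf (nat_lit 0) (nat_lit 3081801548) (nat_lit 504) (nat_lit 9122519777) (nat_lit 84) (nat_lit 4673917883) (nat_lit 60) (nat_lit 5) (nat_lit 66) (nat_lit 5) (nat_lit 61) (nat_lit 5) (nat_lit 350) (nat_lit 310) (nat_lit 204)) (XT.nd (nat_lit 94) (nat_lit 336) (nat_lit 0) (XT.lf (nat_lit 0) (nat_lit 5010940716) (nat_lit 504) (nat_lit 2653364440) (nat_lit 84) (nat_lit 9559421024) (nat_lit 60) (nat_lit 5) (nat_lit 66) (nat_lit 5) (nat_lit 61) (nat_lit 5) (nat_lit 351) (nat_lit 310) (nat_lit 203)) (XT.lf (nat_lit 0) (nat_lit 4084607237) (nat_lit 336) (nat_lit 2944003697) (nat_lit 420) (nat_lit 10550458054) (nat_lit 56) (nat_lit 5) (nat_lit 60) (nat_lit 5) (nat_lit 61) (nat_lit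 5) (nat_lit 352) (nat_lit 310) (nat_lit 202))))) (XT.nd (nat_lit 188) (nat_lit 672) (nat_lit 0) (XT.nd (nat_lit 94) (nat_lit 0) (nat_lit 0) (XT.lf (nat_lit 0) (nat_lit 9144282481) (nat_lit 420) (nat_lit 6890471249) (nat_lit 84) (nat_lit 1909609840) (nat_lit 56) (nat_lit 5) (nat_lit 61) (nat_lit 5) (nat_lit 57) (nat_lit 5) (nat_lit 353) (nat_lit 310) (nat_lit 201)) (XT.lf (nat_lit 0) (nat_lit 11344400718) (nat_lit 420) (nat_lit 125691132) (nat_lit 84) (nat_lit 6850339896) (nat_lit 56) (nat_lit 5) (nat_lit 61) (nat_lit 5) (nat_lit 57) (nat_lit 5) (nat_lit 354) (nat_lit 310) (nat_lit 200))) (XT.nd (nat_lit 94) (nat_lit 336) (nat_lit 0) (XT.lf (nat_lit 0) (nat_lit 6975938578) (nat_lit 336) (nat_lit 6695075100) (nat_lit 420) (nat_lit 5035370457) (nat_lit 52) (nat_lit 5) (nat_lit 56) (nat_lit 5) (nat_lit 57) (nat_lit 5) (nat_lit 355) (nat_lit 310) (nat_lit 199)) (XT.nd (nat_lit 94) (nat_lit 336)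 (nat_lit 0) (XT.lf (nat_lit 0) (nat_lit 14287110937) (nat_lit 336) (nat_lit 1773237955) (nat_lit 420) (nat_lit 3044275769) (nat_lit 52) (nat_lit 5) (nat_lit 56) (nat_lit 5) (nat_lit 57) (nat_lit 5) (nat_lit 356) (nat_lit 310) (nat_lit 198)) (XT.lf (nat_lit 0) (nat_lit 2310316546) (nat_lit 336) (nat_lit 16258686504) (nat_lit 420) (nat_lit 944836015) (nat_lit 48) (nat_lit 5) (nat_lit 52) (nat_lit 5) (nat_lit 53) (nat_lit 5) (nat_lit 357) (nat_lit 310) (nat_lit 197)))))) (XT.nd (nat_lit 470) (nat_lit 588) (nat_lit 0) (XT.nd (nat_lit 188) (nat_lit 336) (nat_lit 0) (XT.nd (nat_lit 94) (nat_lit 0) (nat_lit 0) (XT.lf (nat_lit 0) (nat_lit 1253679874) (nat_lit 420) (nat_lit 10217002701) (nat_lit 84) (nat_lit 8462895184) (nat_lit 47) (nat_lit 5) (nat_lit 52) (nat_lit 5) (nat_lit 48) (nat_lit 5) (nat_lit 358) (nat_lit 310) (nat_lit 196)) (XT.lf (nat_lit 0) (nat_lit 3490667182) (nat_lit 420) (nat_lit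 3036474927) (nat_lit 84) (nat_lit 13839226846) (nat_lit 47) (nat_lit 5) (nat_lit 52) (nat_lit 5) (nat_lit 48) (nat_lit 5) (nat_lit 359) (nat_lit 310) (nat_lit 195))) (XT.nd (nat_lit 94) (nat_lit 0) (nat_lit 0) (XT.lf (nat_lit 0) (nat_lit 4443656468) (nat_lit 336) (nat_lit 1387672509) (nat_lit 420) (nat_lit 14980211117) (nat_lit 43) (nat_lit 5) (nat_lit 47) (nat_lit 5) (nat_lit 48) (nat_lit 5) (nat_lit 360) (nat_lit 310) (nat_lit 194)) (XT.nd (nat_lit 94) (nat_lit 0) (nat_lit 0) (XT.lf (nat_lit 0) (nat_lit 8305757490) (nat_lit 420) (nat_lit 9101300029) (nat_lit 84) (nat_lit 3861583377) (nat_lit 43) (nat_lit 5) (nat_lit 48) (nat_lit 5) (nat_lit 44) (nat_lit 5) (nat_lit 361) (nat_lit 310) (nat_lit 193)) (XT.lf (nat_lit 0) (nat_lit 10861763570) (nat_lit 420) (nat_lit 1635955024) (nat_lit 84) (nat_lit 9242068193) (nat_lit 43) (nat_lit 5) (nat_lit 48) (nat_lit 5) (nat_lit 44) (nat_lit 5) (nat_lit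 362) (nat_lit 310) (nat_lit 192))))) (XT.nd (nat_lit 282) (nat_lit 336) (nat_lit 0) (XT.nd (nat_lit 94) (nat_lit 0) (nat_lit 0) (XT.lf (nat_lit 0) (nat_lit 6173253046) (nat_lit 252) (nat_lit 7375950191) (nat_lit 336) (nat_lit 8674742009) (nat_lit 40) (nat_lit 5) (nat_lit 43) (nat_lit 5) (nat_lit 44) (nat_lit 5) (nat_lit 363) (nat_lit 310) (nat_lit 191)) (XT.nd (nat_lit 94) (nat_lit 0) (nat_lit 0) (XT.lf (nat_lit 0) (nat_lit 14247408913) (nat_lit 252) (nat_lit 2080733228) (nat_lit 336) (nat_lit 6394741039) (nat_lit 40) (nat_lit 5) (nat_lit 43) (nat_lit 5) (nat_lit 44) (nat_lit 5) (nat_lit 364) (nat_lit 310) (nat_lit 190)) (XT.lf (nat_lit 0) (nat_lit 19218096243) (nat_lit 336) (nat_lit 710667418) (nat_lit 84) (nat_lit 3307777291) (nat_lit 40) (nat_lit 5) (nat_lit 44) (nat_lit 5) (nat_lit 41) (nat_lit 5) (nat_lit 365) (nat_lit 310) (nat_lit 189)))) (XT.nd (nat_lit 94) (nat_lit 84) (nat_lit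 0) (XT.lf (nat_lit 0) (nat_lit 7411519261) (nat_lit 252) (nat_lit 14872535505) (nat_lit 336) (nat_lit 1479411421) (nat_lit 37) (nat_lit 5) (nat_lit 40) (nat_lit 5) (nat_lit 41) (nat_lit 5) (nat_lit 366) (nat_lit 310) (nat_lit 188)) (XT.nd (nat_lit 94) (nat_lit 0) (nat_lit 0) (XT.lf (nat_lit 0) (nat_lit 1114536827) (nat_lit 336) (nat_lit 8528756907) (nat_lit 84) (nat_lit 14663130574) (nat_lit 36) (nat_lit 5) (nat_lit 40) (nat_lit 5) (nat_lit 37) (nat_lit 5) (nat_lit 367) (nat_lit 310) (nat_lit 187)) (XT.lf (nat_lit 0) (nat_lit 3750063808) (nat_lit 336) (nat_lit 489286558) (nat_lit 84) (nat_lit 20626666848) (nat_lit 36) (nat_lit 5) (nat_lit 40) (nat_lit 5) (nat_lit 37) (nat_lit 5) (nat_lit 368) (nat_lit 310) (nat_lit 186))))))) (XT.nd (nat_lit 49350) (nat_lit 0) (nat_lit 8316) (XT.nd (nat_lit 48786) (nat_lit 0) (nat_lit 9240) (XT.nd (nat_lit 188) (nat_lit 252) (nat_lit 0) (XT.nd (nat_lit 94)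 (nat_lit 0) (nat_lit 0) (XT.lf (nat_lit 0) (nat_lit 6552278186) (nat_lit 336) (nat_lit 17505985358) (nat_lit 84) (nat_lit 1382079711) (nat_lit 33) (nat_lit 5) (nat_lit 37) (nat_lit 5) (nat_lit 34) (nat_lit 5) (nat_lit 369) (nat_lit 310) (nat_lit 185)) (XT.lf (nat_lit 0) (nat_lit 9482121388) (nat_lit 336) (nat_lit 9457112727) (nat_lit 84) (nat_lit 7091995433) (nat_lit 33) (nat_lit 5) (nat_lit 37) (nat_lit 5) (nat_lit 34) (nat_lit 5) (nat_lit 370) (nat_lit 310) (nat_lit 184))) (XT.nd (nat_lit 94) (nat_lit 252) (nat_lit 0) (XT.lf (nat_lit 0) (nat_lit 12495265204) (nat_lit 336) (nat_lit 1169292241) (nat_lit 84) (nat_lit 12976128251) (nat_lit 33) (nat_lit 5) (nat_lit 37) (nat_lit 5) (nat_lit 34) (nat_lit 5) (nat_lit 371) (nat_lit 310) (nat_lit 183)) (XT.nd (nat_lit 94) (nat_lit 0) (nat_lit 0) (XT.lf (nat_lit 0) (nat_lit 7516644857) (nat_lit 252) (nat_lit 8152439388) (nat_lit 336) (nat_lit 11597883982)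 (nat_lit 30) (nat_lit 5) (nat_lit 33) (nat_lit 5) (nat_lit 34) (nat_lit 5) (nat_lit 372) (nat_lit 310) (nat_lit 182)) (XT.lf (nat_lit 0) (nat_lit 16486488691) (nat_lit 252) (nat_lit 2459828519) (nat_lit 336) (nat_lit 8966210503) (nat_lit 30) (nat_lit 5) (nat_lit 33) (nat_lit 5) (nat_lit 34) (nat_lit 5) (nat_lit 373) (nat_lit 310) (nat_lit 181))))) (XT.nd (nat_lit 282) (nat_lit 0) (nat_lit 0) (XT.nd (nat_lit 94) (nat_lit 0) (nat_lit 0) (XT.lf (nat_lit 0) (nat_lit 899931818) (nat_lit 0) (nat_lit 899931818) (nat_lit 924) (nat_lit 2677641535) (nat_lit 140) (nat_lit 5) (nat_lit 140) (nat_lit 3) (nat_lit 151) (nat_lit 3) (nat_lit 311) (nat_lit 311) (nat_lit 242)) (XT.nd (nat_lit 94) (nat_lit 0) (nat_lit 0) (XT.lf (nat_lit 0) (nat_lit 4450830015) (nat_lit 924) (nat_lit 3667308038) (nat_lit 1008) (nat_lit 947773278) (nat_lit 140) (nat_lit 5) (nat_lit 151) (nat_lit 3) (nat_lit 152) (nat_lit 5) (nat_lit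 312) (nat_lit 311) (nat_lit 241)) (XT.lf (nat_lit 0) (nat_lit 5315221678) (nat_lit 924) (nat_lit 106854447) (nat_lit 1008) (nat_lit 3758710927) (nat_lit 140) (nat_lit 5) (nat_lit 151) (nat_lit 3) (nat_lit 152) (nat_lit 5) (nat_lit 313) (nat_lit 311) (nat_lit 240)))) (XT.nd (nat_lit 94) (nat_lit 0) (nat_lit 84) (XT.lf (nat_lit 84) (nat_lit 3620329220) (nat_lit 0) (nat_lit 2591437987) (nat_lit 1008) (nat_lit 3087417534) (nat_lit 141) (nat_lit 5) (nat_lit 140) (nat_lit 5) (nat_lit 152) (nat_lit 5) (nat_lit 314) (nat_lit 311) (nat_lit 239)) (XT.nd (nat_lit 94) (nat_lit 0) (nat_lit 0) (XT.lf (nat_lit 0) (nat_lit 7110808051) (nat_lit 924) (nat_lit 1976749444) (nat_lit 1008) (nat_lit 334602584) (nat_lit 141) (nat_lit 5) (nat_lit 152) (nat_lit 5) (nat_lit 153) (nat_lit 5) (nat_lit 315) (nat_lit 311) (nat_lit 238)) (XT.lf (nat_lit 84) (nat_lit 1833490153) (nat_lit 0) (nat_lit 6220146090) (nat_lit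 1008) (nat_lit 1494937375) (nat_lit 142) (nat_lit 5) (nat_lit 141) (nat_lit 5) (nat_lit 153) (nat_lit 5) (nat_lit 316) (nat_lit 311) (nat_lit 237)))))) (XT.nd (nat_lit 470) (nat_lit 0) (nat_lit 168) (XT.nd (nat_lit 188) (nat_lit 0) (nat_lit 84) (XT.nd (nat_lit 94) (nat_lit 1008) (nat_lit 0) (XT.lf (nat_lit 84) (nat_lit 5786857834) (nat_lit 0) (nat_lit 3231389423) (nat_lit 1008) (nat_lit 661005315) (nat_lit 142) (nat_lit 5) (nat_lit 141) (nat_lit 5) (nat_lit 153) (nat_lit 5) (nat_lit 317) (nat_lit 311) (nat_lit 236)) (XT.lf (nat_lit 84) (nat_lit 30373076) (nat_lit 0) (nat_lit 137079508) (nat_lit 1092) (nat_lit 9647424760) (nat_lit 130) (nat_lit 5) (nat_lit 129) (nat_lit 5) (nat_lit 142) (nat_lit 5) (nat_lit 318) (nat_lit 311) (nat_lit 235))) (XT.nd (nat_lit 94) (nat_lit 0) (nat_lit 0) (XT.lf (nat_lit 0) (nat_lit 1052334308) (nat_lit 1008) (nat_lit 5851580140) (nat_lit 1092) (nat_lit 3049309487)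 (nat_lit 130) (nat_lit 5) (nat_lit 142) (nat_lit 5) (nat_lit 143) (nat_lit 5) (nat_lit 319) (nat_lit 311) (nat_lit 234)) (XT.nd (nat_lit 94) (nat_lit 0) (nat_lit 0) (XT.lf (nat_lit 0) (nat_lit 1939997422) (nat_lit 1008) (nat_lit 1815530991) (nat_lit 1092) (nat_lit 6341197500) (nat_lit 130) (nat_lit 5) (nat_lit 142) (nat_lit 5) (nat_lit 143) (nat_lit 5) (nat_lit 320) (nat_lit 311) (nat_lit 233)) (XT.lf (nat_lit 84) (nat_lit 2376649228) (nat_lit 0) (nat_lit 476836900) (nat_lit 1092) (nat_lit 7391342184) (nat_lit 131) (nat_lit 5) (nat_lit 130) (nat_lit 5) (nat_lit 143) (nat_lit 5) (nat_lit 321) (nat_lit 311) (nat_lit 232))))) (XT.nd (nat_lit 282) (nat_lit 0) (nat_lit 84) (XT.nd (nat_lit 94) (nat_lit 0) (nat_lit 0) (XT.lf (nat_lit 0) (nat_lit 3818644846) (nat_lit 1008) (nat_lit 3706296202) (nat_lit 1092) (nat_lit 2871953353) (nat_lit 131) (nat_lit 5) (nat_lit 143) (nat_lit 5) (nat_lit 144) (nat_lit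 5) (nat_lit 322) (nat_lit 311) (nat_lit 231)) (XT.nd (nat_lit 94) (nat_lit 0) (nat_lit 0) (XT.lf (nat_lit 84) (nat_lit 574186843) (nat_lit 0) (nat_lit 4226253697) (nat_lit 1092) (nat_lit 5753739289) (nat_lit 132) (nat_lit 5) (nat_lit 131) (nat_lit 5) (nat_lit 144) (nat_lit 5) (nat_lit 323) (nat_lit 311) (nat_lit 230)) (XT.lf (nat_lit 84) (nat_lit 5048999746) (nat_lit 0) (nat_lit 779051703) (nat_lit 1092) (nat_lit 4887903603) (nat_lit 132) (nat_lit 5) (nat_lit 131) (nat_lit 5) (nat_lit 144) (nat_lit 5) (nat_lit 324) (nat_lit 311) (nat_lit 229)))) (XT.nd (nat_lit 94) (nat_lit 0) (nat_lit 0) (XT.lf (nat_lit 0) (nat_lit 6892502260) (nat_lit 1008) (nat_lit 1265019390) (nat_lit 1092) (nat_lit 2725157136) (nat_lit 132) (nat_lit 5) (nat_lit 144) (nat_lit 5) (nat_lit 145) (nat_lit 5) (nat_lit 325) (nat_lit 311) (nat_lit 228)) (XT.nd (nat_lit 94) (nat_lit 0) (nat_lit 0) (XT.lf (nat_lit 84) (nat_lit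 3315449637) (nat_lit 0) (nat_lit 4693492297) (nat_lit 1092) (nat_lit 3045125641) (nat_lit 133) (nat_lit 5) (nat_lit 132) (nat_lit 5) (nat_lit 145) (nat_lit 5) (nat_lit 326) (nat_lit 311) (nat_lit 227)) (XT.lf (nat_lit 84) (nat_lit 8048142654) (nat_lit 0) (nat_lit 1103679071) (nat_lit 1092) (nat_lit 2079283719) (nat_lit 133) (nat_lit 5) (nat_lit 132) (nat_lit 5) (nat_lit 145) (nat_lit 5) (nat_lit 327) (nat_lit 311) (nat_lit 226))))))))
noncomputable def xc84 : XT := (XT.nd (nat_lit 1974) (nat_lit 2772) (nat_lit 0) (XT.nd (nat_lit 940) (nat_lit 2352) (nat_lit 0) (XT.nd (nat_lit 470) (nat_lit 1092) (nat_lit 0) (XT.nd (nat_lit 188) (nat_lit 1092) (nat_lit 0) (XT.nd (nat_lit 94) (nat_lit 84) (nat_lit 0) (XT.lf (nat_lit 0) (nat_lit 1501545233) (nat_lit 1008) (nat_lit 8848562768) (nat_lit 1092) (nat_lit 1062984473) (nat_lit 121) (nat_lit 5) (nat_lit 133) (nat_lit 5) (nat_lit 134) (nat_lit 5) (nat_lit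 328) (nat_lit 311) (nat_lit 225)) (XT.lf (nat_lit 0) (nat_lit 9465538) (nat_lit 1092) (nat_lit 5229603407) (nat_lit 84) (nat_lit 6360977825) (nat_lit 120) (nat_lit 5) (nat_lit 133) (nat_lit 5) (nat_lit 121) (nat_lit 5) (nat_lit 329) (nat_lit 311) (nat_lit 224))) (XT.nd (nat_lit 94) (nat_lit 1092) (nat_lit 0) (XT.lf (nat_lit 0) (nat_lit 1073185763) (nat_lit 1092) (nat_lit 430059551) (nat_lit 84) (nat_lit 10289904311) (nat_lit 120) (nat_lit 5) (nat_lit 133) (nat_lit 5) (nat_lit 121) (nat_lit 5) (nat_lit 330) (nat_lit 311) (nat_lit 223)) (XT.nd (nat_lit 94) (nat_lit 0) (nat_lit 0) (XT.lf (nat_lit 0) (nat_lit 2219957745) (nat_lit 1176) (nat_lit 7420613070) (nat_lit 84) (nat_lit 2350186538) (nat_lit 107) (nat_lit 5) (nat_lit 121) (nat_lit 5) (nat_lit 108) (nat_lit 5) (nat_lit 331) (nat_lit 311) (nat_lit 222)) (XT.lf (nat_lit 0) (nat_lit 3403342274) (nat_lit 1176) (nat_lit 2491986950) (nat_lit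 84) (nat_lit 6299197672) (nat_lit 107) (nat_lit 5) (nat_lit 121) (nat_lit 5) (nat_lit 108) (nat_lit 5) (nat_lit 332) (nat_lit 311) (nat_lit 221))))) (XT.nd (nat_lit 188) (nat_lit 588) (nat_lit 0) (XT.nd (nat_lit 94) (nat_lit 0) (nat_lit 0) (XT.lf (nat_lit 0) (nat_lit 2626153343) (nat_lit 504) (nat_lit 2005029933) (nat_lit 588) (nat_lit 7773255946) (nat_lit 101) (nat_lit 5) (nat_lit 107) (nat_lit 5) (nat_lit 108) (nat_lit 5) (nat_lit 333) (nat_lit 311) (nat_lit 220)) (XT.lf (nat_lit 0) (nat_lit 5925392131) (nat_lit 588) (nat_lit 4701090650) (nat_lit 84) (nat_lit 1993563436) (nat_lit 101) (nat_lit 5) (nat_lit 108) (nat_lit 5) (nat_lit 102) (nat_lit 5) (nat_lit 334) (nat_lit 311) (nat_lit 219))) (XT.nd (nat_lit 94) (nat_lit 0) (nat_lit 0) (XT.lf (nat_lit 0) (nat_lit 507049218) (nat_lit 588) (nat_lit 6760875364) (nat_lit 672) (nat_lit 5574221036) (nat_lit 94) (nat_lit 5) (nat_lit 101) (nat_lit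 5) (nat_lit 102) (nat_lit 5) (nat_lit 335) (nat_lit 311) (nat_lit 218)) (XT.nd (nat_lit 94) (nat_lit 0) (nat_lit 0) (XT.lf (nat_lit 0) (nat_lit 5960308072) (nat_lit 588) (nat_lit 2723866127) (nat_lit 672) (nat_lit 4386021838) (nat_lit 94) (nat_lit 5) (nat_lit 101) (nat_lit 5) (nat_lit 102) (nat_lit 5) (nat_lit 336) (nat_lit 311) (nat_lit 217)) (XT.lf (nat_lit 0) (nat_lit 10142144173) (nat_lit 672) (nat_lit 1753058033) (nat_lit 84) (nat_lit 1410240659) (nat_lit 94) (nat_lit 5) (nat_lit 102) (nat_lit 5) (nat_lit 95) (nat_lit 5) (nat_lit 337) (nat_lit 311) (nat_lit 216)))))) (XT.nd (nat_lit 470) (nat_lit 1260) (nat_lit 0) (XT.nd (nat_lit 188) (nat_lit 588) (nat_lit 0) (XT.nd (nat_lit 94) (nat_lit 0) (nat_lit 0) (XT.lf (nat_lit 0) (nat_lit 3802988535) (nat_lit 504) (nat_lit 7891950800) (nat_lit 588) (nat_lit 1851561919) (nat_lit 88) (nat_lit 5) (nat_lit 94) (nat_lit 5) (nat_lit 95) (nat_lit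 5) (nat_lit 338) (nat_lit 311) (nat_lit 215)) (XT.lf (nat_lit 0) (nat_lit 9552986381) (nat_lit 504) (nat_lit 3745552874) (nat_lit 588) (nat_lit 496466143) (nat_lit 88) (nat_lit 5) (nat_lit 94) (nat_lit 5) (nat_lit 95) (nat_lit 5) (nat_lit 339) (nat_lit 311) (nat_lit 214))) (XT.nd (nat_lit 94) (nat_lit 0) (nat_lit 0) (XT.lf (nat_lit 0) (nat_lit 886843964) (nat_lit 588) (nat_lit 12621875010) (nat_lit 84) (nat_lit 542134672) (nat_lit 81) (nat_lit 5) (nat_lit 88) (nat_lit 5) (nat_lit 82) (nat_lit 5) (nat_lit 340) (nat_lit 311) (nat_lit 213)) (XT.nd (nat_lit 94) (nat_lit 0) (nat_lit 0) (XT.lf (nat_lit 0) (nat_lit 2370704661) (nat_lit 588) (nat_lit 7007108100) (nat_lit 84) (nat_lit 4934606402) (nat_lit 81) (nat_lit 5) (nat_lit 88) (nat_lit 5) (nat_lit 82) (nat_lit 5) (nat_lit 341) (nat_lit 311) (nat_lit 212)) (XT.lf (nat_lit 0) (nat_lit 3885959522) (nat_lit 588) (nat_lit 1233525498) (nat_lit 84)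 (nat_lit 9463110222) (nat_lit 81) (nat_lit 5) (nat_lit 88) (nat_lit 5) (nat_lit 82) (nat_lit 5) (nat_lit 342) (nat_lit 311) (nat_lit 211))))) (XT.nd (nat_lit 282) (nat_lit 420) (nat_lit 0) (XT.nd (nat_lit 94) (nat_lit 420) (nat_lit 0) (XT.lf (nat_lit 0) (nat_lit 4800983497) (nat_lit 420) (nat_lit 680663777) (nat_lit 504) (nat_lit 9378510023) (nat_lit 76) (nat_lit 5) (nat_lit 81) (nat_lit 5) (nat_lit 82) (nat_lit 5) (nat_lit 343) (nat_lit 311) (nat_lit 210)) (XT.nd (nat_lit 94) (nat_lit 420) (nat_lit 0) (XT.lf (nat_lit 0) (nat_lit 7164561934) (nat_lit 504) (nat_lit 4151093869) (nat_lit 84) (nat_lit 3829543735) (nat_lit 76) (nat_lit 5) (nat_lit 82) (nat_lit 5) (nat_lit 77) (nat_lit 5) (nat_lit 344) (nat_lit 311) (nat_lit 209)) (XT.lf (nat_lit 0) (nat_lit 1957974421) (nat_lit 420) (nat_lit 6954582194) (nat_lit 504) (nat_lit 6526166222) (nat_lit 71) (nat_lit 5) (nat_lit 76) (nat_lit 5) (nat_lit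 77) (nat_lit 5) (nat_lit 345) (nat_lit 311) (nat_lit 208)))) (XT.nd (nat_lit 94) (nat_lit 420) (nat_lit 0) (XT.lf (nat_lit 0) (nat_lit 8329923798) (nat_lit 420) (nat_lit 2414930287) (nat_lit 504) (nat_lit 4995601304) (nat_lit 71) (nat_lit 5) (nat_lit 76) (nat_lit 5) (nat_lit 77) (nat_lit 5) (nat_lit 346) (nat_lit 311) (nat_lit 207)) (XT.nd (nat_lit 94) (nat_lit 420) (nat_lit 0) (XT.lf (nat_lit 0) (nat_lit 12643597312) (nat_lit 504) (nat_lit 1189103840) (nat_lit 84) (nat_lit 2218583806) (nat_lit 71) (nat_lit 5) (nat_lit 77) (nat_lit 5) (nat_lit 72) (nat_lit 5) (nat_lit 347) (nat_lit 311) (nat_lit 206)) (XT.lf (nat_lit 0) (nat_lit 5293076319) (nat_lit 420) (nat_lit 9372889009) (nat_lit 504) (nat_lit 1703818251) (nat_lit 66) (nat_lit 5) (nat_lit 71) (nat_lit 5) (nat_lit 72) (nat_lit 5) (nat_lit 348) (nat_lit 311) (nat_lit 205))))))) (XT.nd (nat_lit 940) (nat_lit 1260) (nat_lit 0) (XT.nd (nat_lit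 470) (nat_lit 672) (nat_lit 0) (XT.nd (nat_lit 188) (nat_lit 336) (nat_lit 0) (XT.nd (nat_lit 94) (nat_lit 420) (nat_lit 0) (XT.lf (nat_lit 0) (nat_lit 51973614) (nat_lit 504) (nat_lit 4711217020) (nat_lit 84) (nat_lit 11934982148) (nat_lit 65) (nat_lit 5) (nat_lit 71) (nat_lit 5) (nat_lit 66) (nat_lit 5) (nat_lit 349) (nat_lit 311) (nat_lit 204)) (XT.lf (nat_lit 0) (nat_lit 1833477564) (nat_lit 504) (nat_lit 15178455388) (nat_lit 84) (nat_lit 24099396) (nat_lit 60) (nat_lit 5) (nat_lit 66) (nat_lit 5) (nat_lit 61) (nat_lit 5) (nat_lit 350) (nat_lit 311) (nat_lit 203))) (XT.nd (nat_lit 94) (nat_lit 336) (nat_lit 0) (XT.lf (nat_lit 0) (nat_lit 3756810689) (nat_lit 504) (nat_lit 8716204634) (nat_lit 84) (nat_lit 4908701858) (nat_lit 60) (nat_lit 5) (nat_lit 66) (nat_lit 5) (nat_lit 61) (nat_lit 5) (nat_lit 351) (nat_lit 311) (nat_lit 202)) (XT.nd (nat_lit 94) (nat_lit 336) (nat_lit 0) (XT.lf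 (nat_lit 0) (nat_lit 5728329629) (nat_lit 504) (nat_lit 2067225666) (nat_lit 84) (nat_lit 9942952717) (nat_lit 60) (nat_lit 5) (nat_lit 66) (nat_lit 5) (nat_lit 61) (nat_lit 5) (nat_lit 352) (nat_lit 311) (nat_lit 201)) (XT.lf (nat_lit 0) (nat_lit 4872856253) (nat_lit 336) (nat_lit 2925355131) (nat_lit 420) (nat_lit 10307027508) (nat_lit 56) (nat_lit 5) (nat_lit 60) (nat_lit 5) (nat_lit 61) (nat_lit 5) (nat_lit 353) (nat_lit 311) (nat_lit 200))))) (XT.nd (nat_lit 188) (nat_lit 336) (nat_lit 0) (XT.nd (nat_lit 94) (nat_lit 336) (nat_lit 0) (XT.lf (nat_lit 0) (nat_lit 9963937449) (nat_lit 420) (nat_lit 6445184413) (nat_lit 84) (nat_lit 2073267672) (nat_lit 56) (nat_lit 5) (nat_lit 61) (nat_lit 5) (nat_lit 57) (nat_lit 5) (nat_lit 354) (nat_lit 311) (nat_lit 199)) (XT.lf (nat_lit 0) (nat_lit 519968616) (nat_lit 336) (nat_lit 11701327017) (nat_lit 420) (nat_lit 6649209006) (nat_lit 52) (nat_lit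 5) (nat_lit 56) (nat_lit 5) (nat_lit 57) (nat_lit 5) (nat_lit 355) (nat_lit 311) (nat_lit 198))) (XT.nd (nat_lit 94) (nat_lit 336) (nat_lit 0) (XT.lf (nat_lit 0) (nat_lit 7824802528) (nat_lit 336) (nat_lit 6780711362) (nat_lit 420) (nat_lit 4663405242) (nat_lit 52) (nat_lit 5) (nat_lit 56) (nat_lit 5) (nat_lit 57) (nat_lit 5) (nat_lit 356) (nat_lit 311) (nat_lit 197)) (XT.nd (nat_lit 94) (nat_lit 336) (nat_lit 0) (XT.lf (nat_lit 0) (nat_lit 15343599983) (nat_lit 336) (nat_lit 1709962874) (nat_lit 420) (nat_lit 2626464322) (nat_lit 52) (nat_lit 5) (nat_lit 56) (nat_lit 5) (nat_lit 57) (nat_lit 5) (nat_lit 357) (nat_lit 311) (nat_lit 196)) (XT.lf (nat_lit 0) (nat_lit 3004822146) (nat_lit 336) (nat_lit 16627586067) (nat_lit 420) (nat_lit 469798565) (nat_lit 48) (nat_lit 5) (nat_lit 52) (nat_lit 5) (nat_lit 53) (nat_lit 5) (nat_lit 358) (nat_lit 311) (nat_lit 195)))))) (XT.nd (nat_lit 470) (nat_lit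 840) (nat_lit 0) (XT.nd (nat_lit 188) (nat_lit 336) (nat_lit 0) (XT.nd (nat_lit 94) (nat_lit 0) (nat_lit 0) (XT.lf (nat_lit 0) (nat_lit 1771851704) (nat_lit 420) (nat_lit 9918362087) (nat_lit 84) (nat_lit 8845091113) (nat_lit 47) (nat_lit 5) (nat_lit 52) (nat_lit 5) (nat_lit 48) (nat_lit 5) (nat_lit 359) (nat_lit 311) (nat_lit 194)) (XT.lf (nat_lit 0) (nat_lit 4063773844) (nat_lit 420) (nat_lit 2533740764) (nat_lit 84) (nat_lit 14384485534) (nat_lit 47) (nat_lit 5) (nat_lit 52) (nat_lit 5) (nat_lit 48) (nat_lit 5) (nat_lit 360) (nat_lit 311) (nat_lit 193))) (XT.nd (nat_lit 94) (nat_lit 0) (nat_lit 0) (XT.lf (nat_lit 0) (nat_lit 5172231984) (nat_lit 336) (nat_lit 1296646756) (nat_lit 420) (nat_lit 14972384009) (nat_lit 43) (nat_lit 5) (nat_lit 47) (nat_lit 5) (nat_lit 48) (nat_lit 5) (nat_lit 361) (nat_lit 311) (nat_lit 192)) (XT.nd (nat_lit 94) (nat_lit 0) (nat_lit 0) (XT.lf (nat_lit 0)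 (nat_lit 9007569913) (nat_lit 420) (nat_lit 8796701703) (nat_lit 84) (nat_lit 4108686177) (nat_lit 43) (nat_lit 5) (nat_lit 48) (nat_lit 5) (nat_lit 44) (nat_lit 5) (nat_lit 362) (nat_lit 311) (nat_lit 191)) (XT.lf (nat_lit 0) (nat_lit 11629451996) (nat_lit 420) (nat_lit 1117572999) (nat_lit 84) (nat_lit 9652135561) (nat_lit 43) (nat_lit 5) (nat_lit 48) (nat_lit 5) (nat_lit 44) (nat_lit 5) (nat_lit 363) (nat_lit 311) (nat_lit 190))))) (XT.nd (nat_lit 282) (nat_lit 588) (nat_lit 0) (XT.nd (nat_lit 94) (nat_lit 0) (nat_lit 0) (XT.lf (nat_lit 0) (nat_lit 6927958929) (nat_lit 252) (nat_lit 7464873243) (nat_lit 336) (nat_lit 8505760295) (nat_lit 40) (nat_lit 5) (nat_lit 43) (nat_lit 5) (nat_lit 44) (nat_lit 5) (nat_lit 364) (nat_lit 311) (nat_lit 189)) (XT.nd (nat_lit 94) (nat_lit 0) (nat_lit 0) (XT.lf (nat_lit 0) (nat_lit 15235475329) (nat_lit 252) (nat_lit 2009705983) (nat_lit 336) (nat_lit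 6168245987) (nat_lit 40) (nat_lit 5) (nat_lit 43) (nat_lit 5) (nat_lit 44) (nat_lit 5) (nat_lit 365) (nat_lit 311) (nat_lit 188)) (XT.lf (nat_lit 0) (nat_lit 20213674141) (nat_lit 336) (nat_lit 190586057) (nat_lit 84) (nat_lit 3539124738) (nat_lit 40) (nat_lit 5) (nat_lit 44) (nat_lit 5) (nat_lit 41) (nat_lit 5) (nat_lit 366) (nat_lit 311) (nat_lit 187)))) (XT.nd (nat_lit 94) (nat_lit 336) (nat_lit 0) (XT.lf (nat_lit 0) (nat_lit 8177900011) (nat_lit 252) (nat_lit 15190079086) (nat_lit 336) (nat_lit 1118906310) (nat_lit 37) (nat_lit 5) (nat_lit 40) (nat_lit 5) (nat_lit 41) (nat_lit 5) (nat_lit 367) (nat_lit 311) (nat_lit 186)) (XT.nd (nat_lit 94) (nat_lit 252) (nat_lit 0) (XT.lf (nat_lit 0) (nat_lit 1535294529) (nat_lit 336) (nat_lit 8263719976) (nat_lit 84) (nat_lit 15247937862) (nat_lit 36) (nat_lit 5) (nat_lit 40) (nat_lit 5) (nat_lit 37) (nat_lit 5) (nat_lit 368) (nat_lit 311) (nat_lit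 185)) (XT.lf (nat_lit 0) (nat_lit 9241348) (nat_lit 252) (nat_lit 4231760740) (nat_lit 336) (nat_lit 21383277737) (nat_lit 33) (nat_lit 5) (nat_lit 36) (nat_lit 5) (nat_lit 37) (nat_lit 5) (nat_lit 369) (nat_lit 311) (nat_lit 184))))))))
noncomputable def xc85 : XT := (XT.nd (nat_lit 50384) (nat_lit 0) (nat_lit 2940) (XT.nd (nat_lit 49350) (nat_lit 0) (nat_lit 8316) (XT.nd (nat_lit 48880) (nat_lit 0) (nat_lit 9240) (XT.nd (nat_lit 188) (nat_lit 252) (nat_lit 0) (XT.nd (nat_lit 94) (nat_lit 0) (nat_lit 0) (XT.lf (nat_lit 0) (nat_lit 7125160862) (nat_lit 336) (nat_lit 17529389209) (nat_lit 84) (nat_lit 1562041679) (nat_lit 33) (nat_lit 5) (nat_lit 37) (nat_lit 5) (nat_lit 34) (nat_lit 5) (nat_lit 370) (nat_lit 311) (nat_lit 183)) (XT.lf (nat_lit 0) (nat_lit 10134711236) (nat_lit 336) (nat_lit 9246615234) (nat_lit 84) (nat_lit 7444841954) (nat_lit 33) (nat_lit 5) (nat_lit 37) (nat_lit 5) (nat_lit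 34) (nat_lit 5) (nat_lit 371) (nat_lit 311) (nat_lit 182))) (XT.nd (nat_lit 94) (nat_lit 252) (nat_lit 0) (XT.lf (nat_lit 0) (nat_lit 13230478837) (nat_lit 336) (nat_lit 717016550) (nat_lit 84) (nat_lit 13507384019) (nat_lit 33) (nat_lit 5) (nat_lit 37) (nat_lit 5) (nat_lit 34) (nat_lit 5) (nat_lit 372) (nat_lit 311) (nat_lit 181)) (XT.nd (nat_lit 48504) (nat_lit 0) (nat_lit 9240) (XT.lf (nat_lit 0) (nat_lit 8233238735) (nat_lit 252) (nat_lit 8263785257) (nat_lit 336) (nat_lit 11603754812) (nat_lit 30) (nat_lit 5) (nat_lit 33) (nat_lit 5) (nat_lit 34) (nat_lit 5) (nat_lit 373) (nat_lit 311) (nat_lit 180)) (XT.lf (nat_lit 0) (nat_lit 1316788334) (nat_lit 0) (nat_lit 1316788334) (nat_lit 924) (nat_lit 1955400784) (nat_lit 140) (nat_lit 5) (nat_lit 140) (nat_lit 3) (nat_lit 151) (nat_lit 3) (nat_lit 312) (nat_lit 312) (nat_lit 240))))) (XT.nd (nat_lit 188) (nat_lit 0) (nat_lit 0) (XT.nd (nat_lit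 94) (nat_lit 0) (nat_lit 0) (XT.lf (nat_lit 0) (nat_lit 6090374598) (nat_lit 924) (nat_lit 2965965440) (nat_lit 1008) (nat_lit 237829359) (nat_lit 140) (nat_lit 5) (nat_lit 151) (nat_lit 3) (nat_lit 152) (nat_lit 5) (nat_lit 313) (nat_lit 312) (nat_lit 239)) (XT.lf (nat_lit 84) (nat_lit 694345516) (nat_lit 0) (nat_lit 6248955865) (nat_lit 1008) (nat_lit 2470678496) (nat_lit 141) (nat_lit 5) (nat_lit 140) (nat_lit 5) (nat_lit 152) (nat_lit 5) (nat_lit 314) (nat_lit 312) (nat_lit 238))) (XT.nd (nat_lit 94) (nat_lit 0) (nat_lit 0) (XT.lf (nat_lit 84) (nat_lit 4515079027) (nat_lit 0) (nat_lit 3309644012) (nat_lit 1008) (nat_lit 1712837156) (nat_lit 141) (nat_lit 5) (nat_lit 140) (nat_lit 5) (nat_lit 152) (nat_lit 5) (nat_lit 315) (nat_lit 312) (nat_lit 237)) (XT.nd (nat_lit 94) (nat_lit 0) (nat_lit 84) (XT.lf (nat_lit 84) (nat_lit 8438810084) (nat_lit 0) (nat_lit 266623332) (nat_lit 1008) (nat_lit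 960522990) (nat_lit 141) (nat_lit 5) (nat_lit 140) (nat_lit 5) (nat_lit 152) (nat_lit 5) (nat_lit 316) (nat_lit 312) (nat_lit 236)) (XT.lf (nat_lit 84) (nat_lit 2695619406) (nat_lit 0) (nat_lit 6945974044) (nat_lit 1008) (nat_lit 155979194) (nat_lit 142) (nat_lit 5) (nat_lit 141) (nat_lit 5) (nat_lit 153) (nat_lit 5) (nat_lit 317) (nat_lit 312) (nat_lit 235)))))) (XT.nd (nat_lit 470) (nat_lit 0) (nat_lit 168) (XT.nd (nat_lit 188) (nat_lit 0) (nat_lit 84) (XT.nd (nat_lit 94) (nat_lit 0) (nat_lit 0) (XT.lf (nat_lit 0) (nat_lit 648810786) (nat_lit 1008) (nat_lit 3192956588) (nat_lit 1092) (nat_lit 6091745037) (nat_lit 129) (nat_lit 5) (nat_lit 141) (nat_lit 5) (nat_lit 142) (nat_lit 5) (nat_lit 318) (nat_lit 312) (nat_lit 234)) (XT.lf (nat_lit 84) (nat_lit 836422143) (nat_lit 0) (nat_lit 621198181) (nat_lit 1092) (nat_lit 8616647382) (nat_lit 130) (nat_lit 5) (nat_lit 129) (nat_lit 5) (nat_lit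 142) (nat_lit 5) (nat_lit 319) (nat_lit 312) (nat_lit 233))) (XT.nd (nat_lit 94) (nat_lit 0) (nat_lit 0) (XT.lf (nat_lit 0) (nat_lit 2326679609) (nat_lit 1008) (nat_lit 5203940618) (nat_lit 1092) (nat_lit 2687775120) (nat_lit 130) (nat_lit 5) (nat_lit 142) (nat_lit 5) (nat_lit 143) (nat_lit 5) (nat_lit 320) (nat_lit 312) (nat_lit 232)) (XT.nd (nat_lit 94) (nat_lit 0) (nat_lit 0) (XT.lf (nat_lit 0) (nat_lit 3204524284) (nat_lit 1008) (nat_lit 1067701389) (nat_lit 1092) (nat_lit 6095424514) (nat_lit 130) (nat_lit 5) (nat_lit 142) (nat_lit 5) (nat_lit 143) (nat_lit 5) (nat_lit 321) (nat_lit 312) (nat_lit 231)) (XT.lf (nat_lit 84) (nat_lit 3246295515) (nat_lit 0) (nat_lit 871718367) (nat_lit 1092) (nat_lit 6403350183) (nat_lit 131) (nat_lit 5) (nat_lit 130) (nat_lit 5) (nat_lit 143) (nat_lit 5) (nat_lit 322) (nat_lit 312) (nat_lit 230))))) (XT.nd (nat_lit 282) (nat_lit 0) (nat_lit 84) (XT.nd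 (nat_lit 94) (nat_lit 0) (nat_lit 0) (XT.lf (nat_lit 0) (nat_lit 5074073320) (nat_lit 1008) (nat_lit 3005677591) (nat_lit 1092) (nat_lit 2599741070) (nat_lit 131) (nat_lit 5) (nat_lit 143) (nat_lit 5) (nat_lit 144) (nat_lit 5) (nat_lit 323) (nat_lit 312) (nat_lit 229)) (XT.nd (nat_lit 94) (nat_lit 0) (nat_lit 0) (XT.lf (nat_lit 84) (nat_lit 1399244083) (nat_lit 0) (nat_lit 4660879977) (nat_lit 1092) (nat_lit 4782474828) (nat_lit 132) (nat_lit 5) (nat_lit 131) (nat_lit 5) (nat_lit 144) (nat_lit 5) (nat_lit 324) (nat_lit 312) (nat_lit 228)) (XT.lf (nat_lit 84) (nat_lit 5988503653) (nat_lit 0) (nat_lit 1097685735) (nat_lit 1092) (nat_lit 3924365202) (nat_lit 132) (nat_lit 5) (nat_lit 131) (nat_lit 5) (nat_lit 144) (nat_lit 5) (nat_lit 325) (nat_lit 312) (nat_lit 227)))) (XT.nd (nat_lit 94) (nat_lit 0) (nat_lit 0) (XT.lf (nat_lit 0) (nat_lit 8148407495) (nat_lit 1008) (nat_lit 505494646) (nat_lit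 1092) (nat_lit 2529762862) (nat_lit 132) (nat_lit 5) (nat_lit 144) (nat_lit 5) (nat_lit 145) (nat_lit 5) (nat_lit 326) (nat_lit 312) (nat_lit 226)) (XT.nd (nat_lit 94) (nat_lit 0) (nat_lit 0) (XT.lf (nat_lit 84) (nat_lit 4208882393) (nat_lit 0) (nat_lit 5067079897) (nat_lit 1092) (nat_lit 2085255184) (nat_lit 133) (nat_lit 5) (nat_lit 132) (nat_lit 5) (nat_lit 145) (nat_lit 5) (nat_lit 327) (nat_lit 312) (nat_lit 225)) (XT.lf (nat_lit 84) (nat_lit 9064515597) (nat_lit 0) (nat_lit 1359124295) (nat_lit 1092) (nat_lit 1121171822) (nat_lit 133) (nat_lit 5) (nat_lit 132) (nat_lit 5) (nat_lit 145) (nat_lit 5) (nat_lit 328) (nat_lit 312) (nat_lit 224))))))) (XT.nd (nat_lit 1034) (nat_lit 1932) (nat_lit 0) (XT.nd (nat_lit 470) (nat_lit 1596) (nat_lit 0) (XT.nd (nat_lit 188) (nat_lit 1092) (nat_lit 0) (XT.nd (nat_lit 94) (nat_lit 84) (nat_lit 0) (XT.lf (nat_lit 0) (nat_lit 2343491244) (nat_lit 1008)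 (nat_lit 9291633155) (nat_lit 1092) (nat_lit 98173407) (nat_lit 121) (nat_lit 5) (nat_lit 133) (nat_lit 5) (nat_lit 134) (nat_lit 5) (nat_lit 329) (nat_lit 312) (nat_lit 223)) (XT.lf (nat_lit 0) (nat_lit 958023637) (nat_lit 1092) (nat_lit 4597249042) (nat_lit 84) (nat_lit 6371487693) (nat_lit 120) (nat_lit 5) (nat_lit 133) (nat_lit 5) (nat_lit 121) (nat_lit 5) (nat_lit 330) (nat_lit 312) (nat_lit 222))) (XT.nd (nat_lit 94) (nat_lit 0) (nat_lit 0) (XT.lf (nat_lit 0) (nat_lit 333920320) (nat_lit 1092) (nat_lit 1695599077) (nat_lit 1176) (nat_lit 10097216199) (nat_lit 107) (nat_lit 5) (nat_lit 120) (nat_lit 5) (nat_lit 121) (nat_lit 5) (nat_lit 331) (nat_lit 312) (nat_lit 221)) (XT.nd (nat_lit 94) (nat_lit 0) (nat_lit 0) (XT.lf (nat_lit 0) (nat_lit 3187082776) (nat_lit 1176) (nat_lit 6855337276) (nat_lit 84) (nat_lit 2288918455) (nat_lit 107) (nat_lit 5) (nat_lit 121) (nat_lit 5) (nat_lit 108)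 (nat_lit 5) (nat_lit 332) (nat_lit 312) (nat_lit 220)) (XT.lf (nat_lit 0) (nat_lit 4380142044) (nat_lit 1176) (nat_lit 1797837189) (nat_lit 84) (nat_lit 6364381756) (nat_lit 107) (nat_lit 5) (nat_lit 121) (nat_lit 5) (nat_lit 108) (nat_lit 5) (nat_lit 333) (nat_lit 312) (nat_lit 219))))) (XT.nd (nat_lit 282) (nat_lit 504) (nat_lit 0) (XT.nd (nat_lit 94) (nat_lit 588) (nat_lit 0) (XT.lf (nat_lit 0) (nat_lit 3471155708) (nat_lit 504) (nat_lit 2156267291) (nat_lit 588) (nat_lit 7132030714) (nat_lit 101) (nat_lit 5) (nat_lit 107) (nat_lit 5) (nat_lit 108) (nat_lit 5) (nat_lit 334) (nat_lit 312) (nat_lit 218)) (XT.nd (nat_lit 94) (nat_lit 588) (nat_lit 0) (XT.lf (nat_lit 0) (nat_lit 6935257117) (nat_lit 588) (nat_lit 4076699887) (nat_lit 84) (nat_lit 1970701790) (nat_lit 101) (nat_lit 5) (nat_lit 108) (nat_lit 5) (nat_lit 102) (nat_lit 5) (nat_lit 335) (nat_lit 312) (nat_lit 217)) (XT.lf (nat_lit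 0) (nat_lit 1285095498) (nat_lit 588) (nat_lit 7017033534) (nat_lit 672) (nat_lit 4910140019) (nat_lit 94) (nat_lit 5) (nat_lit 101) (nat_lit 5) (nat_lit 102) (nat_lit 5) (nat_lit 336) (nat_lit 312) (nat_lit 216)))) (XT.nd (nat_lit 94) (nat_lit 504) (nat_lit 0) (XT.lf (nat_lit 0) (nat_lit 6884483785) (nat_lit 588) (nat_lit 2853476718) (nat_lit 672) (nat_lit 3710269922) (nat_lit 94) (nat_lit 5) (nat_lit 101) (nat_lit 5) (nat_lit 102) (nat_lit 5) (nat_lit 337) (nat_lit 312) (nat_lit 215)) (XT.nd (nat_lit 94) (nat_lit 504) (nat_lit 0) (XT.lf (nat_lit 0) (nat_lit 11217102343) (nat_lit 672) (nat_lit 1063468834) (nat_lit 84) (nat_lit 1411028293) (nat_lit 94) (nat_lit 5) (nat_lit 102) (nat_lit 5) (nat_lit 95) (nat_lit 5) (nat_lit 338) (nat_lit 312) (nat_lit 214)) (XT.lf (nat_lit 0) (nat_lit 4657283514) (nat_lit 504) (nat_lit 8145187655) (nat_lit 588) (nat_lit 1138224190) (nat_lit 88) (nat_lit 5)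 (nat_lit 94) (nat_lit 5) (nat_lit 95) (nat_lit 5) (nat_lit 339) (nat_lit 312) (nat_lit 213)))))) (XT.nd (nat_lit 470) (nat_lit 924) (nat_lit 0) (XT.nd (nat_lit 188) (nat_lit 420) (nat_lit 0) (XT.nd (nat_lit 94) (nat_lit 504) (nat_lit 0) (XT.lf (nat_lit 0) (nat_lit 230956206) (nat_lit 588) (nat_lit 3636626303) (nat_lit 84) (nat_lit 10330022308) (nat_lit 87) (nat_lit 5) (nat_lit 94) (nat_lit 5) (nat_lit 88) (nat_lit 5) (nat_lit 340) (nat_lit 312) (nat_lit 212)) (XT.lf (nat_lit 0) (nat_lit 1632064580) (nat_lit 588) (nat_lit 12264143317) (nat_lit 84) (nat_lit 565552014) (nat_lit 81) (nat_lit 5) (nat_lit 88) (nat_lit 5) (nat_lit 82) (nat_lit 5) (nat_lit 341) (nat_lit 312) (nat_lit 211))) (XT.nd (nat_lit 94) (nat_lit 420) (nat_lit 0) (XT.lf (nat_lit 0) (nat_lit 3140344374) (nat_lit 588) (nat_lit 6497839782) (nat_lit 84) (nat_lit 5093991585) (nat_lit 81) (nat_lit 5) (nat_lit 88) (nat_lit 5) (nat_lit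 82) (nat_lit 5) (nat_lit 342) (nat_lit 312) (nat_lit 210)) (XT.nd (nat_lit 94) (nat_lit 420) (nat_lit 0) (XT.lf (nat_lit 0) (nat_lit 4681640435) (nat_lit 588) (nat_lit 567120105) (nat_lit 84) (nat_lit 9762686215) (nat_lit 81) (nat_lit 5) (nat_lit 88) (nat_lit 5) (nat_lit 82) (nat_lit 5) (nat_lit 343) (nat_lit 312) (nat_lit 209)) (XT.lf (nat_lit 0) (nat_lit 5647324775) (nat_lit 420) (nat_lit 666086797) (nat_lit 504) (nat_lit 8984685005) (nat_lit 76) (nat_lit 5) (nat_lit 81) (nat_lit 5) (nat_lit 82) (nat_lit 5) (nat_lit 344) (nat_lit 312) (nat_lit 208))))) (XT.nd (nat_lit 282) (nat_lit 504) (nat_lit 0) (XT.nd (nat_lit 94) (nat_lit 420) (nat_lit 0) (XT.lf (nat_lit 0) (nat_lit 8028939938) (nat_lit 504) (nat_lit 3581540669) (nat_lit 84) (nat_lit 3982167189) (nat_lit 76) (nat_lit 5) (nat_lit 82) (nat_lit 5) (nat_lit 77) (nat_lit 5) (nat_lit 345) (nat_lit 312) (nat_lit 207)) (XT.nd (nat_lit 94)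 (nat_lit 0) (nat_lit 0) (XT.lf (nat_lit 0) (nat_lit 2709839715) (nat_lit 420) (nat_lit 7108827307) (nat_lit 504) (nat_lit 6077053830) (nat_lit 71) (nat_lit 5) (nat_lit 76) (nat_lit 5) (nat_lit 77) (nat_lit 5) (nat_lit 346) (nat_lit 312) (nat_lit 206)) (XT.lf (nat_lit 0) (nat_lit 9258537553) (nat_lit 420) (nat_lit 2430290764) (nat_lit 504) (nat_lit 4518628335) (nat_lit 71) (nat_lit 5) (nat_lit 76) (nat_lit 5) (nat_lit 77) (nat_lit 5) (nat_lit 347) (nat_lit 312) (nat_lit 205)))) (XT.nd (nat_lit 94) (nat_lit 504) (nat_lit 0) (XT.lf (nat_lit 0) (nat_lit 13628637118) (nat_lit 504) (nat_lit 555986717) (nat_lit 84) (nat_lit 2343910361) (nat_lit 71) (nat_lit 5) (nat_lit 77) (nat_lit 5) (nat_lit 72) (nat_lit 5) (nat_lit 348) (nat_lit 312) (nat_lit 204)) (XT.nd (nat_lit 94) (nat_lit 84) (nat_lit 0) (XT.lf (nat_lit 0) (nat_lit 6120358087) (nat_lit 420) (nat_lit 9582086529) (nat_lit 504) (nat_lit 1154869309)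 (nat_lit 66) (nat_lit 5) (nat_lit 71) (nat_lit 5) (nat_lit 72) (nat_lit 5) (nat_lit 349) (nat_lit 312) (nat_lit 203)) (XT.lf (nat_lit 0) (nat_lit 625498509) (nat_lit 504) (nat_lit 4200465775) (nat_lit 84) (nat_lit 12370338758) (nat_lit 65) (nat_lit 5) (nat_lit 71) (nat_lit 5) (nat_lit 66) (nat_lit 5) (nat_lit 350) (nat_lit 312) (nat_lit 202))))))))
noncomputable def xc86 : XT := (XT.nd (nat_lit 1974) (nat_lit 0) (nat_lit 0) (XT.nd (nat_lit 940) (nat_lit 1176) (nat_lit 0) (XT.nd (nat_lit 470) (nat_lit 756) (nat_lit 0) (XT.nd (nat_lit 188) (nat_lit 336) (nat_lit 0) (XT.nd (nat_lit 94) (nat_lit 0) (nat_lit 0) (XT.lf (nat_lit 0) (nat_lit 2452365119) (nat_lit 504) (nat_lit 14980594434) (nat_lit 84) (nat_lit 112036119) (nat_lit 60) (nat_lit 5) (nat_lit 66) (nat_lit 5) (nat_lit 61) (nat_lit 5) (nat_lit 351) (nat_lit 312) (nat_lit 201)) (XT.lf (nat_lit 0) (nat_lit 4418421918) (nat_lit 504) (nat_lit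 8338111079) (nat_lit 84) (nat_lit 5145439647) (nat_lit 60) (nat_lit 5) (nat_lit 66) (nat_lit 5) (nat_lit 61) (nat_lit 5) (nat_lit 352) (nat_lit 312) (nat_lit 200))) (XT.nd (nat_lit 94) (nat_lit 336) (nat_lit 0) (XT.lf (nat_lit 0) (nat_lit 6434666430) (nat_lit 504) (nat_lit 1502506656) (nat_lit 84) (nat_lit 10333209501) (nat_lit 60) (nat_lit 5) (nat_lit 66) (nat_lit 5) (nat_lit 61) (nat_lit 5) (nat_lit 353) (nat_lit 312) (nat_lit 199)) (XT.nd (nat_lit 94) (nat_lit 0) (nat_lit 0) (XT.lf (nat_lit 0) (nat_lit 5646351736) (nat_lit 336) (nat_lit 2912638776) (nat_lit 420) (nat_lit 10089841995) (nat_lit 56) (nat_lit 5) (nat_lit 60) (nat_lit 5) (nat_lit 61) (nat_lit 5) (nat_lit 354) (nat_lit 312) (nat_lit 198)) (XT.lf (nat_lit 0) (nat_lit 10777242730) (nat_lit 420) (nat_lit 6025120954) (nat_lit 84) (nat_lit 2235811557) (nat_lit 56) (nat_lit 5) (nat_lit 61) (nat_lit 5) (nat_lit 57) (nat_lit 5) (nat_lit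 355) (nat_lit 312) (nat_lit 197))))) (XT.nd (nat_lit 188) (nat_lit 420) (nat_lit 0) (XT.nd (nat_lit 94) (nat_lit 0) (nat_lit 0) (XT.lf (nat_lit 0) (nat_lit 1149676251) (nat_lit 336) (nat_lit 11945822697) (nat_lit 420) (nat_lit 6343150490) (nat_lit 52) (nat_lit 5) (nat_lit 56) (nat_lit 5) (nat_lit 57) (nat_lit 5) (nat_lit 356) (nat_lit 312) (nat_lit 196)) (XT.lf (nat_lit 0) (nat_lit 8662510696) (nat_lit 336) (nat_lit 6876223349) (nat_lit 420) (nat_lit 4311187103) (nat_lit 52) (nat_lit 5) (nat_lit 56) (nat_lit 5) (nat_lit 57) (nat_lit 5) (nat_lit 357) (nat_lit 312) (nat_lit 195))) (XT.nd (nat_lit 94) (nat_lit 420) (nat_lit 0) (XT.lf (nat_lit 0) (nat_lit 16396496287) (nat_lit 336) (nat_lit 1651730147) (nat_lit 420) (nat_lit 2226038255) (nat_lit 52) (nat_lit 5) (nat_lit 56) (nat_lit 5) (nat_lit 57) (nat_lit 5) (nat_lit 358) (nat_lit 312) (nat_lit 194)) (XT.nd (nat_lit 94) (nat_lit 84) (nat_lit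 0) (XT.lf (nat_lit 0) (nat_lit 3683962829) (nat_lit 336) (nat_lit 17015924888) (nat_lit 420) (nat_lit 9907126) (nat_lit 48) (nat_lit 5) (nat_lit 52) (nat_lit 5) (nat_lit 53) (nat_lit 5) (nat_lit 359) (nat_lit 312) (nat_lit 193)) (XT.lf (nat_lit 0) (nat_lit 2277696642) (nat_lit 420) (nat_lit 9646912896) (nat_lit 84) (nat_lit 9232036422) (nat_lit 47) (nat_lit 5) (nat_lit 52) (nat_lit 5) (nat_lit 48) (nat_lit 5) (nat_lit 360) (nat_lit 312) (nat_lit 192)))))) (XT.nd (nat_lit 470) (nat_lit 588) (nat_lit 0) (XT.nd (nat_lit 188) (nat_lit 252) (nat_lit 0) (XT.nd (nat_lit 94) (nat_lit 336) (nat_lit 0) (XT.lf (nat_lit 0) (nat_lit 4627110227) (nat_lit 420) (nat_lit 2050775171) (nat_lit 84) (nat_lit 14939761991) (nat_lit 47) (nat_lit 5) (nat_lit 52) (nat_lit 5) (nat_lit 48) (nat_lit 5) (nat_lit 361) (nat_lit 312) (nat_lit 191)) (XT.lf (nat_lit 0) (nat_lit 5888397932) (nat_lit 336) (nat_lit 1210738837)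 (nat_lit 420) (nat_lit 14992284285) (nat_lit 43) (nat_lit 5) (nat_lit 47) (nat_lit 5) (nat_lit 48) (nat_lit 5) (nat_lit 362) (nat_lit 312) (nat_lit 190))) (XT.nd (nat_lit 94) (nat_lit 252) (nat_lit 0) (XT.lf (nat_lit 0) (nat_lit 9704819861) (nat_lit 420) (nat_lit 8517414364) (nat_lit 84) (nat_lit 4355903417) (nat_lit 43) (nat_lit 5) (nat_lit 48) (nat_lit 5) (nat_lit 44) (nat_lit 5) (nat_lit 363) (nat_lit 312) (nat_lit 189)) (XT.nd (nat_lit 94) (nat_lit 252) (nat_lit 0) (XT.lf (nat_lit 0) (nat_lit 12395411449) (nat_lit 420) (nat_lit 616829699) (nat_lit 84) (nat_lit 10067596156) (nat_lit 43) (nat_lit 5) (nat_lit 48) (nat_lit 5) (nat_lit 44) (nat_lit 5) (nat_lit 364) (nat_lit 312) (nat_lit 188)) (XT.lf (nat_lit 0) (nat_lit 7672693395) (nat_lit 252) (nat_lit 7564829440) (nat_lit 336) (nat_lit 8357477637) (nat_lit 40) (nat_lit 5) (nat_lit 43) (nat_lit 5) (nat_lit 44) (nat_lit 5) (nat_lit 365)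 (nat_lit 312) (nat_lit 187))))) (XT.nd (nat_lit 282) (nat_lit 336) (nat_lit 0) (XT.nd (nat_lit 94) (nat_lit 252) (nat_lit 0) (XT.lf (nat_lit 0) (nat_lit 16221807789) (nat_lit 252) (nat_lit 1944504567) (nat_lit 336) (nat_lit 5959887193) (nat_lit 40) (nat_lit 5) (nat_lit 43) (nat_lit 5) (nat_lit 44) (nat_lit 5) (nat_lit 366) (nat_lit 312) (nat_lit 186)) (XT.nd (nat_lit 94) (nat_lit 0) (nat_lit 0) (XT.lf (nat_lit 0) (nat_lit 319953960) (nat_lit 252) (nat_lit 20899653136) (nat_lit 336) (nat_lit 3453234557) (nat_lit 37) (nat_lit 5) (nat_lit 40) (nat_lit 5) (nat_lit 41) (nat_lit 5) (nat_lit 367) (nat_lit 312) (nat_lit 185)) (XT.lf (nat_lit 0) (nat_lit 8936253428) (nat_lit 252) (nat_lit 15525966567) (nat_lit 336) (nat_lit 771295345) (nat_lit 37) (nat_lit 5) (nat_lit 40) (nat_lit 5) (nat_lit 41) (nat_lit 5) (nat_lit 368) (nat_lit 312) (nat_lit 184)))) (XT.nd (nat_lit 94) (nat_lit 252) (nat_lit 0)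 (XT.lf (nat_lit 0) (nat_lit 1946220014) (nat_lit 336) (nat_lit 8021825851) (nat_lit 84) (nat_lit 15843159231) (nat_lit 36) (nat_lit 5) (nat_lit 40) (nat_lit 5) (nat_lit 37) (nat_lit 5) (nat_lit 369) (nat_lit 312) (nat_lit 183)) (XT.nd (nat_lit 94) (nat_lit 0) (nat_lit 0) (XT.lf (nat_lit 0) (nat_lit 502554768) (nat_lit 252) (nat_lit 4227216018) (nat_lit 336) (nat_lit 21676874214) (nat_lit 33) (nat_lit 5) (nat_lit 36) (nat_lit 5) (nat_lit 37) (nat_lit 5) (nat_lit 370) (nat_lit 312) (nat_lit 182)) (XT.lf (nat_lit 0) (nat_lit 7693901261) (nat_lit 336) (nat_lit 17584276523) (nat_lit 84) (nat_lit 1739460763) (nat_lit 33) (nat_lit 5) (nat_lit 37) (nat_lit 5) (nat_lit 34) (nat_lit 5) (nat_lit 371) (nat_lit 312) (nat_lit 181))))))) (XT.nd (nat_lit 49538) (nat_lit 0) (nat_lit 6216) (XT.nd (nat_lit 48974) (nat_lit 0) (nat_lit 7980) (XT.nd (nat_lit 48692) (nat_lit 0) (nat_lit 8988) (XT.nd (nat_lit 94)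 (nat_lit 0) (nat_lit 0) (XT.lf (nat_lit 0) (nat_lit 10786288267) (nat_lit 336) (nat_lit 9059425437) (nat_lit 84) (nat_lit 7800749215) (nat_lit 33) (nat_lit 5) (nat_lit 37) (nat_lit 5) (nat_lit 34) (nat_lit 5) (nat_lit 372) (nat_lit 312) (nat_lit 180)) (XT.lf (nat_lit 0) (nat_lit 13967879726) (nat_lit 336) (nat_lit 279656410) (nat_lit 84) (nat_lit 14047468075) (nat_lit 33) (nat_lit 5) (nat_lit 37) (nat_lit 5) (nat_lit 34) (nat_lit 5) (nat_lit 373) (nat_lit 312) (nat_lit 179))) (XT.nd (nat_lit 94) (nat_lit 0) (nat_lit 0) (XT.lf (nat_lit 0) (nat_lit 1723528718) (nat_lit 0) (nat_lit 1723528718) (nat_lit 924) (nat_lit 1258466767) (nat_lit 140) (nat_lit 5) (nat_lit 140) (nat_lit 3) (nat_lit 151) (nat_lit 3) (nat_lit 313) (nat_lit 313) (nat_lit 238)) (XT.nd (nat_lit 94) (nat_lit 0) (nat_lit 0) (XT.lf (nat_lit 0) (nat_lit 7236772692) (nat_lit 0) (nat_lit 459591077) (nat_lit 924) (nat_lit 1836124916)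 (nat_lit 140) (nat_lit 5) (nat_lit 140) (nat_lit 3) (nat_lit 151) (nat_lit 3) (nat_lit 314) (nat_lit 313) (nat_lit 237)) (XT.lf (nat_lit 84) (nat_lit 1474861111) (nat_lit 0) (nat_lit 7061365493) (nat_lit 1008) (nat_lit 1121187743) (nat_lit 141) (nat_lit 5) (nat_lit 140) (nat_lit 5) (nat_lit 152) (nat_lit 5) (nat_lit 315) (nat_lit 313) (nat_lit 236))))) (XT.nd (nat_lit 282) (nat_lit 0) (nat_lit 84) (XT.nd (nat_lit 94) (nat_lit 1008) (nat_lit 0) (XT.lf (nat_lit 84) (nat_lit 5391216103) (nat_lit 0) (nat_lit 4012332207) (nat_lit 1008) (nat_lit 382732600) (nat_lit 141) (nat_lit 5) (nat_lit 140) (nat_lit 5) (nat_lit 152) (nat_lit 5) (nat_lit 316) (nat_lit 313) (nat_lit 235)) (XT.nd (nat_lit 94) (nat_lit 0) (nat_lit 84) (XT.lf (nat_lit 0) (nat_lit 344235137) (nat_lit 1008) (nat_lit 509106219) (nat_lit 1092) (nat_lit 9066619505) (nat_lit 128) (nat_lit 5) (nat_lit 140) (nat_lit 5) (nat_lit 141) (nat_lit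 5) (nat_lit 317) (nat_lit 313) (nat_lit 234)) (XT.lf (nat_lit 0) (nat_lit 1119415449) (nat_lit 1008) (nat_lit 6531632109) (nat_lit 1092) (nat_lit 2405676046) (nat_lit 129) (nat_lit 5) (nat_lit 141) (nat_lit 5) (nat_lit 142) (nat_lit 5) (nat_lit 318) (nat_lit 313) (nat_lit 233)))) (XT.nd (nat_lit 94) (nat_lit 0) (nat_lit 0) (XT.lf (nat_lit 0) (nat_lit 1907517465) (nat_lit 1008) (nat_lit 2526772016) (nat_lit 1092) (nat_lit 5763880297) (nat_lit 129) (nat_lit 5) (nat_lit 141) (nat_lit 5) (nat_lit 142) (nat_lit 5) (nat_lit 319) (nat_lit 313) (nat_lit 232)) (XT.nd (nat_lit 94) (nat_lit 0) (nat_lit 84) (XT.lf (nat_lit 84) (nat_lit 1619770835) (nat_lit 0) (nat_lit 1091901058) (nat_lit 1092) (nat_lit 7632685052) (nat_lit 130) (nat_lit 5) (nat_lit 129) (nat_lit 5) (nat_lit 142) (nat_lit 5) (nat_lit 320) (nat_lit 313) (nat_lit 231)) (XT.lf (nat_lit 0) (nat_lit 3566980238) (nat_lit 1008) (nat_lit 4585329642)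 (nat_lit 1092) (nat_lit 2342046578) (nat_lit 130) (nat_lit 5) (nat_lit 142) (nat_lit 5) (nat_lit 143) (nat_lit 5) (nat_lit 321) (nat_lit 313) (nat_lit 230)))))) (XT.nd (nat_lit 470) (nat_lit 1932) (nat_lit 0) (XT.nd (nat_lit 188) (nat_lit 0) (nat_lit 84) (XT.nd (nat_lit 94) (nat_lit 0) (nat_lit 0) (XT.lf (nat_lit 0) (nat_lit 4436913577) (nat_lit 1008) (nat_lit 344317944) (nat_lit 1092) (nat_lit 5868233721) (nat_lit 130) (nat_lit 5) (nat_lit 142) (nat_lit 5) (nat_lit 143) (nat_lit 5) (nat_lit 322) (nat_lit 313) (nat_lit 229)) (XT.lf (nat_lit 84) (nat_lit 4095754161) (nat_lit 0) (nat_lit 1256327214) (nat_lit 1092) (nat_lit 5456822745) (nat_lit 131) (nat_lit 5) (nat_lit 130) (nat_lit 5) (nat_lit 143) (nat_lit 5) (nat_lit 323) (nat_lit 313) (nat_lit 228))) (XT.nd (nat_lit 94) (nat_lit 0) (nat_lit 0) (XT.lf (nat_lit 0) (nat_lit 6301070631) (nat_lit 1008) (nat_lit 2331644082) (nat_lit 1092) (nat_lit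 2340487238) (nat_lit 131) (nat_lit 5) (nat_lit 143) (nat_lit 5) (nat_lit 144) (nat_lit 5) (nat_lit 324) (nat_lit 313) (nat_lit 227)) (XT.nd (nat_lit 94) (nat_lit 0) (nat_lit 0) (XT.lf (nat_lit 84) (nat_lit 2202062857) (nat_lit 0) (nat_lit 5090996189) (nat_lit 1092) (nat_lit 3849195744) (nat_lit 132) (nat_lit 5) (nat_lit 131) (nat_lit 5) (nat_lit 144) (nat_lit 5) (nat_lit 325) (nat_lit 313) (nat_lit 226)) (XT.lf (nat_lit 84) (nat_lit 6910754645) (nat_lit 0) (nat_lit 1408754664) (nat_lit 1092) (nat_lit 2997004225) (nat_lit 132) (nat_lit 5) (nat_lit 131) (nat_lit 5) (nat_lit 144) (nat_lit 5) (nat_lit 326) (nat_lit 313) (nat_lit 225))))) (XT.nd (nat_lit 282) (nat_lit 2100) (nat_lit 0) (XT.nd (nat_lit 94) (nat_lit 0) (nat_lit 0) (XT.lf (nat_lit 84) (nat_lit 234999319) (nat_lit 0) (nat_lit 9148844174) (nat_lit 1092) (nat_lit 2112220692) (nat_lit 133) (nat_lit 5) (nat_lit 132) (nat_lit 5) (nat_lit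 145) (nat_lit 5) (nat_lit 327) (nat_lit 313) (nat_lit 224)) (XT.nd (nat_lit 94) (nat_lit 0) (nat_lit 0) (XT.lf (nat_lit 84) (nat_lit 5083179785) (nat_lit 0) (nat_lit 5438738591) (nat_lit 1092) (nat_lit 1158074921) (nat_lit 133) (nat_lit 5) (nat_lit 132) (nat_lit 5) (nat_lit 145) (nat_lit 5) (nat_lit 328) (nat_lit 313) (nat_lit 223)) (XT.lf (nat_lit 84) (nat_lit 10066972455) (nat_lit 0) (nat_lit 1609384419) (nat_lit 1092) (nat_lit 193927010) (nat_lit 133) (nat_lit 5) (nat_lit 132) (nat_lit 5) (nat_lit 145) (nat_lit 5) (nat_lit 329) (nat_lit 313) (nat_lit 222)))) (XT.nd (nat_lit 94) (nat_lit 1092) (nat_lit 0) (XT.lf (nat_lit 0) (nat_lit 820574854) (nat_lit 1092) (nat_lit 8909302516) (nat_lit 84) (nat_lit 2335284817) (nat_lit 120) (nat_lit 5) (nat_lit 133) (nat_lit 5) (nat_lit 121) (nat_lit 5) (nat_lit 330) (nat_lit 313) (nat_lit 221)) (XT.nd (nat_lit 94) (nat_lit 1092) (nat_lit 0) (XT.lf (nat_lit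 0) (nat_lit 1879819697) (nat_lit 1092) (nat_lit 3992349633) (nat_lit 84) (nat_lit 6393380770) (nat_lit 120) (nat_lit 5) (nat_lit 133) (nat_lit 5) (nat_lit 121) (nat_lit 5) (nat_lit 331) (nat_lit 313) (nat_lit 220)) (XT.lf (nat_lit 0) (nat_lit 1084119083) (nat_lit 1092) (nat_lit 1880928630) (nat_lit 1176) (nat_lit 9507379617) (nat_lit 107) (nat_lit 5) (nat_lit 120) (nat_lit 5) (nat_lit 121) (nat_lit 5) (nat_lit 332) (nat_lit 313) (nat_lit 219))))))))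
noncomputable def xc87 : XT := (XT.nd (nat_lit 1974) (nat_lit 2268) (nat_lit 0) (XT.nd (nat_lit 940) (nat_lit 1764) (nat_lit 0) (XT.nd (nat_lit 470) (nat_lit 1092) (nat_lit 0) (XT.nd (nat_lit 188) (nat_lit 1092) (nat_lit 0) (XT.nd (nat_lit 94) (nat_lit 0) (nat_lit 0) (XT.lf (nat_lit 0) (nat_lit 4130980460) (nat_lit 1176) (nat_lit 6319645790) (nat_lit 84) (nat_lit 2233695448) (nat_lit 107) (nat_lit 5) (nat_lit 121) (nat_lit 5) (nat_lit 108) (nat_lit 5) (nat_lit 333) (nat_lit 313) (nat_lit 218)) (XT.lf (nat_lit 0) (nat_lit 5335614244) (nat_lit 1176) (nat_lit 1127860208) (nat_lit 84) (nat_lit 6439292063) (nat_lit 107) (nat_lit 5) (nat_lit 121) (nat_lit 5) (nat_lit 108) (nat_lit 5) (nat_lit 334) (nat_lit 313) (nat_lit 217))) (XT.nd (nat_lit 94) (nat_lit 588) (nat_lit 0) (XT.lf (nat_lit 0) (nat_lit 4297124307) (nat_lit 504) (nat_lit 2306916562) (nat_lit 588) (nat_lit 6523181489) (nat_lit 101)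 (nat_lit 5) (nat_lit 107) (nat_lit 5) (nat_lit 108) (nat_lit 5) (nat_lit 335) (nat_lit 313) (nat_lit 216)) (XT.nd (nat_lit 94) (nat_lit 588) (nat_lit 0) (XT.lf (nat_lit 0) (nat_lit 7927491990) (nat_lit 588) (nat_lit 3478568807) (nat_lit 84) (nat_lit 1952146114) (nat_lit 101) (nat_lit 5) (nat_lit 108) (nat_lit 5) (nat_lit 102) (nat_lit 5) (nat_lit 336) (nat_lit 313) (nat_lit 215)) (XT.lf (nat_lit 0) (nat_lit 2042107234) (nat_lit 588) (nat_lit 7278374125) (nat_lit 672) (nat_lit 4275042436) (nat_lit 94) (nat_lit 5) (nat_lit 101) (nat_lit 5) (nat_lit 102) (nat_lit 5) (nat_lit 337) (nat_lit 313) (nat_lit 214))))) (XT.nd (nat_lit 188) (nat_lit 1092) (nat_lit 0) (XT.nd (nat_lit 94) (nat_lit 0) (nat_lit 0) (XT.lf (nat_lit 0) (nat_lit 7793512651) (nat_lit 588) (nat_lit 2984429696) (nat_lit 672) (nat_lit 3061649179) (nat_lit 94) (nat_lit 5) (nat_lit 101) (nat_lit 5) (nat_lit 102) (nat_lit 5) (nat_lit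 338) (nat_lit 313) (nat_lit 213)) (XT.lf (nat_lit 0) (nat_lit 12280335438) (nat_lit 672) (nat_lit 396566854) (nat_lit 84) (nat_lit 1414383151) (nat_lit 94) (nat_lit 5) (nat_lit 102) (nat_lit 5) (nat_lit 95) (nat_lit 5) (nat_lit 339) (nat_lit 313) (nat_lit 212))) (XT.nd (nat_lit 94) (nat_lit 588) (nat_lit 0) (XT.lf (nat_lit 0) (nat_lit 5494443266) (nat_lit 504) (nat_lit 8405766266) (nat_lit 588) (nat_lit 448425014) (nat_lit 88) (nat_lit 5) (nat_lit 94) (nat_lit 5) (nat_lit 95) (nat_lit 5) (nat_lit 340) (nat_lit 313) (nat_lit 211)) (XT.nd (nat_lit 94) (nat_lit 504) (nat_lit 0) (XT.lf (nat_lit 0) (nat_lit 927228649) (nat_lit 588) (nat_lit 3060890906) (nat_lit 84) (nat_lit 10625900683) (nat_lit 87) (nat_lit 5) (nat_lit 94) (nat_lit 5) (nat_lit 88) (nat_lit 5) (nat_lit 341) (nat_lit 313) (nat_lit 210)) (XT.lf (nat_lit 0) (nat_lit 2357874750) (nat_lit 588) (nat_lit 11939687076) (nat_lit 84) (nat_lit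 589303704) (nat_lit 81) (nat_lit 5) (nat_lit 88) (nat_lit 5) (nat_lit 82) (nat_lit 5) (nat_lit 342) (nat_lit 313) (nat_lit 209)))))) (XT.nd (nat_lit 470) (nat_lit 924) (nat_lit 0) (XT.nd (nat_lit 188) (nat_lit 420) (nat_lit 0) (XT.nd (nat_lit 94) (nat_lit 420) (nat_lit 0) (XT.lf (nat_lit 0) (nat_lit 3892608889) (nat_lit 588) (nat_lit 6015815314) (nat_lit 84) (nat_lit 5257937891) (nat_lit 81) (nat_lit 5) (nat_lit 88) (nat_lit 5) (nat_lit 82) (nat_lit 5) (nat_lit 343) (nat_lit 313) (nat_lit 208)) (XT.lf (nat_lit 0) (nat_lit 79814631) (nat_lit 420) (nat_lit 5382970386) (nat_lit 504) (nat_lit 9992157808) (nat_lit 76) (nat_lit 5) (nat_lit 81) (nat_lit 5) (nat_lit 82) (nat_lit 5) (nat_lit 344) (nat_lit 313) (nat_lit 207))) (XT.nd (nat_lit 94) (nat_lit 420) (nat_lit 0) (XT.lf (nat_lit 0) (nat_lit 6478587874) (nat_lit 420) (nat_lit 653171173) (nat_lit 504) (nat_lit 8619199002) (nat_lit 76) (nat_lit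 5) (nat_lit 81) (nat_lit 5) (nat_lit 82) (nat_lit 5) (nat_lit 345) (nat_lit 313) (nat_lit 206)) (XT.nd (nat_lit 94) (nat_lit 420) (nat_lit 0) (XT.lf (nat_lit 0) (nat_lit 8882070518) (nat_lit 504) (nat_lit 3035689098) (nat_lit 84) (nat_lit 4137513566) (nat_lit 76) (nat_lit 5) (nat_lit 82) (nat_lit 5) (nat_lit 77) (nat_lit 5) (nat_lit 346) (nat_lit 313) (nat_lit 205)) (XT.lf (nat_lit 0) (nat_lit 3444073763) (nat_lit 420) (nat_lit 7271487702) (nat_lit 504) (nat_lit 5652603886) (nat_lit 71) (nat_lit 5) (nat_lit 76) (nat_lit 5) (nat_lit 77) (nat_lit 5) (nat_lit 347) (nat_lit 313) (nat_lit 204))))) (XT.nd (nat_lit 282) (nat_lit 504) (nat_lit 0) (XT.nd (nat_lit 94) (nat_lit 420) (nat_lit 0) (XT.lf (nat_lit 0) (nat_lit 10176230217) (nat_lit 420) (nat_lit 2449651843) (nat_lit 504) (nat_lit 4064293967) (nat_lit 71) (nat_lit 5) (nat_lit 76) (nat_lit 5) (nat_lit 77) (nat_lit 5) (nat_lit 348) (nat_lit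 313) (nat_lit 203)) (XT.nd (nat_lit 94) (nat_lit 0) (nat_lit 0) (XT.lf (nat_lit 0) (nat_lit 58246550) (nat_lit 420) (nat_lit 14551414785) (nat_lit 504) (nat_lit 2412103722) (nat_lit 66) (nat_lit 5) (nat_lit 71) (nat_lit 5) (nat_lit 72) (nat_lit 5) (nat_lit 349) (nat_lit 313) (nat_lit 202)) (XT.lf (nat_lit 0) (nat_lit 6934003332) (nat_lit 420) (nat_lit 9802588385) (nat_lit 504) (nat_lit 624546658) (nat_lit 66) (nat_lit 5) (nat_lit 71) (nat_lit 5) (nat_lit 72) (nat_lit 5) (nat_lit 350) (nat_lit 313) (nat_lit 201)))) (XT.nd (nat_lit 94) (nat_lit 420) (nat_lit 0) (XT.lf (nat_lit 0) (nat_lit 1182927247) (nat_lit 504) (nat_lit 3712784569) (nat_lit 84) (nat_lit 12815319319) (nat_lit 65) (nat_lit 5) (nat_lit 71) (nat_lit 5) (nat_lit 66) (nat_lit 5) (nat_lit 351) (nat_lit 313) (nat_lit 200)) (XT.nd (nat_lit 94) (nat_lit 0) (nat_lit 0) (XT.lf (nat_lit 0) (nat_lit 3057147019) (nat_lit 504) (nat_lit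 14816189856) (nat_lit 84) (nat_lit 197534488) (nat_lit 60) (nat_lit 5) (nat_lit 66) (nat_lit 5) (nat_lit 61) (nat_lit 5) (nat_lit 352) (nat_lit 313) (nat_lit 199)) (XT.lf (nat_lit 0) (nat_lit 5068252922) (nat_lit 504) (nat_lit 7986696300) (nat_lit 84) (nat_lit 5384507199) (nat_lit 60) (nat_lit 5) (nat_lit 66) (nat_lit 5) (nat_lit 61) (nat_lit 5) (nat_lit 353) (nat_lit 313) (nat_lit 198))))))) (XT.nd (nat_lit 1034) (nat_lit 840) (nat_lit 0) (XT.nd (nat_lit 470) (nat_lit 756) (nat_lit 0) (XT.nd (nat_lit 188) (nat_lit 336) (nat_lit 0) (XT.nd (nat_lit 94) (nat_lit 336) (nat_lit 0) (XT.lf (nat_lit 0) (nat_lit 7131580395) (nat_lit 504) (nat_lit 957526436) (nat_lit 84) (nat_lit 10730705749) (nat_lit 60) (nat_lit 5) (nat_lit 66) (nat_lit 5) (nat_lit 61) (nat_lit 5) (nat_lit 354) (nat_lit 313) (nat_lit 197)) (XT.lf (nat_lit 0) (nat_lit 6406957574) (nat_lit 336) (nat_lit 2905652913) (nat_lit 420)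 (nat_lit 9897713591) (nat_lit 56) (nat_lit 5) (nat_lit 60) (nat_lit 5) (nat_lit 61) (nat_lit 5) (nat_lit 355) (nat_lit 313) (nat_lit 196))) (XT.nd (nat_lit 94) (nat_lit 336) (nat_lit 0) (XT.lf (nat_lit 0) (nat_lit 11585882624) (nat_lit 420) (nat_lit 5628751144) (nat_lit 84) (nat_lit 2397573448) (nat_lit 56) (nat_lit 5) (nat_lit 61) (nat_lit 5) (nat_lit 57) (nat_lit 5) (nat_lit 356) (nat_lit 313) (nat_lit 195)) (XT.nd (nat_lit 94) (nat_lit 0) (nat_lit 0) (XT.lf (nat_lit 0) (nat_lit 1762560918) (nat_lit 336) (nat_lit 12204901625) (nat_lit 420) (nat_lit 6057941694) (nat_lit 52) (nat_lit 5) (nat_lit 56) (nat_lit 5) (nat_lit 57) (nat_lit 5) (nat_lit 357) (nat_lit 313) (nat_lit 194)) (XT.lf (nat_lit 0) (nat_lit 9490936699) (nat_lit 336) (nat_lit 6981489496) (nat_lit 420) (nat_lit 3977475551) (nat_lit 52) (nat_lit 5) (nat_lit 56) (nat_lit 5) (nat_lit 57) (nat_lit 5) (nat_lit 358) (nat_lit 313)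 (nat_lit 193))))) (XT.nd (nat_lit 282) (nat_lit 336) (nat_lit 0) (XT.nd (nat_lit 94) (nat_lit 420) (nat_lit 0) (XT.lf (nat_lit 0) (nat_lit 17447841183) (nat_lit 336) (nat_lit 1598281234) (nat_lit 420) (nat_lit 1841739571) (nat_lit 52) (nat_lit 5) (nat_lit 56) (nat_lit 5) (nat_lit 57) (nat_lit 5) (nat_lit 359) (nat_lit 313) (nat_lit 192)) (XT.nd (nat_lit 94) (nat_lit 0) (nat_lit 0) (XT.lf (nat_lit 0) (nat_lit 427350940) (nat_lit 420) (nat_lit 16992019924) (nat_lit 84) (nat_lit 3917636002) (nat_lit 47) (nat_lit 5) (nat_lit 52) (nat_lit 5) (nat_lit 48) (nat_lit 5) (nat_lit 360) (nat_lit 313) (nat_lit 191)) (XT.lf (nat_lit 0) (nat_lit 2772514156) (nat_lit 420) (nat_lit 9401339110) (nat_lit 84) (nat_lit 9624298808) (nat_lit 47) (nat_lit 5) (nat_lit 52) (nat_lit 5) (nat_lit 48) (nat_lit 5) (nat_lit 361) (nat_lit 313) (nat_lit 190)))) (XT.nd (nat_lit 94) (nat_lit 336) (nat_lit 0) (XT.lf (nat_lit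 0) (nat_lit 5182004492) (nat_lit 420) (nat_lit 1586096935) (nat_lit 84) (nat_lit 15505774591) (nat_lit 47) (nat_lit 5) (nat_lit 52) (nat_lit 5) (nat_lit 48) (nat_lit 5) (nat_lit 362) (nat_lit 313) (nat_lit 189)) (XT.nd (nat_lit 94) (nat_lit 0) (nat_lit 0) (XT.lf (nat_lit 0) (nat_lit 6593842454) (nat_lit 336) (nat_lit 1129637126) (nat_lit 420) (nat_lit 15039114780) (nat_lit 43) (nat_lit 5) (nat_lit 47) (nat_lit 5) (nat_lit 48) (nat_lit 5) (nat_lit 363) (nat_lit 313) (nat_lit 188)) (XT.lf (nat_lit 0) (nat_lit 10398924797) (nat_lit 420) (nat_lit 8262164138) (nat_lit 84) (nat_lit 4603685590) (nat_lit 43) (nat_lit 5) (nat_lit 48) (nat_lit 5) (nat_lit 44) (nat_lit 5) (nat_lit 364) (nat_lit 313) (nat_lit 187)))))) (XT.nd (nat_lit 470) (nat_lit 336) (nat_lit 0) (XT.nd (nat_lit 188) (nat_lit 252) (nat_lit 0) (XT.nd (nat_lit 94) (nat_lit 252) (nat_lit 0) (XT.lf (nat_lit 0) (nat_lit 13161100359) (nat_lit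 420) (nat_lit 132275308) (nat_lit 84) (nat_lit 10489050674) (nat_lit 43) (nat_lit 5) (nat_lit 48) (nat_lit 5) (nat_lit 44) (nat_lit 5) (nat_lit 365) (nat_lit 313) (nat_lit 186)) (XT.lf (nat_lit 0) (nat_lit 8409123733) (nat_lit 252) (nat_lit 7675670577) (nat_lit 336) (nat_lit 8228999386) (nat_lit 40) (nat_lit 5) (nat_lit 43) (nat_lit 5) (nat_lit 44) (nat_lit 5) (nat_lit 366) (nat_lit 313) (nat_lit 185))) (XT.nd (nat_lit 94) (nat_lit 252) (nat_lit 0) (XT.lf (nat_lit 0) (nat_lit 17208269517) (nat_lit 252) (nat_lit 1884834086) (nat_lit 336) (nat_lit 5768736753) (nat_lit 40) (nat_lit 5) (nat_lit 43) (nat_lit 5) (nat_lit 44) (nat_lit 5) (nat_lit 367) (nat_lit 313) (nat_lit 184)) (XT.nd (nat_lit 94) (nat_lit 0) (nat_lit 0) (XT.lf (nat_lit 0) (nat_lit 819531617) (nat_lit 252) (nat_lit 21416596727) (nat_lit 336) (nat_lit 3189482636) (nat_lit 37) (nat_lit 5) (nat_lit 40) (nat_lit 5) (nat_lit 41) (nat_lit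 5) (nat_lit 368) (nat_lit 313) (nat_lit 183)) (XT.lf (nat_lit 0) (nat_lit 9688213350) (nat_lit 252) (nat_lit 15880263134) (nat_lit 336) (nat_lit 435552550) (nat_lit 37) (nat_lit 5) (nat_lit 40) (nat_lit 5) (nat_lit 41) (nat_lit 5) (nat_lit 369) (nat_lit 313) (nat_lit 182))))) (XT.nd (nat_lit 282) (nat_lit 0) (nat_lit 0) (XT.nd (nat_lit 94) (nat_lit 252) (nat_lit 0) (XT.lf (nat_lit 0) (nat_lit 2348363451) (nat_lit 336) (nat_lit 7801934513) (nat_lit 84) (nat_lit 16449574488) (nat_lit 36) (nat_lit 5) (nat_lit 40) (nat_lit 5) (nat_lit 37) (nat_lit 5) (nat_lit 370) (nat_lit 313) (nat_lit 181)) (XT.nd (nat_lit 94) (nat_lit 0) (nat_lit 0) (XT.lf (nat_lit 0) (nat_lit 981958075) (nat_lit 252) (nat_lit 4230569888) (nat_lit 336) (nat_lit 22001445571) (nat_lit 33) (nat_lit 5) (nat_lit 36) (nat_lit 5) (nat_lit 37) (nat_lit 5) (nat_lit 371) (nat_lit 313) (nat_lit 180)) (XT.lf (nat_lit 0) (nat_lit 8259668245)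 (nat_lit 336) (nat_lit 17669801443) (nat_lit 84) (nat_lit 1914739198) (nat_lit 33) (nat_lit 5) (nat_lit 37) (nat_lit 5) (nat_lit 34) (nat_lit 5) (nat_lit 372) (nat_lit 313) (nat_lit 179)))) (XT.nd (nat_lit 48692) (nat_lit 0) (nat_lit 8988) (XT.lf (nat_lit 0) (nat_lit 11438079347) (nat_lit 336) (nat_lit 8894498806) (nat_lit 84) (nat_lit 8160278698) (nat_lit 33) (nat_lit 5) (nat_lit 37) (nat_lit 5) (nat_lit 34) (nat_lit 5) (nat_lit 373) (nat_lit 313) (nat_lit 178)) (XT.nd (nat_lit 94) (nat_lit 0) (nat_lit 0) (XT.lf (nat_lit 0) (nat_lit 2121203988) (nat_lit 0) (nat_lit 2121203988) (nat_lit 924) (nat_lit 584798863) (nat_lit 140) (nat_lit 5) (nat_lit 140) (nat_lit 3) (nat_lit 151) (nat_lit 3) (nat_lit 314) (nat_lit 314) (nat_lit 236)) (XT.lf (nat_lit 0) (nat_lit 8128902907) (nat_lit 0) (nat_lit 1141628663) (nat_lit 924) (nat_lit 510541640) (nat_lit 140) (nat_lit 5) (nat_lit 140) (nat_lit 3) (nat_lit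 151) (nat_lit 3) (nat_lit 315) (nat_lit 314) (nat_lit 235))))))))
noncomputable def xc88 : XT := (XT.nd (nat_lit 1974) (nat_lit 3780) (nat_lit 0) (XT.nd (nat_lit 940) (nat_lit 2268) (nat_lit 0) (XT.nd (nat_lit 470) (nat_lit 0) (nat_lit 84) (XT.nd (nat_lit 188) (nat_lit 0) (nat_lit 0) (XT.nd (nat_lit 94) (nat_lit 0) (nat_lit 0) (XT.lf (nat_lit 0) (nat_lit 181927161) (nat_lit 1008) (nat_lit 7678487525) (nat_lit 1092) (nat_lit 2050790252) (nat_lit 128) (nat_lit 5) (nat_lit 140) (nat_lit 5) (nat_lit 141) (nat_lit 5) (nat_lit 316) (nat_lit 314) (nat_lit 234)) (XT.lf (nat_lit 0) (nat_lit 888408249) (nat_lit 1008) (nat_lit 3803578014) (nat_lit 1092) (nat_lit 5353227431) (nat_lit 128) (nat_lit 5) (nat_lit 140) (nat_lit 5) (nat_lit 141) (nat_lit 5) (nat_lit 317) (nat_lit 314) (nat_lit 233))) (XT.nd (nat_lit 94) (nat_lit 0) (nat_lit 84) (XT.lf (nat_lit 84) (nat_lit 180810030) (nat_lit 0) (nat_lit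 1412607127) (nat_lit 1092) (nat_lit 8590783539) (nat_lit 129) (nat_lit 5) (nat_lit 128) (nat_lit 5) (nat_lit 141) (nat_lit 5) (nat_lit 318) (nat_lit 314) (nat_lit 232)) (XT.nd (nat_lit 94) (nat_lit 0) (nat_lit 0) (XT.lf (nat_lit 0) (nat_lit 2355468971) (nat_lit 1008) (nat_lit 5991953415) (nat_lit 1092) (nat_lit 1979079515) (nat_lit 129) (nat_lit 5) (nat_lit 141) (nat_lit 5) (nat_lit 142) (nat_lit 5) (nat_lit 319) (nat_lit 314) (nat_lit 231)) (XT.lf (nat_lit 0) (nat_lit 3131880034) (nat_lit 1008) (nat_lit 1885257827) (nat_lit 1092) (nat_lit 5456457299) (nat_lit 129) (nat_lit 5) (nat_lit 141) (nat_lit 5) (nat_lit 142) (nat_lit 5) (nat_lit 320) (nat_lit 314) (nat_lit 230))))) (XT.nd (nat_lit 188) (nat_lit 0) (nat_lit 84) (XT.nd (nat_lit 94) (nat_lit 0) (nat_lit 84) (XT.lf (nat_lit 84) (nat_lit 2382540077) (nat_lit 0) (nat_lit 1550455820) (nat_lit 1092) (nat_lit 6692323405) (nat_lit 130) (nat_lit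 5) (nat_lit 129) (nat_lit 5) (nat_lit 142) (nat_lit 5) (nat_lit 321) (nat_lit 314) (nat_lit 229)) (XT.lf (nat_lit 0) (nat_lit 4776537267) (nat_lit 1008) (nat_lit 3993738500) (nat_lit 1092) (nat_lit 2011013792) (nat_lit 130) (nat_lit 5) (nat_lit 142) (nat_lit 5) (nat_lit 143) (nat_lit 5) (nat_lit 322) (nat_lit 314) (nat_lit 228))) (XT.nd (nat_lit 94) (nat_lit 0) (nat_lit 0) (XT.lf (nat_lit 84) (nat_lit 364016778) (nat_lit 0) (nat_lit 5279988818) (nat_lit 1092) (nat_lit 5298243541) (nat_lit 131) (nat_lit 5) (nat_lit 130) (nat_lit 5) (nat_lit 143) (nat_lit 5) (nat_lit 323) (nat_lit 314) (nat_lit 227)) (XT.nd (nat_lit 94) (nat_lit 0) (nat_lit 84) (XT.lf (nat_lit 84) (nat_lit 4927191928) (nat_lit 0) (nat_lit 1631678529) (nat_lit 1092) (nat_lit 4548775120) (nat_lit 131) (nat_lit 5) (nat_lit 130) (nat_lit 5) (nat_lit 143) (nat_lit 5) (nat_lit 324) (nat_lit 314) (nat_lit 226)) (XT.lf (nat_lit 0)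 (nat_lit 7502744634) (nat_lit 1008) (nat_lit 1682158667) (nat_lit 1092) (nat_lit 2093326186) (nat_lit 131) (nat_lit 5) (nat_lit 143) (nat_lit 5) (nat_lit 144) (nat_lit 5) (nat_lit 325) (nat_lit 314) (nat_lit 225)))))) (XT.nd (nat_lit 470) (nat_lit 1512) (nat_lit 0) (XT.nd (nat_lit 188) (nat_lit 1008) (nat_lit 0) (XT.nd (nat_lit 94) (nat_lit 0) (nat_lit 0) (XT.lf (nat_lit 84) (nat_lit 2984785951) (nat_lit 0) (nat_lit 5517527713) (nat_lit 1092) (nat_lit 2951046226) (nat_lit 132) (nat_lit 5) (nat_lit 131) (nat_lit 5) (nat_lit 144) (nat_lit 5) (nat_lit 326) (nat_lit 314) (nat_lit 224)) (XT.lf (nat_lit 84) (nat_lit 7817964901) (nat_lit 0) (nat_lit 1713057137) (nat_lit 1092) (nat_lit 2103030089) (nat_lit 132) (nat_lit 5) (nat_lit 131) (nat_lit 5) (nat_lit 144) (nat_lit 5) (nat_lit 327) (nat_lit 314) (nat_lit 223))) (XT.nd (nat_lit 94) (nat_lit 1092) (nat_lit 0) (XT.lf (nat_lit 84) (nat_lit 963741173)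 (nat_lit 0) (nat_lit 9640585615) (nat_lit 1092) (nat_lit 1215698395) (nat_lit 133) (nat_lit 5) (nat_lit 132) (nat_lit 5) (nat_lit 145) (nat_lit 5) (nat_lit 328) (nat_lit 314) (nat_lit 222)) (XT.nd (nat_lit 94) (nat_lit 1092) (nat_lit 0) (XT.lf (nat_lit 84) (nat_lit 5940522543) (nat_lit 0) (nat_lit 5809208810) (nat_lit 1092) (nat_lit 260899454) (nat_lit 133) (nat_lit 5) (nat_lit 132) (nat_lit 5) (nat_lit 145) (nat_lit 5) (nat_lit 329) (nat_lit 314) (nat_lit 221)) (XT.lf (nat_lit 0) (nat_lit 690875597) (nat_lit 1092) (nat_lit 1156987952) (nat_lit 1176) (nat_lit 10359685429) (nat_lit 119) (nat_lit 5) (nat_lit 132) (nat_lit 5) (nat_lit 133) (nat_lit 5) (nat_lit 330) (nat_lit 314) (nat_lit 220))))) (XT.nd (nat_lit 282) (nat_lit 504) (nat_lit 0) (XT.nd (nat_lit 94) (nat_lit 1092) (nat_lit 0) (XT.lf (nat_lit 0) (nat_lit 1711286513) (nat_lit 1092) (nat_lit 8460549933) (nat_lit 84) (nat_lit 2237336220)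 (nat_lit 120) (nat_lit 5) (nat_lit 133) (nat_lit 5) (nat_lit 121) (nat_lit 5) (nat_lit 331) (nat_lit 314) (nat_lit 219)) (XT.nd (nat_lit 94) (nat_lit 1092) (nat_lit 0) (XT.lf (nat_lit 0) (nat_lit 2777350983) (nat_lit 1092) (nat_lit 3412968960) (nat_lit 84) (nat_lit 6426354985) (nat_lit 120) (nat_lit 5) (nat_lit 133) (nat_lit 5) (nat_lit 121) (nat_lit 5) (nat_lit 332) (nat_lit 314) (nat_lit 218)) (XT.lf (nat_lit 0) (nat_lit 1813751589) (nat_lit 1092) (nat_lit 2064139443) (nat_lit 1176) (nat_lit 8952735470) (nat_lit 107) (nat_lit 5) (nat_lit 120) (nat_lit 5) (nat_lit 121) (nat_lit 5) (nat_lit 333) (nat_lit 314) (nat_lit 217)))) (XT.nd (nat_lit 94) (nat_lit 504) (nat_lit 0) (XT.lf (nat_lit 0) (nat_lit 5054082364) (nat_lit 1176) (nat_lit 5811665446) (nat_lit 84) (nat_lit 2184234354) (nat_lit 107) (nat_lit 5) (nat_lit 121) (nat_lit 5) (nat_lit 108) (nat_lit 5) (nat_lit 334) (nat_lit 314) (nat_lit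 216)) (XT.nd (nat_lit 94) (nat_lit 504) (nat_lit 0) (XT.lf (nat_lit 0) (nat_lit 6272154570) (nat_lit 1176) (nat_lit 480098983) (nat_lit 84) (nat_lit 6523773694) (nat_lit 107) (nat_lit 5) (nat_lit 121) (nat_lit 5) (nat_lit 108) (nat_lit 5) (nat_lit 335) (nat_lit 314) (nat_lit 215)) (XT.lf (nat_lit 0) (nat_lit 5106148076) (nat_lit 504) (nat_lit 2457272048) (nat_lit 588) (nat_lit 5944616834) (nat_lit 101) (nat_lit 5) (nat_lit 107) (nat_lit 5) (nat_lit 108) (nat_lit 5) (nat_lit 336) (nat_lit 314) (nat_lit 214))))))) (XT.nd (nat_lit 940) (nat_lit 1680) (nat_lit 0) (XT.nd (nat_lit 470) (nat_lit 924) (nat_lit 0) (XT.nd (nat_lit 188) (nat_lit 588) (nat_lit 0) (XT.nd (nat_lit 94) (nat_lit 588) (nat_lit 0) (XT.lf (nat_lit 0) (nat_lit 8904448776) (nat_lit 588) (nat_lit 2904809559) (nat_lit 84) (nat_lit 1937732867) (nat_lit 101) (nat_lit 5) (nat_lit 108) (nat_lit 5) (nat_lit 102) (nat_lit 5) (nat_lit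 337) (nat_lit 314) (nat_lit 213)) (XT.lf (nat_lit 0) (nat_lit 2780106903) (nat_lit 588) (nat_lit 7545221182) (nat_lit 672) (nat_lit 3666890662) (nat_lit 94) (nat_lit 5) (nat_lit 101) (nat_lit 5) (nat_lit 102) (nat_lit 5) (nat_lit 338) (nat_lit 314) (nat_lit 212))) (XT.nd (nat_lit 94) (nat_lit 588) (nat_lit 0) (XT.lf (nat_lit 0) (nat_lit 8689519250) (nat_lit 588) (nat_lit 3116925153) (nat_lit 672) (nat_lit 2438152845) (nat_lit 94) (nat_lit 5) (nat_lit 101) (nat_lit 5) (nat_lit 102) (nat_lit 5) (nat_lit 339) (nat_lit 314) (nat_lit 211)) (XT.nd (nat_lit 94) (nat_lit 84) (nat_lit 0) (XT.lf (nat_lit 0) (nat_lit 254685970) (nat_lit 504) (nat_lit 13081988840) (nat_lit 588) (nat_lit 1168074748) (nat_lit 88) (nat_lit 5) (nat_lit 94) (nat_lit 5) (nat_lit 95) (nat_lit 5) (nat_lit 340) (nat_lit 314) (nat_lit 210)) (XT.lf (nat_lit 0) (nat_lit 215381281) (nat_lit 588) (nat_lit 8456314933) (nat_lit 84)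 (nat_lit 6098890769) (nat_lit 87) (nat_lit 5) (nat_lit 94) (nat_lit 5) (nat_lit 88) (nat_lit 5) (nat_lit 341) (nat_lit 314) (nat_lit 209))))) (XT.nd (nat_lit 188) (nat_lit 420) (nat_lit 0) (XT.nd (nat_lit 94) (nat_lit 504) (nat_lit 0) (XT.lf (nat_lit 0) (nat_lit 1604268207) (nat_lit 588) (nat_lit 2508087016) (nat_lit 84) (nat_lit 10932393716) (nat_lit 87) (nat_lit 5) (nat_lit 94) (nat_lit 5) (nat_lit 88) (nat_lit 5) (nat_lit 342) (nat_lit 314) (nat_lit 208)) (XT.lf (nat_lit 0) (nat_lit 3066190825) (nat_lit 588) (nat_lit 11646910002) (nat_lit 84) (nat_lit 613423299) (nat_lit 81) (nat_lit 5) (nat_lit 88) (nat_lit 5) (nat_lit 82) (nat_lit 5) (nat_lit 343) (nat_lit 314) (nat_lit 207))) (XT.nd (nat_lit 94) (nat_lit 420) (nat_lit 0) (XT.lf (nat_lit 0) (nat_lit 4629401935) (nat_lit 588) (nat_lit 5559330445) (nat_lit 84) (nat_lit 5426609214) (nat_lit 81) (nat_lit 5) (nat_lit 88) (nat_lit 5) (nat_lit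 82) (nat_lit 5) (nat_lit 344) (nat_lit 314) (nat_lit 206)) (XT.nd (nat_lit 94) (nat_lit 0) (nat_lit 0) (XT.lf (nat_lit 0) (nat_lit 718754483) (nat_lit 420) (nat_lit 5517287361) (nat_lit 504) (nat_lit 9677267525) (nat_lit 76) (nat_lit 5) (nat_lit 81) (nat_lit 5) (nat_lit 82) (nat_lit 5) (nat_lit 345) (nat_lit 314) (nat_lit 205)) (XT.lf (nat_lit 0) (nat_lit 7296752515) (nat_lit 420) (nat_lit 641843236) (nat_lit 504) (nat_lit 8280528822) (nat_lit 76) (nat_lit 5) (nat_lit 81) (nat_lit 5) (nat_lit 82) (nat_lit 5) (nat_lit 346) (nat_lit 314) (nat_lit 204)))))) (XT.nd (nat_lit 470) (nat_lit 840) (nat_lit 0) (XT.nd (nat_lit 188) (nat_lit 420) (nat_lit 0) (XT.nd (nat_lit 94) (nat_lit 420) (nat_lit 0) (XT.lf (nat_lit 0) (nat_lit 9725858365) (nat_lit 504) (nat_lit 2511824217) (nat_lit 84) (nat_lit 4295786236) (nat_lit 76) (nat_lit 5) (nat_lit 82) (nat_lit 5) (nat_lit 77) (nat_lit 5) (nat_lit 347) (nat_lit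 314) (nat_lit 203)) (XT.lf (nat_lit 0) (nat_lit 4162554890) (nat_lit 420) (nat_lit 7442609025) (nat_lit 504) (nat_lit 5251295473) (nat_lit 71) (nat_lit 5) (nat_lit 76) (nat_lit 5) (nat_lit 77) (nat_lit 5) (nat_lit 348) (nat_lit 314) (nat_lit 202))) (XT.nd (nat_lit 94) (nat_lit 420) (nat_lit 0) (XT.lf (nat_lit 0) (nat_lit 11085015215) (nat_lit 420) (nat_lit 2472928784) (nat_lit 504) (nat_lit 3631083266) (nat_lit 71) (nat_lit 5) (nat_lit 76) (nat_lit 5) (nat_lit 77) (nat_lit 5) (nat_lit 349) (nat_lit 314) (nat_lit 201)) (XT.nd (nat_lit 94) (nat_lit 0) (nat_lit 0) (XT.lf (nat_lit 0) (nat_lit 665206552) (nat_lit 420) (nat_lit 14928267299) (nat_lit 504) (nat_lit 1937777483) (nat_lit 66) (nat_lit 5) (nat_lit 71) (nat_lit 5) (nat_lit 72) (nat_lit 5) (nat_lit 350) (nat_lit 314) (nat_lit 200)) (XT.lf (nat_lit 0) (nat_lit 7735916077) (nat_lit 420) (nat_lit 10034459561) (nat_lit 504) (nat_lit 111316474)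 (nat_lit 66) (nat_lit 5) (nat_lit 71) (nat_lit 5) (nat_lit 72) (nat_lit 5) (nat_lit 351) (nat_lit 314) (nat_lit 199))))) (XT.nd (nat_lit 282) (nat_lit 336) (nat_lit 0) (XT.nd (nat_lit 94) (nat_lit 420) (nat_lit 0) (XT.lf (nat_lit 0) (nat_lit 1725767346) (nat_lit 504) (nat_lit 3246584263) (nat_lit 84) (nat_lit 13270451523) (nat_lit 65) (nat_lit 5) (nat_lit 71) (nat_lit 5) (nat_lit 66) (nat_lit 5) (nat_lit 352) (nat_lit 314) (nat_lit 198)) (XT.nd (nat_lit 94) (nat_lit 0) (nat_lit 0) (XT.lf (nat_lit 0) (nat_lit 3649357883) (nat_lit 504) (nat_lit 14683933814) (nat_lit 84) (nat_lit 280824811) (nat_lit 60) (nat_lit 5) (nat_lit 66) (nat_lit 5) (nat_lit 61) (nat_lit 5) (nat_lit 353) (nat_lit 314) (nat_lit 197)) (XT.lf (nat_lit 0) (nat_lit 5707851115) (nat_lit 504) (nat_lit 7660512860) (nat_lit 84) (nat_lit 5626273434) (nat_lit 60) (nat_lit 5) (nat_lit 66) (nat_lit 5) (nat_lit 61) (nat_lit 5) (nat_lit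 354) (nat_lit 314) (nat_lit 196)))) (XT.nd (nat_lit 94) (nat_lit 336) (nat_lit 0) (XT.lf (nat_lit 0) (nat_lit 7820634511) (nat_lit 504) (nat_lit 430690817) (nat_lit 84) (nat_lit 11135953661) (nat_lit 60) (nat_lit 5) (nat_lit 66) (nat_lit 5) (nat_lit 61) (nat_lit 5) (nat_lit 355) (nat_lit 314) (nat_lit 195)) (XT.nd (nat_lit 94) (nat_lit 0) (nat_lit 0) (XT.lf (nat_lit 0) (nat_lit 7156457943) (nat_lit 336) (nat_lit 2904212411) (nat_lit 420) (nat_lit 9729536097) (nat_lit 56) (nat_lit 5) (nat_lit 60) (nat_lit 5) (nat_lit 61) (nat_lit 5) (nat_lit 356) (nat_lit 314) (nat_lit 194)) (XT.lf (nat_lit 0) (nat_lit 12391482219) (nat_lit 420) (nat_lit 5254634758) (nat_lit 84) (nat_lit 2558873884) (nat_lit 56) (nat_lit 5) (nat_lit 61) (nat_lit 5) (nat_lit 57) (nat_lit 5) (nat_lit 357) (nat_lit 314) (nat_lit 193))))))))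
noncomputable def xc89 : XT := (XT.nd (nat_lit 50666) (nat_lit 0) (nat_lit 4620) (XT.nd (nat_lit 940) (nat_lit 588) (nat_lit 0) (XT.nd (nat_lit 470) (nat_lit 588) (nat_lit 0) (XT.nd (nat_lit 188) (nat_lit 420) (nat_lit 0) (XT.nd (nat_lit 94) (nat_lit 0) (nat_lit 0) (XT.lf (nat_lit 0) (nat_lit 2360253819) (nat_lit 336) (nat_lit 12478601028) (nat_lit 420) (nat_lit 5792432016) (nat_lit 52) (nat_lit 5) (nat_lit 56) (nat_lit 5) (nat_lit 57) (nat_lit 5) (nat_lit 358) (nat_lit 314) (nat_lit 192)) (XT.lf (nat_lit 0) (nat_lit 10311880772) (nat_lit 336) (nat_lit 7096409805) (nat_lit 420) (nat_lit 3661101377) (nat_lit 52) (nat_lit 5) (nat_lit 56) (nat_lit 5) (nat_lit 57) (nat_lit 5) (nat_lit 359) (nat_lit 314) (nat_lit 191))) (XT.nd (nat_lit 94) (nat_lit 420) (nat_lit 0) (XT.lf (nat_lit 0) (nat_lit 18499611783) (nat_lit 336) (nat_lit 1549374155) (nat_lit 420) (nat_lit 1472377710) (nat_lit 52) (nat_lit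 5) (nat_lit 56) (nat_lit 5) (nat_lit 57) (nat_lit 5) (nat_lit 360) (nat_lit 314) (nat_lit 190)) (XT.nd (nat_lit 94) (nat_lit 0) (nat_lit 0) (XT.lf (nat_lit 0) (nat_lit 852052667) (nat_lit 420) (nat_lit 16990520276) (nat_lit 84) (nat_lit 4141962697) (nat_lit 47) (nat_lit 5) (nat_lit 52) (nat_lit 5) (nat_lit 48) (nat_lit 5) (nat_lit 361) (nat_lit 314) (nat_lit 189)) (XT.lf (nat_lit 0) (nat_lit 3257544391) (nat_lit 420) (nat_lit 9180411790) (nat_lit 84) (nat_lit 10022438665) (nat_lit 47) (nat_lit 5) (nat_lit 52) (nat_lit 5) (nat_lit 48) (nat_lit 5) (nat_lit 362) (nat_lit 314) (nat_lit 188))))) (XT.nd (nat_lit 188) (nat_lit 252) (nat_lit 0) (XT.nd (nat_lit 94) (nat_lit 336) (nat_lit 0) (XT.lf (nat_lit 0) (nat_lit 5729729364) (nat_lit 420) (nat_lit 1138302961) (nat_lit 84) (nat_lit 16083239824) (nat_lit 47) (nat_lit 5) (nat_lit 52) (nat_lit 5) (nat_lit 48) (nat_lit 5) (nat_lit 363) (nat_lit 314)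 (nat_lit 187)) (XT.lf (nat_lit 0) (nat_lit 7290183246) (nat_lit 336) (nat_lit 1053048194) (nat_lit 420) (nat_lit 15112151748) (nat_lit 43) (nat_lit 5) (nat_lit 47) (nat_lit 5) (nat_lit 48) (nat_lit 5) (nat_lit 364) (nat_lit 314) (nat_lit 186))) (XT.nd (nat_lit 94) (nat_lit 252) (nat_lit 0) (XT.lf (nat_lit 0) (nat_lit 11091253789) (nat_lit 420) (nat_lit 8029759596) (nat_lit 84) (nat_lit 4852470685) (nat_lit 43) (nat_lit 5) (nat_lit 48) (nat_lit 5) (nat_lit 44) (nat_lit 5) (nat_lit 365) (nat_lit 314) (nat_lit 185)) (XT.nd (nat_lit 94) (nat_lit 0) (nat_lit 0) (XT.lf (nat_lit 0) (nat_lit 344405676) (nat_lit 252) (nat_lit 13586943675) (nat_lit 336) (nat_lit 10576103630) (nat_lit 40) (nat_lit 5) (nat_lit 43) (nat_lit 5) (nat_lit 44) (nat_lit 5) (nat_lit 366) (nat_lit 314) (nat_lit 184)) (XT.lf (nat_lit 0) (nat_lit 9138851852) (nat_lit 252) (nat_lit 7797272890) (nat_lit 336) (nat_lit 8119494156)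 (nat_lit 40) (nat_lit 5) (nat_lit 43) (nat_lit 5) (nat_lit 44) (nat_lit 5) (nat_lit 367) (nat_lit 314) (nat_lit 183)))))) (XT.nd (nat_lit 470) (nat_lit 0) (nat_lit 0) (XT.nd (nat_lit 188) (nat_lit 336) (nat_lit 0) (XT.nd (nat_lit 94) (nat_lit 252) (nat_lit 0) (XT.lf (nat_lit 0) (nat_lit 18196667951) (nat_lit 252) (nat_lit 1830418671) (nat_lit 336) (nat_lit 5593926262) (nat_lit 40) (nat_lit 5) (nat_lit 43) (nat_lit 5) (nat_lit 44) (nat_lit 5) (nat_lit 368) (nat_lit 314) (nat_lit 182)) (XT.lf (nat_lit 0) (nat_lit 1305592836) (nat_lit 252) (nat_lit 21957321705) (nat_lit 336) (nat_lit 2939517654) (nat_lit 37) (nat_lit 5) (nat_lit 40) (nat_lit 5) (nat_lit 41) (nat_lit 5) (nat_lit 369) (nat_lit 314) (nat_lit 181))) (XT.nd (nat_lit 94) (nat_lit 336) (nat_lit 0) (XT.lf (nat_lit 0) (nat_lit 10435352754) (nat_lit 252) (nat_lit 16253065821) (nat_lit 336) (nat_lit 110704588) (nat_lit 37) (nat_lit 5)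 (nat_lit 40) (nat_lit 5) (nat_lit 41) (nat_lit 5) (nat_lit 370) (nat_lit 314) (nat_lit 180)) (XT.nd (nat_lit 94) (nat_lit 252) (nat_lit 0) (XT.lf (nat_lit 0) (nat_lit 2742727306) (nat_lit 336) (nat_lit 7602980626) (nat_lit 84) (nat_lit 17067960544) (nat_lit 36) (nat_lit 5) (nat_lit 40) (nat_lit 5) (nat_lit 37) (nat_lit 5) (nat_lit 371) (nat_lit 314) (nat_lit 179)) (XT.lf (nat_lit 0) (nat_lit 1448749789) (nat_lit 252) (nat_lit 4241591016) (nat_lit 336) (nat_lit 22356656434) (nat_lit 33) (nat_lit 5) (nat_lit 36) (nat_lit 5) (nat_lit 37) (nat_lit 5) (nat_lit 372) (nat_lit 314) (nat_lit 178))))) (XT.nd (nat_lit 48974) (nat_lit 0) (nat_lit 7980) (XT.nd (nat_lit 48786) (nat_lit 0) (nat_lit 7896) (XT.lf (nat_lit 0) (nat_lit 8823590069) (nat_lit 336) (nat_lit 17785199799) (nat_lit 84) (nat_lit 2088263190) (nat_lit 33) (nat_lit 5) (nat_lit 37) (nat_lit 5) (nat_lit 34) (nat_lit 5) (nat_lit 373) (nat_lit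 314) (nat_lit 177)) (XT.nd (nat_lit 94) (nat_lit 0) (nat_lit 0) (XT.lf (nat_lit 0) (nat_lit 66178695) (nat_lit 1092) (nat_lit 2443947453) (nat_lit 1092) (nat_lit 2443947453) (nat_lit 127) (nat_lit 3) (nat_lit 140) (nat_lit 3) (nat_lit 140) (nat_lit 5) (nat_lit 315) (nat_lit 315) (nat_lit 234)) (XT.lf (nat_lit 0) (nat_lit 758647343) (nat_lit 1092) (nat_lit 1038688987) (nat_lit 1092) (nat_lit 8242568734) (nat_lit 127) (nat_lit 3) (nat_lit 140) (nat_lit 3) (nat_lit 140) (nat_lit 5) (nat_lit 316) (nat_lit 315) (nat_lit 233)))) (XT.nd (nat_lit 94) (nat_lit 0) (nat_lit 0) (XT.lf (nat_lit 0) (nat_lit 1424283977) (nat_lit 1008) (nat_lit 7214465015) (nat_lit 1092) (nat_lit 1536479952) (nat_lit 128) (nat_lit 5) (nat_lit 140) (nat_lit 5) (nat_lit 141) (nat_lit 5) (nat_lit 317) (nat_lit 315) (nat_lit 232)) (XT.nd (nat_lit 94) (nat_lit 0) (nat_lit 0) (XT.lf (nat_lit 0) (nat_lit 2115480499) (nat_lit 1008)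 (nat_lit 3240542643) (nat_lit 1092) (nat_lit 4958668462) (nat_lit 128) (nat_lit 5) (nat_lit 140) (nat_lit 5) (nat_lit 141) (nat_lit 5) (nat_lit 318) (nat_lit 315) (nat_lit 231)) (XT.lf (nat_lit 84) (nat_lit 860467460) (nat_lit 0) (nat_lit 1952496516) (nat_lit 1092) (nat_lit 7646076499) (nat_lit 129) (nat_lit 5) (nat_lit 128) (nat_lit 5) (nat_lit 141) (nat_lit 5) (nat_lit 319) (nat_lit 315) (nat_lit 230))))))) (XT.nd (nat_lit 1034) (nat_lit 2604) (nat_lit 0) (XT.nd (nat_lit 470) (nat_lit 840) (nat_lit 0) (XT.nd (nat_lit 188) (nat_lit 0) (nat_lit 0) (XT.nd (nat_lit 94) (nat_lit 0) (nat_lit 0) (XT.lf (nat_lit 0) (nat_lit 3558682037) (nat_lit 1008) (nat_lit 5479504047) (nat_lit 1092) (nat_lit 1568943796) (nat_lit 129) (nat_lit 5) (nat_lit 141) (nat_lit 5) (nat_lit 142) (nat_lit 5) (nat_lit 320) (nat_lit 315) (nat_lit 229)) (XT.lf (nat_lit 0) (nat_lit 4325179302) (nat_lit 1008) (nat_lit 1266494299)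 (nat_lit 1092) (nat_lit 5168296919) (nat_lit 129) (nat_lit 5) (nat_lit 141) (nat_lit 5) (nat_lit 142) (nat_lit 5) (nat_lit 321) (nat_lit 315) (nat_lit 228))) (XT.nd (nat_lit 94) (nat_lit 0) (nat_lit 84) (XT.lf (nat_lit 84) (nat_lit 3126749233) (nat_lit 0) (nat_lit 1998069727) (nat_lit 1092) (nat_lit 5792524786) (nat_lit 130) (nat_lit 5) (nat_lit 129) (nat_lit 5) (nat_lit 142) (nat_lit 5) (nat_lit 322) (nat_lit 315) (nat_lit 227)) (XT.nd (nat_lit 94) (nat_lit 0) (nat_lit 0) (XT.lf (nat_lit 0) (nat_lit 5958496058) (nat_lit 1008) (nat_lit 3427268494) (nat_lit 1092) (nat_lit 1693627054) (nat_lit 130) (nat_lit 5) (nat_lit 142) (nat_lit 5) (nat_lit 143) (nat_lit 5) (nat_lit 323) (nat_lit 315) (nat_lit 226)) (XT.lf (nat_lit 84) (nat_lit 1058588774) (nat_lit 0) (nat_lit 5769958648) (nat_lit 1092) (nat_lit 4417669372) (nat_lit 131) (nat_lit 5) (nat_lit 130) (nat_lit 5) (nat_lit 143) (nat_lit 5) (nat_lit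 324) (nat_lit 315) (nat_lit 225))))) (XT.nd (nat_lit 282) (nat_lit 924) (nat_lit 0) (XT.nd (nat_lit 94) (nat_lit 0) (nat_lit 84) (XT.lf (nat_lit 84) (nat_lit 5742677338) (nat_lit 0) (nat_lit 1998739881) (nat_lit 1092) (nat_lit 3676382960) (nat_lit 131) (nat_lit 5) (nat_lit 130) (nat_lit 5) (nat_lit 143) (nat_lit 5) (nat_lit 325) (nat_lit 315) (nat_lit 224)) (XT.nd (nat_lit 94) (nat_lit 0) (nat_lit 0) (XT.lf (nat_lit 0) (nat_lit 8682063242) (nat_lit 1008) (nat_lit 1055290664) (nat_lit 1092) (nat_lit 1857440476) (nat_lit 131) (nat_lit 5) (nat_lit 143) (nat_lit 5) (nat_lit 144) (nat_lit 5) (nat_lit 326) (nat_lit 315) (nat_lit 223)) (XT.lf (nat_lit 84) (nat_lit 3749454821) (nat_lit 0) (nat_lit 5941365522) (nat_lit 1092) (nat_lit 2085320835) (nat_lit 132) (nat_lit 5) (nat_lit 131) (nat_lit 5) (nat_lit 144) (nat_lit 5) (nat_lit 327) (nat_lit 315) (nat_lit 222)))) (XT.nd (nat_lit 94) (nat_lit 1008)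 (nat_lit 0) (XT.lf (nat_lit 84) (nat_lit 8712252469) (nat_lit 0) (nat_lit 2011355362) (nat_lit 1092) (nat_lit 1239797422) (nat_lit 132) (nat_lit 5) (nat_lit 131) (nat_lit 5) (nat_lit 144) (nat_lit 5) (nat_lit 328) (nat_lit 315) (nat_lit 221)) (XT.nd (nat_lit 94) (nat_lit 1092) (nat_lit 0) (XT.lf (nat_lit 84) (nat_lit 1672340897) (nat_lit 0) (nat_lit 10135243305) (nat_lit 1092) (nat_lit 348364881) (nat_lit 133) (nat_lit 5) (nat_lit 132) (nat_lit 5) (nat_lit 145) (nat_lit 5) (nat_lit 329) (nat_lit 315) (nat_lit 220)) (XT.lf (nat_lit 0) (nat_lit 596554392) (nat_lit 1092) (nat_lit 5576425343) (nat_lit 1176) (nat_lit 6180213499) (nat_lit 119) (nat_lit 5) (nat_lit 132) (nat_lit 5) (nat_lit 133) (nat_lit 5) (nat_lit 330) (nat_lit 315) (nat_lit 219)))))) (XT.nd (nat_lit 470) (nat_lit 1596) (nat_lit 0) (XT.nd (nat_lit 188) (nat_lit 1008) (nat_lit 0) (XT.nd (nat_lit 94) (nat_lit 0) (nat_lit 84) (XT.lf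 (nat_lit 0) (nat_lit 1546552910) (nat_lit 1092) (nat_lit 534088438) (nat_lit 1176) (nat_lit 10476389321) (nat_lit 119) (nat_lit 5) (nat_lit 132) (nat_lit 5) (nat_lit 133) (nat_lit 5) (nat_lit 331) (nat_lit 315) (nat_lit 218)) (XT.lf (nat_lit 0) (nat_lit 2578358582) (nat_lit 1092) (nat_lit 8040825516) (nat_lit 84) (nat_lit 2146440889) (nat_lit 120) (nat_lit 5) (nat_lit 133) (nat_lit 5) (nat_lit 121) (nat_lit 5) (nat_lit 332) (nat_lit 315) (nat_lit 217))) (XT.nd (nat_lit 94) (nat_lit 1092) (nat_lit 0) (XT.lf (nat_lit 0) (nat_lit 3652995118) (nat_lit 1092) (nat_lit 2857275881) (nat_lit 84) (nat_lit 6470137700) (nat_lit 120) (nat_lit 5) (nat_lit 133) (nat_lit 5) (nat_lit 121) (nat_lit 5) (nat_lit 333) (nat_lit 315) (nat_lit 216)) (XT.nd (nat_lit 94) (nat_lit 0) (nat_lit 0) (XT.lf (nat_lit 0) (nat_lit 2524775962) (nat_lit 1092) (nat_lit 2245631630) (nat_lit 1176) (nat_lit 8431207166) (nat_lit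 107) (nat_lit 5) (nat_lit 120) (nat_lit 5) (nat_lit 121) (nat_lit 5) (nat_lit 334) (nat_lit 315) (nat_lit 215)) (XT.lf (nat_lit 0) (nat_lit 5958708757) (nat_lit 1176) (nat_lit 5329630283) (nat_lit 84) (nat_lit 2140271106) (nat_lit 107) (nat_lit 5) (nat_lit 121) (nat_lit 5) (nat_lit 108) (nat_lit 5) (nat_lit 335) (nat_lit 315) (nat_lit 214))))) (XT.nd (nat_lit 282) (nat_lit 1092) (nat_lit 0) (XT.nd (nat_lit 94) (nat_lit 0) (nat_lit 0) (XT.lf (nat_lit 0) (nat_lit 150332745) (nat_lit 504) (nat_lit 7043210498) (nat_lit 588) (nat_lit 6468852556) (nat_lit 101) (nat_lit 5) (nat_lit 107) (nat_lit 5) (nat_lit 108) (nat_lit 5) (nat_lit 336) (nat_lit 315) (nat_lit 213)) (XT.nd (nat_lit 94) (nat_lit 0) (nat_lit 0) (XT.lf (nat_lit 0) (nat_lit 5900222026) (nat_lit 504) (nat_lit 2607618661) (nat_lit 588) (nat_lit 5394363805) (nat_lit 101) (nat_lit 5) (nat_lit 107) (nat_lit 5) (nat_lit 108) (nat_lit 5)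 (nat_lit 337) (nat_lit 315) (nat_lit 212)) (XT.lf (nat_lit 0) (nat_lit 9868380725) (nat_lit 588) (nat_lit 2353635806) (nat_lit 84) (nat_lit 1927311028) (nat_lit 101) (nat_lit 5) (nat_lit 108) (nat_lit 5) (nat_lit 102) (nat_lit 5) (nat_lit 338) (nat_lit 315) (nat_lit 211)))) (XT.nd (nat_lit 94) (nat_lit 504) (nat_lit 0) (XT.lf (nat_lit 0) (nat_lit 3501021261) (nat_lit 588) (nat_lit 7817899117) (nat_lit 672) (nat_lit 3083757814) (nat_lit 94) (nat_lit 5) (nat_lit 101) (nat_lit 5) (nat_lit 102) (nat_lit 5) (nat_lit 339) (nat_lit 315) (nat_lit 210)) (XT.nd (nat_lit 94) (nat_lit 504) (nat_lit 0) (XT.lf (nat_lit 0) (nat_lit 9574540364) (nat_lit 588) (nat_lit 3251159996) (nat_lit 672) (nat_lit 1837880628) (nat_lit 94) (nat_lit 5) (nat_lit 101) (nat_lit 5) (nat_lit 102) (nat_lit 5) (nat_lit 340) (nat_lit 315) (nat_lit 209)) (XT.lf (nat_lit 0) (nat_lit 894733692) (nat_lit 504) (nat_lit 13494901331)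 (nat_lit 588) (nat_lit 542659311) (nat_lit 88) (nat_lit 5) (nat_lit 94) (nat_lit 5) (nat_lit 95) (nat_lit 5) (nat_lit 341) (nat_lit 315) (nat_lit 208))))))))
noncomputable def xc90 : XT := (XT.nd (nat_lit 1974) (nat_lit 1176) (nat_lit 0) (XT.nd (nat_lit 940) (nat_lit 1596) (nat_lit 0) (XT.nd (nat_lit 470) (nat_lit 840) (nat_lit 0) (XT.nd (nat_lit 188) (nat_lit 924) (nat_lit 0) (XT.nd (nat_lit 94) (nat_lit 0) (nat_lit 0) (XT.lf (nat_lit 0) (nat_lit 850860690) (nat_lit 588) (nat_lit 8090243908) (nat_lit 84) (nat_lit 6265735347) (nat_lit 87) (nat_lit 5) (nat_lit 94) (nat_lit 5) (nat_lit 88) (nat_lit 5) (nat_lit 342) (nat_lit 315) (nat_lit 207)) (XT.lf (nat_lit 0) (nat_lit 2263896340) (nat_lit 588) (nat_lit 1976510083) (nat_lit 84) (nat_lit 11249745025) (nat_lit 87) (nat_lit 5) (nat_lit 94) (nat_lit 5) (nat_lit 88) (nat_lit 5) (nat_lit 343) (nat_lit 315) (nat_lit 206))) (XT.nd (nat_lit 94) (nat_lit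 420) (nat_lit 0) (XT.lf (nat_lit 0) (nat_lit 3758839414) (nat_lit 588) (nat_lit 11384321978) (nat_lit 84) (nat_lit 637944027) (nat_lit 81) (nat_lit 5) (nat_lit 88) (nat_lit 5) (nat_lit 82) (nat_lit 5) (nat_lit 344) (nat_lit 315) (nat_lit 205)) (XT.nd (nat_lit 94) (nat_lit 420) (nat_lit 0) (XT.lf (nat_lit 0) (nat_lit 5352541595) (nat_lit 588) (nat_lit 5126779063) (nat_lit 84) (nat_lit 5600173193) (nat_lit 81) (nat_lit 5) (nat_lit 88) (nat_lit 5) (nat_lit 82) (nat_lit 5) (nat_lit 345) (nat_lit 315) (nat_lit 204)) (XT.lf (nat_lit 0) (nat_lit 1339802522) (nat_lit 420) (nat_lit 5657696458) (nat_lit 504) (nat_lit 9389614565) (nat_lit 76) (nat_lit 5) (nat_lit 81) (nat_lit 5) (nat_lit 82) (nat_lit 5) (nat_lit 346) (nat_lit 315) (nat_lit 203))))) (XT.nd (nat_lit 188) (nat_lit 840) (nat_lit 0) (XT.nd (nat_lit 94) (nat_lit 0) (nat_lit 0) (XT.lf (nat_lit 0) (nat_lit 8103714841) (nat_lit 420) (nat_lit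 632034448) (nat_lit 504) (nat_lit 7967246309) (nat_lit 76) (nat_lit 5) (nat_lit 81) (nat_lit 5) (nat_lit 82) (nat_lit 5) (nat_lit 347) (nat_lit 315) (nat_lit 202)) (XT.lf (nat_lit 0) (nat_lit 10562133744) (nat_lit 504) (nat_lit 2008323019) (nat_lit 84) (nat_lit 4457187830) (nat_lit 76) (nat_lit 5) (nat_lit 82) (nat_lit 5) (nat_lit 77) (nat_lit 5) (nat_lit 348) (nat_lit 315) (nat_lit 201))) (XT.nd (nat_lit 94) (nat_lit 420) (nat_lit 0) (XT.lf (nat_lit 0) (nat_lit 4867076013) (nat_lit 420) (nat_lit 7622251082) (nat_lit 504) (nat_lit 4871695900) (nat_lit 71) (nat_lit 5) (nat_lit 76) (nat_lit 5) (nat_lit 77) (nat_lit 5) (nat_lit 349) (nat_lit 315) (nat_lit 200)) (XT.nd (nat_lit 94) (nat_lit 420) (nat_lit 0) (XT.lf (nat_lit 0) (nat_lit 11986829079) (nat_lit 420) (nat_lit 2500046587) (nat_lit 504) (nat_lit 3217565632) (nat_lit 71) (nat_lit 5) (nat_lit 76) (nat_lit 5) (nat_lit 77) (nat_lit 5) (nat_lit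 350) (nat_lit 315) (nat_lit 199)) (XT.lf (nat_lit 0) (nat_lit 1255137985) (nat_lit 420) (nat_lit 15321199682) (nat_lit 504) (nat_lit 1481271350) (nat_lit 66) (nat_lit 5) (nat_lit 71) (nat_lit 5) (nat_lit 72) (nat_lit 5) (nat_lit 351) (nat_lit 315) (nat_lit 198)))))) (XT.nd (nat_lit 470) (nat_lit 756) (nat_lit 0) (XT.nd (nat_lit 188) (nat_lit 756) (nat_lit 0) (XT.nd (nat_lit 94) (nat_lit 0) (nat_lit 0) (XT.lf (nat_lit 0) (nat_lit 378494927) (nat_lit 504) (nat_lit 9895338325) (nat_lit 84) (nat_lit 8145475912) (nat_lit 65) (nat_lit 5) (nat_lit 71) (nat_lit 5) (nat_lit 66) (nat_lit 5) (nat_lit 352) (nat_lit 315) (nat_lit 197)) (XT.lf (nat_lit 0) (nat_lit 2255454212) (nat_lit 504) (nat_lit 2800362941) (nat_lit 84) (nat_lit 13736265837) (nat_lit 65) (nat_lit 5) (nat_lit 71) (nat_lit 5) (nat_lit 66) (nat_lit 5) (nat_lit 353) (nat_lit 315) (nat_lit 196))) (XT.nd (nat_lit 94) (nat_lit 336) (nat_lit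 0) (XT.lf (nat_lit 0) (nat_lit 4230463101) (nat_lit 504) (nat_lit 14582616825) (nat_lit 84) (nat_lit 362126414) (nat_lit 60) (nat_lit 5) (nat_lit 66) (nat_lit 5) (nat_lit 61) (nat_lit 5) (nat_lit 354) (nat_lit 315) (nat_lit 195)) (XT.nd (nat_lit 94) (nat_lit 336) (nat_lit 0) (XT.lf (nat_lit 0) (nat_lit 6338698596) (nat_lit 504) (nat_lit 7358203174) (nat_lit 84) (nat_lit 5871101135) (nat_lit 60) (nat_lit 5) (nat_lit 66) (nat_lit 5) (nat_lit 61) (nat_lit 5) (nat_lit 355) (nat_lit 315) (nat_lit 194)) (XT.lf (nat_lit 0) (nat_lit 81148088) (nat_lit 336) (nat_lit 8422987248) (nat_lit 420) (nat_lit 11469121183) (nat_lit 56) (nat_lit 5) (nat_lit 60) (nat_lit 5) (nat_lit 61) (nat_lit 5) (nat_lit 356) (nat_lit 315) (nat_lit 193))))) (XT.nd (nat_lit 282) (nat_lit 420) (nat_lit 0) (XT.nd (nat_lit 94) (nat_lit 336) (nat_lit 0) (XT.lf (nat_lit 0) (nat_lit 7896562980) (nat_lit 336) (nat_lit 2908147888)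 (nat_lit 420) (nat_lit 9584280557) (nat_lit 56) (nat_lit 5) (nat_lit 60) (nat_lit 5) (nat_lit 61) (nat_lit 5) (nat_lit 357) (nat_lit 315) (nat_lit 192)) (XT.nd (nat_lit 94) (nat_lit 336) (nat_lit 0) (XT.lf (nat_lit 0) (nat_lit 13195612161) (nat_lit 420) (nat_lit 4901415736) (nat_lit 84) (nat_lit 2720022915) (nat_lit 56) (nat_lit 5) (nat_lit 61) (nat_lit 5) (nat_lit 57) (nat_lit 5) (nat_lit 358) (nat_lit 315) (nat_lit 191)) (XT.lf (nat_lit 0) (nat_lit 2944309210) (nat_lit 336) (nat_lit 12766983862) (nat_lit 420) (nat_lit 5545541622) (nat_lit 52) (nat_lit 5) (nat_lit 56) (nat_lit 5) (nat_lit 57) (nat_lit 5) (nat_lit 359) (nat_lit 315) (nat_lit 190)))) (XT.nd (nat_lit 94) (nat_lit 420) (nat_lit 0) (XT.lf (nat_lit 0) (nat_lit 11127075286) (nat_lit 336) (nat_lit 7220905010) (nat_lit 420) (nat_lit 3360962360) (nat_lit 52) (nat_lit 5) (nat_lit 56) (nat_lit 5) (nat_lit 57) (nat_lit 5) (nat_lit 360)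 (nat_lit 315) (nat_lit 189)) (XT.nd (nat_lit 94) (nat_lit 420) (nat_lit 0) (XT.lf (nat_lit 0) (nat_lit 19553726528) (nat_lit 336) (nat_lit 1504782543) (nat_lit 420) (nat_lit 1116825339) (nat_lit 52) (nat_lit 5) (nat_lit 56) (nat_lit 5) (nat_lit 57) (nat_lit 5) (nat_lit 361) (nat_lit 315) (nat_lit 188)) (XT.lf (nat_lit 0) (nat_lit 1265549033) (nat_lit 420) (nat_lit 17020263425) (nat_lit 84) (nat_lit 4367149761) (nat_lit 47) (nat_lit 5) (nat_lit 52) (nat_lit 5) (nat_lit 48) (nat_lit 5) (nat_lit 362) (nat_lit 315) (nat_lit 187))))))) (XT.nd (nat_lit 49820) (nat_lit 0) (nat_lit 7896) (XT.nd (nat_lit 470) (nat_lit 588) (nat_lit 0) (XT.nd (nat_lit 188) (nat_lit 588) (nat_lit 0) (XT.nd (nat_lit 94) (nat_lit 0) (nat_lit 0) (XT.lf (nat_lit 0) (nat_lit 3733972237) (nat_lit 420) (nat_lit 8982984207) (nat_lit 84) (nat_lit 10427010327) (nat_lit 47) (nat_lit 5) (nat_lit 52) (nat_lit 5) (nat_lit 48) (nat_lit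 5) (nat_lit 363) (nat_lit 315) (nat_lit 186)) (XT.lf (nat_lit 0) (nat_lit 6271506133) (nat_lit 420) (nat_lit 706063341) (nat_lit 84) (nat_lit 16672873666) (nat_lit 47) (nat_lit 5) (nat_lit 52) (nat_lit 5) (nat_lit 48) (nat_lit 5) (nat_lit 364) (nat_lit 315) (nat_lit 185))) (XT.nd (nat_lit 94) (nat_lit 252) (nat_lit 0) (XT.lf (nat_lit 0) (nat_lit 7978972647) (nat_lit 336) (nat_lit 980695718) (nat_lit 420) (nat_lit 15210741326) (nat_lit 43) (nat_lit 5) (nat_lit 47) (nat_lit 5) (nat_lit 48) (nat_lit 5) (nat_lit 365) (nat_lit 315) (nat_lit 184)) (XT.nd (nat_lit 94) (nat_lit 252) (nat_lit 0) (XT.lf (nat_lit 0) (nat_lit 11783131477) (nat_lit 420) (nat_lit 7819087078) (nat_lit 84) (nat_lit 5102685360) (nat_lit 43) (nat_lit 5) (nat_lit 48) (nat_lit 5) (nat_lit 44) (nat_lit 5) (nat_lit 366) (nat_lit 315) (nat_lit 183)) (XT.lf (nat_lit 0) (nat_lit 810024330) (nat_lit 252) (nat_lit 13895293657) (nat_lit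 336) (nat_lit 10550321512) (nat_lit 40) (nat_lit 5) (nat_lit 43) (nat_lit 5) (nat_lit 44) (nat_lit 5) (nat_lit 367) (nat_lit 315) (nat_lit 182))))) (XT.nd (nat_lit 282) (nat_lit 336) (nat_lit 0) (XT.nd (nat_lit 94) (nat_lit 252) (nat_lit 0) (XT.lf (nat_lit 0) (nat_lit 9863419187) (nat_lit 252) (nat_lit 7929536098) (nat_lit 336) (nat_lit 8028190394) (nat_lit 40) (nat_lit 5) (nat_lit 43) (nat_lit 5) (nat_lit 44) (nat_lit 5) (nat_lit 368) (nat_lit 315) (nat_lit 181)) (XT.nd (nat_lit 94) (nat_lit 252) (nat_lit 0) (XT.lf (nat_lit 0) (nat_lit 19188759737) (nat_lit 252) (nat_lit 1781000397) (nat_lit 336) (nat_lit 5434643427) (nat_lit 40) (nat_lit 5) (nat_lit 43) (nat_lit 5) (nat_lit 44) (nat_lit 5) (nat_lit 369) (nat_lit 315) (nat_lit 180)) (XT.lf (nat_lit 0) (nat_lit 1779436524) (nat_lit 252) (nat_lit 22522105884) (nat_lit 336) (nat_lit 2702466085) (nat_lit 37) (nat_lit 5) (nat_lit 40) (nat_lit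 5) (nat_lit 41) (nat_lit 5) (nat_lit 370) (nat_lit 315) (nat_lit 179)))) (XT.nd (nat_lit 94) (nat_lit 252) (nat_lit 0) (XT.lf (nat_lit 0) (nat_lit 200058982) (nat_lit 336) (nat_lit 16442355532) (nat_lit 84) (nat_lit 10977041279) (nat_lit 36) (nat_lit 5) (nat_lit 40) (nat_lit 5) (nat_lit 37) (nat_lit 5) (nat_lit 371) (nat_lit 315) (nat_lit 178)) (XT.nd (nat_lit 94) (nat_lit 252) (nat_lit 0) (XT.lf (nat_lit 0) (nat_lit 3130269620) (nat_lit 336) (nat_lit 7423969327) (nat_lit 84) (nat_lit 17699092933) (nat_lit 36) (nat_lit 5) (nat_lit 40) (nat_lit 5) (nat_lit 37) (nat_lit 5) (nat_lit 372) (nat_lit 315) (nat_lit 177)) (XT.lf (nat_lit 0) (nat_lit 1904166228) (nat_lit 252) (nat_lit 4260069099) (nat_lit 336) (nat_lit 22742237767) (nat_lit 33) (nat_lit 5) (nat_lit 36) (nat_lit 5) (nat_lit 37) (nat_lit 5) (nat_lit 373) (nat_lit 315) (nat_lit 176)))))) (XT.nd (nat_lit 470) (nat_lit 0) (nat_lit 168)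 (XT.nd (nat_lit 188) (nat_lit 0) (nat_lit 84) (XT.nd (nat_lit 94) (nat_lit 0) (nat_lit 0) (XT.lf (nat_lit 0) (nat_lit 686276124) (nat_lit 1092) (nat_lit 2199885889) (nat_lit 1092) (nat_lit 2199885889) (nat_lit 127) (nat_lit 3) (nat_lit 140) (nat_lit 3) (nat_lit 140) (nat_lit 5) (nat_lit 316) (nat_lit 316) (nat_lit 232)) (XT.lf (nat_lit 0) (nat_lit 1981090511) (nat_lit 1092) (nat_lit 450473340) (nat_lit 1092) (nat_lit 7877673358) (nat_lit 127) (nat_lit 3) (nat_lit 140) (nat_lit 3) (nat_lit 140) (nat_lit 5) (nat_lit 317) (nat_lit 316) (nat_lit 231))) (XT.nd (nat_lit 94) (nat_lit 0) (nat_lit 0) (XT.lf (nat_lit 0) (nat_lit 2631900985) (nat_lit 1008) (nat_lit 6777641763) (nat_lit 1092) (nat_lit 1040455138) (nat_lit 128) (nat_lit 5) (nat_lit 140) (nat_lit 5) (nat_lit 141) (nat_lit 5) (nat_lit 318) (nat_lit 316) (nat_lit 230)) (XT.nd (nat_lit 94) (nat_lit 0) (nat_lit 0) (XT.lf (nat_lit 0) (nat_lit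 3309541679) (nat_lit 1008) (nat_lit 2700386791) (nat_lit 1092) (nat_lit 4585078075) (nat_lit 128) (nat_lit 5) (nat_lit 140) (nat_lit 5) (nat_lit 141) (nat_lit 5) (nat_lit 319) (nat_lit 316) (nat_lit 229)) (XT.lf (nat_lit 84) (nat_lit 1521268998) (nat_lit 0) (nat_lit 2479737708) (nat_lit 1092) (nat_lit 6743814408) (nat_lit 129) (nat_lit 5) (nat_lit 128) (nat_lit 5) (nat_lit 141) (nat_lit 5) (nat_lit 320) (nat_lit 316) (nat_lit 228))))) (XT.nd (nat_lit 282) (nat_lit 0) (nat_lit 84) (XT.nd (nat_lit 94) (nat_lit 0) (nat_lit 0) (XT.lf (nat_lit 0) (nat_lit 4732251411) (nat_lit 1008) (nat_lit 4992524326) (nat_lit 1092) (nat_lit 1174020862) (nat_lit 129) (nat_lit 5) (nat_lit 141) (nat_lit 5) (nat_lit 142) (nat_lit 5) (nat_lit 321) (nat_lit 316) (nat_lit 227)) (XT.nd (nat_lit 94) (nat_lit 0) (nat_lit 0) (XT.lf (nat_lit 0) (nat_lit 5490540395) (nat_lit 1008) (nat_lit 668661202) (nat_lit 1092) (nat_lit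 4898290853) (nat_lit 129) (nat_lit 5) (nat_lit 141) (nat_lit 5) (nat_lit 142) (nat_lit 5) (nat_lit 322) (nat_lit 316) (nat_lit 226)) (XT.lf (nat_lit 84) (nat_lit 3854322870) (nat_lit 0) (nat_lit 2435893647) (nat_lit 1092) (nat_lit 4930417352) (nat_lit 130) (nat_lit 5) (nat_lit 129) (nat_lit 5) (nat_lit 142) (nat_lit 5) (nat_lit 323) (nat_lit 316) (nat_lit 225)))) (XT.nd (nat_lit 94) (nat_lit 0) (nat_lit 0) (XT.lf (nat_lit 0) (nat_lit 7115856726) (nat_lit 1008) (nat_lit 2884124141) (nat_lit 1092) (nat_lit 1388893276) (nat_lit 130) (nat_lit 5) (nat_lit 142) (nat_lit 5) (nat_lit 143) (nat_lit 5) (nat_lit 324) (nat_lit 316) (nat_lit 224)) (XT.nd (nat_lit 94) (nat_lit 0) (nat_lit 0) (XT.lf (nat_lit 84) (nat_lit 1734220215) (nat_lit 0) (nat_lit 6255790816) (nat_lit 1092) (nat_lit 3571683865) (nat_lit 131) (nat_lit 5) (nat_lit 130) (nat_lit 5) (nat_lit 143) (nat_lit 5) (nat_lit 325) (nat_lit 316)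 (nat_lit 223)) (XT.lf (nat_lit 84) (nat_lit 6544187425) (nat_lit 0) (nat_lit 2358434523) (nat_lit 1092) (nat_lit 2836972308) (nat_lit 131) (nat_lit 5) (nat_lit 130) (nat_lit 5) (nat_lit 143) (nat_lit 5) (nat_lit 326) (nat_lit 316) (nat_lit 222))))))))
noncomputable def xc91 : XT := (XT.nd (nat_lit 1974) (nat_lit 3024) (nat_lit 0) (XT.nd (nat_lit 940) (nat_lit 2604) (nat_lit 0) (XT.nd (nat_lit 470) (nat_lit 1008) (nat_lit 0) (XT.nd (nat_lit 188) (nat_lit 1008) (nat_lit 0) (XT.nd (nat_lit 94) (nat_lit 0) (nat_lit 0) (XT.lf (nat_lit 0) (nat_lit 9841864079) (nat_lit 1008) (nat_lit 449208968) (nat_lit 1092) (nat_lit 1632057955) (nat_lit 131) (nat_lit 5) (nat_lit 143) (nat_lit 5) (nat_lit 144) (nat_lit 5) (nat_lit 327) (nat_lit 316) (nat_lit 221)) (XT.lf (nat_lit 84) (nat_lit 4498016394) (nat_lit 0) (nat_lit 6363368855) (nat_lit 1092) (nat_lit 1249455015) (nat_lit 132) (nat_lit 5) (nat_lit 131)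 (nat_lit 5) (nat_lit 144) (nat_lit 5) (nat_lit 328) (nat_lit 316) (nat_lit 220))) (XT.nd (nat_lit 94) (nat_lit 1008) (nat_lit 0) (XT.lf (nat_lit 84) (nat_lit 9595647983) (nat_lit 0) (nat_lit 2304377603) (nat_lit 1092) (nat_lit 404796839) (nat_lit 132) (nat_lit 5) (nat_lit 131) (nat_lit 5) (nat_lit 144) (nat_lit 5) (nat_lit 329) (nat_lit 316) (nat_lit 219)) (XT.nd (nat_lit 94) (nat_lit 0) (nat_lit 0) (XT.lf (nat_lit 0) (nat_lit 482332334) (nat_lit 1092) (nat_lit 10146270948) (nat_lit 1176) (nat_lit 1875338349) (nat_lit 119) (nat_lit 5) (nat_lit 132) (nat_lit 5) (nat_lit 133) (nat_lit 5) (nat_lit 330) (nat_lit 316) (nat_lit 218)) (XT.lf (nat_lit 0) (nat_lit 1424223301) (nat_lit 1092) (nat_lit 5110336099) (nat_lit 1176) (nat_lit 6173501032) (nat_lit 119) (nat_lit 5) (nat_lit 132) (nat_lit 5) (nat_lit 133) (nat_lit 5) (nat_lit 331) (nat_lit 316) (nat_lit 217))))) (XT.nd (nat_lit 188) (nat_lit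 1008) (nat_lit 0) (XT.nd (nat_lit 94) (nat_lit 0) (nat_lit 84) (XT.lf (nat_lit 84) (nat_lit 70521973) (nat_lit 0) (nat_lit 2309519175) (nat_lit 1176) (nat_lit 10538998354) (nat_lit 120) (nat_lit 5) (nat_lit 119) (nat_lit 5) (nat_lit 133) (nat_lit 5) (nat_lit 332) (nat_lit 316) (nat_lit 216)) (XT.lf (nat_lit 0) (nat_lit 3424093958) (nat_lit 1092) (nat_lit 7648485755) (nat_lit 84) (nat_lit 2062219849) (nat_lit 120) (nat_lit 5) (nat_lit 133) (nat_lit 5) (nat_lit 121) (nat_lit 5) (nat_lit 333) (nat_lit 316) (nat_lit 215))) (XT.nd (nat_lit 94) (nat_lit 1092) (nat_lit 0) (XT.lf (nat_lit 0) (nat_lit 4509018043) (nat_lit 1092) (nat_lit 2323537804) (nat_lit 84) (nat_lit 6524484318) (nat_lit 120) (nat_lit 5) (nat_lit 133) (nat_lit 5) (nat_lit 121) (nat_lit 5) (nat_lit 334) (nat_lit 316) (nat_lit 214)) (XT.nd (nat_lit 94) (nat_lit 0) (nat_lit 0) (XT.lf (nat_lit 0) (nat_lit 3219057279) (nat_lit 1092)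 (nat_lit 2425790120) (nat_lit 1176) (nat_lit 7940841361) (nat_lit 107) (nat_lit 5) (nat_lit 120) (nat_lit 5) (nat_lit 121) (nat_lit 5) (nat_lit 335) (nat_lit 316) (nat_lit 213)) (XT.lf (nat_lit 0) (nat_lit 6847076219) (nat_lit 1176) (nat_lit 4871875081) (nat_lit 84) (nat_lit 2101559669) (nat_lit 107) (nat_lit 5) (nat_lit 121) (nat_lit 5) (nat_lit 108) (nat_lit 5) (nat_lit 336) (nat_lit 316) (nat_lit 212)))))) (XT.nd (nat_lit 470) (nat_lit 1512) (nat_lit 0) (XT.nd (nat_lit 188) (nat_lit 588) (nat_lit 0) (XT.nd (nat_lit 94) (nat_lit 0) (nat_lit 0) (XT.lf (nat_lit 0) (nat_lit 771659752) (nat_lit 504) (nat_lit 7333491033) (nat_lit 588) (nat_lit 5956936791) (nat_lit 101) (nat_lit 5) (nat_lit 107) (nat_lit 5) (nat_lit 108) (nat_lit 5) (nat_lit 337) (nat_lit 316) (nat_lit 211)) (XT.lf (nat_lit 0) (nat_lit 6681253731) (nat_lit 504) (nat_lit 2758232734) (nat_lit 588) (nat_lit 4870560766) (nat_lit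 101) (nat_lit 5) (nat_lit 107) (nat_lit 5) (nat_lit 108) (nat_lit 5) (nat_lit 338) (nat_lit 316) (nat_lit 210))) (XT.nd (nat_lit 94) (nat_lit 588) (nat_lit 0) (XT.lf (nat_lit 0) (nat_lit 10821449423) (nat_lit 588) (nat_lit 1823356395) (nat_lit 84) (nat_lit 1920741447) (nat_lit 101) (nat_lit 5) (nat_lit 108) (nat_lit 5) (nat_lit 102) (nat_lit 5) (nat_lit 339) (nat_lit 316) (nat_lit 209)) (XT.nd (nat_lit 94) (nat_lit 0) (nat_lit 0) (XT.lf (nat_lit 0) (nat_lit 4206687757) (nat_lit 588) (nat_lit 8096733294) (nat_lit 672) (nat_lit 2523820887) (nat_lit 94) (nat_lit 5) (nat_lit 101) (nat_lit 5) (nat_lit 102) (nat_lit 5) (nat_lit 340) (nat_lit 316) (nat_lit 208)) (XT.lf (nat_lit 0) (nat_lit 10450531364) (nat_lit 588) (nat_lit 3387328405) (nat_lit 672) (nat_lit 1259032019) (nat_lit 94) (nat_lit 5) (nat_lit 101) (nat_lit 5) (nat_lit 102) (nat_lit 5) (nat_lit 341) (nat_lit 316) (nat_lit 207))))) (XT.nd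 (nat_lit 282) (nat_lit 924) (nat_lit 0) (XT.nd (nat_lit 94) (nat_lit 0) (nat_lit 0) (XT.lf (nat_lit 0) (nat_lit 61686379) (nat_lit 588) (nat_lit 13857847263) (nat_lit 84) (nat_lit 1454849162) (nat_lit 87) (nat_lit 5) (nat_lit 94) (nat_lit 5) (nat_lit 88) (nat_lit 5) (nat_lit 342) (nat_lit 316) (nat_lit 206)) (XT.nd (nat_lit 94) (nat_lit 0) (nat_lit 0) (XT.lf (nat_lit 0) (nat_lit 1468794907) (nat_lit 588) (nat_lit 7750035038) (nat_lit 84) (nat_lit 6439068297) (nat_lit 87) (nat_lit 5) (nat_lit 94) (nat_lit 5) (nat_lit 88) (nat_lit 5) (nat_lit 343) (nat_lit 316) (nat_lit 205)) (XT.lf (nat_lit 0) (nat_lit 2907847772) (nat_lit 588) (nat_lit 1464545784) (nat_lit 84) (nat_lit 11578210839) (nat_lit 87) (nat_lit 5) (nat_lit 94) (nat_lit 5) (nat_lit 88) (nat_lit 5) (nat_lit 344) (nat_lit 316) (nat_lit 204)))) (XT.nd (nat_lit 94) (nat_lit 420) (nat_lit 0) (XT.lf (nat_lit 0) (nat_lit 4437563436) (nat_lit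 588) (nat_lit 11150533122) (nat_lit 84) (nat_lit 662898850) (nat_lit 81) (nat_lit 5) (nat_lit 88) (nat_lit 5) (nat_lit 82) (nat_lit 5) (nat_lit 345) (nat_lit 316) (nat_lit 203)) (XT.nd (nat_lit 94) (nat_lit 420) (nat_lit 0) (XT.lf (nat_lit 0) (nat_lit 6063766213) (nat_lit 588) (nat_lit 4716647297) (nat_lit 84) (nat_lit 5778801411) (nat_lit 81) (nat_lit 5) (nat_lit 88) (nat_lit 5) (nat_lit 82) (nat_lit 5) (nat_lit 346) (nat_lit 316) (nat_lit 202)) (XT.lf (nat_lit 0) (nat_lit 1944637077) (nat_lit 420) (nat_lit 5804272315) (nat_lit 504) (nat_lit 9127851775) (nat_lit 76) (nat_lit 5) (nat_lit 81) (nat_lit 5) (nat_lit 82) (nat_lit 5) (nat_lit 347) (nat_lit 316) (nat_lit 201))))))) (XT.nd (nat_lit 1034) (nat_lit 1344) (nat_lit 0) (XT.nd (nat_lit 470) (nat_lit 840) (nat_lit 0) (XT.nd (nat_lit 188) (nat_lit 840) (nat_lit 0) (XT.nd (nat_lit 94) (nat_lit 0) (nat_lit 0) (XT.lf (nat_lit 0) (nat_lit 8901293412)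 (nat_lit 420) (nat_lit 623681121) (nat_lit 504) (nat_lit 7678012864) (nat_lit 76) (nat_lit 5) (nat_lit 81) (nat_lit 5) (nat_lit 82) (nat_lit 5) (nat_lit 348) (nat_lit 316) (nat_lit 200)) (XT.lf (nat_lit 0) (nat_lit 11392658093) (nat_lit 504) (nat_lit 1523648692) (nat_lit 84) (nat_lit 4621920631) (nat_lit 76) (nat_lit 5) (nat_lit 82) (nat_lit 5) (nat_lit 77) (nat_lit 5) (nat_lit 349) (nat_lit 316) (nat_lit 199))) (XT.nd (nat_lit 94) (nat_lit 420) (nat_lit 0) (XT.lf (nat_lit 0) (nat_lit 5559350512) (nat_lit 420) (nat_lit 7810487529) (nat_lit 504) (nat_lit 4512455413) (nat_lit 71) (nat_lit 5) (nat_lit 76) (nat_lit 5) (nat_lit 77) (nat_lit 5) (nat_lit 350) (nat_lit 316) (nat_lit 198)) (XT.nd (nat_lit 94) (nat_lit 420) (nat_lit 0) (XT.lf (nat_lit 0) (nat_lit 12883537311) (nat_lit 420) (nat_lit 2530939557) (nat_lit 504) (nat_lit 2822389642) (nat_lit 71) (nat_lit 5) (nat_lit 76) (nat_lit 5) (nat_lit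 77) (nat_lit 5) (nat_lit 351) (nat_lit 316) (nat_lit 197)) (XT.lf (nat_lit 0) (nat_lit 1829636085) (nat_lit 420) (nat_lit 15730449943) (nat_lit 504) (nat_lit 1041211280) (nat_lit 66) (nat_lit 5) (nat_lit 71) (nat_lit 5) (nat_lit 72) (nat_lit 5) (nat_lit 352) (nat_lit 316) (nat_lit 196))))) (XT.nd (nat_lit 282) (nat_lit 336) (nat_lit 0) (XT.nd (nat_lit 94) (nat_lit 420) (nat_lit 0) (XT.lf (nat_lit 0) (nat_lit 852098374) (nat_lit 504) (nat_lit 9671671472) (nat_lit 84) (nat_lit 8450779378) (nat_lit 65) (nat_lit 5) (nat_lit 71) (nat_lit 5) (nat_lit 66) (nat_lit 5) (nat_lit 353) (nat_lit 316) (nat_lit 195)) (XT.nd (nat_lit 94) (nat_lit 420) (nat_lit 0) (XT.lf (nat_lit 0) (nat_lit 2773355935) (nat_lit 504) (nat_lit 2372700535) (nat_lit 84) (nat_lit 14213296395) (nat_lit 65) (nat_lit 5) (nat_lit 71) (nat_lit 5) (nat_lit 66) (nat_lit 5) (nat_lit 354) (nat_lit 316) (nat_lit 194)) (XT.lf (nat_lit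 0) (nat_lit 4801863613) (nat_lit 504) (nat_lit 14511122578) (nat_lit 84) (nat_lit 441648380) (nat_lit 60) (nat_lit 5) (nat_lit 66) (nat_lit 5) (nat_lit 61) (nat_lit 5) (nat_lit 355) (nat_lit 316) (nat_lit 193)))) (XT.nd (nat_lit 94) (nat_lit 336) (nat_lit 0) (XT.lf (nat_lit 0) (nat_lit 6962216833) (nat_lit 504) (nat_lit 7078494312) (nat_lit 84) (nat_lit 6119347799) (nat_lit 60) (nat_lit 5) (nat_lit 66) (nat_lit 5) (nat_lit 61) (nat_lit 5) (nat_lit 356) (nat_lit 316) (nat_lit 192)) (XT.nd (nat_lit 94) (nat_lit 0) (nat_lit 0) (XT.lf (nat_lit 0) (nat_lit 586335687) (nat_lit 336) (nat_lit 8600593443) (nat_lit 420) (nat_lit 11391229255) (nat_lit 56) (nat_lit 5) (nat_lit 60) (nat_lit 5) (nat_lit 61) (nat_lit 5) (nat_lit 357) (nat_lit 316) (nat_lit 191)) (XT.lf (nat_lit 0) (nat_lit 8628914151) (nat_lit 336) (nat_lit 2917304925) (nat_lit 420) (nat_lit 9460991038) (nat_lit 56) (nat_lit 5) (nat_lit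 60) (nat_lit 5) (nat_lit 61) (nat_lit 5) (nat_lit 358) (nat_lit 316) (nat_lit 190)))))) (XT.nd (nat_lit 470) (nat_lit 588) (nat_lit 0) (XT.nd (nat_lit 188) (nat_lit 420) (nat_lit 0) (XT.nd (nat_lit 94) (nat_lit 336) (nat_lit 0) (XT.lf (nat_lit 0) (nat_lit 13999793167) (nat_lit 420) (nat_lit 4567817162) (nat_lit 84) (nat_lit 2881320995) (nat_lit 56) (nat_lit 5) (nat_lit 61) (nat_lit 5) (nat_lit 57) (nat_lit 5) (nat_lit 359) (nat_lit 316) (nat_lit 189)) (XT.lf (nat_lit 0) (nat_lit 3516209575) (nat_lit 336) (nat_lit 13070138151) (nat_lit 420) (nat_lit 5316257331) (nat_lit 52) (nat_lit 5) (nat_lit 56) (nat_lit 5) (nat_lit 57) (nat_lit 5) (nat_lit 360) (nat_lit 316) (nat_lit 188))) (XT.nd (nat_lit 94) (nat_lit 420) (nat_lit 0) (XT.lf (nat_lit 0) (nat_lit 11938189964) (nat_lit 336) (nat_lit 7354915810) (nat_lit 420) (nat_lit 3076019235) (nat_lit 52) (nat_lit 5) (nat_lit 56) (nat_lit 5) (nat_lit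 57) (nat_lit 5) (nat_lit 361) (nat_lit 316) (nat_lit 187)) (XT.nd (nat_lit 94) (nat_lit 420) (nat_lit 0) (XT.lf (nat_lit 0) (nat_lit 20612050483) (nat_lit 336) (nat_lit 1464294763) (nat_lit 420) (nat_lit 774014374) (nat_lit 52) (nat_lit 5) (nat_lit 56) (nat_lit 5) (nat_lit 57) (nat_lit 5) (nat_lit 362) (nat_lit 316) (nat_lit 186)) (XT.lf (nat_lit 0) (nat_lit 1668936212) (nat_lit 420) (nat_lit 17080364579) (nat_lit 84) (nat_lit 4593584811) (nat_lit 47) (nat_lit 5) (nat_lit 52) (nat_lit 5) (nat_lit 48) (nat_lit 5) (nat_lit 363) (nat_lit 316) (nat_lit 185))))) (XT.nd (nat_lit 282) (nat_lit 252) (nat_lit 0) (XT.nd (nat_lit 94) (nat_lit 336) (nat_lit 0) (XT.lf (nat_lit 0) (nat_lit 4202931157) (nat_lit 420) (nat_lit 8807987259) (nat_lit 84) (nat_lit 10838563270) (nat_lit 47) (nat_lit 5) (nat_lit 52) (nat_lit 5) (nat_lit 48) (nat_lit 5) (nat_lit 364) (nat_lit 316) (nat_lit 184)) (XT.nd (nat_lit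 94) (nat_lit 336) (nat_lit 0) (XT.lf (nat_lit 0) (nat_lit 6808508449) (nat_lit 420) (nat_lit 288116718) (nat_lit 84) (nat_lit 17275392908) (nat_lit 47) (nat_lit 5) (nat_lit 52) (nat_lit 5) (nat_lit 48) (nat_lit 5) (nat_lit 365) (nat_lit 316) (nat_lit 183)) (XT.lf (nat_lit 0) (nat_lit 8661702455) (nat_lit 336) (nat_lit 912319466) (nat_lit 420) (nat_lit 15334296229) (nat_lit 43) (nat_lit 5) (nat_lit 47) (nat_lit 5) (nat_lit 48) (nat_lit 5) (nat_lit 366) (nat_lit 316) (nat_lit 182)))) (XT.nd (nat_lit 94) (nat_lit 252) (nat_lit 0) (XT.lf (nat_lit 0) (nat_lit 12475841846) (nat_lit 420) (nat_lit 7629106314) (nat_lit 84) (nat_lit 5354746071) (nat_lit 43) (nat_lit 5) (nat_lit 48) (nat_lit 5) (nat_lit 44) (nat_lit 5) (nat_lit 367) (nat_lit 316) (nat_lit 181)) (XT.nd (nat_lit 94) (nat_lit 0) (nat_lit 0) (XT.lf (nat_lit 0) (nat_lit 1263130164) (nat_lit 252) (nat_lit 14219886508) (nat_lit 336) (nat_lit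 10544686930) (nat_lit 40) (nat_lit 5) (nat_lit 43) (nat_lit 5) (nat_lit 44) (nat_lit 5) (nat_lit 368) (nat_lit 316) (nat_lit 180)) (XT.lf (nat_lit 0) (nat_lit 10584311350) (nat_lit 252) (nat_lit 8072382509) (nat_lit 336) (nat_lit 7954373172) (nat_lit 40) (nat_lit 5) (nat_lit 43) (nat_lit 5) (nat_lit 44) (nat_lit 5) (nat_lit 369) (nat_lit 316) (nat_lit 179))))))))
noncomputable def xc92 : XT := (XT.nd (nat_lit 50854) (nat_lit 0) (nat_lit 2436) (XT.nd (nat_lit 49820) (nat_lit 0) (nat_lit 6888) (XT.nd (nat_lit 49350) (nat_lit 0) (nat_lit 7644) (XT.nd (nat_lit 188) (nat_lit 84) (nat_lit 0) (XT.nd (nat_lit 94) (nat_lit 252) (nat_lit 0) (XT.lf (nat_lit 0) (nat_lit 20186255488) (nat_lit 252) (nat_lit 1736338269) (nat_lit 336) (nat_lit 5290128892) (nat_lit 40) (nat_lit 5) (nat_lit 43) (nat_lit 5) (nat_lit 44) (nat_lit 5) (nat_lit 370) (nat_lit 316) (nat_lit 178)) (XT.lf (nat_lit 0) (nat_lit 2242300101)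 (nat_lit 252) (nat_lit 23111262901) (nat_lit 336) (nat_lit 2477504381) (nat_lit 37) (nat_lit 5) (nat_lit 40) (nat_lit 5) (nat_lit 41) (nat_lit 5) (nat_lit 371) (nat_lit 316) (nat_lit 177))) (XT.nd (nat_lit 94) (nat_lit 0) (nat_lit 0) (XT.lf (nat_lit 0) (nat_lit 499682505) (nat_lit 336) (nat_lit 16549834123) (nat_lit 84) (nat_lit 11416287476) (nat_lit 36) (nat_lit 5) (nat_lit 40) (nat_lit 5) (nat_lit 37) (nat_lit 5) (nat_lit 372) (nat_lit 316) (nat_lit 176)) (XT.nd (nat_lit 48974) (nat_lit 0) (nat_lit 7644) (XT.lf (nat_lit 0) (nat_lit 3511907100) (nat_lit 336) (nat_lit 7263972289) (nat_lit 84) (nat_lit 18343747275) (nat_lit 36) (nat_lit 5) (nat_lit 40) (nat_lit 5) (nat_lit 37) (nat_lit 5) (nat_lit 373) (nat_lit 316) (nat_lit 175)) (XT.lf (nat_lit 0) (nat_lit 1288988657) (nat_lit 1092) (nat_lit 1967202135) (nat_lit 1092) (nat_lit 1967202135) (nat_lit 127) (nat_lit 3) (nat_lit 140) (nat_lit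 3) (nat_lit 140) (nat_lit 5) (nat_lit 317) (nat_lit 317) (nat_lit 230))))) (XT.nd (nat_lit 188) (nat_lit 0) (nat_lit 84) (XT.nd (nat_lit 94) (nat_lit 0) (nat_lit 84) (XT.lf (nat_lit 84) (nat_lit 121680336) (nat_lit 0) (nat_lit 3049941777) (nat_lit 1092) (nat_lit 7417741216) (nat_lit 128) (nat_lit 5) (nat_lit 127) (nat_lit 3) (nat_lit 140) (nat_lit 5) (nat_lit 318) (nat_lit 317) (nat_lit 229)) (XT.lf (nat_lit 0) (nat_lit 3808040143) (nat_lit 1008) (nat_lit 6366397858) (nat_lit 1092) (nat_lit 561255212) (nat_lit 128) (nat_lit 5) (nat_lit 140) (nat_lit 5) (nat_lit 141) (nat_lit 5) (nat_lit 319) (nat_lit 317) (nat_lit 228))) (XT.nd (nat_lit 94) (nat_lit 0) (nat_lit 0) (XT.lf (nat_lit 0) (nat_lit 4473776877) (nat_lit 1008) (nat_lit 2181430692) (nat_lit 1092) (nat_lit 4231139806) (nat_lit 128) (nat_lit 5) (nat_lit 140) (nat_lit 5) (nat_lit 141) (nat_lit 5) (nat_lit 320) (nat_lit 317) (nat_lit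 227)) (XT.nd (nat_lit 94) (nat_lit 0) (nat_lit 84) (XT.lf (nat_lit 84) (nat_lit 2164994953) (nat_lit 0) (nat_lit 2995679119) (nat_lit 1092) (nat_lit 5881064317) (nat_lit 129) (nat_lit 5) (nat_lit 128) (nat_lit 5) (nat_lit 141) (nat_lit 5) (nat_lit 321) (nat_lit 317) (nat_lit 226)) (XT.lf (nat_lit 0) (nat_lit 5879223304) (nat_lit 1008) (nat_lit 4529354249) (nat_lit 1092) (nat_lit 793128148) (nat_lit 129) (nat_lit 5) (nat_lit 141) (nat_lit 5) (nat_lit 142) (nat_lit 5) (nat_lit 322) (nat_lit 317) (nat_lit 225)))))) (XT.nd (nat_lit 470) (nat_lit 924) (nat_lit 0) (XT.nd (nat_lit 188) (nat_lit 0) (nat_lit 84) (XT.nd (nat_lit 94) (nat_lit 0) (nat_lit 0) (XT.lf (nat_lit 0) (nat_lit 6630943169) (nat_lit 1008) (nat_lit 90031473) (nat_lit 1092) (nat_lit 4645397461) (nat_lit 129) (nat_lit 5) (nat_lit 141) (nat_lit 5) (nat_lit 142) (nat_lit 5) (nat_lit 323) (nat_lit 317) (nat_lit 224)) (XT.lf (nat_lit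 84) (nat_lit 4567097141) (nat_lit 0) (nat_lit 2865025871) (nat_lit 1092) (nat_lit 4103284824) (nat_lit 130) (nat_lit 5) (nat_lit 129) (nat_lit 5) (nat_lit 142) (nat_lit 5) (nat_lit 324) (nat_lit 317) (nat_lit 223))) (XT.nd (nat_lit 94) (nat_lit 0) (nat_lit 0) (XT.lf (nat_lit 0) (nat_lit 8251484010) (nat_lit 1008) (nat_lit 2362606775) (nat_lit 1092) (nat_lit 1095872465) (nat_lit 130) (nat_lit 5) (nat_lit 142) (nat_lit 5) (nat_lit 143) (nat_lit 5) (nat_lit 325) (nat_lit 317) (nat_lit 222)) (XT.nd (nat_lit 94) (nat_lit 0) (nat_lit 0) (XT.lf (nat_lit 84) (nat_lit 2392721187) (nat_lit 0) (nat_lit 6738501811) (nat_lit 1092) (nat_lit 2757693627) (nat_lit 131) (nat_lit 5) (nat_lit 130) (nat_lit 5) (nat_lit 143) (nat_lit 5) (nat_lit 326) (nat_lit 317) (nat_lit 221)) (XT.lf (nat_lit 84) (nat_lit 7333614116) (nat_lit 0) (nat_lit 2711644422) (nat_lit 1092) (nat_lit 2028010169) (nat_lit 131) (nat_lit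 5) (nat_lit 130) (nat_lit 5) (nat_lit 143) (nat_lit 5) (nat_lit 327) (nat_lit 317) (nat_lit 220))))) (XT.nd (nat_lit 282) (nat_lit 0) (nat_lit 84) (XT.nd (nat_lit 94) (nat_lit 1092) (nat_lit 0) (XT.lf (nat_lit 84) (nat_lit 140658246) (nat_lit 0) (nat_lit 10845600711) (nat_lit 1092) (nat_lit 1277186069) (nat_lit 132) (nat_lit 5) (nat_lit 131) (nat_lit 5) (nat_lit 144) (nat_lit 5) (nat_lit 328) (nat_lit 317) (nat_lit 219)) (XT.nd (nat_lit 94) (nat_lit 1092) (nat_lit 0) (XT.lf (nat_lit 84) (nat_lit 5232329478) (nat_lit 0) (nat_lit 6784367747) (nat_lit 1092) (nat_lit 441016149) (nat_lit 132) (nat_lit 5) (nat_lit 131) (nat_lit 5) (nat_lit 144) (nat_lit 5) (nat_lit 329) (nat_lit 317) (nat_lit 218)) (XT.lf (nat_lit 0) (nat_lit 396206924) (nat_lit 1092) (nat_lit 2192478029) (nat_lit 1176) (nat_lit 10069758507) (nat_lit 118) (nat_lit 5) (nat_lit 131) (nat_lit 5) (nat_lit 132) (nat_lit 5) (nat_lit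 330) (nat_lit 317) (nat_lit 217)))) (XT.nd (nat_lit 94) (nat_lit 0) (nat_lit 0) (XT.lf (nat_lit 0) (nat_lit 1282130149) (nat_lit 1092) (nat_lit 9841059053) (nat_lit 1176) (nat_lit 1741137189) (nat_lit 119) (nat_lit 5) (nat_lit 132) (nat_lit 5) (nat_lit 133) (nat_lit 5) (nat_lit 331) (nat_lit 317) (nat_lit 216)) (XT.nd (nat_lit 94) (nat_lit 0) (nat_lit 0) (XT.lf (nat_lit 0) (nat_lit 2229621082) (nat_lit 1092) (nat_lit 4667644692) (nat_lit 1176) (nat_lit 6178326074) (nat_lit 119) (nat_lit 5) (nat_lit 132) (nat_lit 5) (nat_lit 133) (nat_lit 5) (nat_lit 332) (nat_lit 317) (nat_lit 215)) (XT.lf (nat_lit 84) (nat_lit 667734264) (nat_lit 0) (nat_lit 2530348661) (nat_lit 1176) (nat_lit 10095639707) (nat_lit 120) (nat_lit 5) (nat_lit 119) (nat_lit 5) (nat_lit 133) (nat_lit 5) (nat_lit 333) (nat_lit 317) (nat_lit 214))))))) (XT.nd (nat_lit 1034) (nat_lit 1848) (nat_lit 0) (XT.nd (nat_lit 470) (nat_lit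 1176) (nat_lit 0) (XT.nd (nat_lit 188) (nat_lit 1596) (nat_lit 0) (XT.nd (nat_lit 94) (nat_lit 0) (nat_lit 0) (XT.lf (nat_lit 0) (nat_lit 4250687114) (nat_lit 1092) (nat_lit 7281986846) (nat_lit 84) (nat_lit 1984317771) (nat_lit 120) (nat_lit 5) (nat_lit 133) (nat_lit 5) (nat_lit 121) (nat_lit 5) (nat_lit 334) (nat_lit 317) (nat_lit 213)) (XT.lf (nat_lit 0) (nat_lit 5347581544) (nat_lit 1092) (nat_lit 1810114549) (nat_lit 84) (nat_lit 6589176995) (nat_lit 120) (nat_lit 5) (nat_lit 133) (nat_lit 5) (nat_lit 121) (nat_lit 5) (nat_lit 335) (nat_lit 317) (nat_lit 212))) (XT.nd (nat_lit 94) (nat_lit 504) (nat_lit 0) (XT.lf (nat_lit 0) (nat_lit 3898373796) (nat_lit 1092) (nat_lit 2604985818) (nat_lit 1176) (nat_lit 7479800662) (nat_lit 107) (nat_lit 5) (nat_lit 120) (nat_lit 5) (nat_lit 121) (nat_lit 5) (nat_lit 336) (nat_lit 317) (nat_lit 211)) (XT.nd (nat_lit 94) (nat_lit 504) (nat_lit 0) (XT.lf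 (nat_lit 0) (nat_lit 7721304826) (nat_lit 1176) (nat_lit 4436829268) (nat_lit 84) (nat_lit 2067871053) (nat_lit 107) (nat_lit 5) (nat_lit 121) (nat_lit 5) (nat_lit 108) (nat_lit 5) (nat_lit 337) (nat_lit 317) (nat_lit 210)) (XT.lf (nat_lit 0) (nat_lit 1375721672) (nat_lit 504) (nat_lit 7628509075) (nat_lit 588) (nat_lit 5471351282) (nat_lit 101) (nat_lit 5) (nat_lit 107) (nat_lit 5) (nat_lit 108) (nat_lit 5) (nat_lit 338) (nat_lit 317) (nat_lit 209))))) (XT.nd (nat_lit 282) (nat_lit 588) (nat_lit 0) (XT.nd (nat_lit 94) (nat_lit 588) (nat_lit 0) (XT.lf (nat_lit 0) (nat_lit 7451069462) (nat_lit 504) (nat_lit 2909382779) (nat_lit 588) (nat_lit 4371450623) (nat_lit 101) (nat_lit 5) (nat_lit 107) (nat_lit 5) (nat_lit 108) (nat_lit 5) (nat_lit 339) (nat_lit 317) (nat_lit 208)) (XT.nd (nat_lit 94) (nat_lit 588) (nat_lit 0) (XT.lf (nat_lit 0) (nat_lit 11765731514) (nat_lit 588) (nat_lit 1312369385)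 (nat_lit 84) (nat_lit 1917896233) (nat_lit 101) (nat_lit 5) (nat_lit 108) (nat_lit 5) (nat_lit 102) (nat_lit 5) (nat_lit 340) (nat_lit 317) (nat_lit 207)) (XT.lf (nat_lit 0) (nat_lit 4898860596) (nat_lit 588) (nat_lit 8382050599) (nat_lit 672) (nat_lit 1985354283) (nat_lit 94) (nat_lit 5) (nat_lit 101) (nat_lit 5) (nat_lit 102) (nat_lit 5) (nat_lit 341) (nat_lit 317) (nat_lit 206)))) (XT.nd (nat_lit 94) (nat_lit 588) (nat_lit 0) (XT.lf (nat_lit 0) (nat_lit 11319372248) (nat_lit 588) (nat_lit 3525622271) (nat_lit 672) (nat_lit 699899983) (nat_lit 94) (nat_lit 5) (nat_lit 101) (nat_lit 5) (nat_lit 102) (nat_lit 5) (nat_lit 342) (nat_lit 317) (nat_lit 205)) (XT.nd (nat_lit 94) (nat_lit 0) (nat_lit 0) (XT.lf (nat_lit 0) (nat_lit 637369302) (nat_lit 588) (nat_lit 13714204416) (nat_lit 84) (nat_lit 1479673205) (nat_lit 87) (nat_lit 5) (nat_lit 94) (nat_lit 5) (nat_lit 88) (nat_lit 5) (nat_lit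 343) (nat_lit 317) (nat_lit 204)) (XT.lf (nat_lit 0) (nat_lit 2070846119) (nat_lit 588) (nat_lit 7434286016) (nat_lit 84) (nat_lit 6619012798) (nat_lit 87) (nat_lit 5) (nat_lit 94) (nat_lit 5) (nat_lit 88) (nat_lit 5) (nat_lit 344) (nat_lit 317) (nat_lit 203)))))) (XT.nd (nat_lit 470) (nat_lit 924) (nat_lit 0) (XT.nd (nat_lit 188) (nat_lit 420) (nat_lit 0) (XT.nd (nat_lit 94) (nat_lit 504) (nat_lit 0) (XT.lf (nat_lit 0) (nat_lit 3537776281) (nat_lit 588) (nat_lit 970664347) (nat_lit 84) (nat_lit 11918060093) (nat_lit 87) (nat_lit 5) (nat_lit 94) (nat_lit 5) (nat_lit 88) (nat_lit 5) (nat_lit 345) (nat_lit 317) (nat_lit 202)) (XT.lf (nat_lit 0) (nat_lit 5104027833) (nat_lit 588) (nat_lit 10944248225) (nat_lit 84) (nat_lit 688320537) (nat_lit 81) (nat_lit 5) (nat_lit 88) (nat_lit 5) (nat_lit 82) (nat_lit 5) (nat_lit 346) (nat_lit 317) (nat_lit 201))) (XT.nd (nat_lit 94) (nat_lit 420) (nat_lit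 0) (XT.lf (nat_lit 0) (nat_lit 6764739989) (nat_lit 588) (nat_lit 4327507957) (nat_lit 84) (nat_lit 5962669593) (nat_lit 81) (nat_lit 5) (nat_lit 88) (nat_lit 5) (nat_lit 82) (nat_lit 5) (nat_lit 347) (nat_lit 317) (nat_lit 200)) (XT.nd (nat_lit 94) (nat_lit 0) (nat_lit 0) (XT.lf (nat_lit 0) (nat_lit 2534856240) (nat_lit 420) (nat_lit 5957098651) (nat_lit 504) (nat_lit 8890720049) (nat_lit 76) (nat_lit 5) (nat_lit 81) (nat_lit 5) (nat_lit 82) (nat_lit 5) (nat_lit 348) (nat_lit 317) (nat_lit 199)) (XT.lf (nat_lit 0) (nat_lit 9691234878) (nat_lit 420) (nat_lit 616724154) (nat_lit 504) (nat_lit 7411574297) (nat_lit 76) (nat_lit 5) (nat_lit 81) (nat_lit 5) (nat_lit 82) (nat_lit 5) (nat_lit 349) (nat_lit 317) (nat_lit 198))))) (XT.nd (nat_lit 282) (nat_lit 504) (nat_lit 0) (XT.nd (nat_lit 94) (nat_lit 420) (nat_lit 0) (XT.lf (nat_lit 0) (nat_lit 12219129329) (nat_lit 504) (nat_lit 1056345199)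 (nat_lit 84) (nat_lit 4790186956) (nat_lit 76) (nat_lit 5) (nat_lit 82) (nat_lit 5) (nat_lit 77) (nat_lit 5) (nat_lit 350) (nat_lit 317) (nat_lit 197)) (XT.nd (nat_lit 94) (nat_lit 0) (nat_lit 0) (XT.lf (nat_lit 0) (nat_lit 6241017760) (nat_lit 420) (nat_lit 8007405587) (nat_lit 504) (nat_lit 4172302225) (nat_lit 71) (nat_lit 5) (nat_lit 76) (nat_lit 5) (nat_lit 77) (nat_lit 5) (nat_lit 351) (nat_lit 317) (nat_lit 196)) (XT.lf (nat_lit 0) (nat_lit 13776939946) (nat_lit 420) (nat_lit 2565550909) (nat_lit 504) (nat_lit 2444278187) (nat_lit 71) (nat_lit 5) (nat_lit 76) (nat_lit 5) (nat_lit 77) (nat_lit 5) (nat_lit 352) (nat_lit 317) (nat_lit 195)))) (XT.nd (nat_lit 94) (nat_lit 84) (nat_lit 0) (XT.lf (nat_lit 0) (nat_lit 2390219783) (nat_lit 420) (nat_lit 16156278897) (nat_lit 504) (nat_lit 616294746) (nat_lit 66) (nat_lit 5) (nat_lit 71) (nat_lit 5) (nat_lit 72) (nat_lit 5) (nat_lit 353) (nat_lit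 317) (nat_lit 194)) (XT.nd (nat_lit 94) (nat_lit 0) (nat_lit 0) (XT.lf (nat_lit 0) (nat_lit 1313026171) (nat_lit 504) (nat_lit 9472488770) (nat_lit 84) (nat_lit 8762420190) (nat_lit 65) (nat_lit 5) (nat_lit 71) (nat_lit 5) (nat_lit 66) (nat_lit 5) (nat_lit 354) (nat_lit 317) (nat_lit 193)) (XT.lf (nat_lit 0) (nat_lit 3280777833) (nat_lit 504) (nat_lit 1962253749) (nat_lit 84) (nat_lit 14702081862) (nat_lit 65) (nat_lit 5) (nat_lit 71) (nat_lit 5) (nat_lit 66) (nat_lit 5) (nat_lit 355) (nat_lit 317) (nat_lit 192))))))))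
noncomputable def xc93 : XT := (XT.nd (nat_lit 50948) (nat_lit 0) (nat_lit 4872) (XT.nd (nat_lit 940) (nat_lit 924) (nat_lit 0) (XT.nd (nat_lit 470) (nat_lit 756) (nat_lit 0) (XT.nd (nat_lit 188) (nat_lit 336) (nat_lit 0) (XT.nd (nat_lit 94) (nat_lit 0) (nat_lit 0) (XT.lf (nat_lit 0) (nat_lit 5364900415) (nat_lit 504) (nat_lit 14468423090) (nat_lit 84) (nat_lit 519590236) (nat_lit 60) (nat_lit 5) (nat_lit 66) (nat_lit 5) (nat_lit 61) (nat_lit 5) (nat_lit 356) (nat_lit 317) (nat_lit 191)) (XT.lf (nat_lit 0) (nat_lit 7579771093) (nat_lit 504) (nat_lit 6820193118) (nat_lit 84) (nat_lit 6371366451) (nat_lit 60) (nat_lit 5) (nat_lit 66) (nat_lit 5) (nat_lit 61) (nat_lit 5) (nat_lit 357) (nat_lit 317) (nat_lit 190))) (XT.nd (nat_lit 94) (nat_lit 0) (nat_lit 0) (XT.lf (nat_lit 0) (nat_lit 1077409978) (nat_lit 336) (nat_lit 8788651657) (nat_lit 420) (nat_lit 11336595756) (nat_lit 56) (nat_lit 5)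 (nat_lit 60) (nat_lit 5) (nat_lit 61) (nat_lit 5) (nat_lit 358) (nat_lit 317) (nat_lit 189)) (XT.nd (nat_lit 94) (nat_lit 0) (nat_lit 0) (XT.lf (nat_lit 0) (nat_lit 9355089330) (nat_lit 336) (nat_lit 2931543335) (nat_lit 420) (nat_lit 9358780688) (nat_lit 56) (nat_lit 5) (nat_lit 60) (nat_lit 5) (nat_lit 61) (nat_lit 5) (nat_lit 359) (nat_lit 317) (nat_lit 188)) (XT.lf (nat_lit 0) (nat_lit 14805500327) (nat_lit 420) (nat_lit 4252636545) (nat_lit 84) (nat_lit 3043059814) (nat_lit 56) (nat_lit 5) (nat_lit 61) (nat_lit 5) (nat_lit 57) (nat_lit 5) (nat_lit 360) (nat_lit 317) (nat_lit 187))))) (XT.nd (nat_lit 188) (nat_lit 420) (nat_lit 0) (XT.nd (nat_lit 94) (nat_lit 0) (nat_lit 0) (XT.lf (nat_lit 0) (nat_lit 4077370504) (nat_lit 336) (nat_lit 13388176395) (nat_lit 420) (nat_lit 5103628759) (nat_lit 52) (nat_lit 5) (nat_lit 56) (nat_lit 5) (nat_lit 57) (nat_lit 5) (nat_lit 361) (nat_lit 317)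 (nat_lit 186)) (XT.lf (nat_lit 0) (nat_lit 12746836833) (nat_lit 336) (nat_lit 7498402158) (nat_lit 420) (nat_lit 2805291883) (nat_lit 52) (nat_lit 5) (nat_lit 56) (nat_lit 5) (nat_lit 57) (nat_lit 5) (nat_lit 362) (nat_lit 317) (nat_lit 185))) (XT.nd (nat_lit 94) (nat_lit 420) (nat_lit 0) (XT.lf (nat_lit 0) (nat_lit 21676400362) (nat_lit 336) (nat_lit 1427713079) (nat_lit 420) (nat_lit 442932246) (nat_lit 52) (nat_lit 5) (nat_lit 56) (nat_lit 5) (nat_lit 57) (nat_lit 5) (nat_lit 363) (nat_lit 317) (nat_lit 184)) (XT.nd (nat_lit 94) (nat_lit 0) (nat_lit 0) (XT.lf (nat_lit 0) (nat_lit 2063258860) (nat_lit 420) (nat_lit 17170021295) (nat_lit 84) (nat_lit 4821646099) (nat_lit 47) (nat_lit 5) (nat_lit 52) (nat_lit 5) (nat_lit 48) (nat_lit 5) (nat_lit 364) (nat_lit 317) (nat_lit 183)) (XT.lf (nat_lit 0) (nat_lit 4665506820) (nat_lit 420) (nat_lit 8654425178) (nat_lit 84) (nat_lit 11257643269)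 (nat_lit 47) (nat_lit 5) (nat_lit 52) (nat_lit 5) (nat_lit 48) (nat_lit 5) (nat_lit 365) (nat_lit 317) (nat_lit 182)))))) (XT.nd (nat_lit 470) (nat_lit 336) (nat_lit 0) (XT.nd (nat_lit 188) (nat_lit 252) (nat_lit 0) (XT.nd (nat_lit 94) (nat_lit 0) (nat_lit 0) (XT.lf (nat_lit 0) (nat_lit 119134386) (nat_lit 336) (nat_lit 7223913346) (nat_lit 420) (nat_lit 17773563890) (nat_lit 43) (nat_lit 5) (nat_lit 47) (nat_lit 5) (nat_lit 48) (nat_lit 5) (nat_lit 366) (nat_lit 317) (nat_lit 181)) (XT.lf (nat_lit 0) (nat_lit 9339808487) (nat_lit 336) (nat_lit 847674330) (nat_lit 420) (nat_lit 15482292671) (nat_lit 43) (nat_lit 5) (nat_lit 47) (nat_lit 5) (nat_lit 48) (nat_lit 5) (nat_lit 367) (nat_lit 317) (nat_lit 180))) (XT.nd (nat_lit 94) (nat_lit 252) (nat_lit 0) (XT.lf (nat_lit 0) (nat_lit 13170631802) (nat_lit 420) (nat_lit 7458846308) (nat_lit 84) (nat_lit 5609060141) (nat_lit 43) (nat_lit 5) (nat_lit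 48) (nat_lit 5) (nat_lit 44) (nat_lit 5) (nat_lit 368) (nat_lit 317) (nat_lit 179)) (XT.nd (nat_lit 94) (nat_lit 0) (nat_lit 0) (XT.lf (nat_lit 0) (nat_lit 1704931398) (nat_lit 252) (nat_lit 14560829850) (nat_lit 336) (nat_lit 10558583743) (nat_lit 40) (nat_lit 5) (nat_lit 43) (nat_lit 5) (nat_lit 44) (nat_lit 5) (nat_lit 369) (nat_lit 317) (nat_lit 178)) (XT.lf (nat_lit 0) (nat_lit 11302962538) (nat_lit 252) (nat_lit 8225756202) (nat_lit 336) (nat_lit 7897381164) (nat_lit 40) (nat_lit 5) (nat_lit 43) (nat_lit 5) (nat_lit 44) (nat_lit 5) (nat_lit 370) (nat_lit 317) (nat_lit 177))))) (XT.nd (nat_lit 49256) (nat_lit 0) (nat_lit 7644) (XT.nd (nat_lit 94) (nat_lit 336) (nat_lit 0) (XT.lf (nat_lit 0) (nat_lit 21190824302) (nat_lit 252) (nat_lit 1696207273) (nat_lit 336) (nat_lit 5159673250) (nat_lit 40) (nat_lit 5) (nat_lit 43) (nat_lit 5) (nat_lit 44) (nat_lit 5) (nat_lit 371) (nat_lit 317)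 (nat_lit 176)) (XT.nd (nat_lit 94) (nat_lit 84) (nat_lit 0) (XT.lf (nat_lit 0) (nat_lit 2695363618) (nat_lit 252) (nat_lit 23725141716) (nat_lit 336) (nat_lit 2263855953) (nat_lit 37) (nat_lit 5) (nat_lit 40) (nat_lit 5) (nat_lit 41) (nat_lit 5) (nat_lit 372) (nat_lit 317) (nat_lit 175)) (XT.lf (nat_lit 0) (nat_lit 791214488) (nat_lit 336) (nat_lit 16684469584) (nat_lit 84) (nat_lit 11863288858) (nat_lit 36) (nat_lit 5) (nat_lit 40) (nat_lit 5) (nat_lit 37) (nat_lit 5) (nat_lit 373) (nat_lit 317) (nat_lit 174)))) (XT.nd (nat_lit 94) (nat_lit 0) (nat_lit 0) (XT.lf (nat_lit 0) (nat_lit 1875945712) (nat_lit 1092) (nat_lit 1745126835) (nat_lit 1092) (nat_lit 1745126835) (nat_lit 127) (nat_lit 3) (nat_lit 140) (nat_lit 3) (nat_lit 140) (nat_lit 5) (nat_lit 318) (nat_lit 318) (nat_lit 228)) (XT.nd (nat_lit 94) (nat_lit 0) (nat_lit 84) (XT.lf (nat_lit 84) (nat_lit 685838131) (nat_lit 0) (nat_lit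 3650765995) (nat_lit 1092) (nat_lit 6543769404) (nat_lit 128) (nat_lit 5) (nat_lit 127) (nat_lit 3) (nat_lit 140) (nat_lit 5) (nat_lit 319) (nat_lit 318) (nat_lit 227)) (XT.lf (nat_lit 0) (nat_lit 4955807531) (nat_lit 1008) (nat_lit 5979209064) (nat_lit 1092) (nat_lit 97494386) (nat_lit 128) (nat_lit 5) (nat_lit 140) (nat_lit 5) (nat_lit 141) (nat_lit 5) (nat_lit 320) (nat_lit 318) (nat_lit 226))))))) (XT.nd (nat_lit 1034) (nat_lit 2016) (nat_lit 0) (XT.nd (nat_lit 470) (nat_lit 840) (nat_lit 0) (XT.nd (nat_lit 188) (nat_lit 0) (nat_lit 84) (XT.nd (nat_lit 94) (nat_lit 0) (nat_lit 0) (XT.lf (nat_lit 0) (nat_lit 5611220647) (nat_lit 1008) (nat_lit 1682084018) (nat_lit 1092) (nat_lit 3895612864) (nat_lit 128) (nat_lit 5) (nat_lit 140) (nat_lit 5) (nat_lit 141) (nat_lit 5) (nat_lit 321) (nat_lit 318) (nat_lit 225)) (XT.lf (nat_lit 84) (nat_lit 2793340750) (nat_lit 0) (nat_lit 3501607874) (nat_lit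 1092) (nat_lit 5055054015) (nat_lit 129) (nat_lit 5) (nat_lit 128) (nat_lit 5) (nat_lit 141) (nat_lit 5) (nat_lit 322) (nat_lit 318) (nat_lit 224))) (XT.nd (nat_lit 94) (nat_lit 0) (nat_lit 0) (XT.lf (nat_lit 0) (nat_lit 7002503496) (nat_lit 1008) (nat_lit 4088427445) (nat_lit 1092) (nat_lit 425144403) (nat_lit 129) (nat_lit 5) (nat_lit 141) (nat_lit 5) (nat_lit 142) (nat_lit 5) (nat_lit 323) (nat_lit 318) (nat_lit 223)) (XT.nd (nat_lit 94) (nat_lit 0) (nat_lit 0) (XT.lf (nat_lit 84) (nat_lit 480720203) (nat_lit 0) (nat_lit 7273280658) (nat_lit 1092) (nat_lit 3932686441) (nat_lit 130) (nat_lit 5) (nat_lit 129) (nat_lit 5) (nat_lit 142) (nat_lit 5) (nat_lit 324) (nat_lit 318) (nat_lit 222)) (XT.lf (nat_lit 84) (nat_lit 5266825817) (nat_lit 0) (nat_lit 3286515703) (nat_lit 1092) (nat_lit 3308556812) (nat_lit 130) (nat_lit 5) (nat_lit 129) (nat_lit 5) (nat_lit 142) (nat_lit 5) (nat_lit 325)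 (nat_lit 318) (nat_lit 221))))) (XT.nd (nat_lit 282) (nat_lit 1008) (nat_lit 0) (XT.nd (nat_lit 94) (nat_lit 0) (nat_lit 0) (XT.lf (nat_lit 0) (nat_lit 9368116608) (nat_lit 1008) (nat_lit 1861108518) (nat_lit 1092) (nat_lit 813674395) (nat_lit 130) (nat_lit 5) (nat_lit 142) (nat_lit 5) (nat_lit 143) (nat_lit 5) (nat_lit 326) (nat_lit 318) (nat_lit 220)) (XT.nd (nat_lit 94) (nat_lit 0) (nat_lit 0) (XT.lf (nat_lit 84) (nat_lit 3035815894) (nat_lit 0) (nat_lit 7219071826) (nat_lit 1092) (nat_lit 1973241992) (nat_lit 131) (nat_lit 5) (nat_lit 130) (nat_lit 5) (nat_lit 143) (nat_lit 5) (nat_lit 327) (nat_lit 318) (nat_lit 219)) (XT.lf (nat_lit 84) (nat_lit 8112770267) (nat_lit 0) (nat_lit 3059213118) (nat_lit 1092) (nat_lit 1247095616) (nat_lit 131) (nat_lit 5) (nat_lit 130) (nat_lit 5) (nat_lit 143) (nat_lit 5) (nat_lit 328) (nat_lit 318) (nat_lit 218)))) (XT.nd (nat_lit 94) (nat_lit 1092) (nat_lit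 0) (XT.lf (nat_lit 84) (nat_lit 722006601) (nat_lit 0) (nat_lit 11398821566) (nat_lit 1092) (nat_lit 495079544) (nat_lit 132) (nat_lit 5) (nat_lit 131) (nat_lit 5) (nat_lit 144) (nat_lit 5) (nat_lit 329) (nat_lit 318) (nat_lit 217)) (XT.nd (nat_lit 94) (nat_lit 0) (nat_lit 0) (XT.lf (nat_lit 0) (nat_lit 335408194) (nat_lit 1092) (nat_lit 6866256261) (nat_lit 1176) (nat_lit 5615261659) (nat_lit 118) (nat_lit 5) (nat_lit 131) (nat_lit 5) (nat_lit 132) (nat_lit 5) (nat_lit 330) (nat_lit 318) (nat_lit 216)) (XT.lf (nat_lit 0) (nat_lit 1165943172) (nat_lit 1092) (nat_lit 1699238274) (nat_lit 1176) (nat_lit 10159372888) (nat_lit 118) (nat_lit 5) (nat_lit 131) (nat_lit 5) (nat_lit 132) (nat_lit 5) (nat_lit 331) (nat_lit 318) (nat_lit 215)))))) (XT.nd (nat_lit 470) (nat_lit 2100) (nat_lit 0) (XT.nd (nat_lit 188) (nat_lit 0) (nat_lit 0) (XT.nd (nat_lit 94) (nat_lit 0) (nat_lit 0) (XT.lf (nat_lit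 0) (nat_lit 2060233951) (nat_lit 1092) (nat_lit 9563094225) (nat_lit 1176) (nat_lit 1614168222) (nat_lit 119) (nat_lit 5) (nat_lit 132) (nat_lit 5) (nat_lit 133) (nat_lit 5) (nat_lit 332) (nat_lit 318) (nat_lit 214)) (XT.lf (nat_lit 0) (nat_lit 3014896240) (nat_lit 1092) (nat_lit 4246834733) (nat_lit 1176) (nat_lit 6194350575) (nat_lit 119) (nat_lit 5) (nat_lit 132) (nat_lit 5) (nat_lit 133) (nat_lit 5) (nat_lit 333) (nat_lit 318) (nat_lit 213))) (XT.nd (nat_lit 94) (nat_lit 0) (nat_lit 84) (XT.lf (nat_lit 84) (nat_lit 1248215721) (nat_lit 0) (nat_lit 2749184452) (nat_lit 1176) (nat_lit 9684149363) (nat_lit 120) (nat_lit 5) (nat_lit 119) (nat_lit 5) (nat_lit 133) (nat_lit 5) (nat_lit 334) (nat_lit 318) (nat_lit 212)) (XT.nd (nat_lit 94) (nat_lit 0) (nat_lit 0) (XT.lf (nat_lit 0) (nat_lit 5060231394) (nat_lit 1092) (nat_lit 6939878848) (nat_lit 84) (nat_lit 1912401615) (nat_lit 120) (nat_lit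 5) (nat_lit 133) (nat_lit 5) (nat_lit 121) (nat_lit 5) (nat_lit 335) (nat_lit 318) (nat_lit 211)) (XT.lf (nat_lit 0) (nat_lit 6170750345) (nat_lit 1092) (nat_lit 1315452552) (nat_lit 84) (nat_lit 6664023435) (nat_lit 120) (nat_lit 5) (nat_lit 133) (nat_lit 5) (nat_lit 121) (nat_lit 5) (nat_lit 336) (nat_lit 318) (nat_lit 210))))) (XT.nd (nat_lit 282) (nat_lit 588) (nat_lit 0) (XT.nd (nat_lit 94) (nat_lit 504) (nat_lit 0) (XT.lf (nat_lit 0) (nat_lit 4564422824) (nat_lit 1092) (nat_lit 2783576710) (nat_lit 1176) (nat_lit 7046356769) (nat_lit 107) (nat_lit 5) (nat_lit 120) (nat_lit 5) (nat_lit 121) (nat_lit 5) (nat_lit 337) (nat_lit 318) (nat_lit 209)) (XT.nd (nat_lit 94) (nat_lit 504) (nat_lit 0) (XT.lf (nat_lit 0) (nat_lit 8583424948) (nat_lit 1176) (nat_lit 4023011198) (nat_lit 84) (nat_lit 2038992371) (nat_lit 107) (nat_lit 5) (nat_lit 121) (nat_lit 5) (nat_lit 108) (nat_lit 5) (nat_lit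 338) (nat_lit 318) (nat_lit 208)) (XT.lf (nat_lit 0) (nat_lit 1964146799) (nat_lit 504) (nat_lit 7928663884) (nat_lit 588) (nat_lit 5010412710) (nat_lit 101) (nat_lit 5) (nat_lit 107) (nat_lit 5) (nat_lit 108) (nat_lit 5) (nat_lit 339) (nat_lit 318) (nat_lit 207)))) (XT.nd (nat_lit 94) (nat_lit 588) (nat_lit 0) (XT.lf (nat_lit 0) (nat_lit 8211419981) (nat_lit 504) (nat_lit 3061330220) (nat_lit 588) (nat_lit 3895374456) (nat_lit 101) (nat_lit 5) (nat_lit 107) (nat_lit 5) (nat_lit 108) (nat_lit 5) (nat_lit 340) (nat_lit 318) (nat_lit 206)) (XT.nd (nat_lit 94) (nat_lit 588) (nat_lit 0) (XT.lf (nat_lit 0) (nat_lit 12703225067) (nat_lit 588) (nat_lit 819156429) (nat_lit 84) (nat_lit 1918658177) (nat_lit 101) (nat_lit 5) (nat_lit 108) (nat_lit 5) (nat_lit 102) (nat_lit 5) (nat_lit 341) (nat_lit 318) (nat_lit 205)) (XT.lf (nat_lit 0) (nat_lit 5579216459) (nat_lit 588) (nat_lit 8674179993) (nat_lit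 672) (nat_lit 1466723709) (nat_lit 94) (nat_lit 5) (nat_lit 101) (nat_lit 5) (nat_lit 102) (nat_lit 5) (nat_lit 342) (nat_lit 318) (nat_lit 204))))))))
noncomputable def xc94 : XT := (XT.nd (nat_lit 1974) (nat_lit 1260) (nat_lit 0) (XT.nd (nat_lit 940) (nat_lit 1596) (nat_lit 0) (XT.nd (nat_lit 470) (nat_lit 840) (nat_lit 0) (XT.nd (nat_lit 188) (nat_lit 504) (nat_lit 0) (XT.nd (nat_lit 94) (nat_lit 588) (nat_lit 0) (XT.lf (nat_lit 0) (nat_lit 12182873356) (nat_lit 588) (nat_lit 3666231620) (nat_lit 672) (nat_lit 158865014) (nat_lit 94) (nat_lit 5) (nat_lit 101) (nat_lit 5) (nat_lit 102) (nat_lit 5) (nat_lit 343) (nat_lit 318) (nat_lit 203)) (XT.lf (nat_lit 0) (nat_lit 1196912978) (nat_lit 588) (nat_lit 13600062398) (nat_lit 84) (nat_lit 1506467792) (nat_lit 87) (nat_lit 5) (nat_lit 94) (nat_lit 5) (nat_lit 88) (nat_lit 5) (nat_lit 344) (nat_lit 318) (nat_lit 202))) (XT.nd (nat_lit 94) (nat_lit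 504) (nat_lit 0) (XT.lf (nat_lit 0) (nat_lit 2658597370) (nat_lit 588) (nat_lit 7141681612) (nat_lit 84) (nat_lit 6805700466) (nat_lit 87) (nat_lit 5) (nat_lit 94) (nat_lit 5) (nat_lit 88) (nat_lit 5) (nat_lit 345) (nat_lit 318) (nat_lit 201)) (XT.nd (nat_lit 94) (nat_lit 504) (nat_lit 0) (XT.lf (nat_lit 0) (nat_lit 4155260170) (nat_lit 588) (nat_lit 493415204) (nat_lit 84) (nat_lit 12269574535) (nat_lit 87) (nat_lit 5) (nat_lit 94) (nat_lit 5) (nat_lit 88) (nat_lit 5) (nat_lit 346) (nat_lit 318) (nat_lit 200)) (XT.lf (nat_lit 0) (nat_lit 5759824979) (nat_lit 588) (nat_lit 10764261524) (nat_lit 84) (nat_lit 714241731) (nat_lit 81) (nat_lit 5) (nat_lit 88) (nat_lit 5) (nat_lit 82) (nat_lit 5) (nat_lit 347) (nat_lit 318) (nat_lit 199))))) (XT.nd (nat_lit 188) (nat_lit 420) (nat_lit 0) (XT.nd (nat_lit 94) (nat_lit 420) (nat_lit 0) (XT.lf (nat_lit 0) (nat_lit 7457058260) (nat_lit 588) (nat_lit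 3958015315) (nat_lit 84) (nat_lit 6151957798) (nat_lit 81) (nat_lit 5) (nat_lit 88) (nat_lit 5) (nat_lit 82) (nat_lit 5) (nat_lit 348) (nat_lit 318) (nat_lit 198)) (XT.lf (nat_lit 0) (nat_lit 3111983215) (nat_lit 420) (nat_lit 6116268144) (nat_lit 504) (nat_lit 8677043364) (nat_lit 76) (nat_lit 5) (nat_lit 81) (nat_lit 5) (nat_lit 82) (nat_lit 5) (nat_lit 349) (nat_lit 318) (nat_lit 197))) (XT.nd (nat_lit 94) (nat_lit 420) (nat_lit 0) (XT.lf (nat_lit 0) (nat_lit 10475219349) (nat_lit 420) (nat_lit 611108786) (nat_lit 504) (nat_lit 7166755984) (nat_lit 76) (nat_lit 5) (nat_lit 81) (nat_lit 5) (nat_lit 82) (nat_lit 5) (nat_lit 350) (nat_lit 318) (nat_lit 196)) (XT.nd (nat_lit 94) (nat_lit 420) (nat_lit 0) (XT.lf (nat_lit 0) (nat_lit 13043186874) (nat_lit 504) (nat_lit 605032181) (nat_lit 84) (nat_lit 4962189527) (nat_lit 76) (nat_lit 5) (nat_lit 82) (nat_lit 5) (nat_lit 77) (nat_lit 5) (nat_lit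 351) (nat_lit 318) (nat_lit 195)) (XT.lf (nat_lit 0) (nat_lit 6913648359) (nat_lit 420) (nat_lit 8213105796) (nat_lit 504) (nat_lit 3850037838) (nat_lit 71) (nat_lit 5) (nat_lit 76) (nat_lit 5) (nat_lit 77) (nat_lit 5) (nat_lit 352) (nat_lit 318) (nat_lit 194)))))) (XT.nd (nat_lit 470) (nat_lit 672) (nat_lit 0) (XT.nd (nat_lit 188) (nat_lit 504) (nat_lit 0) (XT.nd (nat_lit 94) (nat_lit 420) (nat_lit 0) (XT.lf (nat_lit 0) (nat_lit 14668776829) (nat_lit 420) (nat_lit 2603832392) (nat_lit 504) (nat_lit 2082023890) (nat_lit 71) (nat_lit 5) (nat_lit 76) (nat_lit 5) (nat_lit 77) (nat_lit 5) (nat_lit 353) (nat_lit 318) (nat_lit 193)) (XT.lf (nat_lit 0) (nat_lit 2938336790) (nat_lit 420) (nat_lit 16598969955) (nat_lit 504) (nat_lit 205286187) (nat_lit 66) (nat_lit 5) (nat_lit 71) (nat_lit 5) (nat_lit 72) (nat_lit 5) (nat_lit 354) (nat_lit 318) (nat_lit 192))) (XT.nd (nat_lit 94) (nat_lit 420) (nat_lit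 0) (XT.lf (nat_lit 0) (nat_lit 1762505796) (nat_lit 504) (nat_lit 9296688297) (nat_lit 84) (nat_lit 9080780026) (nat_lit 65) (nat_lit 5) (nat_lit 71) (nat_lit 5) (nat_lit 66) (nat_lit 5) (nat_lit 355) (nat_lit 318) (nat_lit 191)) (XT.nd (nat_lit 94) (nat_lit 420) (nat_lit 0) (XT.lf (nat_lit 0) (nat_lit 3778966730) (nat_lit 504) (nat_lit 1567751292) (nat_lit 84) (nat_lit 15203166293) (nat_lit 65) (nat_lit 5) (nat_lit 71) (nat_lit 5) (nat_lit 66) (nat_lit 5) (nat_lit 356) (nat_lit 318) (nat_lit 190)) (XT.lf (nat_lit 0) (nat_lit 5920858825) (nat_lit 504) (nat_lit 14453574160) (nat_lit 84) (nat_lit 596142606) (nat_lit 60) (nat_lit 5) (nat_lit 66) (nat_lit 5) (nat_lit 61) (nat_lit 5) (nat_lit 357) (nat_lit 318) (nat_lit 189))))) (XT.nd (nat_lit 282) (nat_lit 336) (nat_lit 0) (XT.nd (nat_lit 94) (nat_lit 336) (nat_lit 0) (XT.lf (nat_lit 0) (nat_lit 8192674644) (nat_lit 504) (nat_lit 6582181621)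 (nat_lit 84) (nat_lit 6627506428) (nat_lit 60) (nat_lit 5) (nat_lit 66) (nat_lit 5) (nat_lit 61) (nat_lit 5) (nat_lit 358) (nat_lit 318) (nat_lit 188)) (XT.nd (nat_lit 94) (nat_lit 0) (nat_lit 0) (XT.lf (nat_lit 0) (nat_lit 1555697020) (nat_lit 336) (nat_lit 8987192931) (nat_lit 420) (nat_lit 11304421037) (nat_lit 56) (nat_lit 5) (nat_lit 60) (nat_lit 5) (nat_lit 61) (nat_lit 5) (nat_lit 359) (nat_lit 318) (nat_lit 187)) (XT.lf (nat_lit 0) (nat_lit 10076607607) (nat_lit 336) (nat_lit 2950736476) (nat_lit 420) (nat_lit 9276828022) (nat_lit 56) (nat_lit 5) (nat_lit 60) (nat_lit 5) (nat_lit 61) (nat_lit 5) (nat_lit 360) (nat_lit 318) (nat_lit 186)))) (XT.nd (nat_lit 94) (nat_lit 336) (nat_lit 0) (XT.lf (nat_lit 0) (nat_lit 15614167177) (nat_lit 420) (nat_lit 3954741364) (nat_lit 84) (nat_lit 3205523102) (nat_lit 56) (nat_lit 5) (nat_lit 61) (nat_lit 5) (nat_lit 57) (nat_lit 5) (nat_lit 361)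 (nat_lit 318) (nat_lit 185)) (XT.nd (nat_lit 94) (nat_lit 0) (nat_lit 0) (XT.lf (nat_lit 0) (nat_lit 4629145305) (nat_lit 336) (nat_lit 13721235041) (nat_lit 420) (nat_lit 4906764676) (nat_lit 52) (nat_lit 5) (nat_lit 56) (nat_lit 5) (nat_lit 57) (nat_lit 5) (nat_lit 362) (nat_lit 318) (nat_lit 184)) (XT.lf (nat_lit 0) (nat_lit 13554574919) (nat_lit 336) (nat_lit 7651342614) (nat_lit 420) (nat_lit 2547855763) (nat_lit 52) (nat_lit 5) (nat_lit 56) (nat_lit 5) (nat_lit 57) (nat_lit 5) (nat_lit 363) (nat_lit 318) (nat_lit 183))))))) (XT.nd (nat_lit 50102) (nat_lit 0) (nat_lit 6804) (XT.nd (nat_lit 470) (nat_lit 504) (nat_lit 0) (XT.nd (nat_lit 188) (nat_lit 336) (nat_lit 0) (XT.nd (nat_lit 94) (nat_lit 420) (nat_lit 0) (XT.lf (nat_lit 0) (nat_lit 22748549321) (nat_lit 336) (nat_lit 1394852871) (nat_lit 420) (nat_lit 122618365) (nat_lit 52) (nat_lit 5) (nat_lit 56) (nat_lit 5) (nat_lit 57) (nat_lit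 5) (nat_lit 364) (nat_lit 318) (nat_lit 182)) (XT.lf (nat_lit 0) (nat_lit 2449513578) (nat_lit 420) (nat_lit 17288509525) (nat_lit 84) (nat_lit 5051703488) (nat_lit 47) (nat_lit 5) (nat_lit 52) (nat_lit 5) (nat_lit 48) (nat_lit 5) (nat_lit 365) (nat_lit 318) (nat_lit 181))) (XT.nd (nat_lit 94) (nat_lit 336) (nat_lit 0) (XT.lf (nat_lit 0) (nat_lit 5122740531) (nat_lit 420) (nat_lit 8521371495) (nat_lit 84) (nat_lit 11684793509) (nat_lit 47) (nat_lit 5) (nat_lit 52) (nat_lit 5) (nat_lit 48) (nat_lit 5) (nat_lit 366) (nat_lit 318) (nat_lit 180)) (XT.nd (nat_lit 94) (nat_lit 0) (nat_lit 0) (XT.lf (nat_lit 0) (nat_lit 520105200) (nat_lit 336) (nat_lit 7357721740) (nat_lit 420) (nat_lit 18007020859) (nat_lit 43) (nat_lit 5) (nat_lit 47) (nat_lit 5) (nat_lit 48) (nat_lit 5) (nat_lit 367) (nat_lit 318) (nat_lit 179)) (XT.lf (nat_lit 0) (nat_lit 10014674895) (nat_lit 336) (nat_lit 786529423) (nat_lit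 420) (nat_lit 15654267495) (nat_lit 43) (nat_lit 5) (nat_lit 47) (nat_lit 5) (nat_lit 48) (nat_lit 5) (nat_lit 368) (nat_lit 318) (nat_lit 178))))) (XT.nd (nat_lit 282) (nat_lit 252) (nat_lit 0) (XT.nd (nat_lit 94) (nat_lit 252) (nat_lit 0) (XT.lf (nat_lit 0) (nat_lit 13868714577) (nat_lit 420) (nat_lit 7307401469) (nat_lit 84) (nat_lit 5866026783) (nat_lit 43) (nat_lit 5) (nat_lit 48) (nat_lit 5) (nat_lit 44) (nat_lit 5) (nat_lit 369) (nat_lit 318) (nat_lit 177)) (XT.nd (nat_lit 94) (nat_lit 0) (nat_lit 0) (XT.lf (nat_lit 0) (nat_lit 2136579165) (nat_lit 252) (nat_lit 14918258092) (nat_lit 336) (nat_lit 10591450202) (nat_lit 40) (nat_lit 5) (nat_lit 43) (nat_lit 5) (nat_lit 44) (nat_lit 5) (nat_lit 370) (nat_lit 318) (nat_lit 176)) (XT.lf (nat_lit 0) (nat_lit 12020759705) (nat_lit 252) (nat_lit 8389622265) (nat_lit 336) (nat_lit 7856603824) (nat_lit 40) (nat_lit 5) (nat_lit 43) (nat_lit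 5) (nat_lit 44) (nat_lit 5) (nat_lit 371) (nat_lit 318) (nat_lit 175)))) (XT.nd (nat_lit 94) (nat_lit 252) (nat_lit 0) (XT.lf (nat_lit 0) (nat_lit 22204098078) (nat_lit 252) (nat_lit 1660397478) (nat_lit 336) (nat_lit 5042614239) (nat_lit 40) (nat_lit 5) (nat_lit 43) (nat_lit 5) (nat_lit 44) (nat_lit 5) (nat_lit 372) (nat_lit 318) (nat_lit 174)) (XT.nd (nat_lit 49162) (nat_lit 0) (nat_lit 7560) (XT.lf (nat_lit 0) (nat_lit 3139753650) (nat_lit 252) (nat_lit 24364126191) (nat_lit 336) (nat_lit 2060788338) (nat_lit 37) (nat_lit 5) (nat_lit 40) (nat_lit 5) (nat_lit 41) (nat_lit 5) (nat_lit 373) (nat_lit 318) (nat_lit 173)) (XT.lf (nat_lit 0) (nat_lit 2448698783) (nat_lit 1092) (nat_lit 1532933244) (nat_lit 1092) (nat_lit 1532933244) (nat_lit 127) (nat_lit 3) (nat_lit 140) (nat_lit 3) (nat_lit 140) (nat_lit 5) (nat_lit 319) (nat_lit 319) (nat_lit 226)))))) (XT.nd (nat_lit 470) (nat_lit 756) (nat_lit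 0) (XT.nd (nat_lit 188) (nat_lit 0) (nat_lit 84) (XT.nd (nat_lit 94) (nat_lit 0) (nat_lit 0) (XT.lf (nat_lit 84) (nat_lit 1234292213) (nat_lit 0) (nat_lit 4240228167) (nat_lit 1092) (nat_lit 5708091643) (nat_lit 128) (nat_lit 5) (nat_lit 127) (nat_lit 3) (nat_lit 140) (nat_lit 5) (nat_lit 320) (nat_lit 319) (nat_lit 225)) (XT.lf (nat_lit 84) (nat_lit 5722344978) (nat_lit 0) (nat_lit 359383893) (nat_lit 1092) (nat_lit 5258822383) (nat_lit 128) (nat_lit 5) (nat_lit 127) (nat_lit 3) (nat_lit 140) (nat_lit 5) (nat_lit 321) (nat_lit 319) (nat_lit 224))) (XT.nd (nat_lit 94) (nat_lit 0) (nat_lit 0) (XT.lf (nat_lit 0) (nat_lit 6724767104) (nat_lit 1008) (nat_lit 1200840261) (nat_lit 1092) (nat_lit 3577327569) (nat_lit 128) (nat_lit 5) (nat_lit 140) (nat_lit 5) (nat_lit 141) (nat_lit 5) (nat_lit 322) (nat_lit 319) (nat_lit 223)) (XT.nd (nat_lit 94) (nat_lit 0) (nat_lit 84) (XT.lf (nat_lit 84) (nat_lit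 3407922597) (nat_lit 0) (nat_lit 3998754008) (nat_lit 1092) (nat_lit 4263162110) (nat_lit 129) (nat_lit 5) (nat_lit 128) (nat_lit 5) (nat_lit 141) (nat_lit 5) (nat_lit 323) (nat_lit 319) (nat_lit 222)) (XT.lf (nat_lit 0) (nat_lit 8104866896) (nat_lit 1008) (nat_lit 3668265483) (nat_lit 1092) (nat_lit 69005799) (nat_lit 129) (nat_lit 5) (nat_lit 141) (nat_lit 5) (nat_lit 142) (nat_lit 5) (nat_lit 324) (nat_lit 319) (nat_lit 221))))) (XT.nd (nat_lit 282) (nat_lit 924) (nat_lit 0) (XT.nd (nat_lit 94) (nat_lit 0) (nat_lit 0) (XT.lf (nat_lit 84) (nat_lit 1036988839) (nat_lit 0) (nat_lit 7821423581) (nat_lit 1092) (nat_lit 3160390369) (nat_lit 130) (nat_lit 5) (nat_lit 129) (nat_lit 5) (nat_lit 142) (nat_lit 5) (nat_lit 325) (nat_lit 319) (nat_lit 220)) (XT.nd (nat_lit 94) (nat_lit 0) (nat_lit 84) (XT.lf (nat_lit 84) (nat_lit 5955185981) (nat_lit 0) (nat_lit 3701366868) (nat_lit 1092) (nat_lit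 2543799715) (nat_lit 130) (nat_lit 5) (nat_lit 129) (nat_lit 5) (nat_lit 142) (nat_lit 5) (nat_lit 326) (nat_lit 319) (nat_lit 219)) (XT.lf (nat_lit 0) (nat_lit 10468375990) (nat_lit 1008) (nat_lit 1378106594) (nat_lit 1092) (nat_lit 541455482) (nat_lit 130) (nat_lit 5) (nat_lit 142) (nat_lit 5) (nat_lit 143) (nat_lit 5) (nat_lit 327) (nat_lit 319) (nat_lit 218)))) (XT.nd (nat_lit 94) (nat_lit 1008) (nat_lit 0) (XT.lf (nat_lit 84) (nat_lit 3665148411) (nat_lit 0) (nat_lit 7698447649) (nat_lit 1092) (nat_lit 1216000401) (nat_lit 131) (nat_lit 5) (nat_lit 130) (nat_lit 5) (nat_lit 143) (nat_lit 5) (nat_lit 328) (nat_lit 319) (nat_lit 217)) (XT.nd (nat_lit 94) (nat_lit 1008) (nat_lit 0) (XT.lf (nat_lit 84) (nat_lit 8883395364) (nat_lit 0) (nat_lit 3401948430) (nat_lit 1092) (nat_lit 491951416) (nat_lit 131) (nat_lit 5) (nat_lit 130) (nat_lit 5) (nat_lit 143) (nat_lit 5) (nat_lit 329) (nat_lit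 319) (nat_lit 216)) (XT.lf (nat_lit 0) (nat_lit 257310789) (nat_lit 1092) (nat_lit 11696341970) (nat_lit 1176) (nat_lit 1027204183) (nat_lit 118) (nat_lit 5) (nat_lit 131) (nat_lit 5) (nat_lit 132) (nat_lit 5) (nat_lit 330) (nat_lit 319) (nat_lit 215))))))))
noncomputable def xc95 : XT := (XT.nd (nat_lit 1974) (nat_lit 3024) (nat_lit 0) (XT.nd (nat_lit 940) (nat_lit 2100) (nat_lit 0) (XT.nd (nat_lit 470) (nat_lit 1428) (nat_lit 0) (XT.nd (nat_lit 188) (nat_lit 0) (nat_lit 84) (XT.nd (nat_lit 94) (nat_lit 0) (nat_lit 0) (XT.lf (nat_lit 0) (nat_lit 1080484639) (nat_lit 1092) (nat_lit 6534777931) (nat_lit 1176) (nat_lit 5573478191) (nat_lit 118) (nat_lit 5) (nat_lit 131) (nat_lit 5) (nat_lit 132) (nat_lit 5) (nat_lit 331) (nat_lit 319) (nat_lit 214)) (XT.lf (nat_lit 0) (nat_lit 1914675956) (nat_lit 1092) (nat_lit 1223949312) (nat_lit 1176) (nat_lit 10264947221) (nat_lit 118) (nat_lit 5) (nat_lit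 131) (nat_lit 5) (nat_lit 132) (nat_lit 5) (nat_lit 332) (nat_lit 319) (nat_lit 213))) (XT.nd (nat_lit 94) (nat_lit 0) (nat_lit 0) (XT.lf (nat_lit 0) (nat_lit 2818724777) (nat_lit 1092) (nat_lit 9311046805) (nat_lit 1176) (nat_lit 1493980854) (nat_lit 119) (nat_lit 5) (nat_lit 132) (nat_lit 5) (nat_lit 133) (nat_lit 5) (nat_lit 333) (nat_lit 319) (nat_lit 212)) (XT.nd (nat_lit 94) (nat_lit 0) (nat_lit 0) (XT.lf (nat_lit 0) (nat_lit 3782095728) (nat_lit 1092) (nat_lit 3846475610) (nat_lit 1176) (nat_lit 6221267214) (nat_lit 119) (nat_lit 5) (nat_lit 132) (nat_lit 5) (nat_lit 133) (nat_lit 5) (nat_lit 334) (nat_lit 319) (nat_lit 211)) (XT.lf (nat_lit 84) (nat_lit 1813535274) (nat_lit 0) (nat_lit 2966488318) (nat_lit 1176) (nat_lit 9302813540) (nat_lit 120) (nat_lit 5) (nat_lit 119) (nat_lit 5) (nat_lit 133) (nat_lit 5) (nat_lit 335) (nat_lit 319) (nat_lit 210))))) (XT.nd (nat_lit 188) (nat_lit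 1596) (nat_lit 0) (XT.nd (nat_lit 94) (nat_lit 0) (nat_lit 0) (XT.lf (nat_lit 0) (nat_lit 5854725892) (nat_lit 1092) (nat_lit 6620800206) (nat_lit 84) (nat_lit 1846159347) (nat_lit 120) (nat_lit 5) (nat_lit 133) (nat_lit 5) (nat_lit 121) (nat_lit 5) (nat_lit 336) (nat_lit 319) (nat_lit 209)) (XT.lf (nat_lit 0) (nat_lit 6980498819) (nat_lit 1092) (nat_lit 838079412) (nat_lit 84) (nat_lit 6748855767) (nat_lit 120) (nat_lit 5) (nat_lit 133) (nat_lit 5) (nat_lit 121) (nat_lit 5) (nat_lit 337) (nat_lit 319) (nat_lit 208))) (XT.nd (nat_lit 94) (nat_lit 504) (nat_lit 0) (XT.lf (nat_lit 0) (nat_lit 5218826275) (nat_lit 1092) (nat_lit 2961908905) (nat_lit 1176) (nat_lit 6638884024) (nat_lit 107) (nat_lit 5) (nat_lit 120) (nat_lit 5) (nat_lit 121) (nat_lit 5) (nat_lit 338) (nat_lit 319) (nat_lit 207)) (XT.nd (nat_lit 94) (nat_lit 504) (nat_lit 0) (XT.lf (nat_lit 0) (nat_lit 9435383673) (nat_lit 1176)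 (nat_lit 3629022751) (nat_lit 84) (nat_lit 2014725975) (nat_lit 107) (nat_lit 5) (nat_lit 121) (nat_lit 5) (nat_lit 108) (nat_lit 5) (nat_lit 339) (nat_lit 319) (nat_lit 206)) (XT.lf (nat_lit 0) (nat_lit 2538485753) (nat_lit 504) (nat_lit 8234352149) (nat_lit 588) (nat_lit 4572533625) (nat_lit 101) (nat_lit 5) (nat_lit 107) (nat_lit 5) (nat_lit 108) (nat_lit 5) (nat_lit 340) (nat_lit 319) (nat_lit 205)))))) (XT.nd (nat_lit 470) (nat_lit 924) (nat_lit 0) (XT.nd (nat_lit 188) (nat_lit 1176) (nat_lit 0) (XT.nd (nat_lit 94) (nat_lit 0) (nat_lit 0) (XT.lf (nat_lit 0) (nat_lit 8963986032) (nat_lit 504) (nat_lit 3214330084) (nat_lit 588) (nat_lit 3440765518) (nat_lit 101) (nat_lit 5) (nat_lit 107) (nat_lit 5) (nat_lit 108) (nat_lit 5) (nat_lit 341) (nat_lit 319) (nat_lit 204)) (XT.lf (nat_lit 0) (nat_lit 13635855609) (nat_lit 588) (nat_lit 342277470) (nat_lit 84) (nat_lit 1922920219) (nat_lit 101)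 (nat_lit 5) (nat_lit 108) (nat_lit 5) (nat_lit 102) (nat_lit 5) (nat_lit 342) (nat_lit 319) (nat_lit 203))) (XT.nd (nat_lit 94) (nat_lit 588) (nat_lit 0) (XT.lf (nat_lit 0) (nat_lit 6249359917) (nat_lit 588) (nat_lit 8973453053) (nat_lit 672) (nat_lit 966380439) (nat_lit 94) (nat_lit 5) (nat_lit 101) (nat_lit 5) (nat_lit 102) (nat_lit 5) (nat_lit 343) (nat_lit 319) (nat_lit 202)) (XT.nd (nat_lit 94) (nat_lit 504) (nat_lit 0) (XT.lf (nat_lit 0) (nat_lit 358244229) (nat_lit 672) (nat_lit 3447361449) (nat_lit 84) (nat_lit 12680797223) (nat_lit 93) (nat_lit 5) (nat_lit 101) (nat_lit 5) (nat_lit 94) (nat_lit 5) (nat_lit 344) (nat_lit 319) (nat_lit 201)) (XT.lf (nat_lit 0) (nat_lit 1741830104) (nat_lit 588) (nat_lit 13514324594) (nat_lit 84) (nat_lit 1535222873) (nat_lit 87) (nat_lit 5) (nat_lit 94) (nat_lit 5) (nat_lit 88) (nat_lit 5) (nat_lit 345) (nat_lit 319) (nat_lit 200))))) (XT.nd (nat_lit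 282) (nat_lit 420) (nat_lit 0) (XT.nd (nat_lit 94) (nat_lit 504) (nat_lit 0) (XT.lf (nat_lit 0) (nat_lit 3233557850) (nat_lit 588) (nat_lit 6870988642) (nat_lit 84) (nat_lit 6999271341) (nat_lit 87) (nat_lit 5) (nat_lit 94) (nat_lit 5) (nat_lit 88) (nat_lit 5) (nat_lit 346) (nat_lit 319) (nat_lit 199)) (XT.nd (nat_lit 94) (nat_lit 504) (nat_lit 0) (XT.lf (nat_lit 0) (nat_lit 4761807436) (nat_lit 588) (nat_lit 31421938) (nat_lit 84) (nat_lit 12633048863) (nat_lit 87) (nat_lit 5) (nat_lit 94) (nat_lit 5) (nat_lit 88) (nat_lit 5) (nat_lit 347) (nat_lit 319) (nat_lit 198)) (XT.lf (nat_lit 0) (nat_lit 6406479777) (nat_lit 588) (nat_lit 10609451800) (nat_lit 84) (nat_lit 740695007) (nat_lit 81) (nat_lit 5) (nat_lit 88) (nat_lit 5) (nat_lit 82) (nat_lit 5) (nat_lit 348) (nat_lit 319) (nat_lit 197)))) (XT.nd (nat_lit 94) (nat_lit 420) (nat_lit 0) (XT.lf (nat_lit 0) (nat_lit 8142252502) (nat_lit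 588) (nat_lit 3606900180) (nat_lit 84) (nat_lit 6346850626) (nat_lit 81) (nat_lit 5) (nat_lit 88) (nat_lit 5) (nat_lit 82) (nat_lit 5) (nat_lit 349) (nat_lit 319) (nat_lit 196)) (XT.nd (nat_lit 94) (nat_lit 0) (nat_lit 0) (XT.lf (nat_lit 0) (nat_lit 3677471367) (nat_lit 420) (nat_lit 6281882334) (nat_lit 504) (nat_lit 8485724128) (nat_lit 76) (nat_lit 5) (nat_lit 81) (nat_lit 5) (nat_lit 82) (nat_lit 5) (nat_lit 350) (nat_lit 319) (nat_lit 195)) (XT.lf (nat_lit 0) (nat_lit 11254865478) (nat_lit 420) (nat_lit 606784368) (nat_lit 504) (nat_lit 6942458319) (nat_lit 76) (nat_lit 5) (nat_lit 81) (nat_lit 5) (nat_lit 82) (nat_lit 5) (nat_lit 351) (nat_lit 319) (nat_lit 194))))))) (XT.nd (nat_lit 1034) (nat_lit 1344) (nat_lit 0) (XT.nd (nat_lit 470) (nat_lit 756) (nat_lit 0) (XT.nd (nat_lit 188) (nat_lit 504) (nat_lit 0) (XT.nd (nat_lit 94) (nat_lit 420) (nat_lit 0) (XT.lf (nat_lit 0) (nat_lit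 13866416421) (nat_lit 504) (nat_lit 168400146) (nat_lit 84) (nat_lit 5138131831) (nat_lit 76) (nat_lit 5) (nat_lit 82) (nat_lit 5) (nat_lit 77) (nat_lit 5) (nat_lit 352) (nat_lit 319) (nat_lit 193)) (XT.lf (nat_lit 0) (nat_lit 7578749096) (nat_lit 420) (nat_lit 8427701799) (nat_lit 504) (nat_lit 3544532638) (nat_lit 71) (nat_lit 5) (nat_lit 76) (nat_lit 5) (nat_lit 77) (nat_lit 5) (nat_lit 353) (nat_lit 319) (nat_lit 192))) (XT.nd (nat_lit 94) (nat_lit 504) (nat_lit 0) (XT.lf (nat_lit 0) (nat_lit 15560732614) (nat_lit 420) (nat_lit 2645743944) (nat_lit 504) (nat_lit 1734484794) (nat_lit 71) (nat_lit 5) (nat_lit 76) (nat_lit 5) (nat_lit 77) (nat_lit 5) (nat_lit 354) (nat_lit 319) (nat_lit 191)) (XT.nd (nat_lit 94) (nat_lit 0) (nat_lit 0) (XT.lf (nat_lit 0) (nat_lit 189099003) (nat_lit 504) (nat_lit 16867756165) (nat_lit 84) (nat_lit 3284295588) (nat_lit 65) (nat_lit 5) (nat_lit 71) (nat_lit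 5) (nat_lit 66) (nat_lit 5) (nat_lit 355) (nat_lit 319) (nat_lit 190)) (XT.lf (nat_lit 0) (nat_lit 2201706798) (nat_lit 504) (nat_lit 9143244195) (nat_lit 84) (nat_lit 9406241426) (nat_lit 65) (nat_lit 5) (nat_lit 71) (nat_lit 5) (nat_lit 66) (nat_lit 5) (nat_lit 356) (nat_lit 319) (nat_lit 189))))) (XT.nd (nat_lit 282) (nat_lit 336) (nat_lit 0) (XT.nd (nat_lit 94) (nat_lit 420) (nat_lit 0) (XT.lf (nat_lit 0) (nat_lit 4269115011) (nat_lit 504) (nat_lit 1187989372) (nat_lit 84) (nat_lit 15717099967) (nat_lit 65) (nat_lit 5) (nat_lit 71) (nat_lit 5) (nat_lit 66) (nat_lit 5) (nat_lit 357) (nat_lit 319) (nat_lit 188)) (XT.nd (nat_lit 94) (nat_lit 0) (nat_lit 0) (XT.lf (nat_lit 0) (nat_lit 6470972517) (nat_lit 504) (nat_lit 14465711114) (nat_lit 84) (nat_lit 671487835) (nat_lit 60) (nat_lit 5) (nat_lit 66) (nat_lit 5) (nat_lit 61) (nat_lit 5) (nat_lit 358) (nat_lit 319) (nat_lit 187)) (XT.lf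 (nat_lit 0) (nat_lit 8802192726) (nat_lit 504) (nat_lit 6363412718) (nat_lit 84) (nat_lit 6888114130) (nat_lit 60) (nat_lit 5) (nat_lit 66) (nat_lit 5) (nat_lit 61) (nat_lit 5) (nat_lit 359) (nat_lit 319) (nat_lit 186)))) (XT.nd (nat_lit 94) (nat_lit 0) (nat_lit 0) (XT.lf (nat_lit 0) (nat_lit 2022459523) (nat_lit 336) (nat_lit 9196266618) (nat_lit 420) (nat_lit 11293970730) (nat_lit 56) (nat_lit 5) (nat_lit 60) (nat_lit 5) (nat_lit 61) (nat_lit 5) (nat_lit 360) (nat_lit 319) (nat_lit 185)) (XT.nd (nat_lit 94) (nat_lit 0) (nat_lit 0) (XT.lf (nat_lit 0) (nat_lit 10794933844) (nat_lit 336) (nat_lit 2974770613) (nat_lit 420) (nat_lit 9214373455) (nat_lit 56) (nat_lit 5) (nat_lit 60) (nat_lit 5) (nat_lit 61) (nat_lit 5) (nat_lit 361) (nat_lit 319) (nat_lit 184)) (XT.lf (nat_lit 0) (nat_lit 16427189586) (nat_lit 420) (nat_lit 3673064893) (nat_lit 84) (nat_lit 3368987388) (nat_lit 56) (nat_lit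 5) (nat_lit 61) (nat_lit 5) (nat_lit 57) (nat_lit 5) (nat_lit 362) (nat_lit 319) (nat_lit 183)))))) (XT.nd (nat_lit 470) (nat_lit 588) (nat_lit 0) (XT.nd (nat_lit 188) (nat_lit 420) (nat_lit 0) (XT.nd (nat_lit 94) (nat_lit 0) (nat_lit 0) (XT.lf (nat_lit 0) (nat_lit 5172829356) (nat_lit 336) (nat_lit 14069474015) (nat_lit 420) (nat_lit 4724829601) (nat_lit 52) (nat_lit 5) (nat_lit 56) (nat_lit 5) (nat_lit 57) (nat_lit 5) (nat_lit 363) (nat_lit 319) (nat_lit 182)) (XT.lf (nat_lit 0) (nat_lit 14362914702) (nat_lit 336) (nat_lit 7813733737) (nat_lit 420) (nat_lit 2302838535) (nat_lit 52) (nat_lit 5) (nat_lit 56) (nat_lit 5) (nat_lit 57) (nat_lit 5) (nat_lit 364) (nat_lit 319) (nat_lit 181))) (XT.nd (nat_lit 94) (nat_lit 336) (nat_lit 0) (XT.lf (nat_lit 0) (nat_lit 184054659) (nat_lit 420) (nat_lit 1179566094) (nat_lit 84) (nat_lit 23644255705) (nat_lit 51) (nat_lit 5) (nat_lit 56) (nat_lit 5)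 (nat_lit 52) (nat_lit 5) (nat_lit 365) (nat_lit 319) (nat_lit 180)) (XT.nd (nat_lit 94) (nat_lit 0) (nat_lit 0) (XT.lf (nat_lit 0) (nat_lit 2828652184) (nat_lit 420) (nat_lit 17435179931) (nat_lit 84) (nat_lit 5284119389) (nat_lit 47) (nat_lit 5) (nat_lit 52) (nat_lit 5) (nat_lit 48) (nat_lit 5) (nat_lit 366) (nat_lit 319) (nat_lit 179)) (XT.lf (nat_lit 0) (nat_lit 5575632476) (nat_lit 420) (nat_lit 8407965254) (nat_lit 84) (nat_lit 12120555660) (nat_lit 47) (nat_lit 5) (nat_lit 52) (nat_lit 5) (nat_lit 48) (nat_lit 5) (nat_lit 367) (nat_lit 319) (nat_lit 178))))) (XT.nd (nat_lit 282) (nat_lit 252) (nat_lit 0) (XT.nd (nat_lit 94) (nat_lit 0) (nat_lit 0) (XT.lf (nat_lit 0) (nat_lit 909974674) (nat_lit 336) (nat_lit 7501016922) (nat_lit 420) (nat_lit 18266522454) (nat_lit 43) (nat_lit 5) (nat_lit 47) (nat_lit 5) (nat_lit 48) (nat_lit 5) (nat_lit 368) (nat_lit 319) (nat_lit 177)) (XT.nd (nat_lit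 94) (nat_lit 0) (nat_lit 0) (XT.lf (nat_lit 0) (nat_lit 10687638268) (nat_lit 336) (nat_lit 728667225) (nat_lit 420) (nat_lit 15849815499) (nat_lit 43) (nat_lit 5) (nat_lit 47) (nat_lit 5) (nat_lit 48) (nat_lit 5) (nat_lit 369) (nat_lit 319) (nat_lit 176)) (XT.lf (nat_lit 0) (nat_lit 14571272972) (nat_lit 420) (nat_lit 7173927985) (nat_lit 84) (nat_lit 6126038078) (nat_lit 43) (nat_lit 5) (nat_lit 48) (nat_lit 5) (nat_lit 44) (nat_lit 5) (nat_lit 370) (nat_lit 319) (nat_lit 175)))) (XT.nd (nat_lit 94) (nat_lit 0) (nat_lit 0) (XT.lf (nat_lit 0) (nat_lit 2559171343) (nat_lit 252) (nat_lit 15292331873) (nat_lit 336) (nat_lit 10642776277) (nat_lit 40) (nat_lit 5) (nat_lit 43) (nat_lit 5) (nat_lit 44) (nat_lit 5) (nat_lit 371) (nat_lit 319) (nat_lit 174)) (XT.nd (nat_lit 94) (nat_lit 0) (nat_lit 0) (XT.lf (nat_lit 0) (nat_lit 12739046537) (nat_lit 252) (nat_lit 8563966103) (nat_lit 336) (nat_lit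 7831478735) (nat_lit 40) (nat_lit 5) (nat_lit 43) (nat_lit 5) (nat_lit 44) (nat_lit 5) (nat_lit 372) (nat_lit 319) (nat_lit 173)) (XT.lf (nat_lit 0) (nat_lit 23227675634) (nat_lit 252) (nat_lit 1628713202) (nat_lit 336) (nat_lit 4938334110) (nat_lit 40) (nat_lit 5) (nat_lit 43) (nat_lit 5) (nat_lit 44) (nat_lit 5) (nat_lit 373) (nat_lit 319) (nat_lit 172))))))))
noncomputable def xc96 : XT := (XT.nd (nat_lit 1974) (nat_lit 4284) (nat_lit 0) (XT.nd (nat_lit 940) (nat_lit 1680) (nat_lit 0) (XT.nd (nat_lit 470) (nat_lit 0) (nat_lit 84) (XT.nd (nat_lit 188) (nat_lit 0) (nat_lit 0) (XT.nd (nat_lit 94) (nat_lit 0) (nat_lit 0) (XT.lf (nat_lit 0) (nat_lit 3008726635) (nat_lit 1092) (nat_lit 1329934615) (nat_lit 1092) (nat_lit 1329934615) (nat_lit 127) (nat_lit 3) (nat_lit 140) (nat_lit 3) (nat_lit 140) (nat_lit 5) (nat_lit 320) (nat_lit 320) (nat_lit 224)) (XT.lf (nat_lit 84) (nat_lit 1768521822)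 (nat_lit 0) (nat_lit 4819752288) (nat_lit 1092) (nat_lit 4908022054) (nat_lit 128) (nat_lit 5) (nat_lit 127) (nat_lit 3) (nat_lit 140) (nat_lit 5) (nat_lit 321) (nat_lit 320) (nat_lit 223))) (XT.nd (nat_lit 94) (nat_lit 0) (nat_lit 84) (XT.lf (nat_lit 84) (nat_lit 6380791552) (nat_lit 0) (nat_lit 805129108) (nat_lit 1092) (nat_lit 4474202396) (nat_lit 128) (nat_lit 5) (nat_lit 127) (nat_lit 3) (nat_lit 140) (nat_lit 5) (nat_lit 322) (nat_lit 320) (nat_lit 222)) (XT.nd (nat_lit 94) (nat_lit 0) (nat_lit 0) (XT.lf (nat_lit 0) (nat_lit 7817179467) (nat_lit 1008) (nat_lit 736271454) (nat_lit 1092) (nat_lit 3275181071) (nat_lit 128) (nat_lit 5) (nat_lit 140) (nat_lit 5) (nat_lit 141) (nat_lit 5) (nat_lit 323) (nat_lit 320) (nat_lit 221)) (XT.lf (nat_lit 84) (nat_lit 4010282830) (nat_lit 0) (nat_lit 4488294450) (nat_lit 1092) (nat_lit 3502908674) (nat_lit 129) (nat_lit 5) (nat_lit 128) (nat_lit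 5) (nat_lit 141) (nat_lit 5) (nat_lit 324) (nat_lit 320) (nat_lit 220))))) (XT.nd (nat_lit 188) (nat_lit 0) (nat_lit 84) (XT.nd (nat_lit 94) (nat_lit 0) (nat_lit 84) (XT.lf (nat_lit 84) (nat_lit 8909784826) (nat_lit 0) (nat_lit 281979007) (nat_lit 1092) (nat_lit 2988290773) (nat_lit 129) (nat_lit 5) (nat_lit 128) (nat_lit 5) (nat_lit 141) (nat_lit 5) (nat_lit 325) (nat_lit 320) (nat_lit 219)) (XT.lf (nat_lit 84) (nat_lit 1578435748) (nat_lit 0) (nat_lit 8367446566) (nat_lit 1092) (nat_lit 2417118670) (nat_lit 130) (nat_lit 5) (nat_lit 129) (nat_lit 5) (nat_lit 142) (nat_lit 5) (nat_lit 326) (nat_lit 320) (nat_lit 218))) (XT.nd (nat_lit 94) (nat_lit 0) (nat_lit 84) (XT.lf (nat_lit 84) (nat_lit 6633783415) (nat_lit 0) (nat_lit 4110540719) (nat_lit 1092) (nat_lit 1806708135) (nat_lit 130) (nat_lit 5) (nat_lit 129) (nat_lit 5) (nat_lit 142) (nat_lit 5) (nat_lit 327) (nat_lit 320) (nat_lit 217))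 (XT.nd (nat_lit 94) (nat_lit 0) (nat_lit 0) (XT.lf (nat_lit 0) (nat_lit 11554774744) (nat_lit 1008) (nat_lit 912157976) (nat_lit 1092) (nat_lit 278415830) (nat_lit 130) (nat_lit 5) (nat_lit 142) (nat_lit 5) (nat_lit 143) (nat_lit 5) (nat_lit 328) (nat_lit 320) (nat_lit 216)) (XT.lf (nat_lit 84) (nat_lit 4282288107) (nat_lit 0) (nat_lit 8177545409) (nat_lit 1092) (nat_lit 483760270) (nat_lit 131) (nat_lit 5) (nat_lit 130) (nat_lit 5) (nat_lit 143) (nat_lit 5) (nat_lit 329) (nat_lit 320) (nat_lit 215)))))) (XT.nd (nat_lit 470) (nat_lit 840) (nat_lit 0) (XT.nd (nat_lit 188) (nat_lit 0) (nat_lit 84) (XT.nd (nat_lit 94) (nat_lit 0) (nat_lit 84) (XT.lf (nat_lit 0) (nat_lit 234756792) (nat_lit 1092) (nat_lit 3503417841) (nat_lit 1176) (nat_lit 9409953754) (nat_lit 117) (nat_lit 5) (nat_lit 130) (nat_lit 5) (nat_lit 131) (nat_lit 5) (nat_lit 330) (nat_lit 320) (nat_lit 214)) (XT.lf (nat_lit 0) (nat_lit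 977875969) (nat_lit 1092) (nat_lit 11530963223) (nat_lit 1176) (nat_lit 849681287) (nat_lit 118) (nat_lit 5) (nat_lit 131) (nat_lit 5) (nat_lit 132) (nat_lit 5) (nat_lit 331) (nat_lit 320) (nat_lit 213))) (XT.nd (nat_lit 94) (nat_lit 0) (nat_lit 0) (XT.lf (nat_lit 0) (nat_lit 1805142171) (nat_lit 1092) (nat_lit 6225265505) (nat_lit 1176) (nat_lit 5543184991) (nat_lit 118) (nat_lit 5) (nat_lit 131) (nat_lit 5) (nat_lit 132) (nat_lit 5) (nat_lit 332) (nat_lit 320) (nat_lit 212)) (XT.nd (nat_lit 94) (nat_lit 0) (nat_lit 84) (XT.lf (nat_lit 0) (nat_lit 2644411617) (nat_lit 1092) (nat_lit 765198683) (nat_lit 1176) (nat_lit 10386195479) (nat_lit 118) (nat_lit 5) (nat_lit 131) (nat_lit 5) (nat_lit 132) (nat_lit 5) (nat_lit 333) (nat_lit 320) (nat_lit 211)) (XT.lf (nat_lit 0) (nat_lit 3559585075) (nat_lit 1092) (nat_lit 9083674707) (nat_lit 1176) (nat_lit 1380150489) (nat_lit 119) (nat_lit 5) (nat_lit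 132) (nat_lit 5) (nat_lit 133) (nat_lit 5) (nat_lit 334) (nat_lit 320) (nat_lit 210))))) (XT.nd (nat_lit 282) (nat_lit 1008) (nat_lit 0) (XT.nd (nat_lit 94) (nat_lit 0) (nat_lit 0) (XT.lf (nat_lit 0) (nat_lit 4533171763) (nat_lit 1092) (nat_lit 3465217276) (nat_lit 1176) (nat_lit 6258797912) (nat_lit 119) (nat_lit 5) (nat_lit 132) (nat_lit 5) (nat_lit 133) (nat_lit 5) (nat_lit 335) (nat_lit 320) (nat_lit 209)) (XT.nd (nat_lit 94) (nat_lit 0) (nat_lit 84) (XT.lf (nat_lit 84) (nat_lit 2365186841) (nat_lit 0) (nat_lit 3182705329) (nat_lit 1176) (nat_lit 8950025350) (nat_lit 120) (nat_lit 5) (nat_lit 119) (nat_lit 5) (nat_lit 133) (nat_lit 5) (nat_lit 336) (nat_lit 320) (nat_lit 208)) (XT.lf (nat_lit 0) (nat_lit 6636081962) (nat_lit 1092) (nat_lit 6323472589) (nat_lit 84) (nat_lit 1785298730) (nat_lit 120) (nat_lit 5) (nat_lit 133) (nat_lit 5) (nat_lit 121) (nat_lit 5) (nat_lit 337) (nat_lit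 320) (nat_lit 207)))) (XT.nd (nat_lit 94) (nat_lit 1092) (nat_lit 0) (XT.lf (nat_lit 0) (nat_lit 7778717334) (nat_lit 1092) (nat_lit 376598745) (nat_lit 84) (nat_lit 6843529504) (nat_lit 120) (nat_lit 5) (nat_lit 133) (nat_lit 5) (nat_lit 121) (nat_lit 5) (nat_lit 338) (nat_lit 320) (nat_lit 206)) (XT.nd (nat_lit 94) (nat_lit 0) (nat_lit 0) (XT.lf (nat_lit 0) (nat_lit 5863135913) (nat_lit 1092) (nat_lit 3140317634) (nat_lit 1176) (nat_lit 6255853332) (nat_lit 107) (nat_lit 5) (nat_lit 120) (nat_lit 5) (nat_lit 121) (nat_lit 5) (nat_lit 339) (nat_lit 320) (nat_lit 205)) (XT.lf (nat_lit 0) (nat_lit 10279050883) (nat_lit 1176) (nat_lit 3253544258) (nat_lit 84) (nat_lit 1994888623) (nat_lit 107) (nat_lit 5) (nat_lit 121) (nat_lit 5) (nat_lit 108) (nat_lit 5) (nat_lit 340) (nat_lit 320) (nat_lit 204))))))) (XT.nd (nat_lit 940) (nat_lit 2100) (nat_lit 0) (XT.nd (nat_lit 470) (nat_lit 1008) (nat_lit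 0) (XT.nd (nat_lit 188) (nat_lit 672) (nat_lit 0) (XT.nd (nat_lit 94) (nat_lit 0) (nat_lit 0) (XT.lf (nat_lit 0) (nat_lit 3100216669) (nat_lit 504) (nat_lit 8545968789) (nat_lit 588) (nat_lit 4156216652) (nat_lit 101) (nat_lit 5) (nat_lit 107) (nat_lit 5) (nat_lit 108) (nat_lit 5) (nat_lit 341) (nat_lit 320) (nat_lit 203)) (XT.lf (nat_lit 0) (nat_lit 9710383524) (nat_lit 504) (nat_lit 3368631662) (nat_lit 588) (nat_lit 3006143588) (nat_lit 101) (nat_lit 5) (nat_lit 107) (nat_lit 5) (nat_lit 108) (nat_lit 5) (nat_lit 342) (nat_lit 320) (nat_lit 202))) (XT.nd (nat_lit 94) (nat_lit 84) (nat_lit 0) (XT.lf (nat_lit 0) (nat_lit 122094183) (nat_lit 588) (nat_lit 14444598846) (nat_lit 672) (nat_lit 1809701949) (nat_lit 94) (nat_lit 5) (nat_lit 101) (nat_lit 5) (nat_lit 102) (nat_lit 5) (nat_lit 343) (nat_lit 320) (nat_lit 201)) (XT.nd (nat_lit 94) (nat_lit 84) (nat_lit 0) (XT.lf (nat_lit 0) (nat_lit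 6910828540) (nat_lit 588) (nat_lit 9280204505) (nat_lit 672) (nat_lit 482855889) (nat_lit 94) (nat_lit 5) (nat_lit 101) (nat_lit 5) (nat_lit 102) (nat_lit 5) (nat_lit 344) (nat_lit 320) (nat_lit 200)) (XT.lf (nat_lit 0) (nat_lit 857358354) (nat_lit 672) (nat_lit 3088842528) (nat_lit 84) (nat_lit 13034474129) (nat_lit 93) (nat_lit 5) (nat_lit 101) (nat_lit 5) (nat_lit 94) (nat_lit 5) (nat_lit 345) (nat_lit 320) (nat_lit 199))))) (XT.nd (nat_lit 188) (nat_lit 504) (nat_lit 0) (XT.nd (nat_lit 94) (nat_lit 0) (nat_lit 0) (XT.lf (nat_lit 0) (nat_lit 2273561039) (nat_lit 588) (nat_lit 13455979519) (nat_lit 84) (nat_lit 1565932299) (nat_lit 87) (nat_lit 5) (nat_lit 94) (nat_lit 5) (nat_lit 88) (nat_lit 5) (nat_lit 346) (nat_lit 320) (nat_lit 198)) (XT.lf (nat_lit 0) (nat_lit 3797167883) (nat_lit 588) (nat_lit 6621051232) (nat_lit 84) (nat_lit 7199873890) (nat_lit 87) (nat_lit 5) (nat_lit 94) (nat_lit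 5) (nat_lit 88) (nat_lit 5) (nat_lit 347) (nat_lit 320) (nat_lit 197))) (XT.nd (nat_lit 94) (nat_lit 0) (nat_lit 0) (XT.lf (nat_lit 0) (nat_lit 425189077) (nat_lit 504) (nat_lit 4937889504) (nat_lit 588) (nat_lit 12587819724) (nat_lit 81) (nat_lit 5) (nat_lit 87) (nat_lit 5) (nat_lit 88) (nat_lit 5) (nat_lit 348) (nat_lit 320) (nat_lit 196)) (XT.nd (nat_lit 94) (nat_lit 0) (nat_lit 0) (XT.lf (nat_lit 0) (nat_lit 7045454497) (nat_lit 588) (nat_lit 10478777774) (nat_lit 84) (nat_lit 767712940) (nat_lit 81) (nat_lit 5) (nat_lit 88) (nat_lit 5) (nat_lit 82) (nat_lit 5) (nat_lit 349) (nat_lit 320) (nat_lit 195)) (XT.lf (nat_lit 0) (nat_lit 8821795061) (nat_lit 588) (nat_lit 3272965267) (nat_lit 84) (nat_lit 6547537417) (nat_lit 81) (nat_lit 5) (nat_lit 88) (nat_lit 5) (nat_lit 82) (nat_lit 5) (nat_lit 350) (nat_lit 320) (nat_lit 194)))))) (XT.nd (nat_lit 470) (nat_lit 1260) (nat_lit 0) (XT.nd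 (nat_lit 188) (nat_lit 420) (nat_lit 0) (XT.nd (nat_lit 94) (nat_lit 0) (nat_lit 0) (XT.lf (nat_lit 0) (nat_lit 4232708991) (nat_lit 420) (nat_lit 6454051540) (nat_lit 504) (nat_lit 8315738801) (nat_lit 76) (nat_lit 5) (nat_lit 81) (nat_lit 5) (nat_lit 82) (nat_lit 5) (nat_lit 351) (nat_lit 320) (nat_lit 193)) (XT.lf (nat_lit 0) (nat_lit 12031735281) (nat_lit 420) (nat_lit 603704144) (nat_lit 504) (nat_lit 6737652437) (nat_lit 76) (nat_lit 5) (nat_lit 81) (nat_lit 5) (nat_lit 82) (nat_lit 5) (nat_lit 352) (nat_lit 320) (nat_lit 192))) (XT.nd (nat_lit 94) (nat_lit 0) (nat_lit 0) (XT.lf (nat_lit 0) (nat_lit 260033156) (nat_lit 420) (nat_lit 14432900872) (nat_lit 504) (nat_lit 5060764875) (nat_lit 71) (nat_lit 5) (nat_lit 76) (nat_lit 5) (nat_lit 77) (nat_lit 5) (nat_lit 353) (nat_lit 320) (nat_lit 191)) (XT.nd (nat_lit 94) (nat_lit 0) (nat_lit 0) (XT.lf (nat_lit 0) (nat_lit 8237767624) (nat_lit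 420) (nat_lit 8651320156) (nat_lit 504) (nat_lit 3254721746) (nat_lit 71) (nat_lit 5) (nat_lit 76) (nat_lit 5) (nat_lit 77) (nat_lit 5) (nat_lit 354) (nat_lit 320) (nat_lit 190)) (XT.lf (nat_lit 0) (nat_lit 16454441519) (nat_lit 420) (nat_lit 2691253375) (nat_lit 504) (nat_lit 1400580299) (nat_lit 71) (nat_lit 5) (nat_lit 76) (nat_lit 5) (nat_lit 77) (nat_lit 5) (nat_lit 355) (nat_lit 320) (nat_lit 189))))) (XT.nd (nat_lit 282) (nat_lit 756) (nat_lit 0) (XT.nd (nat_lit 94) (nat_lit 0) (nat_lit 0) (XT.lf (nat_lit 0) (nat_lit 567961384) (nat_lit 504) (nat_lit 16962294395) (nat_lit 84) (nat_lit 3428744270) (nat_lit 65) (nat_lit 5) (nat_lit 71) (nat_lit 5) (nat_lit 66) (nat_lit 5) (nat_lit 356) (nat_lit 320) (nat_lit 188)) (XT.nd (nat_lit 94) (nat_lit 0) (nat_lit 0) (XT.lf (nat_lit 0) (nat_lit 2631744686) (nat_lit 504) (nat_lit 9011202505) (nat_lit 84) (nat_lit 9739188468) (nat_lit 65) (nat_lit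 5) (nat_lit 71) (nat_lit 5) (nat_lit 66) (nat_lit 5) (nat_lit 357) (nat_lit 320) (nat_lit 187)) (XT.lf (nat_lit 0) (nat_lit 4752364442) (nat_lit 504) (nat_lit 821827459) (nat_lit 84) (nat_lit 16244440209) (nat_lit 65) (nat_lit 5) (nat_lit 71) (nat_lit 5) (nat_lit 66) (nat_lit 5) (nat_lit 358) (nat_lit 320) (nat_lit 186)))) (XT.nd (nat_lit 94) (nat_lit 336) (nat_lit 0) (XT.lf (nat_lit 0) (nat_lit 7016427338) (nat_lit 504) (nat_lit 14504044829) (nat_lit 84) (nat_lit 745800566) (nat_lit 60) (nat_lit 5) (nat_lit 66) (nat_lit 5) (nat_lit 61) (nat_lit 5) (nat_lit 359) (nat_lit 320) (nat_lit 185)) (XT.nd (nat_lit 94) (nat_lit 336) (nat_lit 0) (XT.lf (nat_lit 0) (nat_lit 9409546319) (nat_lit 504) (nat_lit 6162906127) (nat_lit 84) (nat_lit 7153533746) (nat_lit 60) (nat_lit 5) (nat_lit 66) (nat_lit 5) (nat_lit 61) (nat_lit 5) (nat_lit 360) (nat_lit 320) (nat_lit 184)) (XT.lf (nat_lit 0) (nat_lit 2478901065)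 (nat_lit 336) (nat_lit 9415939928) (nat_lit 420) (nat_lit 11304572440) (nat_lit 56) (nat_lit 5) (nat_lit 60) (nat_lit 5) (nat_lit 61) (nat_lit 5) (nat_lit 361) (nat_lit 320) (nat_lit 183))))))))
noncomputable def xc97 : XT := (XT.nd (nat_lit 51230) (nat_lit 0) (nat_lit 3444) (XT.nd (nat_lit 940) (nat_lit 252) (nat_lit 0) (XT.nd (nat_lit 470) (nat_lit 672) (nat_lit 0) (XT.nd (nat_lit 188) (nat_lit 420) (nat_lit 0) (XT.nd (nat_lit 94) (nat_lit 0) (nat_lit 0) (XT.lf (nat_lit 0) (nat_lit 11511482998) (nat_lit 336) (nat_lit 3003544316) (nat_lit 420) (nat_lit 9170716043) (nat_lit 56) (nat_lit 5) (nat_lit 60) (nat_lit 5) (nat_lit 61) (nat_lit 5) (nat_lit 362) (nat_lit 320) (nat_lit 182)) (XT.lf (nat_lit 0) (nat_lit 17245929450) (nat_lit 420) (nat_lit 3406602261) (nat_lit 84) (nat_lit 3533722725) (nat_lit 56) (nat_lit 5) (nat_lit 61) (nat_lit 5) (nat_lit 57) (nat_lit 5) (nat_lit 363) (nat_lit 320)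 (nat_lit 181))) (XT.nd (nat_lit 94) (nat_lit 84) (nat_lit 0) (XT.lf (nat_lit 0) (nat_lit 5709664235) (nat_lit 336) (nat_lit 14433076305) (nat_lit 420) (nat_lit 4557040582) (nat_lit 52) (nat_lit 5) (nat_lit 56) (nat_lit 5) (nat_lit 57) (nat_lit 5) (nat_lit 364) (nat_lit 320) (nat_lit 180)) (XT.nd (nat_lit 94) (nat_lit 84) (nat_lit 0) (XT.lf (nat_lit 0) (nat_lit 15173322350) (nat_lit 336) (nat_lit 7985589547) (nat_lit 420) (nat_lit 2069416892) (nat_lit 52) (nat_lit 5) (nat_lit 56) (nat_lit 5) (nat_lit 57) (nat_lit 5) (nat_lit 365) (nat_lit 320) (nat_lit 179)) (XT.lf (nat_lit 0) (nat_lit 479448426) (nat_lit 420) (nat_lit 855166761) (nat_lit 84) (nat_lit 24438693591) (nat_lit 51) (nat_lit 5) (nat_lit 56) (nat_lit 5) (nat_lit 52) (nat_lit 5) (nat_lit 366) (nat_lit 320) (nat_lit 178))))) (XT.nd (nat_lit 188) (nat_lit 336) (nat_lit 0) (XT.nd (nat_lit 94) (nat_lit 0) (nat_lit 0) (XT.lf (nat_lit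 0) (nat_lit 3201584814) (nat_lit 420) (nat_lit 17609454449) (nat_lit 84) (nat_lit 5519249643) (nat_lit 47) (nat_lit 5) (nat_lit 52) (nat_lit 5) (nat_lit 48) (nat_lit 5) (nat_lit 367) (nat_lit 320) (nat_lit 177)) (XT.lf (nat_lit 0) (nat_lit 6025144795) (nat_lit 420) (nat_lit 8313407463) (nat_lit 84) (nat_lit 12565470919) (nat_lit 47) (nat_lit 5) (nat_lit 52) (nat_lit 5) (nat_lit 48) (nat_lit 5) (nat_lit 368) (nat_lit 320) (nat_lit 176))) (XT.nd (nat_lit 94) (nat_lit 0) (nat_lit 0) (XT.lf (nat_lit 0) (nat_lit 1289792473) (nat_lit 336) (nat_lit 7653776760) (nat_lit 420) (nat_lit 18551762062) (nat_lit 43) (nat_lit 5) (nat_lit 47) (nat_lit 5) (nat_lit 48) (nat_lit 5) (nat_lit 369) (nat_lit 320) (nat_lit 175)) (XT.nd (nat_lit 94) (nat_lit 0) (nat_lit 0) (XT.lf (nat_lit 0) (nat_lit 11359991508) (nat_lit 336) (nat_lit 673882789) (nat_lit 420) (nat_lit 16068586949) (nat_lit 43) (nat_lit 5) (nat_lit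 47) (nat_lit 5) (nat_lit 48) (nat_lit 5) (nat_lit 370) (nat_lit 320) (nat_lit 174)) (XT.lf (nat_lit 0) (nat_lit 15279462439) (nat_lit 420) (nat_lit 7057640413) (nat_lit 84) (nat_lit 6389479909) (nat_lit 43) (nat_lit 5) (nat_lit 48) (nat_lit 5) (nat_lit 44) (nat_lit 5) (nat_lit 371) (nat_lit 320) (nat_lit 173)))))) (XT.nd (nat_lit 49726) (nat_lit 0) (nat_lit 7392) (XT.nd (nat_lit 49444) (nat_lit 0) (nat_lit 7308) (XT.nd (nat_lit 94) (nat_lit 0) (nat_lit 0) (XT.lf (nat_lit 0) (nat_lit 2973756170) (nat_lit 252) (nat_lit 15683237563) (nat_lit 336) (nat_lit 10712101170) (nat_lit 40) (nat_lit 5) (nat_lit 43) (nat_lit 5) (nat_lit 44) (nat_lit 5) (nat_lit 372) (nat_lit 320) (nat_lit 172)) (XT.lf (nat_lit 0) (nat_lit 13459127218) (nat_lit 252) (nat_lit 8748792798) (nat_lit 336) (nat_lit 7821489133) (nat_lit 40) (nat_lit 5) (nat_lit 43) (nat_lit 5) (nat_lit 44) (nat_lit 5) (nat_lit 373) (nat_lit 320)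 (nat_lit 171))) (XT.nd (nat_lit 94) (nat_lit 0) (nat_lit 0) (XT.lf (nat_lit 0) (nat_lit 3557440200) (nat_lit 1092) (nat_lit 1135481730) (nat_lit 1092) (nat_lit 1135481730) (nat_lit 127) (nat_lit 3) (nat_lit 140) (nat_lit 3) (nat_lit 140) (nat_lit 5) (nat_lit 321) (nat_lit 321) (nat_lit 222)) (XT.nd (nat_lit 94) (nat_lit 0) (nat_lit 0) (XT.lf (nat_lit 84) (nat_lit 2289935600) (nat_lit 0) (nat_lit 5390701286) (nat_lit 1092) (nat_lit 4141020902) (nat_lit 128) (nat_lit 5) (nat_lit 127) (nat_lit 3) (nat_lit 140) (nat_lit 5) (nat_lit 322) (nat_lit 321) (nat_lit 221)) (XT.lf (nat_lit 84) (nat_lit 7031156325) (nat_lit 0) (nat_lit 1238950066) (nat_lit 1092) (nat_lit 3721389735) (nat_lit 128) (nat_lit 5) (nat_lit 127) (nat_lit 3) (nat_lit 140) (nat_lit 5) (nat_lit 323) (nat_lit 321) (nat_lit 220))))) (XT.nd (nat_lit 282) (nat_lit 0) (nat_lit 84) (XT.nd (nat_lit 94) (nat_lit 0) (nat_lit 0) (XT.lf (nat_lit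 0) (nat_lit 8891099063) (nat_lit 1008) (nat_lit 287023182) (nat_lit 1092) (nat_lit 2988133315) (nat_lit 128) (nat_lit 5) (nat_lit 140) (nat_lit 5) (nat_lit 141) (nat_lit 5) (nat_lit 324) (nat_lit 321) (nat_lit 219)) (XT.nd (nat_lit 94) (nat_lit 0) (nat_lit 0) (XT.lf (nat_lit 84) (nat_lit 4601894973) (nat_lit 0) (nat_lit 4971356771) (nat_lit 1092) (nat_lit 2771946440) (nat_lit 129) (nat_lit 5) (nat_lit 128) (nat_lit 5) (nat_lit 141) (nat_lit 5) (nat_lit 325) (nat_lit 321) (nat_lit 218)) (XT.lf (nat_lit 84) (nat_lit 9639231003) (nat_lit 0) (nat_lit 624304443) (nat_lit 1092) (nat_lit 2266618957) (nat_lit 129) (nat_lit 5) (nat_lit 128) (nat_lit 5) (nat_lit 141) (nat_lit 5) (nat_lit 326) (nat_lit 321) (nat_lit 217)))) (XT.nd (nat_lit 94) (nat_lit 0) (nat_lit 0) (XT.lf (nat_lit 84) (nat_lit 2106500786) (nat_lit 0) (nat_lit 8912415953) (nat_lit 1092) (nat_lit 1700633858) (nat_lit 130) (nat_lit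 5) (nat_lit 129) (nat_lit 5) (nat_lit 142) (nat_lit 5) (nat_lit 327) (nat_lit 321) (nat_lit 216)) (XT.nd (nat_lit 94) (nat_lit 0) (nat_lit 84) (XT.lf (nat_lit 84) (nat_lit 7304157694) (nat_lit 0) (nat_lit 4514959278) (nat_lit 1092) (nat_lit 1095096796) (nat_lit 130) (nat_lit 5) (nat_lit 129) (nat_lit 5) (nat_lit 142) (nat_lit 5) (nat_lit 328) (nat_lit 321) (nat_lit 215)) (XT.lf (nat_lit 0) (nat_lit 12629724455) (nat_lit 1008) (nat_lit 461894342) (nat_lit 1092) (nat_lit 23796449) (nat_lit 130) (nat_lit 5) (nat_lit 142) (nat_lit 5) (nat_lit 143) (nat_lit 5) (nat_lit 329) (nat_lit 321) (nat_lit 214))))))) (XT.nd (nat_lit 1034) (nat_lit 2184) (nat_lit 0) (XT.nd (nat_lit 470) (nat_lit 840) (nat_lit 0) (XT.nd (nat_lit 188) (nat_lit 0) (nat_lit 84) (XT.nd (nat_lit 94) (nat_lit 0) (nat_lit 0) (XT.lf (nat_lit 0) (nat_lit 221029842) (nat_lit 1092) (nat_lit 8433916238) (nat_lit 1176) (nat_lit 4665397836)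 (nat_lit 117) (nat_lit 5) (nat_lit 130) (nat_lit 5) (nat_lit 131) (nat_lit 5) (nat_lit 330) (nat_lit 321) (nat_lit 213)) (XT.lf (nat_lit 0) (nat_lit 930431772) (nat_lit 1092) (nat_lit 3135843205) (nat_lit 1176) (nat_lit 9465532047) (nat_lit 117) (nat_lit 5) (nat_lit 130) (nat_lit 5) (nat_lit 131) (nat_lit 5) (nat_lit 331) (nat_lit 321) (nat_lit 212))) (XT.nd (nat_lit 94) (nat_lit 0) (nat_lit 0) (XT.lf (nat_lit 0) (nat_lit 1678570831) (nat_lit 1092) (nat_lit 11391730026) (nat_lit 1176) (nat_lit 679056301) (nat_lit 118) (nat_lit 5) (nat_lit 131) (nat_lit 5) (nat_lit 132) (nat_lit 5) (nat_lit 332) (nat_lit 321) (nat_lit 211)) (XT.nd (nat_lit 94) (nat_lit 0) (nat_lit 0) (XT.lf (nat_lit 0) (nat_lit 2511325347) (nat_lit 1092) (nat_lit 5936490193) (nat_lit 1176) (nat_lit 5523980946) (nat_lit 118) (nat_lit 5) (nat_lit 131) (nat_lit 5) (nat_lit 132) (nat_lit 5) (nat_lit 333) (nat_lit 321) (nat_lit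 210)) (XT.lf (nat_lit 0) (nat_lit 3357061286) (nat_lit 1092) (nat_lit 321646766) (nat_lit 1176) (nat_lit 10522869014) (nat_lit 118) (nat_lit 5) (nat_lit 131) (nat_lit 5) (nat_lit 132) (nat_lit 5) (nat_lit 334) (nat_lit 321) (nat_lit 209))))) (XT.nd (nat_lit 282) (nat_lit 1008) (nat_lit 0) (XT.nd (nat_lit 94) (nat_lit 0) (nat_lit 0) (XT.lf (nat_lit 0) (nat_lit 4284705313) (nat_lit 1092) (nat_lit 8879818500) (nat_lit 1176) (nat_lit 1272276972) (nat_lit 119) (nat_lit 5) (nat_lit 132) (nat_lit 5) (nat_lit 133) (nat_lit 5) (nat_lit 335) (nat_lit 321) (nat_lit 208)) (XT.nd (nat_lit 94) (nat_lit 0) (nat_lit 0) (XT.lf (nat_lit 0) (nat_lit 5269988255) (nat_lit 1092) (nat_lit 3101785352) (nat_lit 1176) (nat_lit 6306692440) (nat_lit 119) (nat_lit 5) (nat_lit 132) (nat_lit 5) (nat_lit 133) (nat_lit 5) (nat_lit 336) (nat_lit 321) (nat_lit 207)) (XT.lf (nat_lit 84) (nat_lit 2904594323) (nat_lit 0) (nat_lit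 3398265180) (nat_lit 1176) (nat_lit 8624278645) (nat_lit 120) (nat_lit 5) (nat_lit 119) (nat_lit 5) (nat_lit 133) (nat_lit 5) (nat_lit 337) (nat_lit 321) (nat_lit 206)))) (XT.nd (nat_lit 94) (nat_lit 1092) (nat_lit 0) (XT.lf (nat_lit 0) (nat_lit 7406129361) (nat_lit 1092) (nat_lit 6046696040) (nat_lit 84) (nat_lit 1729546199) (nat_lit 120) (nat_lit 5) (nat_lit 133) (nat_lit 5) (nat_lit 121) (nat_lit 5) (nat_lit 338) (nat_lit 321) (nat_lit 205)) (XT.nd (nat_lit 94) (nat_lit 0) (nat_lit 0) (XT.lf (nat_lit 0) (nat_lit 71760478) (nat_lit 1092) (nat_lit 8496169643) (nat_lit 1176) (nat_lit 6876873968) (nat_lit 107) (nat_lit 5) (nat_lit 120) (nat_lit 5) (nat_lit 121) (nat_lit 5) (nat_lit 339) (nat_lit 321) (nat_lit 204)) (XT.lf (nat_lit 0) (nat_lit 6498838306) (nat_lit 1092) (nat_lit 3319128186) (nat_lit 1176) (nat_lit 5895826459) (nat_lit 107) (nat_lit 5) (nat_lit 120) (nat_lit 5) (nat_lit 121)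 (nat_lit 5) (nat_lit 340) (nat_lit 321) (nat_lit 203)))))) (XT.nd (nat_lit 470) (nat_lit 1092) (nat_lit 0) (XT.nd (nat_lit 188) (nat_lit 588) (nat_lit 0) (XT.nd (nat_lit 94) (nat_lit 504) (nat_lit 0) (XT.lf (nat_lit 0) (nat_lit 11116225016) (nat_lit 1176) (nat_lit 2895329716) (nat_lit 84) (nat_lit 1979310720) (nat_lit 107) (nat_lit 5) (nat_lit 121) (nat_lit 5) (nat_lit 108) (nat_lit 5) (nat_lit 341) (nat_lit 321) (nat_lit 202)) (XT.lf (nat_lit 0) (nat_lit 3650750084) (nat_lit 504) (nat_lit 8863907736) (nat_lit 588) (nat_lit 3760049028) (nat_lit 101) (nat_lit 5) (nat_lit 107) (nat_lit 5) (nat_lit 108) (nat_lit 5) (nat_lit 342) (nat_lit 321) (nat_lit 201))) (XT.nd (nat_lit 94) (nat_lit 588) (nat_lit 0) (XT.lf (nat_lit 0) (nat_lit 10452168457) (nat_lit 504) (nat_lit 3524479141) (nat_lit 588) (nat_lit 2590109656) (nat_lit 101) (nat_lit 5) (nat_lit 107) (nat_lit 5) (nat_lit 108) (nat_lit 5) (nat_lit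 343) (nat_lit 321) (nat_lit 200)) (XT.nd (nat_lit 94) (nat_lit 0) (nat_lit 0) (XT.lf (nat_lit 0) (nat_lit 579553657) (nat_lit 588) (nat_lit 14920096645) (nat_lit 672) (nat_lit 1367759700) (nat_lit 94) (nat_lit 5) (nat_lit 101) (nat_lit 5) (nat_lit 102) (nat_lit 5) (nat_lit 344) (nat_lit 321) (nat_lit 199)) (XT.lf (nat_lit 0) (nat_lit 7565097740) (nat_lit 588) (nat_lit 9594772741) (nat_lit 672) (nat_lit 14756517) (nat_lit 94) (nat_lit 5) (nat_lit 101) (nat_lit 5) (nat_lit 102) (nat_lit 5) (nat_lit 345) (nat_lit 321) (nat_lit 198))))) (XT.nd (nat_lit 282) (nat_lit 504) (nat_lit 0) (XT.nd (nat_lit 94) (nat_lit 504) (nat_lit 0) (XT.lf (nat_lit 0) (nat_lit 1343039434) (nat_lit 672) (nat_lit 2746775196) (nat_lit 84) (nat_lit 13401450397) (nat_lit 93) (nat_lit 5) (nat_lit 101) (nat_lit 5) (nat_lit 94) (nat_lit 5) (nat_lit 346) (nat_lit 321) (nat_lit 197)) (XT.nd (nat_lit 94) (nat_lit 0) (nat_lit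 0) (XT.lf (nat_lit 0) (nat_lit 2793478618) (nat_lit 588) (nat_lit 13424096400) (nat_lit 84) (nat_lit 1598593696) (nat_lit 87) (nat_lit 5) (nat_lit 94) (nat_lit 5) (nat_lit 88) (nat_lit 5) (nat_lit 347) (nat_lit 321) (nat_lit 196)) (XT.lf (nat_lit 0) (nat_lit 4350803644) (nat_lit 588) (nat_lit 6390786377) (nat_lit 84) (nat_lit 7407665030) (nat_lit 87) (nat_lit 5) (nat_lit 94) (nat_lit 5) (nat_lit 88) (nat_lit 5) (nat_lit 348) (nat_lit 321) (nat_lit 195)))) (XT.nd (nat_lit 94) (nat_lit 0) (nat_lit 0) (XT.lf (nat_lit 0) (nat_lit 869478159) (nat_lit 504) (nat_lit 5086948758) (nat_lit 588) (nat_lit 12536268806) (nat_lit 81) (nat_lit 5) (nat_lit 87) (nat_lit 5) (nat_lit 88) (nat_lit 5) (nat_lit 349) (nat_lit 321) (nat_lit 194)) (XT.nd (nat_lit 94) (nat_lit 0) (nat_lit 0) (XT.lf (nat_lit 0) (nat_lit 7678153336) (nat_lit 588) (nat_lit 10371273795) (nat_lit 84) (nat_lit 795328163) (nat_lit 81) (nat_lit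 5) (nat_lit 88) (nat_lit 5) (nat_lit 82) (nat_lit 5) (nat_lit 350) (nat_lit 321) (nat_lit 193)) (XT.lf (nat_lit 0) (nat_lit 9497103637) (nat_lit 588) (nat_lit 2955080838) (nat_lit 84) (nat_lit 6754212456) (nat_lit 81) (nat_lit 5) (nat_lit 88) (nat_lit 5) (nat_lit 82) (nat_lit 5) (nat_lit 351) (nat_lit 321) (nat_lit 192))))))))
noncomputable def xc98 : XT := (XT.nd (nat_lit 1974) (nat_lit 252) (nat_lit 0) (XT.nd (nat_lit 940) (nat_lit 1428) (nat_lit 0) (XT.nd (nat_lit 470) (nat_lit 924) (nat_lit 0) (XT.nd (nat_lit 188) (nat_lit 420) (nat_lit 0) (XT.nd (nat_lit 94) (nat_lit 0) (nat_lit 0) (XT.lf (nat_lit 0) (nat_lit 4779023818) (nat_lit 420) (nat_lit 6632894800) (nat_lit 504) (nat_lit 8166133794) (nat_lit 76) (nat_lit 5) (nat_lit 81) (nat_lit 5) (nat_lit 82) (nat_lit 5) (nat_lit 352) (nat_lit 321) (nat_lit 191)) (XT.lf (nat_lit 0) (nat_lit 12807338714) (nat_lit 420) (nat_lit 601825047) (nat_lit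 504) (nat_lit 6551376200) (nat_lit 76) (nat_lit 5) (nat_lit 81) (nat_lit 5) (nat_lit 82) (nat_lit 5) (nat_lit 353) (nat_lit 321) (nat_lit 190))) (XT.nd (nat_lit 94) (nat_lit 0) (nat_lit 0) (XT.lf (nat_lit 0) (nat_lit 679420378) (nat_lit 420) (nat_lit 14843812167) (nat_lit 504) (nat_lit 4829975062) (nat_lit 71) (nat_lit 5) (nat_lit 76) (nat_lit 5) (nat_lit 77) (nat_lit 5) (nat_lit 354) (nat_lit 321) (nat_lit 189)) (XT.nd (nat_lit 94) (nat_lit 0) (nat_lit 0) (XT.lf (nat_lit 0) (nat_lit 8892096902) (nat_lit 420) (nat_lit 8884100186) (nat_lit 504) (nat_lit 2979601124) (nat_lit 71) (nat_lit 5) (nat_lit 76) (nat_lit 5) (nat_lit 77) (nat_lit 5) (nat_lit 355) (nat_lit 321) (nat_lit 188)) (XT.lf (nat_lit 0) (nat_lit 17351491846) (nat_lit 420) (nat_lit 2740336066) (nat_lit 504) (nat_lit 1079287331) (nat_lit 71) (nat_lit 5) (nat_lit 76) (nat_lit 5) (nat_lit 77) (nat_lit 5) (nat_lit 356) (nat_lit 321)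 (nat_lit 187))))) (XT.nd (nat_lit 188) (nat_lit 420) (nat_lit 0) (XT.nd (nat_lit 94) (nat_lit 0) (nat_lit 0) (XT.lf (nat_lit 0) (nat_lit 936475052) (nat_lit 504) (nat_lit 17085135938) (nat_lit 84) (nat_lit 3575145486) (nat_lit 65) (nat_lit 5) (nat_lit 71) (nat_lit 5) (nat_lit 66) (nat_lit 5) (nat_lit 357) (nat_lit 321) (nat_lit 186)) (XT.lf (nat_lit 0) (nat_lit 3053684606) (nat_lit 504) (nat_lit 8899677247) (nat_lit 84) (nat_lit 10080007427) (nat_lit 65) (nat_lit 5) (nat_lit 71) (nat_lit 5) (nat_lit 66) (nat_lit 5) (nat_lit 358) (nat_lit 321) (nat_lit 185))) (XT.nd (nat_lit 94) (nat_lit 420) (nat_lit 0) (XT.lf (nat_lit 0) (nat_lit 5229809791) (nat_lit 504) (nat_lit 468184290) (nat_lit 84) (nat_lit 16785752207) (nat_lit 65) (nat_lit 5) (nat_lit 71) (nat_lit 5) (nat_lit 66) (nat_lit 5) (nat_lit 359) (nat_lit 321) (nat_lit 184)) (XT.nd (nat_lit 94) (nat_lit 0) (nat_lit 0) (XT.lf (nat_lit 0)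 (nat_lit 7558364925) (nat_lit 504) (nat_lit 14567858012) (nat_lit 84) (nat_lit 819248295) (nat_lit 60) (nat_lit 5) (nat_lit 66) (nat_lit 5) (nat_lit 61) (nat_lit 5) (nat_lit 360) (nat_lit 321) (nat_lit 183)) (XT.lf (nat_lit 0) (nat_lit 10015915718) (nat_lit 504) (nat_lit 5979744572) (nat_lit 84) (nat_lit 7424107950) (nat_lit 60) (nat_lit 5) (nat_lit 66) (nat_lit 5) (nat_lit 61) (nat_lit 5) (nat_lit 361) (nat_lit 321) (nat_lit 182)))))) (XT.nd (nat_lit 470) (nat_lit 756) (nat_lit 0) (XT.nd (nat_lit 188) (nat_lit 336) (nat_lit 0) (XT.nd (nat_lit 94) (nat_lit 0) (nat_lit 0) (XT.lf (nat_lit 0) (nat_lit 2926170087) (nat_lit 336) (nat_lit 9646297514) (nat_lit 420) (nat_lit 11335612644) (nat_lit 56) (nat_lit 5) (nat_lit 60) (nat_lit 5) (nat_lit 61) (nat_lit 5) (nat_lit 362) (nat_lit 321) (nat_lit 181)) (XT.lf (nat_lit 0) (nat_lit 12227624217) (nat_lit 336) (nat_lit 3036967913) (nat_lit 420) (nat_lit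 9145210430) (nat_lit 56) (nat_lit 5) (nat_lit 60) (nat_lit 5) (nat_lit 61) (nat_lit 5) (nat_lit 363) (nat_lit 321) (nat_lit 180))) (XT.nd (nat_lit 94) (nat_lit 336) (nat_lit 0) (XT.lf (nat_lit 0) (nat_lit 18071718214) (nat_lit 420) (nat_lit 3154406745) (nat_lit 84) (nat_lit 3699993378) (nat_lit 56) (nat_lit 5) (nat_lit 61) (nat_lit 5) (nat_lit 57) (nat_lit 5) (nat_lit 364) (nat_lit 321) (nat_lit 179)) (XT.nd (nat_lit 94) (nat_lit 0) (nat_lit 0) (XT.lf (nat_lit 0) (nat_lit 6240841607) (nat_lit 336) (nat_lit 14812247611) (nat_lit 420) (nat_lit 4402664187) (nat_lit 52) (nat_lit 5) (nat_lit 56) (nat_lit 5) (nat_lit 57) (nat_lit 5) (nat_lit 365) (nat_lit 321) (nat_lit 178)) (XT.lf (nat_lit 0) (nat_lit 15987223743) (nat_lit 336) (nat_lit 8166941019) (nat_lit 420) (nat_lit 1846813575) (nat_lit 52) (nat_lit 5) (nat_lit 56) (nat_lit 5) (nat_lit 57) (nat_lit 5) (nat_lit 366) (nat_lit 321) (nat_lit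 177))))) (XT.nd (nat_lit 282) (nat_lit 336) (nat_lit 0) (XT.nd (nat_lit 94) (nat_lit 336) (nat_lit 0) (XT.lf (nat_lit 0) (nat_lit 766840679) (nat_lit 420) (nat_lit 542091676) (nat_lit 84) (nat_lit 25254118318) (nat_lit 51) (nat_lit 5) (nat_lit 56) (nat_lit 5) (nat_lit 52) (nat_lit 5) (nat_lit 367) (nat_lit 321) (nat_lit 176)) (XT.nd (nat_lit 94) (nat_lit 0) (nat_lit 0) (XT.lf (nat_lit 0) (nat_lit 3569182840) (nat_lit 420) (nat_lit 17810823082) (nat_lit 84) (nat_lit 5757444378) (nat_lit 47) (nat_lit 5) (nat_lit 52) (nat_lit 5) (nat_lit 48) (nat_lit 5) (nat_lit 368) (nat_lit 321) (nat_lit 175)) (XT.lf (nat_lit 0) (nat_lit 6472204495) (nat_lit 420) (nat_lit 8236957765) (nat_lit 84) (nat_lit 13020081018) (nat_lit 47) (nat_lit 5) (nat_lit 52) (nat_lit 5) (nat_lit 48) (nat_lit 5) (nat_lit 369) (nat_lit 321) (nat_lit 174)))) (XT.nd (nat_lit 94) (nat_lit 0) (nat_lit 0) (XT.lf (nat_lit 0) (nat_lit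 1660558246) (nat_lit 336) (nat_lit 7815997166) (nat_lit 420) (nat_lit 18862489547) (nat_lit 43) (nat_lit 5) (nat_lit 47) (nat_lit 5) (nat_lit 48) (nat_lit 5) (nat_lit 370) (nat_lit 321) (nat_lit 173)) (XT.nd (nat_lit 94) (nat_lit 0) (nat_lit 0) (XT.lf (nat_lit 0) (nat_lit 12032987527) (nat_lit 336) (nat_lit 621982978) (nat_lit 420) (nat_lit 16310285270) (nat_lit 43) (nat_lit 5) (nat_lit 47) (nat_lit 5) (nat_lit 48) (nat_lit 5) (nat_lit 371) (nat_lit 321) (nat_lit 172)) (XT.lf (nat_lit 0) (nat_lit 15994414030) (nat_lit 420) (nat_lit 6957808483) (nat_lit 84) (nat_lit 6656732853) (nat_lit 43) (nat_lit 5) (nat_lit 48) (nat_lit 5) (nat_lit 44) (nat_lit 5) (nat_lit 372) (nat_lit 321) (nat_lit 171))))))) (XT.nd (nat_lit 50384) (nat_lit 0) (nat_lit 5628) (XT.nd (nat_lit 49820) (nat_lit 0) (nat_lit 6384) (XT.nd (nat_lit 49538) (nat_lit 0) (nat_lit 7308) (XT.nd (nat_lit 49444) (nat_lit 0) (nat_lit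 7308) (XT.lf (nat_lit 0) (nat_lit 3381335665) (nat_lit 252) (nat_lit 16091186837) (nat_lit 336) (nat_lit 10799010989) (nat_lit 40) (nat_lit 5) (nat_lit 43) (nat_lit 5) (nat_lit 44) (nat_lit 5) (nat_lit 373) (nat_lit 321) (nat_lit 170)) (XT.lf (nat_lit 0) (nat_lit 4096187215) (nat_lit 1092) (nat_lit 948960586) (nat_lit 1092) (nat_lit 948960586) (nat_lit 127) (nat_lit 3) (nat_lit 140) (nat_lit 3) (nat_lit 140) (nat_lit 5) (nat_lit 322) (nat_lit 322) (nat_lit 220))) (XT.nd (nat_lit 94) (nat_lit 0) (nat_lit 0) (XT.lf (nat_lit 84) (nat_lit 2799876305) (nat_lit 0) (nat_lit 5954381364) (nat_lit 1092) (nat_lit 3404685532) (nat_lit 128) (nat_lit 5) (nat_lit 127) (nat_lit 3) (nat_lit 140) (nat_lit 5) (nat_lit 323) (nat_lit 322) (nat_lit 219)) (XT.nd (nat_lit 94) (nat_lit 0) (nat_lit 84) (XT.lf (nat_lit 84) (nat_lit 7674876488) (nat_lit 0) (nat_lit 1662001881) (nat_lit 1092) (nat_lit 2998045719) (nat_lit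 128) (nat_lit 5) (nat_lit 127) (nat_lit 3) (nat_lit 140) (nat_lit 5) (nat_lit 324) (nat_lit 322) (nat_lit 218)) (XT.lf (nat_lit 84) (nat_lit 151237205) (nat_lit 0) (nat_lit 9799316928) (nat_lit 1092) (nat_lit 2565466327) (nat_lit 129) (nat_lit 5) (nat_lit 128) (nat_lit 5) (nat_lit 141) (nat_lit 5) (nat_lit 325) (nat_lit 322) (nat_lit 217))))) (XT.nd (nat_lit 282) (nat_lit 1008) (nat_lit 0) (XT.nd (nat_lit 94) (nat_lit 0) (nat_lit 0) (XT.lf (nat_lit 84) (nat_lit 5184168506) (nat_lit 0) (nat_lit 5449022746) (nat_lit 1092) (nat_lit 2068052503) (nat_lit 129) (nat_lit 5) (nat_lit 128) (nat_lit 5) (nat_lit 141) (nat_lit 5) (nat_lit 326) (nat_lit 322) (nat_lit 216)) (XT.nd (nat_lit 94) (nat_lit 0) (nat_lit 84) (XT.lf (nat_lit 84) (nat_lit 10364443661) (nat_lit 0) (nat_lit 957483210) (nat_lit 1092) (nat_lit 1570808222) (nat_lit 129) (nat_lit 5) (nat_lit 128) (nat_lit 5) (nat_lit 141) (nat_lit 5)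 (nat_lit 327) (nat_lit 322) (nat_lit 215)) (XT.lf (nat_lit 84) (nat_lit 2622555940) (nat_lit 0) (nat_lit 9457364084) (nat_lit 1092) (nat_lit 1008814912) (nat_lit 130) (nat_lit 5) (nat_lit 129) (nat_lit 5) (nat_lit 142) (nat_lit 5) (nat_lit 328) (nat_lit 322) (nat_lit 214)))) (XT.nd (nat_lit 94) (nat_lit 1092) (nat_lit 0) (XT.lf (nat_lit 84) (nat_lit 7967787000) (nat_lit 0) (nat_lit 4915508115) (nat_lit 1092) (nat_lit 406892909) (nat_lit 130) (nat_lit 5) (nat_lit 129) (nat_lit 5) (nat_lit 142) (nat_lit 5) (nat_lit 329) (nat_lit 322) (nat_lit 213)) (XT.nd (nat_lit 94) (nat_lit 0) (nat_lit 84) (XT.lf (nat_lit 0) (nat_lit 195416835) (nat_lit 1092) (nat_lit 30254655) (nat_lit 1176) (nat_lit 13272634273) (nat_lit 116) (nat_lit 5) (nat_lit 129) (nat_lit 5) (nat_lit 130) (nat_lit 5) (nat_lit 330) (nat_lit 322) (nat_lit 212)) (XT.lf (nat_lit 0) (nat_lit 895580621) (nat_lit 1092) (nat_lit 8233504800)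 (nat_lit 1176) (nat_lit 4580994837) (nat_lit 117) (nat_lit 5) (nat_lit 130) (nat_lit 5) (nat_lit 131) (nat_lit 5) (nat_lit 331) (nat_lit 322) (nat_lit 211)))))) (XT.nd (nat_lit 470) (nat_lit 840) (nat_lit 0) (XT.nd (nat_lit 188) (nat_lit 0) (nat_lit 84) (XT.nd (nat_lit 94) (nat_lit 0) (nat_lit 84) (XT.lf (nat_lit 0) (nat_lit 1606897712) (nat_lit 1092) (nat_lit 2785078746) (nat_lit 1176) (nat_lit 9536819668) (nat_lit 117) (nat_lit 5) (nat_lit 130) (nat_lit 5) (nat_lit 131) (nat_lit 5) (nat_lit 332) (nat_lit 322) (nat_lit 210)) (XT.lf (nat_lit 0) (nat_lit 2361279435) (nat_lit 1092) (nat_lit 11277600580) (nat_lit 1176) (nat_lit 514808521) (nat_lit 118) (nat_lit 5) (nat_lit 131) (nat_lit 5) (nat_lit 132) (nat_lit 5) (nat_lit 333) (nat_lit 322) (nat_lit 209))) (XT.nd (nat_lit 94) (nat_lit 0) (nat_lit 0) (XT.lf (nat_lit 0) (nat_lit 3200886335) (nat_lit 1092) (nat_lit 5667298231) (nat_lit 1176)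 (nat_lit 5515497367) (nat_lit 118) (nat_lit 5) (nat_lit 131) (nat_lit 5) (nat_lit 132) (nat_lit 5) (nat_lit 334) (nat_lit 322) (nat_lit 208)) (XT.nd (nat_lit 94) (nat_lit 0) (nat_lit 84) (XT.lf (nat_lit 84) (nat_lit 110198122) (nat_lit 0) (nat_lit 3945342315) (nat_lit 1176) (nat_lit 10565650033) (nat_lit 119) (nat_lit 5) (nat_lit 118) (nat_lit 5) (nat_lit 132) (nat_lit 5) (nat_lit 335) (nat_lit 322) (nat_lit 207)) (XT.lf (nat_lit 0) (nat_lit 4995890215) (nat_lit 1092) (nat_lit 8698396792) (nat_lit 1176) (nat_lit 1169983118) (nat_lit 119) (nat_lit 5) (nat_lit 132) (nat_lit 5) (nat_lit 133) (nat_lit 5) (nat_lit 336) (nat_lit 322) (nat_lit 206))))) (XT.nd (nat_lit 282) (nat_lit 1008) (nat_lit 0) (XT.nd (nat_lit 94) (nat_lit 0) (nat_lit 0) (XT.lf (nat_lit 0) (nat_lit 5994326889) (nat_lit 1092) (nat_lit 2754976506) (nat_lit 1176) (nat_lit 6364727122) (nat_lit 119) (nat_lit 5) (nat_lit 132) (nat_lit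 5) (nat_lit 133) (nat_lit 5) (nat_lit 337) (nat_lit 322) (nat_lit 205)) (XT.nd (nat_lit 94) (nat_lit 0) (nat_lit 84) (XT.lf (nat_lit 84) (nat_lit 3433116324) (nat_lit 0) (nat_lit 3613583436) (nat_lit 1176) (nat_lit 8324162211) (nat_lit 120) (nat_lit 5) (nat_lit 119) (nat_lit 5) (nat_lit 133) (nat_lit 5) (nat_lit 338) (nat_lit 322) (nat_lit 204)) (XT.lf (nat_lit 0) (nat_lit 8166622064) (nat_lit 1092) (nat_lit 5789344421) (nat_lit 84) (nat_lit 1678645794) (nat_lit 120) (nat_lit 5) (nat_lit 133) (nat_lit 5) (nat_lit 121) (nat_lit 5) (nat_lit 339) (nat_lit 322) (nat_lit 203)))) (XT.nd (nat_lit 94) (nat_lit 0) (nat_lit 0) (XT.lf (nat_lit 0) (nat_lit 514281057) (nat_lit 1092) (nat_lit 8838562255) (nat_lit 1176) (nat_lit 6552755096) (nat_lit 107) (nat_lit 5) (nat_lit 120) (nat_lit 5) (nat_lit 121) (nat_lit 5) (nat_lit 340) (nat_lit 322) (nat_lit 202)) (XT.nd (nat_lit 94) (nat_lit 0) (nat_lit 0)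 (XT.lf (nat_lit 0) (nat_lit 7127359524) (nat_lit 1092) (nat_lit 3498656808) (nat_lit 1176) (nat_lit 5557450654) (nat_lit 107) (nat_lit 5) (nat_lit 120) (nat_lit 5) (nat_lit 121) (nat_lit 5) (nat_lit 341) (nat_lit 322) (nat_lit 201)) (XT.lf (nat_lit 0) (nat_lit 11948638509) (nat_lit 1176) (nat_lit 2553202287) (nat_lit 84) (nat_lit 1967835588) (nat_lit 107) (nat_lit 5) (nat_lit 121) (nat_lit 5) (nat_lit 108) (nat_lit 5) (nat_lit 342) (nat_lit 322) (nat_lit 200))))))))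
noncomputable def xc99 : XT := (XT.nd (nat_lit 1974) (nat_lit 1092) (nat_lit 0) (XT.nd (nat_lit 940) (nat_lit 2100) (nat_lit 0) (XT.nd (nat_lit 470) (nat_lit 1008) (nat_lit 0) (XT.nd (nat_lit 188) (nat_lit 672) (nat_lit 0) (XT.nd (nat_lit 94) (nat_lit 0) (nat_lit 0) (XT.lf (nat_lit 0) (nat_lit 4191433563) (nat_lit 504) (nat_lit 9188562685) (nat_lit 588) (nat_lit 3382697470) (nat_lit 101) (nat_lit 5) (nat_lit 107) (nat_lit 5) (nat_lit 108) (nat_lit 5) (nat_lit 343) (nat_lit 322) (nat_lit 199)) (XT.lf (nat_lit 0) (nat_lit 11190841573) (nat_lit 504) (nat_lit 3682112203) (nat_lit 588) (nat_lit 2191340904) (nat_lit 101) (nat_lit 5) (nat_lit 107) (nat_lit 5) (nat_lit 108) (nat_lit 5) (nat_lit 344) (nat_lit 322) (nat_lit 198))) (XT.nd (nat_lit 94) (nat_lit 84) (nat_lit 0) (XT.lf (nat_lit 0) (nat_lit 1024322454) (nat_lit 588) (nat_lit 15408693256) (nat_lit 672) (nat_lit 941617181) (nat_lit 94) (nat_lit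 5) (nat_lit 101) (nat_lit 5) (nat_lit 102) (nat_lit 5) (nat_lit 345) (nat_lit 322) (nat_lit 197)) (XT.nd (nat_lit 94) (nat_lit 0) (nat_lit 0) (XT.lf (nat_lit 0) (nat_lit 430391269) (nat_lit 672) (nat_lit 9482616660) (nat_lit 84) (nat_lit 7778701676) (nat_lit 93) (nat_lit 5) (nat_lit 101) (nat_lit 5) (nat_lit 94) (nat_lit 5) (nat_lit 346) (nat_lit 322) (nat_lit 196)) (XT.lf (nat_lit 0) (nat_lit 1816583173) (nat_lit 672) (nat_lit 2420036690) (nat_lit 84) (nat_lit 13781999976) (nat_lit 93) (nat_lit 5) (nat_lit 101) (nat_lit 5) (nat_lit 94) (nat_lit 5) (nat_lit 347) (nat_lit 322) (nat_lit 195))))) (XT.nd (nat_lit 188) (nat_lit 504) (nat_lit 0) (XT.nd (nat_lit 94) (nat_lit 0) (nat_lit 0) (XT.lf (nat_lit 0) (nat_lit 3302892707) (nat_lit 588) (nat_lit 13417821038) (nat_lit 84) (nat_lit 1633208344) (nat_lit 87) (nat_lit 5) (nat_lit 94) (nat_lit 5) (nat_lit 88) (nat_lit 5) (nat_lit 348) (nat_lit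 322) (nat_lit 194)) (XT.lf (nat_lit 0) (nat_lit 4895781614) (nat_lit 588) (nat_lit 6179179755) (nat_lit 84) (nat_lit 7622810157) (nat_lit 87) (nat_lit 5) (nat_lit 94) (nat_lit 5) (nat_lit 88) (nat_lit 5) (nat_lit 349) (nat_lit 322) (nat_lit 193))) (XT.nd (nat_lit 94) (nat_lit 0) (nat_lit 0) (XT.lf (nat_lit 0) (nat_lit 1302004925) (nat_lit 504) (nat_lit 5240866682) (nat_lit 588) (nat_lit 12509286799) (nat_lit 81) (nat_lit 5) (nat_lit 87) (nat_lit 5) (nat_lit 88) (nat_lit 5) (nat_lit 350) (nat_lit 322) (nat_lit 192)) (XT.nd (nat_lit 94) (nat_lit 0) (nat_lit 0) (XT.lf (nat_lit 0) (nat_lit 8305926748) (nat_lit 588) (nat_lit 10286045792) (nat_lit 84) (nat_lit 823573422) (nat_lit 81) (nat_lit 5) (nat_lit 88) (nat_lit 5) (nat_lit 82) (nat_lit 5) (nat_lit 351) (nat_lit 322) (nat_lit 191)) (XT.lf (nat_lit 0) (nat_lit 10169545526) (nat_lit 588) (nat_lit 2652180593) (nat_lit 84) (nat_lit 6967075182)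 (nat_lit 81) (nat_lit 5) (nat_lit 88) (nat_lit 5) (nat_lit 82) (nat_lit 5) (nat_lit 352) (nat_lit 322) (nat_lit 190)))))) (XT.nd (nat_lit 470) (nat_lit 1260) (nat_lit 0) (XT.nd (nat_lit 188) (nat_lit 420) (nat_lit 0) (XT.nd (nat_lit 94) (nat_lit 0) (nat_lit 0) (XT.lf (nat_lit 0) (nat_lit 5317687270) (nat_lit 420) (nat_lit 6818539829) (nat_lit 504) (nat_lit 8036021611) (nat_lit 76) (nat_lit 5) (nat_lit 81) (nat_lit 5) (nat_lit 82) (nat_lit 5) (nat_lit 353) (nat_lit 322) (nat_lit 189)) (XT.lf (nat_lit 0) (nat_lit 13583138002) (nat_lit 420) (nat_lit 601107511) (nat_lit 504) (nat_lit 6382730424) (nat_lit 76) (nat_lit 5) (nat_lit 81) (nat_lit 5) (nat_lit 82) (nat_lit 5) (nat_lit 354) (nat_lit 322) (nat_lit 188))) (XT.nd (nat_lit 94) (nat_lit 0) (nat_lit 0) (XT.lf (nat_lit 0) (nat_lit 1087445050) (nat_lit 420) (nat_lit 15269624181) (nat_lit 504) (nat_lit 4614993332) (nat_lit 71) (nat_lit 5) (nat_lit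 76) (nat_lit 5) (nat_lit 77) (nat_lit 5) (nat_lit 355) (nat_lit 322) (nat_lit 187)) (XT.nd (nat_lit 94) (nat_lit 0) (nat_lit 0) (XT.lf (nat_lit 0) (nat_lit 9543079393) (nat_lit 420) (nat_lit 9126193846) (nat_lit 504) (nat_lit 2718223892) (nat_lit 71) (nat_lit 5) (nat_lit 76) (nat_lit 5) (nat_lit 77) (nat_lit 5) (nat_lit 356) (nat_lit 322) (nat_lit 186)) (XT.lf (nat_lit 0) (nat_lit 18253430273) (nat_lit 420) (nat_lit 2792974703) (nat_lit 504) (nat_lit 769636735) (nat_lit 71) (nat_lit 5) (nat_lit 76) (nat_lit 5) (nat_lit 77) (nat_lit 5) (nat_lit 357) (nat_lit 322) (nat_lit 185))))) (XT.nd (nat_lit 282) (nat_lit 756) (nat_lit 0) (XT.nd (nat_lit 94) (nat_lit 0) (nat_lit 0) (XT.lf (nat_lit 0) (nat_lit 1295627830) (nat_lit 504) (nat_lit 17235655332) (nat_lit 84) (nat_lit 3723709347) (nat_lit 65) (nat_lit 5) (nat_lit 71) (nat_lit 5) (nat_lit 66) (nat_lit 5) (nat_lit 358) (nat_lit 322) (nat_lit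 184)) (XT.nd (nat_lit 94) (nat_lit 0) (nat_lit 0) (XT.lf (nat_lit 0) (nat_lit 3468544804) (nat_lit 504) (nat_lit 8807846757) (nat_lit 84) (nat_lit 10429087415) (nat_lit 65) (nat_lit 5) (nat_lit 71) (nat_lit 5) (nat_lit 66) (nat_lit 5) (nat_lit 359) (nat_lit 322) (nat_lit 183)) (XT.lf (nat_lit 0) (nat_lit 5702502251) (nat_lit 504) (nat_lit 126034099) (nat_lit 84) (nat_lit 17341609806) (nat_lit 65) (nat_lit 5) (nat_lit 71) (nat_lit 5) (nat_lit 66) (nat_lit 5) (nat_lit 360) (nat_lit 322) (nat_lit 182)))) (XT.nd (nat_lit 94) (nat_lit 336) (nat_lit 0) (XT.lf (nat_lit 0) (nat_lit 8097886132) (nat_lit 504) (nat_lit 14656501721) (nat_lit 84) (nat_lit 891991896) (nat_lit 60) (nat_lit 5) (nat_lit 66) (nat_lit 5) (nat_lit 61) (nat_lit 5) (nat_lit 361) (nat_lit 322) (nat_lit 181)) (XT.nd (nat_lit 94) (nat_lit 336) (nat_lit 0) (XT.lf (nat_lit 0) (nat_lit 10622443920) (nat_lit 504) (nat_lit 5813070204)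 (nat_lit 84) (nat_lit 7700178579) (nat_lit 60) (nat_lit 5) (nat_lit 66) (nat_lit 5) (nat_lit 61) (nat_lit 5) (nat_lit 362) (nat_lit 322) (nat_lit 180)) (XT.lf (nat_lit 0) (nat_lit 3365363655) (nat_lit 336) (nat_lit 9887441100) (nat_lit 420) (nat_lit 11386533794) (nat_lit 56) (nat_lit 5) (nat_lit 60) (nat_lit 5) (nat_lit 61) (nat_lit 5) (nat_lit 363) (nat_lit 322) (nat_lit 179))))))) (XT.nd (nat_lit 50478) (nat_lit 0) (nat_lit 6132) (XT.nd (nat_lit 470) (nat_lit 672) (nat_lit 0) (XT.nd (nat_lit 188) (nat_lit 420) (nat_lit 0) (XT.nd (nat_lit 94) (nat_lit 0) (nat_lit 0) (XT.lf (nat_lit 0) (nat_lit 12944684734) (nat_lit 336) (nat_lit 3074962961) (nat_lit 420) (nat_lit 9137263998) (nat_lit 56) (nat_lit 5) (nat_lit 60) (nat_lit 5) (nat_lit 61) (nat_lit 5) (nat_lit 364) (nat_lit 322) (nat_lit 178)) (XT.lf (nat_lit 0) (nat_lit 18905860231) (nat_lit 420) (nat_lit 2915586285) (nat_lit 84) (nat_lit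 3868058489) (nat_lit 56) (nat_lit 5) (nat_lit 61) (nat_lit 5) (nat_lit 57) (nat_lit 5) (nat_lit 365) (nat_lit 322) (nat_lit 177))) (XT.nd (nat_lit 94) (nat_lit 84) (nat_lit 0) (XT.lf (nat_lit 0) (nat_lit 6767506921) (nat_lit 336) (nat_lit 15207216032) (nat_lit 420) (nat_lit 4261013663) (nat_lit 52) (nat_lit 5) (nat_lit 56) (nat_lit 5) (nat_lit 57) (nat_lit 5) (nat_lit 366) (nat_lit 322) (nat_lit 176)) (XT.nd (nat_lit 94) (nat_lit 84) (nat_lit 0) (XT.lf (nat_lit 0) (nat_lit 16806008305) (nat_lit 336) (nat_lit 8357835633) (nat_lit 420) (nat_lit 1634294559) (nat_lit 52) (nat_lit 5) (nat_lit 56) (nat_lit 5) (nat_lit 57) (nat_lit 5) (nat_lit 367) (nat_lit 322) (nat_lit 175)) (XT.lf (nat_lit 0) (nat_lit 1046999711) (nat_lit 420) (nat_lit 239425480) (nat_lit 84) (nat_lit 26091396124) (nat_lit 51) (nat_lit 5) (nat_lit 56) (nat_lit 5) (nat_lit 52) (nat_lit 5) (nat_lit 368) (nat_lit 322) (nat_lit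 174))))) (XT.nd (nat_lit 282) (nat_lit 0) (nat_lit 0) (XT.nd (nat_lit 94) (nat_lit 336) (nat_lit 0) (XT.lf (nat_lit 0) (nat_lit 3932281640) (nat_lit 420) (nat_lit 18038840916) (nat_lit 84) (nat_lit 5999048820) (nat_lit 47) (nat_lit 5) (nat_lit 52) (nat_lit 5) (nat_lit 48) (nat_lit 5) (nat_lit 369) (nat_lit 322) (nat_lit 173)) (XT.nd (nat_lit 94) (nat_lit 336) (nat_lit 0) (XT.lf (nat_lit 0) (nat_lit 6917706202) (nat_lit 420) (nat_lit 8177931310) (nat_lit 84) (nat_lit 13484929201) (nat_lit 47) (nat_lit 5) (nat_lit 52) (nat_lit 5) (nat_lit 48) (nat_lit 5) (nat_lit 370) (nat_lit 322) (nat_lit 172)) (XT.lf (nat_lit 0) (nat_lit 2023224961) (nat_lit 336) (nat_lit 7987691548) (nat_lit 420) (nat_lit 19198509095) (nat_lit 43) (nat_lit 5) (nat_lit 47) (nat_lit 5) (nat_lit 48) (nat_lit 5) (nat_lit 371) (nat_lit 322) (nat_lit 171)))) (XT.nd (nat_lit 94) (nat_lit 0) (nat_lit 0) (XT.lf (nat_lit 0) (nat_lit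 12707842739) (nat_lit 336) (nat_lit 572785759) (nat_lit 420) (nat_lit 16574664901) (nat_lit 43) (nat_lit 5) (nat_lit 47) (nat_lit 5) (nat_lit 48) (nat_lit 5) (nat_lit 372) (nat_lit 322) (nat_lit 170)) (XT.nd (nat_lit 49538) (nat_lit 0) (nat_lit 7056) (XT.lf (nat_lit 0) (nat_lit 16717237204) (nat_lit 420) (nat_lit 6873754099) (nat_lit 84) (nat_lit 6928173044) (nat_lit 43) (nat_lit 5) (nat_lit 48) (nat_lit 5) (nat_lit 44) (nat_lit 5) (nat_lit 373) (nat_lit 322) (nat_lit 169)) (XT.lf (nat_lit 0) (nat_lit 4626256591) (nat_lit 1092) (nat_lit 769790206) (nat_lit 1092) (nat_lit 769790206) (nat_lit 127) (nat_lit 3) (nat_lit 140) (nat_lit 3) (nat_lit 140) (nat_lit 5) (nat_lit 323) (nat_lit 323) (nat_lit 218)))))) (XT.nd (nat_lit 470) (nat_lit 924) (nat_lit 0) (XT.nd (nat_lit 188) (nat_lit 0) (nat_lit 84) (XT.nd (nat_lit 94) (nat_lit 0) (nat_lit 0) (XT.lf (nat_lit 84) (nat_lit 3299625251) (nat_lit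 0) (nat_lit 6512046102) (nat_lit 1092) (nat_lit 2696741842) (nat_lit 128) (nat_lit 5) (nat_lit 127) (nat_lit 3) (nat_lit 140) (nat_lit 5) (nat_lit 324) (nat_lit 323) (nat_lit 217)) (XT.lf (nat_lit 84) (nat_lit 8313333819) (nat_lit 0) (nat_lit 2075385158) (nat_lit 1092) (nat_lit 2301956095) (nat_lit 128) (nat_lit 5) (nat_lit 127) (nat_lit 3) (nat_lit 140) (nat_lit 5) (nat_lit 325) (nat_lit 323) (nat_lit 216))) (XT.nd (nat_lit 94) (nat_lit 0) (nat_lit 0) (XT.lf (nat_lit 84) (nat_lit 582322055) (nat_lit 0) (nat_lit 10416921082) (nat_lit 1092) (nat_lit 1878919860) (nat_lit 129) (nat_lit 5) (nat_lit 128) (nat_lit 5) (nat_lit 141) (nat_lit 5) (nat_lit 326) (nat_lit 323) (nat_lit 215)) (XT.nd (nat_lit 94) (nat_lit 0) (nat_lit 0) (XT.lf (nat_lit 84) (nat_lit 5758453381) (nat_lit 0) (nat_lit 5922331713) (nat_lit 1092) (nat_lit 1389120498) (nat_lit 129) (nat_lit 5) (nat_lit 128) (nat_lit 5) (nat_lit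 141) (nat_lit 5) (nat_lit 327) (nat_lit 323) (nat_lit 214)) (XT.lf (nat_lit 84) (nat_lit 11086881717) (nat_lit 0) (nat_lit 1282402108) (nat_lit 1092) (nat_lit 898803343) (nat_lit 129) (nat_lit 5) (nat_lit 128) (nat_lit 5) (nat_lit 141) (nat_lit 5) (nat_lit 328) (nat_lit 323) (nat_lit 213))))) (XT.nd (nat_lit 282) (nat_lit 0) (nat_lit 84) (XT.nd (nat_lit 94) (nat_lit 1092) (nat_lit 0) (XT.lf (nat_lit 84) (nat_lit 3127909895) (nat_lit 0) (nat_lit 10003292224) (nat_lit 1092) (nat_lit 339649875) (nat_lit 130) (nat_lit 5) (nat_lit 129) (nat_lit 5) (nat_lit 142) (nat_lit 5) (nat_lit 329) (nat_lit 323) (nat_lit 212)) (XT.nd (nat_lit 94) (nat_lit 0) (nat_lit 0) (XT.lf (nat_lit 0) (nat_lit 254635182) (nat_lit 1092) (nat_lit 5055746012) (nat_lit 1176) (nat_lit 8368799633) (nat_lit 116) (nat_lit 5) (nat_lit 129) (nat_lit 5) (nat_lit 130) (nat_lit 5) (nat_lit 330) (nat_lit 323) (nat_lit 211)) (XT.lf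 (nat_lit 84) (nat_lit 391326024) (nat_lit 0) (nat_lit 459704499) (nat_lit 1176) (nat_lit 13043165875) (nat_lit 117) (nat_lit 5) (nat_lit 116) (nat_lit 5) (nat_lit 130) (nat_lit 5) (nat_lit 331) (nat_lit 323) (nat_lit 210)))) (XT.nd (nat_lit 94) (nat_lit 0) (nat_lit 0) (XT.lf (nat_lit 0) (nat_lit 1551493528) (nat_lit 1092) (nat_lit 8054237535) (nat_lit 1176) (nat_lit 4507541203) (nat_lit 117) (nat_lit 5) (nat_lit 130) (nat_lit 5) (nat_lit 131) (nat_lit 5) (nat_lit 332) (nat_lit 323) (nat_lit 209)) (XT.nd (nat_lit 94) (nat_lit 0) (nat_lit 84) (XT.lf (nat_lit 0) (nat_lit 2265974303) (nat_lit 1092) (nat_lit 2449974952) (nat_lit 1176) (nat_lit 9623475167) (nat_lit 117) (nat_lit 5) (nat_lit 130) (nat_lit 5) (nat_lit 131) (nat_lit 5) (nat_lit 333) (nat_lit 323) (nat_lit 208)) (XT.lf (nat_lit 0) (nat_lit 3027796171) (nat_lit 1092) (nat_lit 11187610506) (nat_lit 1176) (nat_lit 356444609) (nat_lit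 118) (nat_lit 5) (nat_lit 131) (nat_lit 5) (nat_lit 132) (nat_lit 5) (nat_lit 334) (nat_lit 323) (nat_lit 207))))))))
noncomputable def xc100 : XT := (XT.nd (nat_lit 1974) (nat_lit 2772) (nat_lit 0) (XT.nd (nat_lit 940) (nat_lit 2100) (nat_lit 0) (XT.nd (nat_lit 470) (nat_lit 1428) (nat_lit 0) (XT.nd (nat_lit 188) (nat_lit 0) (nat_lit 84) (XT.nd (nat_lit 94) (nat_lit 0) (nat_lit 0) (XT.lf (nat_lit 0) (nat_lit 3875591089) (nat_lit 1092) (nat_lit 5416606501) (nat_lit 1176) (nat_lit 5517396334) (nat_lit 118) (nat_lit 5) (nat_lit 131) (nat_lit 5) (nat_lit 132) (nat_lit 5) (nat_lit 335) (nat_lit 323) (nat_lit 206)) (XT.lf (nat_lit 84) (nat_lit 535675545) (nat_lit 0) (nat_lit 4207947432) (nat_lit 1176) (nat_lit 10311313275) (nat_lit 119) (nat_lit 5) (nat_lit 118) (nat_lit 5) (nat_lit 132) (nat_lit 5) (nat_lit 336) (nat_lit 323) (nat_lit 205))) (XT.nd (nat_lit 94) (nat_lit 0) (nat_lit 0) (XT.lf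 (nat_lit 0) (nat_lit 5694864653) (nat_lit 1092) (nat_lit 8538401902) (nat_lit 1176) (nat_lit 1072913329) (nat_lit 119) (nat_lit 5) (nat_lit 132) (nat_lit 5) (nat_lit 133) (nat_lit 5) (nat_lit 337) (nat_lit 323) (nat_lit 204)) (XT.nd (nat_lit 94) (nat_lit 0) (nat_lit 0) (XT.lf (nat_lit 0) (nat_lit 6707892867) (nat_lit 1092) (nat_lit 2423654114) (nat_lit 1176) (nat_lit 6432703628) (nat_lit 119) (nat_lit 5) (nat_lit 132) (nat_lit 5) (nat_lit 133) (nat_lit 5) (nat_lit 338) (nat_lit 323) (nat_lit 203)) (XT.lf (nat_lit 84) (nat_lit 3952050611) (nat_lit 0) (nat_lit 3829062727) (nat_lit 1176) (nat_lit 8048354333) (nat_lit 120) (nat_lit 5) (nat_lit 119) (nat_lit 5) (nat_lit 133) (nat_lit 5) (nat_lit 339) (nat_lit 323) (nat_lit 202))))) (XT.nd (nat_lit 188) (nat_lit 504) (nat_lit 0) (XT.nd (nat_lit 94) (nat_lit 1092) (nat_lit 0) (XT.lf (nat_lit 0) (nat_lit 8919243766) (nat_lit 1092) (nat_lit 5550361120)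 (nat_lit 84) (nat_lit 1632358157) (nat_lit 120) (nat_lit 5) (nat_lit 133) (nat_lit 5) (nat_lit 121) (nat_lit 5) (nat_lit 340) (nat_lit 323) (nat_lit 201)) (XT.lf (nat_lit 0) (nat_lit 944440288) (nat_lit 1092) (nat_lit 9186889061) (nat_lit 1176) (nat_lit 6250413854) (nat_lit 107) (nat_lit 5) (nat_lit 120) (nat_lit 5) (nat_lit 121) (nat_lit 5) (nat_lit 341) (nat_lit 323) (nat_lit 200))) (XT.nd (nat_lit 94) (nat_lit 504) (nat_lit 0) (XT.lf (nat_lit 0) (nat_lit 7750069568) (nat_lit 1092) (nat_lit 3679211557) (nat_lit 1176) (nat_lit 5239453593) (nat_lit 107) (nat_lit 5) (nat_lit 120) (nat_lit 5) (nat_lit 121) (nat_lit 5) (nat_lit 342) (nat_lit 323) (nat_lit 199)) (XT.nd (nat_lit 94) (nat_lit 504) (nat_lit 0) (XT.lf (nat_lit 0) (nat_lit 12777962968) (nat_lit 1176) (nat_lit 2226050056) (nat_lit 84) (nat_lit 1960318796) (nat_lit 107) (nat_lit 5) (nat_lit 121) (nat_lit 5) (nat_lit 108) (nat_lit 5)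 (nat_lit 343) (nat_lit 323) (nat_lit 198)) (XT.lf (nat_lit 0) (nat_lit 4723556067) (nat_lit 504) (nat_lit 9520327827) (nat_lit 588) (nat_lit 3022903330) (nat_lit 101) (nat_lit 5) (nat_lit 107) (nat_lit 5) (nat_lit 108) (nat_lit 5) (nat_lit 344) (nat_lit 323) (nat_lit 197)))))) (XT.nd (nat_lit 470) (nat_lit 924) (nat_lit 0) (XT.nd (nat_lit 188) (nat_lit 588) (nat_lit 0) (XT.nd (nat_lit 94) (nat_lit 588) (nat_lit 0) (XT.lf (nat_lit 0) (nat_lit 11927852777) (nat_lit 504) (nat_lit 3841766603) (nat_lit 588) (nat_lit 1808585992) (nat_lit 101) (nat_lit 5) (nat_lit 107) (nat_lit 5) (nat_lit 108) (nat_lit 5) (nat_lit 345) (nat_lit 323) (nat_lit 196)) (XT.lf (nat_lit 0) (nat_lit 1457598833) (nat_lit 588) (nat_lit 15910891976) (nat_lit 672) (nat_lit 530016852) (nat_lit 94) (nat_lit 5) (nat_lit 101) (nat_lit 5) (nat_lit 102) (nat_lit 5) (nat_lit 346) (nat_lit 323) (nat_lit 195))) (XT.nd (nat_lit 94)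 (nat_lit 504) (nat_lit 0) (XT.lf (nat_lit 0) (nat_lit 862656304) (nat_lit 672) (nat_lit 9377073862) (nat_lit 84) (nat_lit 7985995276) (nat_lit 93) (nat_lit 5) (nat_lit 101) (nat_lit 5) (nat_lit 94) (nat_lit 5) (nat_lit 347) (nat_lit 323) (nat_lit 194)) (XT.nd (nat_lit 94) (nat_lit 504) (nat_lit 0) (XT.lf (nat_lit 0) (nat_lit 2279224027) (nat_lit 672) (nat_lit 2107566155) (nat_lit 84) (nat_lit 14176413506) (nat_lit 93) (nat_lit 5) (nat_lit 101) (nat_lit 5) (nat_lit 94) (nat_lit 5) (nat_lit 348) (nat_lit 323) (nat_lit 193)) (XT.lf (nat_lit 0) (nat_lit 3803054503) (nat_lit 588) (nat_lit 13436371939) (nat_lit 84) (nat_lit 1669781073) (nat_lit 87) (nat_lit 5) (nat_lit 94) (nat_lit 5) (nat_lit 88) (nat_lit 5) (nat_lit 349) (nat_lit 323) (nat_lit 192))))) (XT.nd (nat_lit 282) (nat_lit 420) (nat_lit 0) (XT.nd (nat_lit 94) (nat_lit 504) (nat_lit 0) (XT.lf (nat_lit 0) (nat_lit 5433362796) (nat_lit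 588) (nat_lit 5985281804) (nat_lit 84) (nat_lit 7845483197) (nat_lit 87) (nat_lit 5) (nat_lit 94) (nat_lit 5) (nat_lit 88) (nat_lit 5) (nat_lit 350) (nat_lit 323) (nat_lit 191)) (XT.nd (nat_lit 94) (nat_lit 0) (nat_lit 0) (XT.lf (nat_lit 0) (nat_lit 1723917240) (nat_lit 504) (nat_lit 5399779810) (nat_lit 588) (nat_lit 12506085426) (nat_lit 81) (nat_lit 5) (nat_lit 87) (nat_lit 5) (nat_lit 88) (nat_lit 5) (nat_lit 351) (nat_lit 323) (nat_lit 190)) (XT.lf (nat_lit 0) (nat_lit 8930075537) (nat_lit 588) (nat_lit 10222267479) (nat_lit 84) (nat_lit 852481638) (nat_lit 81) (nat_lit 5) (nat_lit 88) (nat_lit 5) (nat_lit 82) (nat_lit 5) (nat_lit 352) (nat_lit 323) (nat_lit 189)))) (XT.nd (nat_lit 94) (nat_lit 420) (nat_lit 0) (XT.lf (nat_lit 0) (nat_lit 10840441651) (nat_lit 588) (nat_lit 2363257811) (nat_lit 84) (nat_lit 7186330399) (nat_lit 81) (nat_lit 5) (nat_lit 88) (nat_lit 5) (nat_lit 82) (nat_lit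 5) (nat_lit 353) (nat_lit 323) (nat_lit 188)) (XT.nd (nat_lit 94) (nat_lit 0) (nat_lit 0) (XT.lf (nat_lit 0) (nat_lit 5849918493) (nat_lit 420) (nat_lit 7011122991) (nat_lit 504) (nat_lit 7924577235) (nat_lit 76) (nat_lit 5) (nat_lit 81) (nat_lit 5) (nat_lit 82) (nat_lit 5) (nat_lit 354) (nat_lit 323) (nat_lit 187)) (XT.lf (nat_lit 0) (nat_lit 14360551767) (nat_lit 420) (nat_lit 601515294) (nat_lit 504) (nat_lit 6230875333) (nat_lit 76) (nat_lit 5) (nat_lit 81) (nat_lit 5) (nat_lit 82) (nat_lit 5) (nat_lit 355) (nat_lit 323) (nat_lit 186))))))) (XT.nd (nat_lit 940) (nat_lit 1092) (nat_lit 0) (XT.nd (nat_lit 470) (nat_lit 756) (nat_lit 0) (XT.nd (nat_lit 188) (nat_lit 504) (nat_lit 0) (XT.nd (nat_lit 94) (nat_lit 0) (nat_lit 0) (XT.lf (nat_lit 0) (nat_lit 1485198026) (nat_lit 420) (nat_lit 15710670750) (nat_lit 504) (nat_lit 4414949622) (nat_lit 71) (nat_lit 5) (nat_lit 76) (nat_lit 5) (nat_lit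 77) (nat_lit 5) (nat_lit 356) (nat_lit 323) (nat_lit 185)) (XT.lf (nat_lit 0) (nat_lit 10192011052) (nat_lit 420) (nat_lit 9377765621) (nat_lit 504) (nat_lit 2469696880) (nat_lit 71) (nat_lit 5) (nat_lit 76) (nat_lit 5) (nat_lit 77) (nat_lit 5) (nat_lit 357) (nat_lit 323) (nat_lit 184))) (XT.nd (nat_lit 94) (nat_lit 504) (nat_lit 0) (XT.lf (nat_lit 0) (nat_lit 19161765950) (nat_lit 420) (nat_lit 2849159020) (nat_lit 504) (nat_lit 470709875) (nat_lit 71) (nat_lit 5) (nat_lit 76) (nat_lit 5) (nat_lit 77) (nat_lit 5) (nat_lit 358) (nat_lit 323) (nat_lit 183)) (XT.nd (nat_lit 94) (nat_lit 0) (nat_lit 0) (XT.lf (nat_lit 0) (nat_lit 1646360649) (nat_lit 504) (nat_lit 17413296743) (nat_lit 84) (nat_lit 3874643617) (nat_lit 65) (nat_lit 5) (nat_lit 71) (nat_lit 5) (nat_lit 66) (nat_lit 5) (nat_lit 359) (nat_lit 323) (nat_lit 182)) (XT.lf (nat_lit 0) (nat_lit 3877299913) (nat_lit 504) (nat_lit 8734950235)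 (nat_lit 84) (nat_lit 10786821017) (nat_lit 65) (nat_lit 5) (nat_lit 71) (nat_lit 5) (nat_lit 66) (nat_lit 5) (nat_lit 360) (nat_lit 323) (nat_lit 181))))) (XT.nd (nat_lit 188) (nat_lit 336) (nat_lit 0) (XT.nd (nat_lit 94) (nat_lit 0) (nat_lit 0) (XT.lf (nat_lit 0) (nat_lit 209824428) (nat_lit 420) (nat_lit 5963709737) (nat_lit 504) (nat_lit 17704853364) (nat_lit 60) (nat_lit 5) (nat_lit 65) (nat_lit 5) (nat_lit 66) (nat_lit 5) (nat_lit 361) (nat_lit 323) (nat_lit 180)) (XT.lf (nat_lit 0) (nat_lit 8636054273) (nat_lit 504) (nat_lit 14769392121) (nat_lit 84) (nat_lit 964186111) (nat_lit 60) (nat_lit 5) (nat_lit 66) (nat_lit 5) (nat_lit 61) (nat_lit 5) (nat_lit 362) (nat_lit 323) (nat_lit 179))) (XT.nd (nat_lit 94) (nat_lit 336) (nat_lit 0) (XT.lf (nat_lit 0) (nat_lit 11230239847) (nat_lit 504) (nat_lit 5662081245) (nat_lit 84) (nat_lit 7982087282) (nat_lit 60) (nat_lit 5) (nat_lit 66) (nat_lit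 5) (nat_lit 61) (nat_lit 5) (nat_lit 363) (nat_lit 323) (nat_lit 178)) (XT.nd (nat_lit 94) (nat_lit 0) (nat_lit 0) (XT.lf (nat_lit 0) (nat_lit 3797531020) (nat_lit 336) (nat_lit 10139489158) (nat_lit 420) (nat_lit 11456831612) (nat_lit 56) (nat_lit 5) (nat_lit 60) (nat_lit 5) (nat_lit 61) (nat_lit 5) (nat_lit 364) (nat_lit 323) (nat_lit 177)) (XT.lf (nat_lit 0) (nat_lit 13663953561) (nat_lit 336) (nat_lit 3117461773) (nat_lit 420) (nat_lit 9146334188) (nat_lit 56) (nat_lit 5) (nat_lit 60) (nat_lit 5) (nat_lit 61) (nat_lit 5) (nat_lit 365) (nat_lit 323) (nat_lit 176)))))) (XT.nd (nat_lit 470) (nat_lit 336) (nat_lit 0) (XT.nd (nat_lit 188) (nat_lit 420) (nat_lit 0) (XT.nd (nat_lit 94) (nat_lit 336) (nat_lit 0) (XT.lf (nat_lit 0) (nat_lit 19749635974) (nat_lit 420) (nat_lit 2689300204) (nat_lit 84) (nat_lit 4038172698) (nat_lit 56) (nat_lit 5) (nat_lit 61) (nat_lit 5) (nat_lit 57) (nat_lit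 5) (nat_lit 366) (nat_lit 323) (nat_lit 175)) (XT.lf (nat_lit 0) (nat_lit 7290762900) (nat_lit 336) (nat_lit 15618231816) (nat_lit 420) (nat_lit 4131446273) (nat_lit 52) (nat_lit 5) (nat_lit 56) (nat_lit 5) (nat_lit 57) (nat_lit 5) (nat_lit 367) (nat_lit 323) (nat_lit 174))) (XT.nd (nat_lit 94) (nat_lit 420) (nat_lit 0) (XT.lf (nat_lit 0) (nat_lit 17631032645) (nat_lit 336) (nat_lit 8558336964) (nat_lit 420) (nat_lit 1431166407) (nat_lit 52) (nat_lit 5) (nat_lit 56) (nat_lit 5) (nat_lit 57) (nat_lit 5) (nat_lit 368) (nat_lit 323) (nat_lit 173)) (XT.nd (nat_lit 94) (nat_lit 0) (nat_lit 0) (XT.lf (nat_lit 0) (nat_lit 54804744) (nat_lit 336) (nat_lit 1266396360) (nat_lit 420) (nat_lit 26897146254) (nat_lit 47) (nat_lit 5) (nat_lit 51) (nat_lit 5) (nat_lit 52) (nat_lit 5) (nat_lit 369) (nat_lit 323) (nat_lit 172)) (XT.lf (nat_lit 0) (nat_lit 4291683213) (nat_lit 420) (nat_lit 18293125348) (nat_lit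 84) (nat_lit 6244404078) (nat_lit 47) (nat_lit 5) (nat_lit 52) (nat_lit 5) (nat_lit 48) (nat_lit 5) (nat_lit 370) (nat_lit 323) (nat_lit 171))))) (XT.nd (nat_lit 49820) (nat_lit 0) (nat_lit 7056) (XT.nd (nat_lit 94) (nat_lit 336) (nat_lit 0) (XT.lf (nat_lit 0) (nat_lit 7362514786) (nat_lit 420) (nat_lit 8135695836) (nat_lit 84) (nat_lit 13960561176) (nat_lit 47) (nat_lit 5) (nat_lit 52) (nat_lit 5) (nat_lit 48) (nat_lit 5) (nat_lit 371) (nat_lit 323) (nat_lit 170)) (XT.nd (nat_lit 94) (nat_lit 0) (nat_lit 0) (XT.lf (nat_lit 0) (nat_lit 2378702063) (nat_lit 336) (nat_lit 8168890305) (nat_lit 420) (nat_lit 19559677220) (nat_lit 43) (nat_lit 5) (nat_lit 47) (nat_lit 5) (nat_lit 48) (nat_lit 5) (nat_lit 372) (nat_lit 323) (nat_lit 169)) (XT.lf (nat_lit 0) (nat_lit 13385740402) (nat_lit 336) (nat_lit 526119537) (nat_lit 420) (nat_lit 16861529312) (nat_lit 43) (nat_lit 5) (nat_lit 47) (nat_lit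 5) (nat_lit 48) (nat_lit 5) (nat_lit 373) (nat_lit 323) (nat_lit 168)))) (XT.nd (nat_lit 94) (nat_lit 0) (nat_lit 0) (XT.lf (nat_lit 0) (nat_lit 5148882550) (nat_lit 1092) (nat_lit 597420578) (nat_lit 1092) (nat_lit 597420578) (nat_lit 127) (nat_lit 3) (nat_lit 140) (nat_lit 3) (nat_lit 140) (nat_lit 5) (nat_lit 324) (nat_lit 324) (nat_lit 216)) (XT.nd (nat_lit 94) (nat_lit 0) (nat_lit 0) (XT.lf (nat_lit 84) (nat_lit 3790406514) (nat_lit 0) (nat_lit 7064900345) (nat_lit 1092) (nat_lit 2015036242) (nat_lit 128) (nat_lit 5) (nat_lit 127) (nat_lit 3) (nat_lit 140) (nat_lit 5) (nat_lit 325) (nat_lit 324) (nat_lit 215)) (XT.lf (nat_lit 84) (nat_lit 8947858885) (nat_lit 0) (nat_lit 2480149656) (nat_lit 1092) (nat_lit 1631023235) (nat_lit 128) (nat_lit 5) (nat_lit 127) (nat_lit 3) (nat_lit 140) (nat_lit 5) (nat_lit 326) (nat_lit 324) (nat_lit 214))))))))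
noncomputable def xc101 : XT := (XT.nd (nat_lit 1974) (nat_lit 3528) (nat_lit 0) (XT.nd (nat_lit 940) (nat_lit 1848) (nat_lit 0) (XT.nd (nat_lit 470) (nat_lit 0) (nat_lit 0) (XT.nd (nat_lit 188) (nat_lit 1008) (nat_lit 0) (XT.nd (nat_lit 94) (nat_lit 0) (nat_lit 0) (XT.lf (nat_lit 84) (nat_lit 1001514342) (nat_lit 0) (nat_lit 11035082554) (nat_lit 1092) (nat_lit 1216466441) (nat_lit 129) (nat_lit 5) (nat_lit 128) (nat_lit 5) (nat_lit 141) (nat_lit 5) (nat_lit 327) (nat_lit 324) (nat_lit 213)) (XT.lf (nat_lit 84) (nat_lit 6326044294) (nat_lit 0) (nat_lit 6392283762) (nat_lit 1092) (nat_lit 733153230) (nat_lit 129) (nat_lit 5) (nat_lit 128) (nat_lit 5) (nat_lit 141) (nat_lit 5) (nat_lit 328) (nat_lit 324) (nat_lit 212))) (XT.nd (nat_lit 94) (nat_lit 1008) (nat_lit 0) (XT.lf (nat_lit 84) (nat_lit 11807955125) (nat_lit 0) (nat_lit 1599906103) (nat_lit 1092) (nat_lit 248654603) (nat_lit 129)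 (nat_lit 5) (nat_lit 128) (nat_lit 5) (nat_lit 141) (nat_lit 5) (nat_lit 329) (nat_lit 324) (nat_lit 211)) (XT.nd (nat_lit 94) (nat_lit 0) (nat_lit 0) (XT.lf (nat_lit 0) (nat_lit 302550068) (nat_lit 1092) (nat_lit 10245465259) (nat_lit 1176) (nat_lit 3318104265) (nat_lit 116) (nat_lit 5) (nat_lit 129) (nat_lit 5) (nat_lit 130) (nat_lit 5) (nat_lit 330) (nat_lit 324) (nat_lit 210)) (XT.lf (nat_lit 0) (nat_lit 888788585) (nat_lit 1092) (nat_lit 4810307091) (nat_lit 1176) (nat_lit 8382377873) (nat_lit 116) (nat_lit 5) (nat_lit 129) (nat_lit 5) (nat_lit 130) (nat_lit 5) (nat_lit 331) (nat_lit 324) (nat_lit 209))))) (XT.nd (nat_lit 188) (nat_lit 0) (nat_lit 84) (XT.nd (nat_lit 94) (nat_lit 0) (nat_lit 84) (XT.lf (nat_lit 84) (nat_lit 801552598) (nat_lit 0) (nat_lit 687238428) (nat_lit 1176) (nat_lit 12814895486) (nat_lit 117) (nat_lit 5) (nat_lit 116) (nat_lit 5) (nat_lit 130) (nat_lit 5) (nat_lit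 332) (nat_lit 324) (nat_lit 208)) (XT.lf (nat_lit 0) (nat_lit 2190533341) (nat_lit 1092) (nat_lit 7895149513) (nat_lit 1176) (nat_lit 4444572836) (nat_lit 117) (nat_lit 5) (nat_lit 130) (nat_lit 5) (nat_lit 131) (nat_lit 5) (nat_lit 333) (nat_lit 324) (nat_lit 207))) (XT.nd (nat_lit 94) (nat_lit 0) (nat_lit 84) (XT.lf (nat_lit 0) (nat_lit 2909394593) (nat_lit 1092) (nat_lit 2129445625) (nat_lit 1176) (nat_lit 9725195580) (nat_lit 117) (nat_lit 5) (nat_lit 130) (nat_lit 5) (nat_lit 131) (nat_lit 5) (nat_lit 334) (nat_lit 324) (nat_lit 206)) (XT.nd (nat_lit 94) (nat_lit 0) (nat_lit 0) (XT.lf (nat_lit 0) (nat_lit 3679831739) (nat_lit 1092) (nat_lit 11120868745) (nat_lit 1176) (nat_lit 203496864) (nat_lit 118) (nat_lit 5) (nat_lit 131) (nat_lit 5) (nat_lit 132) (nat_lit 5) (nat_lit 335) (nat_lit 324) (nat_lit 205)) (XT.lf (nat_lit 0) (nat_lit 4537125185) (nat_lit 1092) (nat_lit 5183398425) (nat_lit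 1176) (nat_lit 5529369152) (nat_lit 118) (nat_lit 5) (nat_lit 131) (nat_lit 5) (nat_lit 132) (nat_lit 5) (nat_lit 336) (nat_lit 324) (nat_lit 204)))))) (XT.nd (nat_lit 470) (nat_lit 2016) (nat_lit 0) (XT.nd (nat_lit 188) (nat_lit 0) (nat_lit 84) (XT.nd (nat_lit 94) (nat_lit 0) (nat_lit 84) (XT.lf (nat_lit 84) (nat_lit 949343355) (nat_lit 0) (nat_lit 4470383129) (nat_lit 1176) (nat_lit 10083557347) (nat_lit 119) (nat_lit 5) (nat_lit 118) (nat_lit 5) (nat_lit 132) (nat_lit 5) (nat_lit 337) (nat_lit 324) (nat_lit 203)) (XT.lf (nat_lit 0) (nat_lit 6383279215) (nat_lit 1092) (nat_lit 8398895790) (nat_lit 1176) (nat_lit 980732289) (nat_lit 119) (nat_lit 5) (nat_lit 132) (nat_lit 5) (nat_lit 133) (nat_lit 5) (nat_lit 338) (nat_lit 324) (nat_lit 202))) (XT.nd (nat_lit 94) (nat_lit 0) (nat_lit 0) (XT.lf (nat_lit 0) (nat_lit 7412320337) (nat_lit 1092) (nat_lit 2106744161) (nat_lit 1176) (nat_lit 6510447845)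 (nat_lit 119) (nat_lit 5) (nat_lit 132) (nat_lit 5) (nat_lit 133) (nat_lit 5) (nat_lit 339) (nat_lit 324) (nat_lit 201)) (XT.nd (nat_lit 94) (nat_lit 0) (nat_lit 84) (XT.lf (nat_lit 84) (nat_lit 4462638324) (nat_lit 0) (nat_lit 4045093869) (nat_lit 1176) (nat_lit 7795617669) (nat_lit 120) (nat_lit 5) (nat_lit 119) (nat_lit 5) (nat_lit 133) (nat_lit 5) (nat_lit 340) (nat_lit 324) (nat_lit 200)) (XT.lf (nat_lit 0) (nat_lit 9665613082) (nat_lit 1092) (nat_lit 5328755022) (nat_lit 84) (nat_lit 1590459600) (nat_lit 120) (nat_lit 5) (nat_lit 133) (nat_lit 5) (nat_lit 121) (nat_lit 5) (nat_lit 341) (nat_lit 324) (nat_lit 199))))) (XT.nd (nat_lit 282) (nat_lit 1092) (nat_lit 0) (XT.nd (nat_lit 94) (nat_lit 0) (nat_lit 0) (XT.lf (nat_lit 0) (nat_lit 1363399701) (nat_lit 1092) (nat_lit 9541611223) (nat_lit 1176) (nat_lit 5968640281) (nat_lit 107) (nat_lit 5) (nat_lit 120) (nat_lit 5) (nat_lit 121)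 (nat_lit 5) (nat_lit 342) (nat_lit 324) (nat_lit 198)) (XT.nd (nat_lit 94) (nat_lit 0) (nat_lit 0) (XT.lf (nat_lit 0) (nat_lit 8368286579) (nat_lit 1092) (nat_lit 3861093110) (nat_lit 1176) (nat_lit 4940638631) (nat_lit 107) (nat_lit 5) (nat_lit 120) (nat_lit 5) (nat_lit 121) (nat_lit 5) (nat_lit 343) (nat_lit 324) (nat_lit 197)) (XT.lf (nat_lit 0) (nat_lit 13605814065) (nat_lit 1176) (nat_lit 1912822040) (nat_lit 84) (nat_lit 1956627522) (nat_lit 107) (nat_lit 5) (nat_lit 121) (nat_lit 5) (nat_lit 108) (nat_lit 5) (nat_lit 344) (nat_lit 324) (nat_lit 196)))) (XT.nd (nat_lit 94) (nat_lit 588) (nat_lit 0) (XT.lf (nat_lit 0) (nat_lit 5248352082) (nat_lit 504) (nat_lit 9859598554) (nat_lit 588) (nat_lit 2679478047) (nat_lit 101) (nat_lit 5) (nat_lit 107) (nat_lit 5) (nat_lit 108) (nat_lit 5) (nat_lit 345) (nat_lit 324) (nat_lit 195)) (XT.nd (nat_lit 94) (nat_lit 588) (nat_lit 0) (XT.lf (nat_lit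 0) (nat_lit 12664605327) (nat_lit 504) (nat_lit 4003674719) (nat_lit 588) (nat_lit 1440660609) (nat_lit 101) (nat_lit 5) (nat_lit 107) (nat_lit 5) (nat_lit 108) (nat_lit 5) (nat_lit 346) (nat_lit 324) (nat_lit 194)) (XT.lf (nat_lit 0) (nat_lit 1880523922) (nat_lit 588) (nat_lit 16427205948) (nat_lit 672) (nat_lit 131765686) (nat_lit 94) (nat_lit 5) (nat_lit 101) (nat_lit 5) (nat_lit 102) (nat_lit 5) (nat_lit 347) (nat_lit 324) (nat_lit 193))))))) (XT.nd (nat_lit 1034) (nat_lit 1596) (nat_lit 0) (XT.nd (nat_lit 470) (nat_lit 840) (nat_lit 0) (XT.nd (nat_lit 188) (nat_lit 1008) (nat_lit 0) (XT.nd (nat_lit 94) (nat_lit 0) (nat_lit 0) (XT.lf (nat_lit 0) (nat_lit 1283508034) (nat_lit 672) (nat_lit 9291922538) (nat_lit 84) (nat_lit 8201719743) (nat_lit 93) (nat_lit 5) (nat_lit 101) (nat_lit 5) (nat_lit 94) (nat_lit 5) (nat_lit 348) (nat_lit 324) (nat_lit 192)) (XT.lf (nat_lit 0) (nat_lit 2732139317)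 (nat_lit 672) (nat_lit 1808360828) (nat_lit 84) (nat_lit 14584998342) (nat_lit 93) (nat_lit 5) (nat_lit 101) (nat_lit 5) (nat_lit 94) (nat_lit 5) (nat_lit 349) (nat_lit 324) (nat_lit 191))) (XT.nd (nat_lit 94) (nat_lit 504) (nat_lit 0) (XT.lf (nat_lit 0) (nat_lit 4295160591) (nat_lit 588) (nat_lit 13479036692) (nat_lit 84) (nat_lit 1708320159) (nat_lit 87) (nat_lit 5) (nat_lit 94) (nat_lit 5) (nat_lit 88) (nat_lit 5) (nat_lit 350) (nat_lit 324) (nat_lit 190)) (XT.nd (nat_lit 94) (nat_lit 504) (nat_lit 0) (XT.lf (nat_lit 0) (nat_lit 5964756692) (nat_lit 588) (nat_lit 5808204030) (nat_lit 84) (nat_lit 8075866672) (nat_lit 87) (nat_lit 5) (nat_lit 94) (nat_lit 5) (nat_lit 88) (nat_lit 5) (nat_lit 351) (nat_lit 324) (nat_lit 189)) (XT.lf (nat_lit 0) (nat_lit 2136308968) (nat_lit 504) (nat_lit 5563829738) (nat_lit 588) (nat_lit 12525943773) (nat_lit 81) (nat_lit 5) (nat_lit 87) (nat_lit 5) (nat_lit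 88) (nat_lit 5) (nat_lit 352) (nat_lit 324) (nat_lit 188))))) (XT.nd (nat_lit 282) (nat_lit 420) (nat_lit 0) (XT.nd (nat_lit 94) (nat_lit 420) (nat_lit 0) (XT.lf (nat_lit 0) (nat_lit 9551854739) (nat_lit 588) (nat_lit 10179176800) (nat_lit 84) (nat_lit 882085956) (nat_lit 81) (nat_lit 5) (nat_lit 88) (nat_lit 5) (nat_lit 82) (nat_lit 5) (nat_lit 353) (nat_lit 324) (nat_lit 187)) (XT.nd (nat_lit 94) (nat_lit 420) (nat_lit 0) (XT.lf (nat_lit 0) (nat_lit 11511070376) (nat_lit 588) (nat_lit 2087361702) (nat_lit 84) (nat_lit 7412188492) (nat_lit 81) (nat_lit 5) (nat_lit 88) (nat_lit 5) (nat_lit 82) (nat_lit 5) (nat_lit 354) (nat_lit 324) (nat_lit 186)) (XT.lf (nat_lit 0) (nat_lit 6376888165) (nat_lit 420) (nat_lit 7210789287) (nat_lit 504) (nat_lit 7831034732) (nat_lit 76) (nat_lit 5) (nat_lit 81) (nat_lit 5) (nat_lit 82) (nat_lit 5) (nat_lit 355) (nat_lit 324) (nat_lit 185)))) (XT.nd (nat_lit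 94) (nat_lit 420) (nat_lit 0) (XT.lf (nat_lit 0) (nat_lit 15140958938) (nat_lit 420) (nat_lit 603015307) (nat_lit 504) (nat_lit 6095027232) (nat_lit 76) (nat_lit 5) (nat_lit 81) (nat_lit 5) (nat_lit 82) (nat_lit 5) (nat_lit 356) (nat_lit 324) (nat_lit 184)) (XT.nd (nat_lit 94) (nat_lit 0) (nat_lit 0) (XT.lf (nat_lit 0) (nat_lit 1873718503) (nat_lit 420) (nat_lit 16167303644) (nat_lit 504) (nat_lit 4229027462) (nat_lit 71) (nat_lit 5) (nat_lit 76) (nat_lit 5) (nat_lit 77) (nat_lit 5) (nat_lit 357) (nat_lit 324) (nat_lit 183)) (XT.lf (nat_lit 0) (nat_lit 10840145100) (nat_lit 420) (nat_lit 9638992457) (nat_lit 504) (nat_lit 2233177369) (nat_lit 71) (nat_lit 5) (nat_lit 76) (nat_lit 5) (nat_lit 77) (nat_lit 5) (nat_lit 358) (nat_lit 324) (nat_lit 182)))))) (XT.nd (nat_lit 470) (nat_lit 672) (nat_lit 0) (XT.nd (nat_lit 188) (nat_lit 420) (nat_lit 0) (XT.nd (nat_lit 94) (nat_lit 504) (nat_lit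 0) (XT.lf (nat_lit 0) (nat_lit 20077974395) (nat_lit 420) (nat_lit 2908885570) (nat_lit 504) (nat_lit 181635426) (nat_lit 71) (nat_lit 5) (nat_lit 76) (nat_lit 5) (nat_lit 77) (nat_lit 5) (nat_lit 359) (nat_lit 324) (nat_lit 181)) (XT.lf (nat_lit 0) (nat_lit 1989570690) (nat_lit 504) (nat_lit 17617570852) (nat_lit 84) (nat_lit 4028154167) (nat_lit 65) (nat_lit 5) (nat_lit 71) (nat_lit 5) (nat_lit 66) (nat_lit 5) (nat_lit 360) (nat_lit 324) (nat_lit 180))) (XT.nd (nat_lit 94) (nat_lit 420) (nat_lit 0) (XT.lf (nat_lit 0) (nat_lit 4280884048) (nat_lit 504) (nat_lit 8680284526) (nat_lit 84) (nat_lit 11153604901) (nat_lit 65) (nat_lit 5) (nat_lit 71) (nat_lit 5) (nat_lit 66) (nat_lit 5) (nat_lit 361) (nat_lit 324) (nat_lit 179)) (XT.nd (nat_lit 94) (nat_lit 0) (nat_lit 0) (XT.lf (nat_lit 0) (nat_lit 538483271) (nat_lit 420) (nat_lit 6104493226) (nat_lit 504) (nat_lit 17966163803) (nat_lit 60)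 (nat_lit 5) (nat_lit 65) (nat_lit 5) (nat_lit 66) (nat_lit 5) (nat_lit 362) (nat_lit 324) (nat_lit 178)) (XT.lf (nat_lit 0) (nat_lit 9173898208) (nat_lit 504) (nat_lit 14906007452) (nat_lit 84) (nat_lit 1035980020) (nat_lit 60) (nat_lit 5) (nat_lit 66) (nat_lit 5) (nat_lit 61) (nat_lit 5) (nat_lit 363) (nat_lit 324) (nat_lit 177))))) (XT.nd (nat_lit 282) (nat_lit 336) (nat_lit 0) (XT.nd (nat_lit 94) (nat_lit 336) (nat_lit 0) (XT.lf (nat_lit 0) (nat_lit 11840381407) (nat_lit 504) (nat_lit 5526028824) (nat_lit 84) (nat_lit 8270176158) (nat_lit 60) (nat_lit 5) (nat_lit 66) (nat_lit 5) (nat_lit 61) (nat_lit 5) (nat_lit 364) (nat_lit 324) (nat_lit 176)) (XT.nd (nat_lit 94) (nat_lit 0) (nat_lit 0) (XT.lf (nat_lit 0) (nat_lit 4223676985) (nat_lit 336) (nat_lit 10402576620) (nat_lit 420) (nat_lit 11546052564) (nat_lit 56) (nat_lit 5) (nat_lit 60) (nat_lit 5) (nat_lit 61) (nat_lit 5) (nat_lit 365)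 (nat_lit 324) (nat_lit 175)) (XT.lf (nat_lit 0) (nat_lit 14386685009) (nat_lit 336) (nat_lit 3164406966) (nat_lit 420) (nat_lit 9171926000) (nat_lit 56) (nat_lit 5) (nat_lit 60) (nat_lit 5) (nat_lit 61) (nat_lit 5) (nat_lit 366) (nat_lit 324) (nat_lit 174)))) (XT.nd (nat_lit 94) (nat_lit 336) (nat_lit 0) (XT.lf (nat_lit 0) (nat_lit 20604305103) (nat_lit 420) (nat_lit 2474756117) (nat_lit 84) (nat_lit 4210586756) (nat_lit 56) (nat_lit 5) (nat_lit 61) (nat_lit 5) (nat_lit 57) (nat_lit 5) (nat_lit 367) (nat_lit 324) (nat_lit 173)) (XT.nd (nat_lit 94) (nat_lit 0) (nat_lit 0) (XT.lf (nat_lit 0) (nat_lit 7811672848) (nat_lit 336) (nat_lit 16045567154) (nat_lit 420) (nat_lit 4013360793) (nat_lit 52) (nat_lit 5) (nat_lit 56) (nat_lit 5) (nat_lit 57) (nat_lit 5) (nat_lit 368) (nat_lit 324) (nat_lit 172)) (XT.lf (nat_lit 0) (nat_lit 18463624045) (nat_lit 336) (nat_lit 8768524315) (nat_lit 420) (nat_lit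 1236773774) (nat_lit 52) (nat_lit 5) (nat_lit 56) (nat_lit 5) (nat_lit 57) (nat_lit 5) (nat_lit 369) (nat_lit 324) (nat_lit 171))))))))
noncomputable def xc102 : XT := (XT.nd (nat_lit 51606) (nat_lit 0) (nat_lit 1428) (XT.nd (nat_lit 50572) (nat_lit 0) (nat_lit 6132) (XT.nd (nat_lit 50102) (nat_lit 0) (nat_lit 6048) (XT.nd (nat_lit 188) (nat_lit 336) (nat_lit 0) (XT.nd (nat_lit 94) (nat_lit 0) (nat_lit 0) (XT.lf (nat_lit 0) (nat_lit 345063770) (nat_lit 336) (nat_lit 1246871120) (nat_lit 420) (nat_lit 27493406830) (nat_lit 47) (nat_lit 5) (nat_lit 51) (nat_lit 5) (nat_lit 52) (nat_lit 5) (nat_lit 370) (nat_lit 324) (nat_lit 170)) (XT.lf (nat_lit 0) (nat_lit 4648158653) (nat_lit 420) (nat_lit 18573353509) (nat_lit 84) (nat_lit 6493847888) (nat_lit 47) (nat_lit 5) (nat_lit 52) (nat_lit 5) (nat_lit 48) (nat_lit 5) (nat_lit 371) (nat_lit 324) (nat_lit 169))) (XT.nd (nat_lit 94) (nat_lit 336)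 (nat_lit 0) (XT.lf (nat_lit 0) (nat_lit 7807467837) (nat_lit 420) (nat_lit 8109668920) (nat_lit 84) (nat_lit 14447526045) (nat_lit 47) (nat_lit 5) (nat_lit 52) (nat_lit 5) (nat_lit 48) (nat_lit 5) (nat_lit 372) (nat_lit 324) (nat_lit 168)) (XT.nd (nat_lit 49726) (nat_lit 0) (nat_lit 7056) (XT.lf (nat_lit 0) (nat_lit 2727858450) (nat_lit 336) (nat_lit 8359640375) (nat_lit 420) (nat_lit 19945900928) (nat_lit 43) (nat_lit 5) (nat_lit 47) (nat_lit 5) (nat_lit 48) (nat_lit 5) (nat_lit 373) (nat_lit 324) (nat_lit 167)) (XT.lf (nat_lit 0) (nat_lit 5665248538) (nat_lit 1092) (nat_lit 431330715) (nat_lit 1092) (nat_lit 431330715) (nat_lit 127) (nat_lit 3) (nat_lit 140) (nat_lit 3) (nat_lit 140) (nat_lit 5) (nat_lit 325) (nat_lit 325) (nat_lit 214))))) (XT.nd (nat_lit 188) (nat_lit 1008) (nat_lit 0) (XT.nd (nat_lit 94) (nat_lit 0) (nat_lit 0) (XT.lf (nat_lit 84) (nat_lit 4273390898) (nat_lit 0) (nat_lit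 7614103874) (nat_lit 1092) (nat_lit 1357528069) (nat_lit 128) (nat_lit 5) (nat_lit 127) (nat_lit 3) (nat_lit 140) (nat_lit 5) (nat_lit 326) (nat_lit 325) (nat_lit 213)) (XT.lf (nat_lit 84) (nat_lit 9579735024) (nat_lit 0) (nat_lit 2877297747) (nat_lit 1092) (nat_lit 983258771) (nat_lit 128) (nat_lit 5) (nat_lit 127) (nat_lit 3) (nat_lit 140) (nat_lit 5) (nat_lit 327) (nat_lit 325) (nat_lit 212))) (XT.nd (nat_lit 94) (nat_lit 1092) (nat_lit 0) (XT.lf (nat_lit 84) (nat_lit 1409941362) (nat_lit 0) (nat_lit 11654919643) (nat_lit 1092) (nat_lit 576165257) (nat_lit 129) (nat_lit 5) (nat_lit 128) (nat_lit 5) (nat_lit 141) (nat_lit 5) (nat_lit 328) (nat_lit 325) (nat_lit 211)) (XT.nd (nat_lit 94) (nat_lit 1092) (nat_lit 0) (XT.lf (nat_lit 84) (nat_lit 6888184718) (nat_lit 0) (nat_lit 6859842745) (nat_lit 1092) (nat_lit 98255719) (nat_lit 129) (nat_lit 5) (nat_lit 128) (nat_lit 5) (nat_lit 141) (nat_lit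 5) (nat_lit 329) (nat_lit 325) (nat_lit 210)) (XT.lf (nat_lit 0) (nat_lit 373802804) (nat_lit 1092) (nat_lit 1533096603) (nat_lit 1176) (nat_lit 12151324403) (nat_lit 115) (nat_lit 5) (nat_lit 128) (nat_lit 5) (nat_lit 129) (nat_lit 5) (nat_lit 330) (nat_lit 325) (nat_lit 209)))))) (XT.nd (nat_lit 470) (nat_lit 0) (nat_lit 168) (XT.nd (nat_lit 188) (nat_lit 0) (nat_lit 0) (XT.nd (nat_lit 94) (nat_lit 0) (nat_lit 0) (XT.lf (nat_lit 0) (nat_lit 919358521) (nat_lit 1092) (nat_lit 10172999952) (nat_lit 1176) (nat_lit 3182503278) (nat_lit 116) (nat_lit 5) (nat_lit 129) (nat_lit 5) (nat_lit 130) (nat_lit 5) (nat_lit 331) (nat_lit 325) (nat_lit 208)) (XT.lf (nat_lit 0) (nat_lit 1505506308) (nat_lit 1092) (nat_lit 4581080606) (nat_lit 1176) (nat_lit 8410939424) (nat_lit 116) (nat_lit 5) (nat_lit 129) (nat_lit 5) (nat_lit 130) (nat_lit 5) (nat_lit 332) (nat_lit 325) (nat_lit 207))) (XT.nd (nat_lit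 94) (nat_lit 0) (nat_lit 84) (XT.lf (nat_lit 84) (nat_lit 1200916320) (nat_lit 0) (nat_lit 909192786) (nat_lit 1176) (nat_lit 12617019202) (nat_lit 117) (nat_lit 5) (nat_lit 116) (nat_lit 5) (nat_lit 130) (nat_lit 5) (nat_lit 333) (nat_lit 325) (nat_lit 206)) (XT.nd (nat_lit 94) (nat_lit 0) (nat_lit 0) (XT.lf (nat_lit 0) (nat_lit 2814380792) (nat_lit 1092) (nat_lit 7755341874) (nat_lit 1176) (nat_lit 4391658845) (nat_lit 117) (nat_lit 5) (nat_lit 130) (nat_lit 5) (nat_lit 131) (nat_lit 5) (nat_lit 334) (nat_lit 325) (nat_lit 205)) (XT.lf (nat_lit 0) (nat_lit 3538810769) (nat_lit 1092) (nat_lit 1822463993) (nat_lit 1176) (nat_lit 9841714714) (nat_lit 117) (nat_lit 5) (nat_lit 130) (nat_lit 5) (nat_lit 131) (nat_lit 5) (nat_lit 335) (nat_lit 325) (nat_lit 204))))) (XT.nd (nat_lit 282) (nat_lit 0) (nat_lit 84) (XT.nd (nat_lit 94) (nat_lit 0) (nat_lit 0) (XT.lf (nat_lit 0) (nat_lit 4319018814)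 (nat_lit 1092) (nat_lit 11076553719) (nat_lit 1176) (nat_lit 55521593) (nat_lit 118) (nat_lit 5) (nat_lit 131) (nat_lit 5) (nat_lit 132) (nat_lit 5) (nat_lit 336) (nat_lit 325) (nat_lit 203)) (XT.nd (nat_lit 94) (nat_lit 0) (nat_lit 0) (XT.lf (nat_lit 0) (nat_lit 5187099336) (nat_lit 1092) (nat_lit 4966720093) (nat_lit 1176) (nat_lit 5551134908) (nat_lit 118) (nat_lit 5) (nat_lit 131) (nat_lit 5) (nat_lit 132) (nat_lit 5) (nat_lit 337) (nat_lit 325) (nat_lit 202)) (XT.lf (nat_lit 84) (nat_lit 1352316214) (nat_lit 0) (nat_lit 4733136378) (nat_lit 1176) (nat_lit 9881164818) (nat_lit 119) (nat_lit 5) (nat_lit 118) (nat_lit 5) (nat_lit 132) (nat_lit 5) (nat_lit 338) (nat_lit 325) (nat_lit 201)))) (XT.nd (nat_lit 94) (nat_lit 0) (nat_lit 0) (XT.lf (nat_lit 0) (nat_lit 7062715470) (nat_lit 1092) (nat_lit 8279006244) (nat_lit 1176) (nat_lit 893123743) (nat_lit 119) (nat_lit 5) (nat_lit 132) (nat_lit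 5) (nat_lit 133) (nat_lit 5) (nat_lit 339) (nat_lit 325) (nat_lit 200)) (XT.nd (nat_lit 94) (nat_lit 0) (nat_lit 0) (XT.lf (nat_lit 0) (nat_lit 8109177533) (nat_lit 1092) (nat_lit 1803231392) (nat_lit 1176) (nat_lit 6597808831) (nat_lit 119) (nat_lit 5) (nat_lit 132) (nat_lit 5) (nat_lit 133) (nat_lit 5) (nat_lit 340) (nat_lit 325) (nat_lit 199)) (XT.lf (nat_lit 84) (nat_lit 4966067961) (nat_lit 0) (nat_lit 4262056942) (nat_lit 1176) (nat_lit 7564794446) (nat_lit 120) (nat_lit 5) (nat_lit 119) (nat_lit 5) (nat_lit 133) (nat_lit 5) (nat_lit 341) (nat_lit 325) (nat_lit 198))))))) (XT.nd (nat_lit 1034) (nat_lit 2268) (nat_lit 0) (XT.nd (nat_lit 470) (nat_lit 1176) (nat_lit 0) (XT.nd (nat_lit 188) (nat_lit 504) (nat_lit 0) (XT.nd (nat_lit 94) (nat_lit 1092) (nat_lit 0) (XT.lf (nat_lit 0) (nat_lit 10407288478) (nat_lit 1092) (nat_lit 5123596723) (nat_lit 84) (nat_lit 1552741220) (nat_lit 120)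 (nat_lit 5) (nat_lit 133) (nat_lit 5) (nat_lit 121) (nat_lit 5) (nat_lit 342) (nat_lit 325) (nat_lit 197)) (XT.lf (nat_lit 0) (nat_lit 1772265338) (nat_lit 1092) (nat_lit 9903187781) (nat_lit 1176) (nat_lit 5706298563) (nat_lit 107) (nat_lit 5) (nat_lit 120) (nat_lit 5) (nat_lit 121) (nat_lit 5) (nat_lit 343) (nat_lit 325) (nat_lit 196))) (XT.nd (nat_lit 94) (nat_lit 504) (nat_lit 0) (XT.lf (nat_lit 0) (nat_lit 8983280811) (nat_lit 1092) (nat_lit 4044595542) (nat_lit 1176) (nat_lit 4659880323) (nat_lit 107) (nat_lit 5) (nat_lit 120) (nat_lit 5) (nat_lit 121) (nat_lit 5) (nat_lit 344) (nat_lit 325) (nat_lit 195)) (XT.nd (nat_lit 94) (nat_lit 504) (nat_lit 0) (XT.lf (nat_lit 0) (nat_lit 14433756187) (nat_lit 1176) (nat_lit 1612524422) (nat_lit 84) (nat_lit 1956639963) (nat_lit 107) (nat_lit 5) (nat_lit 121) (nat_lit 5) (nat_lit 108) (nat_lit 5) (nat_lit 345) (nat_lit 325) (nat_lit 194)) (XT.lf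 (nat_lit 0) (nat_lit 5767005520) (nat_lit 504) (nat_lit 10206772152) (nat_lit 588) (nat_lit 2351298852) (nat_lit 101) (nat_lit 5) (nat_lit 107) (nat_lit 5) (nat_lit 108) (nat_lit 5) (nat_lit 346) (nat_lit 325) (nat_lit 193))))) (XT.nd (nat_lit 282) (nat_lit 504) (nat_lit 0) (XT.nd (nat_lit 94) (nat_lit 672) (nat_lit 0) (XT.lf (nat_lit 0) (nat_lit 13402459813) (nat_lit 504) (nat_lit 4168066077) (nat_lit 588) (nat_lit 1086443285) (nat_lit 101) (nat_lit 5) (nat_lit 107) (nat_lit 5) (nat_lit 108) (nat_lit 5) (nat_lit 347) (nat_lit 325) (nat_lit 192)) (XT.nd (nat_lit 94) (nat_lit 0) (nat_lit 0) (XT.lf (nat_lit 0) (nat_lit 249146005) (nat_lit 672) (nat_lit 16706412225) (nat_lit 84) (nat_lit 2042438951) (nat_lit 93) (nat_lit 5) (nat_lit 101) (nat_lit 5) (nat_lit 94) (nat_lit 5) (nat_lit 348) (nat_lit 325) (nat_lit 191)) (XT.lf (nat_lit 0) (nat_lit 1694062395) (nat_lit 672) (nat_lit 9226393205)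 (nat_lit 84) (nat_lit 8426017688) (nat_lit 93) (nat_lit 5) (nat_lit 101) (nat_lit 5) (nat_lit 94) (nat_lit 5) (nat_lit 349) (nat_lit 325) (nat_lit 190)))) (XT.nd (nat_lit 94) (nat_lit 504) (nat_lit 0) (XT.lf (nat_lit 0) (nat_lit 3176453106) (nat_lit 672) (nat_lit 1521472457) (nat_lit 84) (nat_lit 15008078619) (nat_lit 93) (nat_lit 5) (nat_lit 101) (nat_lit 5) (nat_lit 94) (nat_lit 5) (nat_lit 350) (nat_lit 325) (nat_lit 189)) (XT.nd (nat_lit 94) (nat_lit 0) (nat_lit 0) (XT.lf (nat_lit 0) (nat_lit 4780356785) (nat_lit 588) (nat_lit 13545168584) (nat_lit 84) (nat_lit 1748837246) (nat_lit 87) (nat_lit 5) (nat_lit 94) (nat_lit 5) (nat_lit 88) (nat_lit 5) (nat_lit 351) (nat_lit 325) (nat_lit 188)) (XT.lf (nat_lit 0) (nat_lit 6491125077) (nat_lit 588) (nat_lit 5647115537) (nat_lit 84) (nat_lit 8314151769) (nat_lit 87) (nat_lit 5) (nat_lit 94) (nat_lit 5) (nat_lit 88) (nat_lit 5) (nat_lit 352)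 (nat_lit 325) (nat_lit 187)))))) (XT.nd (nat_lit 470) (nat_lit 1344) (nat_lit 0) (XT.nd (nat_lit 188) (nat_lit 420) (nat_lit 0) (XT.nd (nat_lit 94) (nat_lit 0) (nat_lit 0) (XT.lf (nat_lit 0) (nat_lit 2540223598) (nat_lit 504) (nat_lit 5733163241) (nat_lit 588) (nat_lit 12568204948) (nat_lit 81) (nat_lit 5) (nat_lit 87) (nat_lit 5) (nat_lit 88) (nat_lit 5) (nat_lit 353) (nat_lit 325) (nat_lit 186)) (XT.lf (nat_lit 0) (nat_lit 10172477303) (nat_lit 588) (nat_lit 10156072600) (nat_lit 84) (nat_lit 912419806) (nat_lit 81) (nat_lit 5) (nat_lit 88) (nat_lit 5) (nat_lit 82) (nat_lit 5) (nat_lit 354) (nat_lit 325) (nat_lit 185))) (XT.nd (nat_lit 94) (nat_lit 420) (nat_lit 0) (XT.lf (nat_lit 0) (nat_lit 12182671140) (nat_lit 588) (nat_lit 1823593987) (nat_lit 84) (nat_lit 7644865642) (nat_lit 81) (nat_lit 5) (nat_lit 88) (nat_lit 5) (nat_lit 82) (nat_lit 5) (nat_lit 355) (nat_lit 325) (nat_lit 184))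 (XT.nd (nat_lit 94) (nat_lit 0) (nat_lit 0) (XT.lf (nat_lit 0) (nat_lit 6899722102) (nat_lit 420) (nat_lit 7417692367) (nat_lit 504) (nat_lit 7754684067) (nat_lit 76) (nat_lit 5) (nat_lit 81) (nat_lit 5) (nat_lit 82) (nat_lit 5) (nat_lit 356) (nat_lit 325) (nat_lit 183)) (XT.lf (nat_lit 0) (nat_lit 15925702481) (nat_lit 420) (nat_lit 605577465) (nat_lit 504) (nat_lit 5974455384) (nat_lit 76) (nat_lit 5) (nat_lit 81) (nat_lit 5) (nat_lit 82) (nat_lit 5) (nat_lit 357) (nat_lit 325) (nat_lit 182))))) (XT.nd (nat_lit 282) (nat_lit 840) (nat_lit 0) (XT.nd (nat_lit 94) (nat_lit 84) (nat_lit 0) (XT.lf (nat_lit 0) (nat_lit 2253997478) (nat_lit 420) (nat_lit 16639892677) (nat_lit 504) (nat_lit 4056460858) (nat_lit 71) (nat_lit 5) (nat_lit 76) (nat_lit 5) (nat_lit 77) (nat_lit 5) (nat_lit 358) (nat_lit 325) (nat_lit 181)) (XT.nd (nat_lit 94) (nat_lit 84) (nat_lit 0) (XT.lf (nat_lit 0) (nat_lit 11488695613)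 (nat_lit 420) (nat_lit 9910063707) (nat_lit 504) (nat_lit 2007870023) (nat_lit 71) (nat_lit 5) (nat_lit 76) (nat_lit 5) (nat_lit 77) (nat_lit 5) (nat_lit 359) (nat_lit 325) (nat_lit 180)) (XT.lf (nat_lit 0) (nat_lit 96430830) (nat_lit 504) (nat_lit 2874720144) (nat_lit 84) (nat_lit 20906063847) (nat_lit 70) (nat_lit 5) (nat_lit 76) (nat_lit 5) (nat_lit 71) (nat_lit 5) (nat_lit 360) (nat_lit 325) (nat_lit 179)))) (XT.nd (nat_lit 94) (nat_lit 420) (nat_lit 0) (XT.lf (nat_lit 0) (nat_lit 2326114343) (nat_lit 504) (nat_lit 17848051953) (nat_lit 84) (nat_lit 4184445407) (nat_lit 65) (nat_lit 5) (nat_lit 71) (nat_lit 5) (nat_lit 66) (nat_lit 5) (nat_lit 361) (nat_lit 325) (nat_lit 178)) (XT.nd (nat_lit 94) (nat_lit 420) (nat_lit 0) (XT.lf (nat_lit 0) (nat_lit 4680193745) (nat_lit 504) (nat_lit 8643201091) (nat_lit 84) (nat_lit 11529840426) (nat_lit 65) (nat_lit 5) (nat_lit 71) (nat_lit 5) (nat_lit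 66) (nat_lit 5) (nat_lit 362) (nat_lit 325) (nat_lit 177)) (XT.lf (nat_lit 0) (nat_lit 858248789) (nat_lit 420) (nat_lit 6252252618) (nat_lit 504) (nat_lit 18252606353) (nat_lit 60) (nat_lit 5) (nat_lit 65) (nat_lit 5) (nat_lit 66) (nat_lit 5) (nat_lit 363) (nat_lit 325) (nat_lit 176))))))))
noncomputable def xc103 : XT := (XT.nd (nat_lit 51794) (nat_lit 0) (nat_lit 2016) (XT.nd (nat_lit 50760) (nat_lit 0) (nat_lit 5712) (XT.nd (nat_lit 470) (nat_lit 756) (nat_lit 0) (XT.nd (nat_lit 188) (nat_lit 336) (nat_lit 0) (XT.nd (nat_lit 94) (nat_lit 0) (nat_lit 0) (XT.lf (nat_lit 0) (nat_lit 9712415264) (nat_lit 504) (nat_lit 15065885206) (nat_lit 84) (nat_lit 1107517485) (nat_lit 60) (nat_lit 5) (nat_lit 66) (nat_lit 5) (nat_lit 61) (nat_lit 5) (nat_lit 364) (nat_lit 325) (nat_lit 175)) (XT.lf (nat_lit 0) (nat_lit 12453918401) (nat_lit 504) (nat_lit 5404214014) (nat_lit 84) (nat_lit 8564788365)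 (nat_lit 60) (nat_lit 5) (nat_lit 66) (nat_lit 5) (nat_lit 61) (nat_lit 5) (nat_lit 365) (nat_lit 325) (nat_lit 174))) (XT.nd (nat_lit 94) (nat_lit 0) (nat_lit 0) (XT.lf (nat_lit 0) (nat_lit 4644765081) (nat_lit 336) (nat_lit 10676854631) (nat_lit 420) (nat_lit 11653791496) (nat_lit 56) (nat_lit 5) (nat_lit 60) (nat_lit 5) (nat_lit 61) (nat_lit 5) (nat_lit 366) (nat_lit 325) (nat_lit 173)) (XT.nd (nat_lit 94) (nat_lit 0) (nat_lit 0) (XT.lf (nat_lit 0) (nat_lit 15114102031) (nat_lit 336) (nat_lit 3215751046) (nat_lit 420) (nat_lit 9213589656) (nat_lit 56) (nat_lit 5) (nat_lit 60) (nat_lit 5) (nat_lit 61) (nat_lit 5) (nat_lit 367) (nat_lit 325) (nat_lit 172)) (XT.lf (nat_lit 0) (nat_lit 21471109407) (nat_lit 420) (nat_lit 2271207024) (nat_lit 84) (nat_lit 4385548095) (nat_lit 56) (nat_lit 5) (nat_lit 61) (nat_lit 5) (nat_lit 57) (nat_lit 5) (nat_lit 368) (nat_lit 325) (nat_lit 171))))) (XT.nd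 (nat_lit 188) (nat_lit 420) (nat_lit 0) (XT.nd (nat_lit 94) (nat_lit 0) (nat_lit 0) (XT.lf (nat_lit 0) (nat_lit 8331263791) (nat_lit 336) (nat_lit 16489516017) (nat_lit 420) (nat_lit 3906195161) (nat_lit 52) (nat_lit 5) (nat_lit 56) (nat_lit 5) (nat_lit 57) (nat_lit 5) (nat_lit 369) (nat_lit 325) (nat_lit 170)) (XT.lf (nat_lit 0) (nat_lit 19305083767) (nat_lit 336) (nat_lit 8988492391) (nat_lit 420) (nat_lit 1050497061) (nat_lit 52) (nat_lit 5) (nat_lit 56) (nat_lit 5) (nat_lit 57) (nat_lit 5) (nat_lit 370) (nat_lit 325) (nat_lit 169))) (XT.nd (nat_lit 94) (nat_lit 0) (nat_lit 0) (XT.lf (nat_lit 0) (nat_lit 627228918) (nat_lit 336) (nat_lit 1230222447) (nat_lit 420) (nat_lit 28122222034) (nat_lit 47) (nat_lit 5) (nat_lit 51) (nat_lit 5) (nat_lit 52) (nat_lit 5) (nat_lit 371) (nat_lit 325) (nat_lit 168)) (XT.nd (nat_lit 49914) (nat_lit 0) (nat_lit 6720) (XT.lf (nat_lit 0) (nat_lit 5002450497)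 (nat_lit 420) (nat_lit 18879259877) (nat_lit 84) (nat_lit 6747715342) (nat_lit 47) (nat_lit 5) (nat_lit 52) (nat_lit 5) (nat_lit 48) (nat_lit 5) (nat_lit 372) (nat_lit 325) (nat_lit 167)) (XT.lf (nat_lit 0) (nat_lit 6176490920) (nat_lit 1092) (nat_lit 271026828) (nat_lit 1092) (nat_lit 271026828) (nat_lit 127) (nat_lit 3) (nat_lit 140) (nat_lit 3) (nat_lit 140) (nat_lit 5) (nat_lit 326) (nat_lit 326) (nat_lit 212)))))) (XT.nd (nat_lit 470) (nat_lit 0) (nat_lit 84) (XT.nd (nat_lit 188) (nat_lit 1008) (nat_lit 0) (XT.nd (nat_lit 94) (nat_lit 0) (nat_lit 0) (XT.lf (nat_lit 84) (nat_lit 4749699686) (nat_lit 0) (nat_lit 8160774898) (nat_lit 1092) (nat_lit 722282453) (nat_lit 128) (nat_lit 5) (nat_lit 127) (nat_lit 3) (nat_lit 140) (nat_lit 5) (nat_lit 327) (nat_lit 326) (nat_lit 211)) (XT.lf (nat_lit 84) (nat_lit 10210202126) (nat_lit 0) (nat_lit 3267787677) (nat_lit 1092) (nat_lit 356776664)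 (nat_lit 128) (nat_lit 5) (nat_lit 127) (nat_lit 3) (nat_lit 140) (nat_lit 5) (nat_lit 328) (nat_lit 326) (nat_lit 210))) (XT.nd (nat_lit 94) (nat_lit 0) (nat_lit 0) (XT.lf (nat_lit 0) (nat_lit 42942486) (nat_lit 1092) (nat_lit 12234129384) (nat_lit 1176) (nat_lit 1765286034) (nat_lit 115) (nat_lit 5) (nat_lit 128) (nat_lit 5) (nat_lit 129) (nat_lit 5) (nat_lit 329) (nat_lit 326) (nat_lit 209)) (XT.nd (nat_lit 94) (nat_lit 0) (nat_lit 0) (XT.lf (nat_lit 0) (nat_lit 506947463) (nat_lit 1092) (nat_lit 6813700185) (nat_lit 1176) (nat_lit 6933831776) (nat_lit 115) (nat_lit 5) (nat_lit 128) (nat_lit 5) (nat_lit 129) (nat_lit 5) (nat_lit 330) (nat_lit 326) (nat_lit 208)) (XT.lf (nat_lit 0) (nat_lit 973371397) (nat_lit 1092) (nat_lit 1232325404) (nat_lit 1176) (nat_lit 12267895778) (nat_lit 115) (nat_lit 5) (nat_lit 128) (nat_lit 5) (nat_lit 129) (nat_lit 5) (nat_lit 331) (nat_lit 326) (nat_lit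 207))))) (XT.nd (nat_lit 282) (nat_lit 0) (nat_lit 84) (XT.nd (nat_lit 94) (nat_lit 0) (nat_lit 0) (XT.lf (nat_lit 0) (nat_lit 1519308952) (nat_lit 1092) (nat_lit 10121393013) (nat_lit 1176) (nat_lit 3056823185) (nat_lit 116) (nat_lit 5) (nat_lit 129) (nat_lit 5) (nat_lit 130) (nat_lit 5) (nat_lit 332) (nat_lit 326) (nat_lit 206)) (XT.nd (nat_lit 94) (nat_lit 0) (nat_lit 0) (XT.lf (nat_lit 0) (nat_lit 2106445013) (nat_lit 1092) (nat_lit 4367158181) (nat_lit 1176) (nat_lit 8454086215) (nat_lit 116) (nat_lit 5) (nat_lit 129) (nat_lit 5) (nat_lit 130) (nat_lit 5) (nat_lit 333) (nat_lit 326) (nat_lit 205)) (XT.lf (nat_lit 84) (nat_lit 1590477117) (nat_lit 0) (nat_lit 1126142888) (nat_lit 1176) (nat_lit 12448259798) (nat_lit 117) (nat_lit 5) (nat_lit 116) (nat_lit 5) (nat_lit 130) (nat_lit 5) (nat_lit 334) (nat_lit 326) (nat_lit 204)))) (XT.nd (nat_lit 94) (nat_lit 0) (nat_lit 0) (XT.lf (nat_lit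 0) (nat_lit 3424638182) (nat_lit 1092) (nat_lit 7633978183) (nat_lit 1176) (nat_lit 4348399756) (nat_lit 117) (nat_lit 5) (nat_lit 130) (nat_lit 5) (nat_lit 131) (nat_lit 5) (nat_lit 335) (nat_lit 326) (nat_lit 203)) (XT.nd (nat_lit 94) (nat_lit 0) (nat_lit 0) (XT.lf (nat_lit 0) (nat_lit 4155799630) (nat_lit 1092) (nat_lit 1528059030) (nat_lit 1176) (nat_lit 9972801553) (nat_lit 117) (nat_lit 5) (nat_lit 130) (nat_lit 5) (nat_lit 131) (nat_lit 5) (nat_lit 336) (nat_lit 326) (nat_lit 202)) (XT.lf (nat_lit 84) (nat_lit 4858097443) (nat_lit 0) (nat_lit 89709879) (nat_lit 1176) (nat_lit 10965089787) (nat_lit 118) (nat_lit 5) (nat_lit 117) (nat_lit 5) (nat_lit 131) (nat_lit 5) (nat_lit 337) (nat_lit 326) (nat_lit 201))))))) (XT.nd (nat_lit 1034) (nat_lit 2520) (nat_lit 0) (XT.nd (nat_lit 470) (nat_lit 1428) (nat_lit 0) (XT.nd (nat_lit 188) (nat_lit 0) (nat_lit 84) (XT.nd (nat_lit 94) (nat_lit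 0) (nat_lit 0) (XT.lf (nat_lit 0) (nat_lit 5827054597) (nat_lit 1092) (nat_lit 4765676630) (nat_lit 1176) (nat_lit 5582439113) (nat_lit 118) (nat_lit 5) (nat_lit 131) (nat_lit 5) (nat_lit 132) (nat_lit 5) (nat_lit 338) (nat_lit 326) (nat_lit 200)) (XT.lf (nat_lit 84) (nat_lit 1745655627) (nat_lit 0) (nat_lit 4996680095) (nat_lit 1176) (nat_lit 9703001434) (nat_lit 119) (nat_lit 5) (nat_lit 118) (nat_lit 5) (nat_lit 132) (nat_lit 5) (nat_lit 339) (nat_lit 326) (nat_lit 199))) (XT.nd (nat_lit 94) (nat_lit 0) (nat_lit 0) (XT.lf (nat_lit 0) (nat_lit 7734690944) (nat_lit 1092) (nat_lit 8177923296) (nat_lit 1176) (nat_lit 809789340) (nat_lit 119) (nat_lit 5) (nat_lit 132) (nat_lit 5) (nat_lit 133) (nat_lit 5) (nat_lit 340) (nat_lit 326) (nat_lit 198)) (XT.nd (nat_lit 94) (nat_lit 0) (nat_lit 0) (XT.lf (nat_lit 0) (nat_lit 8799971634) (nat_lit 1092) (nat_lit 1512155675) (nat_lit 1176) (nat_lit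 6694657841) (nat_lit 119) (nat_lit 5) (nat_lit 132) (nat_lit 5) (nat_lit 133) (nat_lit 5) (nat_lit 341) (nat_lit 326) (nat_lit 197)) (XT.lf (nat_lit 84) (nat_lit 5463479138) (nat_lit 0) (nat_lit 4480322309) (nat_lit 1176) (nat_lit 7354801939) (nat_lit 120) (nat_lit 5) (nat_lit 119) (nat_lit 5) (nat_lit 133) (nat_lit 5) (nat_lit 342) (nat_lit 326) (nat_lit 196))))) (XT.nd (nat_lit 282) (nat_lit 504) (nat_lit 0) (XT.nd (nat_lit 94) (nat_lit 1092) (nat_lit 0) (XT.lf (nat_lit 0) (nat_lit 11145772943) (nat_lit 1092) (nat_lit 4934014964) (nat_lit 84) (nat_lit 1519008069) (nat_lit 120) (nat_lit 5) (nat_lit 133) (nat_lit 5) (nat_lit 121) (nat_lit 5) (nat_lit 343) (nat_lit 326) (nat_lit 195)) (XT.nd (nat_lit 94) (nat_lit 0) (nat_lit 0) (XT.lf (nat_lit 0) (nat_lit 2172091450) (nat_lit 1092) (nat_lit 10272076559) (nat_lit 1176) (nat_lit 5462322717) (nat_lit 107) (nat_lit 5) (nat_lit 120) (nat_lit 5)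 (nat_lit 121) (nat_lit 5) (nat_lit 344) (nat_lit 326) (nat_lit 194)) (XT.lf (nat_lit 0) (nat_lit 9596278410) (nat_lit 1092) (nat_lit 4230007060) (nat_lit 1176) (nat_lit 4396120220) (nat_lit 107) (nat_lit 5) (nat_lit 120) (nat_lit 5) (nat_lit 121) (nat_lit 5) (nat_lit 345) (nat_lit 326) (nat_lit 193)))) (XT.nd (nat_lit 94) (nat_lit 504) (nat_lit 0) (XT.lf (nat_lit 0) (nat_lit 15263306852) (nat_lit 1176) (nat_lit 1324217012) (nat_lit 84) (nat_lit 1960244779) (nat_lit 107) (nat_lit 5) (nat_lit 121) (nat_lit 5) (nat_lit 108) (nat_lit 5) (nat_lit 346) (nat_lit 326) (nat_lit 192)) (XT.nd (nat_lit 94) (nat_lit 0) (nat_lit 0) (XT.lf (nat_lit 0) (nat_lit 6280653419) (nat_lit 504) (nat_lit 10562248473) (nat_lit 588) (nat_lit 2037304730) (nat_lit 101) (nat_lit 5) (nat_lit 107) (nat_lit 5) (nat_lit 108) (nat_lit 5) (nat_lit 347) (nat_lit 326) (nat_lit 191)) (XT.lf (nat_lit 0) (nat_lit 14142737936) (nat_lit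 504) (nat_lit 4335167866) (nat_lit 588) (nat_lit 744871439) (nat_lit 101) (nat_lit 5) (nat_lit 107) (nat_lit 5) (nat_lit 108) (nat_lit 5) (nat_lit 348) (nat_lit 326) (nat_lit 190)))))) (XT.nd (nat_lit 470) (nat_lit 1344) (nat_lit 0) (XT.nd (nat_lit 188) (nat_lit 504) (nat_lit 0) (XT.nd (nat_lit 94) (nat_lit 0) (nat_lit 0) (XT.lf (nat_lit 0) (nat_lit 616487001) (nat_lit 672) (nat_lit 16881363447) (nat_lit 84) (nat_lit 2076699887) (nat_lit 93) (nat_lit 5) (nat_lit 101) (nat_lit 5) (nat_lit 94) (nat_lit 5) (nat_lit 349) (nat_lit 326) (nat_lit 189)) (XT.lf (nat_lit 0) (nat_lit 2095382858) (nat_lit 672) (nat_lit 9179775549) (nat_lit 84) (nat_lit 8659043178) (nat_lit 93) (nat_lit 5) (nat_lit 101) (nat_lit 5) (nat_lit 94) (nat_lit 5) (nat_lit 350) (nat_lit 326) (nat_lit 188))) (XT.nd (nat_lit 94) (nat_lit 504) (nat_lit 0) (XT.lf (nat_lit 0) (nat_lit 3613239863) (nat_lit 672) (nat_lit 1246003917)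 (nat_lit 84) (nat_lit 15445995343) (nat_lit 93) (nat_lit 5) (nat_lit 101) (nat_lit 5) (nat_lit 94) (nat_lit 5) (nat_lit 351) (nat_lit 326) (nat_lit 187)) (XT.nd (nat_lit 94) (nat_lit 0) (nat_lit 0) (XT.lf (nat_lit 0) (nat_lit 5259741762) (nat_lit 588) (nat_lit 13634183440) (nat_lit 84) (nat_lit 1791347254) (nat_lit 87) (nat_lit 5) (nat_lit 94) (nat_lit 5) (nat_lit 88) (nat_lit 5) (nat_lit 352) (nat_lit 326) (nat_lit 186)) (XT.lf (nat_lit 0) (nat_lit 7013585566) (nat_lit 588) (nat_lit 5501239775) (nat_lit 84) (nat_lit 8560538441) (nat_lit 87) (nat_lit 5) (nat_lit 94) (nat_lit 5) (nat_lit 88) (nat_lit 5) (nat_lit 353) (nat_lit 326) (nat_lit 185))))) (XT.nd (nat_lit 282) (nat_lit 840) (nat_lit 0) (XT.nd (nat_lit 94) (nat_lit 0) (nat_lit 0) (XT.lf (nat_lit 0) (nat_lit 2936657682) (nat_lit 504) (nat_lit 5907932379) (nat_lit 588) (nat_lit 12632272944) (nat_lit 81) (nat_lit 5) (nat_lit 87) (nat_lit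 5) (nat_lit 88) (nat_lit 5) (nat_lit 354) (nat_lit 326) (nat_lit 184)) (XT.nd (nat_lit 94) (nat_lit 0) (nat_lit 0) (XT.lf (nat_lit 0) (nat_lit 10793117583) (nat_lit 588) (nat_lit 10152311502) (nat_lit 84) (nat_lit 943516951) (nat_lit 81) (nat_lit 5) (nat_lit 88) (nat_lit 5) (nat_lit 82) (nat_lit 5) (nat_lit 355) (nat_lit 326) (nat_lit 183)) (XT.lf (nat_lit 0) (nat_lit 12856447897) (nat_lit 588) (nat_lit 1571105665) (nat_lit 84) (nat_lit 7884584053) (nat_lit 81) (nat_lit 5) (nat_lit 88) (nat_lit 5) (nat_lit 82) (nat_lit 5) (nat_lit 356) (nat_lit 326) (nat_lit 182)))) (XT.nd (nat_lit 94) (nat_lit 420) (nat_lit 0) (XT.lf (nat_lit 0) (nat_lit 7419504676) (nat_lit 420) (nat_lit 7631994549) (nat_lit 504) (nat_lit 7694868127) (nat_lit 76) (nat_lit 5) (nat_lit 81) (nat_lit 5) (nat_lit 82) (nat_lit 5) (nat_lit 357) (nat_lit 326) (nat_lit 181)) (XT.nd (nat_lit 94) (nat_lit 420) (nat_lit 0) (XT.lf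 (nat_lit 0) (nat_lit 16716092943) (nat_lit 420) (nat_lit 609174535) (nat_lit 504) (nat_lit 5868479072) (nat_lit 76) (nat_lit 5) (nat_lit 81) (nat_lit 5) (nat_lit 82) (nat_lit 5) (nat_lit 358) (nat_lit 326) (nat_lit 180)) (XT.lf (nat_lit 0) (nat_lit 2626981016) (nat_lit 420) (nat_lit 17128825843) (nat_lit 504) (nat_lit 3896531374) (nat_lit 71) (nat_lit 5) (nat_lit 76) (nat_lit 5) (nat_lit 77) (nat_lit 5) (nat_lit 359) (nat_lit 326) (nat_lit 179))))))))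
noncomputable def xc104 : XT := (XT.nd (nat_lit 51888) (nat_lit 0) (nat_lit 2856) (XT.nd (nat_lit 940) (nat_lit 756) (nat_lit 0) (XT.nd (nat_lit 470) (nat_lit 336) (nat_lit 0) (XT.nd (nat_lit 188) (nat_lit 840) (nat_lit 0) (XT.nd (nat_lit 94) (nat_lit 84) (nat_lit 0) (XT.lf (nat_lit 0) (nat_lit 12138840925) (nat_lit 420) (nat_lit 10191181106) (nat_lit 504) (nat_lit 1793024012) (nat_lit 71) (nat_lit 5) (nat_lit 76) (nat_lit 5) (nat_lit 77) (nat_lit 5) (nat_lit 360) (nat_lit 326) (nat_lit 178)) (XT.lf (nat_lit 0) (nat_lit 362763770) (nat_lit 504) (nat_lit 2672434150) (nat_lit 84) (nat_lit 21573215389) (nat_lit 70) (nat_lit 5) (nat_lit 76) (nat_lit 5) (nat_lit 71) (nat_lit 5) (nat_lit 361) (nat_lit 326) (nat_lit 177))) (XT.nd (nat_lit 94) (nat_lit 420) (nat_lit 0) (XT.lf (nat_lit 0) (nat_lit 2656810009) (nat_lit 504) (nat_lit 18104375264) (nat_lit 84) (nat_lit 4343720705) (nat_lit 65) (nat_lit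 5) (nat_lit 71) (nat_lit 5) (nat_lit 66) (nat_lit 5) (nat_lit 362) (nat_lit 326) (nat_lit 176)) (XT.nd (nat_lit 94) (nat_lit 420) (nat_lit 0) (XT.lf (nat_lit 0) (nat_lit 5076090732) (nat_lit 504) (nat_lit 8623103177) (nat_lit 84) (nat_lit 11915934239) (nat_lit 65) (nat_lit 5) (nat_lit 71) (nat_lit 5) (nat_lit 66) (nat_lit 5) (nat_lit 363) (nat_lit 326) (nat_lit 175)) (XT.lf (nat_lit 0) (nat_lit 1169975532) (nat_lit 420) (nat_lit 6407049477) (nat_lit 504) (nat_lit 18563951305) (nat_lit 60) (nat_lit 5) (nat_lit 65) (nat_lit 5) (nat_lit 66) (nat_lit 5) (nat_lit 364) (nat_lit 326) (nat_lit 174))))) (XT.nd (nat_lit 188) (nat_lit 336) (nat_lit 0) (XT.nd (nat_lit 94) (nat_lit 0) (nat_lit 0) (XT.lf (nat_lit 0) (nat_lit 10252574018) (nat_lit 504) (nat_lit 15248619496) (nat_lit 84) (nat_lit 1178937575) (nat_lit 60) (nat_lit 5) (nat_lit 66) (nat_lit 5) (nat_lit 61) (nat_lit 5) (nat_lit 365) (nat_lit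 326) (nat_lit 173)) (XT.lf (nat_lit 0) (nat_lit 13071875305) (nat_lit 504) (nat_lit 5295985044) (nat_lit 84) (nat_lit 8866268722) (nat_lit 60) (nat_lit 5) (nat_lit 66) (nat_lit 5) (nat_lit 61) (nat_lit 5) (nat_lit 366) (nat_lit 326) (nat_lit 172))) (XT.nd (nat_lit 94) (nat_lit 0) (nat_lit 0) (XT.lf (nat_lit 0) (nat_lit 5061720584) (nat_lit 336) (nat_lit 10962490339) (nat_lit 420) (nat_lit 11779689440) (nat_lit 56) (nat_lit 5) (nat_lit 60) (nat_lit 5) (nat_lit 61) (nat_lit 5) (nat_lit 367) (nat_lit 326) (nat_lit 171)) (XT.nd (nat_lit 94) (nat_lit 0) (nat_lit 0) (XT.lf (nat_lit 0) (nat_lit 15847399413) (nat_lit 336) (nat_lit 3271456026) (nat_lit 420) (nat_lit 9270918411) (nat_lit 56) (nat_lit 5) (nat_lit 60) (nat_lit 5) (nat_lit 61) (nat_lit 5) (nat_lit 368) (nat_lit 326) (nat_lit 170)) (XT.lf (nat_lit 0) (nat_lit 22351275617) (nat_lit 420) (nat_lit 2077948576) (nat_lit 84) (nat_lit 4563301383)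 (nat_lit 56) (nat_lit 5) (nat_lit 61) (nat_lit 5) (nat_lit 57) (nat_lit 5) (nat_lit 369) (nat_lit 326) (nat_lit 169)))))) (XT.nd (nat_lit 50384) (nat_lit 0) (nat_lit 5628) (XT.nd (nat_lit 188) (nat_lit 420) (nat_lit 0) (XT.nd (nat_lit 94) (nat_lit 0) (nat_lit 0) (XT.lf (nat_lit 0) (nat_lit 8850529455) (nat_lit 336) (nat_lit 16950394041) (nat_lit 420) (nat_lit 3809424263) (nat_lit 52) (nat_lit 5) (nat_lit 56) (nat_lit 5) (nat_lit 57) (nat_lit 5) (nat_lit 370) (nat_lit 326) (nat_lit 168)) (XT.lf (nat_lit 0) (nat_lit 20156690234) (nat_lit 336) (nat_lit 9218351008) (nat_lit 420) (nat_lit 871750203) (nat_lit 52) (nat_lit 5) (nat_lit 56) (nat_lit 5) (nat_lit 57) (nat_lit 5) (nat_lit 371) (nat_lit 326) (nat_lit 167))) (XT.nd (nat_lit 50008) (nat_lit 0) (nat_lit 6720) (XT.lf (nat_lit 0) (nat_lit 902061660) (nat_lit 336) (nat_lit 1216333278) (nat_lit 420) (nat_lit 28783767636) (nat_lit 47) (nat_lit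 5) (nat_lit 51) (nat_lit 5) (nat_lit 52) (nat_lit 5) (nat_lit 372) (nat_lit 326) (nat_lit 166)) (XT.nd (nat_lit 94) (nat_lit 0) (nat_lit 0) (XT.lf (nat_lit 0) (nat_lit 6683702489) (nat_lit 1092) (nat_lit 116040595) (nat_lit 1092) (nat_lit 116040595) (nat_lit 127) (nat_lit 3) (nat_lit 140) (nat_lit 3) (nat_lit 140) (nat_lit 5) (nat_lit 327) (nat_lit 327) (nat_lit 210)) (XT.lf (nat_lit 84) (nat_lit 5220408190) (nat_lit 0) (nat_lit 8705993352) (nat_lit 1092) (nat_lit 107463579) (nat_lit 128) (nat_lit 5) (nat_lit 127) (nat_lit 3) (nat_lit 140) (nat_lit 5) (nat_lit 328) (nat_lit 327) (nat_lit 209))))) (XT.nd (nat_lit 282) (nat_lit 0) (nat_lit 84) (XT.nd (nat_lit 94) (nat_lit 0) (nat_lit 84) (XT.lf (nat_lit 0) (nat_lit 245172096) (nat_lit 1092) (nat_lit 3404805462) (nat_lit 1176) (nat_lit 10592729019) (nat_lit 114) (nat_lit 5) (nat_lit 127) (nat_lit 3) (nat_lit 128) (nat_lit 5) (nat_lit 329) (nat_lit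 327) (nat_lit 208)) (XT.nd (nat_lit 94) (nat_lit 0) (nat_lit 0) (XT.lf (nat_lit 0) (nat_lit 632254409) (nat_lit 1092) (nat_lit 12265090201) (nat_lit 1176) (nat_lit 1559890220) (nat_lit 115) (nat_lit 5) (nat_lit 128) (nat_lit 5) (nat_lit 129) (nat_lit 5) (nat_lit 330) (nat_lit 327) (nat_lit 207)) (XT.lf (nat_lit 0) (nat_lit 1092964198) (nat_lit 1092) (nat_lit 6687100260) (nat_lit 1176) (nat_lit 6896482131) (nat_lit 115) (nat_lit 5) (nat_lit 128) (nat_lit 5) (nat_lit 129) (nat_lit 5) (nat_lit 331) (nat_lit 327) (nat_lit 206)))) (XT.nd (nat_lit 94) (nat_lit 0) (nat_lit 84) (XT.lf (nat_lit 0) (nat_lit 1556699513) (nat_lit 1092) (nat_lit 942860537) (nat_lit 1176) (nat_lit 12403488201) (nat_lit 115) (nat_lit 5) (nat_lit 128) (nat_lit 5) (nat_lit 129) (nat_lit 5) (nat_lit 332) (nat_lit 327) (nat_lit 205)) (XT.nd (nat_lit 94) (nat_lit 0) (nat_lit 0) (XT.lf (nat_lit 0) (nat_lit 2104009866) (nat_lit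 1092) (nat_lit 10089922517) (nat_lit 1176) (nat_lit 2940534916) (nat_lit 116) (nat_lit 5) (nat_lit 129) (nat_lit 5) (nat_lit 130) (nat_lit 5) (nat_lit 333) (nat_lit 327) (nat_lit 204)) (XT.lf (nat_lit 0) (nat_lit 2693182574) (nat_lit 1092) (nat_lit 4167686856) (nat_lit 1176) (nat_lit 8511458922) (nat_lit 116) (nat_lit 5) (nat_lit 129) (nat_lit 5) (nat_lit 130) (nat_lit 5) (nat_lit 334) (nat_lit 327) (nat_lit 203))))))) (XT.nd (nat_lit 940) (nat_lit 2940) (nat_lit 0) (XT.nd (nat_lit 470) (nat_lit 0) (nat_lit 168) (XT.nd (nat_lit 188) (nat_lit 0) (nat_lit 84) (XT.nd (nat_lit 94) (nat_lit 0) (nat_lit 84) (XT.lf (nat_lit 84) (nat_lit 1971245049) (nat_lit 0) (nat_lit 1338637562) (nat_lit 1176) (nat_lit 12307431919) (nat_lit 117) (nat_lit 5) (nat_lit 116) (nat_lit 5) (nat_lit 130) (nat_lit 5) (nat_lit 335) (nat_lit 327) (nat_lit 202)) (XT.lf (nat_lit 0) (nat_lit 4022834679) (nat_lit 1092) (nat_lit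 7530281025) (nat_lit 1176) (nat_lit 4314425835) (nat_lit 117) (nat_lit 5) (nat_lit 130) (nat_lit 5) (nat_lit 131) (nat_lit 5) (nat_lit 336) (nat_lit 327) (nat_lit 201))) (XT.nd (nat_lit 94) (nat_lit 0) (nat_lit 0) (XT.lf (nat_lit 0) (nat_lit 4761867744) (nat_lit 1092) (nat_lit 1245312000) (nat_lit 1176) (nat_lit 10118258776) (nat_lit 117) (nat_lit 5) (nat_lit 130) (nat_lit 5) (nat_lit 131) (nat_lit 5) (nat_lit 337) (nat_lit 327) (nat_lit 200)) (XT.nd (nat_lit 94) (nat_lit 0) (nat_lit 84) (XT.lf (nat_lit 84) (nat_lit 5335473186) (nat_lit 0) (nat_lit 231846581) (nat_lit 1176) (nat_lit 10822696971) (nat_lit 118) (nat_lit 5) (nat_lit 117) (nat_lit 5) (nat_lit 131) (nat_lit 5) (nat_lit 338) (nat_lit 327) (nat_lit 199)) (XT.lf (nat_lit 0) (nat_lit 6458467288) (nat_lit 1092) (nat_lit 4579428776) (nat_lit 1176) (nat_lit 5623052446) (nat_lit 118) (nat_lit 5) (nat_lit 131) (nat_lit 5) (nat_lit 132)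 (nat_lit 5) (nat_lit 339) (nat_lit 327) (nat_lit 198))))) (XT.nd (nat_lit 188) (nat_lit 0) (nat_lit 84) (XT.nd (nat_lit 94) (nat_lit 0) (nat_lit 84) (XT.lf (nat_lit 84) (nat_lit 2130373495) (nat_lit 0) (nat_lit 5261474426) (nat_lit 1176) (nat_lit 9548011535) (nat_lit 119) (nat_lit 5) (nat_lit 118) (nat_lit 5) (nat_lit 132) (nat_lit 5) (nat_lit 340) (nat_lit 327) (nat_lit 197)) (XT.lf (nat_lit 0) (nat_lit 8400663839) (nat_lit 1092) (nat_lit 8094895863) (nat_lit 1176) (nat_lit 730447549) (nat_lit 119) (nat_lit 5) (nat_lit 132) (nat_lit 5) (nat_lit 133) (nat_lit 5) (nat_lit 341) (nat_lit 327) (nat_lit 196))) (XT.nd (nat_lit 94) (nat_lit 0) (nat_lit 0) (XT.lf (nat_lit 0) (nat_lit 9486153369) (nat_lit 1092) (nat_lit 1232608588) (nat_lit 1176) (nat_lit 6800887422) (nat_lit 119) (nat_lit 5) (nat_lit 132) (nat_lit 5) (nat_lit 133) (nat_lit 5) (nat_lit 342) (nat_lit 327) (nat_lit 195)) (XT.nd (nat_lit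 94) (nat_lit 0) (nat_lit 84) (XT.lf (nat_lit 84) (nat_lit 5955966156) (nat_lit 0) (nat_lit 4700251588) (nat_lit 1176) (nat_lit 7164628228) (nat_lit 120) (nat_lit 5) (nat_lit 119) (nat_lit 5) (nat_lit 133) (nat_lit 5) (nat_lit 343) (nat_lit 327) (nat_lit 194)) (XT.lf (nat_lit 0) (nat_lit 11882518415) (nat_lit 1092) (nat_lit 4759193285) (nat_lit 84) (nat_lit 1489078380) (nat_lit 120) (nat_lit 5) (nat_lit 133) (nat_lit 5) (nat_lit 121) (nat_lit 5) (nat_lit 344) (nat_lit 327) (nat_lit 193)))))) (XT.nd (nat_lit 470) (nat_lit 1680) (nat_lit 0) (XT.nd (nat_lit 188) (nat_lit 504) (nat_lit 0) (XT.nd (nat_lit 94) (nat_lit 0) (nat_lit 0) (XT.lf (nat_lit 0) (nat_lit 2563883989) (nat_lit 1092) (nat_lit 10648735041) (nat_lit 1176) (nat_lit 5235712535) (nat_lit 107) (nat_lit 5) (nat_lit 120) (nat_lit 5) (nat_lit 121) (nat_lit 5) (nat_lit 345) (nat_lit 327) (nat_lit 192)) (XT.lf (nat_lit 0) (nat_lit 10208464985)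 (nat_lit 1092) (nat_lit 4417610711) (nat_lit 1176) (nat_lit 4148362909) (nat_lit 107) (nat_lit 5) (nat_lit 120) (nat_lit 5) (nat_lit 121) (nat_lit 5) (nat_lit 346) (nat_lit 327) (nat_lit 191))) (XT.nd (nat_lit 94) (nat_lit 504) (nat_lit 0) (XT.lf (nat_lit 0) (nat_lit 16095940900) (nat_lit 1176) (nat_lit 1047009904) (nat_lit 84) (nat_lit 1967340575) (nat_lit 107) (nat_lit 5) (nat_lit 121) (nat_lit 5) (nat_lit 108) (nat_lit 5) (nat_lit 347) (nat_lit 327) (nat_lit 190)) (XT.nd (nat_lit 94) (nat_lit 0) (nat_lit 0) (XT.lf (nat_lit 0) (nat_lit 6790389436) (nat_lit 504) (nat_lit 10926430591) (nat_lit 588) (nat_lit 1736492614) (nat_lit 101) (nat_lit 5) (nat_lit 107) (nat_lit 5) (nat_lit 108) (nat_lit 5) (nat_lit 348) (nat_lit 327) (nat_lit 189)) (XT.lf (nat_lit 0) (nat_lit 14886726111) (nat_lit 504) (nat_lit 4505205418) (nat_lit 588) (nat_lit 414937660) (nat_lit 101) (nat_lit 5) (nat_lit 107) (nat_lit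 5) (nat_lit 108) (nat_lit 5) (nat_lit 349) (nat_lit 327) (nat_lit 188))))) (XT.nd (nat_lit 282) (nat_lit 1008) (nat_lit 0) (XT.nd (nat_lit 94) (nat_lit 0) (nat_lit 0) (XT.lf (nat_lit 0) (nat_lit 973914809) (nat_lit 672) (nat_lit 17082051528) (nat_lit 84) (nat_lit 2113743869) (nat_lit 93) (nat_lit 5) (nat_lit 101) (nat_lit 5) (nat_lit 94) (nat_lit 5) (nat_lit 350) (nat_lit 327) (nat_lit 187)) (XT.nd (nat_lit 94) (nat_lit 0) (nat_lit 0) (XT.lf (nat_lit 0) (nat_lit 2488483967) (nat_lit 672) (nat_lit 9151415337) (nat_lit 84) (nat_lit 8900961670) (nat_lit 93) (nat_lit 5) (nat_lit 101) (nat_lit 5) (nat_lit 94) (nat_lit 5) (nat_lit 351) (nat_lit 327) (nat_lit 186)) (XT.lf (nat_lit 0) (nat_lit 4043527932) (nat_lit 672) (nat_lit 981106028) (nat_lit 84) (nat_lit 15899106507) (nat_lit 93) (nat_lit 5) (nat_lit 101) (nat_lit 5) (nat_lit 94) (nat_lit 5) (nat_lit 352) (nat_lit 327) (nat_lit 185)))) (XT.nd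 (nat_lit 94) (nat_lit 504) (nat_lit 0) (XT.lf (nat_lit 0) (nat_lit 5734370490) (nat_lit 588) (nat_lit 13745556662) (nat_lit 84) (nat_lit 1835868317) (nat_lit 87) (nat_lit 5) (nat_lit 94) (nat_lit 5) (nat_lit 88) (nat_lit 5) (nat_lit 353) (nat_lit 327) (nat_lit 184)) (XT.nd (nat_lit 94) (nat_lit 504) (nat_lit 0) (XT.lf (nat_lit 0) (nat_lit 7533214996) (nat_lit 588) (nat_lit 5369851473) (nat_lit 84) (nat_lit 8815235499) (nat_lit 87) (nat_lit 5) (nat_lit 94) (nat_lit 5) (nat_lit 88) (nat_lit 5) (nat_lit 354) (nat_lit 327) (nat_lit 183)) (XT.lf (nat_lit 0) (nat_lit 3326564068) (nat_lit 504) (nat_lit 6088294622) (nat_lit 588) (nat_lit 12717609715) (nat_lit 81) (nat_lit 5) (nat_lit 87) (nat_lit 5) (nat_lit 88) (nat_lit 5) (nat_lit 355) (nat_lit 327) (nat_lit 182))))))))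
noncomputable def xc105 : XT := (XT.nd (nat_lit 51982) (nat_lit 0) (nat_lit 3444) (XT.nd (nat_lit 940) (nat_lit 672) (nat_lit 0) (XT.nd (nat_lit 470) (nat_lit 924) (nat_lit 0) (XT.nd (nat_lit 188) (nat_lit 840) (nat_lit 0) (XT.nd (nat_lit 94) (nat_lit 0) (nat_lit 0) (XT.lf (nat_lit 0) (nat_lit 11414914657) (nat_lit 588) (nat_lit 10167304996) (nat_lit 84) (nat_lit 975411540) (nat_lit 81) (nat_lit 5) (nat_lit 88) (nat_lit 5) (nat_lit 82) (nat_lit 5) (nat_lit 356) (nat_lit 327) (nat_lit 181)) (XT.lf (nat_lit 0) (nat_lit 13533572397) (nat_lit 588) (nat_lit 1329093972) (nat_lit 84) (nat_lit 8131572176) (nat_lit 81) (nat_lit 5) (nat_lit 88) (nat_lit 5) (nat_lit 82) (nat_lit 5) (nat_lit 357) (nat_lit 327) (nat_lit 180))) (XT.nd (nat_lit 94) (nat_lit 420) (nat_lit 0) (XT.lf (nat_lit 0) (nat_lit 7937282051) (nat_lit 420) (nat_lit 7853866854) (nat_lit 504) (nat_lit 7650979912) (nat_lit 76) (nat_lit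 5) (nat_lit 81) (nat_lit 5) (nat_lit 82) (nat_lit 5) (nat_lit 358) (nat_lit 327) (nat_lit 179)) (XT.nd (nat_lit 94) (nat_lit 420) (nat_lit 0) (XT.lf (nat_lit 0) (nat_lit 17513411833) (nat_lit 420) (nat_lit 613782005) (nat_lit 504) (nat_lit 5776464846) (nat_lit 76) (nat_lit 5) (nat_lit 81) (nat_lit 5) (nat_lit 82) (nat_lit 5) (nat_lit 359) (nat_lit 327) (nat_lit 178)) (XT.lf (nat_lit 0) (nat_lit 2993573342) (nat_lit 420) (nat_lit 17634509477) (nat_lit 504) (nat_lit 3748565377) (nat_lit 71) (nat_lit 5) (nat_lit 76) (nat_lit 5) (nat_lit 77) (nat_lit 5) (nat_lit 360) (nat_lit 327) (nat_lit 177))))) (XT.nd (nat_lit 188) (nat_lit 840) (nat_lit 0) (XT.nd (nat_lit 94) (nat_lit 84) (nat_lit 0) (XT.lf (nat_lit 0) (nat_lit 12791726870) (nat_lit 420) (nat_lit 10482558771) (nat_lit 504) (nat_lit 1587930289) (nat_lit 71) (nat_lit 5) (nat_lit 76) (nat_lit 5) (nat_lit 77) (nat_lit 5) (nat_lit 361) (nat_lit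 327) (nat_lit 176)) (XT.lf (nat_lit 0) (nat_lit 621754741) (nat_lit 504) (nat_lit 2481137549) (nat_lit 84) (nat_lit 22259919462) (nat_lit 70) (nat_lit 5) (nat_lit 76) (nat_lit 5) (nat_lit 71) (nat_lit 5) (nat_lit 362) (nat_lit 327) (nat_lit 175))) (XT.nd (nat_lit 94) (nat_lit 420) (nat_lit 0) (XT.lf (nat_lit 0) (nat_lit 2982440742) (nat_lit 504) (nat_lit 18386234420) (nat_lit 84) (nat_lit 4506182797) (nat_lit 65) (nat_lit 5) (nat_lit 71) (nat_lit 5) (nat_lit 66) (nat_lit 5) (nat_lit 363) (nat_lit 327) (nat_lit 174)) (XT.nd (nat_lit 94) (nat_lit 420) (nat_lit 0) (XT.lf (nat_lit 0) (nat_lit 5469404562) (nat_lit 504) (nat_lit 8619443161) (nat_lit 84) (nat_lit 12312298860) (nat_lit 65) (nat_lit 5) (nat_lit 71) (nat_lit 5) (nat_lit 66) (nat_lit 5) (nat_lit 364) (nat_lit 327) (nat_lit 173)) (XT.lf (nat_lit 0) (nat_lit 1474477597) (nat_lit 420) (nat_lit 6568956436) (nat_lit 504) (nat_lit 18900021583)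 (nat_lit 60) (nat_lit 5) (nat_lit 65) (nat_lit 5) (nat_lit 66) (nat_lit 5) (nat_lit 365) (nat_lit 327) (nat_lit 172)))))) (XT.nd (nat_lit 470) (nat_lit 336) (nat_lit 0) (XT.nd (nat_lit 188) (nat_lit 336) (nat_lit 0) (XT.nd (nat_lit 94) (nat_lit 0) (nat_lit 0) (XT.lf (nat_lit 0) (nat_lit 10795316938) (nat_lit 504) (nat_lit 15453858608) (nat_lit 84) (nat_lit 1250374958) (nat_lit 60) (nat_lit 5) (nat_lit 66) (nat_lit 5) (nat_lit 61) (nat_lit 5) (nat_lit 366) (nat_lit 327) (nat_lit 171)) (XT.lf (nat_lit 0) (nat_lit 13695253900) (nat_lit 504) (nat_lit 5200734691) (nat_lit 84) (nat_lit 9174964293) (nat_lit 60) (nat_lit 5) (nat_lit 66) (nat_lit 5) (nat_lit 61) (nat_lit 5) (nat_lit 367) (nat_lit 327) (nat_lit 170))) (XT.nd (nat_lit 94) (nat_lit 0) (nat_lit 0) (XT.lf (nat_lit 0) (nat_lit 5475433358) (nat_lit 336) (nat_lit 11259666722) (nat_lit 420) (nat_lit 11923431563) (nat_lit 56) (nat_lit 5) (nat_lit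 60) (nat_lit 5) (nat_lit 61) (nat_lit 5) (nat_lit 368) (nat_lit 327) (nat_lit 169)) (XT.nd (nat_lit 94) (nat_lit 0) (nat_lit 0) (XT.lf (nat_lit 0) (nat_lit 16587746812) (nat_lit 336) (nat_lit 3331493066) (nat_lit 420) (nat_lit 9343546515) (nat_lit 56) (nat_lit 5) (nat_lit 60) (nat_lit 5) (nat_lit 61) (nat_lit 5) (nat_lit 369) (nat_lit 327) (nat_lit 168)) (XT.lf (nat_lit 0) (nat_lit 23246018117) (nat_lit 420) (nat_lit 1894316497) (nat_lit 84) (nat_lit 4744089060) (nat_lit 56) (nat_lit 5) (nat_lit 61) (nat_lit 5) (nat_lit 57) (nat_lit 5) (nat_lit 370) (nat_lit 327) (nat_lit 167))))) (XT.nd (nat_lit 50290) (nat_lit 0) (nat_lit 5208) (XT.nd (nat_lit 94) (nat_lit 0) (nat_lit 0) (XT.lf (nat_lit 0) (nat_lit 9370433085) (nat_lit 336) (nat_lit 17428538461) (nat_lit 420) (nat_lit 3722557862) (nat_lit 52) (nat_lit 5) (nat_lit 56) (nat_lit 5) (nat_lit 57) (nat_lit 5) (nat_lit 371) (nat_lit 327) (nat_lit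 166)) (XT.nd (nat_lit 50102) (nat_lit 0) (nat_lit 5208) (XT.lf (nat_lit 0) (nat_lit 21019702061) (nat_lit 336) (nat_lit 9458224840) (nat_lit 420) (nat_lit 699978578) (nat_lit 52) (nat_lit 5) (nat_lit 56) (nat_lit 5) (nat_lit 57) (nat_lit 5) (nat_lit 372) (nat_lit 327) (nat_lit 165)) (XT.lf (nat_lit 0) (nat_lit 33727502) (nat_lit 0) (nat_lit 33727502) (nat_lit 1092) (nat_lit 7052293729) (nat_lit 114) (nat_lit 5) (nat_lit 114) (nat_lit 3) (nat_lit 127) (nat_lit 3) (nat_lit 328) (nat_lit 328) (nat_lit 208)))) (XT.nd (nat_lit 94) (nat_lit 0) (nat_lit 0) (XT.lf (nat_lit 0) (nat_lit 478826017) (nat_lit 1092) (nat_lit 8766980052) (nat_lit 1176) (nat_lit 5202725125) (nat_lit 114) (nat_lit 5) (nat_lit 127) (nat_lit 3) (nat_lit 128) (nat_lit 5) (nat_lit 329) (nat_lit 328) (nat_lit 207)) (XT.nd (nat_lit 94) (nat_lit 0) (nat_lit 84) (XT.lf (nat_lit 0) (nat_lit 822499585) (nat_lit 1092) (nat_lit 3201338967)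 (nat_lit 1176) (nat_lit 10640588032) (nat_lit 114) (nat_lit 5) (nat_lit 127) (nat_lit 3) (nat_lit 128) (nat_lit 5) (nat_lit 330) (nat_lit 328) (nat_lit 206)) (XT.lf (nat_lit 0) (nat_lit 1205007898) (nat_lit 1092) (nat_lit 12317641042) (nat_lit 1176) (nat_lit 1363534470) (nat_lit 115) (nat_lit 5) (nat_lit 128) (nat_lit 5) (nat_lit 129) (nat_lit 5) (nat_lit 331) (nat_lit 328) (nat_lit 205))))))) (XT.nd (nat_lit 1034) (nat_lit 1848) (nat_lit 0) (XT.nd (nat_lit 470) (nat_lit 0) (nat_lit 168) (XT.nd (nat_lit 188) (nat_lit 0) (nat_lit 84) (XT.nd (nat_lit 94) (nat_lit 0) (nat_lit 0) (XT.lf (nat_lit 0) (nat_lit 1663367526) (nat_lit 1092) (nat_lit 6576585669) (nat_lit 1176) (nat_lit 6872918716) (nat_lit 115) (nat_lit 5) (nat_lit 128) (nat_lit 5) (nat_lit 129) (nat_lit 5) (nat_lit 332) (nat_lit 328) (nat_lit 204)) (XT.lf (nat_lit 0) (nat_lit 2125346565) (nat_lit 1092) (nat_lit 663830533) (nat_lit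 1176) (nat_lit 12557778720) (nat_lit 115) (nat_lit 5) (nat_lit 128) (nat_lit 5) (nat_lit 129) (nat_lit 5) (nat_lit 333) (nat_lit 328) (nat_lit 203))) (XT.nd (nat_lit 94) (nat_lit 0) (nat_lit 0) (XT.lf (nat_lit 0) (nat_lit 2674993402) (nat_lit 1092) (nat_lit 10077925218) (nat_lit 1176) (nat_lit 2833142550) (nat_lit 116) (nat_lit 5) (nat_lit 129) (nat_lit 5) (nat_lit 130) (nat_lit 5) (nat_lit 334) (nat_lit 328) (nat_lit 202)) (XT.nd (nat_lit 94) (nat_lit 0) (nat_lit 0) (XT.lf (nat_lit 0) (nat_lit 3267223348) (nat_lit 1092) (nat_lit 3981865849) (nat_lit 1176) (nat_lit 8582735150) (nat_lit 116) (nat_lit 5) (nat_lit 129) (nat_lit 5) (nat_lit 130) (nat_lit 5) (nat_lit 335) (nat_lit 328) (nat_lit 201)) (XT.lf (nat_lit 84) (nat_lit 2344183657) (nat_lit 0) (nat_lit 1547200952) (nat_lit 1176) (nat_lit 12193437135) (nat_lit 117) (nat_lit 5) (nat_lit 116) (nat_lit 5) (nat_lit 130) (nat_lit 5) (nat_lit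 336) (nat_lit 328) (nat_lit 200))))) (XT.nd (nat_lit 282) (nat_lit 0) (nat_lit 84) (XT.nd (nat_lit 94) (nat_lit 0) (nat_lit 0) (XT.lf (nat_lit 0) (nat_lit 4610431327) (nat_lit 1092) (nat_lit 7443528797) (nat_lit 1176) (nat_lit 4289395514) (nat_lit 117) (nat_lit 5) (nat_lit 130) (nat_lit 5) (nat_lit 131) (nat_lit 5) (nat_lit 337) (nat_lit 328) (nat_lit 199)) (XT.nd (nat_lit 94) (nat_lit 0) (nat_lit 0) (XT.lf (nat_lit 0) (nat_lit 5358456326) (nat_lit 1092) (nat_lit 973353200) (nat_lit 1176) (nat_lit 10277921382) (nat_lit 117) (nat_lit 5) (nat_lit 130) (nat_lit 5) (nat_lit 131) (nat_lit 5) (nat_lit 338) (nat_lit 328) (nat_lit 198)) (XT.lf (nat_lit 84) (nat_lit 5808292151) (nat_lit 0) (nat_lit 370135245) (nat_lit 1176) (nat_lit 10704458061) (nat_lit 118) (nat_lit 5) (nat_lit 117) (nat_lit 5) (nat_lit 131) (nat_lit 5) (nat_lit 339) (nat_lit 328) (nat_lit 197)))) (XT.nd (nat_lit 94) (nat_lit 0)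 (nat_lit 0) (XT.lf (nat_lit 0) (nat_lit 7082753658) (nat_lit 1092) (nat_lit 4407189672) (nat_lit 1176) (nat_lit 5672769576) (nat_lit 118) (nat_lit 5) (nat_lit 131) (nat_lit 5) (nat_lit 132) (nat_lit 5) (nat_lit 340) (nat_lit 328) (nat_lit 196)) (XT.nd (nat_lit 94) (nat_lit 0) (nat_lit 84) (XT.lf (nat_lit 84) (nat_lit 2507435462) (nat_lit 0) (nat_lit 5527967980) (nat_lit 1176) (nat_lit 9415213753) (nat_lit 119) (nat_lit 5) (nat_lit 118) (nat_lit 5) (nat_lit 132) (nat_lit 5) (nat_lit 341) (nat_lit 328) (nat_lit 195)) (XT.lf (nat_lit 0) (nat_lit 9062037488) (nat_lit 1092) (nat_lit 8029228601) (nat_lit 1176) (nat_lit 654832634) (nat_lit 119) (nat_lit 5) (nat_lit 132) (nat_lit 5) (nat_lit 133) (nat_lit 5) (nat_lit 342) (nat_lit 328) (nat_lit 194)))))) (XT.nd (nat_lit 470) (nat_lit 1176) (nat_lit 0) (XT.nd (nat_lit 188) (nat_lit 1008) (nat_lit 0) (XT.nd (nat_lit 94) (nat_lit 0) (nat_lit 0) (XT.lf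 (nat_lit 0) (nat_lit 10169121378) (nat_lit 1092) (nat_lit 963730188) (nat_lit 1176) (nat_lit 6916410578) (nat_lit 119) (nat_lit 5) (nat_lit 132) (nat_lit 5) (nat_lit 133) (nat_lit 5) (nat_lit 343) (nat_lit 328) (nat_lit 193)) (XT.lf (nat_lit 84) (nat_lit 6444581370) (nat_lit 0) (nat_lit 4922198579) (nat_lit 1176) (nat_lit 6993328209) (nat_lit 120) (nat_lit 5) (nat_lit 119) (nat_lit 5) (nat_lit 133) (nat_lit 5) (nat_lit 344) (nat_lit 328) (nat_lit 192))) (XT.nd (nat_lit 94) (nat_lit 1092) (nat_lit 0) (XT.lf (nat_lit 0) (nat_lit 12618929980) (nat_lit 1092) (nat_lit 4598366875) (nat_lit 84) (nat_lit 1462782835) (nat_lit 120) (nat_lit 5) (nat_lit 133) (nat_lit 5) (nat_lit 121) (nat_lit 5) (nat_lit 345) (nat_lit 328) (nat_lit 191)) (XT.nd (nat_lit 94) (nat_lit 0) (nat_lit 0) (XT.lf (nat_lit 0) (nat_lit 2948603912) (nat_lit 1092) (nat_lit 11033621222) (nat_lit 1176) (nat_lit 5025529772) (nat_lit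 107) (nat_lit 5) (nat_lit 120) (nat_lit 5) (nat_lit 121) (nat_lit 5) (nat_lit 346) (nat_lit 328) (nat_lit 190)) (XT.lf (nat_lit 0) (nat_lit 10820989008) (nat_lit 1092) (nat_lit 4607685057) (nat_lit 1176) (nat_lit 3915672293) (nat_lit 107) (nat_lit 5) (nat_lit 120) (nat_lit 5) (nat_lit 121) (nat_lit 5) (nat_lit 347) (nat_lit 328) (nat_lit 189))))) (XT.nd (nat_lit 282) (nat_lit 672) (nat_lit 0) (XT.nd (nat_lit 94) (nat_lit 504) (nat_lit 0) (XT.lf (nat_lit 0) (nat_lit 16933094489) (nat_lit 1176) (nat_lit 780060331) (nat_lit 84) (nat_lit 1977835412) (nat_lit 107) (nat_lit 5) (nat_lit 121) (nat_lit 5) (nat_lit 108) (nat_lit 5) (nat_lit 348) (nat_lit 328) (nat_lit 188)) (XT.nd (nat_lit 94) (nat_lit 0) (nat_lit 0) (XT.lf (nat_lit 0) (nat_lit 7297267162) (nat_lit 504) (nat_lit 11299725447) (nat_lit 588) (nat_lit 1447913804) (nat_lit 101) (nat_lit 5) (nat_lit 107) (nat_lit 5) (nat_lit 108) (nat_lit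 5) (nat_lit 349) (nat_lit 328) (nat_lit 187)) (XT.lf (nat_lit 0) (nat_lit 15635678882) (nat_lit 504) (nat_lit 4678402680) (nat_lit 588) (nat_lit 95686197) (nat_lit 101) (nat_lit 5) (nat_lit 107) (nat_lit 5) (nat_lit 108) (nat_lit 5) (nat_lit 350) (nat_lit 328) (nat_lit 186)))) (XT.nd (nat_lit 94) (nat_lit 0) (nat_lit 0) (XT.lf (nat_lit 0) (nat_lit 1322383802) (nat_lit 672) (nat_lit 17308071115) (nat_lit 84) (nat_lit 2153555238) (nat_lit 93) (nat_lit 5) (nat_lit 101) (nat_lit 5) (nat_lit 94) (nat_lit 5) (nat_lit 351) (nat_lit 328) (nat_lit 185)) (XT.nd (nat_lit 94) (nat_lit 0) (nat_lit 0) (XT.lf (nat_lit 0) (nat_lit 2874334665) (nat_lit 672) (nat_lit 9140711530) (nat_lit 84) (nat_lit 9151949977) (nat_lit 93) (nat_lit 5) (nat_lit 101) (nat_lit 5) (nat_lit 94) (nat_lit 5) (nat_lit 352) (nat_lit 328) (nat_lit 184)) (XT.lf (nat_lit 0) (nat_lit 4468302802) (nat_lit 672) (nat_lit 725974551) (nat_lit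 84) (nat_lit 16367787243) (nat_lit 93) (nat_lit 5) (nat_lit 101) (nat_lit 5) (nat_lit 94) (nat_lit 5) (nat_lit 353) (nat_lit 328) (nat_lit 183))))))))
noncomputable def xc106 : XT := (XT.nd (nat_lit 52076) (nat_lit 0) (nat_lit 3444) (XT.nd (nat_lit 940) (nat_lit 1512) (nat_lit 0) (XT.nd (nat_lit 470) (nat_lit 924) (nat_lit 0) (XT.nd (nat_lit 188) (nat_lit 504) (nat_lit 0) (XT.nd (nat_lit 94) (nat_lit 0) (nat_lit 0) (XT.lf (nat_lit 0) (nat_lit 6205257485) (nat_lit 588) (nat_lit 13878820485) (nat_lit 84) (nat_lit 1882421716) (nat_lit 87) (nat_lit 5) (nat_lit 94) (nat_lit 5) (nat_lit 88) (nat_lit 5) (nat_lit 354) (nat_lit 328) (nat_lit 182)) (XT.lf (nat_lit 0) (nat_lit 8051052624) (nat_lit 588) (nat_lit 5252273771) (nat_lit 84) (nat_lit 9078460740) (nat_lit 87) (nat_lit 5) (nat_lit 94) (nat_lit 5) (nat_lit 88) (nat_lit 5) (nat_lit 355) (nat_lit 328) (nat_lit 181))) (XT.nd (nat_lit 94) (nat_lit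 0) (nat_lit 0) (XT.lf (nat_lit 0) (nat_lit 3710854971) (nat_lit 504) (nat_lit 6274412975) (nat_lit 588) (nat_lit 12823732450) (nat_lit 81) (nat_lit 5) (nat_lit 87) (nat_lit 5) (nat_lit 88) (nat_lit 5) (nat_lit 356) (nat_lit 328) (nat_lit 180)) (XT.nd (nat_lit 94) (nat_lit 0) (nat_lit 0) (XT.lf (nat_lit 0) (nat_lit 12038975474) (nat_lit 588) (nat_lit 10200516700) (nat_lit 84) (nat_lit 1008138160) (nat_lit 81) (nat_lit 5) (nat_lit 88) (nat_lit 5) (nat_lit 82) (nat_lit 5) (nat_lit 357) (nat_lit 328) (nat_lit 179)) (XT.lf (nat_lit 0) (nat_lit 14215187305) (nat_lit 588) (nat_lit 1096799522) (nat_lit 84) (nat_lit 8386064941) (nat_lit 81) (nat_lit 5) (nat_lit 88) (nat_lit 5) (nat_lit 82) (nat_lit 5) (nat_lit 358) (nat_lit 328) (nat_lit 178))))) (XT.nd (nat_lit 188) (nat_lit 504) (nat_lit 0) (XT.nd (nat_lit 94) (nat_lit 0) (nat_lit 0) (XT.lf (nat_lit 0) (nat_lit 8454065253) (nat_lit 420) (nat_lit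 8083489063) (nat_lit 504) (nat_lit 7622459924) (nat_lit 76) (nat_lit 5) (nat_lit 81) (nat_lit 5) (nat_lit 82) (nat_lit 5) (nat_lit 359) (nat_lit 328) (nat_lit 177)) (XT.lf (nat_lit 0) (nat_lit 18318914854) (nat_lit 420) (nat_lit 619377954) (nat_lit 504) (nat_lit 5697823941) (nat_lit 76) (nat_lit 5) (nat_lit 81) (nat_lit 5) (nat_lit 82) (nat_lit 5) (nat_lit 360) (nat_lit 328) (nat_lit 176))) (XT.nd (nat_lit 94) (nat_lit 84) (nat_lit 0) (XT.lf (nat_lit 0) (nat_lit 3354639757) (nat_lit 420) (nat_lit 18157368457) (nat_lit 504) (nat_lit 3611931459) (nat_lit 71) (nat_lit 5) (nat_lit 76) (nat_lit 5) (nat_lit 77) (nat_lit 5) (nat_lit 361) (nat_lit 328) (nat_lit 175)) (XT.nd (nat_lit 94) (nat_lit 84) (nat_lit 0) (XT.lf (nat_lit 0) (nat_lit 13448469861) (nat_lit 420) (nat_lit 10784423220) (nat_lit 504) (nat_lit 1391919033) (nat_lit 71) (nat_lit 5) (nat_lit 76) (nat_lit 5) (nat_lit 77) (nat_lit 5)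 (nat_lit 362) (nat_lit 328) (nat_lit 174)) (XT.lf (nat_lit 0) (nat_lit 874100053) (nat_lit 504) (nat_lit 2300148656) (nat_lit 84) (nat_lit 22966849076) (nat_lit 70) (nat_lit 5) (nat_lit 76) (nat_lit 5) (nat_lit 71) (nat_lit 5) (nat_lit 363) (nat_lit 328) (nat_lit 173)))))) (XT.nd (nat_lit 470) (nat_lit 672) (nat_lit 0) (XT.nd (nat_lit 188) (nat_lit 420) (nat_lit 0) (XT.nd (nat_lit 94) (nat_lit 0) (nat_lit 0) (XT.lf (nat_lit 0) (nat_lit 3303756752) (nat_lit 504) (nat_lit 18693379157) (nat_lit 84) (nat_lit 4672034172) (nat_lit 65) (nat_lit 5) (nat_lit 71) (nat_lit 5) (nat_lit 66) (nat_lit 5) (nat_lit 364) (nat_lit 328) (nat_lit 172)) (XT.lf (nat_lit 0) (nat_lit 5860935101) (nat_lit 504) (nat_lit 8631720070) (nat_lit 84) (nat_lit 12719353266) (nat_lit 65) (nat_lit 5) (nat_lit 71) (nat_lit 5) (nat_lit 66) (nat_lit 5) (nat_lit 365) (nat_lit 328) (nat_lit 171))) (XT.nd (nat_lit 94) (nat_lit 0)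 (nat_lit 0) (XT.lf (nat_lit 0) (nat_lit 1772531337) (nat_lit 420) (nat_lit 6738057001) (nat_lit 504) (nat_lit 19260690835) (nat_lit 60) (nat_lit 5) (nat_lit 65) (nat_lit 5) (nat_lit 66) (nat_lit 5) (nat_lit 366) (nat_lit 328) (nat_lit 170)) (XT.nd (nat_lit 94) (nat_lit 0) (nat_lit 0) (XT.lf (nat_lit 0) (nat_lit 11341562900) (nat_lit 504) (nat_lit 15681302725) (nat_lit 84) (nat_lit 1321960287) (nat_lit 60) (nat_lit 5) (nat_lit 66) (nat_lit 5) (nat_lit 61) (nat_lit 5) (nat_lit 367) (nat_lit 328) (nat_lit 169)) (XT.lf (nat_lit 0) (nat_lit 14325035807) (nat_lit 504) (nat_lit 5117897815) (nat_lit 84) (nat_lit 9491224951) (nat_lit 60) (nat_lit 5) (nat_lit 66) (nat_lit 5) (nat_lit 61) (nat_lit 5) (nat_lit 368) (nat_lit 328) (nat_lit 168))))) (XT.nd (nat_lit 282) (nat_lit 336) (nat_lit 0) (XT.nd (nat_lit 94) (nat_lit 0) (nat_lit 0) (XT.lf (nat_lit 0) (nat_lit 5886760558) (nat_lit 336) (nat_lit 11568582446)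 (nat_lit 420) (nat_lit 12084745267) (nat_lit 56) (nat_lit 5) (nat_lit 60) (nat_lit 5) (nat_lit 61) (nat_lit 5) (nat_lit 369) (nat_lit 328) (nat_lit 167)) (XT.nd (nat_lit 94) (nat_lit 0) (nat_lit 0) (XT.lf (nat_lit 0) (nat_lit 17336291663) (nat_lit 336) (nat_lit 3395842150) (nat_lit 420) (nat_lit 9431147306) (nat_lit 56) (nat_lit 5) (nat_lit 60) (nat_lit 5) (nat_lit 61) (nat_lit 5) (nat_lit 370) (nat_lit 328) (nat_lit 166)) (XT.lf (nat_lit 0) (nat_lit 24156541537) (nat_lit 420) (nat_lit 1719684159) (nat_lit 84) (nat_lit 4928151849) (nat_lit 56) (nat_lit 5) (nat_lit 61) (nat_lit 5) (nat_lit 57) (nat_lit 5) (nat_lit 371) (nat_lit 328) (nat_lit 165)))) (XT.nd (nat_lit 50196) (nat_lit 0) (nat_lit 5208) (XT.lf (nat_lit 0) (nat_lit 9891910138) (nat_lit 336) (nat_lit 17924308071) (nat_lit 420) (nat_lit 3645138650) (nat_lit 52) (nat_lit 5) (nat_lit 56) (nat_lit 5) (nat_lit 57) (nat_lit 5) (nat_lit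 372) (nat_lit 328) (nat_lit 164)) (XT.nd (nat_lit 94) (nat_lit 0) (nat_lit 0) (XT.lf (nat_lit 0) (nat_lit 177914835) (nat_lit 0) (nat_lit 177914835) (nat_lit 1092) (nat_lit 6974685306) (nat_lit 114) (nat_lit 5) (nat_lit 114) (nat_lit 3) (nat_lit 127) (nat_lit 3) (nat_lit 329) (nat_lit 329) (nat_lit 206)) (XT.lf (nat_lit 0) (nat_lit 1046266283) (nat_lit 1092) (nat_lit 8739032414) (nat_lit 1176) (nat_lit 5091928532) (nat_lit 114) (nat_lit 5) (nat_lit 127) (nat_lit 3) (nat_lit 128) (nat_lit 5) (nat_lit 330) (nat_lit 329) (nat_lit 205))))))) (XT.nd (nat_lit 1034) (nat_lit 1764) (nat_lit 0) (XT.nd (nat_lit 470) (nat_lit 0) (nat_lit 168) (XT.nd (nat_lit 188) (nat_lit 0) (nat_lit 84) (XT.nd (nat_lit 94) (nat_lit 0) (nat_lit 84) (XT.lf (nat_lit 0) (nat_lit 1383978313) (nat_lit 1092) (nat_lit 3009868525) (nat_lit 1176) (nat_lit 10706546094) (nat_lit 114) (nat_lit 5) (nat_lit 127) (nat_lit 3) (nat_lit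 128) (nat_lit 5) (nat_lit 331) (nat_lit 329) (nat_lit 204)) (XT.lf (nat_lit 0) (nat_lit 1762752510) (nat_lit 1092) (nat_lit 12391229234) (nat_lit 1176) (nat_lit 1175586423) (nat_lit 115) (nat_lit 5) (nat_lit 128) (nat_lit 5) (nat_lit 129) (nat_lit 5) (nat_lit 332) (nat_lit 329) (nat_lit 203))) (XT.nd (nat_lit 94) (nat_lit 0) (nat_lit 0) (XT.lf (nat_lit 0) (nat_lit 2219674274) (nat_lit 1092) (nat_lit 6481469834) (nat_lit 1176) (nat_lit 6862683740) (nat_lit 115) (nat_lit 5) (nat_lit 128) (nat_lit 5) (nat_lit 129) (nat_lit 5) (nat_lit 333) (nat_lit 329) (nat_lit 202)) (XT.nd (nat_lit 94) (nat_lit 0) (nat_lit 84) (XT.lf (nat_lit 0) (nat_lit 2680798122) (nat_lit 1092) (nat_lit 394409289) (nat_lit 1176) (nat_lit 12730488428) (nat_lit 115) (nat_lit 5) (nat_lit 128) (nat_lit 5) (nat_lit 129) (nat_lit 5) (nat_lit 334) (nat_lit 329) (nat_lit 201)) (XT.lf (nat_lit 0) (nat_lit 3233720442) (nat_lit 1092)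 (nat_lit 10084793568) (nat_lit 1176) (nat_lit 2734181415) (nat_lit 116) (nat_lit 5) (nat_lit 129) (nat_lit 5) (nat_lit 130) (nat_lit 5) (nat_lit 335) (nat_lit 329) (nat_lit 200))))) (XT.nd (nat_lit 282) (nat_lit 0) (nat_lit 84) (XT.nd (nat_lit 94) (nat_lit 0) (nat_lit 0) (XT.lf (nat_lit 0) (nat_lit 3830003144) (nat_lit 1092) (nat_lit 3808943524) (nat_lit 1176) (nat_lit 8667627724) (nat_lit 116) (nat_lit 5) (nat_lit 129) (nat_lit 5) (nat_lit 130) (nat_lit 5) (nat_lit 336) (nat_lit 329) (nat_lit 199)) (XT.nd (nat_lit 94) (nat_lit 0) (nat_lit 84) (XT.lf (nat_lit 84) (nat_lit 2710213136) (nat_lit 0) (nat_lit 1752334224) (nat_lit 1176) (nat_lit 12105259318) (nat_lit 117) (nat_lit 5) (nat_lit 116) (nat_lit 5) (nat_lit 130) (nat_lit 5) (nat_lit 337) (nat_lit 329) (nat_lit 198)) (XT.lf (nat_lit 0) (nat_lit 5188825777) (nat_lit 1092) (nat_lit 7373052707) (nat_lit 1176) (nat_lit 4272993917) (nat_lit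 117) (nat_lit 5) (nat_lit 130) (nat_lit 5) (nat_lit 131) (nat_lit 5) (nat_lit 338) (nat_lit 329) (nat_lit 197)))) (XT.nd (nat_lit 94) (nat_lit 0) (nat_lit 0) (XT.lf (nat_lit 0) (nat_lit 5946945852) (nat_lit 1092) (nat_lit 711358883) (nat_lit 1176) (nat_lit 10451655414) (nat_lit 117) (nat_lit 5) (nat_lit 130) (nat_lit 5) (nat_lit 131) (nat_lit 5) (nat_lit 339) (nat_lit 329) (nat_lit 196)) (XT.nd (nat_lit 94) (nat_lit 0) (nat_lit 84) (XT.lf (nat_lit 84) (nat_lit 6277559533) (nat_lit 0) (nat_lit 504945496) (nat_lit 1176) (nat_lit 10609429691) (nat_lit 118) (nat_lit 5) (nat_lit 117) (nat_lit 5) (nat_lit 131) (nat_lit 5) (nat_lit 340) (nat_lit 329) (nat_lit 195)) (XT.lf (nat_lit 0) (nat_lit 7701274282) (nat_lit 1092) (nat_lit 4248221843) (nat_lit 1176) (nat_lit 5731408060) (nat_lit 118) (nat_lit 5) (nat_lit 131) (nat_lit 5) (nat_lit 132) (nat_lit 5) (nat_lit 341) (nat_lit 329) (nat_lit 194))))))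 (XT.nd (nat_lit 470) (nat_lit 2100) (nat_lit 0) (XT.nd (nat_lit 188) (nat_lit 0) (nat_lit 84) (XT.nd (nat_lit 94) (nat_lit 0) (nat_lit 84) (XT.lf (nat_lit 84) (nat_lit 2877764080) (nat_lit 0) (nat_lit 5796598994) (nat_lit 1176) (nat_lit 9303696977) (nat_lit 119) (nat_lit 5) (nat_lit 118) (nat_lit 5) (nat_lit 132) (nat_lit 5) (nat_lit 342) (nat_lit 329) (nat_lit 193)) (XT.lf (nat_lit 0) (nat_lit 9720164583) (nat_lit 1092) (nat_lit 7980278950) (nat_lit 1176) (nat_lit 582693693) (nat_lit 119) (nat_lit 5) (nat_lit 132) (nat_lit 5) (nat_lit 133) (nat_lit 5) (nat_lit 343) (nat_lit 329) (nat_lit 192))) (XT.nd (nat_lit 94) (nat_lit 0) (nat_lit 0) (XT.lf (nat_lit 0) (nat_lit 10850226346) (nat_lit 1092) (nat_lit 704705981) (nat_lit 1176) (nat_lit 7041159992) (nat_lit 119) (nat_lit 5) (nat_lit 132) (nat_lit 5) (nat_lit 133) (nat_lit 5) (nat_lit 344) (nat_lit 329) (nat_lit 191)) (XT.nd (nat_lit 94)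 (nat_lit 0) (nat_lit 84) (XT.lf (nat_lit 84) (nat_lit 6930338384) (nat_lit 0) (nat_lit 5146510148) (nat_lit 1176) (nat_lit 6840019851) (nat_lit 120) (nat_lit 5) (nat_lit 119) (nat_lit 5) (nat_lit 133) (nat_lit 5) (nat_lit 345) (nat_lit 329) (nat_lit 190)) (XT.lf (nat_lit 0) (nat_lit 13356369865) (nat_lit 1092) (nat_lit 4450819621) (nat_lit 84) (nat_lit 1439963878) (nat_lit 120) (nat_lit 5) (nat_lit 133) (nat_lit 5) (nat_lit 121) (nat_lit 5) (nat_lit 346) (nat_lit 329) (nat_lit 189))))) (XT.nd (nat_lit 282) (nat_lit 1176) (nat_lit 0) (XT.nd (nat_lit 94) (nat_lit 0) (nat_lit 0) (XT.lf (nat_lit 0) (nat_lit 3327170293) (nat_lit 1092) (nat_lit 11427194434) (nat_lit 1176) (nat_lit 4830894554) (nat_lit 107) (nat_lit 5) (nat_lit 120) (nat_lit 5) (nat_lit 121) (nat_lit 5) (nat_lit 347) (nat_lit 329) (nat_lit 188)) (XT.nd (nat_lit 94) (nat_lit 0) (nat_lit 0) (XT.lf (nat_lit 0) (nat_lit 11434965041)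 (nat_lit 1092) (nat_lit 4800504821) (nat_lit 1176) (nat_lit 3697168085) (nat_lit 107) (nat_lit 5) (nat_lit 120) (nat_lit 5) (nat_lit 121) (nat_lit 5) (nat_lit 348) (nat_lit 329) (nat_lit 187)) (XT.lf (nat_lit 0) (nat_lit 17776168893) (nat_lit 1176) (nat_lit 522569704) (nat_lit 84) (nat_lit 1991646359) (nat_lit 107) (nat_lit 5) (nat_lit 121) (nat_lit 5) (nat_lit 108) (nat_lit 5) (nat_lit 349) (nat_lit 329) (nat_lit 186)))) (XT.nd (nat_lit 94) (nat_lit 672) (nat_lit 0) (XT.lf (nat_lit 0) (nat_lit 7802303260) (nat_lit 504) (nat_lit 11682544476) (nat_lit 588) (nat_lit 1170670586) (nat_lit 101) (nat_lit 5) (nat_lit 107) (nat_lit 5) (nat_lit 108) (nat_lit 5) (nat_lit 350) (nat_lit 329) (nat_lit 185)) (XT.nd (nat_lit 94) (nat_lit 588) (nat_lit 0) (XT.lf (nat_lit 0) (nat_lit 209482949) (nat_lit 588) (nat_lit 4643313147) (nat_lit 84) (nat_lit 16179152667) (nat_lit 100) (nat_lit 5) (nat_lit 107) (nat_lit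 5) (nat_lit 101) (nat_lit 5) (nat_lit 351) (nat_lit 329) (nat_lit 184)) (XT.lf (nat_lit 0) (nat_lit 1662803204) (nat_lit 672) (nat_lit 17559075556) (nat_lit 84) (nat_lit 2196123885) (nat_lit 93) (nat_lit 5) (nat_lit 101) (nat_lit 5) (nat_lit 94) (nat_lit 5) (nat_lit 352) (nat_lit 329) (nat_lit 183))))))))
noncomputable def xc107 : XT := (XT.nd (nat_lit 52170) (nat_lit 0) (nat_lit 3696) (XT.nd (nat_lit 940) (nat_lit 1260) (nat_lit 0) (XT.nd (nat_lit 470) (nat_lit 840) (nat_lit 0) (XT.nd (nat_lit 188) (nat_lit 1008) (nat_lit 0) (XT.nd (nat_lit 94) (nat_lit 0) (nat_lit 0) (XT.lf (nat_lit 0) (nat_lit 3253861449) (nat_lit 672) (nat_lit 9147113584) (nat_lit 84) (nat_lit 9412196250) (nat_lit 93) (nat_lit 5) (nat_lit 101) (nat_lit 5) (nat_lit 94) (nat_lit 5) (nat_lit 353) (nat_lit 329) (nat_lit 182)) (XT.lf (nat_lit 0) (nat_lit 4888510208) (nat_lit 672) (nat_lit 479847363) (nat_lit 84) (nat_lit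 16852429989) (nat_lit 93) (nat_lit 5) (nat_lit 101) (nat_lit 5) (nat_lit 94) (nat_lit 5) (nat_lit 354) (nat_lit 329) (nat_lit 181))) (XT.nd (nat_lit 94) (nat_lit 504) (nat_lit 0) (XT.lf (nat_lit 0) (nat_lit 6673379888) (nat_lit 588) (nat_lit 14033561401) (nat_lit 84) (nat_lit 1931031823) (nat_lit 87) (nat_lit 5) (nat_lit 94) (nat_lit 5) (nat_lit 88) (nat_lit 5) (nat_lit 355) (nat_lit 329) (nat_lit 180)) (XT.nd (nat_lit 94) (nat_lit 504) (nat_lit 0) (XT.lf (nat_lit 0) (nat_lit 8568103171) (nat_lit 588) (nat_lit 5147875519) (nat_lit 84) (nat_lit 9350441067) (nat_lit 87) (nat_lit 5) (nat_lit 94) (nat_lit 5) (nat_lit 88) (nat_lit 5) (nat_lit 356) (nat_lit 329) (nat_lit 179)) (XT.lf (nat_lit 0) (nat_lit 4090404864) (nat_lit 504) (nat_lit 6466456113) (nat_lit 588) (nat_lit 12950211017) (nat_lit 81) (nat_lit 5) (nat_lit 87) (nat_lit 5) (nat_lit 88) (nat_lit 5) (nat_lit 357) (nat_lit 329) (nat_lit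 178))))) (XT.nd (nat_lit 188) (nat_lit 840) (nat_lit 0) (XT.nd (nat_lit 94) (nat_lit 0) (nat_lit 0) (XT.lf (nat_lit 0) (nat_lit 12666377859) (nat_lit 588) (nat_lit 10251459814) (nat_lit 84) (nat_lit 1041731886) (nat_lit 81) (nat_lit 5) (nat_lit 88) (nat_lit 5) (nat_lit 82) (nat_lit 5) (nat_lit 358) (nat_lit 329) (nat_lit 177)) (XT.lf (nat_lit 0) (nat_lit 14902409174) (nat_lit 588) (nat_lit 873503602) (nat_lit 84) (nat_lit 8648303994) (nat_lit 81) (nat_lit 5) (nat_lit 88) (nat_lit 5) (nat_lit 82) (nat_lit 5) (nat_lit 359) (nat_lit 329) (nat_lit 176))) (XT.nd (nat_lit 94) (nat_lit 420) (nat_lit 0) (XT.lf (nat_lit 0) (nat_lit 8970833083) (nat_lit 420) (nat_lit 8321049782) (nat_lit 504) (nat_lit 7608793703) (nat_lit 76) (nat_lit 5) (nat_lit 81) (nat_lit 5) (nat_lit 82) (nat_lit 5) (nat_lit 360) (nat_lit 329) (nat_lit 175)) (XT.nd (nat_lit 94) (nat_lit 420) (nat_lit 0) (XT.lf (nat_lit 0) (nat_lit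 19133834975) (nat_lit 420) (nat_lit 625942936) (nat_lit 504) (nat_lit 5632009850) (nat_lit 76) (nat_lit 5) (nat_lit 81) (nat_lit 5) (nat_lit 82) (nat_lit 5) (nat_lit 361) (nat_lit 329) (nat_lit 174)) (XT.lf (nat_lit 0) (nat_lit 3711009398) (nat_lit 420) (nat_lit 18697846420) (nat_lit 504) (nat_lit 3486038003) (nat_lit 71) (nat_lit 5) (nat_lit 76) (nat_lit 5) (nat_lit 77) (nat_lit 5) (nat_lit 362) (nat_lit 329) (nat_lit 173)))))) (XT.nd (nat_lit 470) (nat_lit 336) (nat_lit 0) (XT.nd (nat_lit 188) (nat_lit 840) (nat_lit 0) (XT.nd (nat_lit 94) (nat_lit 84) (nat_lit 0) (XT.lf (nat_lit 0) (nat_lit 14110159826) (nat_lit 420) (nat_lit 11097013415) (nat_lit 504) (nat_lit 1204357242) (nat_lit 71) (nat_lit 5) (nat_lit 76) (nat_lit 5) (nat_lit 77) (nat_lit 5) (nat_lit 363) (nat_lit 329) (nat_lit 172)) (XT.lf (nat_lit 0) (nat_lit 1120462881) (nat_lit 504) (nat_lit 2128825212) (nat_lit 84) (nat_lit 23694694144)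 (nat_lit 70) (nat_lit 5) (nat_lit 76) (nat_lit 5) (nat_lit 71) (nat_lit 5) (nat_lit 364) (nat_lit 329) (nat_lit 171))) (XT.nd (nat_lit 94) (nat_lit 420) (nat_lit 0) (XT.lf (nat_lit 0) (nat_lit 3621477767) (nat_lit 504) (nat_lit 19025613164) (nat_lit 84) (nat_lit 4841477456) (nat_lit 65) (nat_lit 5) (nat_lit 71) (nat_lit 5) (nat_lit 66) (nat_lit 5) (nat_lit 365) (nat_lit 329) (nat_lit 170)) (XT.nd (nat_lit 94) (nat_lit 420) (nat_lit 0) (XT.lf (nat_lit 0) (nat_lit 6251454890) (nat_lit 504) (nat_lit 8659477256) (nat_lit 84) (nat_lit 13137523464) (nat_lit 65) (nat_lit 5) (nat_lit 71) (nat_lit 5) (nat_lit 66) (nat_lit 5) (nat_lit 366) (nat_lit 329) (nat_lit 169)) (XT.lf (nat_lit 0) (nat_lit 2064877920) (nat_lit 420) (nat_lit 6914445373) (nat_lit 504) (nat_lit 19645881676) (nat_lit 60) (nat_lit 5) (nat_lit 65) (nat_lit 5) (nat_lit 66) (nat_lit 5) (nat_lit 367) (nat_lit 329) (nat_lit 168))))) (XT.nd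 (nat_lit 282) (nat_lit 0) (nat_lit 0) (XT.nd (nat_lit 94) (nat_lit 336) (nat_lit 0) (XT.lf (nat_lit 0) (nat_lit 11892209580) (nat_lit 504) (nat_lit 15930701819) (nat_lit 84) (nat_lit 1393820557) (nat_lit 60) (nat_lit 5) (nat_lit 66) (nat_lit 5) (nat_lit 61) (nat_lit 5) (nat_lit 368) (nat_lit 329) (nat_lit 167)) (XT.nd (nat_lit 94) (nat_lit 336) (nat_lit 0) (XT.lf (nat_lit 0) (nat_lit 14962184886) (nat_lit 504) (nat_lit 5046949068) (nat_lit 84) (nat_lit 9815403944) (nat_lit 60) (nat_lit 5) (nat_lit 66) (nat_lit 5) (nat_lit 61) (nat_lit 5) (nat_lit 369) (nat_lit 329) (nat_lit 166)) (XT.lf (nat_lit 0) (nat_lit 6296529185) (nat_lit 336) (nat_lit 11889451760) (nat_lit 420) (nat_lit 12263398413) (nat_lit 56) (nat_lit 5) (nat_lit 60) (nat_lit 5) (nat_lit 61) (nat_lit 5) (nat_lit 370) (nat_lit 329) (nat_lit 165)))) (XT.nd (nat_lit 94) (nat_lit 0) (nat_lit 0) (XT.lf (nat_lit 0) (nat_lit 18094161951)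 (nat_lit 336) (nat_lit 3464491780) (nat_lit 420) (nat_lit 9533431439) (nat_lit 56) (nat_lit 5) (nat_lit 60) (nat_lit 5) (nat_lit 61) (nat_lit 5) (nat_lit 371) (nat_lit 329) (nat_lit 164)) (XT.nd (nat_lit 50290) (nat_lit 0) (nat_lit 4872) (XT.lf (nat_lit 0) (nat_lit 25084043268) (nat_lit 420) (nat_lit 1553460304) (nat_lit 84) (nat_lit 5115729246) (nat_lit 56) (nat_lit 5) (nat_lit 61) (nat_lit 5) (nat_lit 57) (nat_lit 5) (nat_lit 372) (nat_lit 329) (nat_lit 163)) (XT.lf (nat_lit 0) (nat_lit 318093443) (nat_lit 0) (nat_lit 318093443) (nat_lit 1092) (nat_lit 6912217203) (nat_lit 114) (nat_lit 5) (nat_lit 114) (nat_lit 3) (nat_lit 127) (nat_lit 3) (nat_lit 330) (nat_lit 330) (nat_lit 204))))))) (XT.nd (nat_lit 1034) (nat_lit 1176) (nat_lit 0) (XT.nd (nat_lit 470) (nat_lit 0) (nat_lit 168) (XT.nd (nat_lit 188) (nat_lit 0) (nat_lit 84) (XT.nd (nat_lit 94) (nat_lit 0) (nat_lit 0) (XT.lf (nat_lit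 0) (nat_lit 1598565950) (nat_lit 1092) (nat_lit 8727971565) (nat_lit 1176) (nat_lit 4993813071) (nat_lit 114) (nat_lit 5) (nat_lit 127) (nat_lit 3) (nat_lit 128) (nat_lit 5) (nat_lit 331) (nat_lit 330) (nat_lit 203)) (XT.lf (nat_lit 0) (nat_lit 1931115794) (nat_lit 1092) (nat_lit 2829681867) (nat_lit 1176) (nat_lit 10790180114) (nat_lit 114) (nat_lit 5) (nat_lit 127) (nat_lit 3) (nat_lit 128) (nat_lit 5) (nat_lit 332) (nat_lit 330) (nat_lit 202))) (XT.nd (nat_lit 94) (nat_lit 0) (nat_lit 0) (XT.lf (nat_lit 0) (nat_lit 2306963652) (nat_lit 1092) (nat_lit 12485357350) (nat_lit 1176) (nat_lit 995448170) (nat_lit 115) (nat_lit 5) (nat_lit 128) (nat_lit 5) (nat_lit 129) (nat_lit 5) (nat_lit 333) (nat_lit 330) (nat_lit 201)) (XT.nd (nat_lit 94) (nat_lit 0) (nat_lit 0) (XT.lf (nat_lit 0) (nat_lit 2763329777) (nat_lit 1092) (nat_lit 6401115098) (nat_lit 1176) (nat_lit 6865357652) (nat_lit 115) (nat_lit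 5) (nat_lit 128) (nat_lit 5) (nat_lit 129) (nat_lit 5) (nat_lit 334) (nat_lit 330) (nat_lit 200)) (XT.lf (nat_lit 0) (nat_lit 3224470857) (nat_lit 1092) (nat_lit 133813182) (nat_lit 1176) (nat_lit 12921380627) (nat_lit 115) (nat_lit 5) (nat_lit 128) (nat_lit 5) (nat_lit 129) (nat_lit 5) (nat_lit 335) (nat_lit 330) (nat_lit 199))))) (XT.nd (nat_lit 282) (nat_lit 0) (nat_lit 84) (XT.nd (nat_lit 94) (nat_lit 0) (nat_lit 0) (XT.lf (nat_lit 0) (nat_lit 3781585438) (nat_lit 1092) (nat_lit 10109972929) (nat_lit 1176) (nat_lit 2643216291) (nat_lit 116) (nat_lit 5) (nat_lit 129) (nat_lit 5) (nat_lit 130) (nat_lit 5) (nat_lit 336) (nat_lit 330) (nat_lit 198)) (XT.nd (nat_lit 94) (nat_lit 0) (nat_lit 0) (XT.lf (nat_lit 0) (nat_lit 4382893924) (nat_lit 1092) (nat_lit 3648214527) (nat_lit 1176) (nat_lit 8765883109) (nat_lit 116) (nat_lit 5) (nat_lit 129) (nat_lit 5) (nat_lit 130) (nat_lit 5) (nat_lit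 337) (nat_lit 330) (nat_lit 197)) (XT.lf (nat_lit 84) (nat_lit 3070213327) (nat_lit 0) (nat_lit 1954517176) (nat_lit 1176) (nat_lit 12041960294) (nat_lit 117) (nat_lit 5) (nat_lit 116) (nat_lit 5) (nat_lit 130) (nat_lit 5) (nat_lit 338) (nat_lit 330) (nat_lit 196)))) (XT.nd (nat_lit 94) (nat_lit 0) (nat_lit 0) (XT.lf (nat_lit 0) (nat_lit 5759356757) (nat_lit 1092) (nat_lit 7318233959) (nat_lit 1176) (nat_lit 4264931481) (nat_lit 117) (nat_lit 5) (nat_lit 130) (nat_lit 5) (nat_lit 131) (nat_lit 5) (nat_lit 339) (nat_lit 330) (nat_lit 195)) (XT.nd (nat_lit 94) (nat_lit 0) (nat_lit 0) (XT.lf (nat_lit 0) (nat_lit 6528660418) (nat_lit 1092) (nat_lit 458548368) (nat_lit 1176) (nat_lit 10639356783) (nat_lit 117) (nat_lit 5) (nat_lit 130) (nat_lit 5) (nat_lit 131) (nat_lit 5) (nat_lit 340) (nat_lit 330) (nat_lit 194)) (XT.lf (nat_lit 84) (nat_lit 6744243781) (nat_lit 0) (nat_lit 636629459) (nat_lit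 1176) (nat_lit 10536739478) (nat_lit 118) (nat_lit 5) (nat_lit 117) (nat_lit 5) (nat_lit 131) (nat_lit 5) (nat_lit 341) (nat_lit 330) (nat_lit 193)))))) (XT.nd (nat_lit 470) (nat_lit 1512) (nat_lit 0) (XT.nd (nat_lit 188) (nat_lit 0) (nat_lit 84) (XT.nd (nat_lit 94) (nat_lit 0) (nat_lit 0) (XT.lf (nat_lit 0) (nat_lit 8315338243) (nat_lit 1092) (nat_lit 4101834355) (nat_lit 1176) (nat_lit 5798807323) (nat_lit 118) (nat_lit 5) (nat_lit 131) (nat_lit 5) (nat_lit 132) (nat_lit 5) (nat_lit 342) (nat_lit 330) (nat_lit 192)) (XT.lf (nat_lit 84) (nat_lit 3242241797) (nat_lit 0) (nat_lit 6067796457) (nat_lit 1176) (nat_lit 9212616567) (nat_lit 119) (nat_lit 5) (nat_lit 118) (nat_lit 5) (nat_lit 132) (nat_lit 5) (nat_lit 343) (nat_lit 330) (nat_lit 191))) (XT.nd (nat_lit 94) (nat_lit 0) (nat_lit 0) (XT.lf (nat_lit 0) (nat_lit 10376351183) (nat_lit 1092) (nat_lit 7947454364) (nat_lit 1176) (nat_lit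 513793750) (nat_lit 119) (nat_lit 5) (nat_lit 132) (nat_lit 5) (nat_lit 133) (nat_lit 5) (nat_lit 344) (nat_lit 330) (nat_lit 190)) (XT.nd (nat_lit 94) (nat_lit 0) (nat_lit 0) (XT.lf (nat_lit 0) (nat_lit 11530774922) (nat_lit 1092) (nat_lit 454764055) (nat_lit 1176) (nat_lit 7175087312) (nat_lit 119) (nat_lit 5) (nat_lit 132) (nat_lit 5) (nat_lit 133) (nat_lit 5) (nat_lit 345) (nat_lit 330) (nat_lit 189)) (XT.lf (nat_lit 84) (nat_lit 7414215077) (nat_lit 0) (nat_lit 5373527076) (nat_lit 1176) (nat_lit 6703880683) (nat_lit 120) (nat_lit 5) (nat_lit 119) (nat_lit 5) (nat_lit 133) (nat_lit 5) (nat_lit 346) (nat_lit 330) (nat_lit 188))))) (XT.nd (nat_lit 282) (nat_lit 588) (nat_lit 0) (XT.nd (nat_lit 94) (nat_lit 1092) (nat_lit 0) (XT.lf (nat_lit 0) (nat_lit 14096161225) (nat_lit 1092) (nat_lit 4315881321) (nat_lit 84) (nat_lit 1420475076) (nat_lit 120) (nat_lit 5) (nat_lit 133) (nat_lit 5)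 (nat_lit 121) (nat_lit 5) (nat_lit 347) (nat_lit 330) (nat_lit 187)) (XT.nd (nat_lit 94) (nat_lit 0) (nat_lit 0) (XT.lf (nat_lit 0) (nat_lit 3700463274) (nat_lit 1092) (nat_lit 11829916150) (nat_lit 1176) (nat_lit 4650982015) (nat_lit 107) (nat_lit 5) (nat_lit 120) (nat_lit 5) (nat_lit 121) (nat_lit 5) (nat_lit 348) (nat_lit 330) (nat_lit 186)) (XT.lf (nat_lit 0) (nat_lit 12051476796) (nat_lit 1092) (nat_lit 4996341506) (nat_lit 1176) (nat_lit 3492022516) (nat_lit 107) (nat_lit 5) (nat_lit 120) (nat_lit 5) (nat_lit 121) (nat_lit 5) (nat_lit 349) (nat_lit 330) (nat_lit 185)))) (XT.nd (nat_lit 94) (nat_lit 588) (nat_lit 0) (XT.lf (nat_lit 0) (nat_lit 18626534124) (nat_lit 1176) (nat_lit 273780812) (nat_lit 84) (nat_lit 2008699068) (nat_lit 107) (nat_lit 5) (nat_lit 121) (nat_lit 5) (nat_lit 108) (nat_lit 5) (nat_lit 350) (nat_lit 330) (nat_lit 184)) (XT.nd (nat_lit 94) (nat_lit 84) (nat_lit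 0) (XT.lf (nat_lit 0) (nat_lit 8306480443) (nat_lit 504) (nat_lit 12075304234) (nat_lit 588) (nat_lit 903913054) (nat_lit 101) (nat_lit 5) (nat_lit 107) (nat_lit 5) (nat_lit 108) (nat_lit 5) (nat_lit 351) (nat_lit 330) (nat_lit 183)) (XT.lf (nat_lit 0) (nat_lit 503991055) (nat_lit 588) (nat_lit 4525916218) (nat_lit 84) (nat_lit 16644104787) (nat_lit 100) (nat_lit 5) (nat_lit 107) (nat_lit 5) (nat_lit 101) (nat_lit 5) (nat_lit 352) (nat_lit 330) (nat_lit 182))))))))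
noncomputable def xc108 : XT := (XT.nd (nat_lit 52264) (nat_lit 0) (nat_lit 3696) (XT.nd (nat_lit 940) (nat_lit 1680) (nat_lit 0) (XT.nd (nat_lit 470) (nat_lit 924) (nat_lit 0) (XT.nd (nat_lit 188) (nat_lit 504) (nat_lit 0) (XT.nd (nat_lit 94) (nat_lit 0) (nat_lit 0) (XT.lf (nat_lit 0) (nat_lit 1996040122) (nat_lit 672) (nat_lit 17834774499) (nat_lit 84) (nat_lit 2241445067) (nat_lit 93) (nat_lit 5) (nat_lit 101) (nat_lit 5) (nat_lit 94) (nat_lit 5) (nat_lit 353) (nat_lit 330) (nat_lit 181)) (XT.lf (nat_lit 0) (nat_lit 3627951347) (nat_lit 672) (nat_lit 9170118916) (nat_lit 84) (nat_lit 9681899981) (nat_lit 93) (nat_lit 5) (nat_lit 101) (nat_lit 5) (nat_lit 94) (nat_lit 5) (nat_lit 354) (nat_lit 330) (nat_lit 180))) (XT.nd (nat_lit 94) (nat_lit 504) (nat_lit 0) (XT.lf (nat_lit 0) (nat_lit 5305059061) (nat_lit 672) (nat_lit 242001789) (nat_lit 84) (nat_lit 17353444695) (nat_lit 93) (nat_lit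 5) (nat_lit 101) (nat_lit 5) (nat_lit 94) (nat_lit 5) (nat_lit 355) (nat_lit 330) (nat_lit 179)) (XT.nd (nat_lit 94) (nat_lit 0) (nat_lit 0) (XT.lf (nat_lit 0) (nat_lit 7139680383) (nat_lit 588) (nat_lit 14209417771) (nat_lit 84) (nat_lit 1981726054) (nat_lit 87) (nat_lit 5) (nat_lit 94) (nat_lit 5) (nat_lit 88) (nat_lit 5) (nat_lit 356) (nat_lit 330) (nat_lit 178)) (XT.lf (nat_lit 0) (nat_lit 9085339702) (nat_lit 588) (nat_lit 5056068745) (nat_lit 84) (nat_lit 9631412640) (nat_lit 87) (nat_lit 5) (nat_lit 94) (nat_lit 5) (nat_lit 88) (nat_lit 5) (nat_lit 357) (nat_lit 330) (nat_lit 177))))) (XT.nd (nat_lit 188) (nat_lit 420) (nat_lit 0) (XT.nd (nat_lit 94) (nat_lit 0) (nat_lit 0) (XT.lf (nat_lit 0) (nat_lit 4466053222) (nat_lit 504) (nat_lit 6664598514) (nat_lit 588) (nat_lit 13096665599) (nat_lit 81) (nat_lit 5) (nat_lit 87) (nat_lit 5) (nat_lit 88) (nat_lit 5) (nat_lit 358) (nat_lit 330)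 (nat_lit 176)) (XT.lf (nat_lit 0) (nat_lit 13298173364) (nat_lit 588) (nat_lit 10319694733) (nat_lit 84) (nat_lit 1076228330) (nat_lit 81) (nat_lit 5) (nat_lit 88) (nat_lit 5) (nat_lit 82) (nat_lit 5) (nat_lit 359) (nat_lit 330) (nat_lit 175))) (XT.nd (nat_lit 94) (nat_lit 420) (nat_lit 0) (XT.lf (nat_lit 0) (nat_lit 15596331279) (nat_lit 588) (nat_lit 658525632) (nat_lit 84) (nat_lit 8918537941) (nat_lit 81) (nat_lit 5) (nat_lit 88) (nat_lit 5) (nat_lit 82) (nat_lit 5) (nat_lit 360) (nat_lit 330) (nat_lit 174)) (XT.nd (nat_lit 94) (nat_lit 0) (nat_lit 0) (XT.lf (nat_lit 0) (nat_lit 9488534885) (nat_lit 420) (nat_lit 8566746520) (nat_lit 504) (nat_lit 7609509535) (nat_lit 76) (nat_lit 5) (nat_lit 81) (nat_lit 5) (nat_lit 82) (nat_lit 5) (nat_lit 361) (nat_lit 330) (nat_lit 173)) (XT.lf (nat_lit 0) (nat_lit 19959385388) (nat_lit 420) (nat_lit 633459869) (nat_lit 504) (nat_lit 5578516052)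 (nat_lit 76) (nat_lit 5) (nat_lit 81) (nat_lit 5) (nat_lit 82) (nat_lit 5) (nat_lit 362) (nat_lit 330) (nat_lit 172)))))) (XT.nd (nat_lit 470) (nat_lit 756) (nat_lit 0) (XT.nd (nat_lit 188) (nat_lit 504) (nat_lit 0) (XT.nd (nat_lit 94) (nat_lit 0) (nat_lit 0) (XT.lf (nat_lit 0) (nat_lit 4063477846) (nat_lit 420) (nat_lit 19256406018) (nat_lit 504) (nat_lit 3370330902) (nat_lit 71) (nat_lit 5) (nat_lit 76) (nat_lit 5) (nat_lit 77) (nat_lit 5) (nat_lit 363) (nat_lit 330) (nat_lit 171)) (XT.lf (nat_lit 0) (nat_lit 14777863003) (nat_lit 420) (nat_lit 11420580830) (nat_lit 504) (nat_lit 1024646459) (nat_lit 71) (nat_lit 5) (nat_lit 76) (nat_lit 5) (nat_lit 77) (nat_lit 5) (nat_lit 364) (nat_lit 330) (nat_lit 170))) (XT.nd (nat_lit 94) (nat_lit 420) (nat_lit 0) (XT.lf (nat_lit 0) (nat_lit 1361475472) (nat_lit 504) (nat_lit 1966562017) (nat_lit 84) (nat_lit 24444162239) (nat_lit 70) (nat_lit 5)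 (nat_lit 76) (nat_lit 5) (nat_lit 71) (nat_lit 5) (nat_lit 365) (nat_lit 330) (nat_lit 169)) (XT.nd (nat_lit 94) (nat_lit 0) (nat_lit 0) (XT.lf (nat_lit 0) (nat_lit 3936295277) (nat_lit 504) (nat_lit 19382792103) (nat_lit 84) (nat_lit 5014715776) (nat_lit 65) (nat_lit 5) (nat_lit 71) (nat_lit 5) (nat_lit 66) (nat_lit 5) (nat_lit 366) (nat_lit 330) (nat_lit 168)) (XT.lf (nat_lit 0) (nat_lit 6641711388) (nat_lit 504) (nat_lit 8702300227) (nat_lit 84) (nat_lit 13567243062) (nat_lit 65) (nat_lit 5) (nat_lit 71) (nat_lit 5) (nat_lit 66) (nat_lit 5) (nat_lit 367) (nat_lit 330) (nat_lit 167))))) (XT.nd (nat_lit 282) (nat_lit 336) (nat_lit 0) (XT.nd (nat_lit 94) (nat_lit 0) (nat_lit 0) (XT.lf (nat_lit 0) (nat_lit 2352225751) (nat_lit 420) (nat_lit 7098226306) (nat_lit 504) (nat_lit 20055564075) (nat_lit 60) (nat_lit 5) (nat_lit 65) (nat_lit 5) (nat_lit 66) (nat_lit 5) (nat_lit 368) (nat_lit 330)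 (nat_lit 166)) (XT.nd (nat_lit 94) (nat_lit 0) (nat_lit 0) (XT.lf (nat_lit 0) (nat_lit 12448135748) (nat_lit 504) (nat_lit 16201853693) (nat_lit 84) (nat_lit 1466079449) (nat_lit 60) (nat_lit 5) (nat_lit 66) (nat_lit 5) (nat_lit 61) (nat_lit 5) (nat_lit 369) (nat_lit 330) (nat_lit 165)) (XT.lf (nat_lit 0) (nat_lit 15607649544) (nat_lit 504) (nat_lit 4987400723) (nat_lit 84) (nat_lit 10147858435) (nat_lit 60) (nat_lit 5) (nat_lit 66) (nat_lit 5) (nat_lit 61) (nat_lit 5) (nat_lit 370) (nat_lit 330) (nat_lit 164)))) (XT.nd (nat_lit 94) (nat_lit 0) (nat_lit 0) (XT.lf (nat_lit 0) (nat_lit 6705538512) (nat_lit 336) (nat_lit 12222504419) (nat_lit 420) (nat_lit 12459197678) (nat_lit 56) (nat_lit 5) (nat_lit 60) (nat_lit 5) (nat_lit 61) (nat_lit 5) (nat_lit 371) (nat_lit 330) (nat_lit 163)) (XT.nd (nat_lit 50384) (nat_lit 0) (nat_lit 4872) (XT.lf (nat_lit 0) (nat_lit 18862468869) (nat_lit 336) (nat_lit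 3537438702) (nat_lit 420) (nat_lit 9650145228) (nat_lit 56) (nat_lit 5) (nat_lit 60) (nat_lit 5) (nat_lit 61) (nat_lit 5) (nat_lit 372) (nat_lit 330) (nat_lit 162)) (XT.lf (nat_lit 0) (nat_lit 454641253) (nat_lit 0) (nat_lit 454641253) (nat_lit 1092) (nat_lit 6864319482) (nat_lit 114) (nat_lit 5) (nat_lit 114) (nat_lit 3) (nat_lit 127) (nat_lit 3) (nat_lit 331) (nat_lit 331) (nat_lit 202))))))) (XT.nd (nat_lit 1034) (nat_lit 1176) (nat_lit 0) (XT.nd (nat_lit 470) (nat_lit 0) (nat_lit 168) (XT.nd (nat_lit 188) (nat_lit 0) (nat_lit 84) (XT.nd (nat_lit 94) (nat_lit 0) (nat_lit 0) (XT.lf (nat_lit 0) (nat_lit 2137194388) (nat_lit 1092) (nat_lit 8733269447) (nat_lit 1176) (nat_lit 4907817291) (nat_lit 114) (nat_lit 5) (nat_lit 127) (nat_lit 3) (nat_lit 128) (nat_lit 5) (nat_lit 332) (nat_lit 331) (nat_lit 201)) (XT.lf (nat_lit 0) (nat_lit 2465347885) (nat_lit 1092) (nat_lit 2660108855) (nat_lit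 1176) (nat_lit 10891112182) (nat_lit 114) (nat_lit 5) (nat_lit 127) (nat_lit 3) (nat_lit 128) (nat_lit 5) (nat_lit 333) (nat_lit 331) (nat_lit 200))) (XT.nd (nat_lit 94) (nat_lit 0) (nat_lit 0) (XT.lf (nat_lit 0) (nat_lit 2839047518) (nat_lit 1092) (nat_lit 12599580633) (nat_lit 1176) (nat_lit 822554121) (nat_lit 115) (nat_lit 5) (nat_lit 128) (nat_lit 5) (nat_lit 129) (nat_lit 5) (nat_lit 334) (nat_lit 331) (nat_lit 199)) (XT.nd (nat_lit 94) (nat_lit 0) (nat_lit 0) (XT.lf (nat_lit 0) (nat_lit 3295712682) (nat_lit 1092) (nat_lit 6334930078) (nat_lit 1176) (nat_lit 6880557218) (nat_lit 115) (nat_lit 5) (nat_lit 128) (nat_lit 5) (nat_lit 129) (nat_lit 5) (nat_lit 335) (nat_lit 331) (nat_lit 198)) (XT.lf (nat_lit 84) (nat_lit 121142391) (nat_lit 0) (nat_lit 3637776571) (nat_lit 1176) (nat_lit 13010318475) (nat_lit 116) (nat_lit 5) (nat_lit 115) (nat_lit 5) (nat_lit 129) (nat_lit 5) (nat_lit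 336) (nat_lit 331) (nat_lit 197))))) (XT.nd (nat_lit 282) (nat_lit 0) (nat_lit 84) (XT.nd (nat_lit 94) (nat_lit 0) (nat_lit 0) (XT.lf (nat_lit 0) (nat_lit 4319920971) (nat_lit 1092) (nat_lit 10152958960) (nat_lit 1176) (nat_lit 2559839726) (nat_lit 116) (nat_lit 5) (nat_lit 129) (nat_lit 5) (nat_lit 130) (nat_lit 5) (nat_lit 337) (nat_lit 331) (nat_lit 196)) (XT.nd (nat_lit 94) (nat_lit 0) (nat_lit 0) (XT.lf (nat_lit 0) (nat_lit 4927208237) (nat_lit 1092) (nat_lit 3499017102) (nat_lit 1176) (nat_lit 8877279927) (nat_lit 116) (nat_lit 5) (nat_lit 129) (nat_lit 5) (nat_lit 130) (nat_lit 5) (nat_lit 338) (nat_lit 331) (nat_lit 195)) (XT.lf (nat_lit 84) (nat_lit 3425026544) (nat_lit 0) (nat_lit 2154209764) (nat_lit 1176) (nat_lit 12002675782) (nat_lit 117) (nat_lit 5) (nat_lit 116) (nat_lit 5) (nat_lit 130) (nat_lit 5) (nat_lit 339) (nat_lit 331) (nat_lit 194)))) (XT.nd (nat_lit 94) (nat_lit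 0) (nat_lit 0) (XT.lf (nat_lit 0) (nat_lit 6323308305) (nat_lit 1092) (nat_lit 7278501113) (nat_lit 1176) (nat_lit 4264942660) (nat_lit 117) (nat_lit 5) (nat_lit 130) (nat_lit 5) (nat_lit 131) (nat_lit 5) (nat_lit 340) (nat_lit 331) (nat_lit 193)) (XT.nd (nat_lit 94) (nat_lit 0) (nat_lit 0) (XT.lf (nat_lit 0) (nat_lit 7104871867) (nat_lit 1092) (nat_lit 214181313) (nat_lit 1176) (nat_lit 10840950173) (nat_lit 117) (nat_lit 5) (nat_lit 130) (nat_lit 5) (nat_lit 131) (nat_lit 5) (nat_lit 341) (nat_lit 331) (nat_lit 192)) (XT.lf (nat_lit 84) (nat_lit 7209279482) (nat_lit 0) (nat_lit 765522930) (nat_lit 1176) (nat_lit 10485582291) (nat_lit 118) (nat_lit 5) (nat_lit 117) (nat_lit 5) (nat_lit 131) (nat_lit 5) (nat_lit 342) (nat_lit 331) (nat_lit 191)))))) (XT.nd (nat_lit 470) (nat_lit 1512) (nat_lit 0) (XT.nd (nat_lit 188) (nat_lit 0) (nat_lit 84) (XT.nd (nat_lit 94) (nat_lit 0) (nat_lit 0) (XT.lf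 (nat_lit 0) (nat_lit 8926207076) (nat_lit 1092) (nat_lit 3967380150) (nat_lit 1176) (nat_lit 5874827703) (nat_lit 118) (nat_lit 5) (nat_lit 131) (nat_lit 5) (nat_lit 132) (nat_lit 5) (nat_lit 343) (nat_lit 331) (nat_lit 190)) (XT.lf (nat_lit 84) (nat_lit 3601713787) (nat_lit 0) (nat_lit 6341981167) (nat_lit 1176) (nat_lit 9141190803) (nat_lit 119) (nat_lit 5) (nat_lit 118) (nat_lit 5) (nat_lit 132) (nat_lit 5) (nat_lit 344) (nat_lit 331) (nat_lit 189))) (XT.nd (nat_lit 94) (nat_lit 0) (nat_lit 0) (XT.lf (nat_lit 0) (nat_lit 11031860514) (nat_lit 1092) (nat_lit 7930209726) (nat_lit 1176) (nat_lit 447908903) (nat_lit 119) (nat_lit 5) (nat_lit 132) (nat_lit 5) (nat_lit 133) (nat_lit 5) (nat_lit 345) (nat_lit 331) (nat_lit 188)) (XT.nd (nat_lit 94) (nat_lit 0) (nat_lit 0) (XT.lf (nat_lit 0) (nat_lit 12212033449) (nat_lit 1092) (nat_lit 213172388) (nat_lit 1176) (nat_lit 7318162494) (nat_lit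 119) (nat_lit 5) (nat_lit 132) (nat_lit 5) (nat_lit 133) (nat_lit 5) (nat_lit 346) (nat_lit 331) (nat_lit 187)) (XT.lf (nat_lit 84) (nat_lit 7897156473) (nat_lit 0) (nat_lit 5603584862) (nat_lit 1176) (nat_lit 6584144484) (nat_lit 120) (nat_lit 5) (nat_lit 119) (nat_lit 5) (nat_lit 133) (nat_lit 5) (nat_lit 347) (nat_lit 331) (nat_lit 186))))) (XT.nd (nat_lit 282) (nat_lit 588) (nat_lit 0) (XT.nd (nat_lit 94) (nat_lit 1092) (nat_lit 0) (XT.lf (nat_lit 0) (nat_lit 14839591749) (nat_lit 1092) (nat_lit 4192925081) (nat_lit 84) (nat_lit 1404180514) (nat_lit 120) (nat_lit 5) (nat_lit 133) (nat_lit 5) (nat_lit 121) (nat_lit 5) (nat_lit 348) (nat_lit 331) (nat_lit 185)) (XT.nd (nat_lit 94) (nat_lit 0) (nat_lit 0) (XT.lf (nat_lit 0) (nat_lit 4069326848) (nat_lit 1092) (nat_lit 12242250763) (nat_lit 1176) (nat_lit 4485019122) (nat_lit 107) (nat_lit 5) (nat_lit 120) (nat_lit 5) (nat_lit 121) (nat_lit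 5) (nat_lit 349) (nat_lit 331) (nat_lit 184)) (XT.lf (nat_lit 0) (nat_lit 12671580057) (nat_lit 1092) (nat_lit 5195463992) (nat_lit 1176) (nat_lit 3299457236) (nat_lit 107) (nat_lit 5) (nat_lit 120) (nat_lit 5) (nat_lit 121) (nat_lit 5) (nat_lit 350) (nat_lit 331) (nat_lit 183)))) (XT.nd (nat_lit 94) (nat_lit 588) (nat_lit 0) (XT.lf (nat_lit 0) (nat_lit 19485532390) (nat_lit 1176) (nat_lit 32975190) (nat_lit 84) (nat_lit 2028927377) (nat_lit 107) (nat_lit 5) (nat_lit 121) (nat_lit 5) (nat_lit 108) (nat_lit 5) (nat_lit 351) (nat_lit 331) (nat_lit 182)) (XT.nd (nat_lit 94) (nat_lit 84) (nat_lit 0) (XT.lf (nat_lit 0) (nat_lit 8810750298) (nat_lit 504) (nat_lit 12478427001) (nat_lit 588) (nat_lit 646836109) (nat_lit 101) (nat_lit 5) (nat_lit 107) (nat_lit 5) (nat_lit 108) (nat_lit 5) (nat_lit 352) (nat_lit 331) (nat_lit 181)) (XT.lf (nat_lit 0) (nat_lit 790569341) (nat_lit 588) (nat_lit 4420359579)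 (nat_lit 84) (nat_lit 17125638400) (nat_lit 100) (nat_lit 5) (nat_lit 107) (nat_lit 5) (nat_lit 101) (nat_lit 5) (nat_lit 353) (nat_lit 331) (nat_lit 180))))))))
noncomputable def xc109 : XT := (XT.nd (nat_lit 52358) (nat_lit 0) (nat_lit 3108) (XT.nd (nat_lit 940) (nat_lit 1680) (nat_lit 0) (XT.nd (nat_lit 470) (nat_lit 924) (nat_lit 0) (XT.nd (nat_lit 188) (nat_lit 504) (nat_lit 0) (XT.nd (nat_lit 94) (nat_lit 0) (nat_lit 0) (XT.lf (nat_lit 0) (nat_lit 2322922403) (nat_lit 672) (nat_lit 18134931666) (nat_lit 84) (nat_lit 2289519241) (nat_lit 93) (nat_lit 5) (nat_lit 101) (nat_lit 5) (nat_lit 94) (nat_lit 5) (nat_lit 354) (nat_lit 331) (nat_lit 179)) (XT.lf (nat_lit 0) (nat_lit 3997454731) (nat_lit 672) (nat_lit 9209270544) (nat_lit 84) (nat_lit 9961272029) (nat_lit 93) (nat_lit 5) (nat_lit 101) (nat_lit 5) (nat_lit 94) (nat_lit 5) (nat_lit 355) (nat_lit 331) (nat_lit 178))) (XT.nd (nat_lit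 94) (nat_lit 504) (nat_lit 0) (XT.lf (nat_lit 0) (nat_lit 5718824227) (nat_lit 672) (nat_lit 11752091) (nat_lit 84) (nat_lit 17871259045) (nat_lit 93) (nat_lit 5) (nat_lit 101) (nat_lit 5) (nat_lit 94) (nat_lit 5) (nat_lit 356) (nat_lit 331) (nat_lit 177)) (XT.nd (nat_lit 94) (nat_lit 0) (nat_lit 0) (XT.lf (nat_lit 0) (nat_lit 7605069964) (nat_lit 588) (nat_lit 14406077602) (nat_lit 84) (nat_lit 2034534828) (nat_lit 87) (nat_lit 5) (nat_lit 94) (nat_lit 5) (nat_lit 88) (nat_lit 5) (nat_lit 357) (nat_lit 331) (nat_lit 176)) (XT.lf (nat_lit 0) (nat_lit 9603706367) (nat_lit 588) (nat_lit 4976306275) (nat_lit 84) (nat_lit 9921621026) (nat_lit 87) (nat_lit 5) (nat_lit 94) (nat_lit 5) (nat_lit 88) (nat_lit 5) (nat_lit 358) (nat_lit 331) (nat_lit 175))))) (XT.nd (nat_lit 188) (nat_lit 420) (nat_lit 0) (XT.nd (nat_lit 94) (nat_lit 0) (nat_lit 0) (XT.lf (nat_lit 0) (nat_lit 4838607117) (nat_lit 504)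 (nat_lit 6869020614) (nat_lit 588) (nat_lit 13262764475) (nat_lit 81) (nat_lit 5) (nat_lit 87) (nat_lit 5) (nat_lit 88) (nat_lit 5) (nat_lit 359) (nat_lit 331) (nat_lit 174)) (XT.lf (nat_lit 0) (nat_lit 13935389988) (nat_lit 588) (nat_lit 10404826820) (nat_lit 84) (nat_lit 1111663690) (nat_lit 81) (nat_lit 5) (nat_lit 88) (nat_lit 5) (nat_lit 82) (nat_lit 5) (nat_lit 360) (nat_lit 331) (nat_lit 173))) (XT.nd (nat_lit 94) (nat_lit 420) (nat_lit 0) (XT.lf (nat_lit 0) (nat_lit 16298026327) (nat_lit 588) (nat_lit 451220771) (nat_lit 84) (nat_lit 9197022590) (nat_lit 81) (nat_lit 5) (nat_lit 88) (nat_lit 5) (nat_lit 82) (nat_lit 5) (nat_lit 361) (nat_lit 331) (nat_lit 172)) (XT.nd (nat_lit 94) (nat_lit 0) (nat_lit 0) (XT.lf (nat_lit 0) (nat_lit 10008093170) (nat_lit 420) (nat_lit 8820785790) (nat_lit 504) (nat_lit 7624176297) (nat_lit 76) (nat_lit 5) (nat_lit 81) (nat_lit 5) (nat_lit 82) (nat_lit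 5) (nat_lit 362) (nat_lit 331) (nat_lit 171)) (XT.lf (nat_lit 0) (nat_lit 20796762323) (nat_lit 420) (nat_lit 641913931) (nat_lit 504) (nat_lit 5536873877) (nat_lit 76) (nat_lit 5) (nat_lit 81) (nat_lit 5) (nat_lit 82) (nat_lit 5) (nat_lit 363) (nat_lit 331) (nat_lit 170)))))) (XT.nd (nat_lit 470) (nat_lit 756) (nat_lit 0) (XT.nd (nat_lit 188) (nat_lit 504) (nat_lit 0) (XT.nd (nat_lit 94) (nat_lit 0) (nat_lit 0) (XT.lf (nat_lit 0) (nat_lit 4412809600) (nat_lit 420) (nat_lit 19833529191) (nat_lit 504) (nat_lit 3264291415) (nat_lit 71) (nat_lit 5) (nat_lit 76) (nat_lit 5) (nat_lit 77) (nat_lit 5) (nat_lit 364) (nat_lit 331) (nat_lit 169)) (XT.lf (nat_lit 0) (nat_lit 15452624612) (nat_lit 420) (nat_lit 11755389530) (nat_lit 504) (nat_lit 852220639) (nat_lit 71) (nat_lit 5) (nat_lit 76) (nat_lit 5) (nat_lit 77) (nat_lit 5) (nat_lit 365) (nat_lit 331) (nat_lit 168))) (XT.nd (nat_lit 94) (nat_lit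 420) (nat_lit 0) (XT.lf (nat_lit 0) (nat_lit 1597741240) (nat_lit 504) (nat_lit 1812788702) (nat_lit 84) (nat_lit 25215979363) (nat_lit 70) (nat_lit 5) (nat_lit 76) (nat_lit 5) (nat_lit 71) (nat_lit 5) (nat_lit 366) (nat_lit 331) (nat_lit 167)) (XT.nd (nat_lit 94) (nat_lit 0) (nat_lit 0) (XT.lf (nat_lit 0) (nat_lit 4248874645) (nat_lit 504) (nat_lit 19764821779) (nat_lit 84) (nat_lit 5191953120) (nat_lit 65) (nat_lit 5) (nat_lit 71) (nat_lit 5) (nat_lit 66) (nat_lit 5) (nat_lit 367) (nat_lit 331) (nat_lit 166)) (XT.lf (nat_lit 0) (nat_lit 7032429091) (nat_lit 504) (nat_lit 8759814618) (nat_lit 84) (nat_lit 14008953839) (nat_lit 65) (nat_lit 5) (nat_lit 71) (nat_lit 5) (nat_lit 66) (nat_lit 5) (nat_lit 368) (nat_lit 331) (nat_lit 165))))) (XT.nd (nat_lit 282) (nat_lit 336) (nat_lit 0) (XT.nd (nat_lit 94) (nat_lit 0) (nat_lit 0) (XT.lf (nat_lit 0) (nat_lit 2635252755) (nat_lit 420) (nat_lit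 7289514977) (nat_lit 504) (nat_lit 20489753874) (nat_lit 60) (nat_lit 5) (nat_lit 65) (nat_lit 5) (nat_lit 66) (nat_lit 5) (nat_lit 369) (nat_lit 331) (nat_lit 164)) (XT.nd (nat_lit 94) (nat_lit 0) (nat_lit 0) (XT.lf (nat_lit 0) (nat_lit 13010203443) (nat_lit 504) (nat_lit 16494602169) (nat_lit 84) (nat_lit 1538857659) (nat_lit 60) (nat_lit 5) (nat_lit 66) (nat_lit 5) (nat_lit 61) (nat_lit 5) (nat_lit 370) (nat_lit 331) (nat_lit 163)) (XT.lf (nat_lit 0) (nat_lit 16262364940) (nat_lit 504) (nat_lit 4938800652) (nat_lit 84) (nat_lit 10488950045) (nat_lit 60) (nat_lit 5) (nat_lit 66) (nat_lit 5) (nat_lit 61) (nat_lit 5) (nat_lit 371) (nat_lit 331) (nat_lit 162)))) (XT.nd (nat_lit 50478) (nat_lit 0) (nat_lit 4872) (XT.lf (nat_lit 0) (nat_lit 7114562386) (nat_lit 336) (nat_lit 12567985641) (nat_lit 420) (nat_lit 12671987040) (nat_lit 56) (nat_lit 5) (nat_lit 60) (nat_lit 5) (nat_lit 61) (nat_lit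 5) (nat_lit 372) (nat_lit 331) (nat_lit 161)) (XT.nd (nat_lit 94) (nat_lit 0) (nat_lit 0) (XT.lf (nat_lit 0) (nat_lit 587918162) (nat_lit 0) (nat_lit 587918162) (nat_lit 1092) (nat_lit 6830466091) (nat_lit 114) (nat_lit 5) (nat_lit 114) (nat_lit 3) (nat_lit 127) (nat_lit 3) (nat_lit 332) (nat_lit 332) (nat_lit 200)) (XT.lf (nat_lit 0) (nat_lit 2663551683) (nat_lit 1092) (nat_lit 8754443915) (nat_lit 1176) (nat_lit 4833418875) (nat_lit 114) (nat_lit 5) (nat_lit 127) (nat_lit 3) (nat_lit 128) (nat_lit 5) (nat_lit 333) (nat_lit 332) (nat_lit 199))))))) (XT.nd (nat_lit 1034) (nat_lit 1764) (nat_lit 0) (XT.nd (nat_lit 470) (nat_lit 0) (nat_lit 168) (XT.nd (nat_lit 188) (nat_lit 0) (nat_lit 84) (XT.nd (nat_lit 94) (nat_lit 0) (nat_lit 84) (XT.lf (nat_lit 0) (nat_lit 2988043571) (nat_lit 1092) (nat_lit 2500518995) (nat_lit 1176) (nat_lit 11009007510) (nat_lit 114) (nat_lit 5) (nat_lit 127) (nat_lit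 3) (nat_lit 128) (nat_lit 5) (nat_lit 334) (nat_lit 332) (nat_lit 198)) (XT.lf (nat_lit 0) (nat_lit 3360345753) (nat_lit 1092) (nat_lit 12733504599) (nat_lit 1176) (nat_lit 656368991) (nat_lit 115) (nat_lit 5) (nat_lit 128) (nat_lit 5) (nat_lit 129) (nat_lit 5) (nat_lit 335) (nat_lit 332) (nat_lit 197))) (XT.nd (nat_lit 94) (nat_lit 0) (nat_lit 0) (XT.lf (nat_lit 0) (nat_lit 3818139486) (nat_lit 1092) (nat_lit 6282367194) (nat_lit 1176) (nat_lit 6907933729) (nat_lit 115) (nat_lit 5) (nat_lit 128) (nat_lit 5) (nat_lit 129) (nat_lit 5) (nat_lit 336) (nat_lit 332) (nat_lit 196)) (XT.nd (nat_lit 94) (nat_lit 0) (nat_lit 84) (XT.lf (nat_lit 84) (nat_lit 371323170) (nat_lit 0) (nat_lit 3914190237) (nat_lit 1176) (nat_lit 12989327036) (nat_lit 116) (nat_lit 5) (nat_lit 115) (nat_lit 5) (nat_lit 129) (nat_lit 5) (nat_lit 337) (nat_lit 332) (nat_lit 195)) (XT.lf (nat_lit 0) (nat_lit 4850002053) (nat_lit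 1092) (nat_lit 10213295184) (nat_lit 1176) (nat_lit 2483670453) (nat_lit 116) (nat_lit 5) (nat_lit 129) (nat_lit 5) (nat_lit 130) (nat_lit 5) (nat_lit 338) (nat_lit 332) (nat_lit 194))))) (XT.nd (nat_lit 282) (nat_lit 0) (nat_lit 84) (XT.nd (nat_lit 94) (nat_lit 0) (nat_lit 0) (XT.lf (nat_lit 0) (nat_lit 5464203420) (nat_lit 1092) (nat_lit 3360730566) (nat_lit 1176) (nat_lit 9001627589) (nat_lit 116) (nat_lit 5) (nat_lit 129) (nat_lit 5) (nat_lit 130) (nat_lit 5) (nat_lit 339) (nat_lit 332) (nat_lit 193)) (XT.nd (nat_lit 94) (nat_lit 0) (nat_lit 84) (XT.lf (nat_lit 84) (nat_lit 3775460249) (nat_lit 0) (nat_lit 2351853540) (nat_lit 1176) (nat_lit 11986611583) (nat_lit 117) (nat_lit 5) (nat_lit 116) (nat_lit 5) (nat_lit 130) (nat_lit 5) (nat_lit 340) (nat_lit 332) (nat_lit 192)) (XT.lf (nat_lit 0) (nat_lit 6881913768) (nat_lit 1092) (nat_lit 7253327611) (nat_lit 1176) (nat_lit 4272784719)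 (nat_lit 117) (nat_lit 5) (nat_lit 130) (nat_lit 5) (nat_lit 131) (nat_lit 5) (nat_lit 341) (nat_lit 332) (nat_lit 191)))) (XT.nd (nat_lit 94) (nat_lit 0) (nat_lit 0) (XT.lf (nat_lit 84) (nat_lit 22906375) (nat_lit 0) (nat_lit 7654124555) (nat_lit 1176) (nat_lit 11033708903) (nat_lit 118) (nat_lit 5) (nat_lit 117) (nat_lit 5) (nat_lit 131) (nat_lit 5) (nat_lit 342) (nat_lit 332) (nat_lit 190)) (XT.nd (nat_lit 94) (nat_lit 0) (nat_lit 84) (XT.lf (nat_lit 84) (nat_lit 7673570095) (nat_lit 0) (nat_lit 891946486) (nat_lit 1176) (nat_lit 10455216741) (nat_lit 118) (nat_lit 5) (nat_lit 117) (nat_lit 5) (nat_lit 131) (nat_lit 5) (nat_lit 343) (nat_lit 332) (nat_lit 189)) (XT.lf (nat_lit 0) (nat_lit 9535098520) (nat_lit 1092) (nat_lit 3844253535) (nat_lit 1176) (nat_lit 5959349570) (nat_lit 118) (nat_lit 5) (nat_lit 131) (nat_lit 5) (nat_lit 132) (nat_lit 5) (nat_lit 344) (nat_lit 332) (nat_lit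 188)))))) (XT.nd (nat_lit 470) (nat_lit 2100) (nat_lit 0) (XT.nd (nat_lit 188) (nat_lit 0) (nat_lit 84) (XT.nd (nat_lit 94) (nat_lit 0) (nat_lit 84) (XT.lf (nat_lit 84) (nat_lit 3956990616) (nat_lit 0) (nat_lit 6619566759) (nat_lit 1176) (nat_lit 9088697562) (nat_lit 119) (nat_lit 5) (nat_lit 118) (nat_lit 5) (nat_lit 132) (nat_lit 5) (nat_lit 345) (nat_lit 332) (nat_lit 187)) (XT.lf (nat_lit 0) (nat_lit 11687916574) (nat_lit 1092) (nat_lit 7928044915) (nat_lit 1176) (nat_lit 384827517) (nat_lit 119) (nat_lit 5) (nat_lit 132) (nat_lit 5) (nat_lit 133) (nat_lit 5) (nat_lit 346) (nat_lit 332) (nat_lit 186))) (XT.nd (nat_lit 94) (nat_lit 0) (nat_lit 0) (XT.lf (nat_lit 84) (nat_lit 21190647) (nat_lit 0) (nat_lit 12874251062) (nat_lit 1176) (nat_lit 7449392758) (nat_lit 120) (nat_lit 5) (nat_lit 119) (nat_lit 5) (nat_lit 133) (nat_lit 5) (nat_lit 347) (nat_lit 332) (nat_lit 185)) (XT.nd (nat_lit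 94) (nat_lit 0) (nat_lit 84) (XT.lf (nat_lit 84) (nat_lit 8380077463) (nat_lit 0) (nat_lit 5837014502) (nat_lit 1176) (nat_lit 6480098196) (nat_lit 120) (nat_lit 5) (nat_lit 119) (nat_lit 5) (nat_lit 133) (nat_lit 5) (nat_lit 348) (nat_lit 332) (nat_lit 184)) (XT.lf (nat_lit 0) (nat_lit 15587917088) (nat_lit 1092) (nat_lit 4081364854) (nat_lit 84) (nat_lit 1390954228) (nat_lit 120) (nat_lit 5) (nat_lit 133) (nat_lit 5) (nat_lit 121) (nat_lit 5) (nat_lit 349) (nat_lit 332) (nat_lit 183))))) (XT.nd (nat_lit 282) (nat_lit 672) (nat_lit 0) (XT.nd (nat_lit 94) (nat_lit 504) (nat_lit 0) (XT.lf (nat_lit 0) (nat_lit 4434571500) (nat_lit 1092) (nat_lit 12664666355) (nat_lit 1176) (nat_lit 4332281700) (nat_lit 107) (nat_lit 5) (nat_lit 120) (nat_lit 5) (nat_lit 121) (nat_lit 5) (nat_lit 350) (nat_lit 332) (nat_lit 182)) (XT.nd (nat_lit 94) (nat_lit 504) (nat_lit 0) (XT.lf (nat_lit 0) (nat_lit 13296305460)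 (nat_lit 1092) (nat_lit 5398139107) (nat_lit 1176) (nat_lit 3118740396) (nat_lit 107) (nat_lit 5) (nat_lit 120) (nat_lit 5) (nat_lit 121) (nat_lit 5) (nat_lit 351) (nat_lit 332) (nat_lit 181)) (XT.lf (nat_lit 0) (nat_lit 204652659) (nat_lit 504) (nat_lit 20151858910) (nat_lit 588) (nat_lit 1849650465) (nat_lit 101) (nat_lit 5) (nat_lit 107) (nat_lit 5) (nat_lit 108) (nat_lit 5) (nat_lit 352) (nat_lit 332) (nat_lit 180)))) (XT.nd (nat_lit 94) (nat_lit 672) (nat_lit 0) (XT.lf (nat_lit 0) (nat_lit 9316035970) (nat_lit 504) (nat_lit 12892341392) (nat_lit 588) (nat_lit 398676636) (nat_lit 101) (nat_lit 5) (nat_lit 107) (nat_lit 5) (nat_lit 108) (nat_lit 5) (nat_lit 353) (nat_lit 332) (nat_lit 179)) (XT.nd (nat_lit 94) (nat_lit 588) (nat_lit 0) (XT.lf (nat_lit 0) (nat_lit 1069982452) (nat_lit 588) (nat_lit 4326093395) (nat_lit 84) (nat_lit 17624139118) (nat_lit 100) (nat_lit 5) (nat_lit 107) (nat_lit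 5) (nat_lit 101) (nat_lit 5) (nat_lit 354) (nat_lit 332) (nat_lit 178)) (XT.lf (nat_lit 0) (nat_lit 2644241332) (nat_lit 672) (nat_lit 18459362794) (nat_lit 84) (nat_lit 2340351901) (nat_lit 93) (nat_lit 5) (nat_lit 101) (nat_lit 5) (nat_lit 94) (nat_lit 5) (nat_lit 355) (nat_lit 332) (nat_lit 177))))))))
noncomputable def xc110 : XT := (XT.nd (nat_lit 52452) (nat_lit 0) (nat_lit 2268) (XT.nd (nat_lit 940) (nat_lit 924) (nat_lit 0) (XT.nd (nat_lit 470) (nat_lit 840) (nat_lit 0) (XT.nd (nat_lit 188) (nat_lit 504) (nat_lit 0) (XT.nd (nat_lit 94) (nat_lit 504) (nat_lit 0) (XT.lf (nat_lit 0) (nat_lit 4363187986) (nat_lit 672) (nat_lit 9264154872) (nat_lit 84) (nat_lit 10250534667) (nat_lit 93) (nat_lit 5) (nat_lit 101) (nat_lit 5) (nat_lit 94) (nat_lit 5) (nat_lit 356) (nat_lit 332) (nat_lit 176)) (XT.lf (nat_lit 0) (nat_lit 215902866) (nat_lit 504) (nat_lit 5916888070) (nat_lit 588) (nat_lit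 18192557628) (nat_lit 87) (nat_lit 5) (nat_lit 93) (nat_lit 5) (nat_lit 94) (nat_lit 5) (nat_lit 357) (nat_lit 332) (nat_lit 175))) (XT.nd (nat_lit 94) (nat_lit 504) (nat_lit 0) (XT.lf (nat_lit 0) (nat_lit 8070430561) (nat_lit 588) (nat_lit 14623276482) (nat_lit 84) (nat_lit 2089491532) (nat_lit 87) (nat_lit 5) (nat_lit 94) (nat_lit 5) (nat_lit 88) (nat_lit 5) (nat_lit 358) (nat_lit 332) (nat_lit 174)) (XT.nd (nat_lit 94) (nat_lit 504) (nat_lit 0) (XT.lf (nat_lit 0) (nat_lit 10124121000) (nat_lit 588) (nat_lit 4908079505) (nat_lit 84) (nat_lit 10221321369) (nat_lit 87) (nat_lit 5) (nat_lit 94) (nat_lit 5) (nat_lit 88) (nat_lit 5) (nat_lit 359) (nat_lit 332) (nat_lit 173)) (XT.lf (nat_lit 0) (nat_lit 5208843669) (nat_lit 504) (nat_lit 7079908951) (nat_lit 588) (nat_lit 13448221971) (nat_lit 81) (nat_lit 5) (nat_lit 87) (nat_lit 5) (nat_lit 88) (nat_lit 5) (nat_lit 360) (nat_lit 332) (nat_lit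 172))))) (XT.nd (nat_lit 188) (nat_lit 840) (nat_lit 0) (XT.nd (nat_lit 94) (nat_lit 0) (nat_lit 0) (XT.lf (nat_lit 0) (nat_lit 14579034777) (nat_lit 588) (nat_lit 10506504332) (nat_lit 84) (nat_lit 1148074802) (nat_lit 81) (nat_lit 5) (nat_lit 88) (nat_lit 5) (nat_lit 82) (nat_lit 5) (nat_lit 361) (nat_lit 332) (nat_lit 171)) (XT.lf (nat_lit 0) (nat_lit 17008549042) (nat_lit 588) (nat_lit 250977655) (nat_lit 84) (nat_lit 9484021209) (nat_lit 81) (nat_lit 5) (nat_lit 88) (nat_lit 5) (nat_lit 82) (nat_lit 5) (nat_lit 362) (nat_lit 332) (nat_lit 170))) (XT.nd (nat_lit 94) (nat_lit 420) (nat_lit 0) (XT.lf (nat_lit 0) (nat_lit 10530406122) (nat_lit 420) (nat_lit 9083383211) (nat_lit 504) (nat_lit 7652401443) (nat_lit 76) (nat_lit 5) (nat_lit 81) (nat_lit 5) (nat_lit 82) (nat_lit 5) (nat_lit 363) (nat_lit 332) (nat_lit 169)) (XT.nd (nat_lit 94) (nat_lit 420) (nat_lit 0) (XT.lf (nat_lit 0) (nat_lit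 21647147759) (nat_lit 420) (nat_lit 651292469) (nat_lit 504) (nat_lit 5506650508) (nat_lit 76) (nat_lit 5) (nat_lit 81) (nat_lit 5) (nat_lit 82) (nat_lit 5) (nat_lit 364) (nat_lit 332) (nat_lit 168)) (XT.lf (nat_lit 0) (nat_lit 4759740409) (nat_lit 420) (nat_lit 20429717475) (nat_lit 504) (nat_lit 3167434148) (nat_lit 71) (nat_lit 5) (nat_lit 76) (nat_lit 5) (nat_lit 77) (nat_lit 5) (nat_lit 365) (nat_lit 332) (nat_lit 167)))))) (XT.nd (nat_lit 470) (nat_lit 0) (nat_lit 0) (XT.nd (nat_lit 188) (nat_lit 840) (nat_lit 0) (XT.nd (nat_lit 94) (nat_lit 84) (nat_lit 0) (XT.lf (nat_lit 0) (nat_lit 16135471408) (nat_lit 420) (nat_lit 12101716285) (nat_lit 504) (nat_lit 686544134) (nat_lit 71) (nat_lit 5) (nat_lit 76) (nat_lit 5) (nat_lit 77) (nat_lit 5) (nat_lit 366) (nat_lit 332) (nat_lit 166)) (XT.lf (nat_lit 0) (nat_lit 1829836739) (nat_lit 504) (nat_lit 1666967639) (nat_lit 84) (nat_lit 26010890725)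 (nat_lit 70) (nat_lit 5) (nat_lit 76) (nat_lit 5) (nat_lit 71) (nat_lit 5) (nat_lit 367) (nat_lit 332) (nat_lit 165))) (XT.nd (nat_lit 94) (nat_lit 420) (nat_lit 0) (XT.lf (nat_lit 0) (nat_lit 4559857122) (nat_lit 504) (nat_lit 20171656457) (nat_lit 84) (nat_lit 5373394687) (nat_lit 65) (nat_lit 5) (nat_lit 71) (nat_lit 5) (nat_lit 66) (nat_lit 5) (nat_lit 368) (nat_lit 332) (nat_lit 164)) (XT.nd (nat_lit 94) (nat_lit 420) (nat_lit 0) (XT.lf (nat_lit 0) (nat_lit 7424311563) (nat_lit 504) (nat_lit 8831684296) (nat_lit 84) (nat_lit 14463106306) (nat_lit 65) (nat_lit 5) (nat_lit 71) (nat_lit 5) (nat_lit 66) (nat_lit 5) (nat_lit 369) (nat_lit 332) (nat_lit 163)) (XT.lf (nat_lit 0) (nat_lit 2914608538) (nat_lit 420) (nat_lit 7488436883) (nat_lit 504) (nat_lit 20948511438) (nat_lit 60) (nat_lit 5) (nat_lit 65) (nat_lit 5) (nat_lit 66) (nat_lit 5) (nat_lit 370) (nat_lit 332) (nat_lit 162))))) (XT.nd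 (nat_lit 50760) (nat_lit 0) (nat_lit 4536) (XT.nd (nat_lit 94) (nat_lit 0) (nat_lit 0) (XT.lf (nat_lit 0) (nat_lit 13579260060) (nat_lit 504) (nat_lit 16808835425) (nat_lit 84) (nat_lit 1612273206) (nat_lit 60) (nat_lit 5) (nat_lit 66) (nat_lit 5) (nat_lit 61) (nat_lit 5) (nat_lit 371) (nat_lit 332) (nat_lit 161)) (XT.nd (nat_lit 50572) (nat_lit 0) (nat_lit 4536) (XT.lf (nat_lit 0) (nat_lit 16927255102) (nat_lit 504) (nat_lit 4900730425) (nat_lit 84) (nat_lit 10839045382) (nat_lit 60) (nat_lit 5) (nat_lit 66) (nat_lit 5) (nat_lit 61) (nat_lit 5) (nat_lit 372) (nat_lit 332) (nat_lit 160)) (XT.lf (nat_lit 0) (nat_lit 718267241) (nat_lit 0) (nat_lit 718267241) (nat_lit 1092) (nat_lit 6810172587) (nat_lit 114) (nat_lit 5) (nat_lit 114) (nat_lit 3) (nat_lit 127) (nat_lit 3) (nat_lit 333) (nat_lit 333) (nat_lit 198)))) (XT.nd (nat_lit 94) (nat_lit 0) (nat_lit 0) (XT.lf (nat_lit 0) (nat_lit 3178973290)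 (nat_lit 1092) (nat_lit 8791056472) (nat_lit 1176) (nat_lit 4770132504) (nat_lit 114) (nat_lit 5) (nat_lit 127) (nat_lit 3) (nat_lit 128) (nat_lit 5) (nat_lit 334) (nat_lit 333) (nat_lit 197)) (XT.nd (nat_lit 94) (nat_lit 0) (nat_lit 84) (XT.lf (nat_lit 0) (nat_lit 3500509494) (nat_lit 1092) (nat_lit 2350319076) (nat_lit 1176) (nat_lit 11143572527) (nat_lit 114) (nat_lit 5) (nat_lit 127) (nat_lit 3) (nat_lit 128) (nat_lit 5) (nat_lit 335) (nat_lit 333) (nat_lit 196)) (XT.lf (nat_lit 0) (nat_lit 3872139857) (nat_lit 1092) (nat_lit 12886782799) (nat_lit 1176) (nat_lit 496385913) (nat_lit 115) (nat_lit 5) (nat_lit 128) (nat_lit 5) (nat_lit 129) (nat_lit 5) (nat_lit 336) (nat_lit 333) (nat_lit 195))))))) (XT.nd (nat_lit 1034) (nat_lit 2352) (nat_lit 0) (XT.nd (nat_lit 470) (nat_lit 0) (nat_lit 168) (XT.nd (nat_lit 188) (nat_lit 0) (nat_lit 84) (XT.nd (nat_lit 94) (nat_lit 0) (nat_lit 0) (XT.lf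 (nat_lit 0) (nat_lit 4331868819) (nat_lit 1092) (nat_lit 6242920342) (nat_lit 1176) (nat_lit 6947171316) (nat_lit 115) (nat_lit 5) (nat_lit 128) (nat_lit 5) (nat_lit 129) (nat_lit 5) (nat_lit 337) (nat_lit 333) (nat_lit 194)) (XT.lf (nat_lit 84) (nat_lit 614663356) (nat_lit 0) (nat_lit 4189479895) (nat_lit 1176) (nat_lit 12992817547) (nat_lit 116) (nat_lit 5) (nat_lit 115) (nat_lit 5) (nat_lit 129) (nat_lit 5) (nat_lit 338) (nat_lit 333) (nat_lit 193))) (XT.nd (nat_lit 94) (nat_lit 0) (nat_lit 0) (XT.lf (nat_lit 0) (nat_lit 5373050204) (nat_lit 1092) (nat_lit 10290570703) (nat_lit 1176) (nat_lit 2414351903) (nat_lit 116) (nat_lit 5) (nat_lit 129) (nat_lit 5) (nat_lit 130) (nat_lit 5) (nat_lit 339) (nat_lit 333) (nat_lit 192)) (XT.nd (nat_lit 94) (nat_lit 0) (nat_lit 0) (XT.lf (nat_lit 0) (nat_lit 5995085567) (nat_lit 1092) (nat_lit 3232772931) (nat_lit 1176) (nat_lit 9138765015) (nat_lit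 116) (nat_lit 5) (nat_lit 129) (nat_lit 5) (nat_lit 130) (nat_lit 5) (nat_lit 340) (nat_lit 333) (nat_lit 191)) (XT.lf (nat_lit 84) (nat_lit 4122289587) (nat_lit 0) (nat_lit 2547873017) (nat_lit 1176) (nat_lit 11993040014) (nat_lit 117) (nat_lit 5) (nat_lit 116) (nat_lit 5) (nat_lit 130) (nat_lit 5) (nat_lit 341) (nat_lit 333) (nat_lit 190))))) (XT.nd (nat_lit 282) (nat_lit 0) (nat_lit 84) (XT.nd (nat_lit 94) (nat_lit 0) (nat_lit 0) (XT.lf (nat_lit 0) (nat_lit 7436359595) (nat_lit 1092) (nat_lit 7242229461) (nat_lit 1176) (nat_lit 4288236599) (nat_lit 117) (nat_lit 5) (nat_lit 130) (nat_lit 5) (nat_lit 131) (nat_lit 5) (nat_lit 342) (nat_lit 333) (nat_lit 189)) (XT.nd (nat_lit 94) (nat_lit 0) (nat_lit 0) (XT.lf (nat_lit 84) (nat_lit 257178984) (nat_lit 0) (nat_lit 7991007019) (nat_lit 1176) (nat_lit 11031021967) (nat_lit 118) (nat_lit 5) (nat_lit 117) (nat_lit 5) (nat_lit 131) (nat_lit 5)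 (nat_lit 343) (nat_lit 333) (nat_lit 188)) (XT.lf (nat_lit 84) (nat_lit 8137990547) (nat_lit 0) (nat_lit 1016206529) (nat_lit 1176) (nat_lit 10444961911) (nat_lit 118) (nat_lit 5) (nat_lit 117) (nat_lit 5) (nat_lit 131) (nat_lit 5) (nat_lit 344) (nat_lit 333) (nat_lit 187)))) (XT.nd (nat_lit 94) (nat_lit 0) (nat_lit 0) (XT.lf (nat_lit 0) (nat_lit 10143190066) (nat_lit 1092) (nat_lit 3731887832) (nat_lit 1176) (nat_lit 6052272499) (nat_lit 118) (nat_lit 5) (nat_lit 131) (nat_lit 5) (nat_lit 132) (nat_lit 5) (nat_lit 345) (nat_lit 333) (nat_lit 186)) (XT.nd (nat_lit 94) (nat_lit 0) (nat_lit 84) (XT.lf (nat_lit 84) (nat_lit 4308850777) (nat_lit 0) (nat_lit 6900960673) (nat_lit 1176) (nat_lit 9054471195) (nat_lit 119) (nat_lit 5) (nat_lit 118) (nat_lit 5) (nat_lit 132) (nat_lit 5) (nat_lit 346) (nat_lit 333) (nat_lit 185)) (XT.lf (nat_lit 0) (nat_lit 12345707565) (nat_lit 1092) (nat_lit 7940502537)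 (nat_lit 1176) (nat_lit 324349470) (nat_lit 119) (nat_lit 5) (nat_lit 132) (nat_lit 5) (nat_lit 133) (nat_lit 5) (nat_lit 347) (nat_lit 333) (nat_lit 184)))))) (XT.nd (nat_lit 470) (nat_lit 1680) (nat_lit 0) (XT.nd (nat_lit 188) (nat_lit 1008) (nat_lit 0) (XT.nd (nat_lit 94) (nat_lit 0) (nat_lit 0) (XT.lf (nat_lit 84) (nat_lit 252797255) (nat_lit 0) (nat_lit 13331275744) (nat_lit 1176) (nat_lit 7381434732) (nat_lit 120) (nat_lit 5) (nat_lit 119) (nat_lit 5) (nat_lit 133) (nat_lit 5) (nat_lit 348) (nat_lit 333) (nat_lit 183)) (XT.lf (nat_lit 84) (nat_lit 8863865391) (nat_lit 0) (nat_lit 6074143232) (nat_lit 1176) (nat_lit 6391079008) (nat_lit 120) (nat_lit 5) (nat_lit 119) (nat_lit 5) (nat_lit 133) (nat_lit 5) (nat_lit 349) (nat_lit 333) (nat_lit 182))) (XT.nd (nat_lit 94) (nat_lit 1092) (nat_lit 0) (XT.lf (nat_lit 0) (nat_lit 16342364130) (nat_lit 1092) (nat_lit 3980653141) (nat_lit 84)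 (nat_lit 1380679675) (nat_lit 120) (nat_lit 5) (nat_lit 133) (nat_lit 5) (nat_lit 121) (nat_lit 5) (nat_lit 350) (nat_lit 333) (nat_lit 181)) (XT.nd (nat_lit 94) (nat_lit 0) (nat_lit 0) (XT.lf (nat_lit 0) (nat_lit 4796976700) (nat_lit 1092) (nat_lit 13097635446) (nat_lit 1176) (nat_lit 4192091632) (nat_lit 107) (nat_lit 5) (nat_lit 120) (nat_lit 5) (nat_lit 121) (nat_lit 5) (nat_lit 351) (nat_lit 333) (nat_lit 180)) (XT.lf (nat_lit 0) (nat_lit 13926661136) (nat_lit 1092) (nat_lit 5604632180) (nat_lit 1176) (nat_lit 2949183909) (nat_lit 107) (nat_lit 5) (nat_lit 120) (nat_lit 5) (nat_lit 121) (nat_lit 5) (nat_lit 352) (nat_lit 333) (nat_lit 179))))) (XT.nd (nat_lit 282) (nat_lit 1092) (nat_lit 0) (XT.nd (nat_lit 94) (nat_lit 84) (nat_lit 0) (XT.lf (nat_lit 0) (nat_lit 436168970) (nat_lit 504) (nat_lit 20802835357) (nat_lit 588) (nat_lit 1646842790) (nat_lit 101) (nat_lit 5) (nat_lit 107)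 (nat_lit 5) (nat_lit 108) (nat_lit 5) (nat_lit 353) (nat_lit 333) (nat_lit 178)) (XT.nd (nat_lit 94) (nat_lit 84) (nat_lit 0) (XT.lf (nat_lit 0) (nat_lit 9823234713) (nat_lit 504) (nat_lit 13317482948) (nat_lit 588) (nat_lit 158710840) (nat_lit 101) (nat_lit 5) (nat_lit 107) (nat_lit 5) (nat_lit 108) (nat_lit 5) (nat_lit 354) (nat_lit 333) (nat_lit 177)) (XT.lf (nat_lit 0) (nat_lit 1342958882) (nat_lit 588) (nat_lit 4242605097) (nat_lit 84) (nat_lit 18140012115) (nat_lit 100) (nat_lit 5) (nat_lit 107) (nat_lit 5) (nat_lit 101) (nat_lit 5) (nat_lit 355) (nat_lit 333) (nat_lit 176)))) (XT.nd (nat_lit 94) (nat_lit 504) (nat_lit 0) (XT.lf (nat_lit 0) (nat_lit 2960754188) (nat_lit 672) (nat_lit 18807933730) (nat_lit 84) (nat_lit 2393953445) (nat_lit 93) (nat_lit 5) (nat_lit 101) (nat_lit 5) (nat_lit 94) (nat_lit 5) (nat_lit 356) (nat_lit 333) (nat_lit 175)) (XT.nd (nat_lit 94) (nat_lit 504) (nat_lit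 0) (XT.lf (nat_lit 0) (nat_lit 4725936023) (nat_lit 672) (nat_lit 9334399628) (nat_lit 84) (nat_lit 10549921644) (nat_lit 93) (nat_lit 5) (nat_lit 101) (nat_lit 5) (nat_lit 94) (nat_lit 5) (nat_lit 357) (nat_lit 333) (nat_lit 174)) (XT.lf (nat_lit 0) (nat_lit 437343536) (nat_lit 504) (nat_lit 6108343330) (nat_lit 588) (nat_lit 18526082595) (nat_lit 87) (nat_lit 5) (nat_lit 93) (nat_lit 5) (nat_lit 94) (nat_lit 5) (nat_lit 358) (nat_lit 333) (nat_lit 173))))))))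
noncomputable def xc111 : XT := (XT.nd (nat_lit 52546) (nat_lit 0) (nat_lit 1764) (XT.nd (nat_lit 940) (nat_lit 840) (nat_lit 0) (XT.nd (nat_lit 470) (nat_lit 924) (nat_lit 0) (XT.nd (nat_lit 188) (nat_lit 504) (nat_lit 0) (XT.nd (nat_lit 94) (nat_lit 0) (nat_lit 0) (XT.lf (nat_lit 0) (nat_lit 8536617531) (nat_lit 588) (nat_lit 14860795662) (nat_lit 84) (nat_lit 2146632493) (nat_lit 87) (nat_lit 5) (nat_lit 94) (nat_lit 5) (nat_lit 88) (nat_lit 5) (nat_lit 359) (nat_lit 333) (nat_lit 172)) (XT.lf (nat_lit 0) (nat_lit 10647477600) (nat_lit 588) (nat_lit 4850916302) (nat_lit 84) (nat_lit 10530778572) (nat_lit 87) (nat_lit 5) (nat_lit 94) (nat_lit 5) (nat_lit 88) (nat_lit 5) (nat_lit 360) (nat_lit 333) (nat_lit 171))) (XT.nd (nat_lit 94) (nat_lit 0) (nat_lit 0) (XT.lf (nat_lit 0) (nat_lit 5577512377) (nat_lit 504) (nat_lit 7297456328) (nat_lit 588) (nat_lit 13652796548) (nat_lit 81) (nat_lit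 5) (nat_lit 87) (nat_lit 5) (nat_lit 88) (nat_lit 5) (nat_lit 361) (nat_lit 333) (nat_lit 170)) (XT.nd (nat_lit 94) (nat_lit 0) (nat_lit 0) (XT.lf (nat_lit 0) (nat_lit 15230096299) (nat_lit 588) (nat_lit 10624416481) (nat_lit 84) (nat_lit 1185499184) (nat_lit 81) (nat_lit 5) (nat_lit 88) (nat_lit 5) (nat_lit 82) (nat_lit 5) (nat_lit 362) (nat_lit 333) (nat_lit 169)) (XT.lf (nat_lit 0) (nat_lit 17728938644) (nat_lit 588) (nat_lit 57216269) (nat_lit 84) (nat_lit 9779804783) (nat_lit 81) (nat_lit 5) (nat_lit 88) (nat_lit 5) (nat_lit 82) (nat_lit 5) (nat_lit 363) (nat_lit 333) (nat_lit 168))))) (XT.nd (nat_lit 188) (nat_lit 504) (nat_lit 0) (XT.nd (nat_lit 94) (nat_lit 0) (nat_lit 0) (XT.lf (nat_lit 0) (nat_lit 11056349977) (nat_lit 420) (nat_lit 9354763635) (nat_lit 504) (nat_lit 7693829128) (nat_lit 76) (nat_lit 5) (nat_lit 81) (nat_lit 5) (nat_lit 82) (nat_lit 5) (nat_lit 364) (nat_lit 333)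 (nat_lit 167)) (XT.lf (nat_lit 0) (nat_lit 22511712021) (nat_lit 420) (nat_lit 661584907) (nat_lit 504) (nat_lit 5487447111) (nat_lit 76) (nat_lit 5) (nat_lit 81) (nat_lit 5) (nat_lit 82) (nat_lit 5) (nat_lit 365) (nat_lit 333) (nat_lit 166))) (XT.nd (nat_lit 94) (nat_lit 84) (nat_lit 0) (XT.lf (nat_lit 0) (nat_lit 5104979493) (nat_lit 420) (nat_lit 21045492335) (nat_lit 504) (nat_lit 3079305165) (nat_lit 71) (nat_lit 5) (nat_lit 76) (nat_lit 5) (nat_lit 77) (nat_lit 5) (nat_lit 366) (nat_lit 333) (nat_lit 165)) (XT.nd (nat_lit 94) (nat_lit 84) (nat_lit 0) (XT.lf (nat_lit 0) (nat_lit 16827414118) (nat_lit 420) (nat_lit 12459850691) (nat_lit 504) (nat_lit 527109794) (nat_lit 71) (nat_lit 5) (nat_lit 76) (nat_lit 5) (nat_lit 77) (nat_lit 5) (nat_lit 367) (nat_lit 333) (nat_lit 164)) (XT.lf (nat_lit 0) (nat_lit 2058313530) (nat_lit 504) (nat_lit 1528591967) (nat_lit 84) (nat_lit 26829661532)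 (nat_lit 70) (nat_lit 5) (nat_lit 76) (nat_lit 5) (nat_lit 71) (nat_lit 5) (nat_lit 368) (nat_lit 333) (nat_lit 163)))))) (XT.nd (nat_lit 51042) (nat_lit 0) (nat_lit 4536) (XT.nd (nat_lit 188) (nat_lit 420) (nat_lit 0) (XT.nd (nat_lit 94) (nat_lit 0) (nat_lit 0) (XT.lf (nat_lit 0) (nat_lit 4869861742) (nat_lit 504) (nat_lit 20603297326) (nat_lit 84) (nat_lit 5559247224) (nat_lit 65) (nat_lit 5) (nat_lit 71) (nat_lit 5) (nat_lit 66) (nat_lit 5) (nat_lit 369) (nat_lit 333) (nat_lit 162)) (XT.lf (nat_lit 0) (nat_lit 7818043349) (nat_lit 504) (nat_lit 8917609593) (nat_lit 84) (nat_lit 14930160276) (nat_lit 65) (nat_lit 5) (nat_lit 71) (nat_lit 5) (nat_lit 66) (nat_lit 5) (nat_lit 370) (nat_lit 333) (nat_lit 161))) (XT.nd (nat_lit 94) (nat_lit 0) (nat_lit 0) (XT.lf (nat_lit 0) (nat_lit 3190916436) (nat_lit 420) (nat_lit 7695127768) (nat_lit 504) (nat_lit 21431940431) (nat_lit 60) (nat_lit 5)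 (nat_lit 65) (nat_lit 5) (nat_lit 66) (nat_lit 5) (nat_lit 371) (nat_lit 333) (nat_lit 160)) (XT.nd (nat_lit 50666) (nat_lit 0) (nat_lit 4536) (XT.lf (nat_lit 0) (nat_lit 14156140350) (nat_lit 504) (nat_lit 17144484447) (nat_lit 84) (nat_lit 1686441730) (nat_lit 60) (nat_lit 5) (nat_lit 66) (nat_lit 5) (nat_lit 61) (nat_lit 5) (nat_lit 372) (nat_lit 333) (nat_lit 159)) (XT.lf (nat_lit 0) (nat_lit 846015867) (nat_lit 0) (nat_lit 846015867) (nat_lit 1092) (nat_lit 6802993989) (nat_lit 114) (nat_lit 5) (nat_lit 114) (nat_lit 3) (nat_lit 127) (nat_lit 3) (nat_lit 334) (nat_lit 334) (nat_lit 196))))) (XT.nd (nat_lit 282) (nat_lit 0) (nat_lit 84) (XT.nd (nat_lit 94) (nat_lit 0) (nat_lit 0) (XT.lf (nat_lit 0) (nat_lit 3684734432) (nat_lit 1092) (nat_lit 8842710156) (nat_lit 1176) (nat_lit 4717507857) (nat_lit 114) (nat_lit 5) (nat_lit 127) (nat_lit 3) (nat_lit 128) (nat_lit 5) (nat_lit 335) (nat_lit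 334) (nat_lit 195)) (XT.nd (nat_lit 94) (nat_lit 0) (nat_lit 84) (XT.lf (nat_lit 0) (nat_lit 4003994220) (nat_lit 1092) (nat_lit 2208950968) (nat_lit 1176) (nat_lit 11294553097) (nat_lit 114) (nat_lit 5) (nat_lit 127) (nat_lit 3) (nat_lit 128) (nat_lit 5) (nat_lit 336) (nat_lit 334) (nat_lit 194)) (XT.lf (nat_lit 0) (nat_lit 4375655348) (nat_lit 1092) (nat_lit 13059114739) (nat_lit 1176) (nat_lit 342124644) (nat_lit 115) (nat_lit 5) (nat_lit 128) (nat_lit 5) (nat_lit 129) (nat_lit 5) (nat_lit 337) (nat_lit 334) (nat_lit 193)))) (XT.nd (nat_lit 94) (nat_lit 0) (nat_lit 0) (XT.lf (nat_lit 0) (nat_lit 4838105496) (nat_lit 1092) (nat_lit 6216122718) (nat_lit 1176) (nat_lit 6997985390) (nat_lit 115) (nat_lit 5) (nat_lit 128) (nat_lit 5) (nat_lit 129) (nat_lit 5) (nat_lit 338) (nat_lit 334) (nat_lit 192)) (XT.nd (nat_lit 94) (nat_lit 0) (nat_lit 84) (XT.lf (nat_lit 84) (nat_lit 851815450) (nat_lit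 0) (nat_lit 4464184824) (nat_lit 1176) (nat_lit 13020060298) (nat_lit 116) (nat_lit 5) (nat_lit 115) (nat_lit 5) (nat_lit 129) (nat_lit 5) (nat_lit 339) (nat_lit 334) (nat_lit 191)) (XT.lf (nat_lit 0) (nat_lit 5890237302) (nat_lit 1092) (nat_lit 10384418083) (nat_lit 1176) (nat_lit 2351550808) (nat_lit 116) (nat_lit 5) (nat_lit 129) (nat_lit 5) (nat_lit 130) (nat_lit 5) (nat_lit 340) (nat_lit 334) (nat_lit 190))))))) (XT.nd (nat_lit 1034) (nat_lit 2940) (nat_lit 0) (XT.nd (nat_lit 470) (nat_lit 0) (nat_lit 168) (XT.nd (nat_lit 188) (nat_lit 0) (nat_lit 84) (XT.nd (nat_lit 94) (nat_lit 0) (nat_lit 0) (XT.lf (nat_lit 0) (nat_lit 6521013279) (nat_lit 1092) (nat_lit 3114598676) (nat_lit 1176) (nat_lit 9288559452) (nat_lit 116) (nat_lit 5) (nat_lit 129) (nat_lit 5) (nat_lit 130) (nat_lit 5) (nat_lit 341) (nat_lit 334) (nat_lit 189)) (XT.lf (nat_lit 84) (nat_lit 4466259776) (nat_lit 0) (nat_lit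 2742676963) (nat_lit 1176) (nat_lit 12021296573) (nat_lit 117) (nat_lit 5) (nat_lit 116) (nat_lit 5) (nat_lit 130) (nat_lit 5) (nat_lit 342) (nat_lit 334) (nat_lit 188))) (XT.nd (nat_lit 94) (nat_lit 0) (nat_lit 0) (XT.lf (nat_lit 0) (nat_lit 7987788920) (nat_lit 1092) (nat_lit 7244763067) (nat_lit 1176) (nat_lit 4311097860) (nat_lit 117) (nat_lit 5) (nat_lit 130) (nat_lit 5) (nat_lit 131) (nat_lit 5) (nat_lit 343) (nat_lit 334) (nat_lit 187)) (XT.nd (nat_lit 94) (nat_lit 0) (nat_lit 0) (XT.lf (nat_lit 84) (nat_lit 484879736) (nat_lit 0) (nat_lit 8332433088) (nat_lit 1176) (nat_lit 11048670798) (nat_lit 118) (nat_lit 5) (nat_lit 117) (nat_lit 5) (nat_lit 131) (nat_lit 5) (nat_lit 344) (nat_lit 334) (nat_lit 186)) (XT.lf (nat_lit 84) (nat_lit 8603389693) (nat_lit 0) (nat_lit 1138596276) (nat_lit 1176) (nat_lit 10454194285) (nat_lit 118) (nat_lit 5) (nat_lit 117) (nat_lit 5) (nat_lit 131)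 (nat_lit 5) (nat_lit 345) (nat_lit 334) (nat_lit 185))))) (XT.nd (nat_lit 282) (nat_lit 0) (nat_lit 84) (XT.nd (nat_lit 94) (nat_lit 0) (nat_lit 0) (XT.lf (nat_lit 0) (nat_lit 10751622333) (nat_lit 1092) (nat_lit 3629753159) (nat_lit 1176) (nat_lit 6153514511) (nat_lit 118) (nat_lit 5) (nat_lit 131) (nat_lit 5) (nat_lit 132) (nat_lit 5) (nat_lit 346) (nat_lit 334) (nat_lit 184)) (XT.nd (nat_lit 94) (nat_lit 0) (nat_lit 84) (XT.lf (nat_lit 84) (nat_lit 4658043084) (nat_lit 0) (nat_lit 7186565091) (nat_lit 1176) (nat_lit 9037899609) (nat_lit 119) (nat_lit 5) (nat_lit 118) (nat_lit 5) (nat_lit 132) (nat_lit 5) (nat_lit 347) (nat_lit 334) (nat_lit 183)) (XT.lf (nat_lit 0) (nat_lit 13006389143) (nat_lit 1092) (nat_lit 7967165801) (nat_lit 1176) (nat_lit 266285435) (nat_lit 119) (nat_lit 5) (nat_lit 132) (nat_lit 5) (nat_lit 133) (nat_lit 5) (nat_lit 348) (nat_lit 334) (nat_lit 182)))) (XT.nd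 (nat_lit 94) (nat_lit 0) (nat_lit 0) (XT.lf (nat_lit 84) (nat_lit 477904122) (nat_lit 0) (nat_lit 13799037319) (nat_lit 1176) (nat_lit 7329073726) (nat_lit 120) (nat_lit 5) (nat_lit 119) (nat_lit 5) (nat_lit 133) (nat_lit 5) (nat_lit 349) (nat_lit 334) (nat_lit 181)) (XT.nd (nat_lit 94) (nat_lit 0) (nat_lit 84) (XT.lf (nat_lit 84) (nat_lit 9349382514) (nat_lit 0) (nat_lit 6315295239) (nat_lit 1176) (nat_lit 6316471630) (nat_lit 120) (nat_lit 5) (nat_lit 119) (nat_lit 5) (nat_lit 133) (nat_lit 5) (nat_lit 350) (nat_lit 334) (nat_lit 180)) (XT.lf (nat_lit 0) (nat_lit 17104134109) (nat_lit 1092) (nat_lit 3890278825) (nat_lit 84) (nat_lit 1373249236) (nat_lit 120) (nat_lit 5) (nat_lit 133) (nat_lit 5) (nat_lit 121) (nat_lit 5) (nat_lit 351) (nat_lit 334) (nat_lit 179)))))) (XT.nd (nat_lit 470) (nat_lit 1596) (nat_lit 0) (XT.nd (nat_lit 188) (nat_lit 588) (nat_lit 0) (XT.nd (nat_lit 94) (nat_lit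 0) (nat_lit 0) (XT.lf (nat_lit 0) (nat_lit 5157293265) (nat_lit 1092) (nat_lit 13541635724) (nat_lit 1176) (nat_lit 4063814233) (nat_lit 107) (nat_lit 5) (nat_lit 120) (nat_lit 5) (nat_lit 121) (nat_lit 5) (nat_lit 352) (nat_lit 334) (nat_lit 178)) (XT.lf (nat_lit 0) (nat_lit 14563635242) (nat_lit 1092) (nat_lit 5815207571) (nat_lit 1176) (nat_lit 2790140870) (nat_lit 107) (nat_lit 5) (nat_lit 120) (nat_lit 5) (nat_lit 121) (nat_lit 5) (nat_lit 353) (nat_lit 334) (nat_lit 177))) (XT.nd (nat_lit 94) (nat_lit 84) (nat_lit 0) (XT.lf (nat_lit 0) (nat_lit 661524959) (nat_lit 504) (nat_lit 21472436126) (nat_lit 588) (nat_lit 1453157019) (nat_lit 101) (nat_lit 5) (nat_lit 107) (nat_lit 5) (nat_lit 108) (nat_lit 5) (nat_lit 354) (nat_lit 334) (nat_lit 176)) (XT.nd (nat_lit 94) (nat_lit 0) (nat_lit 0) (XT.lf (nat_lit 0) (nat_lit 72262404) (nat_lit 588) (nat_lit 13681278052) (nat_lit 84) (nat_lit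 10260203640) (nat_lit 100) (nat_lit 5) (nat_lit 107) (nat_lit 5) (nat_lit 101) (nat_lit 5) (nat_lit 355) (nat_lit 334) (nat_lit 175)) (XT.lf (nat_lit 0) (nat_lit 1610193404) (nat_lit 588) (nat_lit 4169417315) (nat_lit 84) (nat_lit 18673682279) (nat_lit 100) (nat_lit 5) (nat_lit 107) (nat_lit 5) (nat_lit 101) (nat_lit 5) (nat_lit 356) (nat_lit 334) (nat_lit 174))))) (XT.nd (nat_lit 282) (nat_lit 504) (nat_lit 0) (XT.nd (nat_lit 94) (nat_lit 504) (nat_lit 0) (XT.lf (nat_lit 0) (nat_lit 3273186656) (nat_lit 672) (nat_lit 19180558681) (nat_lit 84) (nat_lit 2450339041) (nat_lit 93) (nat_lit 5) (nat_lit 101) (nat_lit 5) (nat_lit 94) (nat_lit 5) (nat_lit 357) (nat_lit 334) (nat_lit 173)) (XT.nd (nat_lit 94) (nat_lit 504) (nat_lit 0) (XT.lf (nat_lit 0) (nat_lit 5086454674) (nat_lit 672) (nat_lit 9419671938) (nat_lit 84) (nat_lit 10859678273) (nat_lit 93) (nat_lit 5) (nat_lit 101) (nat_lit 5) (nat_lit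 94) (nat_lit 5) (nat_lit 358) (nat_lit 334) (nat_lit 172)) (XT.lf (nat_lit 0) (nat_lit 652928994) (nat_lit 504) (nat_lit 6305257970) (nat_lit 588) (nat_lit 18883596447) (nat_lit 87) (nat_lit 5) (nat_lit 93) (nat_lit 5) (nat_lit 94) (nat_lit 5) (nat_lit 359) (nat_lit 334) (nat_lit 171)))) (XT.nd (nat_lit 94) (nat_lit 504) (nat_lit 0) (XT.lf (nat_lit 0) (nat_lit 9004462034) (nat_lit 588) (nat_lit 15118460281) (nat_lit 84) (nat_lit 2205996955) (nat_lit 87) (nat_lit 5) (nat_lit 94) (nat_lit 5) (nat_lit 88) (nat_lit 5) (nat_lit 360) (nat_lit 334) (nat_lit 170)) (XT.nd (nat_lit 94) (nat_lit 504) (nat_lit 0) (XT.lf (nat_lit 0) (nat_lit 11174648687) (nat_lit 588) (nat_lit 4804379046) (nat_lit 84) (nat_lit 10850267484) (nat_lit 87) (nat_lit 5) (nat_lit 94) (nat_lit 5) (nat_lit 88) (nat_lit 5) (nat_lit 361) (nat_lit 334) (nat_lit 169)) (XT.lf (nat_lit 0) (nat_lit 5945337327) (nat_lit 504) (nat_lit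 7521861980) (nat_lit 588) (nat_lit 13876289033) (nat_lit 81) (nat_lit 5) (nat_lit 87) (nat_lit 5) (nat_lit 88) (nat_lit 5) (nat_lit 362) (nat_lit 334) (nat_lit 168))))))))
noncomputable def xc112 : XT := (XT.nd (nat_lit 52640) (nat_lit 0) (nat_lit 1344) (XT.nd (nat_lit 51606) (nat_lit 0) (nat_lit 4536) (XT.nd (nat_lit 470) (nat_lit 924) (nat_lit 0) (XT.nd (nat_lit 188) (nat_lit 420) (nat_lit 0) (XT.nd (nat_lit 94) (nat_lit 420) (nat_lit 0) (XT.lf (nat_lit 0) (nat_lit 15889547016) (nat_lit 588) (nat_lit 10758291633) (nat_lit 84) (nat_lit 1223975087) (nat_lit 81) (nat_lit 5) (nat_lit 88) (nat_lit 5) (nat_lit 82) (nat_lit 5) (nat_lit 363) (nat_lit 334) (nat_lit 167)) (XT.lf (nat_lit 0) (nat_lit 133299752) (nat_lit 420) (nat_lit 18328243821) (nat_lit 504) (nat_lit 9952674877) (nat_lit 76) (nat_lit 5) (nat_lit 81) (nat_lit 5) (nat_lit 82) (nat_lit 5) (nat_lit 364) (nat_lit 334) (nat_lit 166)))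 (XT.nd (nat_lit 94) (nat_lit 420) (nat_lit 0) (XT.lf (nat_lit 0) (nat_lit 11586781289) (nat_lit 420) (nat_lit 9635161280) (nat_lit 504) (nat_lit 7748138449) (nat_lit 76) (nat_lit 5) (nat_lit 81) (nat_lit 5) (nat_lit 82) (nat_lit 5) (nat_lit 365) (nat_lit 334) (nat_lit 165)) (XT.nd (nat_lit 94) (nat_lit 420) (nat_lit 0) (XT.lf (nat_lit 0) (nat_lit 23391616280) (nat_lit 420) (nat_lit 672782663) (nat_lit 504) (nat_lit 5478897077) (nat_lit 76) (nat_lit 5) (nat_lit 81) (nat_lit 5) (nat_lit 82) (nat_lit 5) (nat_lit 366) (nat_lit 334) (nat_lit 164)) (XT.lf (nat_lit 0) (nat_lit 5449211642) (nat_lit 420) (nat_lit 21681395517) (nat_lit 504) (nat_lit 2999480202) (nat_lit 71) (nat_lit 5) (nat_lit 76) (nat_lit 5) (nat_lit 77) (nat_lit 5) (nat_lit 367) (nat_lit 334) (nat_lit 163))))) (XT.nd (nat_lit 188) (nat_lit 840) (nat_lit 0) (XT.nd (nat_lit 94) (nat_lit 84) (nat_lit 0) (XT.lf (nat_lit 0) (nat_lit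 17529449780) (nat_lit 420) (nat_lit 12830095315) (nat_lit 504) (nat_lit 373437178) (nat_lit 71) (nat_lit 5) (nat_lit 76) (nat_lit 5) (nat_lit 77) (nat_lit 5) (nat_lit 368) (nat_lit 334) (nat_lit 162)) (XT.lf (nat_lit 0) (nat_lit 2283699945) (nat_lit 504) (nat_lit 1397183734) (nat_lit 84) (nat_lit 27673077796) (nat_lit 70) (nat_lit 5) (nat_lit 76) (nat_lit 5) (nat_lit 71) (nat_lit 5) (nat_lit 369) (nat_lit 334) (nat_lit 161))) (XT.nd (nat_lit 94) (nat_lit 420) (nat_lit 0) (XT.lf (nat_lit 0) (nat_lit 5179487134) (nat_lit 504) (nat_lit 21059791090) (nat_lit 84) (nat_lit 5749719362) (nat_lit 65) (nat_lit 5) (nat_lit 71) (nat_lit 5) (nat_lit 66) (nat_lit 5) (nat_lit 370) (nat_lit 334) (nat_lit 160)) (XT.nd (nat_lit 94) (nat_lit 420) (nat_lit 0) (XT.lf (nat_lit 0) (nat_lit 8214291808) (nat_lit 504) (nat_lit 9017325662) (nat_lit 84) (nat_lit 15410585423) (nat_lit 65) (nat_lit 5) (nat_lit 71) (nat_lit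 5) (nat_lit 66) (nat_lit 5) (nat_lit 371) (nat_lit 334) (nat_lit 159)) (XT.lf (nat_lit 0) (nat_lit 3464775444) (nat_lit 420) (nat_lit 7909733556) (nat_lit 504) (nat_lit 21940186697) (nat_lit 60) (nat_lit 5) (nat_lit 65) (nat_lit 5) (nat_lit 66) (nat_lit 5) (nat_lit 372) (nat_lit 334) (nat_lit 158)))))) (XT.nd (nat_lit 470) (nat_lit 0) (nat_lit 84) (XT.nd (nat_lit 188) (nat_lit 0) (nat_lit 0) (XT.nd (nat_lit 94) (nat_lit 0) (nat_lit 0) (XT.lf (nat_lit 0) (nat_lit 971476801) (nat_lit 0) (nat_lit 971476801) (nat_lit 1092) (nat_lit 6808522779) (nat_lit 114) (nat_lit 5) (nat_lit 114) (nat_lit 3) (nat_lit 127) (nat_lit 3) (nat_lit 335) (nat_lit 335) (nat_lit 194)) (XT.lf (nat_lit 0) (nat_lit 4182054247) (nat_lit 1092) (nat_lit 8909047557) (nat_lit 1176) (nat_lit 4675127731) (nat_lit 114) (nat_lit 5) (nat_lit 127) (nat_lit 3) (nat_lit 128) (nat_lit 5) (nat_lit 336) (nat_lit 335) (nat_lit 193)))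 (XT.nd (nat_lit 94) (nat_lit 0) (nat_lit 84) (XT.lf (nat_lit 0) (nat_lit 4499692288) (nat_lit 1092) (nat_lit 2075889541) (nat_lit 1176) (nat_lit 11461732866) (nat_lit 114) (nat_lit 5) (nat_lit 127) (nat_lit 3) (nat_lit 128) (nat_lit 5) (nat_lit 337) (nat_lit 335) (nat_lit 192)) (XT.nd (nat_lit 94) (nat_lit 0) (nat_lit 0) (XT.lf (nat_lit 0) (nat_lit 4872065692) (nat_lit 1092) (nat_lit 13250243945) (nat_lit 1176) (nat_lit 193129890) (nat_lit 115) (nat_lit 5) (nat_lit 128) (nat_lit 5) (nat_lit 129) (nat_lit 5) (nat_lit 338) (nat_lit 335) (nat_lit 191)) (XT.lf (nat_lit 0) (nat_lit 5338004350) (nat_lit 1092) (nat_lit 6201544782) (nat_lit 1176) (nat_lit 7060121174) (nat_lit 115) (nat_lit 5) (nat_lit 128) (nat_lit 5) (nat_lit 129) (nat_lit 5) (nat_lit 339) (nat_lit 335) (nat_lit 190))))) (XT.nd (nat_lit 282) (nat_lit 0) (nat_lit 84) (XT.nd (nat_lit 94) (nat_lit 0) (nat_lit 84) (XT.lf (nat_lit 84)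 (nat_lit 1083400969) (nat_lit 0) (nat_lit 4738827015) (nat_lit 1176) (nat_lit 13070391132) (nat_lit 116) (nat_lit 5) (nat_lit 115) (nat_lit 5) (nat_lit 129) (nat_lit 5) (nat_lit 340) (nat_lit 335) (nat_lit 189)) (XT.nd (nat_lit 94) (nat_lit 0) (nat_lit 0) (XT.lf (nat_lit 0) (nat_lit 6402689227) (nat_lit 1092) (nat_lit 10494511362) (nat_lit 1176) (nat_lit 2294955888) (nat_lit 116) (nat_lit 5) (nat_lit 129) (nat_lit 5) (nat_lit 130) (nat_lit 5) (nat_lit 341) (nat_lit 335) (nat_lit 188)) (XT.lf (nat_lit 0) (nat_lit 7043101226) (nat_lit 1092) (nat_lit 3005696646) (nat_lit 1176) (nat_lit 9450905382) (nat_lit 116) (nat_lit 5) (nat_lit 129) (nat_lit 5) (nat_lit 130) (nat_lit 5) (nat_lit 342) (nat_lit 335) (nat_lit 187)))) (XT.nd (nat_lit 94) (nat_lit 0) (nat_lit 84) (XT.lf (nat_lit 84) (nat_lit 4808088375) (nat_lit 0) (nat_lit 2936659620) (nat_lit 1176) (nat_lit 12070776818) (nat_lit 117) (nat_lit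 5) (nat_lit 116) (nat_lit 5) (nat_lit 130) (nat_lit 5) (nat_lit 343) (nat_lit 335) (nat_lit 186)) (XT.nd (nat_lit 94) (nat_lit 0) (nat_lit 0) (XT.lf (nat_lit 0) (nat_lit 8537304968) (nat_lit 1092) (nat_lit 7260523205) (nat_lit 1176) (nat_lit 4341187697) (nat_lit 117) (nat_lit 5) (nat_lit 130) (nat_lit 5) (nat_lit 131) (nat_lit 5) (nat_lit 344) (nat_lit 335) (nat_lit 185)) (XT.lf (nat_lit 84) (nat_lit 706624335) (nat_lit 0) (nat_lit 8678893067) (nat_lit 1176) (nat_lit 11086076348) (nat_lit 118) (nat_lit 5) (nat_lit 117) (nat_lit 5) (nat_lit 131) (nat_lit 5) (nat_lit 345) (nat_lit 335) (nat_lit 184))))))) (XT.nd (nat_lit 940) (nat_lit 2100) (nat_lit 0) (XT.nd (nat_lit 470) (nat_lit 1344) (nat_lit 0) (XT.nd (nat_lit 188) (nat_lit 0) (nat_lit 84) (XT.nd (nat_lit 94) (nat_lit 0) (nat_lit 84) (XT.lf (nat_lit 84) (nat_lit 9070592665) (nat_lit 0) (nat_lit 1259396691) (nat_lit 1176) (nat_lit 10482344875)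 (nat_lit 118) (nat_lit 5) (nat_lit 117) (nat_lit 5) (nat_lit 131) (nat_lit 5) (nat_lit 346) (nat_lit 335) (nat_lit 183)) (XT.lf (nat_lit 0) (nat_lit 11361502269) (nat_lit 1092) (nat_lit 3537354351) (nat_lit 1176) (nat_lit 6263011369) (nat_lit 118) (nat_lit 5) (nat_lit 131) (nat_lit 5) (nat_lit 132) (nat_lit 5) (nat_lit 347) (nat_lit 335) (nat_lit 182))) (XT.nd (nat_lit 94) (nat_lit 0) (nat_lit 84) (XT.lf (nat_lit 84) (nat_lit 5005288932) (nat_lit 0) (nat_lit 7476777835) (nat_lit 1176) (nat_lit 9038421534) (nat_lit 119) (nat_lit 5) (nat_lit 118) (nat_lit 5) (nat_lit 132) (nat_lit 5) (nat_lit 348) (nat_lit 335) (nat_lit 181)) (XT.nd (nat_lit 94) (nat_lit 0) (nat_lit 0) (XT.lf (nat_lit 0) (nat_lit 13671087529) (nat_lit 1092) (nat_lit 8007656532) (nat_lit 1176) (nat_lit 210456212) (nat_lit 119) (nat_lit 5) (nat_lit 132) (nat_lit 5) (nat_lit 133) (nat_lit 5) (nat_lit 349) (nat_lit 335) (nat_lit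 180)) (XT.lf (nat_lit 84) (nat_lit 697120019) (nat_lit 0) (nat_lit 14278071847) (nat_lit 1176) (nat_lit 7291744626) (nat_lit 120) (nat_lit 5) (nat_lit 119) (nat_lit 5) (nat_lit 133) (nat_lit 5) (nat_lit 350) (nat_lit 335) (nat_lit 179))))) (XT.nd (nat_lit 188) (nat_lit 1512) (nat_lit 0) (XT.nd (nat_lit 94) (nat_lit 0) (nat_lit 84) (XT.lf (nat_lit 84) (nat_lit 9837468337) (nat_lit 0) (nat_lit 6560792351) (nat_lit 1176) (nat_lit 6255705737) (nat_lit 120) (nat_lit 5) (nat_lit 119) (nat_lit 5) (nat_lit 133) (nat_lit 5) (nat_lit 351) (nat_lit 335) (nat_lit 178)) (XT.lf (nat_lit 0) (nat_lit 17874405590) (nat_lit 1092) (nat_lit 3809765139) (nat_lit 84) (nat_lit 1368563753) (nat_lit 120) (nat_lit 5) (nat_lit 133) (nat_lit 5) (nat_lit 121) (nat_lit 5) (nat_lit 352) (nat_lit 335) (nat_lit 177))) (XT.nd (nat_lit 94) (nat_lit 504) (nat_lit 0) (XT.lf (nat_lit 0) (nat_lit 5516245604) (nat_lit 1092) (nat_lit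 13997150771) (nat_lit 1176) (nat_lit 3946855772) (nat_lit 107) (nat_lit 5) (nat_lit 120) (nat_lit 5) (nat_lit 121) (nat_lit 5) (nat_lit 353) (nat_lit 335) (nat_lit 176)) (XT.nd (nat_lit 94) (nat_lit 504) (nat_lit 0) (XT.lf (nat_lit 0) (nat_lit 15208198379) (nat_lit 1092) (nat_lit 6030129189) (nat_lit 1176) (nat_lit 2641003130) (nat_lit 107) (nat_lit 5) (nat_lit 120) (nat_lit 5) (nat_lit 121) (nat_lit 5) (nat_lit 354) (nat_lit 335) (nat_lit 175)) (XT.lf (nat_lit 0) (nat_lit 881319649) (nat_lit 504) (nat_lit 22161330734) (nat_lit 588) (nat_lit 1267963234) (nat_lit 101) (nat_lit 5) (nat_lit 107) (nat_lit 5) (nat_lit 108) (nat_lit 5) (nat_lit 355) (nat_lit 335) (nat_lit 174)))))) (XT.nd (nat_lit 470) (nat_lit 924) (nat_lit 0) (XT.nd (nat_lit 188) (nat_lit 1092) (nat_lit 0) (XT.nd (nat_lit 94) (nat_lit 0) (nat_lit 0) (XT.lf (nat_lit 0) (nat_lit 293321934) (nat_lit 588) (nat_lit 13906844287) (nat_lit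 84) (nat_lit 10550461795) (nat_lit 100) (nat_lit 5) (nat_lit 107) (nat_lit 5) (nat_lit 101) (nat_lit 5) (nat_lit 356) (nat_lit 335) (nat_lit 173)) (XT.lf (nat_lit 0) (nat_lit 1872349356) (nat_lit 588) (nat_lit 4106085950) (nat_lit 84) (nat_lit 19225594405) (nat_lit 100) (nat_lit 5) (nat_lit 107) (nat_lit 5) (nat_lit 101) (nat_lit 5) (nat_lit 357) (nat_lit 335) (nat_lit 172))) (XT.nd (nat_lit 94) (nat_lit 504) (nat_lit 0) (XT.lf (nat_lit 0) (nat_lit 3582235107) (nat_lit 672) (nat_lit 19577198602) (nat_lit 84) (nat_lit 2509528511) (nat_lit 93) (nat_lit 5) (nat_lit 101) (nat_lit 5) (nat_lit 94) (nat_lit 5) (nat_lit 358) (nat_lit 335) (nat_lit 171)) (XT.nd (nat_lit 94) (nat_lit 504) (nat_lit 0) (XT.lf (nat_lit 0) (nat_lit 5445472950) (nat_lit 672) (nat_lit 9519676532) (nat_lit 84) (nat_lit 11180061529) (nat_lit 93) (nat_lit 5) (nat_lit 101) (nat_lit 5) (nat_lit 94) (nat_lit 5) (nat_lit 359)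 (nat_lit 335) (nat_lit 170)) (XT.lf (nat_lit 0) (nat_lit 863231149) (nat_lit 504) (nat_lit 6507829410) (nat_lit 588) (nat_lit 19265034351) (nat_lit 87) (nat_lit 5) (nat_lit 93) (nat_lit 5) (nat_lit 94) (nat_lit 5) (nat_lit 360) (nat_lit 335) (nat_lit 169))))) (XT.nd (nat_lit 282) (nat_lit 420) (nat_lit 0) (XT.nd (nat_lit 94) (nat_lit 504) (nat_lit 0) (XT.lf (nat_lit 0) (nat_lit 9474773278) (nat_lit 588) (nat_lit 15396137729) (nat_lit 84) (nat_lit 2267627068) (nat_lit 87) (nat_lit 5) (nat_lit 94) (nat_lit 5) (nat_lit 88) (nat_lit 5) (nat_lit 361) (nat_lit 335) (nat_lit 168)) (XT.nd (nat_lit 94) (nat_lit 504) (nat_lit 0) (XT.lf (nat_lit 0) (nat_lit 11706487549) (nat_lit 588) (nat_lit 4768062788) (nat_lit 84) (nat_lit 11180073116) (nat_lit 87) (nat_lit 5) (nat_lit 94) (nat_lit 5) (nat_lit 88) (nat_lit 5) (nat_lit 362) (nat_lit 335) (nat_lit 167)) (XT.lf (nat_lit 0) (nat_lit 6313019283) (nat_lit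 504) (nat_lit 7753331742) (nat_lit 588) (nat_lit 14118540975) (nat_lit 81) (nat_lit 5) (nat_lit 87) (nat_lit 5) (nat_lit 88) (nat_lit 5) (nat_lit 363) (nat_lit 335) (nat_lit 166)))) (XT.nd (nat_lit 94) (nat_lit 420) (nat_lit 0) (XT.lf (nat_lit 0) (nat_lit 16558345556) (nat_lit 588) (nat_lit 10907895634) (nat_lit 84) (nat_lit 1263541543) (nat_lit 81) (nat_lit 5) (nat_lit 88) (nat_lit 5) (nat_lit 82) (nat_lit 5) (nat_lit 364) (nat_lit 335) (nat_lit 165)) (XT.nd (nat_lit 94) (nat_lit 0) (nat_lit 0) (XT.lf (nat_lit 0) (nat_lit 319473231) (nat_lit 420) (nat_lit 18887108004) (nat_lit 504) (nat_lit 10082546904) (nat_lit 76) (nat_lit 5) (nat_lit 81) (nat_lit 5) (nat_lit 82) (nat_lit 5) (nat_lit 365) (nat_lit 335) (nat_lit 164)) (XT.lf (nat_lit 0) (nat_lit 12122539100) (nat_lit 420) (nat_lit 9924819877) (nat_lit 504) (nat_lit 7815041804) (nat_lit 76) (nat_lit 5) (nat_lit 81) (nat_lit 5) (nat_lit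 82) (nat_lit 5) (nat_lit 366) (nat_lit 335) (nat_lit 163))))))))
noncomputable def xc113 : XT := (XT.nd (nat_lit 52734) (nat_lit 0) (nat_lit 0) (XT.nd (nat_lit 51700) (nat_lit 0) (nat_lit 4200) (XT.nd (nat_lit 470) (nat_lit 0) (nat_lit 0) (XT.nd (nat_lit 188) (nat_lit 504) (nat_lit 0) (XT.nd (nat_lit 94) (nat_lit 420) (nat_lit 0) (XT.lf (nat_lit 0) (nat_lit 24288014960) (nat_lit 420) (nat_lit 684879079) (nat_lit 504) (nat_lit 5480664383) (nat_lit 76) (nat_lit 5) (nat_lit 81) (nat_lit 5) (nat_lit 82) (nat_lit 5) (nat_lit 367) (nat_lit 335) (nat_lit 162)) (XT.lf (nat_lit 0) (nat_lit 5793099205) (nat_lit 420) (nat_lit 22337989440) (nat_lit 504) (nat_lit 2927563003) (nat_lit 71) (nat_lit 5) (nat_lit 76) (nat_lit 5) (nat_lit 77) (nat_lit 5) (nat_lit 368) (nat_lit 335) (nat_lit 161))) (XT.nd (nat_lit 94) (nat_lit 504) (nat_lit 0) (XT.lf (nat_lit 0) (nat_lit 18242563986) (nat_lit 420) (nat_lit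 13212765867) (nat_lit 504) (nat_lit 225070874) (nat_lit 71) (nat_lit 5) (nat_lit 76) (nat_lit 5) (nat_lit 77) (nat_lit 5) (nat_lit 369) (nat_lit 335) (nat_lit 160)) (XT.nd (nat_lit 94) (nat_lit 420) (nat_lit 0) (XT.lf (nat_lit 0) (nat_lit 2506502757) (nat_lit 504) (nat_lit 1272292155) (nat_lit 84) (nat_lit 28541947145) (nat_lit 70) (nat_lit 5) (nat_lit 76) (nat_lit 5) (nat_lit 71) (nat_lit 5) (nat_lit 370) (nat_lit 335) (nat_lit 159)) (XT.lf (nat_lit 0) (nat_lit 5489313228) (nat_lit 504) (nat_lit 21541228678) (nat_lit 84) (nat_lit 5945021942) (nat_lit 65) (nat_lit 5) (nat_lit 71) (nat_lit 5) (nat_lit 66) (nat_lit 5) (nat_lit 371) (nat_lit 335) (nat_lit 158))))) (XT.nd (nat_lit 50948) (nat_lit 0) (nat_lit 4116) (XT.nd (nat_lit 50854) (nat_lit 0) (nat_lit 4116) (XT.lf (nat_lit 0) (nat_lit 8613708854) (nat_lit 504) (nat_lit 9130600938) (nat_lit 84) (nat_lit 15904861854) (nat_lit 65) (nat_lit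 5) (nat_lit 71) (nat_lit 5) (nat_lit 66) (nat_lit 5) (nat_lit 372) (nat_lit 335) (nat_lit 157)) (XT.lf (nat_lit 0) (nat_lit 1094949198) (nat_lit 0) (nat_lit 1094949198) (nat_lit 1092) (nat_lit 6826387025) (nat_lit 114) (nat_lit 5) (nat_lit 114) (nat_lit 3) (nat_lit 127) (nat_lit 3) (nat_lit 336) (nat_lit 336) (nat_lit 192))) (XT.nd (nat_lit 94) (nat_lit 0) (nat_lit 0) (XT.lf (nat_lit 0) (nat_lit 4672099720) (nat_lit 1092) (nat_lit 8989748974) (nat_lit 1176) (nat_lit 4642606277) (nat_lit 114) (nat_lit 5) (nat_lit 127) (nat_lit 3) (nat_lit 128) (nat_lit 5) (nat_lit 337) (nat_lit 336) (nat_lit 191)) (XT.nd (nat_lit 94) (nat_lit 0) (nat_lit 84) (XT.lf (nat_lit 0) (nat_lit 4988748016) (nat_lit 1092) (nat_lit 1950640704) (nat_lit 1176) (nat_lit 11644931732) (nat_lit 114) (nat_lit 5) (nat_lit 127) (nat_lit 3) (nat_lit 128) (nat_lit 5) (nat_lit 338) (nat_lit 336) (nat_lit 190)) (XT.lf (nat_lit 0)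 (nat_lit 5362496026) (nat_lit 1092) (nat_lit 13459956172) (nat_lit 1176) (nat_lit 48969717) (nat_lit 115) (nat_lit 5) (nat_lit 128) (nat_lit 5) (nat_lit 129) (nat_lit 5) (nat_lit 339) (nat_lit 336) (nat_lit 189)))))) (XT.nd (nat_lit 470) (nat_lit 0) (nat_lit 168) (XT.nd (nat_lit 188) (nat_lit 0) (nat_lit 84) (XT.nd (nat_lit 94) (nat_lit 0) (nat_lit 0) (XT.lf (nat_lit 0) (nat_lit 5832673850) (nat_lit 1092) (nat_lit 6198792345) (nat_lit 1176) (nat_lit 7133352341) (nat_lit 115) (nat_lit 5) (nat_lit 128) (nat_lit 5) (nat_lit 129) (nat_lit 5) (nat_lit 340) (nat_lit 336) (nat_lit 188)) (XT.lf (nat_lit 84) (nat_lit 1310012521) (nat_lit 0) (nat_lit 5013912648) (nat_lit 1176) (nat_lit 13143208254) (nat_lit 116) (nat_lit 5) (nat_lit 115) (nat_lit 5) (nat_lit 129) (nat_lit 5) (nat_lit 341) (nat_lit 336) (nat_lit 187))) (XT.nd (nat_lit 94) (nat_lit 0) (nat_lit 0) (XT.lf (nat_lit 0) (nat_lit 6911489310)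 (nat_lit 1092) (nat_lit 10620564212) (nat_lit 1176) (nat_lit 2244276618) (nat_lit 116) (nat_lit 5) (nat_lit 129) (nat_lit 5) (nat_lit 130) (nat_lit 5) (nat_lit 342) (nat_lit 336) (nat_lit 186)) (XT.nd (nat_lit 94) (nat_lit 0) (nat_lit 0) (XT.lf (nat_lit 0) (nat_lit 7562423511) (nat_lit 1092) (nat_lit 2905588080) (nat_lit 1176) (nat_lit 9625723503) (nat_lit 116) (nat_lit 5) (nat_lit 129) (nat_lit 5) (nat_lit 130) (nat_lit 5) (nat_lit 343) (nat_lit 336) (nat_lit 185)) (XT.lf (nat_lit 84) (nat_lit 5148467438) (nat_lit 0) (nat_lit 3130201873) (nat_lit 1176) (nat_lit 12140933453) (nat_lit 117) (nat_lit 5) (nat_lit 116) (nat_lit 5) (nat_lit 130) (nat_lit 5) (nat_lit 344) (nat_lit 336) (nat_lit 184))))) (XT.nd (nat_lit 282) (nat_lit 0) (nat_lit 84) (XT.nd (nat_lit 94) (nat_lit 0) (nat_lit 0) (XT.lf (nat_lit 0) (nat_lit 9085974281) (nat_lit 1092) (nat_lit 7289141118) (nat_lit 1176) (nat_lit 4378344010)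 (nat_lit 117) (nat_lit 5) (nat_lit 130) (nat_lit 5) (nat_lit 131) (nat_lit 5) (nat_lit 345) (nat_lit 336) (nat_lit 183)) (XT.nd (nat_lit 94) (nat_lit 0) (nat_lit 0) (XT.lf (nat_lit 84) (nat_lit 922999031) (nat_lit 0) (nat_lit 9030871759) (nat_lit 1176) (nat_lit 11142713257) (nat_lit 118) (nat_lit 5) (nat_lit 117) (nat_lit 5) (nat_lit 131) (nat_lit 5) (nat_lit 346) (nat_lit 336) (nat_lit 182)) (XT.lf (nat_lit 84) (nat_lit 9540403096) (nat_lit 0) (nat_lit 1378877375) (nat_lit 1176) (nat_lit 10528896541) (nat_lit 118) (nat_lit 5) (nat_lit 117) (nat_lit 5) (nat_lit 131) (nat_lit 5) (nat_lit 347) (nat_lit 336) (nat_lit 181)))) (XT.nd (nat_lit 94) (nat_lit 0) (nat_lit 0) (XT.lf (nat_lit 0) (nat_lit 11973906198) (nat_lit 1092) (nat_lit 3454229012) (nat_lit 1176) (nat_lit 6380715922) (nat_lit 118) (nat_lit 5) (nat_lit 131) (nat_lit 5) (nat_lit 132) (nat_lit 5) (nat_lit 348) (nat_lit 336) (nat_lit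 180)) (XT.nd (nat_lit 94) (nat_lit 0) (nat_lit 84) (XT.lf (nat_lit 84) (nat_lit 5351284455) (nat_lit 0) (nat_lit 7771993226) (nat_lit 1176) (nat_lit 9055523963) (nat_lit 119) (nat_lit 5) (nat_lit 118) (nat_lit 5) (nat_lit 132) (nat_lit 5) (nat_lit 349) (nat_lit 336) (nat_lit 179)) (XT.lf (nat_lit 0) (nat_lit 14340902453) (nat_lit 1092) (nat_lit 8061633315) (nat_lit 1176) (nat_lit 156692093) (nat_lit 119) (nat_lit 5) (nat_lit 132) (nat_lit 5) (nat_lit 133) (nat_lit 5) (nat_lit 350) (nat_lit 336) (nat_lit 178))))))) (XT.nd (nat_lit 1034) (nat_lit 1848) (nat_lit 0) (XT.nd (nat_lit 470) (nat_lit 1680) (nat_lit 0) (XT.nd (nat_lit 188) (nat_lit 1008) (nat_lit 0) (XT.nd (nat_lit 94) (nat_lit 0) (nat_lit 0) (XT.lf (nat_lit 84) (nat_lit 911024595) (nat_lit 0) (nat_lit 14768919969) (nat_lit 1176) (nat_lit 7268926912) (nat_lit 120) (nat_lit 5) (nat_lit 119) (nat_lit 5) (nat_lit 133) (nat_lit 5) (nat_lit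 351) (nat_lit 336) (nat_lit 177)) (XT.lf (nat_lit 84) (nat_lit 10328941840) (nat_lit 0) (nat_lit 6810954697) (nat_lit 1176) (nat_lit 6208253568) (nat_lit 120) (nat_lit 5) (nat_lit 119) (nat_lit 5) (nat_lit 133) (nat_lit 5) (nat_lit 352) (nat_lit 336) (nat_lit 176))) (XT.nd (nat_lit 94) (nat_lit 1092) (nat_lit 0) (XT.lf (nat_lit 0) (nat_lit 18654337310) (nat_lit 1092) (nat_lit 3738667757) (nat_lit 84) (nat_lit 1366532085) (nat_lit 120) (nat_lit 5) (nat_lit 133) (nat_lit 5) (nat_lit 121) (nat_lit 5) (nat_lit 353) (nat_lit 336) (nat_lit 175)) (XT.nd (nat_lit 94) (nat_lit 0) (nat_lit 0) (XT.lf (nat_lit 0) (nat_lit 5874533839) (nat_lit 1092) (nat_lit 14464670770) (nat_lit 1176) (nat_lit 3840661156) (nat_lit 107) (nat_lit 5) (nat_lit 120) (nat_lit 5) (nat_lit 121) (nat_lit 5) (nat_lit 354) (nat_lit 336) (nat_lit 174)) (XT.lf (nat_lit 0) (nat_lit 15861305895) (nat_lit 1092) (nat_lit 6249660988)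 (nat_lit 1176) (nat_lit 2501199014) (nat_lit 107) (nat_lit 5) (nat_lit 120) (nat_lit 5) (nat_lit 121) (nat_lit 5) (nat_lit 355) (nat_lit 336) (nat_lit 173))))) (XT.nd (nat_lit 282) (nat_lit 1092) (nat_lit 0) (XT.nd (nat_lit 94) (nat_lit 84) (nat_lit 0) (XT.lf (nat_lit 0) (nat_lit 1096123839) (nat_lit 504) (nat_lit 22870203990) (nat_lit 588) (nat_lit 1090666049) (nat_lit 101) (nat_lit 5) (nat_lit 107) (nat_lit 5) (nat_lit 108) (nat_lit 5) (nat_lit 356) (nat_lit 336) (nat_lit 172)) (XT.nd (nat_lit 94) (nat_lit 0) (nat_lit 0) (XT.lf (nat_lit 0) (nat_lit 508273261) (nat_lit 588) (nat_lit 14151163733) (nat_lit 84) (nat_lit 10851365077) (nat_lit 100) (nat_lit 5) (nat_lit 107) (nat_lit 5) (nat_lit 101) (nat_lit 5) (nat_lit 357) (nat_lit 336) (nat_lit 171)) (XT.lf (nat_lit 0) (nat_lit 2130060806) (nat_lit 588) (nat_lit 4052198351) (nat_lit 84) (nat_lit 19796213405) (nat_lit 100) (nat_lit 5) (nat_lit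 107) (nat_lit 5) (nat_lit 101) (nat_lit 5) (nat_lit 358) (nat_lit 336) (nat_lit 170)))) (XT.nd (nat_lit 94) (nat_lit 504) (nat_lit 0) (XT.lf (nat_lit 0) (nat_lit 3888568761) (nat_lit 672) (nat_lit 19997859716) (nat_lit 84) (nat_lit 2571546232) (nat_lit 93) (nat_lit 5) (nat_lit 101) (nat_lit 5) (nat_lit 94) (nat_lit 5) (nat_lit 359) (nat_lit 336) (nat_lit 169)) (XT.nd (nat_lit 94) (nat_lit 504) (nat_lit 0) (XT.lf (nat_lit 0) (nat_lit 5803695187) (nat_lit 672) (nat_lit 9634154067) (nat_lit 84) (nat_lit 11511340175) (nat_lit 93) (nat_lit 5) (nat_lit 101) (nat_lit 5) (nat_lit 94) (nat_lit 5) (nat_lit 360) (nat_lit 336) (nat_lit 168)) (XT.lf (nat_lit 0) (nat_lit 1068795011) (nat_lit 504) (nat_lit 6716259518) (nat_lit 588) (nat_lit 19670377350) (nat_lit 87) (nat_lit 5) (nat_lit 93) (nat_lit 5) (nat_lit 94) (nat_lit 5) (nat_lit 361) (nat_lit 336) (nat_lit 167)))))) (XT.nd (nat_lit 470) (nat_lit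 924) (nat_lit 0) (XT.nd (nat_lit 188) (nat_lit 924) (nat_lit 0) (XT.nd (nat_lit 94) (nat_lit 0) (nat_lit 0) (XT.lf (nat_lit 0) (nat_lit 9948340671) (nat_lit 588) (nat_lit 15693736128) (nat_lit 84) (nat_lit 2331567871) (nat_lit 87) (nat_lit 5) (nat_lit 94) (nat_lit 5) (nat_lit 88) (nat_lit 5) (nat_lit 362) (nat_lit 336) (nat_lit 166)) (XT.lf (nat_lit 0) (nat_lit 12243830391) (nat_lit 588) (nat_lit 4741593519) (nat_lit 84) (nat_lit 11520490847) (nat_lit 87) (nat_lit 5) (nat_lit 94) (nat_lit 5) (nat_lit 88) (nat_lit 5) (nat_lit 363) (nat_lit 336) (nat_lit 165))) (XT.nd (nat_lit 94) (nat_lit 420) (nat_lit 0) (XT.lf (nat_lit 0) (nat_lit 6681237675) (nat_lit 504) (nat_lit 7992078231) (nat_lit 588) (nat_lit 14379433138) (nat_lit 81) (nat_lit 5) (nat_lit 87) (nat_lit 5) (nat_lit 88) (nat_lit 5) (nat_lit 364) (nat_lit 336) (nat_lit 164)) (XT.nd (nat_lit 94) (nat_lit 420) (nat_lit 0) (XT.lf (nat_lit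 0) (nat_lit 17237438885) (nat_lit 588) (nat_lit 11073030250) (nat_lit 84) (nat_lit 1304238412) (nat_lit 81) (nat_lit 5) (nat_lit 88) (nat_lit 5) (nat_lit 82) (nat_lit 5) (nat_lit 365) (nat_lit 336) (nat_lit 163)) (XT.lf (nat_lit 0) (nat_lit 500635477) (nat_lit 420) (nat_lit 19463848505) (nat_lit 504) (nat_lit 10227027354) (nat_lit 76) (nat_lit 5) (nat_lit 81) (nat_lit 5) (nat_lit 82) (nat_lit 5) (nat_lit 366) (nat_lit 336) (nat_lit 162))))) (XT.nd (nat_lit 282) (nat_lit 504) (nat_lit 0) (XT.nd (nat_lit 94) (nat_lit 420) (nat_lit 0) (XT.lf (nat_lit 0) (nat_lit 12664447003) (nat_lit 420) (nat_lit 10223992837) (nat_lit 504) (nat_lit 7894283363) (nat_lit 76) (nat_lit 5) (nat_lit 81) (nat_lit 5) (nat_lit 82) (nat_lit 5) (nat_lit 367) (nat_lit 336) (nat_lit 161)) (XT.nd (nat_lit 94) (nat_lit 420) (nat_lit 0) (XT.lf (nat_lit 0) (nat_lit 25202058061) (nat_lit 420) (nat_lit 697869345) (nat_lit 504)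 (nat_lit 5492442053) (nat_lit 76) (nat_lit 5) (nat_lit 81) (nat_lit 5) (nat_lit 82) (nat_lit 5) (nat_lit 368) (nat_lit 336) (nat_lit 160)) (XT.lf (nat_lit 0) (nat_lit 6137283984) (nat_lit 420) (nat_lit 23015857604) (nat_lit 504) (nat_lit 2863183745) (nat_lit 71) (nat_lit 5) (nat_lit 76) (nat_lit 5) (nat_lit 77) (nat_lit 5) (nat_lit 369) (nat_lit 336) (nat_lit 159)))) (XT.nd (nat_lit 94) (nat_lit 504) (nat_lit 0) (XT.lf (nat_lit 0) (nat_lit 18967733036) (nat_lit 420) (nat_lit 13608191377) (nat_lit 504) (nat_lit 81578904) (nat_lit 71) (nat_lit 5) (nat_lit 76) (nat_lit 5) (nat_lit 77) (nat_lit 5) (nat_lit 370) (nat_lit 336) (nat_lit 158)) (XT.nd (nat_lit 94) (nat_lit 420) (nat_lit 0) (XT.lf (nat_lit 0) (nat_lit 2727208754) (nat_lit 504) (nat_lit 1153491965) (nat_lit 84) (nat_lit 29437099661) (nat_lit 70) (nat_lit 5) (nat_lit 76) (nat_lit 5) (nat_lit 71) (nat_lit 5) (nat_lit 371) (nat_lit 336)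 (nat_lit 157)) (XT.lf (nat_lit 0) (nat_lit 5799902888) (nat_lit 504) (nat_lit 22047744091) (nat_lit 84) (nat_lit 6145368332) (nat_lit 65) (nat_lit 5) (nat_lit 71) (nat_lit 5) (nat_lit 66) (nat_lit 5) (nat_lit 372) (nat_lit 336) (nat_lit 156))))))))
noncomputable def xc114 : XT := (XT.nd (nat_lit 1974) (nat_lit 2604) (nat_lit 0) (XT.nd (nat_lit 940) (nat_lit 1092) (nat_lit 0) (XT.nd (nat_lit 470) (nat_lit 0) (nat_lit 84) (XT.nd (nat_lit 188) (nat_lit 0) (nat_lit 0) (XT.nd (nat_lit 94) (nat_lit 0) (nat_lit 0) (XT.lf (nat_lit 0) (nat_lit 1216719568) (nat_lit 0) (nat_lit 1216719568) (nat_lit 1092) (nat_lit 6856248626) (nat_lit 114) (nat_lit 5) (nat_lit 114) (nat_lit 3) (nat_lit 127) (nat_lit 3) (nat_lit 337) (nat_lit 337) (nat_lit 190)) (XT.lf (nat_lit 0) (nat_lit 5155989387) (nat_lit 1092) (nat_lit 9084530695) (nat_lit 1176) (nat_lit 4619587349) (nat_lit 114) (nat_lit 5) (nat_lit 127) (nat_lit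 3) (nat_lit 128) (nat_lit 5) (nat_lit 338) (nat_lit 337) (nat_lit 189))) (XT.nd (nat_lit 94) (nat_lit 0) (nat_lit 0) (XT.lf (nat_lit 0) (nat_lit 5472259123) (nat_lit 1092) (nat_lit 1832739569) (nat_lit 1176) (nat_lit 11844004419) (nat_lit 114) (nat_lit 5) (nat_lit 127) (nat_lit 3) (nat_lit 128) (nat_lit 5) (nat_lit 339) (nat_lit 337) (nat_lit 188)) (XT.nd (nat_lit 94) (nat_lit 0) (nat_lit 84) (XT.lf (nat_lit 84) (nat_lit 5756313321) (nat_lit 0) (nat_lit 92632279) (nat_lit 1176) (nat_lit 13596364382) (nat_lit 115) (nat_lit 5) (nat_lit 114) (nat_lit 5) (nat_lit 128) (nat_lit 5) (nat_lit 340) (nat_lit 337) (nat_lit 187)) (XT.lf (nat_lit 0) (nat_lit 6323179536) (nat_lit 1092) (nat_lit 6207504786) (nat_lit 1176) (nat_lit 7217479741) (nat_lit 115) (nat_lit 5) (nat_lit 128) (nat_lit 5) (nat_lit 129) (nat_lit 5) (nat_lit 341) (nat_lit 337) (nat_lit 186))))) (XT.nd (nat_lit 188) (nat_lit 0) (nat_lit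 84) (XT.nd (nat_lit 94) (nat_lit 0) (nat_lit 84) (XT.lf (nat_lit 84) (nat_lit 1532215763) (nat_lit 0) (nat_lit 5289933496) (nat_lit 1176) (nat_lit 13237969255) (nat_lit 116) (nat_lit 5) (nat_lit 115) (nat_lit 5) (nat_lit 129) (nat_lit 5) (nat_lit 342) (nat_lit 337) (nat_lit 185)) (XT.lf (nat_lit 0) (nat_lit 7417681605) (nat_lit 1092) (nat_lit 10762328218) (nat_lit 1176) (nat_lit 2199242068) (nat_lit 116) (nat_lit 5) (nat_lit 129) (nat_lit 5) (nat_lit 130) (nat_lit 5) (nat_lit 343) (nat_lit 337) (nat_lit 184))) (XT.nd (nat_lit 94) (nat_lit 0) (nat_lit 0) (XT.lf (nat_lit 0) (nat_lit 8080016862) (nat_lit 1092) (nat_lit 2813824759) (nat_lit 1176) (nat_lit 9812959803) (nat_lit 116) (nat_lit 5) (nat_lit 129) (nat_lit 5) (nat_lit 130) (nat_lit 5) (nat_lit 344) (nat_lit 337) (nat_lit 183)) (XT.nd (nat_lit 94) (nat_lit 0) (nat_lit 84) (XT.lf (nat_lit 84) (nat_lit 5488065548) (nat_lit 0) (nat_lit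 3323672340) (nat_lit 1176) (nat_lit 12231273601) (nat_lit 117) (nat_lit 5) (nat_lit 116) (nat_lit 5) (nat_lit 130) (nat_lit 5) (nat_lit 345) (nat_lit 337) (nat_lit 182)) (XT.lf (nat_lit 0) (nat_lit 9634829775) (nat_lit 1092) (nat_lit 7330282749) (nat_lit 1176) (nat_lit 4422422553) (nat_lit 117) (nat_lit 5) (nat_lit 130) (nat_lit 5) (nat_lit 131) (nat_lit 5) (nat_lit 346) (nat_lit 337) (nat_lit 181)))))) (XT.nd (nat_lit 470) (nat_lit 1344) (nat_lit 0) (XT.nd (nat_lit 188) (nat_lit 0) (nat_lit 84) (XT.nd (nat_lit 94) (nat_lit 0) (nat_lit 0) (XT.lf (nat_lit 84) (nat_lit 1134562591) (nat_lit 0) (nat_lit 9388849528) (nat_lit 1176) (nat_lit 11218107275) (nat_lit 118) (nat_lit 5) (nat_lit 117) (nat_lit 5) (nat_lit 131) (nat_lit 5) (nat_lit 347) (nat_lit 337) (nat_lit 180)) (XT.lf (nat_lit 84) (nat_lit 10013605243) (nat_lit 0) (nat_lit 1497297398) (nat_lit 1176) (nat_lit 10593381477) (nat_lit 118)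 (nat_lit 5) (nat_lit 117) (nat_lit 5) (nat_lit 131) (nat_lit 5) (nat_lit 348) (nat_lit 337) (nat_lit 179))) (XT.nd (nat_lit 94) (nat_lit 0) (nat_lit 0) (XT.lf (nat_lit 0) (nat_lit 12589882713) (nat_lit 1092) (nat_lit 3379945673) (nat_lit 1176) (nat_lit 6506597509) (nat_lit 118) (nat_lit 5) (nat_lit 131) (nat_lit 5) (nat_lit 132) (nat_lit 5) (nat_lit 349) (nat_lit 337) (nat_lit 178)) (XT.nd (nat_lit 94) (nat_lit 0) (nat_lit 84) (XT.lf (nat_lit 84) (nat_lit 5696702559) (nat_lit 0) (nat_lit 8072602913) (nat_lit 1176) (nat_lit 9088739758) (nat_lit 119) (nat_lit 5) (nat_lit 118) (nat_lit 5) (nat_lit 132) (nat_lit 5) (nat_lit 350) (nat_lit 337) (nat_lit 177)) (XT.lf (nat_lit 0) (nat_lit 15016909975) (nat_lit 1092) (nat_lit 8128789764) (nat_lit 1176) (nat_lit 104832263) (nat_lit 119) (nat_lit 5) (nat_lit 132) (nat_lit 5) (nat_lit 133) (nat_lit 5) (nat_lit 351) (nat_lit 337) (nat_lit 176))))) (XT.nd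 (nat_lit 282) (nat_lit 1512) (nat_lit 0) (XT.nd (nat_lit 94) (nat_lit 0) (nat_lit 0) (XT.lf (nat_lit 84) (nat_lit 1120170319) (nat_lit 0) (nat_lit 15272127762) (nat_lit 1176) (nat_lit 7260142359) (nat_lit 120) (nat_lit 5) (nat_lit 119) (nat_lit 5) (nat_lit 133) (nat_lit 5) (nat_lit 352) (nat_lit 337) (nat_lit 175)) (XT.nd (nat_lit 94) (nat_lit 0) (nat_lit 84) (XT.lf (nat_lit 84) (nat_lit 10824603597) (nat_lit 0) (nat_lit 7066101347) (nat_lit 1176) (nat_lit 6173627676) (nat_lit 120) (nat_lit 5) (nat_lit 119) (nat_lit 5) (nat_lit 133) (nat_lit 5) (nat_lit 353) (nat_lit 337) (nat_lit 174)) (XT.lf (nat_lit 0) (nat_lit 19445070903) (nat_lit 1092) (nat_lit 3676573001) (nat_lit 84) (nat_lit 1367070709) (nat_lit 120) (nat_lit 5) (nat_lit 133) (nat_lit 5) (nat_lit 121) (nat_lit 5) (nat_lit 354) (nat_lit 337) (nat_lit 173)))) (XT.nd (nat_lit 94) (nat_lit 504) (nat_lit 0) (XT.lf (nat_lit 0) (nat_lit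 6232835820) (nat_lit 1092) (nat_lit 14944693210) (nat_lit 1176) (nat_lit 3744711745) (nat_lit 107) (nat_lit 5) (nat_lit 120) (nat_lit 5) (nat_lit 121) (nat_lit 5) (nat_lit 355) (nat_lit 337) (nat_lit 172)) (XT.nd (nat_lit 94) (nat_lit 504) (nat_lit 0) (XT.lf (nat_lit 0) (nat_lit 16523900105) (nat_lit 1092) (nat_lit 6474067449) (nat_lit 1176) (nat_lit 2370191172) (nat_lit 107) (nat_lit 5) (nat_lit 120) (nat_lit 5) (nat_lit 121) (nat_lit 5) (nat_lit 356) (nat_lit 337) (nat_lit 171)) (XT.lf (nat_lit 0) (nat_lit 1306482004) (nat_lit 504) (nat_lit 23599756802) (nat_lit 588) (nat_lit 920702479) (nat_lit 101) (nat_lit 5) (nat_lit 107) (nat_lit 5) (nat_lit 108) (nat_lit 5) (nat_lit 357) (nat_lit 337) (nat_lit 170))))))) (XT.nd (nat_lit 1034) (nat_lit 504) (nat_lit 0) (XT.nd (nat_lit 470) (nat_lit 924) (nat_lit 0) (XT.nd (nat_lit 188) (nat_lit 1092) (nat_lit 0) (XT.nd (nat_lit 94) (nat_lit 0) (nat_lit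 0) (XT.lf (nat_lit 0) (nat_lit 717694738) (nat_lit 588) (nat_lit 14414121134) (nat_lit 84) (nat_lit 11163145924) (nat_lit 100) (nat_lit 5) (nat_lit 107) (nat_lit 5) (nat_lit 101) (nat_lit 5) (nat_lit 358) (nat_lit 337) (nat_lit 169)) (XT.lf (nat_lit 0) (nat_lit 2383934598) (nat_lit 588) (nat_lit 4007371616) (nat_lit 84) (nat_lit 20386024565) (nat_lit 100) (nat_lit 5) (nat_lit 107) (nat_lit 5) (nat_lit 101) (nat_lit 5) (nat_lit 359) (nat_lit 337) (nat_lit 168))) (XT.nd (nat_lit 94) (nat_lit 504) (nat_lit 0) (XT.lf (nat_lit 0) (nat_lit 4192831731) (nat_lit 672) (nat_lit 20442592167) (nat_lit 84) (nat_lit 2636421041) (nat_lit 93) (nat_lit 5) (nat_lit 101) (nat_lit 5) (nat_lit 94) (nat_lit 5) (nat_lit 360) (nat_lit 337) (nat_lit 167)) (XT.nd (nat_lit 94) (nat_lit 504) (nat_lit 0) (XT.lf (nat_lit 0) (nat_lit 6161803083) (nat_lit 672) (nat_lit 9762879575) (nat_lit 84) (nat_lit 11853794897) (nat_lit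 93) (nat_lit 5) (nat_lit 101) (nat_lit 5) (nat_lit 94) (nat_lit 5) (nat_lit 361) (nat_lit 337) (nat_lit 166)) (XT.lf (nat_lit 0) (nat_lit 1270140503) (nat_lit 504) (nat_lit 6930754854) (nat_lit 588) (nat_lit 20099650952) (nat_lit 87) (nat_lit 5) (nat_lit 93) (nat_lit 5) (nat_lit 94) (nat_lit 5) (nat_lit 362) (nat_lit 337) (nat_lit 165))))) (XT.nd (nat_lit 282) (nat_lit 420) (nat_lit 0) (XT.nd (nat_lit 94) (nat_lit 504) (nat_lit 0) (XT.lf (nat_lit 0) (nat_lit 10425935864) (nat_lit 588) (nat_lit 16011202942) (nat_lit 84) (nat_lit 2397867294) (nat_lit 87) (nat_lit 5) (nat_lit 94) (nat_lit 5) (nat_lit 88) (nat_lit 5) (nat_lit 363) (nat_lit 337) (nat_lit 164)) (XT.nd (nat_lit 94) (nat_lit 504) (nat_lit 0) (XT.lf (nat_lit 0) (nat_lit 12787498379) (nat_lit 588) (nat_lit 4724626559) (nat_lit 84) (nat_lit 11871826663) (nat_lit 87) (nat_lit 5) (nat_lit 94) (nat_lit 5) (nat_lit 88) (nat_lit 5) (nat_lit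 364) (nat_lit 337) (nat_lit 163)) (XT.lf (nat_lit 0) (nat_lit 7050652491) (nat_lit 504) (nat_lit 8238321035) (nat_lit 588) (nat_lit 14658884094) (nat_lit 81) (nat_lit 5) (nat_lit 87) (nat_lit 5) (nat_lit 88) (nat_lit 5) (nat_lit 365) (nat_lit 337) (nat_lit 162)))) (XT.nd (nat_lit 94) (nat_lit 420) (nat_lit 0) (XT.lf (nat_lit 0) (nat_lit 17927764400) (nat_lit 588) (nat_lit 11253531728) (nat_lit 84) (nat_lit 1346106433) (nat_lit 81) (nat_lit 5) (nat_lit 88) (nat_lit 5) (nat_lit 82) (nat_lit 5) (nat_lit 366) (nat_lit 337) (nat_lit 161)) (XT.nd (nat_lit 94) (nat_lit 0) (nat_lit 0) (XT.lf (nat_lit 0) (nat_lit 677269813) (nat_lit 420) (nat_lit 20058986822) (nat_lit 504) (nat_lit 10385942276) (nat_lit 76) (nat_lit 5) (nat_lit 81) (nat_lit 5) (nat_lit 82) (nat_lit 5) (nat_lit 367) (nat_lit 337) (nat_lit 160)) (XT.lf (nat_lit 0) (nat_lit 13213315119) (nat_lit 420) (nat_lit 10532943418) (nat_lit 504)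 (nat_lit 7985637645) (nat_lit 76) (nat_lit 5) (nat_lit 81) (nat_lit 5) (nat_lit 82) (nat_lit 5) (nat_lit 368) (nat_lit 337) (nat_lit 159)))))) (XT.nd (nat_lit 51418) (nat_lit 0) (nat_lit 3696) (XT.nd (nat_lit 188) (nat_lit 84) (nat_lit 0) (XT.nd (nat_lit 94) (nat_lit 420) (nat_lit 0) (XT.lf (nat_lit 0) (nat_lit 26134893402) (nat_lit 420) (nat_lit 711750436) (nat_lit 504) (nat_lit 5513950722) (nat_lit 76) (nat_lit 5) (nat_lit 81) (nat_lit 5) (nat_lit 82) (nat_lit 5) (nat_lit 369) (nat_lit 337) (nat_lit 158)) (XT.lf (nat_lit 0) (nat_lit 6482389027) (nat_lit 420) (nat_lit 23715605028) (nat_lit 504) (nat_lit 2805997564) (nat_lit 71) (nat_lit 5) (nat_lit 76) (nat_lit 5) (nat_lit 77) (nat_lit 5) (nat_lit 370) (nat_lit 337) (nat_lit 157))) (XT.nd (nat_lit 94) (nat_lit 0) (nat_lit 0) (XT.lf (nat_lit 0) (nat_lit 56291305) (nat_lit 504) (nat_lit 13959835534) (nat_lit 84) (nat_lit 19649047138) (nat_lit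 70) (nat_lit 5) (nat_lit 76) (nat_lit 5) (nat_lit 71) (nat_lit 5) (nat_lit 371) (nat_lit 337) (nat_lit 156)) (XT.nd (nat_lit 51042) (nat_lit 0) (nat_lit 3696) (XT.lf (nat_lit 0) (nat_lit 2946286242) (nat_lit 504) (nat_lit 1040381869) (nat_lit 84) (nat_lit 30359388730) (nat_lit 70) (nat_lit 5) (nat_lit 76) (nat_lit 5) (nat_lit 71) (nat_lit 5) (nat_lit 372) (nat_lit 337) (nat_lit 155)) (XT.lf (nat_lit 0) (nat_lit 1337062678) (nat_lit 0) (nat_lit 1337062678) (nat_lit 1092) (nat_lit 6897801680) (nat_lit 114) (nat_lit 5) (nat_lit 114) (nat_lit 3) (nat_lit 127) (nat_lit 3) (nat_lit 338) (nat_lit 338) (nat_lit 188))))) (XT.nd (nat_lit 282) (nat_lit 0) (nat_lit 84) (XT.nd (nat_lit 94) (nat_lit 0) (nat_lit 0) (XT.lf (nat_lit 0) (nat_lit 5634796851) (nat_lit 1092) (nat_lit 9193143390) (nat_lit 1176) (nat_lit 4605742961) (nat_lit 114) (nat_lit 5) (nat_lit 127) (nat_lit 3) (nat_lit 128) (nat_lit 5)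 (nat_lit 339) (nat_lit 338) (nat_lit 187)) (XT.nd (nat_lit 94) (nat_lit 0) (nat_lit 0) (XT.lf (nat_lit 0) (nat_lit 5951280138) (nat_lit 1092) (nat_lit 1721748718) (nat_lit 1176) (nat_lit 12058839171) (nat_lit 114) (nat_lit 5) (nat_lit 127) (nat_lit 3) (nat_lit 128) (nat_lit 5) (nat_lit 340) (nat_lit 338) (nat_lit 186)) (XT.lf (nat_lit 84) (nat_lit 6100865928) (nat_lit 0) (nat_lit 231123334) (nat_lit 1176) (nat_lit 13705643423) (nat_lit 115) (nat_lit 5) (nat_lit 114) (nat_lit 5) (nat_lit 128) (nat_lit 5) (nat_lit 341) (nat_lit 338) (nat_lit 185)))) (XT.nd (nat_lit 94) (nat_lit 0) (nat_lit 0) (XT.lf (nat_lit 0) (nat_lit 6810547264) (nat_lit 1092) (nat_lit 6227353377) (nat_lit 1176) (nat_lit 7312330222) (nat_lit 115) (nat_lit 5) (nat_lit 128) (nat_lit 5) (nat_lit 129) (nat_lit 5) (nat_lit 342) (nat_lit 338) (nat_lit 184)) (XT.nd (nat_lit 94) (nat_lit 0) (nat_lit 84) (XT.lf (nat_lit 84) (nat_lit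 1750551250) (nat_lit 0) (nat_lit 5567368264) (nat_lit 1176) (nat_lit 13354188327) (nat_lit 116) (nat_lit 5) (nat_lit 115) (nat_lit 5) (nat_lit 129) (nat_lit 5) (nat_lit 343) (nat_lit 338) (nat_lit 183)) (XT.lf (nat_lit 0) (nat_lit 7922273986) (nat_lit 1092) (nat_lit 10919591284) (nat_lit 1176) (nat_lit 2159599825) (nat_lit 116) (nat_lit 5) (nat_lit 129) (nat_lit 5) (nat_lit 130) (nat_lit 5) (nat_lit 344) (nat_lit 338) (nat_lit 182))))))))
noncomputable def xc115 : XT := (XT.nd (nat_lit 1974) (nat_lit 1344) (nat_lit 0) (XT.nd (nat_lit 940) (nat_lit 2436) (nat_lit 0) (XT.nd (nat_lit 470) (nat_lit 0) (nat_lit 168) (XT.nd (nat_lit 188) (nat_lit 0) (nat_lit 84) (XT.nd (nat_lit 94) (nat_lit 0) (nat_lit 0) (XT.lf (nat_lit 0) (nat_lit 8596883660) (nat_lit 1092) (nat_lit 2729987266) (nat_lit 1176) (nat_lit 10012584691) (nat_lit 116) (nat_lit 5) (nat_lit 129) (nat_lit 5) (nat_lit 130) (nat_lit 5)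 (nat_lit 345) (nat_lit 338) (nat_lit 181)) (XT.lf (nat_lit 84) (nat_lit 5827529751) (nat_lit 0) (nat_lit 3517428429) (nat_lit 1176) (nat_lit 12341356269) (nat_lit 117) (nat_lit 5) (nat_lit 116) (nat_lit 5) (nat_lit 130) (nat_lit 5) (nat_lit 346) (nat_lit 338) (nat_lit 180))) (XT.nd (nat_lit 94) (nat_lit 0) (nat_lit 0) (XT.lf (nat_lit 0) (nat_lit 10184873650) (nat_lit 1092) (nat_lit 7383647078) (nat_lit 1176) (nat_lit 4473296124) (nat_lit 117) (nat_lit 5) (nat_lit 130) (nat_lit 5) (nat_lit 131) (nat_lit 5) (nat_lit 347) (nat_lit 338) (nat_lit 179)) (XT.nd (nat_lit 94) (nat_lit 0) (nat_lit 0) (XT.lf (nat_lit 84) (nat_lit 1341848145) (nat_lit 0) (nat_lit 9753303304) (nat_lit 1176) (nat_lit 11311832853) (nat_lit 118) (nat_lit 5) (nat_lit 117) (nat_lit 5) (nat_lit 131) (nat_lit 5) (nat_lit 348) (nat_lit 338) (nat_lit 178)) (XT.lf (nat_lit 84) (nat_lit 10490966009) (nat_lit 0) (nat_lit 1614906092)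 (nat_lit 1176) (nat_lit 10675378875) (nat_lit 118) (nat_lit 5) (nat_lit 117) (nat_lit 5) (nat_lit 131) (nat_lit 5) (nat_lit 349) (nat_lit 338) (nat_lit 177))))) (XT.nd (nat_lit 188) (nat_lit 0) (nat_lit 84) (XT.nd (nat_lit 94) (nat_lit 0) (nat_lit 0) (XT.lf (nat_lit 0) (nat_lit 13210455440) (nat_lit 1092) (nat_lit 3314102077) (nat_lit 1176) (nat_lit 6640641407) (nat_lit 118) (nat_lit 5) (nat_lit 131) (nat_lit 5) (nat_lit 132) (nat_lit 5) (nat_lit 350) (nat_lit 338) (nat_lit 176)) (XT.lf (nat_lit 84) (nat_lit 6042194857) (nat_lit 0) (nat_lit 8378996677) (nat_lit 1176) (nat_lit 9137645414) (nat_lit 119) (nat_lit 5) (nat_lit 118) (nat_lit 5) (nat_lit 132) (nat_lit 5) (nat_lit 351) (nat_lit 338) (nat_lit 175))) (XT.nd (nat_lit 94) (nat_lit 0) (nat_lit 0) (XT.lf (nat_lit 0) (nat_lit 15700165169) (nat_lit 1092) (nat_lit 8208852907) (nat_lit 1176) (nat_lit 54724240) (nat_lit 119) (nat_lit 5) (nat_lit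 132) (nat_lit 5) (nat_lit 133) (nat_lit 5) (nat_lit 352) (nat_lit 338) (nat_lit 174)) (XT.nd (nat_lit 94) (nat_lit 0) (nat_lit 0) (XT.lf (nat_lit 84) (nat_lit 1325084309) (nat_lit 0) (nat_lit 15788247578) (nat_lit 1176) (nat_lit 7264952890) (nat_lit 120) (nat_lit 5) (nat_lit 119) (nat_lit 5) (nat_lit 133) (nat_lit 5) (nat_lit 353) (nat_lit 338) (nat_lit 173)) (XT.lf (nat_lit 84) (nat_lit 11325237802) (nat_lit 0) (nat_lit 7326550931) (nat_lit 1176) (nat_lit 6151378822) (nat_lit 120) (nat_lit 5) (nat_lit 119) (nat_lit 5) (nat_lit 133) (nat_lit 5) (nat_lit 354) (nat_lit 338) (nat_lit 172)))))) (XT.nd (nat_lit 470) (nat_lit 1092) (nat_lit 0) (XT.nd (nat_lit 188) (nat_lit 588) (nat_lit 0) (XT.nd (nat_lit 94) (nat_lit 1092) (nat_lit 0) (XT.lf (nat_lit 0) (nat_lit 20247733511) (nat_lit 1092) (nat_lit 3623096165) (nat_lit 84) (nat_lit 1370103329) (nat_lit 120) (nat_lit 5) (nat_lit 133) (nat_lit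 5) (nat_lit 121) (nat_lit 5) (nat_lit 355) (nat_lit 338) (nat_lit 171)) (XT.lf (nat_lit 0) (nat_lit 6591809042) (nat_lit 1092) (nat_lit 15437723579) (nat_lit 1176) (nat_lit 3658523308) (nat_lit 107) (nat_lit 5) (nat_lit 120) (nat_lit 5) (nat_lit 121) (nat_lit 5) (nat_lit 356) (nat_lit 338) (nat_lit 170))) (XT.nd (nat_lit 94) (nat_lit 588) (nat_lit 0) (XT.lf (nat_lit 0) (nat_lit 17196912407) (nat_lit 1092) (nat_lit 6703614054) (nat_lit 1176) (nat_lit 2247474565) (nat_lit 107) (nat_lit 5) (nat_lit 120) (nat_lit 5) (nat_lit 121) (nat_lit 5) (nat_lit 357) (nat_lit 338) (nat_lit 169)) (XT.nd (nat_lit 94) (nat_lit 84) (nat_lit 0) (XT.lf (nat_lit 0) (nat_lit 1512914081) (nat_lit 504) (nat_lit 24350706970) (nat_lit 588) (nat_lit 757539935) (nat_lit 101) (nat_lit 5) (nat_lit 107) (nat_lit 5) (nat_lit 108) (nat_lit 5) (nat_lit 358) (nat_lit 338) (nat_lit 168)) (XT.lf (nat_lit 0) (nat_lit 922137170)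 (nat_lit 588) (nat_lit 14695638925) (nat_lit 84) (nat_lit 11486049757) (nat_lit 100) (nat_lit 5) (nat_lit 107) (nat_lit 5) (nat_lit 101) (nat_lit 5) (nat_lit 359) (nat_lit 338) (nat_lit 167))))) (XT.nd (nat_lit 282) (nat_lit 504) (nat_lit 0) (XT.nd (nat_lit 94) (nat_lit 588) (nat_lit 0) (XT.lf (nat_lit 0) (nat_lit 2634552279) (nat_lit 588) (nat_lit 3971250995) (nat_lit 84) (nat_lit 20995533819) (nat_lit 100) (nat_lit 5) (nat_lit 107) (nat_lit 5) (nat_lit 101) (nat_lit 5) (nat_lit 360) (nat_lit 338) (nat_lit 166)) (XT.nd (nat_lit 94) (nat_lit 0) (nat_lit 0) (XT.lf (nat_lit 0) (nat_lit 4495644960) (nat_lit 672) (nat_lit 20911488791) (nat_lit 84) (nat_lit 2704186152) (nat_lit 93) (nat_lit 5) (nat_lit 101) (nat_lit 5) (nat_lit 94) (nat_lit 5) (nat_lit 361) (nat_lit 338) (nat_lit 165)) (XT.lf (nat_lit 0) (nat_lit 6520457626) (nat_lit 672) (nat_lit 9905661011) (nat_lit 84) (nat_lit 12207718464)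 (nat_lit 93) (nat_lit 5) (nat_lit 101) (nat_lit 5) (nat_lit 94) (nat_lit 5) (nat_lit 362) (nat_lit 338) (nat_lit 164)))) (XT.nd (nat_lit 94) (nat_lit 0) (nat_lit 0) (XT.lf (nat_lit 0) (nat_lit 1467764171) (nat_lit 504) (nat_lit 7151526902) (nat_lit 588) (nat_lit 20552923839) (nat_lit 87) (nat_lit 5) (nat_lit 93) (nat_lit 5) (nat_lit 94) (nat_lit 5) (nat_lit 363) (nat_lit 338) (nat_lit 163)) (XT.nd (nat_lit 94) (nat_lit 0) (nat_lit 0) (XT.lf (nat_lit 0) (nat_lit 10908314701) (nat_lit 588) (nat_lit 16348523697) (nat_lit 84) (nat_lit 2466576156) (nat_lit 87) (nat_lit 5) (nat_lit 94) (nat_lit 5) (nat_lit 88) (nat_lit 5) (nat_lit 364) (nat_lit 338) (nat_lit 162)) (XT.lf (nat_lit 0) (nat_lit 13338299603) (nat_lit 588) (nat_lit 4716845040) (nat_lit 84) (nat_lit 12234397399) (nat_lit 87) (nat_lit 5) (nat_lit 94) (nat_lit 5) (nat_lit 88) (nat_lit 5) (nat_lit 365) (nat_lit 338) (nat_lit 161)))))))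 (XT.nd (nat_lit 52170) (nat_lit 0) (nat_lit 3696) (XT.nd (nat_lit 470) (nat_lit 420) (nat_lit 0) (XT.nd (nat_lit 188) (nat_lit 420) (nat_lit 0) (XT.nd (nat_lit 94) (nat_lit 0) (nat_lit 0) (XT.lf (nat_lit 0) (nat_lit 7421906070) (nat_lit 504) (nat_lit 8492286902) (nat_lit 588) (nat_lit 14956848944) (nat_lit 81) (nat_lit 5) (nat_lit 87) (nat_lit 5) (nat_lit 88) (nat_lit 5) (nat_lit 366) (nat_lit 338) (nat_lit 160)) (XT.lf (nat_lit 0) (nat_lit 18630251938) (nat_lit 588) (nat_lit 11449269450) (nat_lit 84) (nat_lit 1389187268) (nat_lit 81) (nat_lit 5) (nat_lit 88) (nat_lit 5) (nat_lit 82) (nat_lit 5) (nat_lit 367) (nat_lit 338) (nat_lit 159))) (XT.nd (nat_lit 94) (nat_lit 0) (nat_lit 0) (XT.lf (nat_lit 0) (nat_lit 849836719) (nat_lit 420) (nat_lit 20673062555) (nat_lit 504) (nat_lit 10559149452) (nat_lit 76) (nat_lit 5) (nat_lit 81) (nat_lit 5) (nat_lit 82) (nat_lit 5) (nat_lit 368) (nat_lit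 338) (nat_lit 158)) (XT.nd (nat_lit 94) (nat_lit 0) (nat_lit 0) (XT.lf (nat_lit 0) (nat_lit 13769941991) (nat_lit 420) (nat_lit 10851944918) (nat_lit 504) (nat_lit 8088908188) (nat_lit 76) (nat_lit 5) (nat_lit 81) (nat_lit 5) (nat_lit 82) (nat_lit 5) (nat_lit 369) (nat_lit 338) (nat_lit 157)) (XT.lf (nat_lit 0) (nat_lit 27087668796) (nat_lit 420) (nat_lit 726521056) (nat_lit 504) (nat_lit 5544937294) (nat_lit 76) (nat_lit 5) (nat_lit 81) (nat_lit 5) (nat_lit 82) (nat_lit 5) (nat_lit 370) (nat_lit 338) (nat_lit 156))))) (XT.nd (nat_lit 51418) (nat_lit 0) (nat_lit 3612) (XT.nd (nat_lit 51230) (nat_lit 0) (nat_lit 3612) (XT.lf (nat_lit 0) (nat_lit 6829020342) (nat_lit 420) (nat_lit 24437858712) (nat_lit 504) (nat_lit 2755683178) (nat_lit 71) (nat_lit 5) (nat_lit 76) (nat_lit 5) (nat_lit 77) (nat_lit 5) (nat_lit 371) (nat_lit 338) (nat_lit 155)) (XT.nd (nat_lit 94) (nat_lit 0) (nat_lit 0) (XT.lf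 (nat_lit 0) (nat_lit 1456242416) (nat_lit 0) (nat_lit 1456242416) (nat_lit 1092) (nat_lit 6950770947) (nat_lit 114) (nat_lit 5) (nat_lit 114) (nat_lit 3) (nat_lit 127) (nat_lit 3) (nat_lit 339) (nat_lit 339) (nat_lit 186)) (XT.lf (nat_lit 0) (nat_lit 6109554101) (nat_lit 1092) (nat_lit 9315370625) (nat_lit 1176) (nat_lit 4600771831) (nat_lit 114) (nat_lit 5) (nat_lit 127) (nat_lit 3) (nat_lit 128) (nat_lit 5) (nat_lit 340) (nat_lit 339) (nat_lit 185)))) (XT.nd (nat_lit 94) (nat_lit 0) (nat_lit 0) (XT.lf (nat_lit 0) (nat_lit 6426825640) (nat_lit 1092) (nat_lit 1617256575) (nat_lit 1176) (nat_lit 12289356530) (nat_lit 114) (nat_lit 5) (nat_lit 127) (nat_lit 3) (nat_lit 128) (nat_lit 5) (nat_lit 341) (nat_lit 339) (nat_lit 184)) (XT.nd (nat_lit 94) (nat_lit 0) (nat_lit 84) (XT.lf (nat_lit 84) (nat_lit 6446260870) (nat_lit 0) (nat_lit 365874638) (nat_lit 1176) (nat_lit 13836802743) (nat_lit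 115) (nat_lit 5) (nat_lit 114) (nat_lit 5) (nat_lit 128) (nat_lit 5) (nat_lit 342) (nat_lit 339) (nat_lit 183)) (XT.lf (nat_lit 0) (nat_lit 7295766282) (nat_lit 1092) (nat_lit 6258039724) (nat_lit 1176) (nat_lit 7417755526) (nat_lit 115) (nat_lit 5) (nat_lit 128) (nat_lit 5) (nat_lit 129) (nat_lit 5) (nat_lit 343) (nat_lit 339) (nat_lit 182)))))) (XT.nd (nat_lit 470) (nat_lit 0) (nat_lit 168) (XT.nd (nat_lit 188) (nat_lit 0) (nat_lit 84) (XT.nd (nat_lit 94) (nat_lit 0) (nat_lit 84) (XT.lf (nat_lit 84) (nat_lit 1965536181) (nat_lit 0) (nat_lit 5846683860) (nat_lit 1176) (nat_lit 13491433671) (nat_lit 116) (nat_lit 5) (nat_lit 115) (nat_lit 5) (nat_lit 129) (nat_lit 5) (nat_lit 344) (nat_lit 339) (nat_lit 181)) (XT.lf (nat_lit 0) (nat_lit 8426241080) (nat_lit 1092) (nat_lit 11092176149) (nat_lit 1176) (nat_lit 2125114960) (nat_lit 116) (nat_lit 5) (nat_lit 129) (nat_lit 5) (nat_lit 130) (nat_lit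 5) (nat_lit 345) (nat_lit 339) (nat_lit 180))) (XT.nd (nat_lit 94) (nat_lit 0) (nat_lit 0) (XT.lf (nat_lit 0) (nat_lit 9113994814) (nat_lit 1092) (nat_lit 2653683346) (nat_lit 1176) (nat_lit 10224592218) (nat_lit 116) (nat_lit 5) (nat_lit 129) (nat_lit 5) (nat_lit 130) (nat_lit 5) (nat_lit 346) (nat_lit 339) (nat_lit 179)) (XT.nd (nat_lit 94) (nat_lit 0) (nat_lit 84) (XT.lf (nat_lit 84) (nat_lit 6167487391) (nat_lit 0) (nat_lit 3711817323) (nat_lit 1176) (nat_lit 12470789972) (nat_lit 117) (nat_lit 5) (nat_lit 116) (nat_lit 5) (nat_lit 130) (nat_lit 5) (nat_lit 347) (nat_lit 339) (nat_lit 178)) (XT.lf (nat_lit 0) (nat_lit 10737080156) (nat_lit 1092) (nat_lit 7448964582) (nat_lit 1176) (nat_lit 4530853825) (nat_lit 117) (nat_lit 5) (nat_lit 130) (nat_lit 5) (nat_lit 131) (nat_lit 5) (nat_lit 348) (nat_lit 339) (nat_lit 177))))) (XT.nd (nat_lit 282) (nat_lit 0) (nat_lit 84) (XT.nd (nat_lit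 94) (nat_lit 0) (nat_lit 0) (XT.lf (nat_lit 84) (nat_lit 1545364937) (nat_lit 0) (nat_lit 10124707574) (nat_lit 1176) (nat_lit 11423510896) (nat_lit 118) (nat_lit 5) (nat_lit 117) (nat_lit 5) (nat_lit 131) (nat_lit 5) (nat_lit 349) (nat_lit 339) (nat_lit 176)) (XT.nd (nat_lit 94) (nat_lit 0) (nat_lit 84) (XT.lf (nat_lit 84) (nat_lit 10973236877) (nat_lit 0) (nat_lit 1731943803) (nat_lit 1176) (nat_lit 10774512734) (nat_lit 118) (nat_lit 5) (nat_lit 117) (nat_lit 5) (nat_lit 131) (nat_lit 5) (nat_lit 350) (nat_lit 339) (nat_lit 175)) (XT.lf (nat_lit 0) (nat_lit 13836625667) (nat_lit 1092) (nat_lit 3256323557) (nat_lit 1176) (nat_lit 6782848319) (nat_lit 118) (nat_lit 5) (nat_lit 131) (nat_lit 5) (nat_lit 132) (nat_lit 5) (nat_lit 351) (nat_lit 339) (nat_lit 174)))) (XT.nd (nat_lit 94) (nat_lit 0) (nat_lit 84) (XT.lf (nat_lit 84) (nat_lit 6388393505) (nat_lit 0) (nat_lit 8691563197) (nat_lit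 1176) (nat_lit 9201858969) (nat_lit 119) (nat_lit 5) (nat_lit 118) (nat_lit 5) (nat_lit 132) (nat_lit 5) (nat_lit 352) (nat_lit 339) (nat_lit 173)) (XT.nd (nat_lit 94) (nat_lit 0) (nat_lit 0) (XT.lf (nat_lit 0) (nat_lit 16391704695) (nat_lit 1092) (nat_lit 8301581676) (nat_lit 1176) (nat_lit 6223344) (nat_lit 119) (nat_lit 5) (nat_lit 132) (nat_lit 5) (nat_lit 133) (nat_lit 5) (nat_lit 353) (nat_lit 339) (nat_lit 172)) (XT.lf (nat_lit 84) (nat_lit 1526270064) (nat_lit 0) (nat_lit 16317838871) (nat_lit 1176) (nat_lit 7282958562) (nat_lit 120) (nat_lit 5) (nat_lit 119) (nat_lit 5) (nat_lit 133) (nat_lit 5) (nat_lit 354) (nat_lit 339) (nat_lit 171))))))))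
noncomputable def xc116 : XT := (XT.nd (nat_lit 53204) (nat_lit 0) (nat_lit 1428) (XT.nd (nat_lit 940) (nat_lit 924) (nat_lit 0) (XT.nd (nat_lit 470) (nat_lit 1176) (nat_lit 0) (XT.nd (nat_lit 188) (nat_lit 1512) (nat_lit 0) (XT.nd (nat_lit 94) (nat_lit 0) (nat_lit 84) (XT.lf (nat_lit 84) (nat_lit 11831614200) (nat_lit 0) (nat_lit 7592622233) (nat_lit 1176) (nat_lit 6141094002) (nat_lit 120) (nat_lit 5) (nat_lit 119) (nat_lit 5) (nat_lit 133) (nat_lit 5) (nat_lit 355) (nat_lit 339) (nat_lit 170)) (XT.lf (nat_lit 0) (nat_lit 21063440290) (nat_lit 1092) (nat_lit 3577879933) (nat_lit 84) (nat_lit 1375560526) (nat_lit 120) (nat_lit 5) (nat_lit 133) (nat_lit 5) (nat_lit 121) (nat_lit 5) (nat_lit 356) (nat_lit 339) (nat_lit 169))) (XT.nd (nat_lit 94) (nat_lit 504) (nat_lit 0) (XT.lf (nat_lit 0) (nat_lit 6952092464) (nat_lit 1092) (nat_lit 15944276050) (nat_lit 1176) (nat_lit 3581644094) (nat_lit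 107) (nat_lit 5) (nat_lit 120) (nat_lit 5) (nat_lit 121) (nat_lit 5) (nat_lit 357) (nat_lit 339) (nat_lit 168)) (XT.nd (nat_lit 94) (nat_lit 504) (nat_lit 0) (XT.lf (nat_lit 0) (nat_lit 17881265325) (nat_lit 1092) (nat_lit 6938567737) (nat_lit 1176) (nat_lit 2132574563) (nat_lit 107) (nat_lit 5) (nat_lit 120) (nat_lit 5) (nat_lit 121) (nat_lit 5) (nat_lit 358) (nat_lit 339) (nat_lit 167)) (XT.lf (nat_lit 0) (nat_lit 1715917167) (nat_lit 504) (nat_lit 25123790003) (nat_lit 588) (nat_lit 600674327) (nat_lit 101) (nat_lit 5) (nat_lit 107) (nat_lit 5) (nat_lit 108) (nat_lit 5) (nat_lit 359) (nat_lit 339) (nat_lit 166))))) (XT.nd (nat_lit 188) (nat_lit 1092) (nat_lit 0) (XT.nd (nat_lit 94) (nat_lit 0) (nat_lit 0) (XT.lf (nat_lit 0) (nat_lit 1122125662) (nat_lit 588) (nat_lit 14995675951) (nat_lit 84) (nat_lit 11820335041) (nat_lit 100) (nat_lit 5) (nat_lit 107) (nat_lit 5) (nat_lit 101) (nat_lit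 5) (nat_lit 360) (nat_lit 339) (nat_lit 165)) (XT.lf (nat_lit 0) (nat_lit 2882471934) (nat_lit 588) (nat_lit 3943508389) (nat_lit 84) (nat_lit 21625268055) (nat_lit 100) (nat_lit 5) (nat_lit 107) (nat_lit 5) (nat_lit 101) (nat_lit 5) (nat_lit 361) (nat_lit 339) (nat_lit 164))) (XT.nd (nat_lit 94) (nat_lit 504) (nat_lit 0) (XT.lf (nat_lit 0) (nat_lit 4797608061) (nat_lit 672) (nat_lit 21404684002) (nat_lit 84) (nat_lit 2774879090) (nat_lit 93) (nat_lit 5) (nat_lit 101) (nat_lit 5) (nat_lit 94) (nat_lit 5) (nat_lit 362) (nat_lit 339) (nat_lit 163)) (XT.nd (nat_lit 94) (nat_lit 504) (nat_lit 0) (XT.lf (nat_lit 0) (nat_lit 6880300936) (nat_lit 672) (nat_lit 10062337917) (nat_lit 84) (nat_lit 12573415901) (nat_lit 93) (nat_lit 5) (nat_lit 101) (nat_lit 5) (nat_lit 94) (nat_lit 5) (nat_lit 363) (nat_lit 339) (nat_lit 162)) (XT.lf (nat_lit 0) (nat_lit 1662140795) (nat_lit 504) (nat_lit 7378792311)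 (nat_lit 588) (nat_lit 21030306696) (nat_lit 87) (nat_lit 5) (nat_lit 93) (nat_lit 5) (nat_lit 94) (nat_lit 5) (nat_lit 364) (nat_lit 339) (nat_lit 161)))))) (XT.nd (nat_lit 470) (nat_lit 0) (nat_lit 0) (XT.nd (nat_lit 188) (nat_lit 924) (nat_lit 0) (XT.nd (nat_lit 94) (nat_lit 0) (nat_lit 0) (XT.lf (nat_lit 0) (nat_lit 11396219086) (nat_lit 588) (nat_lit 16705720809) (nat_lit 84) (nat_lit 2537748173) (nat_lit 87) (nat_lit 5) (nat_lit 94) (nat_lit 5) (nat_lit 88) (nat_lit 5) (nat_lit 365) (nat_lit 339) (nat_lit 160)) (XT.lf (nat_lit 0) (nat_lit 13897030953) (nat_lit 588) (nat_lit 4717958485) (nat_lit 84) (nat_lit 12608530989) (nat_lit 87) (nat_lit 5) (nat_lit 94) (nat_lit 5) (nat_lit 88) (nat_lit 5) (nat_lit 366) (nat_lit 339) (nat_lit 159))) (XT.nd (nat_lit 94) (nat_lit 420) (nat_lit 0) (XT.lf (nat_lit 0) (nat_lit 7795624813) (nat_lit 504) (nat_lit 8754209943) (nat_lit 588) (nat_lit 15273318130)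 (nat_lit 81) (nat_lit 5) (nat_lit 87) (nat_lit 5) (nat_lit 88) (nat_lit 5) (nat_lit 367) (nat_lit 339) (nat_lit 158)) (XT.nd (nat_lit 94) (nat_lit 420) (nat_lit 0) (XT.lf (nat_lit 0) (nat_lit 19345825708) (nat_lit 588) (nat_lit 11660144706) (nat_lit 84) (nat_lit 1433523555) (nat_lit 81) (nat_lit 5) (nat_lit 88) (nat_lit 5) (nat_lit 82) (nat_lit 5) (nat_lit 368) (nat_lit 339) (nat_lit 157)) (XT.lf (nat_lit 0) (nat_lit 1018775356) (nat_lit 420) (nat_lit 21306633851) (nat_lit 504) (nat_lit 10746537185) (nat_lit 76) (nat_lit 5) (nat_lit 81) (nat_lit 5) (nat_lit 82) (nat_lit 5) (nat_lit 369) (nat_lit 339) (nat_lit 156))))) (XT.nd (nat_lit 51512) (nat_lit 0) (nat_lit 3192) (XT.nd (nat_lit 94) (nat_lit 0) (nat_lit 0) (XT.lf (nat_lit 0) (nat_lit 14335116399) (nat_lit 420) (nat_lit 11181280871) (nat_lit 504) (nat_lit 8203926320) (nat_lit 76) (nat_lit 5) (nat_lit 81) (nat_lit 5) (nat_lit 82) (nat_lit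 5) (nat_lit 370) (nat_lit 339) (nat_lit 155)) (XT.nd (nat_lit 51324) (nat_lit 0) (nat_lit 3192) (XT.lf (nat_lit 0) (nat_lit 28061534159) (nat_lit 420) (nat_lit 742181580) (nat_lit 504) (nat_lit 5585173685) (nat_lit 76) (nat_lit 5) (nat_lit 81) (nat_lit 5) (nat_lit 82) (nat_lit 5) (nat_lit 371) (nat_lit 339) (nat_lit 154)) (XT.lf (nat_lit 0) (nat_lit 1574512598) (nat_lit 0) (nat_lit 1574512598) (nat_lit 1092) (nat_lit 7014910428) (nat_lit 114) (nat_lit 5) (nat_lit 114) (nat_lit 3) (nat_lit 127) (nat_lit 3) (nat_lit 340) (nat_lit 340) (nat_lit 184)))) (XT.nd (nat_lit 94) (nat_lit 0) (nat_lit 0) (XT.lf (nat_lit 0) (nat_lit 6581254659) (nat_lit 1092) (nat_lit 9451027470) (nat_lit 1176) (nat_lit 4604398032) (nat_lit 114) (nat_lit 5) (nat_lit 127) (nat_lit 3) (nat_lit 128) (nat_lit 5) (nat_lit 341) (nat_lit 340) (nat_lit 183)) (XT.nd (nat_lit 94) (nat_lit 0) (nat_lit 0) (XT.lf (nat_lit 0) (nat_lit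 6899873317) (nat_lit 1092) (nat_lit 1518875870) (nat_lit 1176) (nat_lit 12535508225) (nat_lit 114) (nat_lit 5) (nat_lit 127) (nat_lit 3) (nat_lit 128) (nat_lit 5) (nat_lit 342) (nat_lit 340) (nat_lit 182)) (XT.lf (nat_lit 84) (nat_lit 6793107029) (nat_lit 0) (nat_lit 497246068) (nat_lit 1176) (nat_lit 13989425282) (nat_lit 115) (nat_lit 5) (nat_lit 114) (nat_lit 5) (nat_lit 128) (nat_lit 5) (nat_lit 343) (nat_lit 340) (nat_lit 181))))))) (XT.nd (nat_lit 940) (nat_lit 1848) (nat_lit 0) (XT.nd (nat_lit 470) (nat_lit 0) (nat_lit 168) (XT.nd (nat_lit 188) (nat_lit 0) (nat_lit 84) (XT.nd (nat_lit 94) (nat_lit 0) (nat_lit 0) (XT.lf (nat_lit 0) (nat_lit 7779792148) (nat_lit 1092) (nat_lit 6299294303) (nat_lit 1176) (nat_lit 7533631270) (nat_lit 115) (nat_lit 5) (nat_lit 128) (nat_lit 5) (nat_lit 129) (nat_lit 5) (nat_lit 344) (nat_lit 340) (nat_lit 180)) (XT.lf (nat_lit 84) (nat_lit 2177666053)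 (nat_lit 0) (nat_lit 6128336606) (nat_lit 1176) (nat_lit 13649325079) (nat_lit 116) (nat_lit 5) (nat_lit 115) (nat_lit 5) (nat_lit 129) (nat_lit 5) (nat_lit 345) (nat_lit 340) (nat_lit 179))) (XT.nd (nat_lit 94) (nat_lit 0) (nat_lit 0) (XT.lf (nat_lit 0) (nat_lit 8930527066) (nat_lit 1092) (nat_lit 11279939017) (nat_lit 1176) (nat_lit 2095569083) (nat_lit 116) (nat_lit 5) (nat_lit 129) (nat_lit 5) (nat_lit 130) (nat_lit 5) (nat_lit 346) (nat_lit 340) (nat_lit 178)) (XT.nd (nat_lit 94) (nat_lit 0) (nat_lit 0) (XT.lf (nat_lit 0) (nat_lit 9632292487) (nat_lit 1092) (nat_lit 2584546373) (nat_lit 1176) (nat_lit 10448999349) (nat_lit 116) (nat_lit 5) (nat_lit 129) (nat_lit 5) (nat_lit 130) (nat_lit 5) (nat_lit 347) (nat_lit 340) (nat_lit 177)) (XT.lf (nat_lit 84) (nat_lit 6508547856) (nat_lit 0) (nat_lit 3907176928) (nat_lit 1176) (nat_lit 12619230530) (nat_lit 117) (nat_lit 5) (nat_lit 116) (nat_lit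 5) (nat_lit 130) (nat_lit 5) (nat_lit 348) (nat_lit 340) (nat_lit 176))))) (XT.nd (nat_lit 188) (nat_lit 0) (nat_lit 0) (XT.nd (nat_lit 94) (nat_lit 0) (nat_lit 0) (XT.lf (nat_lit 0) (nat_lit 11292398220) (nat_lit 1092) (nat_lit 7525995790) (nat_lit 1176) (nat_lit 4595000364) (nat_lit 117) (nat_lit 5) (nat_lit 130) (nat_lit 5) (nat_lit 131) (nat_lit 5) (nat_lit 349) (nat_lit 340) (nat_lit 175)) (XT.lf (nat_lit 84) (nat_lit 1745599980) (nat_lit 0) (nat_lit 10503535315) (nat_lit 1176) (nat_lit 11552806672) (nat_lit 118) (nat_lit 5) (nat_lit 117) (nat_lit 5) (nat_lit 131) (nat_lit 5) (nat_lit 350) (nat_lit 340) (nat_lit 174))) (XT.nd (nat_lit 94) (nat_lit 0) (nat_lit 84) (XT.lf (nat_lit 84) (nat_lit 11461155746) (nat_lit 0) (nat_lit 1848642603) (nat_lit 1176) (nat_lit 10890449825) (nat_lit 118) (nat_lit 5) (nat_lit 117) (nat_lit 5) (nat_lit 131) (nat_lit 5) (nat_lit 351) (nat_lit 340) (nat_lit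 173)) (XT.nd (nat_lit 94) (nat_lit 0) (nat_lit 0) (XT.lf (nat_lit 0) (nat_lit 14469374851) (nat_lit 1092) (nat_lit 3206261522) (nat_lit 1176) (nat_lit 6933233921) (nat_lit 118) (nat_lit 5) (nat_lit 131) (nat_lit 5) (nat_lit 132) (nat_lit 5) (nat_lit 352) (nat_lit 340) (nat_lit 172)) (XT.lf (nat_lit 84) (nat_lit 6735912947) (nat_lit 0) (nat_lit 9010690801) (nat_lit 1176) (nat_lit 9281038056) (nat_lit 119) (nat_lit 5) (nat_lit 118) (nat_lit 5) (nat_lit 132) (nat_lit 5) (nat_lit 353) (nat_lit 340) (nat_lit 171)))))) (XT.nd (nat_lit 470) (nat_lit 1176) (nat_lit 0) (XT.nd (nat_lit 188) (nat_lit 924) (nat_lit 0) (XT.nd (nat_lit 94) (nat_lit 0) (nat_lit 84) (XT.lf (nat_lit 84) (nat_lit 17051315499) (nat_lit 0) (nat_lit 41646897) (nat_lit 1176) (nat_lit 8365531755) (nat_lit 119) (nat_lit 5) (nat_lit 118) (nat_lit 5) (nat_lit 132) (nat_lit 5) (nat_lit 354) (nat_lit 340) (nat_lit 170)) (XT.lf (nat_lit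 84) (nat_lit 1724209098) (nat_lit 0) (nat_lit 16861469008) (nat_lit 1176) (nat_lit 7313795686) (nat_lit 120) (nat_lit 5) (nat_lit 119) (nat_lit 5) (nat_lit 133) (nat_lit 5) (nat_lit 355) (nat_lit 340) (nat_lit 169))) (XT.nd (nat_lit 94) (nat_lit 1008) (nat_lit 0) (XT.lf (nat_lit 84) (nat_lit 12344489936) (nat_lit 0) (nat_lit 7864634775) (nat_lit 1176) (nat_lit 6142394598) (nat_lit 120) (nat_lit 5) (nat_lit 119) (nat_lit 5) (nat_lit 133) (nat_lit 5) (nat_lit 356) (nat_lit 340) (nat_lit 168)) (XT.nd (nat_lit 94) (nat_lit 1092) (nat_lit 0) (XT.lf (nat_lit 0) (nat_lit 21893296815) (nat_lit 1092) (nat_lit 3540592901) (nat_lit 84) (nat_lit 1383379417) (nat_lit 120) (nat_lit 5) (nat_lit 133) (nat_lit 5) (nat_lit 121) (nat_lit 5) (nat_lit 357) (nat_lit 340) (nat_lit 167)) (XT.lf (nat_lit 0) (nat_lit 7314308235) (nat_lit 1092) (nat_lit 16464874163) (nat_lit 1176) (nat_lit 3513653030) (nat_lit 107)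 (nat_lit 5) (nat_lit 120) (nat_lit 5) (nat_lit 121) (nat_lit 5) (nat_lit 358) (nat_lit 340) (nat_lit 166))))) (XT.nd (nat_lit 282) (nat_lit 588) (nat_lit 0) (XT.nd (nat_lit 94) (nat_lit 588) (nat_lit 0) (XT.lf (nat_lit 0) (nat_lit 18577874467) (nat_lit 1092) (nat_lit 7179197339) (nat_lit 1176) (nat_lit 2025045160) (nat_lit 107) (nat_lit 5) (nat_lit 120) (nat_lit 5) (nat_lit 121) (nat_lit 5) (nat_lit 359) (nat_lit 340) (nat_lit 165)) (XT.nd (nat_lit 94) (nat_lit 84) (nat_lit 0) (XT.lf (nat_lit 0) (nat_lit 1915967116) (nat_lit 504) (nat_lit 25919759935) (nat_lit 588) (nat_lit 449628286) (nat_lit 101) (nat_lit 5) (nat_lit 107) (nat_lit 5) (nat_lit 108) (nat_lit 5) (nat_lit 360) (nat_lit 340) (nat_lit 164)) (XT.lf (nat_lit 0) (nat_lit 1318161348) (nat_lit 588) (nat_lit 15314226303) (nat_lit 84) (nat_lit 12166273370) (nat_lit 100) (nat_lit 5) (nat_lit 107) (nat_lit 5) (nat_lit 101) (nat_lit 5)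 (nat_lit 361) (nat_lit 340) (nat_lit 163)))) (XT.nd (nat_lit 94) (nat_lit 588) (nat_lit 0) (XT.lf (nat_lit 0) (nat_lit 3128229913) (nat_lit 588) (nat_lit 3923840949) (nat_lit 84) (nat_lit 22275775461) (nat_lit 100) (nat_lit 5) (nat_lit 107) (nat_lit 5) (nat_lit 101) (nat_lit 5) (nat_lit 362) (nat_lit 340) (nat_lit 162)) (XT.nd (nat_lit 94) (nat_lit 0) (nat_lit 0) (XT.lf (nat_lit 0) (nat_lit 5099301053) (nat_lit 672) (nat_lit 21922352790) (nat_lit 84) (nat_lit 2848541626) (nat_lit 93) (nat_lit 5) (nat_lit 101) (nat_lit 5) (nat_lit 94) (nat_lit 5) (nat_lit 363) (nat_lit 340) (nat_lit 161)) (XT.lf (nat_lit 0) (nat_lit 7241958007) (nat_lit 672) (nat_lit 10232780173) (nat_lit 84) (nat_lit 12951204678) (nat_lit 93) (nat_lit 5) (nat_lit 101) (nat_lit 5) (nat_lit 94) (nat_lit 5) (nat_lit 364) (nat_lit 340) (nat_lit 160))))))))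
noncomputable def xc117 : XT := (XT.nd (nat_lit 53298) (nat_lit 0) (nat_lit 0) (XT.nd (nat_lit 52264) (nat_lit 0) (nat_lit 3192) (XT.nd (nat_lit 470) (nat_lit 420) (nat_lit 0) (XT.nd (nat_lit 188) (nat_lit 504) (nat_lit 0) (XT.nd (nat_lit 94) (nat_lit 0) (nat_lit 0) (XT.lf (nat_lit 0) (nat_lit 1853724917) (nat_lit 504) (nat_lit 7612773142) (nat_lit 588) (nat_lit 21531951148) (nat_lit 87) (nat_lit 5) (nat_lit 93) (nat_lit 5) (nat_lit 94) (nat_lit 5) (nat_lit 365) (nat_lit 340) (nat_lit 159)) (XT.lf (nat_lit 0) (nat_lit 11890378756) (nat_lit 588) (nat_lit 17082852518) (nat_lit 84) (nat_lit 2611439967) (nat_lit 87) (nat_lit 5) (nat_lit 94) (nat_lit 5) (nat_lit 88) (nat_lit 5) (nat_lit 366) (nat_lit 340) (nat_lit 158))) (XT.nd (nat_lit 94) (nat_lit 504) (nat_lit 0) (XT.lf (nat_lit 0) (nat_lit 14464479920) (nat_lit 588) (nat_lit 4727701487) (nat_lit 84) (nat_lit 12994566740) (nat_lit 87) (nat_lit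 5) (nat_lit 94) (nat_lit 5) (nat_lit 88) (nat_lit 5) (nat_lit 367) (nat_lit 340) (nat_lit 157)) (XT.nd (nat_lit 94) (nat_lit 0) (nat_lit 0) (XT.lf (nat_lit 0) (nat_lit 8172420815) (nat_lit 504) (nat_lit 9024331842) (nat_lit 588) (nat_lit 15608316362) (nat_lit 81) (nat_lit 5) (nat_lit 87) (nat_lit 5) (nat_lit 88) (nat_lit 5) (nat_lit 368) (nat_lit 340) (nat_lit 156)) (XT.lf (nat_lit 0) (nat_lit 20075406158) (nat_lit 588) (nat_lit 11886089547) (nat_lit 84) (nat_lit 1479158956) (nat_lit 81) (nat_lit 5) (nat_lit 88) (nat_lit 5) (nat_lit 82) (nat_lit 5) (nat_lit 369) (nat_lit 340) (nat_lit 155))))) (XT.nd (nat_lit 51512) (nat_lit 0) (nat_lit 3192) (XT.nd (nat_lit 94) (nat_lit 0) (nat_lit 0) (XT.lf (nat_lit 0) (nat_lit 1184505022) (nat_lit 420) (nat_lit 21960277872) (nat_lit 504) (nat_lit 10948023172) (nat_lit 76) (nat_lit 5) (nat_lit 81) (nat_lit 5) (nat_lit 82) (nat_lit 5) (nat_lit 370) (nat_lit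 340) (nat_lit 154)) (XT.lf (nat_lit 0) (nat_lit 14909619101) (nat_lit 420) (nat_lit 11521245265) (nat_lit 504) (nat_lit 8330550010) (nat_lit 76) (nat_lit 5) (nat_lit 81) (nat_lit 5) (nat_lit 82) (nat_lit 5) (nat_lit 371) (nat_lit 340) (nat_lit 153))) (XT.nd (nat_lit 94) (nat_lit 0) (nat_lit 0) (XT.lf (nat_lit 0) (nat_lit 1692117738) (nat_lit 0) (nat_lit 1692117738) (nat_lit 1092) (nat_lit 7090002030) (nat_lit 114) (nat_lit 5) (nat_lit 114) (nat_lit 3) (nat_lit 127) (nat_lit 3) (nat_lit 341) (nat_lit 341) (nat_lit 182)) (XT.nd (nat_lit 94) (nat_lit 0) (nat_lit 0) (XT.lf (nat_lit 0) (nat_lit 7050856563) (nat_lit 1092) (nat_lit 9599959215) (nat_lit 1176) (nat_lit 4616369718) (nat_lit 114) (nat_lit 5) (nat_lit 127) (nat_lit 3) (nat_lit 128) (nat_lit 5) (nat_lit 342) (nat_lit 341) (nat_lit 181)) (XT.lf (nat_lit 0) (nat_lit 7371366877) (nat_lit 1092) (nat_lit 1426242199) (nat_lit 1176) (nat_lit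 12797276146) (nat_lit 114) (nat_lit 5) (nat_lit 127) (nat_lit 3) (nat_lit 128) (nat_lit 5) (nat_lit 343) (nat_lit 341) (nat_lit 180)))))) (XT.nd (nat_lit 470) (nat_lit 0) (nat_lit 168) (XT.nd (nat_lit 188) (nat_lit 0) (nat_lit 84) (XT.nd (nat_lit 94) (nat_lit 0) (nat_lit 84) (XT.lf (nat_lit 84) (nat_lit 7141997642) (nat_lit 0) (nat_lit 625580470) (nat_lit 1176) (nat_lit 14163145929) (nat_lit 115) (nat_lit 5) (nat_lit 114) (nat_lit 5) (nat_lit 128) (nat_lit 5) (nat_lit 344) (nat_lit 341) (nat_lit 179)) (XT.lf (nat_lit 0) (nat_lit 8263549498) (nat_lit 1092) (nat_lit 6350875102) (nat_lit 1176) (nat_lit 7659856000) (nat_lit 115) (nat_lit 5) (nat_lit 128) (nat_lit 5) (nat_lit 129) (nat_lit 5) (nat_lit 345) (nat_lit 341) (nat_lit 178))) (XT.nd (nat_lit 94) (nat_lit 0) (nat_lit 84) (XT.lf (nat_lit 84) (nat_lit 2387416218) (nat_lit 0) (nat_lit 6412773395) (nat_lit 1176) (nat_lit 13827531684) (nat_lit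 116) (nat_lit 5) (nat_lit 115) (nat_lit 5) (nat_lit 129) (nat_lit 5) (nat_lit 346) (nat_lit 341) (nat_lit 177)) (XT.nd (nat_lit 94) (nat_lit 0) (nat_lit 0) (XT.lf (nat_lit 0) (nat_lit 9436048317) (nat_lit 1092) (nat_lit 11482768284) (nat_lit 1176) (nat_lit 2070759437) (nat_lit 116) (nat_lit 5) (nat_lit 129) (nat_lit 5) (nat_lit 130) (nat_lit 5) (nat_lit 347) (nat_lit 341) (nat_lit 176)) (XT.lf (nat_lit 0) (nat_lit 10152692693) (nat_lit 1092) (nat_lit 2522233903) (nat_lit 1176) (nat_lit 10685845304) (nat_lit 116) (nat_lit 5) (nat_lit 129) (nat_lit 5) (nat_lit 130) (nat_lit 5) (nat_lit 348) (nat_lit 341) (nat_lit 175))))) (XT.nd (nat_lit 282) (nat_lit 0) (nat_lit 84) (XT.nd (nat_lit 94) (nat_lit 0) (nat_lit 84) (XT.lf (nat_lit 84) (nat_lit 6851304236) (nat_lit 0) (nat_lit 4103836773) (nat_lit 1176) (nat_lit 12786379010) (nat_lit 117) (nat_lit 5) (nat_lit 116) (nat_lit 5) (nat_lit 130) (nat_lit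 5) (nat_lit 349) (nat_lit 341) (nat_lit 174)) (XT.nd (nat_lit 94) (nat_lit 0) (nat_lit 0) (XT.lf (nat_lit 0) (nat_lit 11851753949) (nat_lit 1092) (nat_lit 7614529936) (nat_lit 1176) (nat_lit 4665655413) (nat_lit 117) (nat_lit 5) (nat_lit 130) (nat_lit 5) (nat_lit 131) (nat_lit 5) (nat_lit 350) (nat_lit 341) (nat_lit 173)) (XT.lf (nat_lit 84) (nat_lit 1943019619) (nat_lit 0) (nat_lit 10890258917) (nat_lit 1176) (nat_lit 11699427865) (nat_lit 118) (nat_lit 5) (nat_lit 117) (nat_lit 5) (nat_lit 131) (nat_lit 5) (nat_lit 351) (nat_lit 341) (nat_lit 172)))) (XT.nd (nat_lit 94) (nat_lit 0) (nat_lit 84) (XT.lf (nat_lit 84) (nat_lit 11955448702) (nat_lit 0) (nat_lit 1965226962) (nat_lit 1176) (nat_lit 11022897790) (nat_lit 118) (nat_lit 5) (nat_lit 117) (nat_lit 5) (nat_lit 131) (nat_lit 5) (nat_lit 352) (nat_lit 341) (nat_lit 171)) (XT.nd (nat_lit 94) (nat_lit 0) (nat_lit 0) (XT.lf (nat_lit 0)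 (nat_lit 15109667019) (nat_lit 1092) (nat_lit 3163592031) (nat_lit 1176) (nat_lit 7091828431) (nat_lit 118) (nat_lit 5) (nat_lit 131) (nat_lit 5) (nat_lit 132) (nat_lit 5) (nat_lit 353) (nat_lit 341) (nat_lit 170)) (XT.lf (nat_lit 84) (nat_lit 7085351581) (nat_lit 0) (nat_lit 9336768187) (nat_lit 1176) (nat_lit 9374878079) (nat_lit 119) (nat_lit 5) (nat_lit 118) (nat_lit 5) (nat_lit 132) (nat_lit 5) (nat_lit 354) (nat_lit 341) (nat_lit 169))))))) (XT.nd (nat_lit 1034) (nat_lit 1428) (nat_lit 0) (XT.nd (nat_lit 470) (nat_lit 1176) (nat_lit 0) (XT.nd (nat_lit 188) (nat_lit 924) (nat_lit 0) (XT.nd (nat_lit 94) (nat_lit 0) (nat_lit 84) (XT.lf (nat_lit 84) (nat_lit 17716303304) (nat_lit 0) (nat_lit 88278369) (nat_lit 1176) (nat_lit 8436820411) (nat_lit 119) (nat_lit 5) (nat_lit 118) (nat_lit 5) (nat_lit 132) (nat_lit 5) (nat_lit 355) (nat_lit 341) (nat_lit 168)) (XT.lf (nat_lit 84) (nat_lit 1919362485)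 (nat_lit 0) (nat_lit 17419714075) (nat_lit 1176) (nat_lit 7357135071) (nat_lit 120) (nat_lit 5) (nat_lit 119) (nat_lit 5) (nat_lit 133) (nat_lit 5) (nat_lit 356) (nat_lit 341) (nat_lit 167))) (XT.nd (nat_lit 94) (nat_lit 1008) (nat_lit 0) (XT.lf (nat_lit 84) (nat_lit 12864611321) (nat_lit 0) (nat_lit 8142909382) (nat_lit 1176) (nat_lit 6154934648) (nat_lit 120) (nat_lit 5) (nat_lit 119) (nat_lit 5) (nat_lit 133) (nat_lit 5) (nat_lit 357) (nat_lit 341) (nat_lit 166)) (XT.nd (nat_lit 94) (nat_lit 1092) (nat_lit 0) (XT.lf (nat_lit 0) (nat_lit 22738401402) (nat_lit 1092) (nat_lit 3510928188) (nat_lit 84) (nat_lit 1393503348) (nat_lit 120) (nat_lit 5) (nat_lit 133) (nat_lit 5) (nat_lit 121) (nat_lit 5) (nat_lit 358) (nat_lit 341) (nat_lit 165)) (XT.lf (nat_lit 0) (nat_lit 7679063350) (nat_lit 1092) (nat_lit 17000051510) (nat_lit 1176) (nat_lit 3454158025) (nat_lit 107) (nat_lit 5) (nat_lit 120)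 (nat_lit 5) (nat_lit 121) (nat_lit 5) (nat_lit 359) (nat_lit 341) (nat_lit 164))))) (XT.nd (nat_lit 282) (nat_lit 588) (nat_lit 0) (XT.nd (nat_lit 94) (nat_lit 588) (nat_lit 0) (XT.lf (nat_lit 0) (nat_lit 19287650418) (nat_lit 1092) (nat_lit 7425774036) (nat_lit 1176) (nat_lit 1924467293) (nat_lit 107) (nat_lit 5) (nat_lit 120) (nat_lit 5) (nat_lit 121) (nat_lit 5) (nat_lit 360) (nat_lit 341) (nat_lit 163)) (XT.nd (nat_lit 94) (nat_lit 84) (nat_lit 0) (XT.lf (nat_lit 0) (nat_lit 2113520051) (nat_lit 504) (nat_lit 26739390151) (nat_lit 588) (nat_lit 303949481) (nat_lit 101) (nat_lit 5) (nat_lit 107) (nat_lit 5) (nat_lit 108) (nat_lit 5) (nat_lit 361) (nat_lit 341) (nat_lit 162)) (XT.lf (nat_lit 0) (nat_lit 1510723040) (nat_lit 588) (nat_lit 15651318239) (nat_lit 84) (nat_lit 12524149566) (nat_lit 100) (nat_lit 5) (nat_lit 107) (nat_lit 5) (nat_lit 101) (nat_lit 5) (nat_lit 362) (nat_lit 341)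 (nat_lit 161)))) (XT.nd (nat_lit 94) (nat_lit 588) (nat_lit 0) (XT.lf (nat_lit 0) (nat_lit 3372342470) (nat_lit 588) (nat_lit 3911969757) (nat_lit 84) (nat_lit 22947625879) (nat_lit 100) (nat_lit 5) (nat_lit 107) (nat_lit 5) (nat_lit 101) (nat_lit 5) (nat_lit 363) (nat_lit 341) (nat_lit 160)) (XT.nd (nat_lit 94) (nat_lit 0) (nat_lit 0) (XT.lf (nat_lit 0) (nat_lit 5401286022) (nat_lit 672) (nat_lit 22464709820) (nat_lit 84) (nat_lit 2925219728) (nat_lit 93) (nat_lit 5) (nat_lit 101) (nat_lit 5) (nat_lit 94) (nat_lit 5) (nat_lit 364) (nat_lit 341) (nat_lit 159)) (XT.lf (nat_lit 0) (nat_lit 7606038373) (nat_lit 672) (nat_lit 10416886847) (nat_lit 84) (nat_lit 13341414926) (nat_lit 93) (nat_lit 5) (nat_lit 101) (nat_lit 5) (nat_lit 94) (nat_lit 5) (nat_lit 365) (nat_lit 341) (nat_lit 158)))))) (XT.nd (nat_lit 470) (nat_lit 420) (nat_lit 0) (XT.nd (nat_lit 188) (nat_lit 504) (nat_lit 0) (XT.nd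 (nat_lit 94) (nat_lit 0) (nat_lit 0) (XT.lf (nat_lit 0) (nat_lit 2042952287) (nat_lit 504) (nat_lit 7853697107) (nat_lit 588) (nat_lit 22058048811) (nat_lit 87) (nat_lit 5) (nat_lit 93) (nat_lit 5) (nat_lit 94) (nat_lit 5) (nat_lit 366) (nat_lit 341) (nat_lit 157)) (XT.lf (nat_lit 0) (nat_lit 12391512998) (nat_lit 588) (nat_lit 17480011915) (nat_lit 84) (nat_lit 2687711086) (nat_lit 87) (nat_lit 5) (nat_lit 94) (nat_lit 5) (nat_lit 88) (nat_lit 5) (nat_lit 367) (nat_lit 341) (nat_lit 156))) (XT.nd (nat_lit 94) (nat_lit 504) (nat_lit 0) (XT.lf (nat_lit 0) (nat_lit 15041426325) (nat_lit 588) (nat_lit 4745832463) (nat_lit 84) (nat_lit 13392855613) (nat_lit 87) (nat_lit 5) (nat_lit 94) (nat_lit 5) (nat_lit 88) (nat_lit 5) (nat_lit 368) (nat_lit 341) (nat_lit 155)) (XT.nd (nat_lit 94) (nat_lit 0) (nat_lit 0) (XT.lf (nat_lit 0) (nat_lit 8552893415) (nat_lit 504) (nat_lit 9302902069) (nat_lit 588)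 (nat_lit 15961901629) (nat_lit 81) (nat_lit 5) (nat_lit 87) (nat_lit 5) (nat_lit 88) (nat_lit 5) (nat_lit 369) (nat_lit 341) (nat_lit 154)) (XT.lf (nat_lit 0) (nat_lit 20819911780) (nat_lit 588) (nat_lit 12127065739) (nat_lit 84) (nat_lit 1526138202) (nat_lit 81) (nat_lit 5) (nat_lit 88) (nat_lit 5) (nat_lit 82) (nat_lit 5) (nat_lit 370) (nat_lit 341) (nat_lit 153))))) (XT.nd (nat_lit 51700) (nat_lit 0) (nat_lit 3192) (XT.nd (nat_lit 51512) (nat_lit 0) (nat_lit 3192) (XT.lf (nat_lit 0) (nat_lit 1347426514) (nat_lit 420) (nat_lit 22634591284) (nat_lit 504) (nat_lit 11163553475) (nat_lit 76) (nat_lit 5) (nat_lit 81) (nat_lit 5) (nat_lit 82) (nat_lit 5) (nat_lit 371) (nat_lit 341) (nat_lit 152)) (XT.nd (nat_lit 94) (nat_lit 0) (nat_lit 0) (XT.lf (nat_lit 0) (nat_lit 1809293777) (nat_lit 0) (nat_lit 1809293777) (nat_lit 1092) (nat_lit 7175854327) (nat_lit 114) (nat_lit 5) (nat_lit 114) (nat_lit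 3) (nat_lit 127) (nat_lit 3) (nat_lit 342) (nat_lit 342) (nat_lit 180)) (XT.lf (nat_lit 0) (nat_lit 7519285189) (nat_lit 1092) (nat_lit 9762040179) (nat_lit 1176) (nat_lit 4636457941) (nat_lit 114) (nat_lit 5) (nat_lit 127) (nat_lit 3) (nat_lit 128) (nat_lit 5) (nat_lit 343) (nat_lit 342) (nat_lit 179)))) (XT.nd (nat_lit 94) (nat_lit 0) (nat_lit 0) (XT.lf (nat_lit 0) (nat_lit 7842218798) (nat_lit 1092) (nat_lit 1339012670) (nat_lit 1176) (nat_lit 13074671397) (nat_lit 114) (nat_lit 5) (nat_lit 127) (nat_lit 3) (nat_lit 128) (nat_lit 5) (nat_lit 344) (nat_lit 342) (nat_lit 178)) (XT.nd (nat_lit 94) (nat_lit 0) (nat_lit 84) (XT.lf (nat_lit 84) (nat_lit 7493511863) (nat_lit 0) (nat_lit 751204807) (nat_lit 1176) (nat_lit 14357649290) (nat_lit 115) (nat_lit 5) (nat_lit 114) (nat_lit 5) (nat_lit 128) (nat_lit 5) (nat_lit 345) (nat_lit 342) (nat_lit 177)) (XT.lf (nat_lit 0) (nat_lit 8747934672)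 (nat_lit 1092) (nat_lit 6412566344) (nat_lit 1176) (nat_lit 7796350316) (nat_lit 115) (nat_lit 5) (nat_lit 128) (nat_lit 5) (nat_lit 129) (nat_lit 5) (nat_lit 346) (nat_lit 342) (nat_lit 176))))))))
noncomputable def xc118 : XT := (XT.nd (nat_lit 1974) (nat_lit 504) (nat_lit 0) (XT.nd (nat_lit 940) (nat_lit 2352) (nat_lit 0) (XT.nd (nat_lit 470) (nat_lit 0) (nat_lit 168) (XT.nd (nat_lit 188) (nat_lit 0) (nat_lit 84) (XT.nd (nat_lit 94) (nat_lit 0) (nat_lit 84) (XT.lf (nat_lit 84) (nat_lit 2595243372) (nat_lit 0) (nat_lit 6700432795) (nat_lit 1176) (nat_lit 14025769871) (nat_lit 116) (nat_lit 5) (nat_lit 115) (nat_lit 5) (nat_lit 129) (nat_lit 5) (nat_lit 347) (nat_lit 342) (nat_lit 175)) (XT.lf (nat_lit 0) (nat_lit 9943695920) (nat_lit 1092) (nat_lit 11700583366) (nat_lit 1176) (nat_lit 2050498058) (nat_lit 116) (nat_lit 5) (nat_lit 129) (nat_lit 5) (nat_lit 130) (nat_lit 5) (nat_lit 348)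 (nat_lit 342) (nat_lit 174))) (XT.nd (nat_lit 94) (nat_lit 0) (nat_lit 0) (XT.lf (nat_lit 0) (nat_lit 10676087762) (nat_lit 1092) (nat_lit 2466426321) (nat_lit 1176) (nat_lit 10935190969) (nat_lit 116) (nat_lit 5) (nat_lit 129) (nat_lit 5) (nat_lit 130) (nat_lit 5) (nat_lit 349) (nat_lit 342) (nat_lit 173)) (XT.nd (nat_lit 94) (nat_lit 0) (nat_lit 84) (XT.lf (nat_lit 84) (nat_lit 7196334903) (nat_lit 0) (nat_lit 4302118866) (nat_lit 1176) (nat_lit 12971979820) (nat_lit 117) (nat_lit 5) (nat_lit 116) (nat_lit 5) (nat_lit 130) (nat_lit 5) (nat_lit 350) (nat_lit 342) (nat_lit 172)) (XT.lf (nat_lit 0) (nat_lit 12416053019) (nat_lit 1092) (nat_lit 7714383719) (nat_lit 1176) (nat_lit 4742753012) (nat_lit 117) (nat_lit 5) (nat_lit 130) (nat_lit 5) (nat_lit 131) (nat_lit 5) (nat_lit 351) (nat_lit 342) (nat_lit 171))))) (XT.nd (nat_lit 188) (nat_lit 0) (nat_lit 84) (XT.nd (nat_lit 94) (nat_lit 0)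 (nat_lit 0) (XT.lf (nat_lit 84) (nat_lit 2138071004) (nat_lit 0) (nat_lit 11285351064) (nat_lit 1176) (nat_lit 11863122759) (nat_lit 118) (nat_lit 5) (nat_lit 117) (nat_lit 5) (nat_lit 131) (nat_lit 5) (nat_lit 352) (nat_lit 342) (nat_lit 170)) (XT.lf (nat_lit 84) (nat_lit 12456831702) (nat_lit 0) (nat_lit 2081914391) (nat_lit 1176) (nat_lit 11171603383) (nat_lit 118) (nat_lit 5) (nat_lit 117) (nat_lit 5) (nat_lit 131) (nat_lit 5) (nat_lit 353) (nat_lit 342) (nat_lit 169))) (XT.nd (nat_lit 94) (nat_lit 0) (nat_lit 0) (XT.lf (nat_lit 0) (nat_lit 15758451065) (nat_lit 1092) (nat_lit 3128014455) (nat_lit 1176) (nat_lit 7258676233) (nat_lit 118) (nat_lit 5) (nat_lit 131) (nat_lit 5) (nat_lit 132) (nat_lit 5) (nat_lit 354) (nat_lit 342) (nat_lit 168)) (XT.nd (nat_lit 94) (nat_lit 0) (nat_lit 0) (XT.lf (nat_lit 84) (nat_lit 7437293334) (nat_lit 0) (nat_lit 9670185129) (nat_lit 1176) (nat_lit 9483110523)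 (nat_lit 119) (nat_lit 5) (nat_lit 118) (nat_lit 5) (nat_lit 132) (nat_lit 5) (nat_lit 355) (nat_lit 342) (nat_lit 167)) (XT.lf (nat_lit 84) (nat_lit 18393826702) (nat_lit 0) (nat_lit 133669827) (nat_lit 1176) (nat_lit 8521457113) (nat_lit 119) (nat_lit 5) (nat_lit 118) (nat_lit 5) (nat_lit 132) (nat_lit 5) (nat_lit 356) (nat_lit 342) (nat_lit 166)))))) (XT.nd (nat_lit 470) (nat_lit 1680) (nat_lit 0) (XT.nd (nat_lit 188) (nat_lit 1008) (nat_lit 0) (XT.nd (nat_lit 94) (nat_lit 0) (nat_lit 0) (XT.lf (nat_lit 84) (nat_lit 2112172322) (nat_lit 0) (nat_lit 17993159671) (nat_lit 1176) (nat_lit 7412680378) (nat_lit 120) (nat_lit 5) (nat_lit 119) (nat_lit 5) (nat_lit 133) (nat_lit 5) (nat_lit 357) (nat_lit 342) (nat_lit 165)) (XT.lf (nat_lit 84) (nat_lit 13392715532) (nat_lit 0) (nat_lit 8427768729) (nat_lit 1176) (nat_lit 6178399233) (nat_lit 120) (nat_lit 5) (nat_lit 119) (nat_lit 5) (nat_lit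 133) (nat_lit 5) (nat_lit 358) (nat_lit 342) (nat_lit 164))) (XT.nd (nat_lit 94) (nat_lit 1092) (nat_lit 0) (XT.lf (nat_lit 0) (nat_lit 23599847341) (nat_lit 1092) (nat_lit 3488602137) (nat_lit 84) (nat_lit 1405881601) (nat_lit 120) (nat_lit 5) (nat_lit 133) (nat_lit 5) (nat_lit 121) (nat_lit 5) (nat_lit 359) (nat_lit 342) (nat_lit 163)) (XT.nd (nat_lit 94) (nat_lit 0) (nat_lit 0) (XT.lf (nat_lit 0) (nat_lit 8046951212) (nat_lit 1092) (nat_lit 17550352408) (nat_lit 1176) (nat_lit 3402794376) (nat_lit 107) (nat_lit 5) (nat_lit 120) (nat_lit 5) (nat_lit 121) (nat_lit 5) (nat_lit 360) (nat_lit 342) (nat_lit 162)) (XT.lf (nat_lit 0) (nat_lit 20011500558) (nat_lit 1092) (nat_lit 7678571771) (nat_lit 1176) (nat_lit 1830447265) (nat_lit 107) (nat_lit 5) (nat_lit 120) (nat_lit 5) (nat_lit 121) (nat_lit 5) (nat_lit 361) (nat_lit 342) (nat_lit 161))))) (XT.nd (nat_lit 282) (nat_lit 1092) (nat_lit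 0) (XT.nd (nat_lit 94) (nat_lit 84) (nat_lit 0) (XT.lf (nat_lit 0) (nat_lit 2309013794) (nat_lit 504) (nat_lit 27583474226) (nat_lit 588) (nat_lit 163209038) (nat_lit 101) (nat_lit 5) (nat_lit 107) (nat_lit 5) (nat_lit 108) (nat_lit 5) (nat_lit 362) (nat_lit 342) (nat_lit 160)) (XT.nd (nat_lit 94) (nat_lit 0) (nat_lit 0) (XT.lf (nat_lit 0) (nat_lit 1700268771) (nat_lit 588) (nat_lit 16007013215) (nat_lit 84) (nat_lit 12894261810) (nat_lit 100) (nat_lit 5) (nat_lit 107) (nat_lit 5) (nat_lit 101) (nat_lit 5) (nat_lit 363) (nat_lit 342) (nat_lit 159)) (XT.lf (nat_lit 0) (nat_lit 3615307314) (nat_lit 588) (nat_lit 3907638599) (nat_lit 84) (nat_lit 23641411212) (nat_lit 100) (nat_lit 5) (nat_lit 107) (nat_lit 5) (nat_lit 101) (nat_lit 5) (nat_lit 364) (nat_lit 342) (nat_lit 158)))) (XT.nd (nat_lit 94) (nat_lit 504) (nat_lit 0) (XT.lf (nat_lit 0) (nat_lit 5704108689) (nat_lit 672) (nat_lit 23032008636)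 (nat_lit 84) (nat_lit 3004963521) (nat_lit 93) (nat_lit 5) (nat_lit 101) (nat_lit 5) (nat_lit 94) (nat_lit 5) (nat_lit 365) (nat_lit 342) (nat_lit 157)) (XT.nd (nat_lit 94) (nat_lit 504) (nat_lit 0) (XT.lf (nat_lit 0) (nat_lit 7973137686) (nat_lit 672) (nat_lit 10614585133) (nat_lit 84) (nat_lit 13744389652) (nat_lit 93) (nat_lit 5) (nat_lit 101) (nat_lit 5) (nat_lit 94) (nat_lit 5) (nat_lit 366) (nat_lit 342) (nat_lit 156)) (XT.lf (nat_lit 0) (nat_lit 2230241222) (nat_lit 504) (nat_lit 8101797820) (nat_lit 588) (nat_lit 22608830441) (nat_lit 87) (nat_lit 5) (nat_lit 93) (nat_lit 5) (nat_lit 94) (nat_lit 5) (nat_lit 367) (nat_lit 342) (nat_lit 155))))))) (XT.nd (nat_lit 52546) (nat_lit 0) (nat_lit 2940) (XT.nd (nat_lit 51982) (nat_lit 0) (nat_lit 2772) (XT.nd (nat_lit 188) (nat_lit 504) (nat_lit 0) (XT.nd (nat_lit 94) (nat_lit 0) (nat_lit 0) (XT.lf (nat_lit 0) (nat_lit 12900332275) (nat_lit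 588) (nat_lit 17897326066) (nat_lit 84) (nat_lit 2766624023) (nat_lit 87) (nat_lit 5) (nat_lit 94) (nat_lit 5) (nat_lit 88) (nat_lit 5) (nat_lit 368) (nat_lit 342) (nat_lit 154)) (XT.lf (nat_lit 0) (nat_lit 15628643978) (nat_lit 588) (nat_lit 4772132495) (nat_lit 84) (nat_lit 13803760512) (nat_lit 87) (nat_lit 5) (nat_lit 94) (nat_lit 5) (nat_lit 88) (nat_lit 5) (nat_lit 369) (nat_lit 342) (nat_lit 153))) (XT.nd (nat_lit 94) (nat_lit 0) (nat_lit 0) (XT.lf (nat_lit 0) (nat_lit 8937630683) (nat_lit 504) (nat_lit 9590178107) (nat_lit 588) (nat_lit 16334164304) (nat_lit 81) (nat_lit 5) (nat_lit 87) (nat_lit 5) (nat_lit 88) (nat_lit 5) (nat_lit 370) (nat_lit 342) (nat_lit 152)) (XT.nd (nat_lit 51606) (nat_lit 0) (nat_lit 2772) (XT.lf (nat_lit 0) (nat_lit 21580260855) (nat_lit 588) (nat_lit 12383063797) (nat_lit 84) (nat_lit 1574507151) (nat_lit 81) (nat_lit 5) (nat_lit 88) (nat_lit 5) (nat_lit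 82) (nat_lit 5) (nat_lit 371) (nat_lit 342) (nat_lit 151)) (XT.lf (nat_lit 0) (nat_lit 1926268773) (nat_lit 0) (nat_lit 1926268773) (nat_lit 1092) (nat_lit 7272301409) (nat_lit 114) (nat_lit 5) (nat_lit 114) (nat_lit 3) (nat_lit 127) (nat_lit 3) (nat_lit 343) (nat_lit 343) (nat_lit 178))))) (XT.nd (nat_lit 282) (nat_lit 0) (nat_lit 84) (XT.nd (nat_lit 94) (nat_lit 0) (nat_lit 0) (XT.lf (nat_lit 0) (nat_lit 7987435937) (nat_lit 1092) (nat_lit 9937172603) (nat_lit 1176) (nat_lit 4664455539) (nat_lit 114) (nat_lit 5) (nat_lit 127) (nat_lit 3) (nat_lit 128) (nat_lit 5) (nat_lit 344) (nat_lit 343) (nat_lit 177)) (XT.nd (nat_lit 94) (nat_lit 0) (nat_lit 0) (XT.lf (nat_lit 0) (nat_lit 8313312941) (nat_lit 1092) (nat_lit 1256864621) (nat_lit 1176) (nat_lit 13367733448) (nat_lit 114) (nat_lit 5) (nat_lit 127) (nat_lit 3) (nat_lit 128) (nat_lit 5) (nat_lit 345) (nat_lit 343) (nat_lit 176)) (XT.lf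 (nat_lit 84) (nat_lit 7848216252) (nat_lit 0) (nat_lit 874431234) (nat_lit 1176) (nat_lit 14572667617) (nat_lit 115) (nat_lit 5) (nat_lit 114) (nat_lit 5) (nat_lit 128) (nat_lit 5) (nat_lit 346) (nat_lit 343) (nat_lit 175)))) (XT.nd (nat_lit 94) (nat_lit 0) (nat_lit 0) (XT.lf (nat_lit 0) (nat_lit 9233818213) (nat_lit 1092) (nat_lit 6484177306) (nat_lit 1176) (nat_lit 7943056062) (nat_lit 115) (nat_lit 5) (nat_lit 128) (nat_lit 5) (nat_lit 129) (nat_lit 5) (nat_lit 347) (nat_lit 343) (nat_lit 174)) (XT.nd (nat_lit 94) (nat_lit 0) (nat_lit 84) (XT.lf (nat_lit 84) (nat_lit 2801586942) (nat_lit 0) (nat_lit 6991746102) (nat_lit 1176) (nat_lit 14243801335) (nat_lit 116) (nat_lit 5) (nat_lit 115) (nat_lit 5) (nat_lit 129) (nat_lit 5) (nat_lit 348) (nat_lit 343) (nat_lit 173)) (XT.lf (nat_lit 0) (nat_lit 10454338074) (nat_lit 1092) (nat_lit 11933333621) (nat_lit 1176) (nat_lit 2034610986) (nat_lit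 116) (nat_lit 5) (nat_lit 129) (nat_lit 5) (nat_lit 130) (nat_lit 5) (nat_lit 349) (nat_lit 343) (nat_lit 172)))))) (XT.nd (nat_lit 470) (nat_lit 0) (nat_lit 168) (XT.nd (nat_lit 188) (nat_lit 0) (nat_lit 84) (XT.nd (nat_lit 94) (nat_lit 0) (nat_lit 0) (XT.lf (nat_lit 0) (nat_lit 11203348694) (nat_lit 1092) (nat_lit 2416825567) (nat_lit 1176) (nat_lit 11197118347) (nat_lit 116) (nat_lit 5) (nat_lit 129) (nat_lit 5) (nat_lit 130) (nat_lit 5) (nat_lit 350) (nat_lit 343) (nat_lit 171)) (XT.lf (nat_lit 84) (nat_lit 7544205012) (nat_lit 0) (nat_lit 4502338511) (nat_lit 1176) (nat_lit 13175818934) (nat_lit 117) (nat_lit 5) (nat_lit 116) (nat_lit 5) (nat_lit 130) (nat_lit 5) (nat_lit 351) (nat_lit 343) (nat_lit 170))) (XT.nd (nat_lit 94) (nat_lit 0) (nat_lit 0) (XT.lf (nat_lit 0) (nat_lit 12986182950) (nat_lit 1092) (nat_lit 7825400129) (nat_lit 1176) (nat_lit 4826241010) (nat_lit 117) (nat_lit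 5) (nat_lit 130) (nat_lit 5) (nat_lit 131) (nat_lit 5) (nat_lit 352) (nat_lit 343) (nat_lit 169)) (XT.nd (nat_lit 94) (nat_lit 0) (nat_lit 0) (XT.lf (nat_lit 84) (nat_lit 2331183494) (nat_lit 0) (nat_lit 11689285592) (nat_lit 1176) (nat_lit 12043678556) (nat_lit 118) (nat_lit 5) (nat_lit 117) (nat_lit 5) (nat_lit 131) (nat_lit 5) (nat_lit 353) (nat_lit 343) (nat_lit 168)) (XT.lf (nat_lit 84) (nat_lit 12966012194) (nat_lit 0) (nat_lit 2198916050) (nat_lit 1176) (nat_lit 11336350821) (nat_lit 118) (nat_lit 5) (nat_lit 117) (nat_lit 5) (nat_lit 131) (nat_lit 5) (nat_lit 354) (nat_lit 343) (nat_lit 167))))) (XT.nd (nat_lit 282) (nat_lit 0) (nat_lit 84) (XT.nd (nat_lit 94) (nat_lit 0) (nat_lit 0) (XT.lf (nat_lit 0) (nat_lit 16416662941) (nat_lit 1092) (nat_lit 3099250229) (nat_lit 1176) (nat_lit 7433835531) (nat_lit 118) (nat_lit 5) (nat_lit 131) (nat_lit 5) (nat_lit 132) (nat_lit 5) (nat_lit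 355) (nat_lit 343) (nat_lit 166)) (XT.nd (nat_lit 94) (nat_lit 0) (nat_lit 0) (XT.lf (nat_lit 84) (nat_lit 7792309170) (nat_lit 0) (nat_lit 10011333155) (nat_lit 1176) (nat_lit 9605501372) (nat_lit 119) (nat_lit 5) (nat_lit 118) (nat_lit 5) (nat_lit 132) (nat_lit 5) (nat_lit 356) (nat_lit 343) (nat_lit 165)) (XT.lf (nat_lit 84) (nat_lit 19084752831) (nat_lit 0) (nat_lit 177941901) (nat_lit 1176) (nat_lit 8619195924) (nat_lit 119) (nat_lit 5) (nat_lit 118) (nat_lit 5) (nat_lit 132) (nat_lit 5) (nat_lit 357) (nat_lit 343) (nat_lit 164)))) (XT.nd (nat_lit 94) (nat_lit 0) (nat_lit 0) (XT.lf (nat_lit 84) (nat_lit 2303063108) (nat_lit 0) (nat_lit 18582401701) (nat_lit 1176) (nat_lit 7480166594) (nat_lit 120) (nat_lit 5) (nat_lit 119) (nat_lit 5) (nat_lit 133) (nat_lit 5) (nat_lit 358) (nat_lit 343) (nat_lit 163)) (XT.nd (nat_lit 94) (nat_lit 0) (nat_lit 84) (XT.lf (nat_lit 84) (nat_lit 13929532239)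 (nat_lit 0) (nat_lit 8719537882) (nat_lit 1176) (nat_lit 6212502959) (nat_lit 120) (nat_lit 5) (nat_lit 119) (nat_lit 5) (nat_lit 133) (nat_lit 5) (nat_lit 359) (nat_lit 343) (nat_lit 162)) (XT.lf (nat_lit 0) (nat_lit 24478725055) (nat_lit 1092) (nat_lit 3473353096) (nat_lit 84) (nat_lit 1420469123) (nat_lit 120) (nat_lit 5) (nat_lit 133) (nat_lit 5) (nat_lit 121) (nat_lit 5) (nat_lit 360) (nat_lit 343) (nat_lit 161))))))))
noncomputable def xc119 : XT := (XT.nd (nat_lit 53580) (nat_lit 0) (nat_lit 504) (XT.nd (nat_lit 940) (nat_lit 504) (nat_lit 0) (XT.nd (nat_lit 470) (nat_lit 1092) (nat_lit 0) (XT.nd (nat_lit 188) (nat_lit 588) (nat_lit 0) (XT.nd (nat_lit 94) (nat_lit 0) (nat_lit 0) (XT.lf (nat_lit 0) (nat_lit 8418553137) (nat_lit 1092) (nat_lit 18116332576) (nat_lit 1176) (nat_lit 3359223277) (nat_lit 107) (nat_lit 5) (nat_lit 120) (nat_lit 5) (nat_lit 121) (nat_lit 5) (nat_lit 361)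 (nat_lit 343) (nat_lit 160)) (XT.lf (nat_lit 0) (nat_lit 20750330825) (nat_lit 1092) (nat_lit 7937867674) (nat_lit 1176) (nat_lit 1742615258) (nat_lit 107) (nat_lit 5) (nat_lit 120) (nat_lit 5) (nat_lit 121) (nat_lit 5) (nat_lit 362) (nat_lit 343) (nat_lit 159))) (XT.nd (nat_lit 94) (nat_lit 84) (nat_lit 0) (XT.lf (nat_lit 0) (nat_lit 2502869224) (nat_lit 504) (nat_lit 28452826779) (nat_lit 588) (nat_lit 27000046) (nat_lit 101) (nat_lit 5) (nat_lit 107) (nat_lit 5) (nat_lit 108) (nat_lit 5) (nat_lit 363) (nat_lit 343) (nat_lit 158)) (XT.nd (nat_lit 94) (nat_lit 0) (nat_lit 0) (XT.lf (nat_lit 0) (nat_lit 1887237265) (nat_lit 588) (nat_lit 16381405000) (nat_lit 84) (nat_lit 13276921783) (nat_lit 100) (nat_lit 5) (nat_lit 107) (nat_lit 5) (nat_lit 101) (nat_lit 5) (nat_lit 364) (nat_lit 343) (nat_lit 157)) (XT.lf (nat_lit 0) (nat_lit 3857605083) (nat_lit 588) (nat_lit 3910612810) (nat_lit 84)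 (nat_lit 24357745839) (nat_lit 100) (nat_lit 5) (nat_lit 107) (nat_lit 5) (nat_lit 101) (nat_lit 5) (nat_lit 365) (nat_lit 343) (nat_lit 156))))) (XT.nd (nat_lit 188) (nat_lit 504) (nat_lit 0) (XT.nd (nat_lit 94) (nat_lit 0) (nat_lit 0) (XT.lf (nat_lit 0) (nat_lit 6008299903) (nat_lit 672) (nat_lit 23624540955) (nat_lit 84) (nat_lit 3087827248) (nat_lit 93) (nat_lit 5) (nat_lit 101) (nat_lit 5) (nat_lit 94) (nat_lit 5) (nat_lit 366) (nat_lit 343) (nat_lit 155)) (XT.lf (nat_lit 0) (nat_lit 8343839237) (nat_lit 672) (nat_lit 10825829368) (nat_lit 84) (nat_lit 14160484993) (nat_lit 93) (nat_lit 5) (nat_lit 101) (nat_lit 5) (nat_lit 94) (nat_lit 5) (nat_lit 367) (nat_lit 343) (nat_lit 154))) (XT.nd (nat_lit 94) (nat_lit 0) (nat_lit 0) (XT.lf (nat_lit 0) (nat_lit 2415993905) (nat_lit 504) (nat_lit 8357315052) (nat_lit 588) (nat_lit 23184565179) (nat_lit 87) (nat_lit 5) (nat_lit 93) (nat_lit 5)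 (nat_lit 94) (nat_lit 5) (nat_lit 368) (nat_lit 343) (nat_lit 153)) (XT.nd (nat_lit 94) (nat_lit 0) (nat_lit 0) (XT.lf (nat_lit 0) (nat_lit 13417539799) (nat_lit 588) (nat_lit 18334955227) (nat_lit 84) (nat_lit 2848244242) (nat_lit 87) (nat_lit 5) (nat_lit 94) (nat_lit 5) (nat_lit 88) (nat_lit 5) (nat_lit 369) (nat_lit 343) (nat_lit 152)) (XT.lf (nat_lit 0) (nat_lit 16226902284) (nat_lit 588) (nat_lit 4806404250) (nat_lit 84) (nat_lit 14227656598) (nat_lit 87) (nat_lit 5) (nat_lit 94) (nat_lit 5) (nat_lit 88) (nat_lit 5) (nat_lit 370) (nat_lit 343) (nat_lit 151)))))) (XT.nd (nat_lit 52076) (nat_lit 0) (nat_lit 2856) (XT.nd (nat_lit 51794) (nat_lit 0) (nat_lit 2772) (XT.nd (nat_lit 51700) (nat_lit 0) (nat_lit 2772) (XT.lf (nat_lit 0) (nat_lit 9327210837) (nat_lit 504) (nat_lit 9886425682) (nat_lit 588) (nat_lit 16725226341) (nat_lit 81) (nat_lit 5) (nat_lit 87) (nat_lit 5) (nat_lit 88) (nat_lit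 5) (nat_lit 371) (nat_lit 343) (nat_lit 150)) (XT.lf (nat_lit 0) (nat_lit 2043263560) (nat_lit 0) (nat_lit 2043263560) (nat_lit 1092) (nat_lit 7379201806) (nat_lit 114) (nat_lit 5) (nat_lit 114) (nat_lit 3) (nat_lit 127) (nat_lit 3) (nat_lit 344) (nat_lit 344) (nat_lit 176))) (XT.nd (nat_lit 94) (nat_lit 0) (nat_lit 0) (XT.lf (nat_lit 0) (nat_lit 8456176772) (nat_lit 1092) (nat_lit 10125285632) (nat_lit 1176) (nat_lit 4700176102) (nat_lit 114) (nat_lit 5) (nat_lit 127) (nat_lit 3) (nat_lit 128) (nat_lit 5) (nat_lit 345) (nat_lit 344) (nat_lit 175)) (XT.nd (nat_lit 94) (nat_lit 0) (nat_lit 0) (XT.lf (nat_lit 0) (nat_lit 8785507040) (nat_lit 1092) (nat_lit 1179494425) (nat_lit 1176) (nat_lit 13676529346) (nat_lit 114) (nat_lit 5) (nat_lit 127) (nat_lit 3) (nat_lit 128) (nat_lit 5) (nat_lit 346) (nat_lit 344) (nat_lit 174)) (XT.lf (nat_lit 84) (nat_lit 8206666188) (nat_lit 0) (nat_lit 995558117)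 (nat_lit 1176) (nat_lit 14807978881) (nat_lit 115) (nat_lit 5) (nat_lit 114) (nat_lit 5) (nat_lit 128) (nat_lit 5) (nat_lit 347) (nat_lit 344) (nat_lit 173))))) (XT.nd (nat_lit 282) (nat_lit 0) (nat_lit 84) (XT.nd (nat_lit 94) (nat_lit 0) (nat_lit 0) (XT.lf (nat_lit 0) (nat_lit 9722047239) (nat_lit 1092) (nat_lit 6565541214) (nat_lit 1176) (nat_lit 8099935580) (nat_lit 115) (nat_lit 5) (nat_lit 128) (nat_lit 5) (nat_lit 129) (nat_lit 5) (nat_lit 348) (nat_lit 344) (nat_lit 172)) (XT.nd (nat_lit 94) (nat_lit 0) (nat_lit 84) (XT.lf (nat_lit 84) (nat_lit 3006870421) (nat_lit 0) (nat_lit 7287138358) (nat_lit 1176) (nat_lit 14481431278) (nat_lit 116) (nat_lit 5) (nat_lit 115) (nat_lit 5) (nat_lit 129) (nat_lit 5) (nat_lit 349) (nat_lit 344) (nat_lit 171)) (XT.lf (nat_lit 0) (nat_lit 10968822371) (nat_lit 1092) (nat_lit 12180997350) (nat_lit 1176) (nat_lit 2022937523) (nat_lit 116) (nat_lit 5)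 (nat_lit 129) (nat_lit 5) (nat_lit 130) (nat_lit 5) (nat_lit 350) (nat_lit 344) (nat_lit 170)))) (XT.nd (nat_lit 94) (nat_lit 0) (nat_lit 0) (XT.lf (nat_lit 0) (nat_lit 11735327400) (nat_lit 1092) (nat_lit 2373153936) (nat_lit 1176) (nat_lit 11471730079) (nat_lit 116) (nat_lit 5) (nat_lit 129) (nat_lit 5) (nat_lit 130) (nat_lit 5) (nat_lit 351) (nat_lit 344) (nat_lit 169)) (XT.nd (nat_lit 94) (nat_lit 0) (nat_lit 84) (XT.lf (nat_lit 84) (nat_lit 7895467940) (nat_lit 0) (nat_lit 4704805091) (nat_lit 1176) (nat_lit 13397722251) (nat_lit 117) (nat_lit 5) (nat_lit 116) (nat_lit 5) (nat_lit 130) (nat_lit 5) (nat_lit 352) (nat_lit 344) (nat_lit 168)) (XT.lf (nat_lit 0) (nat_lit 13563015283) (nat_lit 1092) (nat_lit 7947447377) (nat_lit 1176) (nat_lit 4916080563) (nat_lit 117) (nat_lit 5) (nat_lit 130) (nat_lit 5) (nat_lit 131) (nat_lit 5) (nat_lit 353) (nat_lit 344) (nat_lit 167))))))) (XT.nd (nat_lit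 1034) (nat_lit 1092) (nat_lit 0) (XT.nd (nat_lit 470) (nat_lit 1428) (nat_lit 0) (XT.nd (nat_lit 188) (nat_lit 0) (nat_lit 84) (XT.nd (nat_lit 94) (nat_lit 0) (nat_lit 0) (XT.lf (nat_lit 84) (nat_lit 2522769978) (nat_lit 0) (nat_lit 12102538327) (nat_lit 1176) (nat_lit 12240919820) (nat_lit 118) (nat_lit 5) (nat_lit 117) (nat_lit 5) (nat_lit 131) (nat_lit 5) (nat_lit 354) (nat_lit 344) (nat_lit 166)) (XT.lf (nat_lit 84) (nat_lit 13483690672) (nat_lit 0) (nat_lit 2316437328) (nat_lit 1176) (nat_lit 11516960265) (nat_lit 118) (nat_lit 5) (nat_lit 117) (nat_lit 5) (nat_lit 131) (nat_lit 5) (nat_lit 355) (nat_lit 344) (nat_lit 165))) (XT.nd (nat_lit 94) (nat_lit 0) (nat_lit 0) (XT.lf (nat_lit 0) (nat_lit 17085227770) (nat_lit 1092) (nat_lit 3077041674) (nat_lit 1176) (nat_lit 7617378041) (nat_lit 118) (nat_lit 5) (nat_lit 131) (nat_lit 5) (nat_lit 132) (nat_lit 5) (nat_lit 356) (nat_lit 344)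 (nat_lit 164)) (XT.nd (nat_lit 94) (nat_lit 0) (nat_lit 0) (XT.lf (nat_lit 84) (nat_lit 8150958535) (nat_lit 0) (nat_lit 10360606218) (nat_lit 1176) (nat_lit 9741849645) (nat_lit 119) (nat_lit 5) (nat_lit 118) (nat_lit 5) (nat_lit 132) (nat_lit 5) (nat_lit 357) (nat_lit 344) (nat_lit 163)) (XT.lf (nat_lit 84) (nat_lit 19789947365) (nat_lit 0) (nat_lit 221209541) (nat_lit 1176) (nat_lit 8729822356) (nat_lit 119) (nat_lit 5) (nat_lit 118) (nat_lit 5) (nat_lit 132) (nat_lit 5) (nat_lit 358) (nat_lit 344) (nat_lit 162))))) (XT.nd (nat_lit 282) (nat_lit 1596) (nat_lit 0) (XT.nd (nat_lit 94) (nat_lit 0) (nat_lit 0) (XT.lf (nat_lit 84) (nat_lit 2492443055) (nat_lit 0) (nat_lit 19188047155) (nat_lit 1176) (nat_lit 7559358596) (nat_lit 120) (nat_lit 5) (nat_lit 119) (nat_lit 5) (nat_lit 133) (nat_lit 5) (nat_lit 359) (nat_lit 344) (nat_lit 161)) (XT.nd (nat_lit 94) (nat_lit 0) (nat_lit 84) (XT.lf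 (nat_lit 84) (nat_lit 14475785169) (nat_lit 0) (nat_lit 9018544818) (nat_lit 1176) (nat_lit 6256988551) (nat_lit 120) (nat_lit 5) (nat_lit 119) (nat_lit 5) (nat_lit 133) (nat_lit 5) (nat_lit 360) (nat_lit 344) (nat_lit 160)) (XT.lf (nat_lit 0) (nat_lit 25376124185) (nat_lit 1092) (nat_lit 3464940273) (nat_lit 84) (nat_lit 1437226269) (nat_lit 120) (nat_lit 5) (nat_lit 133) (nat_lit 5) (nat_lit 121) (nat_lit 5) (nat_lit 361) (nat_lit 344) (nat_lit 159)))) (XT.nd (nat_lit 94) (nat_lit 588) (nat_lit 0) (XT.lf (nat_lit 0) (nat_lit 8794439778) (nat_lit 1092) (nat_lit 18698559815) (nat_lit 1176) (nat_lit 3323130418) (nat_lit 107) (nat_lit 5) (nat_lit 120) (nat_lit 5) (nat_lit 121) (nat_lit 5) (nat_lit 362) (nat_lit 344) (nat_lit 158)) (XT.nd (nat_lit 94) (nat_lit 588) (nat_lit 0) (XT.lf (nat_lit 0) (nat_lit 21505047428) (nat_lit 1092) (nat_lit 8203942473) (nat_lit 1176) (nat_lit 1660623935) (nat_lit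 107) (nat_lit 5) (nat_lit 120) (nat_lit 5) (nat_lit 121) (nat_lit 5) (nat_lit 363) (nat_lit 344) (nat_lit 157)) (XT.lf (nat_lit 0) (nat_lit 102947048) (nat_lit 588) (nat_lit 29244262725) (nat_lit 84) (nat_lit 2591469950) (nat_lit 100) (nat_lit 5) (nat_lit 107) (nat_lit 5) (nat_lit 101) (nat_lit 5) (nat_lit 364) (nat_lit 344) (nat_lit 156)))))) (XT.nd (nat_lit 470) (nat_lit 0) (nat_lit 0) (XT.nd (nat_lit 188) (nat_lit 1092) (nat_lit 0) (XT.nd (nat_lit 94) (nat_lit 0) (nat_lit 0) (XT.lf (nat_lit 0) (nat_lit 2072049324) (nat_lit 588) (nat_lit 16774618869) (nat_lit 84) (nat_lit 13672454835) (nat_lit 100) (nat_lit 5) (nat_lit 107) (nat_lit 5) (nat_lit 101) (nat_lit 5) (nat_lit 365) (nat_lit 344) (nat_lit 155)) (XT.lf (nat_lit 0) (nat_lit 4099700737) (nat_lit 588) (nat_lit 3920678194) (nat_lit 84) (nat_lit 25097267072) (nat_lit 100) (nat_lit 5) (nat_lit 107) (nat_lit 5) (nat_lit 101) (nat_lit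 5) (nat_lit 366) (nat_lit 344) (nat_lit 154))) (XT.nd (nat_lit 94) (nat_lit 504) (nat_lit 0) (XT.lf (nat_lit 0) (nat_lit 6314377066) (nat_lit 672) (nat_lit 24242636057) (nat_lit 84) (nat_lit 3173869254) (nat_lit 93) (nat_lit 5) (nat_lit 101) (nat_lit 5) (nat_lit 94) (nat_lit 5) (nat_lit 367) (nat_lit 344) (nat_lit 153)) (XT.nd (nat_lit 94) (nat_lit 504) (nat_lit 0) (XT.lf (nat_lit 0) (nat_lit 8718715388) (nat_lit 672) (nat_lit 11050600139) (nat_lit 84) (nat_lit 14590070465) (nat_lit 93) (nat_lit 5) (nat_lit 101) (nat_lit 5) (nat_lit 94) (nat_lit 5) (nat_lit 368) (nat_lit 344) (nat_lit 152)) (XT.lf (nat_lit 0) (nat_lit 2600597602) (nat_lit 504) (nat_lit 8620494979) (nat_lit 588) (nat_lit 23785559891) (nat_lit 87) (nat_lit 5) (nat_lit 93) (nat_lit 5) (nat_lit 94) (nat_lit 5) (nat_lit 369) (nat_lit 344) (nat_lit 151))))) (XT.nd (nat_lit 51982) (nat_lit 0) (nat_lit 2268) (XT.nd (nat_lit 94)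 (nat_lit 0) (nat_lit 0) (XT.lf (nat_lit 0) (nat_lit 13943833040) (nat_lit 588) (nat_lit 18793092135) (nat_lit 84) (nat_lit 2932640211) (nat_lit 87) (nat_lit 5) (nat_lit 94) (nat_lit 5) (nat_lit 88) (nat_lit 5) (nat_lit 370) (nat_lit 344) (nat_lit 150)) (XT.nd (nat_lit 51794) (nat_lit 0) (nat_lit 2268) (XT.lf (nat_lit 0) (nat_lit 16836967785) (nat_lit 588) (nat_lit 4848470964) (nat_lit 84) (nat_lit 14664931602) (nat_lit 87) (nat_lit 5) (nat_lit 94) (nat_lit 5) (nat_lit 88) (nat_lit 5) (nat_lit 371) (nat_lit 344) (nat_lit 149)) (XT.lf (nat_lit 0) (nat_lit 2160492366) (nat_lit 0) (nat_lit 2160492366) (nat_lit 1092) (nat_lit 7496437499) (nat_lit 114) (nat_lit 5) (nat_lit 114) (nat_lit 3) (nat_lit 127) (nat_lit 3) (nat_lit 345) (nat_lit 345) (nat_lit 174)))) (XT.nd (nat_lit 94) (nat_lit 0) (nat_lit 0) (XT.lf (nat_lit 0) (nat_lit 8926350645) (nat_lit 1092) (nat_lit 10326334375) (nat_lit 1176)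 (nat_lit 4743453008) (nat_lit 114) (nat_lit 5) (nat_lit 127) (nat_lit 3) (nat_lit 128) (nat_lit 5) (nat_lit 346) (nat_lit 345) (nat_lit 173)) (XT.nd (nat_lit 94) (nat_lit 0) (nat_lit 0) (XT.lf (nat_lit 0) (nat_lit 9259635055) (nat_lit 1092) (nat_lit 1106616356) (nat_lit 1176) (nat_lit 14001153013) (nat_lit 114) (nat_lit 5) (nat_lit 127) (nat_lit 3) (nat_lit 128) (nat_lit 5) (nat_lit 347) (nat_lit 345) (nat_lit 172)) (XT.lf (nat_lit 84) (nat_lit 8569407230) (nat_lit 0) (nat_lit 1114870998) (nat_lit 1176) (nat_lit 15063404991) (nat_lit 115) (nat_lit 5) (nat_lit 114) (nat_lit 5) (nat_lit 128) (nat_lit 5) (nat_lit 348) (nat_lit 345) (nat_lit 171))))))))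
noncomputable def xc120 : XT := (XT.nd (nat_lit 1974) (nat_lit 504) (nat_lit 0) (XT.nd (nat_lit 940) (nat_lit 1848) (nat_lit 0) (XT.nd (nat_lit 470) (nat_lit 0) (nat_lit 168) (XT.nd (nat_lit 188) (nat_lit 0) (nat_lit 84) (XT.nd (nat_lit 94) (nat_lit 0) (nat_lit 0) (XT.lf (nat_lit 0) (nat_lit 10213447705) (nat_lit 1092) (nat_lit 6656514216) (nat_lit 1176) (nat_lit 8266971026) (nat_lit 115) (nat_lit 5) (nat_lit 128) (nat_lit 5) (nat_lit 129) (nat_lit 5) (nat_lit 349) (nat_lit 345) (nat_lit 170)) (XT.lf (nat_lit 84) (nat_lit 3211502624) (nat_lit 0) (nat_lit 7587029311) (nat_lit 1176) (nat_lit 14738506748) (nat_lit 116) (nat_lit 5) (nat_lit 115) (nat_lit 5) (nat_lit 129) (nat_lit 5) (nat_lit 350) (nat_lit 345) (nat_lit 169))) (XT.nd (nat_lit 94) (nat_lit 0) (nat_lit 0) (XT.lf (nat_lit 0) (nat_lit 11487977975) (nat_lit 1092) (nat_lit 12443580894) (nat_lit 1176) (nat_lit 2015329540) (nat_lit 116)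 (nat_lit 5) (nat_lit 129) (nat_lit 5) (nat_lit 130) (nat_lit 5) (nat_lit 351) (nat_lit 345) (nat_lit 168)) (XT.nd (nat_lit 94) (nat_lit 0) (nat_lit 0) (XT.lf (nat_lit 0) (nat_lit 12272858834) (nat_lit 1092) (nat_lit 2335152965) (nat_lit 1176) (nat_lit 11759149011) (nat_lit 116) (nat_lit 5) (nat_lit 129) (nat_lit 5) (nat_lit 130) (nat_lit 5) (nat_lit 352) (nat_lit 345) (nat_lit 167)) (XT.lf (nat_lit 84) (nat_lit 8250666656) (nat_lit 0) (nat_lit 4909822811) (nat_lit 1176) (nat_lit 13637554073) (nat_lit 117) (nat_lit 5) (nat_lit 116) (nat_lit 5) (nat_lit 130) (nat_lit 5) (nat_lit 353) (nat_lit 345) (nat_lit 166))))) (XT.nd (nat_lit 188) (nat_lit 0) (nat_lit 0) (XT.nd (nat_lit 94) (nat_lit 0) (nat_lit 0) (XT.lf (nat_lit 0) (nat_lit 14147407661) (nat_lit 1092) (nat_lit 8080417889) (nat_lit 1176) (nat_lit 5012245653) (nat_lit 117) (nat_lit 5) (nat_lit 130) (nat_lit 5) (nat_lit 131) (nat_lit 5)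 (nat_lit 354) (nat_lit 345) (nat_lit 165)) (XT.lf (nat_lit 84) (nat_lit 2713228127) (nat_lit 0) (nat_lit 12525587898) (nat_lit 1176) (nat_lit 12454707024) (nat_lit 118) (nat_lit 5) (nat_lit 117) (nat_lit 5) (nat_lit 131) (nat_lit 5) (nat_lit 355) (nat_lit 345) (nat_lit 164))) (XT.nd (nat_lit 94) (nat_lit 0) (nat_lit 84) (XT.lf (nat_lit 84) (nat_lit 14010562173) (nat_lit 0) (nat_lit 2434678392) (nat_lit 1176) (nat_lit 11713286411) (nat_lit 118) (nat_lit 5) (nat_lit 117) (nat_lit 5) (nat_lit 131) (nat_lit 5) (nat_lit 356) (nat_lit 345) (nat_lit 163)) (XT.nd (nat_lit 94) (nat_lit 0) (nat_lit 0) (XT.lf (nat_lit 0) (nat_lit 17765061868) (nat_lit 1092) (nat_lit 3061150895) (nat_lit 1176) (nat_lit 7809388714) (nat_lit 118) (nat_lit 5) (nat_lit 131) (nat_lit 5) (nat_lit 132) (nat_lit 5) (nat_lit 357) (nat_lit 345) (nat_lit 162)) (XT.lf (nat_lit 84) (nat_lit 8513790719) (nat_lit 0) (nat_lit 10718401346)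 (nat_lit 1176) (nat_lit 9891986032) (nat_lit 119) (nat_lit 5) (nat_lit 118) (nat_lit 5) (nat_lit 132) (nat_lit 5) (nat_lit 358) (nat_lit 345) (nat_lit 161)))))) (XT.nd (nat_lit 470) (nat_lit 1176) (nat_lit 0) (XT.nd (nat_lit 188) (nat_lit 924) (nat_lit 0) (XT.nd (nat_lit 94) (nat_lit 0) (nat_lit 84) (XT.lf (nat_lit 84) (nat_lit 20510276151) (nat_lit 0) (nat_lit 263582395) (nat_lit 1176) (nat_lit 8853152036) (nat_lit 119) (nat_lit 5) (nat_lit 118) (nat_lit 5) (nat_lit 132) (nat_lit 5) (nat_lit 359) (nat_lit 345) (nat_lit 160)) (XT.lf (nat_lit 84) (nat_lit 2680705327) (nat_lit 0) (nat_lit 19810714893) (nat_lit 1176) (nat_lit 7650049828) (nat_lit 120) (nat_lit 5) (nat_lit 119) (nat_lit 5) (nat_lit 133) (nat_lit 5) (nat_lit 360) (nat_lit 345) (nat_lit 159))) (XT.nd (nat_lit 94) (nat_lit 1008) (nat_lit 0) (XT.lf (nat_lit 84) (nat_lit 15032193615) (nat_lit 0) (nat_lit 9325120945) (nat_lit 1176)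 (nat_lit 6311625531) (nat_lit 120) (nat_lit 5) (nat_lit 119) (nat_lit 5) (nat_lit 133) (nat_lit 5) (nat_lit 361) (nat_lit 345) (nat_lit 158)) (XT.nd (nat_lit 94) (nat_lit 1092) (nat_lit 0) (XT.lf (nat_lit 0) (nat_lit 26293135623) (nat_lit 1092) (nat_lit 3463142671) (nat_lit 84) (nat_lit 1456118574) (nat_lit 120) (nat_lit 5) (nat_lit 133) (nat_lit 5) (nat_lit 121) (nat_lit 5) (nat_lit 362) (nat_lit 345) (nat_lit 157)) (XT.lf (nat_lit 0) (nat_lit 9175172501) (nat_lit 1092) (nat_lit 19297614685) (nat_lit 1176) (nat_lit 3294224672) (nat_lit 107) (nat_lit 5) (nat_lit 120) (nat_lit 5) (nat_lit 121) (nat_lit 5) (nat_lit 363) (nat_lit 345) (nat_lit 156))))) (XT.nd (nat_lit 282) (nat_lit 588) (nat_lit 0) (XT.nd (nat_lit 94) (nat_lit 588) (nat_lit 0) (XT.lf (nat_lit 0) (nat_lit 22276558496) (nat_lit 1092) (nat_lit 8477080903) (nat_lit 1176) (nat_lit 1584147128) (nat_lit 107) (nat_lit 5) (nat_lit 120)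 (nat_lit 5) (nat_lit 121) (nat_lit 5) (nat_lit 364) (nat_lit 345) (nat_lit 155)) (XT.nd (nat_lit 94) (nat_lit 0) (nat_lit 0) (XT.lf (nat_lit 0) (nat_lit 228648303) (nat_lit 588) (nat_lit 30039671256) (nat_lit 84) (nat_lit 2656236631) (nat_lit 100) (nat_lit 5) (nat_lit 107) (nat_lit 5) (nat_lit 101) (nat_lit 5) (nat_lit 365) (nat_lit 345) (nat_lit 154)) (XT.lf (nat_lit 0) (nat_lit 2255109135) (nat_lit 588) (nat_lit 17186810897) (nat_lit 84) (nat_lit 14081200171) (nat_lit 100) (nat_lit 5) (nat_lit 107) (nat_lit 5) (nat_lit 101) (nat_lit 5) (nat_lit 366) (nat_lit 345) (nat_lit 153)))) (XT.nd (nat_lit 94) (nat_lit 588) (nat_lit 0) (XT.lf (nat_lit 0) (nat_lit 4342044885) (nat_lit 588) (nat_lit 3937640016) (nat_lit 84) (nat_lit 25860635636) (nat_lit 100) (nat_lit 5) (nat_lit 107) (nat_lit 5) (nat_lit 101) (nat_lit 5) (nat_lit 367) (nat_lit 345) (nat_lit 152)) (XT.nd (nat_lit 94) (nat_lit 0) (nat_lit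 0) (XT.lf (nat_lit 0) (nat_lit 6622845486) (nat_lit 672) (nat_lit 24886660258) (nat_lit 84) (nat_lit 3263151963) (nat_lit 93) (nat_lit 5) (nat_lit 101) (nat_lit 5) (nat_lit 94) (nat_lit 5) (nat_lit 368) (nat_lit 345) (nat_lit 151)) (XT.lf (nat_lit 0) (nat_lit 9098328961) (nat_lit 672) (nat_lit 11288903450) (nat_lit 84) (nat_lit 15033529247) (nat_lit 93) (nat_lit 5) (nat_lit 101) (nat_lit 5) (nat_lit 94) (nat_lit 5) (nat_lit 369) (nat_lit 345) (nat_lit 150))))))) (XT.nd (nat_lit 52734) (nat_lit 0) (nat_lit 1680) (XT.nd (nat_lit 52264) (nat_lit 0) (nat_lit 2268) (XT.nd (nat_lit 51982) (nat_lit 0) (nat_lit 2268) (XT.nd (nat_lit 94) (nat_lit 0) (nat_lit 0) (XT.lf (nat_lit 0) (nat_lit 2784425828) (nat_lit 504) (nat_lit 8891590446) (nat_lit 588) (nat_lit 24412158599) (nat_lit 87) (nat_lit 5) (nat_lit 93) (nat_lit 5) (nat_lit 94) (nat_lit 5) (nat_lit 370) (nat_lit 345) (nat_lit 149)) (XT.lf (nat_lit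 0) (nat_lit 14479905182) (nat_lit 588) (nat_lit 19271961387) (nat_lit 84) (nat_lit 3019883435) (nat_lit 87) (nat_lit 5) (nat_lit 94) (nat_lit 5) (nat_lit 88) (nat_lit 5) (nat_lit 371) (nat_lit 345) (nat_lit 148))) (XT.nd (nat_lit 94) (nat_lit 0) (nat_lit 0) (XT.lf (nat_lit 0) (nat_lit 2278163408) (nat_lit 0) (nat_lit 2278163408) (nat_lit 1092) (nat_lit 7623912993) (nat_lit 114) (nat_lit 5) (nat_lit 114) (nat_lit 3) (nat_lit 127) (nat_lit 3) (nat_lit 346) (nat_lit 346) (nat_lit 172)) (XT.nd (nat_lit 94) (nat_lit 0) (nat_lit 0) (XT.lf (nat_lit 0) (nat_lit 9398777794) (nat_lit 1092) (nat_lit 10540299047) (nat_lit 1176) (nat_lit 4794138515) (nat_lit 114) (nat_lit 5) (nat_lit 127) (nat_lit 3) (nat_lit 128) (nat_lit 5) (nat_lit 347) (nat_lit 346) (nat_lit 171)) (XT.lf (nat_lit 0) (nat_lit 9736509424) (nat_lit 1092) (nat_lit 1037961527) (nat_lit 1176) (nat_lit 14341724609) (nat_lit 114) (nat_lit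 5) (nat_lit 127) (nat_lit 3) (nat_lit 128) (nat_lit 5) (nat_lit 348) (nat_lit 346) (nat_lit 170))))) (XT.nd (nat_lit 188) (nat_lit 0) (nat_lit 84) (XT.nd (nat_lit 94) (nat_lit 0) (nat_lit 84) (XT.lf (nat_lit 84) (nat_lit 8936976413) (nat_lit 0) (nat_lit 1232643498) (nat_lit 1176) (nat_lit 15338810144) (nat_lit 115) (nat_lit 5) (nat_lit 114) (nat_lit 5) (nat_lit 128) (nat_lit 5) (nat_lit 349) (nat_lit 346) (nat_lit 169)) (XT.lf (nat_lit 0) (nat_lit 10708826553) (nat_lit 1092) (nat_lit 6756974430) (nat_lit 1176) (nat_lit 8444163740) (nat_lit 115) (nat_lit 5) (nat_lit 128) (nat_lit 5) (nat_lit 129) (nat_lit 5) (nat_lit 350) (nat_lit 346) (nat_lit 168))) (XT.nd (nat_lit 94) (nat_lit 0) (nat_lit 84) (XT.lf (nat_lit 84) (nat_lit 3415878873) (nat_lit 0) (nat_lit 7891834348) (nat_lit 1176) (nat_lit 15014915096) (nat_lit 116) (nat_lit 5) (nat_lit 115) (nat_lit 5) (nat_lit 129) (nat_lit 5) (nat_lit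 351) (nat_lit 346) (nat_lit 167)) (XT.nd (nat_lit 94) (nat_lit 0) (nat_lit 0) (XT.lf (nat_lit 0) (nat_lit 12012617694) (nat_lit 1092) (nat_lit 12721117796) (nat_lit 1176) (nat_lit 2011650827) (nat_lit 116) (nat_lit 5) (nat_lit 129) (nat_lit 5) (nat_lit 130) (nat_lit 5) (nat_lit 352) (nat_lit 346) (nat_lit 166)) (XT.lf (nat_lit 0) (nat_lit 12816763046) (nat_lit 1092) (nat_lit 2302582371) (nat_lit 1176) (nat_lit 12059517812) (nat_lit 116) (nat_lit 5) (nat_lit 129) (nat_lit 5) (nat_lit 130) (nat_lit 5) (nat_lit 353) (nat_lit 346) (nat_lit 165)))))) (XT.nd (nat_lit 470) (nat_lit 756) (nat_lit 0) (XT.nd (nat_lit 188) (nat_lit 0) (nat_lit 84) (XT.nd (nat_lit 94) (nat_lit 0) (nat_lit 84) (XT.lf (nat_lit 84) (nat_lit 8610335029) (nat_lit 0) (nat_lit 5117691413) (nat_lit 1176) (nat_lit 13895215703) (nat_lit 117) (nat_lit 5) (nat_lit 116) (nat_lit 5) (nat_lit 130) (nat_lit 5) (nat_lit 354) (nat_lit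 346) (nat_lit 164)) (XT.lf (nat_lit 0) (nat_lit 14740205820) (nat_lit 1092) (nat_lit 8224227384) (nat_lit 1176) (nat_lit 5114722661) (nat_lit 117) (nat_lit 5) (nat_lit 130) (nat_lit 5) (nat_lit 131) (nat_lit 5) (nat_lit 355) (nat_lit 346) (nat_lit 163))) (XT.nd (nat_lit 94) (nat_lit 0) (nat_lit 0) (XT.lf (nat_lit 84) (nat_lit 2902941584) (nat_lit 0) (nat_lit 12958916532) (nat_lit 1176) (nat_lit 12684935219) (nat_lit 118) (nat_lit 5) (nat_lit 117) (nat_lit 5) (nat_lit 131) (nat_lit 5) (nat_lit 356) (nat_lit 346) (nat_lit 162)) (XT.nd (nat_lit 94) (nat_lit 0) (nat_lit 84) (XT.lf (nat_lit 84) (nat_lit 14547317714) (nat_lit 0) (nat_lit 2553834711) (nat_lit 1176) (nat_lit 11925217181) (nat_lit 118) (nat_lit 5) (nat_lit 117) (nat_lit 5) (nat_lit 131) (nat_lit 5) (nat_lit 357) (nat_lit 346) (nat_lit 161)) (XT.lf (nat_lit 0) (nat_lit 18457074691) (nat_lit 1092) (nat_lit 3051358752) (nat_lit 1176)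 (nat_lit 8009965498) (nat_lit 118) (nat_lit 5) (nat_lit 131) (nat_lit 5) (nat_lit 132) (nat_lit 5) (nat_lit 358) (nat_lit 346) (nat_lit 160))))) (XT.nd (nat_lit 282) (nat_lit 924) (nat_lit 0) (XT.nd (nat_lit 94) (nat_lit 0) (nat_lit 0) (XT.lf (nat_lit 84) (nat_lit 8881346182) (nat_lit 0) (nat_lit 11085119274) (nat_lit 1176) (nat_lit 10055771631) (nat_lit 119) (nat_lit 5) (nat_lit 118) (nat_lit 5) (nat_lit 132) (nat_lit 5) (nat_lit 359) (nat_lit 346) (nat_lit 159)) (XT.nd (nat_lit 94) (nat_lit 0) (nat_lit 84) (XT.lf (nat_lit 84) (nat_lit 21246606788) (nat_lit 0) (nat_lit 305165173) (nat_lit 1176) (nat_lit 8989029460) (nat_lit 119) (nat_lit 5) (nat_lit 118) (nat_lit 5) (nat_lit 132) (nat_lit 5) (nat_lit 360) (nat_lit 346) (nat_lit 158)) (XT.lf (nat_lit 84) (nat_lit 2868229215) (nat_lit 0) (nat_lit 20451036421) (nat_lit 1176) (nat_lit 7752061057) (nat_lit 120) (nat_lit 5) (nat_lit 119) (nat_lit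 5) (nat_lit 133) (nat_lit 5) (nat_lit 361) (nat_lit 346) (nat_lit 157)))) (XT.nd (nat_lit 94) (nat_lit 1008) (nat_lit 0) (XT.lf (nat_lit 84) (nat_lit 15599473889) (nat_lit 0) (nat_lit 9639601602) (nat_lit 1176) (nat_lit 6376208992) (nat_lit 120) (nat_lit 5) (nat_lit 119) (nat_lit 5) (nat_lit 133) (nat_lit 5) (nat_lit 362) (nat_lit 346) (nat_lit 156)) (XT.nd (nat_lit 94) (nat_lit 1092) (nat_lit 0) (XT.lf (nat_lit 0) (nat_lit 27230853467) (nat_lit 1092) (nat_lit 3467758083) (nat_lit 84) (nat_lit 1477116528) (nat_lit 120) (nat_lit 5) (nat_lit 133) (nat_lit 5) (nat_lit 121) (nat_lit 5) (nat_lit 363) (nat_lit 346) (nat_lit 155)) (XT.lf (nat_lit 0) (nat_lit 9561304689) (nat_lit 1092) (nat_lit 19914091190) (nat_lit 1176) (nat_lit 3272236860) (nat_lit 107) (nat_lit 5) (nat_lit 120) (nat_lit 5) (nat_lit 121) (nat_lit 5) (nat_lit 364) (nat_lit 346) (nat_lit 154))))))))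
noncomputable def xc121 : XT := (XT.nd (nat_lit 53862) (nat_lit 0) (nat_lit 504) (XT.nd (nat_lit 52828) (nat_lit 0) (nat_lit 2268) (XT.nd (nat_lit 470) (nat_lit 504) (nat_lit 0) (XT.nd (nat_lit 188) (nat_lit 588) (nat_lit 0) (XT.nd (nat_lit 94) (nat_lit 588) (nat_lit 0) (XT.lf (nat_lit 0) (nat_lit 23065775689) (nat_lit 1092) (nat_lit 8757572108) (nat_lit 1176) (nat_lit 1512878602) (nat_lit 107) (nat_lit 5) (nat_lit 120) (nat_lit 5) (nat_lit 121) (nat_lit 5) (nat_lit 365) (nat_lit 346) (nat_lit 153)) (XT.lf (nat_lit 0) (nat_lit 350989826) (nat_lit 588) (nat_lit 30866321863) (nat_lit 84) (nat_lit 2723933251) (nat_lit 100) (nat_lit 5) (nat_lit 107) (nat_lit 5) (nat_lit 101) (nat_lit 5) (nat_lit 366) (nat_lit 346) (nat_lit 152))) (XT.nd (nat_lit 94) (nat_lit 588) (nat_lit 0) (XT.lf (nat_lit 0) (nat_lit 2436805515) (nat_lit 588) (nat_lit 17618167309) (nat_lit 84) (nat_lit 14503511057) (nat_lit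 100) (nat_lit 5) (nat_lit 107) (nat_lit 5) (nat_lit 101) (nat_lit 5) (nat_lit 367) (nat_lit 346) (nat_lit 151)) (XT.nd (nat_lit 94) (nat_lit 588) (nat_lit 0) (XT.lf (nat_lit 0) (nat_lit 4585075045) (nat_lit 588) (nat_lit 3961322060) (nat_lit 84) (nat_lit 26648536175) (nat_lit 100) (nat_lit 5) (nat_lit 107) (nat_lit 5) (nat_lit 101) (nat_lit 5) (nat_lit 368) (nat_lit 346) (nat_lit 150)) (XT.lf (nat_lit 0) (nat_lit 6934199666) (nat_lit 672) (nat_lit 25557016471) (nat_lit 84) (nat_lit 3355741873) (nat_lit 93) (nat_lit 5) (nat_lit 101) (nat_lit 5) (nat_lit 94) (nat_lit 5) (nat_lit 369) (nat_lit 346) (nat_lit 149))))) (XT.nd (nat_lit 52076) (nat_lit 0) (nat_lit 2268) (XT.nd (nat_lit 94) (nat_lit 504) (nat_lit 0) (XT.lf (nat_lit 0) (nat_lit 9483234550) (nat_lit 672) (nat_lit 11540769976) (nat_lit 84) (nat_lit 15491258468) (nat_lit 93) (nat_lit 5) (nat_lit 101) (nat_lit 5) (nat_lit 94) (nat_lit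 5) (nat_lit 370) (nat_lit 346) (nat_lit 148)) (XT.lf (nat_lit 0) (nat_lit 2967839442) (nat_lit 504) (nat_lit 9170861231) (nat_lit 588) (nat_lit 25064741996) (nat_lit 87) (nat_lit 5) (nat_lit 93) (nat_lit 5) (nat_lit 94) (nat_lit 5) (nat_lit 371) (nat_lit 346) (nat_lit 147))) (XT.nd (nat_lit 94) (nat_lit 0) (nat_lit 0) (XT.lf (nat_lit 0) (nat_lit 2396479454) (nat_lit 0) (nat_lit 2396479454) (nat_lit 1092) (nat_lit 7761554468) (nat_lit 114) (nat_lit 5) (nat_lit 114) (nat_lit 3) (nat_lit 127) (nat_lit 3) (nat_lit 347) (nat_lit 347) (nat_lit 170)) (XT.nd (nat_lit 94) (nat_lit 0) (nat_lit 0) (XT.lf (nat_lit 0) (nat_lit 9874257929) (nat_lit 1092) (nat_lit 10767184170) (nat_lit 1176) (nat_lit 4852102933) (nat_lit 114) (nat_lit 5) (nat_lit 127) (nat_lit 3) (nat_lit 128) (nat_lit 5) (nat_lit 348) (nat_lit 347) (nat_lit 169)) (XT.lf (nat_lit 0) (nat_lit 10216923198) (nat_lit 1092) (nat_lit 973276892)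 (nat_lit 1176) (nat_lit 14698389967) (nat_lit 114) (nat_lit 5) (nat_lit 127) (nat_lit 3) (nat_lit 128) (nat_lit 5) (nat_lit 349) (nat_lit 347) (nat_lit 168)))))) (XT.nd (nat_lit 470) (nat_lit 0) (nat_lit 168) (XT.nd (nat_lit 188) (nat_lit 0) (nat_lit 84) (XT.nd (nat_lit 94) (nat_lit 0) (nat_lit 84) (XT.lf (nat_lit 84) (nat_lit 9309903490) (nat_lit 0) (nat_lit 1349138186) (nat_lit 1176) (nat_lit 15634099308) (nat_lit 115) (nat_lit 5) (nat_lit 114) (nat_lit 5) (nat_lit 128) (nat_lit 5) (nat_lit 350) (nat_lit 347) (nat_lit 167)) (XT.lf (nat_lit 0) (nat_lit 11208973767) (nat_lit 1092) (nat_lit 6866821059) (nat_lit 1176) (nat_lit 8631533673) (nat_lit 115) (nat_lit 5) (nat_lit 128) (nat_lit 5) (nat_lit 129) (nat_lit 5) (nat_lit 351) (nat_lit 347) (nat_lit 166))) (XT.nd (nat_lit 94) (nat_lit 0) (nat_lit 84) (XT.lf (nat_lit 84) (nat_lit 3620382138) (nat_lit 0) (nat_lit 8201965392) (nat_lit 1176)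 (nat_lit 15310582560) (nat_lit 116) (nat_lit 5) (nat_lit 115) (nat_lit 5) (nat_lit 129) (nat_lit 5) (nat_lit 352) (nat_lit 347) (nat_lit 165)) (XT.nd (nat_lit 94) (nat_lit 0) (nat_lit 0) (XT.lf (nat_lit 0) (nat_lit 12543539965) (nat_lit 1092) (nat_lit 13013668048) (nat_lit 1176) (nat_lit 2011776485) (nat_lit 116) (nat_lit 5) (nat_lit 129) (nat_lit 5) (nat_lit 130) (nat_lit 5) (nat_lit 353) (nat_lit 347) (nat_lit 164)) (XT.lf (nat_lit 0) (nat_lit 13367847127) (nat_lit 1092) (nat_lit 2275219070) (nat_lit 1176) (nat_lit 12372998637) (nat_lit 116) (nat_lit 5) (nat_lit 129) (nat_lit 5) (nat_lit 130) (nat_lit 5) (nat_lit 354) (nat_lit 347) (nat_lit 163))))) (XT.nd (nat_lit 282) (nat_lit 0) (nat_lit 84) (XT.nd (nat_lit 94) (nat_lit 0) (nat_lit 84) (XT.lf (nat_lit 84) (nat_lit 8974999082) (nat_lit 0) (nat_lit 5328706862) (nat_lit 1176) (nat_lit 14170644150) (nat_lit 117) (nat_lit 5) (nat_lit 116)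 (nat_lit 5) (nat_lit 130) (nat_lit 5) (nat_lit 355) (nat_lit 347) (nat_lit 162)) (XT.nd (nat_lit 94) (nat_lit 0) (nat_lit 0) (XT.lf (nat_lit 0) (nat_lit 15342245504) (nat_lit 1092) (nat_lit 8378814018) (nat_lit 1176) (nat_lit 5223509969) (nat_lit 117) (nat_lit 5) (nat_lit 130) (nat_lit 5) (nat_lit 131) (nat_lit 5) (nat_lit 356) (nat_lit 347) (nat_lit 161)) (XT.lf (nat_lit 84) (nat_lit 3092281088) (nat_lit 0) (nat_lit 13403010829) (nat_lit 1176) (nat_lit 12931532800) (nat_lit 118) (nat_lit 5) (nat_lit 117) (nat_lit 5) (nat_lit 131) (nat_lit 5) (nat_lit 357) (nat_lit 347) (nat_lit 160)))) (XT.nd (nat_lit 94) (nat_lit 0) (nat_lit 84) (XT.lf (nat_lit 84) (nat_lit 15094645684) (nat_lit 0) (nat_lit 2674097558) (nat_lit 1176) (nat_lit 12152672521) (nat_lit 118) (nat_lit 5) (nat_lit 117) (nat_lit 5) (nat_lit 131) (nat_lit 5) (nat_lit 358) (nat_lit 347) (nat_lit 159)) (XT.nd (nat_lit 94) (nat_lit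 0) (nat_lit 0) (XT.lf (nat_lit 0) (nat_lit 19162170714) (nat_lit 1092) (nat_lit 3047463892) (nat_lit 1176) (nat_lit 8219219124) (nat_lit 118) (nat_lit 5) (nat_lit 131) (nat_lit 5) (nat_lit 132) (nat_lit 5) (nat_lit 359) (nat_lit 347) (nat_lit 158)) (XT.lf (nat_lit 84) (nat_lit 9254157804) (nat_lit 0) (nat_lit 11461165074) (nat_lit 1176) (nat_lit 10233096779) (nat_lit 119) (nat_lit 5) (nat_lit 118) (nat_lit 5) (nat_lit 132) (nat_lit 5) (nat_lit 360) (nat_lit 347) (nat_lit 157))))))) (XT.nd (nat_lit 53016) (nat_lit 0) (nat_lit 1764) (XT.nd (nat_lit 470) (nat_lit 1176) (nat_lit 0) (XT.nd (nat_lit 188) (nat_lit 924) (nat_lit 0) (XT.nd (nat_lit 94) (nat_lit 0) (nat_lit 84) (XT.lf (nat_lit 84) (nat_lit 21999810172) (nat_lit 0) (nat_lit 346057983) (nat_lit 1176) (nat_lit 9137326840) (nat_lit 119) (nat_lit 5) (nat_lit 118) (nat_lit 5) (nat_lit 132) (nat_lit 5) (nat_lit 361) (nat_lit 347) (nat_lit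 156)) (XT.lf (nat_lit 84) (nat_lit 3055381248) (nat_lit 0) (nat_lit 21109656676) (nat_lit 1176) (nat_lit 7865239227) (nat_lit 120) (nat_lit 5) (nat_lit 119) (nat_lit 5) (nat_lit 133) (nat_lit 5) (nat_lit 362) (nat_lit 347) (nat_lit 155))) (XT.nd (nat_lit 94) (nat_lit 1008) (nat_lit 0) (XT.lf (nat_lit 84) (nat_lit 16178340730) (nat_lit 0) (nat_lit 9962326561) (nat_lit 1176) (nat_lit 6450558451) (nat_lit 120) (nat_lit 5) (nat_lit 119) (nat_lit 5) (nat_lit 133) (nat_lit 5) (nat_lit 363) (nat_lit 347) (nat_lit 154)) (XT.nd (nat_lit 94) (nat_lit 1092) (nat_lit 0) (XT.lf (nat_lit 0) (nat_lit 28190376942) (nat_lit 1092) (nat_lit 3478602159) (nat_lit 84) (nat_lit 1500195373) (nat_lit 120) (nat_lit 5) (nat_lit 133) (nat_lit 5) (nat_lit 121) (nat_lit 5) (nat_lit 364) (nat_lit 347) (nat_lit 153)) (XT.lf (nat_lit 0) (nat_lit 9953383000) (nat_lit 1092) (nat_lit 20548597461) (nat_lit 1176) (nat_lit 3256918601)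 (nat_lit 107) (nat_lit 5) (nat_lit 120) (nat_lit 5) (nat_lit 121) (nat_lit 5) (nat_lit 365) (nat_lit 347) (nat_lit 152))))) (XT.nd (nat_lit 282) (nat_lit 588) (nat_lit 0) (XT.nd (nat_lit 94) (nat_lit 588) (nat_lit 0) (XT.lf (nat_lit 0) (nat_lit 23873615769) (nat_lit 1092) (nat_lit 9045710038) (nat_lit 1176) (nat_lit 1446530892) (nat_lit 107) (nat_lit 5) (nat_lit 120) (nat_lit 5) (nat_lit 121) (nat_lit 5) (nat_lit 366) (nat_lit 347) (nat_lit 151)) (XT.nd (nat_lit 94) (nat_lit 0) (nat_lit 0) (XT.lf (nat_lit 0) (nat_lit 470297279) (nat_lit 588) (nat_lit 31724793044) (nat_lit 84) (nat_lit 2794596016) (nat_lit 100) (nat_lit 5) (nat_lit 107) (nat_lit 5) (nat_lit 101) (nat_lit 5) (nat_lit 367) (nat_lit 347) (nat_lit 150)) (XT.lf (nat_lit 0) (nat_lit 2617513089) (nat_lit 588) (nat_lit 18068903923) (nat_lit 84) (nat_lit 14939755044) (nat_lit 100) (nat_lit 5) (nat_lit 107) (nat_lit 5) (nat_lit 101)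 (nat_lit 5) (nat_lit 368) (nat_lit 347) (nat_lit 149)))) (XT.nd (nat_lit 94) (nat_lit 588) (nat_lit 0) (XT.lf (nat_lit 0) (nat_lit 4829216836) (nat_lit 588) (nat_lit 3991565747) (nat_lit 84) (nat_lit 27461677794) (nat_lit 100) (nat_lit 5) (nat_lit 107) (nat_lit 5) (nat_lit 101) (nat_lit 5) (nat_lit 369) (nat_lit 347) (nat_lit 148)) (XT.nd (nat_lit 94) (nat_lit 0) (nat_lit 0) (XT.lf (nat_lit 0) (nat_lit 7248924542) (nat_lit 672) (nat_lit 26254143845) (nat_lit 84) (nat_lit 3451709555) (nat_lit 93) (nat_lit 5) (nat_lit 101) (nat_lit 5) (nat_lit 94) (nat_lit 5) (nat_lit 370) (nat_lit 347) (nat_lit 147)) (XT.lf (nat_lit 0) (nat_lit 9873979792) (nat_lit 672) (nat_lit 11806254372) (nat_lit 84) (nat_lit 15963669522) (nat_lit 93) (nat_lit 5) (nat_lit 101) (nat_lit 5) (nat_lit 94) (nat_lit 5) (nat_lit 371) (nat_lit 347) (nat_lit 146)))))) (XT.nd (nat_lit 470) (nat_lit 0) (nat_lit 84) (XT.nd (nat_lit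 188) (nat_lit 0) (nat_lit 0) (XT.nd (nat_lit 94) (nat_lit 0) (nat_lit 0) (XT.lf (nat_lit 0) (nat_lit 2515638361) (nat_lit 0) (nat_lit 2515638361) (nat_lit 1092) (nat_lit 7909308987) (nat_lit 114) (nat_lit 5) (nat_lit 114) (nat_lit 3) (nat_lit 127) (nat_lit 3) (nat_lit 348) (nat_lit 348) (nat_lit 168)) (XT.lf (nat_lit 0) (nat_lit 10353572322) (nat_lit 1092) (nat_lit 11007017856) (nat_lit 1176) (nat_lit 4917233831) (nat_lit 114) (nat_lit 5) (nat_lit 127) (nat_lit 3) (nat_lit 128) (nat_lit 5) (nat_lit 349) (nat_lit 348) (nat_lit 167))) (XT.nd (nat_lit 94) (nat_lit 0) (nat_lit 0) (XT.lf (nat_lit 0) (nat_lit 10701652083) (nat_lit 1092) (nat_lit 912324302) (nat_lit 1176) (nat_lit 15071320082) (nat_lit 114) (nat_lit 5) (nat_lit 127) (nat_lit 3) (nat_lit 128) (nat_lit 5) (nat_lit 350) (nat_lit 348) (nat_lit 166)) (XT.nd (nat_lit 94) (nat_lit 0) (nat_lit 84) (XT.lf (nat_lit 84) (nat_lit 9688712121)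 (nat_lit 0) (nat_lit 1464607389) (nat_lit 1176) (nat_lit 15949216817) (nat_lit 115) (nat_lit 5) (nat_lit 114) (nat_lit 5) (nat_lit 128) (nat_lit 5) (nat_lit 351) (nat_lit 348) (nat_lit 165)) (XT.lf (nat_lit 0) (nat_lit 11714664336) (nat_lit 1092) (nat_lit 6985973572) (nat_lit 1176) (nat_lit 8829118862) (nat_lit 115) (nat_lit 5) (nat_lit 128) (nat_lit 5) (nat_lit 129) (nat_lit 5) (nat_lit 352) (nat_lit 348) (nat_lit 164))))) (XT.nd (nat_lit 282) (nat_lit 0) (nat_lit 84) (XT.nd (nat_lit 94) (nat_lit 0) (nat_lit 84) (XT.lf (nat_lit 84) (nat_lit 3825384104) (nat_lit 0) (nat_lit 8517831759) (nat_lit 1176) (nat_lit 15625472959) (nat_lit 116) (nat_lit 5) (nat_lit 115) (nat_lit 5) (nat_lit 129) (nat_lit 5) (nat_lit 353) (nat_lit 348) (nat_lit 163)) (XT.nd (nat_lit 94) (nat_lit 0) (nat_lit 0) (XT.lf (nat_lit 0) (nat_lit 13081530757) (nat_lit 1092) (nat_lit 13321317407) (nat_lit 1176) (nat_lit 2015592354)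 (nat_lit 116) (nat_lit 5) (nat_lit 129) (nat_lit 5) (nat_lit 130) (nat_lit 5) (nat_lit 354) (nat_lit 348) (nat_lit 162)) (XT.lf (nat_lit 0) (nat_lit 13926907083) (nat_lit 1092) (nat_lit 2252856244) (nat_lit 1176) (nat_lit 12699772844) (nat_lit 116) (nat_lit 5) (nat_lit 129) (nat_lit 5) (nat_lit 130) (nat_lit 5) (nat_lit 355) (nat_lit 348) (nat_lit 161)))) (XT.nd (nat_lit 94) (nat_lit 0) (nat_lit 84) (XT.lf (nat_lit 84) (nat_lit 9345178196) (nat_lit 0) (nat_lit 5543162002) (nat_lit 1176) (nat_lit 14463810940) (nat_lit 117) (nat_lit 5) (nat_lit 116) (nat_lit 5) (nat_lit 130) (nat_lit 5) (nat_lit 356) (nat_lit 348) (nat_lit 160)) (XT.nd (nat_lit 94) (nat_lit 0) (nat_lit 0) (XT.lf (nat_lit 0) (nat_lit 15954354292) (nat_lit 1092) (nat_lit 8544137594) (nat_lit 1176) (nat_lit 5338617593) (nat_lit 117) (nat_lit 5) (nat_lit 130) (nat_lit 5) (nat_lit 131) (nat_lit 5) (nat_lit 357) (nat_lit 348) (nat_lit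 159)) (XT.lf (nat_lit 84) (nat_lit 3281605547) (nat_lit 0) (nat_lit 13858362527) (nat_lit 1176) (nat_lit 13194460373) (nat_lit 118) (nat_lit 5) (nat_lit 117) (nat_lit 5) (nat_lit 131) (nat_lit 5) (nat_lit 358) (nat_lit 348) (nat_lit 158))))))))
noncomputable def xc122 : XT := (XT.nd (nat_lit 54050) (nat_lit 0) (nat_lit 588) (XT.nd (nat_lit 940) (nat_lit 588) (nat_lit 0) (XT.nd (nat_lit 470) (nat_lit 1428) (nat_lit 0) (XT.nd (nat_lit 188) (nat_lit 0) (nat_lit 84) (XT.nd (nat_lit 94) (nat_lit 0) (nat_lit 84) (XT.lf (nat_lit 84) (nat_lit 15653233187) (nat_lit 0) (nat_lit 2795654488) (nat_lit 1176) (nat_lit 12395603290) (nat_lit 118) (nat_lit 5) (nat_lit 117) (nat_lit 5) (nat_lit 131) (nat_lit 5) (nat_lit 359) (nat_lit 348) (nat_lit 157)) (XT.lf (nat_lit 0) (nat_lit 19881251237) (nat_lit 1092) (nat_lit 3049281843) (nat_lit 1176) (nat_lit 8437272924) (nat_lit 118) (nat_lit 5) (nat_lit 131) (nat_lit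 5) (nat_lit 132) (nat_lit 5) (nat_lit 360) (nat_lit 348) (nat_lit 156))) (XT.nd (nat_lit 94) (nat_lit 0) (nat_lit 0) (XT.lf (nat_lit 84) (nat_lit 9632752092) (nat_lit 0) (nat_lit 11846948766) (nat_lit 1176) (nat_lit 10423879973) (nat_lit 119) (nat_lit 5) (nat_lit 118) (nat_lit 5) (nat_lit 132) (nat_lit 5) (nat_lit 361) (nat_lit 348) (nat_lit 155)) (XT.nd (nat_lit 94) (nat_lit 0) (nat_lit 84) (XT.lf (nat_lit 84) (nat_lit 22770761995) (nat_lit 0) (nat_lit 386356658) (nat_lit 1176) (nat_lit 9297943034) (nat_lit 119) (nat_lit 5) (nat_lit 118) (nat_lit 5) (nat_lit 132) (nat_lit 5) (nat_lit 362) (nat_lit 348) (nat_lit 154)) (XT.lf (nat_lit 84) (nat_lit 3242516253) (nat_lit 0) (nat_lit 21787234800) (nat_lit 1176) (nat_lit 7989456386) (nat_lit 120) (nat_lit 5) (nat_lit 119) (nat_lit 5) (nat_lit 133) (nat_lit 5) (nat_lit 363) (nat_lit 348) (nat_lit 153))))) (XT.nd (nat_lit 188) (nat_lit 1596) (nat_lit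 0) (XT.nd (nat_lit 94) (nat_lit 0) (nat_lit 84) (XT.lf (nat_lit 84) (nat_lit 16769508658) (nat_lit 0) (nat_lit 10293640515) (nat_lit 1176) (nat_lit 6534516785) (nat_lit 120) (nat_lit 5) (nat_lit 119) (nat_lit 5) (nat_lit 133) (nat_lit 5) (nat_lit 364) (nat_lit 348) (nat_lit 152)) (XT.lf (nat_lit 0) (nat_lit 29172812259) (nat_lit 1092) (nat_lit 3495507526) (nat_lit 84) (nat_lit 1525334920) (nat_lit 120) (nat_lit 5) (nat_lit 133) (nat_lit 5) (nat_lit 121) (nat_lit 5) (nat_lit 365) (nat_lit 348) (nat_lit 151))) (XT.nd (nat_lit 94) (nat_lit 588) (nat_lit 0) (XT.lf (nat_lit 0) (nat_lit 10351948575) (nat_lit 1092) (nat_lit 21201756451) (nat_lit 1176) (nat_lit 3248041229) (nat_lit 107) (nat_lit 5) (nat_lit 120) (nat_lit 5) (nat_lit 121) (nat_lit 5) (nat_lit 366) (nat_lit 348) (nat_lit 150)) (XT.nd (nat_lit 94) (nat_lit 588) (nat_lit 0) (XT.lf (nat_lit 0) (nat_lit 24701002128) (nat_lit 1092) (nat_lit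 9341793848) (nat_lit 1176) (nat_lit 1384834214) (nat_lit 107) (nat_lit 5) (nat_lit 120) (nat_lit 5) (nat_lit 121) (nat_lit 5) (nat_lit 367) (nat_lit 348) (nat_lit 149)) (XT.lf (nat_lit 0) (nat_lit 586880959) (nat_lit 588) (nat_lit 32615704331) (nat_lit 84) (nat_lit 2868265491) (nat_lit 100) (nat_lit 5) (nat_lit 107) (nat_lit 5) (nat_lit 101) (nat_lit 5) (nat_lit 368) (nat_lit 348) (nat_lit 148)))))) (XT.nd (nat_lit 52546) (nat_lit 0) (nat_lit 1764) (XT.nd (nat_lit 188) (nat_lit 588) (nat_lit 0) (XT.nd (nat_lit 94) (nat_lit 0) (nat_lit 0) (XT.lf (nat_lit 0) (nat_lit 2797593400) (nat_lit 588) (nat_lit 18539265651) (nat_lit 84) (nat_lit 15390314219) (nat_lit 100) (nat_lit 5) (nat_lit 107) (nat_lit 5) (nat_lit 101) (nat_lit 5) (nat_lit 369) (nat_lit 348) (nat_lit 147)) (XT.lf (nat_lit 0) (nat_lit 5074885123) (nat_lit 588) (nat_lit 4028229315) (nat_lit 84) (nat_lit 28300794625) (nat_lit 100)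 (nat_lit 5) (nat_lit 107) (nat_lit 5) (nat_lit 101) (nat_lit 5) (nat_lit 370) (nat_lit 348) (nat_lit 146))) (XT.nd (nat_lit 52170) (nat_lit 0) (nat_lit 1764) (XT.lf (nat_lit 0) (nat_lit 7567496655) (nat_lit 672) (nat_lit 26978517480) (nat_lit 84) (nat_lit 3551129663) (nat_lit 93) (nat_lit 5) (nat_lit 101) (nat_lit 5) (nat_lit 94) (nat_lit 5) (nat_lit 371) (nat_lit 348) (nat_lit 145)) (XT.nd (nat_lit 94) (nat_lit 0) (nat_lit 0) (XT.lf (nat_lit 0) (nat_lit 2635833583) (nat_lit 0) (nat_lit 2635833583) (nat_lit 1092) (nat_lit 8067143779) (nat_lit 114) (nat_lit 5) (nat_lit 114) (nat_lit 3) (nat_lit 127) (nat_lit 3) (nat_lit 349) (nat_lit 349) (nat_lit 166)) (XT.lf (nat_lit 0) (nat_lit 10837485795) (nat_lit 1092) (nat_lit 11259851148) (nat_lit 1176) (nat_lit 4989435322) (nat_lit 114) (nat_lit 5) (nat_lit 127) (nat_lit 3) (nat_lit 128) (nat_lit 5) (nat_lit 350) (nat_lit 349) (nat_lit 165))))) (XT.nd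 (nat_lit 282) (nat_lit 0) (nat_lit 84) (XT.nd (nat_lit 94) (nat_lit 0) (nat_lit 0) (XT.lf (nat_lit 0) (nat_lit 11191456383) (nat_lit 1092) (nat_lit 854879622) (nat_lit 1176) (nat_lit 15460710677) (nat_lit 114) (nat_lit 5) (nat_lit 127) (nat_lit 3) (nat_lit 128) (nat_lit 5) (nat_lit 351) (nat_lit 349) (nat_lit 164)) (XT.nd (nat_lit 94) (nat_lit 0) (nat_lit 84) (XT.lf (nat_lit 84) (nat_lit 10073921023) (nat_lit 0) (nat_lit 1579293963) (nat_lit 1176) (nat_lit 16284145088) (nat_lit 115) (nat_lit 5) (nat_lit 114) (nat_lit 5) (nat_lit 128) (nat_lit 5) (nat_lit 352) (nat_lit 349) (nat_lit 163)) (XT.lf (nat_lit 0) (nat_lit 12226660122) (nat_lit 1092) (nat_lit 7114370946) (nat_lit 1176) (nat_lit 9036974959) (nat_lit 115) (nat_lit 5) (nat_lit 128) (nat_lit 5) (nat_lit 129) (nat_lit 5) (nat_lit 353) (nat_lit 349) (nat_lit 162)))) (XT.nd (nat_lit 94) (nat_lit 0) (nat_lit 84) (XT.lf (nat_lit 84) (nat_lit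 4031246198) (nat_lit 0) (nat_lit 8839840987) (nat_lit 1176) (nat_lit 15959586495) (nat_lit 116) (nat_lit 5) (nat_lit 115) (nat_lit 5) (nat_lit 129) (nat_lit 5) (nat_lit 354) (nat_lit 349) (nat_lit 161)) (XT.nd (nat_lit 94) (nat_lit 0) (nat_lit 0) (XT.lf (nat_lit 0) (nat_lit 13627365384) (nat_lit 1092) (nat_lit 13644176775) (nat_lit 1176) (nat_lit 2022994485) (nat_lit 116) (nat_lit 5) (nat_lit 129) (nat_lit 5) (nat_lit 130) (nat_lit 5) (nat_lit 355) (nat_lit 349) (nat_lit 160)) (XT.lf (nat_lit 0) (nat_lit 14494729635) (nat_lit 1092) (nat_lit 2235302477) (nat_lit 1176) (nat_lit 13040040746) (nat_lit 116) (nat_lit 5) (nat_lit 129) (nat_lit 5) (nat_lit 130) (nat_lit 5) (nat_lit 356) (nat_lit 349) (nat_lit 159))))))) (XT.nd (nat_lit 1034) (nat_lit 588) (nat_lit 0) (XT.nd (nat_lit 470) (nat_lit 756) (nat_lit 0) (XT.nd (nat_lit 188) (nat_lit 0) (nat_lit 84) (XT.nd (nat_lit 94) (nat_lit 0) (nat_lit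 84) (XT.lf (nat_lit 84) (nat_lit 9721386262) (nat_lit 0) (nat_lit 5761347187) (nat_lit 1176) (nat_lit 14774721027) (nat_lit 117) (nat_lit 5) (nat_lit 116) (nat_lit 5) (nat_lit 130) (nat_lit 5) (nat_lit 357) (nat_lit 349) (nat_lit 158)) (XT.lf (nat_lit 0) (nat_lit 16577353374) (nat_lit 1092) (nat_lit 8720178838) (nat_lit 1176) (nat_lit 5460066851) (nat_lit 117) (nat_lit 5) (nat_lit 130) (nat_lit 5) (nat_lit 131) (nat_lit 5) (nat_lit 358) (nat_lit 349) (nat_lit 157))) (XT.nd (nat_lit 94) (nat_lit 0) (nat_lit 0) (XT.lf (nat_lit 84) (nat_lit 3471263046) (nat_lit 0) (nat_lit 14325469249) (nat_lit 1176) (nat_lit 13473709712) (nat_lit 118) (nat_lit 5) (nat_lit 117) (nat_lit 5) (nat_lit 131) (nat_lit 5) (nat_lit 359) (nat_lit 349) (nat_lit 156)) (XT.nd (nat_lit 94) (nat_lit 0) (nat_lit 84) (XT.lf (nat_lit 84) (nat_lit 16223767342) (nat_lit 0) (nat_lit 2918689790) (nat_lit 1176) (nat_lit 12653990238)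 (nat_lit 118) (nat_lit 5) (nat_lit 117) (nat_lit 5) (nat_lit 131) (nat_lit 5) (nat_lit 360) (nat_lit 349) (nat_lit 155)) (XT.lf (nat_lit 0) (nat_lit 20615216139) (nat_lit 1092) (nat_lit 3056644172) (nat_lit 1176) (nat_lit 8664262683) (nat_lit 118) (nat_lit 5) (nat_lit 131) (nat_lit 5) (nat_lit 132) (nat_lit 5) (nat_lit 361) (nat_lit 349) (nat_lit 154))))) (XT.nd (nat_lit 282) (nat_lit 924) (nat_lit 0) (XT.nd (nat_lit 94) (nat_lit 0) (nat_lit 0) (XT.lf (nat_lit 84) (nat_lit 10017650344) (nat_lit 0) (nat_lit 12242885921) (nat_lit 1176) (nat_lit 10628066869) (nat_lit 119) (nat_lit 5) (nat_lit 118) (nat_lit 5) (nat_lit 132) (nat_lit 5) (nat_lit 362) (nat_lit 349) (nat_lit 153)) (XT.nd (nat_lit 94) (nat_lit 0) (nat_lit 84) (XT.lf (nat_lit 84) (nat_lit 23560344207) (nat_lit 0) (nat_lit 426153058) (nat_lit 1176) (nat_lit 9470802563) (nat_lit 119) (nat_lit 5) (nat_lit 118) (nat_lit 5) (nat_lit 132)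 (nat_lit 5) (nat_lit 363) (nat_lit 349) (nat_lit 152)) (XT.lf (nat_lit 84) (nat_lit 3429978356) (nat_lit 0) (nat_lit 22484444928) (nat_lit 1176) (nat_lit 8124608702) (nat_lit 120) (nat_lit 5) (nat_lit 119) (nat_lit 5) (nat_lit 133) (nat_lit 5) (nat_lit 364) (nat_lit 349) (nat_lit 151)))) (XT.nd (nat_lit 94) (nat_lit 1008) (nat_lit 0) (XT.lf (nat_lit 84) (nat_lit 17373693300) (nat_lit 0) (nat_lit 10633893564) (nat_lit 1176) (nat_lit 6627949237) (nat_lit 120) (nat_lit 5) (nat_lit 119) (nat_lit 5) (nat_lit 133) (nat_lit 5) (nat_lit 365) (nat_lit 349) (nat_lit 150)) (XT.nd (nat_lit 94) (nat_lit 1092) (nat_lit 0) (XT.lf (nat_lit 0) (nat_lit 30179274437) (nat_lit 1092) (nat_lit 3518322976) (nat_lit 84) (nat_lit 1552519367) (nat_lit 120) (nat_lit 5) (nat_lit 133) (nat_lit 5) (nat_lit 121) (nat_lit 5) (nat_lit 366) (nat_lit 349) (nat_lit 149)) (XT.lf (nat_lit 0) (nat_lit 10757538195) (nat_lit 1092)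 (nat_lit 21874206632) (nat_lit 1176) (nat_lit 3245394779) (nat_lit 107) (nat_lit 5) (nat_lit 120) (nat_lit 5) (nat_lit 121) (nat_lit 5) (nat_lit 367) (nat_lit 349) (nat_lit 148)))))) (XT.nd (nat_lit 52640) (nat_lit 0) (nat_lit 1176) (XT.nd (nat_lit 188) (nat_lit 0) (nat_lit 0) (XT.nd (nat_lit 94) (nat_lit 588) (nat_lit 0) (XT.lf (nat_lit 0) (nat_lit 25548866282) (nat_lit 1092) (nat_lit 9646128284) (nat_lit 1176) (nat_lit 1327535435) (nat_lit 107) (nat_lit 5) (nat_lit 120) (nat_lit 5) (nat_lit 121) (nat_lit 5) (nat_lit 368) (nat_lit 349) (nat_lit 147)) (XT.lf (nat_lit 0) (nat_lit 701036835) (nat_lit 588) (nat_lit 33539716196) (nat_lit 84) (nat_lit 2944986540) (nat_lit 100) (nat_lit 5) (nat_lit 107) (nat_lit 5) (nat_lit 101) (nat_lit 5) (nat_lit 369) (nat_lit 349) (nat_lit 146))) (XT.nd (nat_lit 94) (nat_lit 0) (nat_lit 0) (XT.lf (nat_lit 0) (nat_lit 2977395969) (nat_lit 588) (nat_lit 19029526077)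 (nat_lit 84) (nat_lit 15855585462) (nat_lit 100) (nat_lit 5) (nat_lit 107) (nat_lit 5) (nat_lit 101) (nat_lit 5) (nat_lit 370) (nat_lit 349) (nat_lit 145)) (XT.nd (nat_lit 52264) (nat_lit 0) (nat_lit 1176) (XT.lf (nat_lit 0) (nat_lit 5322485101) (nat_lit 588) (nat_lit 4071187054) (nat_lit 84) (nat_lit 29166646418) (nat_lit 100) (nat_lit 5) (nat_lit 107) (nat_lit 5) (nat_lit 101) (nat_lit 5) (nat_lit 371) (nat_lit 349) (nat_lit 144)) (XT.lf (nat_lit 0) (nat_lit 2757254661) (nat_lit 0) (nat_lit 2757254661) (nat_lit 1092) (nat_lit 8235045564) (nat_lit 114) (nat_lit 5) (nat_lit 114) (nat_lit 3) (nat_lit 127) (nat_lit 3) (nat_lit 350) (nat_lit 350) (nat_lit 164))))) (XT.nd (nat_lit 282) (nat_lit 0) (nat_lit 84) (XT.nd (nat_lit 94) (nat_lit 0) (nat_lit 0) (XT.lf (nat_lit 0) (nat_lit 11326748616) (nat_lit 1092) (nat_lit 11525757424) (nat_lit 1176) (nat_lit 5068627383) (nat_lit 114) (nat_lit 5)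 (nat_lit 127) (nat_lit 3) (nat_lit 128) (nat_lit 5) (nat_lit 351) (nat_lit 350) (nat_lit 163)) (XT.nd (nat_lit 94) (nat_lit 0) (nat_lit 0) (XT.lf (nat_lit 0) (nat_lit 11687082861) (nat_lit 1092) (nat_lit 800731899) (nat_lit 1176) (nat_lit 15866781812) (nat_lit 114) (nat_lit 5) (nat_lit 127) (nat_lit 3) (nat_lit 128) (nat_lit 5) (nat_lit 352) (nat_lit 350) (nat_lit 162)) (XT.lf (nat_lit 84) (nat_lit 10466045068) (nat_lit 0) (nat_lit 1693432026) (nat_lit 1176) (nat_lit 16638903442) (nat_lit 115) (nat_lit 5) (nat_lit 114) (nat_lit 5) (nat_lit 128) (nat_lit 5) (nat_lit 353) (nat_lit 350) (nat_lit 161)))) (XT.nd (nat_lit 94) (nat_lit 0) (nat_lit 0) (XT.lf (nat_lit 0) (nat_lit 12745711658) (nat_lit 1092) (nat_lit 7251970969) (nat_lit 1176) (nat_lit 9255174801) (nat_lit 115) (nat_lit 5) (nat_lit 128) (nat_lit 5) (nat_lit 129) (nat_lit 5) (nat_lit 354) (nat_lit 350) (nat_lit 160)) (XT.nd (nat_lit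 94) (nat_lit 0) (nat_lit 84) (XT.lf (nat_lit 84) (nat_lit 4238320559) (nat_lit 0) (nat_lit 9168399642) (nat_lit 1176) (nat_lit 16312958662) (nat_lit 116) (nat_lit 5) (nat_lit 115) (nat_lit 5) (nat_lit 129) (nat_lit 5) (nat_lit 355) (nat_lit 350) (nat_lit 159)) (XT.lf (nat_lit 0) (nat_lit 14181810250) (nat_lit 1092) (nat_lit 13982381648) (nat_lit 1176) (nat_lit 2033888637) (nat_lit 116) (nat_lit 5) (nat_lit 129) (nat_lit 5) (nat_lit 130) (nat_lit 5) (nat_lit 356) (nat_lit 350) (nat_lit 158))))))))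
noncomputable def xc123 : XT := (XT.nd (nat_lit 54238) (nat_lit 0) (nat_lit 0) (XT.nd (nat_lit 940) (nat_lit 1344) (nat_lit 0) (XT.nd (nat_lit 470) (nat_lit 0) (nat_lit 168) (XT.nd (nat_lit 188) (nat_lit 0) (nat_lit 84) (XT.nd (nat_lit 94) (nat_lit 0) (nat_lit 0) (XT.lf (nat_lit 0) (nat_lit 15072093934) (nat_lit 1092) (nat_lit 2222380940) (nat_lit 1176) (nat_lit 13394021411) (nat_lit 116) (nat_lit 5) (nat_lit 129) (nat_lit 5) (nat_lit 130) (nat_lit 5) (nat_lit 357) (nat_lit 350) (nat_lit 157)) (XT.lf (nat_lit 84) (nat_lit 10104132788) (nat_lit 0) (nat_lit 5983550892) (nat_lit 1176) (nat_lit 15103411794) (nat_lit 117) (nat_lit 5) (nat_lit 116) (nat_lit 5) (nat_lit 130) (nat_lit 5) (nat_lit 358) (nat_lit 350) (nat_lit 156))) (XT.nd (nat_lit 94) (nat_lit 0) (nat_lit 0) (XT.lf (nat_lit 0) (nat_lit 17212059239) (nat_lit 1092) (nat_lit 8906938737) (nat_lit 1176) (nat_lit 5587890069) (nat_lit 117)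 (nat_lit 5) (nat_lit 130) (nat_lit 5) (nat_lit 131) (nat_lit 5) (nat_lit 359) (nat_lit 350) (nat_lit 155)) (XT.nd (nat_lit 94) (nat_lit 0) (nat_lit 0) (XT.lf (nat_lit 84) (nat_lit 3661591818) (nat_lit 0) (nat_lit 14804835238) (nat_lit 1176) (nat_lit 13769302808) (nat_lit 118) (nat_lit 5) (nat_lit 117) (nat_lit 5) (nat_lit 131) (nat_lit 5) (nat_lit 360) (nat_lit 350) (nat_lit 154)) (XT.lf (nat_lit 84) (nat_lit 16806936542) (nat_lit 0) (nat_lit 3043384928) (nat_lit 1176) (nat_lit 12927843078) (nat_lit 118) (nat_lit 5) (nat_lit 117) (nat_lit 5) (nat_lit 131) (nat_lit 5) (nat_lit 361) (nat_lit 350) (nat_lit 153))))) (XT.nd (nat_lit 188) (nat_lit 0) (nat_lit 0) (XT.nd (nat_lit 94) (nat_lit 0) (nat_lit 0) (XT.lf (nat_lit 0) (nat_lit 21364965572) (nat_lit 1092) (nat_lit 3069397689) (nat_lit 1176) (nat_lit 8900336511) (nat_lit 118) (nat_lit 5) (nat_lit 131) (nat_lit 5) (nat_lit 132) (nat_lit 5)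 (nat_lit 362) (nat_lit 350) (nat_lit 152)) (XT.lf (nat_lit 84) (nat_lit 10409369755) (nat_lit 0) (nat_lit 12649398260) (nat_lit 1176) (nat_lit 10845629372) (nat_lit 119) (nat_lit 5) (nat_lit 118) (nat_lit 5) (nat_lit 132) (nat_lit 5) (nat_lit 363) (nat_lit 350) (nat_lit 151))) (XT.nd (nat_lit 94) (nat_lit 0) (nat_lit 84) (XT.lf (nat_lit 84) (nat_lit 24369446450) (nat_lit 0) (nat_lit 465535359) (nat_lit 1176) (nat_lit 9655854698) (nat_lit 119) (nat_lit 5) (nat_lit 118) (nat_lit 5) (nat_lit 132) (nat_lit 5) (nat_lit 364) (nat_lit 350) (nat_lit 150)) (XT.nd (nat_lit 94) (nat_lit 0) (nat_lit 0) (XT.lf (nat_lit 84) (nat_lit 3618101936) (nat_lit 0) (nat_lit 23201976972) (nat_lit 1176) (nat_lit 8270615541) (nat_lit 120) (nat_lit 5) (nat_lit 119) (nat_lit 5) (nat_lit 133) (nat_lit 5) (nat_lit 365) (nat_lit 350) (nat_lit 149)) (XT.lf (nat_lit 84) (nat_lit 17991612662) (nat_lit 0) (nat_lit 10983441695)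 (nat_lit 1176) (nat_lit 6730742501) (nat_lit 120) (nat_lit 5) (nat_lit 119) (nat_lit 5) (nat_lit 133) (nat_lit 5) (nat_lit 366) (nat_lit 350) (nat_lit 148)))))) (XT.nd (nat_lit 52734) (nat_lit 0) (nat_lit 1176) (XT.nd (nat_lit 188) (nat_lit 588) (nat_lit 0) (XT.nd (nat_lit 94) (nat_lit 1092) (nat_lit 0) (XT.lf (nat_lit 0) (nat_lit 31210889089) (nat_lit 1092) (nat_lit 3546912698) (nat_lit 84) (nat_lit 1581737145) (nat_lit 120) (nat_lit 5) (nat_lit 133) (nat_lit 5) (nat_lit 121) (nat_lit 5) (nat_lit 367) (nat_lit 350) (nat_lit 147)) (XT.lf (nat_lit 0) (nat_lit 11170685398) (nat_lit 1092) (nat_lit 22566602698) (nat_lit 1176) (nat_lit 3248787041) (nat_lit 107) (nat_lit 5) (nat_lit 120) (nat_lit 5) (nat_lit 121) (nat_lit 5) (nat_lit 368) (nat_lit 350) (nat_lit 146))) (XT.nd (nat_lit 94) (nat_lit 588) (nat_lit 0) (XT.lf (nat_lit 0) (nat_lit 26418149342) (nat_lit 1092) (nat_lit 9959024081) (nat_lit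 1176) (nat_lit 1274397107) (nat_lit 107) (nat_lit 5) (nat_lit 120) (nat_lit 5) (nat_lit 121) (nat_lit 5) (nat_lit 369) (nat_lit 350) (nat_lit 145)) (XT.nd (nat_lit 94) (nat_lit 0) (nat_lit 0) (XT.lf (nat_lit 0) (nat_lit 813047515) (nat_lit 588) (nat_lit 34497530028) (nat_lit 84) (nat_lit 3024808282) (nat_lit 100) (nat_lit 5) (nat_lit 107) (nat_lit 5) (nat_lit 101) (nat_lit 5) (nat_lit 370) (nat_lit 350) (nat_lit 144)) (XT.lf (nat_lit 0) (nat_lit 3157259297) (nat_lit 588) (nat_lit 19539987098) (nat_lit 84) (nat_lit 16335980735) (nat_lit 100) (nat_lit 5) (nat_lit 107) (nat_lit 5) (nat_lit 101) (nat_lit 5) (nat_lit 371) (nat_lit 350) (nat_lit 143))))) (XT.nd (nat_lit 282) (nat_lit 0) (nat_lit 0) (XT.nd (nat_lit 94) (nat_lit 0) (nat_lit 0) (XT.lf (nat_lit 0) (nat_lit 2880087686) (nat_lit 0) (nat_lit 2880087686) (nat_lit 1092) (nat_lit 8413019947) (nat_lit 114) (nat_lit 5) (nat_lit 114) (nat_lit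 3) (nat_lit 127) (nat_lit 3) (nat_lit 351) (nat_lit 351) (nat_lit 162)) (XT.nd (nat_lit 94) (nat_lit 0) (nat_lit 0) (XT.lf (nat_lit 0) (nat_lit 11822098319) (nat_lit 1092) (nat_lit 11804831858) (nat_lit 1176) (nat_lit 5154745233) (nat_lit 114) (nat_lit 5) (nat_lit 127) (nat_lit 3) (nat_lit 128) (nat_lit 5) (nat_lit 352) (nat_lit 351) (nat_lit 161)) (XT.lf (nat_lit 0) (nat_lit 12189266518) (nat_lit 1092) (nat_lit 749682574) (nat_lit 1176) (nat_lit 16289777559) (nat_lit 114) (nat_lit 5) (nat_lit 127) (nat_lit 3) (nat_lit 128) (nat_lit 5) (nat_lit 353) (nat_lit 351) (nat_lit 160)))) (XT.nd (nat_lit 94) (nat_lit 0) (nat_lit 84) (XT.lf (nat_lit 84) (nat_lit 10865596343) (nat_lit 0) (nat_lit 1807247649) (nat_lit 1176) (nat_lit 17013547032) (nat_lit 115) (nat_lit 5) (nat_lit 114) (nat_lit 5) (nat_lit 128) (nat_lit 5) (nat_lit 354) (nat_lit 351) (nat_lit 159)) (XT.nd (nat_lit 94) (nat_lit 0) (nat_lit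 0) (XT.lf (nat_lit 0) (nat_lit 13272559868) (nat_lit 1092) (nat_lit 7398749595) (nat_lit 1176) (nat_lit 9483808028) (nat_lit 115) (nat_lit 5) (nat_lit 128) (nat_lit 5) (nat_lit 129) (nat_lit 5) (nat_lit 355) (nat_lit 351) (nat_lit 158)) (XT.lf (nat_lit 84) (nat_lit 4446950961) (nat_lit 0) (nat_lit 9503914090) (nat_lit 1176) (nat_lit 16685659251) (nat_lit 116) (nat_lit 5) (nat_lit 115) (nat_lit 5) (nat_lit 129) (nat_lit 5) (nat_lit 356) (nat_lit 351) (nat_lit 157))))))) (XT.nd (nat_lit 1034) (nat_lit 1344) (nat_lit 0) (XT.nd (nat_lit 470) (nat_lit 0) (nat_lit 84) (XT.nd (nat_lit 188) (nat_lit 0) (nat_lit 0) (XT.nd (nat_lit 94) (nat_lit 0) (nat_lit 0) (XT.lf (nat_lit 0) (nat_lit 14745624526) (nat_lit 1092) (nat_lit 14336091625) (nat_lit 1176) (nat_lit 2048189817) (nat_lit 116) (nat_lit 5) (nat_lit 129) (nat_lit 5) (nat_lit 130) (nat_lit 5) (nat_lit 357) (nat_lit 351) (nat_lit 156)) (XT.lf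 (nat_lit 0) (nat_lit 15659773229) (nat_lit 1092) (nat_lit 2213928625) (nat_lit 1176) (nat_lit 13761952498) (nat_lit 116) (nat_lit 5) (nat_lit 129) (nat_lit 5) (nat_lit 130) (nat_lit 5) (nat_lit 358) (nat_lit 351) (nat_lit 155))) (XT.nd (nat_lit 94) (nat_lit 0) (nat_lit 84) (XT.lf (nat_lit 84) (nat_lit 10493923968) (nat_lit 0) (nat_lit 6210060293) (nat_lit 1176) (nat_lit 15449952151) (nat_lit 117) (nat_lit 5) (nat_lit 116) (nat_lit 5) (nat_lit 130) (nat_lit 5) (nat_lit 359) (nat_lit 351) (nat_lit 154)) (XT.nd (nat_lit 94) (nat_lit 0) (nat_lit 0) (XT.lf (nat_lit 0) (nat_lit 17859285328) (nat_lit 1092) (nat_lit 9104437930) (nat_lit 1176) (nat_lit 5722130300) (nat_lit 117) (nat_lit 5) (nat_lit 130) (nat_lit 5) (nat_lit 131) (nat_lit 5) (nat_lit 360) (nat_lit 351) (nat_lit 153)) (XT.lf (nat_lit 84) (nat_lit 3852921157) (nat_lit 0) (nat_lit 15296972090) (nat_lit 1176) (nat_lit 14081291003) (nat_lit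 118) (nat_lit 5) (nat_lit 117) (nat_lit 5) (nat_lit 131) (nat_lit 5) (nat_lit 361) (nat_lit 351) (nat_lit 152))))) (XT.nd (nat_lit 282) (nat_lit 0) (nat_lit 84) (XT.nd (nat_lit 94) (nat_lit 0) (nat_lit 84) (XT.lf (nat_lit 84) (nat_lit 17403431684) (nat_lit 0) (nat_lit 3169918958) (nat_lit 1176) (nat_lit 13217199626) (nat_lit 118) (nat_lit 5) (nat_lit 117) (nat_lit 5) (nat_lit 131) (nat_lit 5) (nat_lit 362) (nat_lit 351) (nat_lit 151)) (XT.nd (nat_lit 94) (nat_lit 0) (nat_lit 0) (XT.lf (nat_lit 0) (nat_lit 22131401606) (nat_lit 1092) (nat_lit 3087403712) (nat_lit 1176) (nat_lit 9145654743) (nat_lit 118) (nat_lit 5) (nat_lit 131) (nat_lit 5) (nat_lit 132) (nat_lit 5) (nat_lit 363) (nat_lit 351) (nat_lit 150)) (XT.lf (nat_lit 84) (nat_lit 10808424496) (nat_lit 0) (nat_lit 13066914239) (nat_lit 1176) (nat_lit 11076564789) (nat_lit 119) (nat_lit 5) (nat_lit 118) (nat_lit 5) (nat_lit 132) (nat_lit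 5) (nat_lit 364) (nat_lit 351) (nat_lit 149)))) (XT.nd (nat_lit 94) (nat_lit 0) (nat_lit 84) (XT.lf (nat_lit 84) (nat_lit 25198967456) (nat_lit 0) (nat_lit 504588325) (nat_lit 1176) (nat_lit 9853072621) (nat_lit 119) (nat_lit 5) (nat_lit 118) (nat_lit 5) (nat_lit 132) (nat_lit 5) (nat_lit 365) (nat_lit 351) (nat_lit 148)) (XT.nd (nat_lit 94) (nat_lit 0) (nat_lit 0) (XT.lf (nat_lit 84) (nat_lit 3807212533) (nat_lit 0) (nat_lit 23940537416) (nat_lit 1176) (nat_lit 8427418626) (nat_lit 120) (nat_lit 5) (nat_lit 119) (nat_lit 5) (nat_lit 133) (nat_lit 5) (nat_lit 366) (nat_lit 351) (nat_lit 147)) (XT.lf (nat_lit 84) (nat_lit 18623988384) (nat_lit 0) (nat_lit 11342647260) (nat_lit 1176) (nat_lit 6842803863) (nat_lit 120) (nat_lit 5) (nat_lit 119) (nat_lit 5) (nat_lit 133) (nat_lit 5) (nat_lit 367) (nat_lit 351) (nat_lit 146)))))) (XT.nd (nat_lit 52828) (nat_lit 0) (nat_lit 1176) (XT.nd (nat_lit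 188) (nat_lit 588) (nat_lit 0) (XT.nd (nat_lit 94) (nat_lit 1092) (nat_lit 0) (XT.lf (nat_lit 0) (nat_lit 32268794166) (nat_lit 1092) (nat_lit 3581155569) (nat_lit 84) (nat_lit 1612980765) (nat_lit 120) (nat_lit 5) (nat_lit 133) (nat_lit 5) (nat_lit 121) (nat_lit 5) (nat_lit 368) (nat_lit 351) (nat_lit 145)) (XT.lf (nat_lit 0) (nat_lit 11591921558) (nat_lit 1092) (nat_lit 23279616287) (nat_lit 1176) (nat_lit 3258042673) (nat_lit 107) (nat_lit 5) (nat_lit 120) (nat_lit 5) (nat_lit 121) (nat_lit 5) (nat_lit 369) (nat_lit 351) (nat_lit 144))) (XT.nd (nat_lit 94) (nat_lit 588) (nat_lit 0) (XT.lf (nat_lit 0) (nat_lit 27309803448) (nat_lit 1092) (nat_lit 10280798352) (nat_lit 1176) (nat_lit 1225196563) (nat_lit 107) (nat_lit 5) (nat_lit 120) (nat_lit 5) (nat_lit 121) (nat_lit 5) (nat_lit 370) (nat_lit 351) (nat_lit 143)) (XT.nd (nat_lit 52452) (nat_lit 0) (nat_lit 1176) (XT.lf (nat_lit 0) (nat_lit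 923183174) (nat_lit 588) (nat_lit 35489888195) (nat_lit 84) (nat_lit 3107784055) (nat_lit 100) (nat_lit 5) (nat_lit 107) (nat_lit 5) (nat_lit 101) (nat_lit 5) (nat_lit 371) (nat_lit 351) (nat_lit 142)) (XT.lf (nat_lit 0) (nat_lit 3004515750) (nat_lit 0) (nat_lit 3004515750) (nat_lit 1092) (nat_lit 8601090859) (nat_lit 114) (nat_lit 5) (nat_lit 114) (nat_lit 3) (nat_lit 127) (nat_lit 3) (nat_lit 352) (nat_lit 352) (nat_lit 160))))) (XT.nd (nat_lit 282) (nat_lit 0) (nat_lit 84) (XT.nd (nat_lit 94) (nat_lit 0) (nat_lit 0) (XT.lf (nat_lit 0) (nat_lit 12324261435) (nat_lit 1092) (nat_lit 12097190943) (nat_lit 1176) (nat_lit 5247738757) (nat_lit 114) (nat_lit 5) (nat_lit 127) (nat_lit 3) (nat_lit 128) (nat_lit 5) (nat_lit 353) (nat_lit 352) (nat_lit 159)) (XT.nd (nat_lit 94) (nat_lit 0) (nat_lit 0) (XT.lf (nat_lit 0) (nat_lit 12698732294) (nat_lit 1092) (nat_lit 701544750) (nat_lit 1176) (nat_lit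 16729965727) (nat_lit 114) (nat_lit 5) (nat_lit 127) (nat_lit 3) (nat_lit 128) (nat_lit 5) (nat_lit 354) (nat_lit 352) (nat_lit 158)) (XT.lf (nat_lit 84) (nat_lit 11273085176) (nat_lit 0) (nat_lit 1920959513) (nat_lit 1176) (nat_lit 17408165865) (nat_lit 115) (nat_lit 5) (nat_lit 114) (nat_lit 5) (nat_lit 128) (nat_lit 5) (nat_lit 355) (nat_lit 352) (nat_lit 157)))) (XT.nd (nat_lit 94) (nat_lit 0) (nat_lit 0) (XT.lf (nat_lit 0) (nat_lit 13807937710) (nat_lit 1092) (nat_lit 7554700355) (nat_lit 1176) (nat_lit 9722980743) (nat_lit 115) (nat_lit 5) (nat_lit 128) (nat_lit 5) (nat_lit 129) (nat_lit 5) (nat_lit 356) (nat_lit 352) (nat_lit 156)) (XT.nd (nat_lit 94) (nat_lit 0) (nat_lit 84) (XT.lf (nat_lit 84) (nat_lit 4657473703) (nat_lit 0) (nat_lit 9846791251) (nat_lit 1176) (nat_lit 17077791443) (nat_lit 116) (nat_lit 5) (nat_lit 115) (nat_lit 5) (nat_lit 129) (nat_lit 5) (nat_lit 357) (nat_lit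 352) (nat_lit 155)) (XT.lf (nat_lit 0) (nat_lit 15319561760) (nat_lit 1092) (nat_lit 14705489976) (nat_lit 1176) (nat_lit 2065821842) (nat_lit 116) (nat_lit 5) (nat_lit 129) (nat_lit 5) (nat_lit 130) (nat_lit 5) (nat_lit 358) (nat_lit 352) (nat_lit 154))))))))
noncomputable def xc124 : XT := (XT.nd (nat_lit 54426) (nat_lit 0) (nat_lit 0) (XT.nd (nat_lit 940) (nat_lit 756) (nat_lit 0) (XT.nd (nat_lit 470) (nat_lit 0) (nat_lit 168) (XT.nd (nat_lit 188) (nat_lit 0) (nat_lit 84) (XT.nd (nat_lit 94) (nat_lit 0) (nat_lit 0) (XT.lf (nat_lit 0) (nat_lit 16258536454) (nat_lit 1092) (nat_lit 2209795631) (nat_lit 1176) (nat_lit 14144090136) (nat_lit 116) (nat_lit 5) (nat_lit 129) (nat_lit 5) (nat_lit 130) (nat_lit 5) (nat_lit 359) (nat_lit 352) (nat_lit 153)) (XT.lf (nat_lit 84) (nat_lit 10891263714) (nat_lit 0) (nat_lit 6441161841) (nat_lit 1176) (nat_lit 15814441710) (nat_lit 117) (nat_lit 5) (nat_lit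 116) (nat_lit 5) (nat_lit 130) (nat_lit 5) (nat_lit 360) (nat_lit 352) (nat_lit 152))) (XT.nd (nat_lit 94) (nat_lit 0) (nat_lit 0) (XT.lf (nat_lit 0) (nat_lit 18519843607) (nat_lit 1092) (nat_lit 9312716152) (nat_lit 1176) (nat_lit 5862841089) (nat_lit 117) (nat_lit 5) (nat_lit 130) (nat_lit 5) (nat_lit 131) (nat_lit 5) (nat_lit 361) (nat_lit 352) (nat_lit 151)) (XT.nd (nat_lit 94) (nat_lit 0) (nat_lit 0) (XT.lf (nat_lit 84) (nat_lit 4045572295) (nat_lit 0) (nat_lit 15802399463) (nat_lit 1176) (nat_lit 14409754198) (nat_lit 118) (nat_lit 5) (nat_lit 117) (nat_lit 5) (nat_lit 131) (nat_lit 5) (nat_lit 362) (nat_lit 352) (nat_lit 150)) (XT.lf (nat_lit 84) (nat_lit 18013947359) (nat_lit 0) (nat_lit 3298468927) (nat_lit 1176) (nat_lit 13522125029) (nat_lit 118) (nat_lit 5) (nat_lit 117) (nat_lit 5) (nat_lit 131) (nat_lit 5) (nat_lit 363) (nat_lit 352) (nat_lit 149))))) (XT.nd (nat_lit 188) (nat_lit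 0) (nat_lit 0) (XT.nd (nat_lit 94) (nat_lit 0) (nat_lit 0) (XT.lf (nat_lit 0) (nat_lit 22915429827) (nat_lit 1092) (nat_lit 3110537369) (nat_lit 1176) (nat_lit 9400389868) (nat_lit 118) (nat_lit 5) (nat_lit 131) (nat_lit 5) (nat_lit 132) (nat_lit 5) (nat_lit 364) (nat_lit 352) (nat_lit 148)) (XT.lf (nat_lit 84) (nat_lit 11215326748) (nat_lit 0) (nat_lit 13495869638) (nat_lit 1176) (nat_lit 11320895066) (nat_lit 119) (nat_lit 5) (nat_lit 118) (nat_lit 5) (nat_lit 132) (nat_lit 5) (nat_lit 365) (nat_lit 352) (nat_lit 147))) (XT.nd (nat_lit 94) (nat_lit 0) (nat_lit 84) (XT.lf (nat_lit 84) (nat_lit 26049816429) (nat_lit 0) (nat_lit 543393568) (nat_lit 1176) (nat_lit 10062452662) (nat_lit 119) (nat_lit 5) (nat_lit 118) (nat_lit 5) (nat_lit 132) (nat_lit 5) (nat_lit 366) (nat_lit 352) (nat_lit 146)) (XT.nd (nat_lit 94) (nat_lit 0) (nat_lit 0) (XT.lf (nat_lit 84) (nat_lit 3997627712) (nat_lit 0)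 (nat_lit 24700850111) (nat_lit 1176) (nat_lit 8594981255) (nat_lit 120) (nat_lit 5) (nat_lit 119) (nat_lit 5) (nat_lit 133) (nat_lit 5) (nat_lit 367) (nat_lit 352) (nat_lit 145)) (XT.lf (nat_lit 84) (nat_lit 19271546952) (nat_lit 0) (nat_lit 11711879447) (nat_lit 1176) (nat_lit 6964060416) (nat_lit 120) (nat_lit 5) (nat_lit 119) (nat_lit 5) (nat_lit 133) (nat_lit 5) (nat_lit 368) (nat_lit 352) (nat_lit 144)))))) (XT.nd (nat_lit 52922) (nat_lit 0) (nat_lit 588) (XT.nd (nat_lit 188) (nat_lit 0) (nat_lit 0) (XT.nd (nat_lit 94) (nat_lit 1092) (nat_lit 0) (XT.lf (nat_lit 0) (nat_lit 33354141678) (nat_lit 1092) (nat_lit 3620944486) (nat_lit 84) (nat_lit 1646246684) (nat_lit 120) (nat_lit 5) (nat_lit 133) (nat_lit 5) (nat_lit 121) (nat_lit 5) (nat_lit 369) (nat_lit 352) (nat_lit 143)) (XT.lf (nat_lit 0) (nat_lit 12021776924) (nat_lit 1092) (nat_lit 24013936695) (nat_lit 1176) (nat_lit 3273002370)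 (nat_lit 107) (nat_lit 5) (nat_lit 120) (nat_lit 5) (nat_lit 121) (nat_lit 5) (nat_lit 370) (nat_lit 352) (nat_lit 142))) (XT.nd (nat_lit 52546) (nat_lit 0) (nat_lit 588) (XT.lf (nat_lit 0) (nat_lit 28224793191) (nat_lit 1092) (nat_lit 10611774976) (nat_lit 1176) (nat_lit 1179725062) (nat_lit 107) (nat_lit 5) (nat_lit 120) (nat_lit 5) (nat_lit 121) (nat_lit 5) (nat_lit 371) (nat_lit 352) (nat_lit 141)) (XT.nd (nat_lit 94) (nat_lit 0) (nat_lit 0) (XT.lf (nat_lit 0) (nat_lit 3130719364) (nat_lit 0) (nat_lit 3130719364) (nat_lit 1092) (nat_lit 8799300053) (nat_lit 114) (nat_lit 5) (nat_lit 114) (nat_lit 3) (nat_lit 127) (nat_lit 3) (nat_lit 353) (nat_lit 353) (nat_lit 158)) (XT.lf (nat_lit 0) (nat_lit 12833955163) (nat_lit 1092) (nat_lit 12402972064) (nat_lit 1176) (nat_lit 5347571970) (nat_lit 114) (nat_lit 5) (nat_lit 127) (nat_lit 3) (nat_lit 128) (nat_lit 5) (nat_lit 354) (nat_lit 353)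 (nat_lit 157))))) (XT.nd (nat_lit 282) (nat_lit 0) (nat_lit 84) (XT.nd (nat_lit 94) (nat_lit 0) (nat_lit 0) (XT.lf (nat_lit 0) (nat_lit 13216196704) (nat_lit 1092) (nat_lit 656142493) (nat_lit 1176) (nat_lit 17187637644) (nat_lit 114) (nat_lit 5) (nat_lit 127) (nat_lit 3) (nat_lit 128) (nat_lit 5) (nat_lit 355) (nat_lit 353) (nat_lit 156)) (XT.nd (nat_lit 94) (nat_lit 0) (nat_lit 84) (XT.lf (nat_lit 84) (nat_lit 11689021126) (nat_lit 0) (nat_lit 2034779534) (nat_lit 1176) (nat_lit 17822883920) (nat_lit 115) (nat_lit 5) (nat_lit 114) (nat_lit 5) (nat_lit 128) (nat_lit 5) (nat_lit 356) (nat_lit 353) (nat_lit 155)) (XT.lf (nat_lit 0) (nat_lit 14352571769) (nat_lit 1092) (nat_lit 7719833817) (nat_lit 1176) (nat_lit 9972815211) (nat_lit 115) (nat_lit 5) (nat_lit 128) (nat_lit 5) (nat_lit 129) (nat_lit 5) (nat_lit 357) (nat_lit 353) (nat_lit 154)))) (XT.nd (nat_lit 94) (nat_lit 0) (nat_lit 84)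 (XT.lf (nat_lit 84) (nat_lit 4870218443) (nat_lit 0) (nat_lit 10197439329) (nat_lit 1176) (nat_lit 17489490997) (nat_lit 116) (nat_lit 5) (nat_lit 115) (nat_lit 5) (nat_lit 129) (nat_lit 5) (nat_lit 358) (nat_lit 353) (nat_lit 153)) (XT.nd (nat_lit 94) (nat_lit 0) (nat_lit 0) (XT.lf (nat_lit 0) (nat_lit 15904371429) (nat_lit 1092) (nat_lit 15090783268) (nat_lit 1176) (nat_lit 2086716937) (nat_lit 116) (nat_lit 5) (nat_lit 129) (nat_lit 5) (nat_lit 130) (nat_lit 5) (nat_lit 359) (nat_lit 353) (nat_lit 152)) (XT.lf (nat_lit 0) (nat_lit 16869149779) (nat_lit 1092) (nat_lit 2209844497) (nat_lit 1176) (nat_lit 14540708839) (nat_lit 116) (nat_lit 5) (nat_lit 129) (nat_lit 5) (nat_lit 130) (nat_lit 5) (nat_lit 360) (nat_lit 353) (nat_lit 151))))))) (XT.nd (nat_lit 53580) (nat_lit 0) (nat_lit 588) (XT.nd (nat_lit 470) (nat_lit 756) (nat_lit 0) (XT.nd (nat_lit 188) (nat_lit 0) (nat_lit 84) (XT.nd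 (nat_lit 94) (nat_lit 0) (nat_lit 84) (XT.lf (nat_lit 84) (nat_lit 11296654645) (nat_lit 0) (nat_lit 6677141805) (nat_lit 1176) (nat_lit 16197010045) (nat_lit 117) (nat_lit 5) (nat_lit 116) (nat_lit 5) (nat_lit 130) (nat_lit 5) (nat_lit 361) (nat_lit 353) (nat_lit 150)) (XT.lf (nat_lit 0) (nat_lit 19194546113) (nat_lit 1092) (nat_lit 9531831739) (nat_lit 1176) (nat_lit 6010086250) (nat_lit 117) (nat_lit 5) (nat_lit 130) (nat_lit 5) (nat_lit 131) (nat_lit 5) (nat_lit 362) (nat_lit 353) (nat_lit 149))) (XT.nd (nat_lit 94) (nat_lit 0) (nat_lit 0) (XT.lf (nat_lit 84) (nat_lit 4239859229) (nat_lit 0) (nat_lit 16321645797) (nat_lit 1176) (nat_lit 14754800143) (nat_lit 118) (nat_lit 5) (nat_lit 117) (nat_lit 5) (nat_lit 131) (nat_lit 5) (nat_lit 363) (nat_lit 353) (nat_lit 148)) (XT.nd (nat_lit 94) (nat_lit 0) (nat_lit 84) (XT.lf (nat_lit 84) (nat_lit 18639183019) (nat_lit 0) (nat_lit 3429210262)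 (nat_lit 1176) (nat_lit 13842711065) (nat_lit 118) (nat_lit 5) (nat_lit 117) (nat_lit 5) (nat_lit 131) (nat_lit 5) (nat_lit 364) (nat_lit 353) (nat_lit 147)) (XT.lf (nat_lit 0) (nat_lit 23717960894) (nat_lit 1092) (nat_lit 3138686962) (nat_lit 1176) (nat_lit 9664726481) (nat_lit 118) (nat_lit 5) (nat_lit 131) (nat_lit 5) (nat_lit 132) (nat_lit 5) (nat_lit 365) (nat_lit 353) (nat_lit 146))))) (XT.nd (nat_lit 282) (nat_lit 924) (nat_lit 0) (XT.nd (nat_lit 94) (nat_lit 0) (nat_lit 0) (XT.lf (nat_lit 84) (nat_lit 11630587699) (nat_lit 0) (nat_lit 13936708138) (nat_lit 1176) (nat_lit 11578666081) (nat_lit 119) (nat_lit 5) (nat_lit 118) (nat_lit 5) (nat_lit 132) (nat_lit 5) (nat_lit 366) (nat_lit 353) (nat_lit 145)) (XT.nd (nat_lit 94) (nat_lit 0) (nat_lit 84) (XT.lf (nat_lit 84) (nat_lit 26922914396) (nat_lit 0) (nat_lit 582029789) (nat_lit 1176) (nat_lit 10284013590) (nat_lit 119) (nat_lit 5)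 (nat_lit 118) (nat_lit 5) (nat_lit 132) (nat_lit 5) (nat_lit 367) (nat_lit 353) (nat_lit 144)) (XT.lf (nat_lit 84) (nat_lit 4189657884) (nat_lit 0) (nat_lit 25483657086) (nat_lit 1176) (nat_lit 8773287588) (nat_lit 120) (nat_lit 5) (nat_lit 119) (nat_lit 5) (nat_lit 133) (nat_lit 5) (nat_lit 368) (nat_lit 353) (nat_lit 143)))) (XT.nd (nat_lit 94) (nat_lit 1008) (nat_lit 0) (XT.lf (nat_lit 84) (nat_lit 19935020885) (nat_lit 0) (nat_lit 12091514753) (nat_lit 1176) (nat_lit 7094458330) (nat_lit 120) (nat_lit 5) (nat_lit 119) (nat_lit 5) (nat_lit 133) (nat_lit 5) (nat_lit 369) (nat_lit 353) (nat_lit 142)) (XT.nd (nat_lit 94) (nat_lit 1092) (nat_lit 0) (XT.lf (nat_lit 0) (nat_lit 34468099386) (nat_lit 1092) (nat_lit 3666185751) (nat_lit 84) (nat_lit 1681535176) (nat_lit 120) (nat_lit 5) (nat_lit 133) (nat_lit 5) (nat_lit 121) (nat_lit 5) (nat_lit 370) (nat_lit 353) (nat_lit 141)) (XT.lf (nat_lit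 0) (nat_lit 12460781626) (nat_lit 1092) (nat_lit 24770271618) (nat_lit 1176) (nat_lit 3293522093) (nat_lit 107) (nat_lit 5) (nat_lit 120) (nat_lit 5) (nat_lit 121) (nat_lit 5) (nat_lit 371) (nat_lit 353) (nat_lit 140)))))) (XT.nd (nat_lit 470) (nat_lit 0) (nat_lit 84) (XT.nd (nat_lit 188) (nat_lit 0) (nat_lit 0) (XT.nd (nat_lit 94) (nat_lit 0) (nat_lit 0) (XT.lf (nat_lit 0) (nat_lit 3258876876) (nat_lit 0) (nat_lit 3258876876) (nat_lit 1092) (nat_lit 9007706639) (nat_lit 114) (nat_lit 5) (nat_lit 114) (nat_lit 3) (nat_lit 127) (nat_lit 3) (nat_lit 354) (nat_lit 354) (nat_lit 156)) (XT.lf (nat_lit 0) (nat_lit 13351888965) (nat_lit 1092) (nat_lit 12722333117) (nat_lit 1176) (nat_lit 5454222530) (nat_lit 114) (nat_lit 5) (nat_lit 127) (nat_lit 3) (nat_lit 128) (nat_lit 5) (nat_lit 355) (nat_lit 354) (nat_lit 155))) (XT.nd (nat_lit 94) (nat_lit 0) (nat_lit 0) (XT.lf (nat_lit 0) (nat_lit 13742369406)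 (nat_lit 1092) (nat_lit 613310184) (nat_lit 1176) (nat_lit 17663107979) (nat_lit 114) (nat_lit 5) (nat_lit 127) (nat_lit 3) (nat_lit 128) (nat_lit 5) (nat_lit 356) (nat_lit 354) (nat_lit 154)) (XT.nd (nat_lit 94) (nat_lit 0) (nat_lit 84) (XT.lf (nat_lit 84) (nat_lit 12113913940) (nat_lit 0) (nat_lit 2148913455) (nat_lit 1176) (nat_lit 18257858354) (nat_lit 115) (nat_lit 5) (nat_lit 114) (nat_lit 5) (nat_lit 128) (nat_lit 5) (nat_lit 357) (nat_lit 354) (nat_lit 153)) (XT.lf (nat_lit 0) (nat_lit 14907183778) (nat_lit 1092) (nat_lit 7894177092) (nat_lit 1176) (nat_lit 10233449597) (nat_lit 115) (nat_lit 5) (nat_lit 128) (nat_lit 5) (nat_lit 129) (nat_lit 5) (nat_lit 358) (nat_lit 354) (nat_lit 152))))) (XT.nd (nat_lit 282) (nat_lit 0) (nat_lit 84) (XT.nd (nat_lit 94) (nat_lit 0) (nat_lit 84) (XT.lf (nat_lit 84) (nat_lit 5085509010) (nat_lit 0) (nat_lit 10556268523) (nat_lit 1176) (nat_lit 17920925520)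 (nat_lit 116) (nat_lit 5) (nat_lit 115) (nat_lit 5) (nat_lit 129) (nat_lit 5) (nat_lit 359) (nat_lit 354) (nat_lit 151)) (XT.nd (nat_lit 94) (nat_lit 0) (nat_lit 0) (XT.lf (nat_lit 0) (nat_lit 16500800440) (nat_lit 1092) (nat_lit 15492201043) (nat_lit 1176) (nat_lit 2110815354) (nat_lit 116) (nat_lit 5) (nat_lit 129) (nat_lit 5) (nat_lit 130) (nat_lit 5) (nat_lit 360) (nat_lit 354) (nat_lit 150)) (XT.lf (nat_lit 0) (nat_lit 17492378094) (nat_lit 1092) (nat_lit 2213949573) (nat_lit 1176) (nat_lit 14952101455) (nat_lit 116) (nat_lit 5) (nat_lit 129) (nat_lit 5) (nat_lit 130) (nat_lit 5) (nat_lit 361) (nat_lit 354) (nat_lit 149)))) (XT.nd (nat_lit 94) (nat_lit 0) (nat_lit 84) (XT.lf (nat_lit 84) (nat_lit 11710599049) (nat_lit 0) (nat_lit 6918286802) (nat_lit 1176) (nat_lit 16597816031) (nat_lit 117) (nat_lit 5) (nat_lit 116) (nat_lit 5) (nat_lit 130) (nat_lit 5) (nat_lit 362) (nat_lit 354)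 (nat_lit 148)) (XT.nd (nat_lit 94) (nat_lit 0) (nat_lit 0) (XT.lf (nat_lit 0) (nat_lit 19884206435) (nat_lit 1092) (nat_lit 9761861169) (nat_lit 1176) (nat_lit 6163939678) (nat_lit 117) (nat_lit 5) (nat_lit 130) (nat_lit 5) (nat_lit 131) (nat_lit 5) (nat_lit 363) (nat_lit 354) (nat_lit 147)) (XT.lf (nat_lit 84) (nat_lit 4436089522) (nat_lit 0) (nat_lit 16855249017) (nat_lit 1176) (nat_lit 15116563797) (nat_lit 118) (nat_lit 5) (nat_lit 117) (nat_lit 5) (nat_lit 131) (nat_lit 5) (nat_lit 364) (nat_lit 354) (nat_lit 146))))))))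
noncomputable def xc125 : XT := (XT.nd (nat_lit 54614) (nat_lit 0) (nat_lit 0) (XT.nd (nat_lit 53580) (nat_lit 0) (nat_lit 0) (XT.nd (nat_lit 470) (nat_lit 252) (nat_lit 0) (XT.nd (nat_lit 188) (nat_lit 0) (nat_lit 84) (XT.nd (nat_lit 94) (nat_lit 0) (nat_lit 84) (XT.lf (nat_lit 84) (nat_lit 19279844110) (nat_lit 0) (nat_lit 3562317138) (nat_lit 1176) (nat_lit 14179075505) (nat_lit 118) (nat_lit 5) (nat_lit 117) (nat_lit 5) (nat_lit 131) (nat_lit 5) (nat_lit 365) (nat_lit 354) (nat_lit 145)) (XT.lf (nat_lit 0) (nat_lit 24539912059) (nat_lit 1092) (nat_lit 3171753360) (nat_lit 1176) (nat_lit 9938861256) (nat_lit 118) (nat_lit 5) (nat_lit 131) (nat_lit 5) (nat_lit 132) (nat_lit 5) (nat_lit 366) (nat_lit 354) (nat_lit 144))) (XT.nd (nat_lit 94) (nat_lit 0) (nat_lit 0) (XT.lf (nat_lit 84) (nat_lit 12054718515) (nat_lit 0) (nat_lit 14389881900) (nat_lit 1176) (nat_lit 11849947015) (nat_lit 119)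 (nat_lit 5) (nat_lit 118) (nat_lit 5) (nat_lit 132) (nat_lit 5) (nat_lit 367) (nat_lit 354) (nat_lit 143)) (XT.nd (nat_lit 94) (nat_lit 0) (nat_lit 84) (XT.lf (nat_lit 84) (nat_lit 27819195545) (nat_lit 0) (nat_lit 620573013) (nat_lit 1176) (nat_lit 10517795980) (nat_lit 119) (nat_lit 5) (nat_lit 118) (nat_lit 5) (nat_lit 132) (nat_lit 5) (nat_lit 368) (nat_lit 354) (nat_lit 142)) (XT.lf (nat_lit 84) (nat_lit 4383607091) (nat_lit 0) (nat_lit 26289719364) (nat_lit 1176) (nat_lit 8962341988) (nat_lit 120) (nat_lit 5) (nat_lit 119) (nat_lit 5) (nat_lit 133) (nat_lit 5) (nat_lit 369) (nat_lit 354) (nat_lit 141))))) (XT.nd (nat_lit 52828) (nat_lit 420) (nat_lit 0) (XT.nd (nat_lit 94) (nat_lit 0) (nat_lit 84) (XT.lf (nat_lit 84) (nat_lit 20615149901) (nat_lit 0) (nat_lit 12481937460) (nat_lit 1176) (nat_lit 7233962177) (nat_lit 120) (nat_lit 5) (nat_lit 119) (nat_lit 5) (nat_lit 133) (nat_lit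 5) (nat_lit 370) (nat_lit 354) (nat_lit 140)) (XT.lf (nat_lit 0) (nat_lit 35611852470) (nat_lit 1092) (nat_lit 3716798495) (nat_lit 84) (nat_lit 1718850224) (nat_lit 120) (nat_lit 5) (nat_lit 133) (nat_lit 5) (nat_lit 121) (nat_lit 5) (nat_lit 371) (nat_lit 354) (nat_lit 139))) (XT.nd (nat_lit 94) (nat_lit 0) (nat_lit 0) (XT.lf (nat_lit 0) (nat_lit 3389164855) (nat_lit 0) (nat_lit 3389164855) (nat_lit 1092) (nat_lit 9226386676) (nat_lit 114) (nat_lit 5) (nat_lit 114) (nat_lit 3) (nat_lit 127) (nat_lit 3) (nat_lit 355) (nat_lit 355) (nat_lit 154)) (XT.nd (nat_lit 94) (nat_lit 0) (nat_lit 0) (XT.lf (nat_lit 0) (nat_lit 13878766101) (nat_lit 1092) (nat_lit 13055452188) (nat_lit 1176) (nat_lit 5567681283) (nat_lit 114) (nat_lit 5) (nat_lit 127) (nat_lit 3) (nat_lit 128) (nat_lit 5) (nat_lit 356) (nat_lit 355) (nat_lit 153)) (XT.lf (nat_lit 0) (nat_lit 14277954707) (nat_lit 1092) (nat_lit 572891902)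 (nat_lit 1176) (nat_lit 18156714622) (nat_lit 114) (nat_lit 5) (nat_lit 127) (nat_lit 3) (nat_lit 128) (nat_lit 5) (nat_lit 357) (nat_lit 355) (nat_lit 152)))))) (XT.nd (nat_lit 470) (nat_lit 0) (nat_lit 168) (XT.nd (nat_lit 188) (nat_lit 0) (nat_lit 84) (XT.nd (nat_lit 94) (nat_lit 0) (nat_lit 84) (XT.lf (nat_lit 84) (nat_lit 12548274485) (nat_lit 0) (nat_lit 2263561407) (nat_lit 1176) (nat_lit 18713278792) (nat_lit 115) (nat_lit 5) (nat_lit 114) (nat_lit 5) (nat_lit 128) (nat_lit 5) (nat_lit 358) (nat_lit 355) (nat_lit 151)) (XT.lf (nat_lit 0) (nat_lit 15472492090) (nat_lit 1092) (nat_lit 8077773386) (nat_lit 1176) (nat_lit 10505037742) (nat_lit 115) (nat_lit 5) (nat_lit 128) (nat_lit 5) (nat_lit 129) (nat_lit 5) (nat_lit 359) (nat_lit 355) (nat_lit 150))) (XT.nd (nat_lit 94) (nat_lit 0) (nat_lit 84) (XT.lf (nat_lit 84) (nat_lit 5303664168) (nat_lit 0) (nat_lit 10923691720) (nat_lit 1176)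 (nat_lit 18372293814) (nat_lit 116) (nat_lit 5) (nat_lit 115) (nat_lit 5) (nat_lit 129) (nat_lit 5) (nat_lit 360) (nat_lit 355) (nat_lit 149)) (XT.nd (nat_lit 94) (nat_lit 0) (nat_lit 0) (XT.lf (nat_lit 0) (nat_lit 17109594576) (nat_lit 1092) (nat_lit 15909995547) (nat_lit 1176) (nat_lit 2138065026) (nat_lit 116) (nat_lit 5) (nat_lit 129) (nat_lit 5) (nat_lit 130) (nat_lit 5) (nat_lit 361) (nat_lit 355) (nat_lit 148)) (XT.lf (nat_lit 0) (nat_lit 18128986454) (nat_lit 1092) (nat_lit 2221996435) (nat_lit 1176) (nat_lit 15378579157) (nat_lit 116) (nat_lit 5) (nat_lit 129) (nat_lit 5) (nat_lit 130) (nat_lit 5) (nat_lit 362) (nat_lit 355) (nat_lit 147))))) (XT.nd (nat_lit 282) (nat_lit 0) (nat_lit 84) (XT.nd (nat_lit 94) (nat_lit 0) (nat_lit 84) (XT.lf (nat_lit 84) (nat_lit 12133599820) (nat_lit 0) (nat_lit 7164884318) (nat_lit 1176) (nat_lit 17017047254) (nat_lit 117) (nat_lit 5) (nat_lit 116)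 (nat_lit 5) (nat_lit 130) (nat_lit 5) (nat_lit 363) (nat_lit 355) (nat_lit 146)) (XT.nd (nat_lit 94) (nat_lit 0) (nat_lit 0) (XT.lf (nat_lit 0) (nat_lit 20589641166) (nat_lit 1092) (nat_lit 10002898663) (nat_lit 1176) (nat_lit 6324485179) (nat_lit 117) (nat_lit 5) (nat_lit 130) (nat_lit 5) (nat_lit 131) (nat_lit 5) (nat_lit 364) (nat_lit 355) (nat_lit 145)) (XT.lf (nat_lit 84) (nat_lit 4634565056) (nat_lit 0) (nat_lit 17403757234) (nat_lit 1176) (nat_lit 15495206758) (nat_lit 118) (nat_lit 5) (nat_lit 117) (nat_lit 5) (nat_lit 131) (nat_lit 5) (nat_lit 365) (nat_lit 355) (nat_lit 144)))) (XT.nd (nat_lit 94) (nat_lit 0) (nat_lit 84) (XT.lf (nat_lit 84) (nat_lit 19936643195) (nat_lit 0) (nat_lit 3697962837) (nat_lit 1176) (nat_lit 14531361553) (nat_lit 118) (nat_lit 5) (nat_lit 117) (nat_lit 5) (nat_lit 131) (nat_lit 5) (nat_lit 366) (nat_lit 355) (nat_lit 143)) (XT.nd (nat_lit 94) (nat_lit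 0) (nat_lit 0) (XT.lf (nat_lit 0) (nat_lit 25382208654) (nat_lit 1092) (nat_lit 3209649441) (nat_lit 1176) (nat_lit 10223002944) (nat_lit 118) (nat_lit 5) (nat_lit 131) (nat_lit 5) (nat_lit 132) (nat_lit 5) (nat_lit 367) (nat_lit 355) (nat_lit 142)) (XT.lf (nat_lit 84) (nat_lit 12488231280) (nat_lit 0) (nat_lit 14855852139) (nat_lit 1176) (nat_lit 12134829774) (nat_lit 119) (nat_lit 5) (nat_lit 118) (nat_lit 5) (nat_lit 132) (nat_lit 5) (nat_lit 368) (nat_lit 355) (nat_lit 141))))))) (XT.nd (nat_lit 53768) (nat_lit 0) (nat_lit 0) (XT.nd (nat_lit 53204) (nat_lit 0) (nat_lit 0) (XT.nd (nat_lit 188) (nat_lit 336) (nat_lit 0) (XT.nd (nat_lit 94) (nat_lit 0) (nat_lit 84) (XT.lf (nat_lit 84) (nat_lit 28739608542) (nat_lit 0) (nat_lit 659096809) (nat_lit 1176) (nat_lit 10763861624) (nat_lit 119) (nat_lit 5) (nat_lit 118) (nat_lit 5) (nat_lit 132) (nat_lit 5) (nat_lit 369) (nat_lit 355) (nat_lit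 140)) (XT.lf (nat_lit 84) (nat_lit 4579773760) (nat_lit 0) (nat_lit 27119817783) (nat_lit 1176) (nat_lit 9162168420) (nat_lit 120) (nat_lit 5) (nat_lit 119) (nat_lit 5) (nat_lit 133) (nat_lit 5) (nat_lit 370) (nat_lit 355) (nat_lit 139))) (XT.nd (nat_lit 52828) (nat_lit 420) (nat_lit 0) (XT.lf (nat_lit 84) (nat_lit 21312682058) (nat_lit 0) (nat_lit 12883540100) (nat_lit 1176) (nat_lit 7382554317) (nat_lit 120) (nat_lit 5) (nat_lit 119) (nat_lit 5) (nat_lit 133) (nat_lit 5) (nat_lit 371) (nat_lit 355) (nat_lit 138)) (XT.nd (nat_lit 94) (nat_lit 0) (nat_lit 0) (XT.lf (nat_lit 0) (nat_lit 3521758476) (nat_lit 0) (nat_lit 3521758476) (nat_lit 1092) (nat_lit 9455432800) (nat_lit 114) (nat_lit 5) (nat_lit 114) (nat_lit 3) (nat_lit 127) (nat_lit 3) (nat_lit 356) (nat_lit 356) (nat_lit 152)) (XT.lf (nat_lit 0) (nat_lit 14415285105) (nat_lit 1092) (nat_lit 13402527271) (nat_lit 1176) (nat_lit 5687951852)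 (nat_lit 114) (nat_lit 5) (nat_lit 127) (nat_lit 3) (nat_lit 128) (nat_lit 5) (nat_lit 357) (nat_lit 356) (nat_lit 151))))) (XT.nd (nat_lit 282) (nat_lit 0) (nat_lit 84) (XT.nd (nat_lit 94) (nat_lit 0) (nat_lit 0) (XT.lf (nat_lit 0) (nat_lit 14823653025) (nat_lit 1092) (nat_lit 534740847) (nat_lit 1176) (nat_lit 18668818604) (nat_lit 114) (nat_lit 5) (nat_lit 127) (nat_lit 3) (nat_lit 128) (nat_lit 5) (nat_lit 358) (nat_lit 356) (nat_lit 150)) (XT.nd (nat_lit 94) (nat_lit 0) (nat_lit 84) (XT.lf (nat_lit 84) (nat_lit 12992615652) (nat_lit 0) (nat_lit 2378918450) (nat_lit 1176) (nat_lit 19189366703) (nat_lit 115) (nat_lit 5) (nat_lit 114) (nat_lit 5) (nat_lit 128) (nat_lit 5) (nat_lit 359) (nat_lit 356) (nat_lit 149)) (XT.lf (nat_lit 0) (nat_lit 16049213098) (nat_lit 1092) (nat_lit 8270681596) (nat_lit 1176) (nat_lit 10787748976) (nat_lit 115) (nat_lit 5) (nat_lit 128) (nat_lit 5) (nat_lit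 129) (nat_lit 5) (nat_lit 360) (nat_lit 356) (nat_lit 148)))) (XT.nd (nat_lit 94) (nat_lit 0) (nat_lit 84) (XT.lf (nat_lit 84) (nat_lit 5524998358) (nat_lit 0) (nat_lit 11300125172) (nat_lit 1176) (nat_lit 18843825309) (nat_lit 116) (nat_lit 5) (nat_lit 115) (nat_lit 5) (nat_lit 129) (nat_lit 5) (nat_lit 361) (nat_lit 356) (nat_lit 147)) (XT.nd (nat_lit 94) (nat_lit 0) (nat_lit 0) (XT.lf (nat_lit 0) (nat_lit 17731499902) (nat_lit 1092) (nat_lit 16344441514) (nat_lit 1176) (nat_lit 2168421236) (nat_lit 116) (nat_lit 5) (nat_lit 129) (nat_lit 5) (nat_lit 130) (nat_lit 5) (nat_lit 362) (nat_lit 356) (nat_lit 146)) (XT.lf (nat_lit 0) (nat_lit 18779741478) (nat_lit 1092) (nat_lit 2233881337) (nat_lit 1176) (nat_lit 15820471458) (nat_lit 116) (nat_lit 5) (nat_lit 129) (nat_lit 5) (nat_lit 130) (nat_lit 5) (nat_lit 363) (nat_lit 356) (nat_lit 145)))))) (XT.nd (nat_lit 470) (nat_lit 168) (nat_lit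 0) (XT.nd (nat_lit 188) (nat_lit 0) (nat_lit 84) (XT.nd (nat_lit 94) (nat_lit 0) (nat_lit 84) (XT.lf (nat_lit 84) (nat_lit 12566161359) (nat_lit 0) (nat_lit 7417223205) (nat_lit 1176) (nat_lit 17454919490) (nat_lit 117) (nat_lit 5) (nat_lit 116) (nat_lit 5) (nat_lit 130) (nat_lit 5) (nat_lit 364) (nat_lit 356) (nat_lit 144)) (XT.lf (nat_lit 0) (nat_lit 21311671310) (nat_lit 1092) (nat_lit 10255055819) (nat_lit 1176) (nat_lit 6491816327) (nat_lit 117) (nat_lit 5) (nat_lit 130) (nat_lit 5) (nat_lit 131) (nat_lit 5) (nat_lit 365) (nat_lit 356) (nat_lit 143))) (XT.nd (nat_lit 94) (nat_lit 0) (nat_lit 0) (XT.lf (nat_lit 84) (nat_lit 4835582758) (nat_lit 0) (nat_lit 17967729448) (nat_lit 1176) (nat_lit 15890916758) (nat_lit 118) (nat_lit 5) (nat_lit 117) (nat_lit 5) (nat_lit 131) (nat_lit 5) (nat_lit 366) (nat_lit 356) (nat_lit 142)) (XT.nd (nat_lit 94) (nat_lit 0) (nat_lit 84) (XT.lf (nat_lit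 84) (nat_lit 20610301040) (nat_lit 0) (nat_lit 3836320092) (nat_lit 1176) (nat_lit 14899737341) (nat_lit 118) (nat_lit 5) (nat_lit 117) (nat_lit 5) (nat_lit 131) (nat_lit 5) (nat_lit 367) (nat_lit 356) (nat_lit 141)) (XT.lf (nat_lit 0) (nat_lit 26245785545) (nat_lit 1092) (nat_lit 3252299571) (nat_lit 1176) (nat_lit 10517372394) (nat_lit 118) (nat_lit 5) (nat_lit 131) (nat_lit 5) (nat_lit 132) (nat_lit 5) (nat_lit 368) (nat_lit 356) (nat_lit 140))))) (XT.nd (nat_lit 53110) (nat_lit 336) (nat_lit 0) (XT.nd (nat_lit 94) (nat_lit 0) (nat_lit 0) (XT.lf (nat_lit 84) (nat_lit 12931639908) (nat_lit 0) (nat_lit 15335089697) (nat_lit 1176) (nat_lit 12433428477) (nat_lit 119) (nat_lit 5) (nat_lit 118) (nat_lit 5) (nat_lit 132) (nat_lit 5) (nat_lit 369) (nat_lit 356) (nat_lit 139)) (XT.nd (nat_lit 94) (nat_lit 0) (nat_lit 84) (XT.lf (nat_lit 84) (nat_lit 29685117840) (nat_lit 0) (nat_lit 697672498)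 (nat_lit 1176) (nat_lit 11022293013) (nat_lit 119) (nat_lit 5) (nat_lit 118) (nat_lit 5) (nat_lit 132) (nat_lit 5) (nat_lit 370) (nat_lit 356) (nat_lit 138)) (XT.lf (nat_lit 84) (nat_lit 4778451412) (nat_lit 0) (nat_lit 27974753840) (nat_lit 1176) (nat_lit 9372809910) (nat_lit 120) (nat_lit 5) (nat_lit 119) (nat_lit 5) (nat_lit 133) (nat_lit 5) (nat_lit 371) (nat_lit 356) (nat_lit 137)))) (XT.nd (nat_lit 94) (nat_lit 0) (nat_lit 0) (XT.lf (nat_lit 0) (nat_lit 3656831879) (nat_lit 0) (nat_lit 3656831879) (nat_lit 1092) (nat_lit 9694953894) (nat_lit 114) (nat_lit 5) (nat_lit 114) (nat_lit 3) (nat_lit 127) (nat_lit 3) (nat_lit 357) (nat_lit 357) (nat_lit 150)) (XT.nd (nat_lit 94) (nat_lit 0) (nat_lit 0) (XT.lf (nat_lit 0) (nat_lit 14962141214) (nat_lit 1092) (nat_lit 13763776029) (nat_lit 1176) (nat_lit 5815050260) (nat_lit 114) (nat_lit 5) (nat_lit 127) (nat_lit 3) (nat_lit 128) (nat_lit 5)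 (nat_lit 358) (nat_lit 357) (nat_lit 149)) (XT.lf (nat_lit 0) (nat_lit 15380162284) (nat_lit 1092) (nat_lit 498718796) (nat_lit 1176) (nat_lit 19199804066) (nat_lit 114) (nat_lit 5) (nat_lit 127) (nat_lit 3) (nat_lit 128) (nat_lit 5) (nat_lit 359) (nat_lit 357) (nat_lit 148))))))))
noncomputable def xc126 : XT := (XT.nd (nat_lit 54896) (nat_lit 0) (nat_lit 0) (XT.nd (nat_lit 940) (nat_lit 0) (nat_lit 0) (XT.nd (nat_lit 470) (nat_lit 0) (nat_lit 168) (XT.nd (nat_lit 188) (nat_lit 0) (nat_lit 84) (XT.nd (nat_lit 94) (nat_lit 0) (nat_lit 84) (XT.lf (nat_lit 84) (nat_lit 13447453237) (nat_lit 0) (nat_lit 2495175079) (nat_lit 1176) (nat_lit 19686374842) (nat_lit 115) (nat_lit 5) (nat_lit 114) (nat_lit 5) (nat_lit 128) (nat_lit 5) (nat_lit 360) (nat_lit 357) (nat_lit 147)) (XT.lf (nat_lit 0) (nat_lit 16638062613) (nat_lit 1092) (nat_lit 8472975949) (nat_lit 1176) (nat_lit 11081767961) (nat_lit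 115) (nat_lit 5) (nat_lit 128) (nat_lit 5) (nat_lit 129) (nat_lit 5) (nat_lit 361) (nat_lit 357) (nat_lit 146))) (XT.nd (nat_lit 94) (nat_lit 0) (nat_lit 84) (XT.lf (nat_lit 84) (nat_lit 5749822403) (nat_lit 0) (nat_lit 11685989161) (nat_lit 1176) (nat_lit 19335779557) (nat_lit 116) (nat_lit 5) (nat_lit 115) (nat_lit 5) (nat_lit 129) (nat_lit 5) (nat_lit 362) (nat_lit 357) (nat_lit 145)) (XT.nd (nat_lit 94) (nat_lit 0) (nat_lit 0) (XT.lf (nat_lit 0) (nat_lit 18367264124) (nat_lit 1092) (nat_lit 16795835993) (nat_lit 1176) (nat_lit 2201846318) (nat_lit 116) (nat_lit 5) (nat_lit 129) (nat_lit 5) (nat_lit 130) (nat_lit 5) (nat_lit 363) (nat_lit 357) (nat_lit 144)) (XT.lf (nat_lit 0) (nat_lit 19445412712) (nat_lit 1092) (nat_lit 2249510699) (nat_lit 1176) (nat_lit 16278126271) (nat_lit 116) (nat_lit 5) (nat_lit 129) (nat_lit 5) (nat_lit 130) (nat_lit 5) (nat_lit 364) (nat_lit 357) (nat_lit 143)))))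 (XT.nd (nat_lit 188) (nat_lit 0) (nat_lit 84) (XT.nd (nat_lit 94) (nat_lit 0) (nat_lit 84) (XT.lf (nat_lit 84) (nat_lit 13008790456) (nat_lit 0) (nat_lit 7675594173) (nat_lit 1176) (nat_lit 17911676257) (nat_lit 117) (nat_lit 5) (nat_lit 116) (nat_lit 5) (nat_lit 130) (nat_lit 5) (nat_lit 365) (nat_lit 357) (nat_lit 142)) (XT.lf (nat_lit 0) (nat_lit 22051123658) (nat_lit 1092) (nat_lit 10518461301) (nat_lit 1176) (nat_lit 6666036343) (nat_lit 117) (nat_lit 5) (nat_lit 130) (nat_lit 5) (nat_lit 131) (nat_lit 5) (nat_lit 366) (nat_lit 357) (nat_lit 141))) (XT.nd (nat_lit 94) (nat_lit 0) (nat_lit 0) (XT.lf (nat_lit 84) (nat_lit 5039435296) (nat_lit 0) (nat_lit 18547736246) (nat_lit 1176) (nat_lit 16303907225) (nat_lit 118) (nat_lit 5) (nat_lit 117) (nat_lit 5) (nat_lit 131) (nat_lit 5) (nat_lit 367) (nat_lit 357) (nat_lit 140)) (XT.nd (nat_lit 94) (nat_lit 0) (nat_lit 84) (XT.lf (nat_lit 84)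 (nat_lit 21301547698) (nat_lit 0) (nat_lit 3977561422) (nat_lit 1176) (nat_lit 15284395490) (nat_lit 118) (nat_lit 5) (nat_lit 117) (nat_lit 5) (nat_lit 131) (nat_lit 5) (nat_lit 368) (nat_lit 357) (nat_lit 139)) (XT.lf (nat_lit 0) (nat_lit 27131588564) (nat_lit 1092) (nat_lit 3299639118) (nat_lit 1176) (nat_lit 10822202596) (nat_lit 118) (nat_lit 5) (nat_lit 131) (nat_lit 5) (nat_lit 132) (nat_lit 5) (nat_lit 369) (nat_lit 357) (nat_lit 138)))))) (XT.nd (nat_lit 53392) (nat_lit 0) (nat_lit 0) (XT.nd (nat_lit 53110) (nat_lit 336) (nat_lit 0) (XT.nd (nat_lit 94) (nat_lit 0) (nat_lit 0) (XT.lf (nat_lit 84) (nat_lit 13385461030) (nat_lit 0) (nat_lit 15828075623) (nat_lit 1176) (nat_lit 12745878997) (nat_lit 119) (nat_lit 5) (nat_lit 118) (nat_lit 5) (nat_lit 132) (nat_lit 5) (nat_lit 370) (nat_lit 357) (nat_lit 137)) (XT.lf (nat_lit 84) (nat_lit 30656704975) (nat_lit 0) (nat_lit 736369351)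 (nat_lit 1176) (nat_lit 11293192862) (nat_lit 119) (nat_lit 5) (nat_lit 118) (nat_lit 5) (nat_lit 132) (nat_lit 5) (nat_lit 371) (nat_lit 357) (nat_lit 136))) (XT.nd (nat_lit 94) (nat_lit 0) (nat_lit 0) (XT.lf (nat_lit 0) (nat_lit 3794558522) (nat_lit 0) (nat_lit 3794558522) (nat_lit 1092) (nat_lit 9945074804) (nat_lit 114) (nat_lit 5) (nat_lit 114) (nat_lit 3) (nat_lit 127) (nat_lit 3) (nat_lit 358) (nat_lit 358) (nat_lit 148)) (XT.nd (nat_lit 94) (nat_lit 0) (nat_lit 0) (XT.lf (nat_lit 0) (nat_lit 15520027742) (nat_lit 1092) (nat_lit 14139435611) (nat_lit 1176) (nat_lit 5949004582) (nat_lit 114) (nat_lit 5) (nat_lit 127) (nat_lit 3) (nat_lit 128) (nat_lit 5) (nat_lit 359) (nat_lit 358) (nat_lit 147)) (XT.lf (nat_lit 0) (nat_lit 15948179274) (nat_lit 1092) (nat_lit 464695592) (nat_lit 1176) (nat_lit 19750078268) (nat_lit 114) (nat_lit 5) (nat_lit 127) (nat_lit 3) (nat_lit 128) (nat_lit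 5) (nat_lit 360) (nat_lit 358) (nat_lit 146))))) (XT.nd (nat_lit 282) (nat_lit 0) (nat_lit 168) (XT.nd (nat_lit 94) (nat_lit 0) (nat_lit 84) (XT.lf (nat_lit 84) (nat_lit 13913306798) (nat_lit 0) (nat_lit 2612517714) (nat_lit 1176) (nat_lit 20204586781) (nat_lit 115) (nat_lit 5) (nat_lit 114) (nat_lit 5) (nat_lit 128) (nat_lit 5) (nat_lit 361) (nat_lit 358) (nat_lit 145)) (XT.nd (nat_lit 94) (nat_lit 0) (nat_lit 0) (XT.lf (nat_lit 0) (nat_lit 17239757192) (nat_lit 1092) (nat_lit 8684745671) (nat_lit 1176) (nat_lit 11387294568) (nat_lit 115) (nat_lit 5) (nat_lit 128) (nat_lit 5) (nat_lit 129) (nat_lit 5) (nat_lit 362) (nat_lit 358) (nat_lit 144)) (XT.lf (nat_lit 84) (nat_lit 5978444188) (nat_lit 0) (nat_lit 12081708648) (nat_lit 1176) (nat_lit 19848445808) (nat_lit 116) (nat_lit 5) (nat_lit 115) (nat_lit 5) (nat_lit 129) (nat_lit 5) (nat_lit 363) (nat_lit 358) (nat_lit 143)))) (XT.nd (nat_lit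 94) (nat_lit 0) (nat_lit 0) (XT.lf (nat_lit 0) (nat_lit 19017637913) (nat_lit 1092) (nat_lit 17264498219) (nat_lit 1176) (nat_lit 2238309370) (nat_lit 116) (nat_lit 5) (nat_lit 129) (nat_lit 5) (nat_lit 130) (nat_lit 5) (nat_lit 364) (nat_lit 358) (nat_lit 142)) (XT.nd (nat_lit 94) (nat_lit 0) (nat_lit 0) (XT.lf (nat_lit 0) (nat_lit 20126773951) (nat_lit 1092) (nat_lit 2268800634) (nat_lit 1176) (nat_lit 16751909986) (nat_lit 116) (nat_lit 5) (nat_lit 129) (nat_lit 5) (nat_lit 130) (nat_lit 5) (nat_lit 365) (nat_lit 358) (nat_lit 141)) (XT.lf (nat_lit 84) (nat_lit 13461997148) (nat_lit 0) (nat_lit 7940290265) (nat_lit 1176) (nat_lit 18387588427) (nat_lit 117) (nat_lit 5) (nat_lit 116) (nat_lit 5) (nat_lit 130) (nat_lit 5) (nat_lit 366) (nat_lit 358) (nat_lit 140))))))) (XT.nd (nat_lit 54144) (nat_lit 0) (nat_lit 0) (XT.nd (nat_lit 53580) (nat_lit 0) (nat_lit 0) (XT.nd (nat_lit 188) (nat_lit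 252) (nat_lit 0) (XT.nd (nat_lit 94) (nat_lit 0) (nat_lit 0) (XT.lf (nat_lit 0) (nat_lit 22808832130) (nat_lit 1092) (nat_lit 10793260555) (nat_lit 1176) (nat_lit 6847257993) (nat_lit 117) (nat_lit 5) (nat_lit 130) (nat_lit 5) (nat_lit 131) (nat_lit 5) (nat_lit 367) (nat_lit 358) (nat_lit 139)) (XT.lf (nat_lit 84) (nat_lit 5246411743) (nat_lit 0) (nat_lit 19144360499) (nat_lit 1176) (nat_lit 16734416895) (nat_lit 118) (nat_lit 5) (nat_lit 117) (nat_lit 5) (nat_lit 131) (nat_lit 5) (nat_lit 368) (nat_lit 358) (nat_lit 138))) (XT.nd (nat_lit 94) (nat_lit 252) (nat_lit 0) (XT.lf (nat_lit 84) (nat_lit 22011123565) (nat_lit 0) (nat_lit 4121859453) (nat_lit 1176) (nat_lit 15685552727) (nat_lit 118) (nat_lit 5) (nat_lit 117) (nat_lit 5) (nat_lit 131) (nat_lit 5) (nat_lit 369) (nat_lit 358) (nat_lit 137)) (XT.nd (nat_lit 53204) (nat_lit 336) (nat_lit 0) (XT.lf (nat_lit 0) (nat_lit 28040575915) (nat_lit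 1092) (nat_lit 3351614006) (nat_lit 1176) (nat_lit 11137738740) (nat_lit 118) (nat_lit 5) (nat_lit 131) (nat_lit 5) (nat_lit 132) (nat_lit 5) (nat_lit 370) (nat_lit 358) (nat_lit 136)) (XT.lf (nat_lit 0) (nat_lit 3935111519) (nat_lit 0) (nat_lit 3935111519) (nat_lit 1092) (nat_lit 10205936082) (nat_lit 114) (nat_lit 5) (nat_lit 114) (nat_lit 3) (nat_lit 127) (nat_lit 3) (nat_lit 359) (nat_lit 359) (nat_lit 146))))) (XT.nd (nat_lit 282) (nat_lit 0) (nat_lit 84) (XT.nd (nat_lit 94) (nat_lit 0) (nat_lit 0) (XT.lf (nat_lit 0) (nat_lit 16089637409) (nat_lit 1092) (nat_lit 14529762492) (nat_lit 1176) (nat_lit 6089854642) (nat_lit 114) (nat_lit 5) (nat_lit 127) (nat_lit 3) (nat_lit 128) (nat_lit 5) (nat_lit 360) (nat_lit 359) (nat_lit 145)) (XT.nd (nat_lit 94) (nat_lit 0) (nat_lit 0) (XT.lf (nat_lit 0) (nat_lit 16528400966) (nat_lit 1092) (nat_lit 432548660) (nat_lit 1176) (nat_lit 20320071643)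 (nat_lit 114) (nat_lit 5) (nat_lit 127) (nat_lit 3) (nat_lit 128) (nat_lit 5) (nat_lit 361) (nat_lit 359) (nat_lit 144)) (XT.lf (nat_lit 84) (nat_lit 14390700502) (nat_lit 0) (nat_lit 2731129164) (nat_lit 1176) (nat_lit 20744316498) (nat_lit 115) (nat_lit 5) (nat_lit 114) (nat_lit 5) (nat_lit 128) (nat_lit 5) (nat_lit 362) (nat_lit 359) (nat_lit 143)))) (XT.nd (nat_lit 94) (nat_lit 0) (nat_lit 0) (XT.lf (nat_lit 0) (nat_lit 17855015431) (nat_lit 1092) (nat_lit 8906094706) (nat_lit 1176) (nat_lit 11704543790) (nat_lit 115) (nat_lit 5) (nat_lit 128) (nat_lit 5) (nat_lit 129) (nat_lit 5) (nat_lit 363) (nat_lit 359) (nat_lit 142)) (XT.nd (nat_lit 94) (nat_lit 0) (nat_lit 84) (XT.lf (nat_lit 84) (nat_lit 6211169316) (nat_lit 0) (nat_lit 12487713912) (nat_lit 1176) (nat_lit 20382142644) (nat_lit 116) (nat_lit 5) (nat_lit 115) (nat_lit 5) (nat_lit 129) (nat_lit 5) (nat_lit 364) (nat_lit 359) (nat_lit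 141)) (XT.lf (nat_lit 0) (nat_lit 19683376197) (nat_lit 1092) (nat_lit 17750769539) (nat_lit 1176) (nat_lit 2277786002) (nat_lit 116) (nat_lit 5) (nat_lit 129) (nat_lit 5) (nat_lit 130) (nat_lit 5) (nat_lit 365) (nat_lit 359) (nat_lit 140)))))) (XT.nd (nat_lit 53674) (nat_lit 168) (nat_lit 0) (XT.nd (nat_lit 188) (nat_lit 0) (nat_lit 84) (XT.nd (nat_lit 94) (nat_lit 0) (nat_lit 0) (XT.lf (nat_lit 0) (nat_lit 20824604533) (nat_lit 1092) (nat_lit 2291676493) (nat_lit 1176) (nat_lit 17242207596) (nat_lit 116) (nat_lit 5) (nat_lit 129) (nat_lit 5) (nat_lit 130) (nat_lit 5) (nat_lit 366) (nat_lit 359) (nat_lit 139)) (XT.lf (nat_lit 84) (nat_lit 13926295561) (nat_lit 0) (nat_lit 8211607330) (nat_lit 1176) (nat_lit 18882953898) (nat_lit 117) (nat_lit 5) (nat_lit 116) (nat_lit 5) (nat_lit 130) (nat_lit 5) (nat_lit 367) (nat_lit 359) (nat_lit 138))) (XT.nd (nat_lit 94) (nat_lit 0) (nat_lit 0) (XT.lf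 (nat_lit 0) (nat_lit 23585639095) (nat_lit 1092) (nat_lit 11079615576) (nat_lit 1176) (nat_lit 7035603509) (nat_lit 117) (nat_lit 5) (nat_lit 130) (nat_lit 5) (nat_lit 131) (nat_lit 5) (nat_lit 368) (nat_lit 359) (nat_lit 137)) (XT.nd (nat_lit 94) (nat_lit 0) (nat_lit 0) (XT.lf (nat_lit 84) (nat_lit 5456798216) (nat_lit 0) (nat_lit 19758198067) (nat_lit 1176) (nat_lit 17182709499) (nat_lit 118) (nat_lit 5) (nat_lit 117) (nat_lit 5) (nat_lit 131) (nat_lit 5) (nat_lit 369) (nat_lit 359) (nat_lit 136)) (XT.lf (nat_lit 84) (nat_lit 22739780432) (nat_lit 0) (nat_lit 4269387235) (nat_lit 1176) (nat_lit 16103449556) (nat_lit 118) (nat_lit 5) (nat_lit 117) (nat_lit 5) (nat_lit 131) (nat_lit 5) (nat_lit 370) (nat_lit 359) (nat_lit 135))))) (XT.nd (nat_lit 282) (nat_lit 0) (nat_lit 0) (XT.nd (nat_lit 94) (nat_lit 0) (nat_lit 0) (XT.lf (nat_lit 0) (nat_lit 4078663969) (nat_lit 0) (nat_lit 4078663969)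 (nat_lit 1092) (nat_lit 10477693778) (nat_lit 114) (nat_lit 5) (nat_lit 114) (nat_lit 3) (nat_lit 127) (nat_lit 3) (nat_lit 360) (nat_lit 360) (nat_lit 144)) (XT.nd (nat_lit 94) (nat_lit 0) (nat_lit 0) (XT.lf (nat_lit 0) (nat_lit 16671663631) (nat_lit 1092) (nat_lit 14935032370) (nat_lit 1176) (nat_lit 6237651725) (nat_lit 114) (nat_lit 5) (nat_lit 127) (nat_lit 3) (nat_lit 128) (nat_lit 5) (nat_lit 361) (nat_lit 360) (nat_lit 143)) (XT.lf (nat_lit 0) (nat_lit 17121525783) (nat_lit 1092) (nat_lit 402162557) (nat_lit 1176) (nat_lit 20910237888) (nat_lit 114) (nat_lit 5) (nat_lit 127) (nat_lit 3) (nat_lit 128) (nat_lit 5) (nat_lit 362) (nat_lit 360) (nat_lit 142)))) (XT.nd (nat_lit 94) (nat_lit 0) (nat_lit 84) (XT.lf (nat_lit 84) (nat_lit 14880163943) (nat_lit 0) (nat_lit 2851189071) (nat_lit 1176) (nat_lit 21305908041) (nat_lit 115) (nat_lit 5) (nat_lit 114) (nat_lit 5) (nat_lit 128) (nat_lit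 5) (nat_lit 363) (nat_lit 360) (nat_lit 141)) (XT.nd (nat_lit 94) (nat_lit 0) (nat_lit 0) (XT.lf (nat_lit 0) (nat_lit 18484559228) (nat_lit 1092) (nat_lit 9137141462) (nat_lit 1176) (nat_lit 12033745682) (nat_lit 115) (nat_lit 5) (nat_lit 128) (nat_lit 5) (nat_lit 129) (nat_lit 5) (nat_lit 364) (nat_lit 360) (nat_lit 140)) (XT.lf (nat_lit 84) (nat_lit 6448301734) (nat_lit 0) (nat_lit 12904441181) (nat_lit 1176) (nat_lit 20937217685) (nat_lit 116) (nat_lit 5) (nat_lit 115) (nat_lit 5) (nat_lit 129) (nat_lit 5) (nat_lit 365) (nat_lit 360) (nat_lit 139))))))))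
noncomputable def xc127 : XT := (XT.nd (nat_lit 108664) (nat_lit 0) (nat_lit 0) (XT.nd (nat_lit 54238) (nat_lit 0) (nat_lit 0) (XT.nd (nat_lit 53768) (nat_lit 168) (nat_lit 0) (XT.nd (nat_lit 188) (nat_lit 0) (nat_lit 0) (XT.nd (nat_lit 94) (nat_lit 0) (nat_lit 0) (XT.lf (nat_lit 0) (nat_lit 20365239413) (nat_lit 1092) (nat_lit 18255013365) (nat_lit 1176) (nat_lit 2320258086) (nat_lit 116) (nat_lit 5) (nat_lit 129) (nat_lit 5) (nat_lit 130) (nat_lit 5) (nat_lit 366) (nat_lit 360) (nat_lit 138)) (XT.lf (nat_lit 0) (nat_lit 21539690605) (nat_lit 1092) (nat_lit 2318072462) (nat_lit 1176) (nat_lit 17749422838) (nat_lit 116) (nat_lit 5) (nat_lit 129) (nat_lit 5) (nat_lit 130) (nat_lit 5) (nat_lit 367) (nat_lit 360) (nat_lit 137))) (XT.nd (nat_lit 94) (nat_lit 0) (nat_lit 84) (XT.lf (nat_lit 84) (nat_lit 14402204725) (nat_lit 0) (nat_lit 8489844476) (nat_lit 1176) (nat_lit 19398097333) (nat_lit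 117) (nat_lit 5) (nat_lit 116) (nat_lit 5) (nat_lit 130) (nat_lit 5) (nat_lit 368) (nat_lit 360) (nat_lit 136)) (XT.nd (nat_lit 94) (nat_lit 0) (nat_lit 0) (XT.lf (nat_lit 0) (nat_lit 24382396661) (nat_lit 1092) (nat_lit 11377704707) (nat_lit 1176) (nat_lit 7231204528) (nat_lit 117) (nat_lit 5) (nat_lit 130) (nat_lit 5) (nat_lit 131) (nat_lit 5) (nat_lit 369) (nat_lit 360) (nat_lit 135)) (XT.lf (nat_lit 84) (nat_lit 5670878492) (nat_lit 0) (nat_lit 20389858501) (nat_lit 1176) (nat_lit 17649073488) (nat_lit 118) (nat_lit 5) (nat_lit 117) (nat_lit 5) (nat_lit 131) (nat_lit 5) (nat_lit 370) (nat_lit 360) (nat_lit 134))))) (XT.nd (nat_lit 188) (nat_lit 0) (nat_lit 0) (XT.nd (nat_lit 94) (nat_lit 0) (nat_lit 0) (XT.lf (nat_lit 0) (nat_lit 4225389272) (nat_lit 0) (nat_lit 4225389272) (nat_lit 1092) (nat_lit 10760519257) (nat_lit 114) (nat_lit 5) (nat_lit 114) (nat_lit 3) (nat_lit 127) (nat_lit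 3) (nat_lit 361) (nat_lit 361) (nat_lit 142)) (XT.lf (nat_lit 0) (nat_lit 17266801777) (nat_lit 1092) (nat_lit 15355540089) (nat_lit 1176) (nat_lit 6392458331) (nat_lit 114) (nat_lit 5) (nat_lit 127) (nat_lit 3) (nat_lit 128) (nat_lit 5) (nat_lit 362) (nat_lit 361) (nat_lit 141))) (XT.nd (nat_lit 94) (nat_lit 0) (nat_lit 0) (XT.lf (nat_lit 0) (nat_lit 17728254841) (nat_lit 1092) (nat_lit 373428544) (nat_lit 1176) (nat_lit 21521054101) (nat_lit 114) (nat_lit 5) (nat_lit 127) (nat_lit 3) (nat_lit 128) (nat_lit 5) (nat_lit 363) (nat_lit 361) (nat_lit 140)) (XT.nd (nat_lit 94) (nat_lit 0) (nat_lit 84) (XT.lf (nat_lit 84) (nat_lit 15382232954) (nat_lit 0) (nat_lit 2972874334) (nat_lit 1176) (nat_lit 21889735257) (nat_lit 115) (nat_lit 5) (nat_lit 114) (nat_lit 5) (nat_lit 128) (nat_lit 5) (nat_lit 364) (nat_lit 361) (nat_lit 139)) (XT.lf (nat_lit 0) (nat_lit 19129115002) (nat_lit 1092) (nat_lit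 9378018592) (nat_lit 1176) (nat_lit 12375145326) (nat_lit 115) (nat_lit 5) (nat_lit 128) (nat_lit 5) (nat_lit 129) (nat_lit 5) (nat_lit 365) (nat_lit 361) (nat_lit 138)))))) (XT.nd (nat_lit 53862) (nat_lit 84) (nat_lit 0) (XT.nd (nat_lit 188) (nat_lit 0) (nat_lit 84) (XT.nd (nat_lit 94) (nat_lit 0) (nat_lit 84) (XT.lf (nat_lit 84) (nat_lit 6690144341) (nat_lit 0) (nat_lit 13332333255) (nat_lit 1176) (nat_lit 21514047352) (nat_lit 116) (nat_lit 5) (nat_lit 115) (nat_lit 5) (nat_lit 129) (nat_lit 5) (nat_lit 366) (nat_lit 361) (nat_lit 137)) (XT.lf (nat_lit 0) (nat_lit 21063994746) (nat_lit 1092) (nat_lit 18777615188) (nat_lit 1176) (nat_lit 2365713542) (nat_lit 116) (nat_lit 5) (nat_lit 129) (nat_lit 5) (nat_lit 130) (nat_lit 5) (nat_lit 367) (nat_lit 361) (nat_lit 136))) (XT.nd (nat_lit 94) (nat_lit 0) (nat_lit 0) (XT.lf (nat_lit 0) (nat_lit 22272826359) (nat_lit 1092) (nat_lit 2347931164)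 (nat_lit 1176) (nat_lit 18273978376) (nat_lit 116) (nat_lit 5) (nat_lit 129) (nat_lit 5) (nat_lit 130) (nat_lit 5) (nat_lit 368) (nat_lit 361) (nat_lit 135)) (XT.nd (nat_lit 94) (nat_lit 0) (nat_lit 84) (XT.lf (nat_lit 84) (nat_lit 14890249388) (nat_lit 0) (nat_lit 8775304526) (nat_lit 1176) (nat_lit 19933369947) (nat_lit 117) (nat_lit 5) (nat_lit 116) (nat_lit 5) (nat_lit 130) (nat_lit 5) (nat_lit 369) (nat_lit 361) (nat_lit 134)) (XT.lf (nat_lit 0) (nat_lit 25199967948) (nat_lit 1092) (nat_lit 11687722474) (nat_lit 1176) (nat_lit 7434202051) (nat_lit 117) (nat_lit 5) (nat_lit 130) (nat_lit 5) (nat_lit 131) (nat_lit 5) (nat_lit 370) (nat_lit 361) (nat_lit 133))))) (XT.nd (nat_lit 282) (nat_lit 0) (nat_lit 0) (XT.nd (nat_lit 94) (nat_lit 0) (nat_lit 0) (XT.lf (nat_lit 0) (nat_lit 4375461442) (nat_lit 0) (nat_lit 4375461442) (nat_lit 1092) (nat_lit 11054599051) (nat_lit 114) (nat_lit 5) (nat_lit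 114) (nat_lit 3) (nat_lit 127) (nat_lit 3) (nat_lit 362) (nat_lit 362) (nat_lit 140)) (XT.nd (nat_lit 94) (nat_lit 0) (nat_lit 0) (XT.lf (nat_lit 0) (nat_lit 17875750381) (nat_lit 1092) (nat_lit 15791599608) (nat_lit 1176) (nat_lit 6554347952) (nat_lit 114) (nat_lit 5) (nat_lit 127) (nat_lit 3) (nat_lit 128) (nat_lit 5) (nat_lit 363) (nat_lit 362) (nat_lit 139)) (XT.lf (nat_lit 0) (nat_lit 18349293154) (nat_lit 1092) (nat_lit 346244186) (nat_lit 1176) (nat_lit 22153020952) (nat_lit 114) (nat_lit 5) (nat_lit 127) (nat_lit 3) (nat_lit 128) (nat_lit 5) (nat_lit 364) (nat_lit 362) (nat_lit 138)))) (XT.nd (nat_lit 94) (nat_lit 0) (nat_lit 84) (XT.lf (nat_lit 84) (nat_lit 15897450402) (nat_lit 0) (nat_lit 3096359519) (nat_lit 1176) (nat_lit 22496201578) (nat_lit 115) (nat_lit 5) (nat_lit 114) (nat_lit 5) (nat_lit 128) (nat_lit 5) (nat_lit 365) (nat_lit 362) (nat_lit 137)) (XT.nd (nat_lit 94) (nat_lit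 0) (nat_lit 0) (XT.lf (nat_lit 0) (nat_lit 19789414898) (nat_lit 1092) (nat_lit 9628872814) (nat_lit 1176) (nat_lit 12729002833) (nat_lit 115) (nat_lit 5) (nat_lit 128) (nat_lit 5) (nat_lit 129) (nat_lit 5) (nat_lit 366) (nat_lit 362) (nat_lit 136)) (XT.lf (nat_lit 84) (nat_lit 6936999579) (nat_lit 0) (nat_lit 13771840119) (nat_lit 1176) (nat_lit 22113036695) (nat_lit 116) (nat_lit 5) (nat_lit 115) (nat_lit 5) (nat_lit 129) (nat_lit 5) (nat_lit 367) (nat_lit 362) (nat_lit 135))))))) (XT.nd (nat_lit 108194) (nat_lit 0) (nat_lit 0) (XT.nd (nat_lit 53956) (nat_lit 0) (nat_lit 0) (XT.nd (nat_lit 188) (nat_lit 168) (nat_lit 0) (XT.nd (nat_lit 94) (nat_lit 0) (nat_lit 0) (XT.lf (nat_lit 0) (nat_lit 21780417328) (nat_lit 1092) (nat_lit 19318982614) (nat_lit 1176) (nat_lit 2414146132) (nat_lit 116) (nat_lit 5) (nat_lit 129) (nat_lit 5) (nat_lit 130) (nat_lit 5) (nat_lit 368) (nat_lit 362) (nat_lit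 134)) (XT.lf (nat_lit 0) (nat_lit 23024815251) (nat_lit 1092) (nat_lit 2381203310) (nat_lit 1176) (nat_lit 18816316002) (nat_lit 116) (nat_lit 5) (nat_lit 129) (nat_lit 5) (nat_lit 130) (nat_lit 5) (nat_lit 369) (nat_lit 362) (nat_lit 133))) (XT.nd (nat_lit 53580) (nat_lit 168) (nat_lit 0) (XT.lf (nat_lit 84) (nat_lit 15390960798) (nat_lit 0) (nat_lit 9068294458) (nat_lit 1176) (nat_lit 20489149356) (nat_lit 117) (nat_lit 5) (nat_lit 116) (nat_lit 5) (nat_lit 130) (nat_lit 5) (nat_lit 370) (nat_lit 362) (nat_lit 132)) (XT.nd (nat_lit 94) (nat_lit 0) (nat_lit 0) (XT.lf (nat_lit 0) (nat_lit 4529055407) (nat_lit 0) (nat_lit 4529055407) (nat_lit 1092) (nat_lit 11360134753) (nat_lit 114) (nat_lit 5) (nat_lit 114) (nat_lit 3) (nat_lit 127) (nat_lit 3) (nat_lit 363) (nat_lit 363) (nat_lit 138)) (XT.lf (nat_lit 0) (nat_lit 18499212332) (nat_lit 1092) (nat_lit 16243544004) (nat_lit 1176) (nat_lit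 6723404876) (nat_lit 114) (nat_lit 5) (nat_lit 127) (nat_lit 3) (nat_lit 128) (nat_lit 5) (nat_lit 364) (nat_lit 363) (nat_lit 137))))) (XT.nd (nat_lit 282) (nat_lit 0) (nat_lit 0) (XT.nd (nat_lit 94) (nat_lit 0) (nat_lit 0) (XT.lf (nat_lit 0) (nat_lit 18985350815) (nat_lit 1092) (nat_lit 320512972) (nat_lit 1176) (nat_lit 22806662891) (nat_lit 114) (nat_lit 5) (nat_lit 127) (nat_lit 3) (nat_lit 128) (nat_lit 5) (nat_lit 365) (nat_lit 363) (nat_lit 136)) (XT.nd (nat_lit 94) (nat_lit 0) (nat_lit 84) (XT.lf (nat_lit 84) (nat_lit 16426366975) (nat_lit 0) (nat_lit 3221817247) (nat_lit 1176) (nat_lit 23125739878) (nat_lit 115) (nat_lit 5) (nat_lit 114) (nat_lit 5) (nat_lit 128) (nat_lit 5) (nat_lit 366) (nat_lit 363) (nat_lit 135)) (XT.lf (nat_lit 0) (nat_lit 20466197955) (nat_lit 1092) (nat_lit 9889864750) (nat_lit 1176) (nat_lit 13095593369) (nat_lit 115) (nat_lit 5) (nat_lit 128) (nat_lit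 5) (nat_lit 129) (nat_lit 5) (nat_lit 367) (nat_lit 363) (nat_lit 134)))) (XT.nd (nat_lit 94) (nat_lit 84) (nat_lit 0) (XT.lf (nat_lit 84) (nat_lit 7189170002) (nat_lit 0) (nat_lit 14223419557) (nat_lit 1176) (nat_lit 22734619273) (nat_lit 116) (nat_lit 5) (nat_lit 115) (nat_lit 5) (nat_lit 129) (nat_lit 5) (nat_lit 368) (nat_lit 363) (nat_lit 133)) (XT.nd (nat_lit 53768) (nat_lit 168) (nat_lit 0) (XT.lf (nat_lit 0) (nat_lit 22515291424) (nat_lit 1092) (nat_lit 19879545449) (nat_lit 1176) (nat_lit 2465555270) (nat_lit 116) (nat_lit 5) (nat_lit 129) (nat_lit 5) (nat_lit 130) (nat_lit 5) (nat_lit 369) (nat_lit 363) (nat_lit 132)) (XT.lf (nat_lit 0) (nat_lit 4686347299) (nat_lit 0) (nat_lit 4686347299) (nat_lit 1092) (nat_lit 11677342926) (nat_lit 114) (nat_lit 5) (nat_lit 114) (nat_lit 3) (nat_lit 127) (nat_lit 3) (nat_lit 364) (nat_lit 364) (nat_lit 136)))))) (XT.nd (nat_lit 54238) (nat_lit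 0) (nat_lit 0) (XT.nd (nat_lit 188) (nat_lit 0) (nat_lit 0) (XT.nd (nat_lit 94) (nat_lit 0) (nat_lit 0) (XT.lf (nat_lit 0) (nat_lit 19137896035) (nat_lit 1092) (nat_lit 16711725503) (nat_lit 1176) (nat_lit 6899724016) (nat_lit 114) (nat_lit 5) (nat_lit 127) (nat_lit 3) (nat_lit 128) (nat_lit 5) (nat_lit 365) (nat_lit 364) (nat_lit 135)) (XT.lf (nat_lit 0) (nat_lit 19637144140) (nat_lit 1092) (nat_lit 296143962) (nat_lit 1176) (nat_lit 23482528402) (nat_lit 114) (nat_lit 5) (nat_lit 127) (nat_lit 3) (nat_lit 128) (nat_lit 5) (nat_lit 366) (nat_lit 364) (nat_lit 134))) (XT.nd (nat_lit 94) (nat_lit 0) (nat_lit 84) (XT.lf (nat_lit 84) (nat_lit 16969541957) (nat_lit 0) (nat_lit 3349418571) (nat_lit 1176) (nat_lit 23778812379) (nat_lit 115) (nat_lit 5) (nat_lit 114) (nat_lit 5) (nat_lit 128) (nat_lit 5) (nat_lit 367) (nat_lit 364) (nat_lit 133)) (XT.nd (nat_lit 94) (nat_lit 0) (nat_lit 0) (XT.lf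 (nat_lit 0) (nat_lit 21160211256) (nat_lit 1092) (nat_lit 10161168811) (nat_lit 1176) (nat_lit 13475207207) (nat_lit 115) (nat_lit 5) (nat_lit 128) (nat_lit 5) (nat_lit 129) (nat_lit 5) (nat_lit 368) (nat_lit 364) (nat_lit 132)) (XT.lf (nat_lit 84) (nat_lit 7446958823) (nat_lit 0) (nat_lit 14687537754) (nat_lit 1176) (nat_lit 23379257094) (nat_lit 116) (nat_lit 5) (nat_lit 115) (nat_lit 5) (nat_lit 129) (nat_lit 5) (nat_lit 369) (nat_lit 364) (nat_lit 131))))) (XT.nd (nat_lit 282) (nat_lit 0) (nat_lit 0) (XT.nd (nat_lit 94) (nat_lit 0) (nat_lit 0) (XT.lf (nat_lit 0) (nat_lit 4847514746) (nat_lit 0) (nat_lit 4847514746) (nat_lit 1092) (nat_lit 12006455057) (nat_lit 114) (nat_lit 5) (nat_lit 114) (nat_lit 3) (nat_lit 127) (nat_lit 3) (nat_lit 365) (nat_lit 365) (nat_lit 134)) (XT.nd (nat_lit 94) (nat_lit 0) (nat_lit 0) (XT.lf (nat_lit 0) (nat_lit 19792516544) (nat_lit 1092) (nat_lit 17196515558)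 (nat_lit 1176) (nat_lit 7083410767) (nat_lit 114) (nat_lit 5) (nat_lit 127) (nat_lit 3) (nat_lit 128) (nat_lit 5) (nat_lit 366) (nat_lit 365) (nat_lit 133)) (XT.lf (nat_lit 0) (nat_lit 20305396803) (nat_lit 1092) (nat_lit 273051451) (nat_lit 1176) (nat_lit 24181190281) (nat_lit 114) (nat_lit 5) (nat_lit 127) (nat_lit 3) (nat_lit 128) (nat_lit 5) (nat_lit 367) (nat_lit 365) (nat_lit 132)))) (XT.nd (nat_lit 54144) (nat_lit 0) (nat_lit 0) (XT.lf (nat_lit 84) (nat_lit 17527543997) (nat_lit 0) (nat_lit 3479333338) (nat_lit 1176) (nat_lit 24455910617) (nat_lit 115) (nat_lit 5) (nat_lit 114) (nat_lit 5) (nat_lit 128) (nat_lit 5) (nat_lit 368) (nat_lit 365) (nat_lit 131)) (XT.nd (nat_lit 94) (nat_lit 0) (nat_lit 0) (XT.lf (nat_lit 0) (nat_lit 20463796676) (nat_lit 1092) (nat_lit 17698304947) (nat_lit 1176) (nat_lit 7274580883) (nat_lit 114) (nat_lit 5) (nat_lit 127) (nat_lit 3) (nat_lit 128) (nat_lit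 5) (nat_lit 367) (nat_lit 366) (nat_lit 131)) (XT.lf (nat_lit 0) (nat_lit 20990840941) (nat_lit 1092) (nat_lit 251154656) (nat_lit 1176) (nat_lit 24903245960) (nat_lit 114) (nat_lit 5) (nat_lit 127) (nat_lit 3) (nat_lit 128) (nat_lit 5) (nat_lit 368) (nat_lit 366) (nat_lit 130))))))))

set_option maxRecDepth 10000000 in
noncomputable def Tp : PT := (PT.nd (nat_lit 2771402) (PT.nd (nat_lit 2174220) (PT.nd (nat_lit 1632686) (PT.nd (nat_lit 1252832) (PT.nd (nat_lit 927874) pc0 pc1) (PT.nd (nat_lit 216858) pc2 pc3)) (PT.nd (nat_lit 324394) (PT.nd (nat_lit 162338) pc4 pc5) (PT.nd (nat_lit 108758) pc6 pc7))) (PT.nd (nat_lit 326180) (PT.nd (nat_lit 163466) (PT.nd (nat_lit 107912) pc8 pc9) (PT.nd (nat_lit 107442) pc10 pc11)) (PT.nd (nat_lit 161680) (PT.nd (nat_lit 106784) pc12 pc13) (PT.nd (nat_lit 54708) pc14 pc15)))) (PT.nd (nat_lit 431366) (PT.nd (nat_lit 216952) (PT.nd (nat_lit 108758) (PT.nd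 (nat_lit 54426) pc16 pc17) (PT.nd (nat_lit 54144) pc18 pc19)) (PT.nd (nat_lit 107442) (PT.nd (nat_lit 53768) pc20 pc21) (PT.nd (nat_lit 53580) pc22 pc23))) (PT.nd (nat_lit 162338) (PT.nd (nat_lit 56494) (PT.nd (nat_lit 3290) pc24 pc25) (PT.nd (nat_lit 53016) pc26 pc27)) (PT.nd (nat_lit 111578) (PT.nd (nat_lit 53956) pc28 pc29) (PT.nd (nat_lit 104528) pc30 pc31)))))

set_option maxRecDepth 10000000 in
noncomputable def Tx : XT := (XT.nd (nat_lit 13377516) (nat_lit 0) (nat_lit 672) XT.nil (XT.nd (nat_lit 6508278) (nat_lit 0) (nat_lit 0) (XT.nd (nat_lit 2820188) (nat_lit 0) (nat_lit 1176) (XT.nd (nat_lit 1945894) (nat_lit 0) (nat_lit 504) (XT.nd (nat_lit 1352096) (nat_lit 0) (nat_lit 252) (XT.nd (nat_lit 920636) (nat_lit 0) (nat_lit 168) (XT.nd (nat_lit 648882) (nat_lit 0) (nat_lit 168) (XT.nd (nat_lit 432870) (nat_lit 0) (nat_lit 0) (XT.nd (nat_lit 270908) (nat_lit 0) (nat_lit 0) xc0 xc1)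 (XT.nd (nat_lit 108382) (nat_lit 0) (nat_lit 0) xc2 xc3)) (XT.nd (nat_lit 161962) (nat_lit 0) (nat_lit 0) (XT.nd (nat_lit 55460) (nat_lit 0) (nat_lit 0) xc4 xc5) (XT.nd (nat_lit 54990) (nat_lit 0) (nat_lit 0) xc6 xc7))) (XT.nd (nat_lit 217234) (nat_lit 0) (nat_lit 0) (XT.nd (nat_lit 108946) (nat_lit 0) (nat_lit 0) (XT.nd (nat_lit 54520) (nat_lit 0) (nat_lit 0) xc8 xc9) (XT.nd (nat_lit 54238) (nat_lit 0) (nat_lit 0) xc10 xc11)) (XT.nd (nat_lit 107442) (nat_lit 0) (nat_lit 0) (XT.nd (nat_lit 53768) (nat_lit 0) (nat_lit 0) xc12 xc13) (XT.nd (nat_lit 53486) (nat_lit 0) (nat_lit 84) xc14 xc15)))) (XT.nd (nat_lit 323736) (nat_lit 0) (nat_lit 0) (XT.nd (nat_lit 162714) (nat_lit 0) (nat_lit 0) (XT.nd (nat_lit 57058) (nat_lit 0) (nat_lit 0) (XT.nd (nat_lit 3948) (nat_lit 0) (nat_lit 0) xc16 xc17) (XT.nd (nat_lit 52922) (nat_lit 0) (nat_lit 0) xc18 xc19)) (XT.nd (nat_lit 56494) (nat_lit 0) (nat_lit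 0) (XT.nd (nat_lit 3948) (nat_lit 0) (nat_lit 0) xc20 xc21) (XT.nd (nat_lit 52358) (nat_lit 0) (nat_lit 0) xc22 xc23))) (XT.nd (nat_lit 111766) (nat_lit 0) (nat_lit 168) (XT.nd (nat_lit 55930) (nat_lit 0) (nat_lit 168) (XT.nd (nat_lit 3948) (nat_lit 1176) (nat_lit 0) xc24 xc25) (XT.nd (nat_lit 4042) (nat_lit 0) (nat_lit 0) xc26 xc27)) (XT.nd (nat_lit 55648) (nat_lit 0) (nat_lit 84) (XT.nd (nat_lit 51606) (nat_lit 0) (nat_lit 588) xc28 xc29) (XT.nd (nat_lit 51418) (nat_lit 0) (nat_lit 0) xc30 xc31))))) (XT.nd (nat_lit 435878) (nat_lit 0) (nat_lit 252) (XT.nd (nat_lit 219020) (nat_lit 0) (nat_lit 84) (XT.nd (nat_lit 109886) (nat_lit 0) (nat_lit 84) (XT.nd (nat_lit 54990) (nat_lit 0) (nat_lit 0) (XT.nd (nat_lit 3948) (nat_lit 2268) (nat_lit 0) xc32 xc33) (XT.nd (nat_lit 4042) (nat_lit 1344) (nat_lit 0) xc34 xc35)) (XT.nd (nat_lit 54614) (nat_lit 0) (nat_lit 0) (XT.nd (nat_lit 3948) (nat_lit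 840) (nat_lit 0) xc36 xc37) (XT.nd (nat_lit 4042) (nat_lit 588) (nat_lit 0) xc38 xc39))) (XT.nd (nat_lit 108382) (nat_lit 0) (nat_lit 0) (XT.nd (nat_lit 54238) (nat_lit 0) (nat_lit 0) (XT.nd (nat_lit 3948) (nat_lit 420) (nat_lit 0) xc40 xc41) (XT.nd (nat_lit 4042) (nat_lit 420) (nat_lit 0) xc42 xc43)) (XT.nd (nat_lit 54144) (nat_lit 0) (nat_lit 0) (XT.nd (nat_lit 3948) (nat_lit 588) (nat_lit 0) xc44 xc45) (XT.nd (nat_lit 4042) (nat_lit 588) (nat_lit 0) xc46 xc47)))) (XT.nd (nat_lit 218362) (nat_lit 0) (nat_lit 168) (XT.nd (nat_lit 108946) (nat_lit 0) (nat_lit 0) (XT.nd (nat_lit 54332) (nat_lit 0) (nat_lit 0) (XT.nd (nat_lit 3948) (nat_lit 588) (nat_lit 0) xc48 xc49) (XT.nd (nat_lit 4042) (nat_lit 420) (nat_lit 0) xc50 xc51)) (XT.nd (nat_lit 54614) (nat_lit 0) (nat_lit 168) (XT.nd (nat_lit 3948) (nat_lit 420) (nat_lit 0) xc52 xc53) (XT.nd (nat_lit 50760) (nat_lit 0) (nat_lit 3948) xc54 xc55)))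 (XT.nd (nat_lit 109792) (nat_lit 0) (nat_lit 84) (XT.nd (nat_lit 54802) (nat_lit 0) (nat_lit 84) (XT.nd (nat_lit 50760) (nat_lit 0) (nat_lit 2772) xc56 xc57) (XT.nd (nat_lit 50948) (nat_lit 0) (nat_lit 1932) xc58 xc59)) (XT.nd (nat_lit 55084) (nat_lit 0) (nat_lit 0) (XT.nd (nat_lit 51042) (nat_lit 0) (nat_lit 1092) xc60 xc61) (XT.nd (nat_lit 51136) (nat_lit 0) (nat_lit 336) xc62 xc63)))))) (XT.nd (nat_lit 1188536) (nat_lit 0) (nat_lit 1512) (XT.nd (nat_lit 540406) (nat_lit 0) (nat_lit 504) (XT.nd (nat_lit 269028) (nat_lit 0) (nat_lit 168) (XT.nd (nat_lit 157920) (nat_lit 0) (nat_lit 0) (XT.nd (nat_lit 102460) (nat_lit 0) (nat_lit 0) (XT.nd (nat_lit 51136) (nat_lit 0) (nat_lit 0) xc64 xc65) (XT.nd (nat_lit 4042) (nat_lit 2520) (nat_lit 0) xc66 xc67)) (XT.nd (nat_lit 55460) (nat_lit 0) (nat_lit 168) (XT.nd (nat_lit 3948) (nat_lit 924) (nat_lit 0) xc68 xc69) (XT.nd (nat_lit 51606) (nat_lit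 0) (nat_lit 2688) xc70 xc71))) (XT.nd (nat_lit 159330) (nat_lit 0) (nat_lit 252) (XT.nd (nat_lit 55648) (nat_lit 0) (nat_lit 0) (XT.nd (nat_lit 51606) (nat_lit 0) (nat_lit 1092) xc72 xc73) (XT.nd (nat_lit 51794) (nat_lit 0) (nat_lit 0) xc74 xc75)) (XT.nd (nat_lit 55930) (nat_lit 0) (nat_lit 84) (XT.nd (nat_lit 3948) (nat_lit 2100) (nat_lit 0) xc76 xc77) (XT.nd (nat_lit 4042) (nat_lit 168) (nat_lit 0) xc78 xc79)))) (XT.nd (nat_lit 322326) (nat_lit 0) (nat_lit 420) (XT.nd (nat_lit 160740) (nat_lit 0) (nat_lit 168) (XT.nd (nat_lit 56118) (nat_lit 0) (nat_lit 168) (XT.nd (nat_lit 52076) (nat_lit 0) (nat_lit 420) xc80 xc81) (XT.nd (nat_lit 52264) (nat_lit 0) (nat_lit 0) xc82 xc83)) (XT.nd (nat_lit 56400) (nat_lit 0) (nat_lit 252) (XT.nd (nat_lit 3948) (nat_lit 252) (nat_lit 0) xc84 xc85) (XT.nd (nat_lit 52546) (nat_lit 0) (nat_lit 0) xc86 xc87))) (XT.nd (nat_lit 113552) (nat_lit 0) (nat_lit 252)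 (XT.nd (nat_lit 56682) (nat_lit 0) (nat_lit 0) (XT.nd (nat_lit 3948) (nat_lit 1932) (nat_lit 0) xc88 xc89) (XT.nd (nat_lit 52828) (nat_lit 0) (nat_lit 588) xc90 xc91)) (XT.nd (nat_lit 105938) (nat_lit 0) (nat_lit 84) (XT.nd (nat_lit 52922) (nat_lit 0) (nat_lit 0) xc92 xc93) (XT.nd (nat_lit 53110) (nat_lit 0) (nat_lit 252) xc94 xc95))))) (XT.nd (nat_lit 763374) (nat_lit 0) (nat_lit 1680) (XT.nd (nat_lit 329188) (nat_lit 0) (nat_lit 588) (XT.nd (nat_lit 164124) (nat_lit 0) (nat_lit 252) (XT.nd (nat_lit 57246) (nat_lit 0) (nat_lit 0) (XT.nd (nat_lit 3948) (nat_lit 1344) (nat_lit 0) xc96 xc97) (XT.nd (nat_lit 53392) (nat_lit 0) (nat_lit 252) xc98 xc99)) (XT.nd (nat_lit 57528) (nat_lit 0) (nat_lit 0) (XT.nd (nat_lit 53486) (nat_lit 0) (nat_lit 756) xc100 xc101) (XT.nd (nat_lit 53674) (nat_lit 0) (nat_lit 336) xc102 xc103))) (XT.nd (nat_lit 216294) (nat_lit 0) (nat_lit 756) (XT.nd (nat_lit 107912)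 (nat_lit 0) (nat_lit 420) (XT.nd (nat_lit 53862) (nat_lit 0) (nat_lit 420) xc104 xc105) (XT.nd (nat_lit 54144) (nat_lit 0) (nat_lit 336) xc106 xc107)) (XT.nd (nat_lit 108758) (nat_lit 0) (nat_lit 336) (XT.nd (nat_lit 54332) (nat_lit 0) (nat_lit 0) xc108 xc109) (XT.nd (nat_lit 54520) (nat_lit 0) (nat_lit 0) xc110 xc111)))) (XT.nd (nat_lit 595302) (nat_lit 0) (nat_lit 2268) (XT.nd (nat_lit 270438) (nat_lit 0) (nat_lit 1344) (XT.nd (nat_lit 160270) (nat_lit 0) (nat_lit 840) (XT.nd (nat_lit 54614) (nat_lit 0) (nat_lit 420) xc112 xc113) (XT.nd (nat_lit 54990) (nat_lit 0) (nat_lit 84) xc114 xc115)) (XT.nd (nat_lit 161962) (nat_lit 0) (nat_lit 420) (XT.nd (nat_lit 55178) (nat_lit 0) (nat_lit 0) xc116 xc117) (XT.nd (nat_lit 55554) (nat_lit 0) (nat_lit 0) xc118 xc119))) (XT.nd (nat_lit 380606) (nat_lit 0) (nat_lit 1680) (XT.nd (nat_lit 163654) (nat_lit 0) (nat_lit 504) (XT.nd (nat_lit 55742) (nat_lit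 0) (nat_lit 0) xc120 xc121) (XT.nd (nat_lit 108288) (nat_lit 0) (nat_lit 588) xc122 xc123)) (XT.nd (nat_lit 271284) (nat_lit 0) (nat_lit 588) (XT.nd (nat_lit 109040) (nat_lit 0) (nat_lit 588) xc124 xc125) (XT.nd (nat_lit 163278) (nat_lit 0) (nat_lit 0) xc126 xc127))))))) XT.nil))

set_option maxRecDepth 10000000 in
noncomputable def Te : XT := XT.nil

set_option maxRecDepth 10000000 in
noncomputable def Tz : ZL := (ZL.cons (nat_lit 84) (nat_lit 6) (nat_lit 156012236968852749420) (ZL.cons (nat_lit 168) (nat_lit 3) (nat_lit 77031510270783406558) (ZL.cons (nat_lit 672) (nat_lit 3) (nat_lit 73379282961579817015) (ZL.cons (nat_lit 840) (nat_lit 6) (nat_lit 145053024940181717814) (ZL.cons (nat_lit 924) (nat_lit 6) (nat_lit 143419361741510160562) (ZL.cons (nat_lit 1008) (nat_lit 3) (nat_lit 71678969508180320467) (ZL.cons (nat_lit 1092) (nat_lit 6) (nat_lit 141856053581913222834) (ZL.cons (nat_lit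 1176) (nat_lit 6) (nat_lit 141735054983679785038) (ZL.cons (nat_lit 1260) (nat_lit 6) (nat_lit 140182860144219260408) (ZL.cons (nat_lit 1344) (nat_lit 3) (nat_lit 70061642135567671120) (ZL.cons (nat_lit 1428) (nat_lit 6) (nat_lit 138699907689792140212) (ZL.cons (nat_lit 1512) (nat_lit 6) (nat_lit 138582547264735459514) (ZL.cons (nat_lit 1596) (nat_lit 6) (nat_lit 137284815353367673272) (ZL.cons (nat_lit 1680) (nat_lit 6) (nat_lit 137111407836193861120) (ZL.cons (nat_lit 1764) (nat_lit 3) (nat_lit 68526811642110549295) (ZL.cons (nat_lit 1848) (nat_lit 6) (nat_lit 135708494729457367158) (ZL.cons (nat_lit 1932) (nat_lit 6) (nat_lit 135594663085367473174) (ZL.cons (nat_lit 2016) (nat_lit 6) (nat_lit 134372500282551609278) (ZL.cons (nat_lit 2100) (nat_lit 6) (nat_lit 134204306764439279356) (ZL.cons (nat_lit 2184) (nat_lit 3) (nat_lit 67074129836161073951) (ZL.cons (nat_lit 2268) (nat_lit 6) (nat_lit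 133102179208703089482) (ZL.cons (nat_lit 2352) (nat_lit 6) (nat_lit 132881258363701878918) (ZL.cons (nat_lit 2436) (nat_lit 6) (nat_lit 132770849397562311526) (ZL.cons (nat_lit 2520) (nat_lit 6) (nat_lit 131624284663452935650) (ZL.cons (nat_lit 2604) (nat_lit 6) (nat_lit 131461148370424487616) (ZL.cons (nat_lit 2688) (nat_lit 3) (nat_lit 65703393248201025839) (ZL.cons (nat_lit 2772) (nat_lit 6) (nat_lit 130432214032532469686) (ZL.cons (nat_lit 2856) (nat_lit 6) (nat_lit 130217935812356707746) (ZL.cons (nat_lit 2940) (nat_lit 6) (nat_lit 130110846611445391166) (ZL.cons (nat_lit 3024) (nat_lit 6) (nat_lit 129303935336239884944) (ZL.cons (nat_lit 3108) (nat_lit 6) (nat_lit 129040052919025021248) (ZL.cons (nat_lit 3192) (nat_lit 6) (nat_lit 128881821790966390762) (ZL.cons (nat_lit 3276) (nat_lit 3) (nat_lit 64414547232038755060) (ZL.cons (nat_lit 3360) (nat_lit 6) (nat_lit 127926401780186468130)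 (ZL.cons (nat_lit 3444) (nat_lit 6) (nat_lit 127718566455088735888) (ZL.cons (nat_lit 3528) (nat_lit 6) (nat_lit 127614697201052541340) (ZL.cons (nat_lit 3612) (nat_lit 6) (nat_lit 126875944356321723616) (ZL.cons (nat_lit 3696) (nat_lit 6) (nat_lit 126619996327985289380) (ZL.cons (nat_lit 3780) (nat_lit 6) (nat_lit 126466522876909993076) (ZL.cons (nat_lit 3864) (nat_lit 3) (nat_lit 63207690474881339585) (ZL.cons (nat_lit 3948) (nat_lit 6) (nat_lit 125887701511073528708) (ZL.cons (nat_lit 4032) (nat_lit 6) (nat_lit 125585087427219439778) (ZL.cons (nat_lit 4116) (nat_lit 6) (nat_lit 125383501272905441480) (ZL.cons (nat_lit 4200) (nat_lit 6) (nat_lit 125282755148719025818) (ZL.cons (nat_lit 4284) (nat_lit 6) (nat_lit 124960752098589038100) (ZL.cons (nat_lit 4368) (nat_lit 6) (nat_lit 124612875109286205524) (ZL.cons (nat_lit 4452) (nat_lit 6) (nat_lit 124364622899454552532) (ZL.cons (nat_lit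 4536) (nat_lit 6) (nat_lit 124215764072029434876) (ZL.cons (nat_lit 4620) (nat_lit 3) (nat_lit 62083079937495166560) (ZL.cons (nat_lit 4704) (nat_lit 6) (nat_lit 123702453170463439352) (ZL.cons (nat_lit 4788) (nat_lit 6) (nat_lit 123408938055183042714) (ZL.cons (nat_lit 4872) (nat_lit 6) (nat_lit 123213413172240270364) (ZL.cons (nat_lit 4956) (nat_lit 6) (nat_lit 123115696271962466614) (ZL.cons (nat_lit 5040) (nat_lit 6) (nat_lit 122852973002135031970) (ZL.cons (nat_lit 5124) (nat_lit 6) (nat_lit 122515555941705514436) (ZL.cons (nat_lit 5208) (nat_lit 6) (nat_lit 122274768153313998440) (ZL.cons (nat_lit 5292) (nat_lit 6) (nat_lit 122130385197518539996) (ZL.cons (nat_lit 5376) (nat_lit 3) (nat_lit 61041136247139919001) (ZL.cons (nat_lit 5460) (nat_lit 6) (nat_lit 122063642799798787838) (ZL.cons (nat_lit 5544) (nat_lit 6) (nat_lit 121683643833308047320) (ZL.cons (nat_lit 5628) (nat_lit 6)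 (nat_lit 121398954099767410428) (ZL.cons (nat_lit 5712) (nat_lit 6) (nat_lit 121209308238523208338) (ZL.cons (nat_lit 5796) (nat_lit 6) (nat_lit 121114529479766851650) (ZL.cons (nat_lit 5880) (nat_lit 6) (nat_lit 121333726825021685490) (ZL.cons (nat_lit 5964) (nat_lit 6) (nat_lit 120912426300760602602) (ZL.cons (nat_lit 6048) (nat_lit 6) (nat_lit 120585154661158742726) (ZL.cons (nat_lit 6132) (nat_lit 6) (nat_lit 120351606854765419740) (ZL.cons (nat_lit 6216) (nat_lit 6) (nat_lit 120211565190560319406) (ZL.cons (nat_lit 6300) (nat_lit 3) (nat_lit 60082449567521332356) (ZL.cons (nat_lit 6384) (nat_lit 6) (nat_lit 120201184488535752454) (ZL.cons (nat_lit 6468) (nat_lit 6) (nat_lit 119832611291163550208) (ZL.cons (nat_lit 6552) (nat_lit 6) (nat_lit 119556481578709004238) (ZL.cons (nat_lit 6636) (nat_lit 6) (nat_lit 119372537969354783008) (ZL.cons (nat_lit 6720) (nat_lit 6) (nat_lit 119280609008388384668)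 (ZL.cons (nat_lit 6804) (nat_lit 6) (nat_lit 119549255444760026376) (ZL.cons (nat_lit 6888) (nat_lit 6) (nat_lit 119140622540530072074) (ZL.cons (nat_lit 6972) (nat_lit 6) (nat_lit 118823191270305183734) (ZL.cons (nat_lit 7056) (nat_lit 6) (nat_lit 118596665754889739520) (ZL.cons (nat_lit 7140) (nat_lit 6) (nat_lit 118460834848774220284) (ZL.cons (nat_lit 7224) (nat_lit 3) (nat_lit 59207785971662738319) (ZL.cons (nat_lit 7308) (nat_lit 6) (nat_lit 118956031503273319160) (ZL.cons (nat_lit 7392) (nat_lit 6) (nat_lit 118508543403255050546) (ZL.cons (nat_lit 7476) (nat_lit 6) (nat_lit 118151052426172410150) (ZL.cons (nat_lit 7560) (nat_lit 6) (nat_lit 117883225352986623566) (ZL.cons (nat_lit 7644) (nat_lit 6) (nat_lit 117704812540809881346) (ZL.cons (nat_lit 7728) (nat_lit 6) (nat_lit 117615647690212016804) (ZL.cons (nat_lit 7812) (nat_lit 6) (nat_lit 118420959717220375010) (ZL.cons (nat_lit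 7896) (nat_lit 6) (nat_lit 117935784715370569718) (ZL.cons (nat_lit 7980) (nat_lit 6) (nat_lit 117539438542499615010) (ZL.cons (nat_lit 8064) (nat_lit 6) (nat_lit 117231551762456076370) (ZL.cons (nat_lit 8148) (nat_lit 6) (nat_lit 117011837392508991780) (ZL.cons (nat_lit 8232) (nat_lit 6) (nat_lit 116880090635849904254) (ZL.cons (nat_lit 8316) (nat_lit 3) (nat_lit 58418094345350391679) (ZL.cons (nat_lit 8400) (nat_lit 6) (nat_lit 117943541343646395786) (ZL.cons (nat_lit 8484) (nat_lit 6) (nat_lit 117421812605781520974) (ZL.cons (nat_lit 8568) (nat_lit 6) (nat_lit 116987779531079029588) (ZL.cons (nat_lit 8652) (nat_lit 6) (nat_lit 116641037555247176636) (ZL.cons (nat_lit 8736) (nat_lit 6) (nat_lit 116381263478442339990) (ZL.cons (nat_lit 8820) (nat_lit 6) (nat_lit 116208215164012910094) (ZL.cons (nat_lit 8904) (nat_lit 6) (nat_lit 116121731312802566214) (ZL.cons (nat_lit 8988) (nat_lit 6)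 (nat_lit 116966147998641817916) (ZL.cons (nat_lit 9072) (nat_lit 6) (nat_lit 116495561187924257010) (ZL.cons (nat_lit 9156) (nat_lit 6) (nat_lit 116111132310260867380) (ZL.cons (nat_lit 9240) (nat_lit 6) (nat_lit 115812503037667716422) (ZL.cons (nat_lit 9324) (nat_lit 6) (nat_lit 115599395016380534470) (ZL.cons (nat_lit 9408) (nat_lit 6) (nat_lit 115471609607399848220) (ZL.cons (nat_lit 9492) (nat_lit 3) (nat_lit 57714513850669312618) (ZL.cons (nat_lit 9576) (nat_lit 6) (nat_lit 115380187433145302312) (ZL.cons (nat_lit 9660) (nat_lit 6) (nat_lit 115436591927068068552) (ZL.cons (nat_lit 9744) (nat_lit 6) (nat_lit 115549453489810458242) (ZL.cons (nat_lit 9828) (nat_lit 6) (nat_lit 115718877320171497020) (ZL.cons (nat_lit 9912) (nat_lit 6) (nat_lit 115945021338908679512) (ZL.cons (nat_lit 9996) (nat_lit 6) (nat_lit 116228096335936657930) (ZL.cons (nat_lit 10080) (nat_lit 6) (nat_lit 116568366166805523342)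 (ZL.cons (nat_lit 10164) (nat_lit 6) (nat_lit 116062324713978292678) (ZL.cons (nat_lit 10248) (nat_lit 6) (nat_lit 115641342100299833528) (ZL.cons (nat_lit 10332) (nat_lit 6) (nat_lit 115305025925875145892) (ZL.cons (nat_lit 10416) (nat_lit 6) (nat_lit 115053062708799649628) (ZL.cons (nat_lit 10500) (nat_lit 6) (nat_lit 114885217592961211322) (ZL.cons (nat_lit 10584) (nat_lit 6) (nat_lit 114801334129129645968) (ZL.cons (nat_lit 10668) (nat_lit 3) (nat_lit 57327041820940255283) (ZL.cons (nat_lit 10752) (nat_lit 6) (nat_lit 114682716351498615930) (ZL.cons (nat_lit 10836) (nat_lit 6) (nat_lit 114768641169037648802) (ZL.cons (nat_lit 10920) (nat_lit 6) (nat_lit 114911938185428409388) (ZL.cons (nat_lit 11004) (nat_lit 6) (nat_lit 115112740968500918560) (ZL.cons (nat_lit 11088) (nat_lit 6) (nat_lit 115371236687483627028) (ZL.cons (nat_lit 11172) (nat_lit 6) (nat_lit 115687666287464742730) (ZL.cons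 (nat_lit 11256) (nat_lit 6) (nat_lit 115231229031676613822) (ZL.cons (nat_lit 11340) (nat_lit 6) (nat_lit 114858359121236856666) (ZL.cons (nat_lit 11424) (nat_lit 6) (nat_lit 114568709002329823724) (ZL.cons (nat_lit 11508) (nat_lit 6) (nat_lit 114362008690703071106) (ZL.cons (nat_lit 11592) (nat_lit 6) (nat_lit 114238065520013753696) (ZL.cons (nat_lit 11676) (nat_lit 3) (nat_lit 57098381981121705663) (ZL.cons (nat_lit 11760) (nat_lit 6) (nat_lit 114006216757272925940) (ZL.cons (nat_lit 11844) (nat_lit 6) (nat_lit 114064369790507297936) (ZL.cons (nat_lit 11928) (nat_lit 6) (nat_lit 114180730061694701704) (ZL.cons (nat_lit 12012) (nat_lit 6) (nat_lit 114355406030796932684) (ZL.cons (nat_lit 12096) (nat_lit 6) (nat_lit 114588560514114967832) (ZL.cons (nat_lit 12180) (nat_lit 6) (nat_lit 114880410836050813584) (ZL.cons (nat_lit 12264) (nat_lit 6) (nat_lit 114472086283501386670) (ZL.cons (nat_lit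 12348) (nat_lit 6) (nat_lit 114145882428579284208) (ZL.cons (nat_lit 12432) (nat_lit 6) (nat_lit 113901495215120994912) (ZL.cons (nat_lit 12516) (nat_lit 6) (nat_lit 113738696848643363190) (ZL.cons (nat_lit 12600) (nat_lit 6) (nat_lit 113657335584015268764) (ZL.cons (nat_lit 12684) (nat_lit 3) (nat_lit 56703231287952021654) (ZL.cons (nat_lit 12768) (nat_lit 6) (nat_lit 113435982899520309940) (ZL.cons (nat_lit 12852) (nat_lit 6) (nat_lit 113524571386403052832) (ZL.cons (nat_lit 12936) (nat_lit 6) (nat_lit 113672310610301926994) (ZL.cons (nat_lit 13020) (nat_lit 6) (nat_lit 113879338279649683950) (ZL.cons (nat_lit 13104) (nat_lit 6) (nat_lit 114145847365920856382) (ZL.cons (nat_lit 13188) (nat_lit 6) (nat_lit 113784188868889084162) (ZL.cons (nat_lit 13272) (nat_lit 6) (nat_lit 113503247919415725346) (ZL.cons (nat_lit 13356) (nat_lit 6) (nat_lit 113302762651106556946) (ZL.cons (nat_lit 13440)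 (nat_lit 6) (nat_lit 113182546190690148208) (ZL.cons (nat_lit 13524) (nat_lit 3) (nat_lit 56571243241916198076) (ZL.cons (nat_lit 13608) (nat_lit 6) (nat_lit 112882894773669082002) (ZL.cons (nat_lit 13692) (nat_lit 6) (nat_lit 112942850550933719530) (ZL.cons (nat_lit 13776) (nat_lit 6) (nat_lit 113062817990527932816) (ZL.cons (nat_lit 13860) (nat_lit 6) (nat_lit 113242908914672332954) (ZL.cons (nat_lit 13944) (nat_lit 6) (nat_lit 113483291186973227194) (ZL.cons (nat_lit 14028) (nat_lit 6) (nat_lit 113166895595390198620) (ZL.cons (nat_lit 14112) (nat_lit 6) (nat_lit 112929856591065960700) (ZL.cons (nat_lit 14196) (nat_lit 6) (nat_lit 112771953228818015284) (ZL.cons (nat_lit 14280) (nat_lit 6) (nat_lit 112693038326171948916) (ZL.cons (nat_lit 14364) (nat_lit 3) (nat_lit 56202294938441432171) (ZL.cons (nat_lit 14448) (nat_lit 6) (nat_lit 112435025330531235238) (ZL.cons (nat_lit 14532) (nat_lit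 6) (nat_lit 112526360060507343160) (ZL.cons (nat_lit 14616) (nat_lit 6) (nat_lit 112678679200347082422) (ZL.cons (nat_lit 14700) (nat_lit 6) (nat_lit 112892124727444619844) (ZL.cons (nat_lit 14784) (nat_lit 6) (nat_lit 112619631081010712166) (ZL.cons (nat_lit 14868) (nat_lit 6) (nat_lit 112425173982747697230) (ZL.cons (nat_lit 14952) (nat_lit 6) (nat_lit 112308572178270094184) (ZL.cons (nat_lit 15036) (nat_lit 3) (nat_lit 56134858491240889936) (ZL.cons (nat_lit 15120) (nat_lit 6) (nat_lit 112000622378894138474) (ZL.cons (nat_lit 15204) (nat_lit 6) (nat_lit 112062436785253979764) (ZL.cons (nat_lit 15288) (nat_lit 6) (nat_lit 112186123215475613662) (ZL.cons (nat_lit 15372) (nat_lit 6) (nat_lit 112371796958268490208) (ZL.cons (nat_lit 15456) (nat_lit 6) (nat_lit 112141885217895805514) (ZL.cons (nat_lit 15540) (nat_lit 6) (nat_lit 111988729677403132948) (ZL.cons (nat_lit 15624) (nat_lit 6) (nat_lit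 111912187579783281958) (ZL.cons (nat_lit 15708) (nat_lit 3) (nat_lit 55819618393483317795) (ZL.cons (nat_lit 15792) (nat_lit 6) (nat_lit 111670615739678105984) (ZL.cons (nat_lit 15876) (nat_lit 6) (nat_lit 111764781846283473250) (ZL.cons (nat_lit 15960) (nat_lit 6) (nat_lit 111921822879458244432) (ZL.cons (nat_lit 16044) (nat_lit 6) (nat_lit 111733212696855902108) (ZL.cons (nat_lit 16128) (nat_lit 6) (nat_lit 111620116863220981598) (ZL.cons (nat_lit 16212) (nat_lit 3) (nat_lit 55791214980694722460) (ZL.cons (nat_lit 16296) (nat_lit 6) (nat_lit 111350531705520945470) (ZL.cons (nat_lit 16380) (nat_lit 6) (nat_lit 111414262358477941840) (ZL.cons (nat_lit 16464) (nat_lit 6) (nat_lit 111541783068036446390) (ZL.cons (nat_lit 16548) (nat_lit 6) (nat_lit 111393232592291856122) (ZL.cons (nat_lit 16632) (nat_lit 6) (nat_lit 111318991954445249924) (ZL.cons (nat_lit 16716) (nat_lit 3) (nat_lit 55550943165466503703)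 (ZL.cons (nat_lit 16800) (nat_lit 6) (nat_lit 111134238031178533382) (ZL.cons (nat_lit 16884) (nat_lit 6) (nat_lit 111231323287088667036) (ZL.cons (nat_lit 16968) (nat_lit 6) (nat_lit 111121628007132391080) (ZL.cons (nat_lit 17052) (nat_lit 3) (nat_lit 55542537135558660780) (ZL.cons (nat_lit 17136) (nat_lit 6) (nat_lit 110924447852378909630) (ZL.cons (nat_lit 17220) (nat_lit 6) (nat_lit 110990154155577572890) (ZL.cons (nat_lit 17304) (nat_lit 6) (nat_lit 110918145777452833612) (ZL.cons (nat_lit 17388) (nat_lit 3) (nat_lit 55392348137828174266) (ZL.cons (nat_lit 17472) (nat_lit 6) (nat_lit 110818050878609485816) (ZL.cons (nat_lit 17556) (nat_lit 3) (nat_lit 55391298118249908029) (ZL.cons (nat_lit 17640) (nat_lit 6) (nat_lit 110714853037901994238) (ZL.cons (nat_lit 17724) (nat_lit 1) (nat_lit 18446744073709551617) ZL.nil)))))))))))))))))))))))))))))))))))))))))))))))))))))))))))))))))))))))))))))))))))))))))))))))))))))))))))))))))))))))))))))))))))))))))))))))))))))))))))))))))))))))))))))))))))))))))))))))))))))))))))))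

noncomputable def vl : XL := ⟨(nat_lit 0), (nat_lit 84), (nat_lit 197218411), (nat_lit 168), (nat_lit 371959946), (nat_lit 84), (nat_lit 197218411), (nat_lit 1), (nat_lit 5), (nat_lit 2), (nat_lit 4), (nat_lit 1), (nat_lit 4), (nat_lit 0), (nat_lit 0), (nat_lit 0)⟩

noncomputable def cp0 : Nat := (nat_lit 309005256273686591807933125867701557256181402867343965656216845377836039846418709851391317213670983514571251044755576336466114131169688894236591595352246476780318061134272907623132238133346669756386675596531114415546567463512752220089628427101789369466432391770290745441015762183684597219744414514518764991819294516974088614623147028281649112855516860934087625831656120400809976044106172012575286624390165590097314830450559835864718939292747462663139225034441200036110414630129716103487370785106638791708373454233893907191035170992782697531803123159592532842289410332796881715576454965408468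800561196589166007606265744006928729705038951011378420444441097753580271189603010833021977494615861765962696246930634026163603961784324242168166475760876539792732986392188052808925815919219473683557225996953885926130508805267724141021490999310424061186742427044750607247850010472093013968480400940407377654961850307503475044447656893445575408243678123375883473855692643348699240177896187807595511366730879379385316560275254780110630602948748177983265527509850950683330378934196113416381994404489392238429738998135689380216118134042591830341387816189811223970202011393645469677090487234400567807360313702424508275566203855441433795934164894201173348379557835059366097443809666324069942084945736610483577417135197694745731728480732016389635854783827919890631573355358987367171359194623683389744192281835674652536673405104395525686531317337436651175584071053188877121036018543909643622385462301670794503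206054192626879459071662317345727627642876876008707313392140208276086086200723388138327539938328502282196837039551822782522064149159205505305706322065145450552280379543407612282795781722466997550127991144086050861257215444893349501911329118837677811275281503490335132839895071931503476882241986229169681163637501383557751708445242299993615804809973008000965470273909215869837027953041609394381610370220184647782359213462753157729714569330287867867026535204820443561374250414984632111625519477717729161211687778369664426387595198402546863623444752369521931052654360165040577991485415830611794143610353786614023937016857544814218627911409288767050432436530944936017678522137844912338128487860216752064307429019818653869202572579206725598916432556933708169881580933813519413288669616425185211691790260730252827044531673655685674300730393670976407415790292166620398162703469195306418744672441257236969013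354464998809320958714784319612583031042457368009580955437654877661496984351469175267647240325986017804924399508720831260893343501546543896185088875012467246167919008248644082097148796781681583106331639166443560554055353235476892679688592738160024578132532913489800452861281538879891155020981117995580353870701172880050058229368937451368400601298410375686199084812567706904673253122444021773346537245797056533273427632803729597203725184823183897637378003862529252550367059921780722471958283334325377622553272516361874490997472523909724625821452273302959460922067380524239940165915316805056570861249477884189967681145764595903519728537855472045952331701188051763138942212197469438442043938464988102791260834073142298158431768812899146369940685639455356076124445468196373290723571460103829693334476037373747570724991305590596731848964447894033462653489397012896505586337419961285226346447593716616012209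402478987322666434258371526704222866296562269304919526975625170524222613880064232412601582533807546399881395173302170776819955571275758123522307511951549577706345412711932064461183257418385781308083255215038050005629877817700881246097001483591057551908840483856581251855629986687234340417154027544781293315274069624831170078382646289581427033314170881569587421168901694727055807362270213055022313052965727049891046983320617197503827574220016085798384240547247138952007387377979831961051327181832879293360704222837527564140870869408233571460978662934794508091263670078070593337947240550041816043731449063719817482807589137348761962098193151909740971263346884984147156471748017236169855860833522219214666796389031482708658598058584782410369043395235625788770141032385407572547300977549569244518605647736254682762820855144246127534499753699365105955927078726121575750598241821514389392667327245935358289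8068376329188242701643955416126221631492181478820767650732315040824998903473345000652455807126847941388863219609398991203425727148377669247629083489404376192650701194423593472995780104400826289289413983593900352398386608188255243194996977105845955019921435559939802297465814123278241448167204597897774842509009083969659861117611245728509736140635498304295583100510324646947141458074611515008577919268423043687046130528506036970239633885901921583306227633570693672806775900898589652950321519294658823797754626480092808615000682671084139492129112157066695455628612565393147322767992072628147336439095645303549126835645738900644222961965934952762112921323543844169307342917105129533715613008351116553194487449368116808918724871529405001511131504944543625746927060371942240485177687683087636255589442231092156146048721920262341865039879954798221006397976524005941556757088986069761112593708845390753145387462776966359047394001715198585239146197190209672188694365904742116540628091711633813190132441138894890730163465018447722698968147797780205766485967336815367135597348961724217218379963995674227729706605436212485753518121381916527819822780136853178538536255124144128)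

noncomputable def cp1 : Nat := (nat_lit 136673763181534529735918831742374334526982517032841274780357626222753108016993296570330497244473352243533612693390937182981280795786663918259822580333352635228876639901270463172041911929433261153347990869554030812841457541704091309369481591874153886179311910125314523908329894035859531228787890015729022348197949205189891873818569848732376334270661984900677130350246519029980509884203914500063526444494688776271828701635359867564960072968797639944595028891147790485439192123243836230128818324427720739852139644775390821435115624369317712970953252092964857090998141784649536452035829419575468282747429233475843705101361925292711063668245727760381906361699842214405109582169523251717375915495920616267421355932488451364957343725183679111721130301591032226067504635730298604537160000171195907299413456553131620227767235058234748662127343278466729665768934521198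977422801867719134443775423695990719593688692218810020713452626966566373198575983769210730246499664795178627828233991646500817589453094981757368439507336143948141034837217207347016331115196233182492959739698818567226742407766390693491098251991891605039890043647032632165141537733407464081585432683996086452679319504745617127963233546828442800287380617921715131672645305735277684650257942718749766783252855531761836304309805933060398510769793099639099899677170982288287443548962970079753566136301335381911513166416983717579734662409297410944041734674941935150421489449640467817789439337414997163489347113842113128982507198479414829527861701581686382283864930026006392882638598904655571498086954388255175594559753518317645483583161076745456148942374338817247287126456828589134717200303129434066083746743087930758655380286609666856186878738701916160018384783663778471436880448486808239078544037287350554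461019912219546142167685074728730408564644000304898846064940877259462041987425433744766783244558489843497941696659861735915892180266106381907799363136615340367025042846789472642529482152614272864117882643417325079995310889172031145336351467036392291331185753655987327733036908122605076025332992143109910289817183204730740888139507253085348462169515511705787939555754879416163364176705963104937429291250352887787279316344701447711114148100398856058123234361550794124498028654237480271834506933518265012009262954529148565448558885415294709104312256818869622886082496583151370311674565620957340086604031983276044267950266137955997154265884082862936924045811655643000758493846494299334114404792668918603802243577728254737708357793957063836072998783026193498148717235491852790575541438444184178609282863334037376266732273468834423886002535057484083099430346093390432270166171701056704179130854651095065926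080846326722796267615496596853399529735171882784008867249208420299116581281669773455593273790127981097009080074108879561584267880114008753406848134801687298793581350004181381954729945657692671234840635852660774118020817251878325439109847003504499700540828462265005546442497051409624214449812494058159339308317944947456294434330971537525228636601120493471295536301949101766767794850267927372419403147472554537764184829012422605581735198657092781954383476494802035932352715184065237334994759792519242062131749630504364170238748993359095344079735522154379096150449073873780304638643211804861699489784010822668226741249255306122082696206923982528141110988054939757164913762452884630962736422674838020453100188041695758514192685820524109953036148437219814044111556112252112102757101773872105359145380834277870596243144060823643480094407941199451409238021433615943026564197603678293394790708284163678417457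518021776593893430301475461113547281833184658286844475614416627642673518162147431308375960836919714307708697146118318278693410787944275274024155772493744127256025212120637615433295744579299948976454369729850012735493753253470242984215615101181899470723586660597725033331641652526442742186078973270901638667191745730337289309348741404259934984100643480124971922422393350663779912767195057385942692871589491592004530809933236555215770807950076793760799086351077766610630966274573880474919418568400196682818189367057653532182475001489344314228476786236308831368686069665507123069399011696522296607297010985541386887894053357567037843723119213729165827284337241151379084568835530144758115208646009764045714834016593821923828029000289344525705323614136556794980120627307724237685963294939611830959802407769890466338066435303000067767176206021164640481466518202218635522446121589843611735265221617532471258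29790193693376851471309381315337791878203165581605581053025428339818898344780217105431158770252595990199740670146774703539907377434520774642302874514544184540811821521810116384579959325191300037247125779457392805034902053511809044687128729545738152629391602727817989242592702595757740567864131775082809264815185262977146083906393011129702107221546122915508864677496824671609031922456813605260970669089761613190429508627646709597878476187307559396681477529176834148683195381510812431784862309174437784037615712906728028062911589734462615402621784453927266345646261581955344053250919858817054649145494129280267898132761100327682420853303518789282593228821381561131343756265755354078470960525855370191297535185146285685229927621905840031493223410406772180879300424958127712191109750417152031366581647542543747767413925267175995280915540806198373242592592617514050097377627659435285397651483755085299712)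

noncomputable def rc0 : Nat := (nat_lit 925225376554077594618449298340323531811729896882348372403161375932168886149735219101623135235131350264829867858045733508917478827373818102036129957633490230119023616160269937950032178393081840823298074031448373058492138986675946762702084770069821471147775926332637161252614721630907362633830699630341607598260630062296531389210779885098941862731224679269605499404426708410270889575104658067748826228380854190845282663754752635998169637769860141802686850695085088842406091180477992399378458785527590663705694392339376770525604633600051215110255743539607803743130824708737116535437164373925967049586902326507201870211569228075115683835948651879249017669081698498905127996667412825336074131181912264256388568821317606970551859522072803953185420066573395620359092113028446591816675047157274412013817324050324617531773161270288157579133012237835700323681811859450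982702509270116184163665043921036889094258313737252821794724125440438457756013127196911390272903130113601452463542740273208405680565591012420439113340935463993137950457893088350419898073232907038516268143181822184772828799390908943653628325183774274264577334489910076059653986222042955214116033233317521105545398709643732502899359269024929282329984461549615891517865203200502398303875536159061777225649492394747029622168077200471420318012737547759580189652611845442255393481107948958183338241453867467059223162706280968301217892570450326554009411589626945781904758863412937236480520511952383571621859894393351201535844828455692006686392573209403988794324116119666322799119783559168498970325442943257046188372237697505165233404868530445504677614024087669146391154268454758699913905991313899432889045113342521363226864804694494225889086569879372376418184624703846104640007142044788372111547653210571874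580310432071555202599890554310437356340642029766427332395538608527157083835111172846956869956654984145220313209956950081745213553853989460474682295029489536233563265382951740412020050600411969595545230273017379868911008890646792208411241411802621006112843277696406915128174272411941385378099890909643178600197914433593937677090315605101069161540182683768129428582396103860690160110152142461752303079296178363791072045186064100564732855825867736689568183622734114830302656893802921761095538726515350645133916854133045461070292887836536558896246482176855238948107847206225613659999625953338813552980995527587007660291655521872708628007494244810118354658922526578836469806283817565315751400032179197941282524059336767310424486655364852675526353212464043472591730722303146900311468402109049920524482952530925416234422900039382286524991231114087601188109458445446033780090770132900926337647216300206661877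751395807917284521335176524035118384571444657249583176071977187364223071907294406920610625182501973873242890941009625602818566345387341999211389116101757797889868809544551361428839760803933518562051757093455568375693633420388052188674867031209047685418526964879060267907545965658823036801904171642008389962114533580315239604292221327468904173568847886612133971212845581466472651096835751579733117954436279869838463884335138999542518110561730553914571229292272856011895720949419399410213910061690883687050126538101177441680036202949811846754388924653082642678508658518063236306204492954202111277570761483240914855822584051831038242877727145891132698231967219833189154013160896270021192942062480127971243296557189153194976756623383327484803190232656781154825243974098549473841567004678987703807390040194860358957319944652043153072733067154516235398232745476770212533949468261471986720122205159973027195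738894296976458990366426966687791488706840443950331377669176809414191937375484730740593749230960177767531837659988349111951934071350405255846336114834444123395981654566098701101819515371298103838388613878885310220215031209315529800264638661799768983977210978261631986020067486761505557248188732845016765372449412094148794041719419861656160344082623453998612013298948319182965347497033653419654898852269909013547376711596270519476546803050080502205808382606797521707537994288685267085568401791290648397265918061585357509413158211555083082642309212171978464056340623858041338539792342349520737514829988791425938761701313792262590614167746337195170304481336679434943954873309053920753247705206663585074684449075150733877456837317024823149576962918068448346966897754387938158256688338502586939011550881983229732781871304512695914437401945966016659062752125288330234172040846730479040710851046500575171516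8186942945893268366488658526124169466370691532090287102978355499100880418191716784358041729951085694264145657316977910626693132598632053755014766498883005325781992907300116550762230815387180862047028932973521202596570672340049215545364496832045510876610489671000479085502622606231926210611218683011154898322521681273803168623359720423106707298592359181427369005323679855495176858974044936727531004368359830590241288848506160772172521945819899556334515631404258981874538968294575037427436431773303486064518833826561056473739502359627161231981922126260125460042330993433809537842323208657621855118212618673493151306104294441262416274270283520776301676651212384605049149228435615417995873416088673930297798840288478521665479359809251749278189194800436878610389837173625552579484501057060166325393181961283517798023065027602510482690565013451031883757640603318857210482636117972131235194792040168685568)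

noncomputable def rc1 : Nat := (nat_lit 136673763181534529735918831742374334526982517032841274780357626222753108016993296570330497244473352243533612693390937182981280795786663918259822580333352635228876639901270463172041911929433261153347990869554030812841457541704091309369481591874153886179311910125314523908329894035859531228787890015729022348197949205189891873818569848732376334270661984900677130350246519029980509884203914500063526444494688776271828701635359867564960072968797639944595028891147790485439192123243836230128818324427720739852139644775390821435115624369317712970953252092964857090998141784649536452035829419575468282747429233475843705101361925292711063668245727760381906361699842214405109582169523251717375915495920616267421355932488451364957343725183679111721130301591032226067504635730298604537160000171195907299413456553131620227767235058234748662127343278466729665768934521198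977422801867719134443775423695990719593688692218810020713452626966566373198575983769210730246499664795178627828233991646500817589453094981757368439507336143948141034837217207347016331115196233182492959739698818567226742407766390693491098251991891605039890043647032632165141537733407464081585432683996086452679319504745617127963233546828442800287380617921715131672645305735277684650257942718749766783252855531761836304309805933060398510769793099639099899677170982288287443548962970079753566136301335381911513166416983717579734662409297410944041734674941935150421489449640467817789439337414997163489347113842113128982507198479414829527861701581686382283864930026006392882638598904655571498086954388255175594559753518317645483583161076745456148942374338817247287126456828589134717200303129434066083746743087930758655380286609666856186878738701916160018384783663778471436880448486808239078544037287350554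461019912219546142167685074728730408564644000304898846064940877259462041987425433744766783244558489843497941696659861735915892180266106381907799363136615340367025042846789472642529482152614272864117882643417325079995310889172031145336351467036392291331185753655987327733036908122605076025332992143109910289817183204730740888139507253085348462169515511705787939555754879416163364176705963104937429291250352887787279316344701447711114148100398856058123234361550794124498028654237480271834506933518265012009262954529148565448558885415294709104312256818869622886082496583151370311674565620957340086604031983276044267950266137955997154265884082862936924045811655643000758493846494299334114404792668918603802243577728254737708357793957063836072998783026193498148717235491852790575541438444184178609282863334037376266732273468834423886002535057484083099430346093390432270166171701056704179130854651095065926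080846326722796267615496596853399529735171882784008867249208420299116581281669773455593273790127981097009080074108879561584267880114008753406848134801687298793581350004181381954729945657692671234840635852660774118020817251878325439109847003504499700540828462265005546442497051409624214449812494058159339308317944947456294434330971537525228636601120493471295536301949101766767794850267927372419403147472554537764184829012422605581735198657092781954383476494802035932352715184065237334994759792519242062131749630504364170238748993359095344079735522154379096150449073873780304638643211804861699489784010822668226741249255306122082696206923982528141110988054939757164913762452884630962736422674838020453100188041695758514192685820524109953036148437219814044111556112252112102757101773872105359145380834277870596243144060823643480094407941199451409238021433615943026564197603678293394790708284163678417457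518021776593893430301475461113547281833184658286844475614416627642673518162147431308375960836919714307708697146118318278693410787944275274024155772493744127256025212120637615433295744579299948976454369729850012735493753253470242984215615101181899470723586660597725033331641652526442742186078973270901638667191745730337289309348741404259934984100643480124971922422393350663779912767195057385942692871589491592004530809933236555215770807950076793760799086351077766610630966274573880474919418568400196682818189367057653532182475001489344314228476786236308831368686069665507123069399011696522296607297010985541386887894053357567037843723119213729165827284337241151379084568835530144758115208646009764045714834016593821923828029000289344525705323614136556794980120627307724237685963294939611830959802407769890466338066435303000067767176206021164640481466518202218635522446121589843611735265221617532471258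29790193693376851471309381315337791878203165581605581053025428339818898344780217105431158770252595990199740670146774703539907377434520774642302874514544184540811821521810116384579959325191300037247125779457392805034902053511809044687128729545738152629391602727817989242592702595757740567864131775082809264815185262977146083906393011129702107221546122915508864677496824671609031922456813605260970669089761613190429508627646709597878476187307559396681477529176834148683195381510812431784862309174437784037615712906728028062911589734462615402621784453927266345646261581955344053250919858817054649145494129280267898132761100327682420853303518789282593228821381561131343756265755354078470960525855370191297535185146285685229927621905840031493223410406772180879300424958127712191109750417152031366581647542543747767413925267175995280915540806198373242592592617514050097377627659435285397651483755085299712)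

end Vale.Agent.Lib.P154.Chain.D6.S1
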