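import Vale.Agent.Lib.P154.Chain.D6.R1_1

set_option linter.all false

namespace Vale.Agent.Lib.P154.Chain.D6.S2

noncomputable def pc0 : PT := (PT.nd (nat_lit 1307070) (PT.nd (nat_lit 1144638) (PT.nd (nat_lit 1036350) (PT.nd (nat_lit 982112) (PT.nd (nat_lit 169388) (PT.nd (nat_lit 169294) PT.nil (PT.lf (nat_lit 84) (nat_lit 6) (nat_lit 1) (nat_lit 3) (nat_lit 70) (nat_lit 3) (nat_lit 71))) (PT.nd (nat_lit 54144) (PT.lf (nat_lit 84) (nat_lit 6) (nat_lit 1) (nat_lit 1) (nat_lit 71) (nat_lit 3) (nat_lit 70)) (PT.lf (nat_lit 168) (nat_lit 3) (nat_lit 2) (nat_lit 1) (nat_lit 70) (nat_lit 4) (nat_lit 70)))) (PT.nd (nat_lit 188) (PT.nd (nat_lit 94) (PT.lf (nat_lit 2604) (nat_lit 6) (nat_lit 31) (nat_lit 3) (nat_lit 62) (nat_lit 18) (nat_lit 64)) (PT.lf (nat_lit 2688) (nat_lit 3) (nat_lit 32) (nat_lit 1) (nat_lit 63) (nat_lit 18) (nat_lit 63))) (PT.nd (nat_lit 53956) (PT.lf (nat_lit 2604) (nat_lit 6) (nat_lit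 31) (nat_lit 1) (nat_lit 64) (nat_lit 18) (nat_lit 62)) (PT.lf (nat_lit 2856) (nat_lit 6) (nat_lit 34) (nat_lit 3) (nat_lit 61) (nat_lit 19) (nat_lit 64))))) (PT.nd (nat_lit 54144) (PT.nd (nat_lit 188) (PT.nd (nat_lit 94) (PT.lf (nat_lit 2940) (nat_lit 6) (nat_lit 35) (nat_lit 3) (nat_lit 62) (nat_lit 19) (nat_lit 63)) (PT.lf (nat_lit 2940) (nat_lit 6) (nat_lit 35) (nat_lit 1) (nat_lit 63) (nat_lit 19) (nat_lit 62))) (PT.nd (nat_lit 53862) (PT.lf (nat_lit 2856) (nat_lit 6) (nat_lit 34) (nat_lit 1) (nat_lit 64) (nat_lit 19) (nat_lit 61)) (PT.lf (nat_lit 3108) (nat_lit 6) (nat_lit 37) (nat_lit 3) (nat_lit 60) (nat_lit 20) (nat_lit 64)))) (PT.nd (nat_lit 188) (PT.nd (nat_lit 94) (PT.lf (nat_lit 3192) (nat_lit 6) (nat_lit 38) (nat_lit 3) (nat_lit 61) (nat_lit 20) (nat_lit 63)) (PT.lf (nat_lit 3276) (nat_lit 3) (nat_lit 39) (nat_lit 1) (nat_lit 62) (nat_lit 20) (nat_lit 62))) (PT.nd (nat_lit 94) (PT.lf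 (nat_lit 3192) (nat_lit 6) (nat_lit 38) (nat_lit 1) (nat_lit 63) (nat_lit 20) (nat_lit 61)) (PT.lf (nat_lit 3108) (nat_lit 6) (nat_lit 37) (nat_lit 1) (nat_lit 64) (nat_lit 20) (nat_lit 60)))))) (PT.nd (nat_lit 54426) (PT.nd (nat_lit 282) (PT.nd (nat_lit 94) (PT.lf (nat_lit 3444) (nat_lit 6) (nat_lit 41) (nat_lit 3) (nat_lit 60) (nat_lit 21) (nat_lit 63)) (PT.nd (nat_lit 94) (PT.lf (nat_lit 3528) (nat_lit 6) (nat_lit 42) (nat_lit 3) (nat_lit 61) (nat_lit 21) (nat_lit 62)) (PT.lf (nat_lit 3528) (nat_lit 6) (nat_lit 42) (nat_lit 1) (nat_lit 62) (nat_lit 21) (nat_lit 61)))) (PT.nd (nat_lit 53956) (PT.nd (nat_lit 53862) (PT.lf (nat_lit 3444) (nat_lit 6) (nat_lit 41) (nat_lit 1) (nat_lit 63) (nat_lit 21) (nat_lit 60)) (PT.lf (nat_lit 3696) (nat_lit 6) (nat_lit 44) (nat_lit 3) (nat_lit 59) (nat_lit 22) (nat_lit 63))) (PT.nd (nat_lit 94) (PT.lf (nat_lit 3780) (nat_lit 6) (nat_lit 45) (nat_lit 3) (nat_lit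 60) (nat_lit 22) (nat_lit 62)) (PT.lf (nat_lit 3864) (nat_lit 3) (nat_lit 46) (nat_lit 1) (nat_lit 61) (nat_lit 22) (nat_lit 61))))) (PT.nd (nat_lit 54050) (PT.nd (nat_lit 53862) (PT.nd (nat_lit 94) (PT.lf (nat_lit 3780) (nat_lit 6) (nat_lit 45) (nat_lit 1) (nat_lit 62) (nat_lit 22) (nat_lit 60)) (PT.lf (nat_lit 3696) (nat_lit 6) (nat_lit 44) (nat_lit 1) (nat_lit 63) (nat_lit 22) (nat_lit 59))) (PT.nd (nat_lit 94) (PT.lf (nat_lit 4032) (nat_lit 6) (nat_lit 48) (nat_lit 3) (nat_lit 58) (nat_lit 23) (nat_lit 63)) (PT.lf (nat_lit 4116) (nat_lit 6) (nat_lit 49) (nat_lit 3) (nat_lit 59) (nat_lit 23) (nat_lit 62)))) (PT.nd (nat_lit 188) (PT.nd (nat_lit 94) (PT.lf (nat_lit 4200) (nat_lit 6) (nat_lit 50) (nat_lit 3) (nat_lit 60) (nat_lit 23) (nat_lit 61)) (PT.lf (nat_lit 4200) (nat_lit 6) (nat_lit 50) (nat_lit 1) (nat_lit 61) (nat_lit 23) (nat_lit 60))) (PT.nd (nat_lit 94) (PT.lf (nat_lit 4116) (nat_lit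 6) (nat_lit 49) (nat_lit 1) (nat_lit 62) (nat_lit 23) (nat_lit 59)) (PT.lf (nat_lit 4032) (nat_lit 6) (nat_lit 48) (nat_lit 1) (nat_lit 63) (nat_lit 23) (nat_lit 58))))))) (PT.nd (nat_lit 108382) (PT.nd (nat_lit 54144) (PT.nd (nat_lit 282) (PT.nd (nat_lit 94) (PT.lf (nat_lit 4368) (nat_lit 6) (nat_lit 52) (nat_lit 3) (nat_lit 57) (nat_lit 24) (nat_lit 63)) (PT.nd (nat_lit 94) (PT.lf (nat_lit 4452) (nat_lit 6) (nat_lit 53) (nat_lit 3) (nat_lit 58) (nat_lit 24) (nat_lit 62)) (PT.lf (nat_lit 4536) (nat_lit 6) (nat_lit 54) (nat_lit 3) (nat_lit 59) (nat_lit 24) (nat_lit 61)))) (PT.nd (nat_lit 188) (PT.nd (nat_lit 94) (PT.lf (nat_lit 4620) (nat_lit 3) (nat_lit 55) (nat_lit 1) (nat_lit 60) (nat_lit 24) (nat_lit 60)) (PT.lf (nat_lit 4536) (nat_lit 6) (nat_lit 54) (nat_lit 1) (nat_lit 61) (nat_lit 24) (nat_lit 59))) (PT.nd (nat_lit 94) (PT.lf (nat_lit 4452) (nat_lit 6) (nat_lit 53) (nat_lit 1) (nat_lit 62)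 (nat_lit 24) (nat_lit 58)) (PT.lf (nat_lit 4368) (nat_lit 6) (nat_lit 52) (nat_lit 1) (nat_lit 63) (nat_lit 24) (nat_lit 57))))) (PT.nd (nat_lit 376) (PT.nd (nat_lit 188) (PT.nd (nat_lit 94) (PT.lf (nat_lit 4704) (nat_lit 6) (nat_lit 56) (nat_lit 3) (nat_lit 56) (nat_lit 25) (nat_lit 63)) (PT.lf (nat_lit 4788) (nat_lit 6) (nat_lit 57) (nat_lit 3) (nat_lit 57) (nat_lit 25) (nat_lit 62))) (PT.nd (nat_lit 94) (PT.lf (nat_lit 4872) (nat_lit 6) (nat_lit 58) (nat_lit 3) (nat_lit 58) (nat_lit 25) (nat_lit 61)) (PT.lf (nat_lit 4956) (nat_lit 6) (nat_lit 59) (nat_lit 3) (nat_lit 59) (nat_lit 25) (nat_lit 60)))) (PT.nd (nat_lit 188) (PT.nd (nat_lit 94) (PT.lf (nat_lit 4956) (nat_lit 6) (nat_lit 59) (nat_lit 1) (nat_lit 60) (nat_lit 25) (nat_lit 59)) (PT.lf (nat_lit 4872) (nat_lit 6) (nat_lit 58) (nat_lit 1) (nat_lit 61) (nat_lit 25) (nat_lit 58))) (PT.nd (nat_lit 94) (PT.lf (nat_lit 4788) (nat_lit 6) (nat_lit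 57) (nat_lit 1) (nat_lit 62) (nat_lit 25) (nat_lit 57)) (PT.lf (nat_lit 4704) (nat_lit 6) (nat_lit 56) (nat_lit 1) (nat_lit 63) (nat_lit 25) (nat_lit 56)))))) (PT.nd (nat_lit 54144) (PT.nd (nat_lit 282) (PT.nd (nat_lit 94) (PT.lf (nat_lit 5124) (nat_lit 6) (nat_lit 61) (nat_lit 3) (nat_lit 56) (nat_lit 26) (nat_lit 62)) (PT.nd (nat_lit 94) (PT.lf (nat_lit 5208) (nat_lit 6) (nat_lit 62) (nat_lit 3) (nat_lit 57) (nat_lit 26) (nat_lit 61)) (PT.lf (nat_lit 5292) (nat_lit 6) (nat_lit 63) (nat_lit 3) (nat_lit 58) (nat_lit 26) (nat_lit 60)))) (PT.nd (nat_lit 188) (PT.nd (nat_lit 94) (PT.lf (nat_lit 5376) (nat_lit 3) (nat_lit 64) (nat_lit 1) (nat_lit 59) (nat_lit 26) (nat_lit 59)) (PT.lf (nat_lit 5292) (nat_lit 6) (nat_lit 63) (nat_lit 1) (nat_lit 60) (nat_lit 26) (nat_lit 58))) (PT.nd (nat_lit 94) (PT.lf (nat_lit 5208) (nat_lit 6) (nat_lit 62) (nat_lit 1) (nat_lit 61) (nat_lit 26) (nat_lit 57)) (PT.lf (nat_lit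 5124) (nat_lit 6) (nat_lit 61) (nat_lit 1) (nat_lit 62) (nat_lit 26) (nat_lit 56))))) (PT.nd (nat_lit 376) (PT.nd (nat_lit 188) (PT.nd (nat_lit 94) (PT.lf (nat_lit 5544) (nat_lit 6) (nat_lit 66) (nat_lit 3) (nat_lit 55) (nat_lit 27) (nat_lit 62)) (PT.lf (nat_lit 5628) (nat_lit 6) (nat_lit 67) (nat_lit 3) (nat_lit 56) (nat_lit 27) (nat_lit 61))) (PT.nd (nat_lit 94) (PT.lf (nat_lit 5712) (nat_lit 6) (nat_lit 68) (nat_lit 3) (nat_lit 57) (nat_lit 27) (nat_lit 60)) (PT.lf (nat_lit 5796) (nat_lit 6) (nat_lit 69) (nat_lit 3) (nat_lit 58) (nat_lit 27) (nat_lit 59)))) (PT.nd (nat_lit 188) (PT.nd (nat_lit 94) (PT.lf (nat_lit 5796) (nat_lit 6) (nat_lit 69) (nat_lit 1) (nat_lit 59) (nat_lit 27) (nat_lit 58)) (PT.lf (nat_lit 5712) (nat_lit 6) (nat_lit 68) (nat_lit 1) (nat_lit 60) (nat_lit 27) (nat_lit 57))) (PT.nd (nat_lit 94) (PT.lf (nat_lit 5628) (nat_lit 6) (nat_lit 67) (nat_lit 1) (nat_lit 61) (nat_lit 27)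 (nat_lit 56)) (PT.lf (nat_lit 5544) (nat_lit 6) (nat_lit 66) (nat_lit 1) (nat_lit 62) (nat_lit 27) (nat_lit 55))))))))
noncomputable def pc1 : PT := (PT.nd (nat_lit 162432) (PT.nd (nat_lit 54708) (PT.nd (nat_lit 658) (PT.nd (nat_lit 282) (PT.nd (nat_lit 94) (PT.lf (nat_lit 5964) (nat_lit 6) (nat_lit 71) (nat_lit 3) (nat_lit 54) (nat_lit 28) (nat_lit 62)) (PT.nd (nat_lit 94) (PT.lf (nat_lit 6048) (nat_lit 6) (nat_lit 72) (nat_lit 3) (nat_lit 55) (nat_lit 28) (nat_lit 61)) (PT.lf (nat_lit 6132) (nat_lit 6) (nat_lit 73) (nat_lit 3) (nat_lit 56) (nat_lit 28) (nat_lit 60)))) (PT.nd (nat_lit 188) (PT.nd (nat_lit 94) (PT.lf (nat_lit 6216) (nat_lit 6) (nat_lit 74) (nat_lit 3) (nat_lit 57) (nat_lit 28) (nat_lit 59)) (PT.lf (nat_lit 6300) (nat_lit 3) (nat_lit 75) (nat_lit 1) (nat_lit 58) (nat_lit 28) (nat_lit 58))) (PT.nd (nat_lit 94) (PT.lf (nat_lit 6216) (nat_lit 6) (nat_lit 74) (nat_lit 1) (nat_lit 59)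 (nat_lit 28) (nat_lit 57)) (PT.lf (nat_lit 6132) (nat_lit 6) (nat_lit 73) (nat_lit 1) (nat_lit 60) (nat_lit 28) (nat_lit 56))))) (PT.nd (nat_lit 53674) (PT.nd (nat_lit 53486) (PT.nd (nat_lit 94) (PT.lf (nat_lit 6048) (nat_lit 6) (nat_lit 72) (nat_lit 1) (nat_lit 61) (nat_lit 28) (nat_lit 55)) (PT.lf (nat_lit 5964) (nat_lit 6) (nat_lit 71) (nat_lit 1) (nat_lit 62) (nat_lit 28) (nat_lit 54))) (PT.nd (nat_lit 94) (PT.lf (nat_lit 6384) (nat_lit 6) (nat_lit 76) (nat_lit 3) (nat_lit 53) (nat_lit 29) (nat_lit 62)) (PT.lf (nat_lit 6468) (nat_lit 6) (nat_lit 77) (nat_lit 3) (nat_lit 54) (nat_lit 29) (nat_lit 61)))) (PT.nd (nat_lit 188) (PT.nd (nat_lit 94) (PT.lf (nat_lit 6552) (nat_lit 6) (nat_lit 78) (nat_lit 3) (nat_lit 55) (nat_lit 29) (nat_lit 60)) (PT.lf (nat_lit 6636) (nat_lit 6) (nat_lit 79) (nat_lit 3) (nat_lit 56) (nat_lit 29) (nat_lit 59))) (PT.nd (nat_lit 94) (PT.lf (nat_lit 6720) (nat_lit 6) (nat_lit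 80) (nat_lit 3) (nat_lit 57) (nat_lit 29) (nat_lit 58)) (PT.lf (nat_lit 6720) (nat_lit 6) (nat_lit 80) (nat_lit 1) (nat_lit 58) (nat_lit 29) (nat_lit 57)))))) (PT.nd (nat_lit 53862) (PT.nd (nat_lit 282) (PT.nd (nat_lit 94) (PT.lf (nat_lit 6636) (nat_lit 6) (nat_lit 79) (nat_lit 1) (nat_lit 59) (nat_lit 29) (nat_lit 56)) (PT.nd (nat_lit 94) (PT.lf (nat_lit 6552) (nat_lit 6) (nat_lit 78) (nat_lit 1) (nat_lit 60) (nat_lit 29) (nat_lit 55)) (PT.lf (nat_lit 6468) (nat_lit 6) (nat_lit 77) (nat_lit 1) (nat_lit 61) (nat_lit 29) (nat_lit 54)))) (PT.nd (nat_lit 53392) (PT.nd (nat_lit 53298) (PT.lf (nat_lit 6384) (nat_lit 6) (nat_lit 76) (nat_lit 1) (nat_lit 62) (nat_lit 29) (nat_lit 53)) (PT.lf (nat_lit 6804) (nat_lit 6) (nat_lit 81) (nat_lit 3) (nat_lit 52) (nat_lit 30) (nat_lit 62))) (PT.nd (nat_lit 94) (PT.lf (nat_lit 6888) (nat_lit 6) (nat_lit 82) (nat_lit 3) (nat_lit 53) (nat_lit 30) (nat_lit 61)) (PT.lf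 (nat_lit 6972) (nat_lit 6) (nat_lit 83) (nat_lit 3) (nat_lit 54) (nat_lit 30) (nat_lit 60))))) (PT.nd (nat_lit 376) (PT.nd (nat_lit 188) (PT.nd (nat_lit 94) (PT.lf (nat_lit 7056) (nat_lit 6) (nat_lit 84) (nat_lit 3) (nat_lit 55) (nat_lit 30) (nat_lit 59)) (PT.lf (nat_lit 7140) (nat_lit 6) (nat_lit 85) (nat_lit 3) (nat_lit 56) (nat_lit 30) (nat_lit 58))) (PT.nd (nat_lit 94) (PT.lf (nat_lit 7224) (nat_lit 3) (nat_lit 86) (nat_lit 1) (nat_lit 57) (nat_lit 30) (nat_lit 57)) (PT.lf (nat_lit 7140) (nat_lit 6) (nat_lit 85) (nat_lit 1) (nat_lit 58) (nat_lit 30) (nat_lit 56)))) (PT.nd (nat_lit 188) (PT.nd (nat_lit 94) (PT.lf (nat_lit 7056) (nat_lit 6) (nat_lit 84) (nat_lit 1) (nat_lit 59) (nat_lit 30) (nat_lit 55)) (PT.lf (nat_lit 6972) (nat_lit 6) (nat_lit 83) (nat_lit 1) (nat_lit 60) (nat_lit 30) (nat_lit 54))) (PT.nd (nat_lit 94) (PT.lf (nat_lit 6888) (nat_lit 6) (nat_lit 82) (nat_lit 1) (nat_lit 61) (nat_lit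 30) (nat_lit 53)) (PT.lf (nat_lit 6804) (nat_lit 6) (nat_lit 81) (nat_lit 1) (nat_lit 62) (nat_lit 30) (nat_lit 52))))))) (PT.nd (nat_lit 54520) (PT.nd (nat_lit 658) (PT.nd (nat_lit 282) (PT.nd (nat_lit 94) (PT.lf (nat_lit 7308) (nat_lit 6) (nat_lit 87) (nat_lit 3) (nat_lit 51) (nat_lit 31) (nat_lit 62)) (PT.nd (nat_lit 94) (PT.lf (nat_lit 7392) (nat_lit 6) (nat_lit 88) (nat_lit 3) (nat_lit 52) (nat_lit 31) (nat_lit 61)) (PT.lf (nat_lit 7476) (nat_lit 6) (nat_lit 89) (nat_lit 3) (nat_lit 53) (nat_lit 31) (nat_lit 60)))) (PT.nd (nat_lit 188) (PT.nd (nat_lit 94) (PT.lf (nat_lit 7560) (nat_lit 6) (nat_lit 90) (nat_lit 3) (nat_lit 54) (nat_lit 31) (nat_lit 59)) (PT.lf (nat_lit 7644) (nat_lit 6) (nat_lit 91) (nat_lit 3) (nat_lit 55) (nat_lit 31) (nat_lit 58))) (PT.nd (nat_lit 94) (PT.lf (nat_lit 7728) (nat_lit 6) (nat_lit 92) (nat_lit 3) (nat_lit 56) (nat_lit 31) (nat_lit 57)) (PT.lf (nat_lit 7728) (nat_lit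 6) (nat_lit 92) (nat_lit 1) (nat_lit 57) (nat_lit 31) (nat_lit 56))))) (PT.nd (nat_lit 376) (PT.nd (nat_lit 188) (PT.nd (nat_lit 94) (PT.lf (nat_lit 7644) (nat_lit 6) (nat_lit 91) (nat_lit 1) (nat_lit 58) (nat_lit 31) (nat_lit 55)) (PT.lf (nat_lit 7560) (nat_lit 6) (nat_lit 90) (nat_lit 1) (nat_lit 59) (nat_lit 31) (nat_lit 54))) (PT.nd (nat_lit 94) (PT.lf (nat_lit 7476) (nat_lit 6) (nat_lit 89) (nat_lit 1) (nat_lit 60) (nat_lit 31) (nat_lit 53)) (PT.lf (nat_lit 7392) (nat_lit 6) (nat_lit 88) (nat_lit 1) (nat_lit 61) (nat_lit 31) (nat_lit 52)))) (PT.nd (nat_lit 53298) (PT.nd (nat_lit 53204) (PT.lf (nat_lit 7308) (nat_lit 6) (nat_lit 87) (nat_lit 1) (nat_lit 62) (nat_lit 31) (nat_lit 51)) (PT.lf (nat_lit 7896) (nat_lit 6) (nat_lit 94) (nat_lit 3) (nat_lit 51) (nat_lit 32) (nat_lit 61))) (PT.nd (nat_lit 94) (PT.lf (nat_lit 7980) (nat_lit 6) (nat_lit 95) (nat_lit 3) (nat_lit 52) (nat_lit 32) (nat_lit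 60)) (PT.lf (nat_lit 8064) (nat_lit 6) (nat_lit 96) (nat_lit 3) (nat_lit 53) (nat_lit 32) (nat_lit 59)))))) (PT.nd (nat_lit 658) (PT.nd (nat_lit 282) (PT.nd (nat_lit 94) (PT.lf (nat_lit 8148) (nat_lit 6) (nat_lit 97) (nat_lit 3) (nat_lit 54) (nat_lit 32) (nat_lit 58)) (PT.nd (nat_lit 94) (PT.lf (nat_lit 8232) (nat_lit 6) (nat_lit 98) (nat_lit 3) (nat_lit 55) (nat_lit 32) (nat_lit 57)) (PT.lf (nat_lit 8316) (nat_lit 3) (nat_lit 99) (nat_lit 1) (nat_lit 56) (nat_lit 32) (nat_lit 56)))) (PT.nd (nat_lit 188) (PT.nd (nat_lit 94) (PT.lf (nat_lit 8232) (nat_lit 6) (nat_lit 98) (nat_lit 1) (nat_lit 57) (nat_lit 32) (nat_lit 55)) (PT.lf (nat_lit 8148) (nat_lit 6) (nat_lit 97) (nat_lit 1) (nat_lit 58) (nat_lit 32) (nat_lit 54))) (PT.nd (nat_lit 94) (PT.lf (nat_lit 8064) (nat_lit 6) (nat_lit 96) (nat_lit 1) (nat_lit 59) (nat_lit 32) (nat_lit 53)) (PT.lf (nat_lit 7980) (nat_lit 6) (nat_lit 95) (nat_lit 1) (nat_lit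 60) (nat_lit 32) (nat_lit 52))))) (PT.nd (nat_lit 53486) (PT.nd (nat_lit 53298) (PT.nd (nat_lit 53204) (PT.lf (nat_lit 7896) (nat_lit 6) (nat_lit 94) (nat_lit 1) (nat_lit 61) (nat_lit 32) (nat_lit 51)) (PT.lf (nat_lit 8484) (nat_lit 6) (nat_lit 101) (nat_lit 3) (nat_lit 50) (nat_lit 33) (nat_lit 61))) (PT.nd (nat_lit 94) (PT.lf (nat_lit 8568) (nat_lit 6) (nat_lit 102) (nat_lit 3) (nat_lit 51) (nat_lit 33) (nat_lit 60)) (PT.lf (nat_lit 8652) (nat_lit 6) (nat_lit 103) (nat_lit 3) (nat_lit 52) (nat_lit 33) (nat_lit 59)))) (PT.nd (nat_lit 188) (PT.nd (nat_lit 94) (PT.lf (nat_lit 8736) (nat_lit 6) (nat_lit 104) (nat_lit 3) (nat_lit 53) (nat_lit 33) (nat_lit 58)) (PT.lf (nat_lit 8820) (nat_lit 6) (nat_lit 105) (nat_lit 3) (nat_lit 54) (nat_lit 33) (nat_lit 57))) (PT.nd (nat_lit 94) (PT.lf (nat_lit 8904) (nat_lit 6) (nat_lit 106) (nat_lit 3) (nat_lit 55) (nat_lit 33) (nat_lit 56)) (PT.lf (nat_lit 8904)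 (nat_lit 6) (nat_lit 106) (nat_lit 1) (nat_lit 56) (nat_lit 33) (nat_lit 55))))))))
noncomputable def pc2 : PT := (PT.nd (nat_lit 108758) (PT.nd (nat_lit 54426) (PT.nd (nat_lit 53674) (PT.nd (nat_lit 282) (PT.nd (nat_lit 94) (PT.lf (nat_lit 8820) (nat_lit 6) (nat_lit 105) (nat_lit 1) (nat_lit 57) (nat_lit 33) (nat_lit 54)) (PT.nd (nat_lit 94) (PT.lf (nat_lit 8736) (nat_lit 6) (nat_lit 104) (nat_lit 1) (nat_lit 58) (nat_lit 33) (nat_lit 53)) (PT.lf (nat_lit 8652) (nat_lit 6) (nat_lit 103) (nat_lit 1) (nat_lit 59) (nat_lit 33) (nat_lit 52)))) (PT.nd (nat_lit 53204) (PT.nd (nat_lit 94) (PT.lf (nat_lit 8568) (nat_lit 6) (nat_lit 102) (nat_lit 1) (nat_lit 60) (nat_lit 33) (nat_lit 51)) (PT.lf (nat_lit 8484) (nat_lit 6) (nat_lit 101) (nat_lit 1) (nat_lit 61) (nat_lit 33) (nat_lit 50))) (PT.nd (nat_lit 94) (PT.lf (nat_lit 8988) (nat_lit 6) (nat_lit 107) (nat_lit 3) (nat_lit 49) (nat_lit 34) (nat_lit 61))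 (PT.lf (nat_lit 9072) (nat_lit 6) (nat_lit 108) (nat_lit 3) (nat_lit 50) (nat_lit 34) (nat_lit 60))))) (PT.nd (nat_lit 376) (PT.nd (nat_lit 188) (PT.nd (nat_lit 94) (PT.lf (nat_lit 9156) (nat_lit 6) (nat_lit 109) (nat_lit 3) (nat_lit 51) (nat_lit 34) (nat_lit 59)) (PT.lf (nat_lit 9240) (nat_lit 6) (nat_lit 110) (nat_lit 3) (nat_lit 52) (nat_lit 34) (nat_lit 58))) (PT.nd (nat_lit 94) (PT.lf (nat_lit 9324) (nat_lit 6) (nat_lit 111) (nat_lit 3) (nat_lit 53) (nat_lit 34) (nat_lit 57)) (PT.lf (nat_lit 9408) (nat_lit 6) (nat_lit 112) (nat_lit 3) (nat_lit 54) (nat_lit 34) (nat_lit 56)))) (PT.nd (nat_lit 188) (PT.nd (nat_lit 94) (PT.lf (nat_lit 9492) (nat_lit 3) (nat_lit 113) (nat_lit 1) (nat_lit 55) (nat_lit 34) (nat_lit 55)) (PT.lf (nat_lit 9408) (nat_lit 6) (nat_lit 112) (nat_lit 1) (nat_lit 56) (nat_lit 34) (nat_lit 54))) (PT.nd (nat_lit 94) (PT.lf (nat_lit 9324) (nat_lit 6) (nat_lit 111) (nat_lit 1)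 (nat_lit 57) (nat_lit 34) (nat_lit 53)) (PT.lf (nat_lit 9240) (nat_lit 6) (nat_lit 110) (nat_lit 1) (nat_lit 58) (nat_lit 34) (nat_lit 52)))))) (PT.nd (nat_lit 53580) (PT.nd (nat_lit 53204) (PT.nd (nat_lit 94) (PT.lf (nat_lit 9156) (nat_lit 6) (nat_lit 109) (nat_lit 1) (nat_lit 59) (nat_lit 34) (nat_lit 51)) (PT.nd (nat_lit 94) (PT.lf (nat_lit 9072) (nat_lit 6) (nat_lit 108) (nat_lit 1) (nat_lit 60) (nat_lit 34) (nat_lit 50)) (PT.lf (nat_lit 8988) (nat_lit 6) (nat_lit 107) (nat_lit 1) (nat_lit 61) (nat_lit 34) (nat_lit 49)))) (PT.nd (nat_lit 188) (PT.nd (nat_lit 94) (PT.lf (nat_lit 10080) (nat_lit 6) (nat_lit 120) (nat_lit 3) (nat_lit 48) (nat_lit 35) (nat_lit 61)) (PT.lf (nat_lit 10164) (nat_lit 6) (nat_lit 121) (nat_lit 3) (nat_lit 49) (nat_lit 35) (nat_lit 60))) (PT.nd (nat_lit 94) (PT.lf (nat_lit 10248) (nat_lit 6) (nat_lit 122) (nat_lit 3) (nat_lit 50) (nat_lit 35) (nat_lit 59)) (PT.lf (nat_lit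 10332) (nat_lit 6) (nat_lit 123) (nat_lit 3) (nat_lit 51) (nat_lit 35) (nat_lit 58))))) (PT.nd (nat_lit 376) (PT.nd (nat_lit 188) (PT.nd (nat_lit 94) (PT.lf (nat_lit 10416) (nat_lit 6) (nat_lit 124) (nat_lit 3) (nat_lit 52) (nat_lit 35) (nat_lit 57)) (PT.lf (nat_lit 10500) (nat_lit 6) (nat_lit 125) (nat_lit 3) (nat_lit 53) (nat_lit 35) (nat_lit 56))) (PT.nd (nat_lit 94) (PT.lf (nat_lit 10584) (nat_lit 6) (nat_lit 126) (nat_lit 3) (nat_lit 54) (nat_lit 35) (nat_lit 55)) (PT.lf (nat_lit 10584) (nat_lit 6) (nat_lit 126) (nat_lit 1) (nat_lit 55) (nat_lit 35) (nat_lit 54)))) (PT.nd (nat_lit 188) (PT.nd (nat_lit 94) (PT.lf (nat_lit 10500) (nat_lit 6) (nat_lit 125) (nat_lit 1) (nat_lit 56) (nat_lit 35) (nat_lit 53)) (PT.lf (nat_lit 10416) (nat_lit 6) (nat_lit 124) (nat_lit 1) (nat_lit 57) (nat_lit 35) (nat_lit 52))) (PT.nd (nat_lit 94) (PT.lf (nat_lit 10332) (nat_lit 6) (nat_lit 123) (nat_lit 1) (nat_lit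 58) (nat_lit 35) (nat_lit 51)) (PT.lf (nat_lit 10248) (nat_lit 6) (nat_lit 122) (nat_lit 1) (nat_lit 59) (nat_lit 35) (nat_lit 50))))))) (PT.nd (nat_lit 54238) (PT.nd (nat_lit 53486) (PT.nd (nat_lit 53110) (PT.nd (nat_lit 94) (PT.lf (nat_lit 10164) (nat_lit 6) (nat_lit 121) (nat_lit 1) (nat_lit 60) (nat_lit 35) (nat_lit 49)) (PT.nd (nat_lit 52922) (PT.lf (nat_lit 10080) (nat_lit 6) (nat_lit 120) (nat_lit 1) (nat_lit 61) (nat_lit 35) (nat_lit 48)) (PT.lf (nat_lit 9996) (nat_lit 6) (nat_lit 119) (nat_lit 3) (nat_lit 47) (nat_lit 36) (nat_lit 61)))) (PT.nd (nat_lit 188) (PT.nd (nat_lit 94) (PT.lf (nat_lit 11172) (nat_lit 6) (nat_lit 133) (nat_lit 3) (nat_lit 48) (nat_lit 36) (nat_lit 60)) (PT.lf (nat_lit 11256) (nat_lit 6) (nat_lit 134) (nat_lit 3) (nat_lit 49) (nat_lit 36) (nat_lit 59))) (PT.nd (nat_lit 94) (PT.lf (nat_lit 11340) (nat_lit 6) (nat_lit 135) (nat_lit 3) (nat_lit 50) (nat_lit 36) (nat_lit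 58)) (PT.lf (nat_lit 11424) (nat_lit 6) (nat_lit 136) (nat_lit 3) (nat_lit 51) (nat_lit 36) (nat_lit 57))))) (PT.nd (nat_lit 376) (PT.nd (nat_lit 188) (PT.nd (nat_lit 94) (PT.lf (nat_lit 11508) (nat_lit 6) (nat_lit 137) (nat_lit 3) (nat_lit 52) (nat_lit 36) (nat_lit 56)) (PT.lf (nat_lit 11592) (nat_lit 6) (nat_lit 138) (nat_lit 3) (nat_lit 53) (nat_lit 36) (nat_lit 55))) (PT.nd (nat_lit 94) (PT.lf (nat_lit 11676) (nat_lit 3) (nat_lit 139) (nat_lit 1) (nat_lit 54) (nat_lit 36) (nat_lit 54)) (PT.lf (nat_lit 11592) (nat_lit 6) (nat_lit 138) (nat_lit 1) (nat_lit 55) (nat_lit 36) (nat_lit 53)))) (PT.nd (nat_lit 188) (PT.nd (nat_lit 94) (PT.lf (nat_lit 11508) (nat_lit 6) (nat_lit 137) (nat_lit 1) (nat_lit 56) (nat_lit 36) (nat_lit 52)) (PT.lf (nat_lit 11424) (nat_lit 6) (nat_lit 136) (nat_lit 1) (nat_lit 57) (nat_lit 36) (nat_lit 51))) (PT.nd (nat_lit 94) (PT.lf (nat_lit 11340) (nat_lit 6) (nat_lit 135)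 (nat_lit 1) (nat_lit 58) (nat_lit 36) (nat_lit 50)) (PT.lf (nat_lit 11256) (nat_lit 6) (nat_lit 134) (nat_lit 1) (nat_lit 59) (nat_lit 36) (nat_lit 49)))))) (PT.nd (nat_lit 53392) (PT.nd (nat_lit 53016) (PT.nd (nat_lit 94) (PT.lf (nat_lit 11172) (nat_lit 6) (nat_lit 133) (nat_lit 1) (nat_lit 60) (nat_lit 36) (nat_lit 48)) (PT.nd (nat_lit 52828) (PT.lf (nat_lit 9996) (nat_lit 6) (nat_lit 119) (nat_lit 1) (nat_lit 61) (nat_lit 36) (nat_lit 47)) (PT.lf (nat_lit 9912) (nat_lit 6) (nat_lit 118) (nat_lit 3) (nat_lit 46) (nat_lit 37) (nat_lit 61)))) (PT.nd (nat_lit 188) (PT.nd (nat_lit 94) (PT.lf (nat_lit 11088) (nat_lit 6) (nat_lit 132) (nat_lit 3) (nat_lit 47) (nat_lit 37) (nat_lit 60)) (PT.lf (nat_lit 12180) (nat_lit 6) (nat_lit 145) (nat_lit 3) (nat_lit 48) (nat_lit 37) (nat_lit 59))) (PT.nd (nat_lit 94) (PT.lf (nat_lit 12264) (nat_lit 6) (nat_lit 146) (nat_lit 3) (nat_lit 49) (nat_lit 37) (nat_lit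 58)) (PT.lf (nat_lit 12348) (nat_lit 6) (nat_lit 147) (nat_lit 3) (nat_lit 50) (nat_lit 37) (nat_lit 57))))) (PT.nd (nat_lit 376) (PT.nd (nat_lit 188) (PT.nd (nat_lit 94) (PT.lf (nat_lit 12432) (nat_lit 6) (nat_lit 148) (nat_lit 3) (nat_lit 51) (nat_lit 37) (nat_lit 56)) (PT.lf (nat_lit 12516) (nat_lit 6) (nat_lit 149) (nat_lit 3) (nat_lit 52) (nat_lit 37) (nat_lit 55))) (PT.nd (nat_lit 94) (PT.lf (nat_lit 12600) (nat_lit 6) (nat_lit 150) (nat_lit 3) (nat_lit 53) (nat_lit 37) (nat_lit 54)) (PT.lf (nat_lit 12600) (nat_lit 6) (nat_lit 150) (nat_lit 1) (nat_lit 54) (nat_lit 37) (nat_lit 53)))) (PT.nd (nat_lit 188) (PT.nd (nat_lit 94) (PT.lf (nat_lit 12516) (nat_lit 6) (nat_lit 149) (nat_lit 1) (nat_lit 55) (nat_lit 37) (nat_lit 52)) (PT.lf (nat_lit 12432) (nat_lit 6) (nat_lit 148) (nat_lit 1) (nat_lit 56) (nat_lit 37) (nat_lit 51))) (PT.nd (nat_lit 94) (PT.lf (nat_lit 12348) (nat_lit 6) (nat_lit 147)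 (nat_lit 1) (nat_lit 57) (nat_lit 37) (nat_lit 50)) (PT.lf (nat_lit 12264) (nat_lit 6) (nat_lit 146) (nat_lit 1) (nat_lit 58) (nat_lit 37) (nat_lit 49))))))))
noncomputable def pc3 : PT := (PT.nd (nat_lit 108006) (PT.nd (nat_lit 54050) (PT.nd (nat_lit 53298) (PT.nd (nat_lit 52922) (PT.nd (nat_lit 94) (PT.lf (nat_lit 12180) (nat_lit 6) (nat_lit 145) (nat_lit 1) (nat_lit 59) (nat_lit 37) (nat_lit 48)) (PT.nd (nat_lit 94) (PT.lf (nat_lit 11088) (nat_lit 6) (nat_lit 132) (nat_lit 1) (nat_lit 60) (nat_lit 37) (nat_lit 47)) (PT.lf (nat_lit 9912) (nat_lit 6) (nat_lit 118) (nat_lit 1) (nat_lit 61) (nat_lit 37) (nat_lit 46)))) (PT.nd (nat_lit 188) (PT.nd (nat_lit 94) (PT.lf (nat_lit 9828) (nat_lit 6) (nat_lit 117) (nat_lit 3) (nat_lit 45) (nat_lit 38) (nat_lit 61)) (PT.lf (nat_lit 11004) (nat_lit 6) (nat_lit 131) (nat_lit 3) (nat_lit 46) (nat_lit 38) (nat_lit 60))) (PT.nd (nat_lit 94) (PT.lf (nat_lit 12096)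 (nat_lit 6) (nat_lit 144) (nat_lit 3) (nat_lit 47) (nat_lit 38) (nat_lit 59)) (PT.lf (nat_lit 13104) (nat_lit 6) (nat_lit 156) (nat_lit 3) (nat_lit 48) (nat_lit 38) (nat_lit 58))))) (PT.nd (nat_lit 376) (PT.nd (nat_lit 188) (PT.nd (nat_lit 94) (PT.lf (nat_lit 13188) (nat_lit 6) (nat_lit 157) (nat_lit 3) (nat_lit 49) (nat_lit 38) (nat_lit 57)) (PT.lf (nat_lit 13272) (nat_lit 6) (nat_lit 158) (nat_lit 3) (nat_lit 50) (nat_lit 38) (nat_lit 56))) (PT.nd (nat_lit 94) (PT.lf (nat_lit 13356) (nat_lit 6) (nat_lit 159) (nat_lit 3) (nat_lit 51) (nat_lit 38) (nat_lit 55)) (PT.lf (nat_lit 13440) (nat_lit 6) (nat_lit 160) (nat_lit 3) (nat_lit 52) (nat_lit 38) (nat_lit 54)))) (PT.nd (nat_lit 188) (PT.nd (nat_lit 94) (PT.lf (nat_lit 13524) (nat_lit 3) (nat_lit 161) (nat_lit 1) (nat_lit 53) (nat_lit 38) (nat_lit 53)) (PT.lf (nat_lit 13440) (nat_lit 6) (nat_lit 160) (nat_lit 1) (nat_lit 54) (nat_lit 38) (nat_lit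 52))) (PT.nd (nat_lit 94) (PT.lf (nat_lit 13356) (nat_lit 6) (nat_lit 159) (nat_lit 1) (nat_lit 55) (nat_lit 38) (nat_lit 51)) (PT.lf (nat_lit 13272) (nat_lit 6) (nat_lit 158) (nat_lit 1) (nat_lit 56) (nat_lit 38) (nat_lit 50)))))) (PT.nd (nat_lit 53204) (PT.nd (nat_lit 282) (PT.nd (nat_lit 94) (PT.lf (nat_lit 13188) (nat_lit 6) (nat_lit 157) (nat_lit 1) (nat_lit 57) (nat_lit 38) (nat_lit 49)) (PT.nd (nat_lit 94) (PT.lf (nat_lit 13104) (nat_lit 6) (nat_lit 156) (nat_lit 1) (nat_lit 58) (nat_lit 38) (nat_lit 48)) (PT.lf (nat_lit 12096) (nat_lit 6) (nat_lit 144) (nat_lit 1) (nat_lit 59) (nat_lit 38) (nat_lit 47)))) (PT.nd (nat_lit 52734) (PT.nd (nat_lit 94) (PT.lf (nat_lit 11004) (nat_lit 6) (nat_lit 131) (nat_lit 1) (nat_lit 60) (nat_lit 38) (nat_lit 46)) (PT.lf (nat_lit 9828) (nat_lit 6) (nat_lit 117) (nat_lit 1) (nat_lit 61) (nat_lit 38) (nat_lit 45))) (PT.nd (nat_lit 94) (PT.lf (nat_lit 9744) (nat_lit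 6) (nat_lit 116) (nat_lit 3) (nat_lit 44) (nat_lit 39) (nat_lit 61)) (PT.lf (nat_lit 10920) (nat_lit 6) (nat_lit 130) (nat_lit 3) (nat_lit 45) (nat_lit 39) (nat_lit 60))))) (PT.nd (nat_lit 376) (PT.nd (nat_lit 188) (PT.nd (nat_lit 94) (PT.lf (nat_lit 12012) (nat_lit 6) (nat_lit 143) (nat_lit 3) (nat_lit 46) (nat_lit 39) (nat_lit 59)) (PT.lf (nat_lit 13020) (nat_lit 6) (nat_lit 155) (nat_lit 3) (nat_lit 47) (nat_lit 39) (nat_lit 58))) (PT.nd (nat_lit 94) (PT.lf (nat_lit 13944) (nat_lit 6) (nat_lit 166) (nat_lit 3) (nat_lit 48) (nat_lit 39) (nat_lit 57)) (PT.lf (nat_lit 14028) (nat_lit 6) (nat_lit 167) (nat_lit 3) (nat_lit 49) (nat_lit 39) (nat_lit 56)))) (PT.nd (nat_lit 188) (PT.nd (nat_lit 94) (PT.lf (nat_lit 14112) (nat_lit 6) (nat_lit 168) (nat_lit 3) (nat_lit 50) (nat_lit 39) (nat_lit 55)) (PT.lf (nat_lit 14196) (nat_lit 6) (nat_lit 169) (nat_lit 3) (nat_lit 51) (nat_lit 39) (nat_lit 54))) (PT.nd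 (nat_lit 94) (PT.lf (nat_lit 14280) (nat_lit 6) (nat_lit 170) (nat_lit 3) (nat_lit 52) (nat_lit 39) (nat_lit 53)) (PT.lf (nat_lit 14280) (nat_lit 6) (nat_lit 170) (nat_lit 1) (nat_lit 53) (nat_lit 39) (nat_lit 52))))))) (PT.nd (nat_lit 53862) (PT.nd (nat_lit 658) (PT.nd (nat_lit 282) (PT.nd (nat_lit 94) (PT.lf (nat_lit 14196) (nat_lit 6) (nat_lit 169) (nat_lit 1) (nat_lit 54) (nat_lit 39) (nat_lit 51)) (PT.nd (nat_lit 94) (PT.lf (nat_lit 14112) (nat_lit 6) (nat_lit 168) (nat_lit 1) (nat_lit 55) (nat_lit 39) (nat_lit 50)) (PT.lf (nat_lit 14028) (nat_lit 6) (nat_lit 167) (nat_lit 1) (nat_lit 56) (nat_lit 39) (nat_lit 49)))) (PT.nd (nat_lit 188) (PT.nd (nat_lit 94) (PT.lf (nat_lit 13944) (nat_lit 6) (nat_lit 166) (nat_lit 1) (nat_lit 57) (nat_lit 39) (nat_lit 48)) (PT.lf (nat_lit 13020) (nat_lit 6) (nat_lit 155) (nat_lit 1) (nat_lit 58) (nat_lit 39) (nat_lit 47))) (PT.nd (nat_lit 94) (PT.lf (nat_lit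 12012) (nat_lit 6) (nat_lit 143) (nat_lit 1) (nat_lit 59) (nat_lit 39) (nat_lit 46)) (PT.lf (nat_lit 10920) (nat_lit 6) (nat_lit 130) (nat_lit 1) (nat_lit 60) (nat_lit 39) (nat_lit 45))))) (PT.nd (nat_lit 52828) (PT.nd (nat_lit 52640) (PT.nd (nat_lit 52546) (PT.lf (nat_lit 9744) (nat_lit 6) (nat_lit 116) (nat_lit 1) (nat_lit 61) (nat_lit 39) (nat_lit 44)) (PT.lf (nat_lit 9660) (nat_lit 6) (nat_lit 115) (nat_lit 3) (nat_lit 43) (nat_lit 40) (nat_lit 61))) (PT.nd (nat_lit 94) (PT.lf (nat_lit 10836) (nat_lit 6) (nat_lit 129) (nat_lit 3) (nat_lit 44) (nat_lit 40) (nat_lit 60)) (PT.lf (nat_lit 11928) (nat_lit 6) (nat_lit 142) (nat_lit 3) (nat_lit 45) (nat_lit 40) (nat_lit 59)))) (PT.nd (nat_lit 188) (PT.nd (nat_lit 94) (PT.lf (nat_lit 12936) (nat_lit 6) (nat_lit 154) (nat_lit 3) (nat_lit 46) (nat_lit 40) (nat_lit 58)) (PT.lf (nat_lit 13860) (nat_lit 6) (nat_lit 165) (nat_lit 3) (nat_lit 47) (nat_lit 40)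 (nat_lit 57))) (PT.nd (nat_lit 94) (PT.lf (nat_lit 14700) (nat_lit 6) (nat_lit 175) (nat_lit 3) (nat_lit 48) (nat_lit 40) (nat_lit 56)) (PT.lf (nat_lit 14784) (nat_lit 6) (nat_lit 176) (nat_lit 3) (nat_lit 49) (nat_lit 40) (nat_lit 55)))))) (PT.nd (nat_lit 658) (PT.nd (nat_lit 282) (PT.nd (nat_lit 94) (PT.lf (nat_lit 14868) (nat_lit 6) (nat_lit 177) (nat_lit 3) (nat_lit 50) (nat_lit 40) (nat_lit 54)) (PT.nd (nat_lit 94) (PT.lf (nat_lit 14952) (nat_lit 6) (nat_lit 178) (nat_lit 3) (nat_lit 51) (nat_lit 40) (nat_lit 53)) (PT.lf (nat_lit 15036) (nat_lit 3) (nat_lit 179) (nat_lit 1) (nat_lit 52) (nat_lit 40) (nat_lit 52)))) (PT.nd (nat_lit 188) (PT.nd (nat_lit 94) (PT.lf (nat_lit 14952) (nat_lit 6) (nat_lit 178) (nat_lit 1) (nat_lit 53) (nat_lit 40) (nat_lit 51)) (PT.lf (nat_lit 14868) (nat_lit 6) (nat_lit 177) (nat_lit 1) (nat_lit 54) (nat_lit 40) (nat_lit 50))) (PT.nd (nat_lit 94) (PT.lf (nat_lit 14784)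 (nat_lit 6) (nat_lit 176) (nat_lit 1) (nat_lit 55) (nat_lit 40) (nat_lit 49)) (PT.lf (nat_lit 14700) (nat_lit 6) (nat_lit 175) (nat_lit 1) (nat_lit 56) (nat_lit 40) (nat_lit 48))))) (PT.nd (nat_lit 376) (PT.nd (nat_lit 188) (PT.nd (nat_lit 94) (PT.lf (nat_lit 13860) (nat_lit 6) (nat_lit 165) (nat_lit 1) (nat_lit 57) (nat_lit 40) (nat_lit 47)) (PT.lf (nat_lit 12936) (nat_lit 6) (nat_lit 154) (nat_lit 1) (nat_lit 58) (nat_lit 40) (nat_lit 46))) (PT.nd (nat_lit 94) (PT.lf (nat_lit 11928) (nat_lit 6) (nat_lit 142) (nat_lit 1) (nat_lit 59) (nat_lit 40) (nat_lit 45)) (PT.lf (nat_lit 10836) (nat_lit 6) (nat_lit 129) (nat_lit 1) (nat_lit 60) (nat_lit 40) (nat_lit 44)))) (PT.nd (nat_lit 52546) (PT.nd (nat_lit 52452) (PT.lf (nat_lit 9660) (nat_lit 6) (nat_lit 115) (nat_lit 1) (nat_lit 61) (nat_lit 40) (nat_lit 43)) (PT.lf (nat_lit 9576) (nat_lit 6) (nat_lit 114) (nat_lit 3) (nat_lit 42) (nat_lit 41) (nat_lit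 61))) (PT.nd (nat_lit 94) (PT.lf (nat_lit 10752) (nat_lit 6) (nat_lit 128) (nat_lit 3) (nat_lit 43) (nat_lit 41) (nat_lit 60)) (PT.lf (nat_lit 11844) (nat_lit 6) (nat_lit 141) (nat_lit 3) (nat_lit 44) (nat_lit 41) (nat_lit 59))))))))
noncomputable def pc4 : PT := (PT.nd (nat_lit 55084) (PT.nd (nat_lit 1410) (PT.nd (nat_lit 658) (PT.nd (nat_lit 282) (PT.nd (nat_lit 94) (PT.lf (nat_lit 12852) (nat_lit 6) (nat_lit 153) (nat_lit 3) (nat_lit 45) (nat_lit 41) (nat_lit 58)) (PT.nd (nat_lit 94) (PT.lf (nat_lit 13776) (nat_lit 6) (nat_lit 164) (nat_lit 3) (nat_lit 46) (nat_lit 41) (nat_lit 57)) (PT.lf (nat_lit 14616) (nat_lit 6) (nat_lit 174) (nat_lit 3) (nat_lit 47) (nat_lit 41) (nat_lit 56)))) (PT.nd (nat_lit 188) (PT.nd (nat_lit 94) (PT.lf (nat_lit 15372) (nat_lit 6) (nat_lit 183) (nat_lit 3) (nat_lit 48) (nat_lit 41) (nat_lit 55)) (PT.lf (nat_lit 15456) (nat_lit 6) (nat_lit 184) (nat_lit 3) (nat_lit 49)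 (nat_lit 41) (nat_lit 54))) (PT.nd (nat_lit 94) (PT.lf (nat_lit 15540) (nat_lit 6) (nat_lit 185) (nat_lit 3) (nat_lit 50) (nat_lit 41) (nat_lit 53)) (PT.lf (nat_lit 15624) (nat_lit 6) (nat_lit 186) (nat_lit 3) (nat_lit 51) (nat_lit 41) (nat_lit 52))))) (PT.nd (nat_lit 376) (PT.nd (nat_lit 188) (PT.nd (nat_lit 94) (PT.lf (nat_lit 15624) (nat_lit 6) (nat_lit 186) (nat_lit 1) (nat_lit 52) (nat_lit 41) (nat_lit 51)) (PT.lf (nat_lit 15540) (nat_lit 6) (nat_lit 185) (nat_lit 1) (nat_lit 53) (nat_lit 41) (nat_lit 50))) (PT.nd (nat_lit 94) (PT.lf (nat_lit 15456) (nat_lit 6) (nat_lit 184) (nat_lit 1) (nat_lit 54) (nat_lit 41) (nat_lit 49)) (PT.lf (nat_lit 15372) (nat_lit 6) (nat_lit 183) (nat_lit 1) (nat_lit 55) (nat_lit 41) (nat_lit 48)))) (PT.nd (nat_lit 188) (PT.nd (nat_lit 94) (PT.lf (nat_lit 14616) (nat_lit 6) (nat_lit 174) (nat_lit 1) (nat_lit 56) (nat_lit 41) (nat_lit 47)) (PT.lf (nat_lit 13776) (nat_lit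 6) (nat_lit 164) (nat_lit 1) (nat_lit 57) (nat_lit 41) (nat_lit 46))) (PT.nd (nat_lit 94) (PT.lf (nat_lit 12852) (nat_lit 6) (nat_lit 153) (nat_lit 1) (nat_lit 58) (nat_lit 41) (nat_lit 45)) (PT.lf (nat_lit 11844) (nat_lit 6) (nat_lit 141) (nat_lit 1) (nat_lit 59) (nat_lit 41) (nat_lit 44)))))) (PT.nd (nat_lit 52922) (PT.nd (nat_lit 52546) (PT.nd (nat_lit 94) (PT.lf (nat_lit 10752) (nat_lit 6) (nat_lit 128) (nat_lit 1) (nat_lit 60) (nat_lit 41) (nat_lit 43)) (PT.nd (nat_lit 52358) (PT.lf (nat_lit 9576) (nat_lit 6) (nat_lit 114) (nat_lit 1) (nat_lit 61) (nat_lit 41) (nat_lit 42)) (PT.lf (nat_lit 9576) (nat_lit 6) (nat_lit 114) (nat_lit 5) (nat_lit 41) (nat_lit 42) (nat_lit 61)))) (PT.nd (nat_lit 188) (PT.nd (nat_lit 94) (PT.lf (nat_lit 10668) (nat_lit 3) (nat_lit 127) (nat_lit 3) (nat_lit 42) (nat_lit 42) (nat_lit 60)) (PT.lf (nat_lit 11760) (nat_lit 6) (nat_lit 140) (nat_lit 3) (nat_lit 43) (nat_lit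 42) (nat_lit 59))) (PT.nd (nat_lit 94) (PT.lf (nat_lit 12768) (nat_lit 6) (nat_lit 152) (nat_lit 3) (nat_lit 44) (nat_lit 42) (nat_lit 58)) (PT.lf (nat_lit 13692) (nat_lit 6) (nat_lit 163) (nat_lit 3) (nat_lit 45) (nat_lit 42) (nat_lit 57))))) (PT.nd (nat_lit 376) (PT.nd (nat_lit 188) (PT.nd (nat_lit 94) (PT.lf (nat_lit 14532) (nat_lit 6) (nat_lit 173) (nat_lit 3) (nat_lit 46) (nat_lit 42) (nat_lit 56)) (PT.lf (nat_lit 15288) (nat_lit 6) (nat_lit 182) (nat_lit 3) (nat_lit 47) (nat_lit 42) (nat_lit 55))) (PT.nd (nat_lit 94) (PT.lf (nat_lit 15960) (nat_lit 6) (nat_lit 190) (nat_lit 3) (nat_lit 48) (nat_lit 42) (nat_lit 54)) (PT.lf (nat_lit 16044) (nat_lit 6) (nat_lit 191) (nat_lit 3) (nat_lit 49) (nat_lit 42) (nat_lit 53)))) (PT.nd (nat_lit 188) (PT.nd (nat_lit 94) (PT.lf (nat_lit 16128) (nat_lit 6) (nat_lit 192) (nat_lit 3) (nat_lit 50) (nat_lit 42) (nat_lit 52)) (PT.lf (nat_lit 16212) (nat_lit 3)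 (nat_lit 193) (nat_lit 1) (nat_lit 51) (nat_lit 42) (nat_lit 51))) (PT.nd (nat_lit 94) (PT.lf (nat_lit 16128) (nat_lit 6) (nat_lit 192) (nat_lit 1) (nat_lit 52) (nat_lit 42) (nat_lit 50)) (PT.lf (nat_lit 16044) (nat_lit 6) (nat_lit 191) (nat_lit 1) (nat_lit 53) (nat_lit 42) (nat_lit 49))))))) (PT.nd (nat_lit 53580) (PT.nd (nat_lit 658) (PT.nd (nat_lit 282) (PT.nd (nat_lit 94) (PT.lf (nat_lit 15960) (nat_lit 6) (nat_lit 190) (nat_lit 1) (nat_lit 54) (nat_lit 42) (nat_lit 48)) (PT.nd (nat_lit 94) (PT.lf (nat_lit 15288) (nat_lit 6) (nat_lit 182) (nat_lit 1) (nat_lit 55) (nat_lit 42) (nat_lit 47)) (PT.lf (nat_lit 14532) (nat_lit 6) (nat_lit 173) (nat_lit 1) (nat_lit 56) (nat_lit 42) (nat_lit 46)))) (PT.nd (nat_lit 188) (PT.nd (nat_lit 94) (PT.lf (nat_lit 13692) (nat_lit 6) (nat_lit 163) (nat_lit 1) (nat_lit 57) (nat_lit 42) (nat_lit 45)) (PT.lf (nat_lit 12768) (nat_lit 6) (nat_lit 152) (nat_lit 1) (nat_lit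 58) (nat_lit 42) (nat_lit 44))) (PT.nd (nat_lit 94) (PT.lf (nat_lit 11760) (nat_lit 6) (nat_lit 140) (nat_lit 1) (nat_lit 59) (nat_lit 42) (nat_lit 43)) (PT.lf (nat_lit 10668) (nat_lit 3) (nat_lit 127) (nat_lit 0) (nat_lit 60) (nat_lit 42) (nat_lit 42))))) (PT.nd (nat_lit 52546) (PT.nd (nat_lit 52358) (PT.nd (nat_lit 52264) (PT.lf (nat_lit 9576) (nat_lit 6) (nat_lit 114) (nat_lit 0) (nat_lit 61) (nat_lit 42) (nat_lit 41)) (PT.lf (nat_lit 9660) (nat_lit 6) (nat_lit 115) (nat_lit 5) (nat_lit 40) (nat_lit 43) (nat_lit 61))) (PT.nd (nat_lit 94) (PT.lf (nat_lit 10752) (nat_lit 6) (nat_lit 128) (nat_lit 5) (nat_lit 41) (nat_lit 43) (nat_lit 60)) (PT.lf (nat_lit 11760) (nat_lit 6) (nat_lit 140) (nat_lit 5) (nat_lit 42) (nat_lit 43) (nat_lit 59)))) (PT.nd (nat_lit 188) (PT.nd (nat_lit 94) (PT.lf (nat_lit 12684) (nat_lit 3) (nat_lit 151) (nat_lit 3) (nat_lit 43) (nat_lit 43) (nat_lit 58)) (PT.lf (nat_lit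 13608) (nat_lit 6) (nat_lit 162) (nat_lit 3) (nat_lit 44) (nat_lit 43) (nat_lit 57))) (PT.nd (nat_lit 94) (PT.lf (nat_lit 14448) (nat_lit 6) (nat_lit 172) (nat_lit 3) (nat_lit 45) (nat_lit 43) (nat_lit 56)) (PT.lf (nat_lit 15204) (nat_lit 6) (nat_lit 181) (nat_lit 3) (nat_lit 46) (nat_lit 43) (nat_lit 55)))))) (PT.nd (nat_lit 658) (PT.nd (nat_lit 282) (PT.nd (nat_lit 94) (PT.lf (nat_lit 15876) (nat_lit 6) (nat_lit 189) (nat_lit 3) (nat_lit 47) (nat_lit 43) (nat_lit 54)) (PT.nd (nat_lit 94) (PT.lf (nat_lit 16464) (nat_lit 6) (nat_lit 196) (nat_lit 3) (nat_lit 48) (nat_lit 43) (nat_lit 53)) (PT.lf (nat_lit 16548) (nat_lit 6) (nat_lit 197) (nat_lit 3) (nat_lit 49) (nat_lit 43) (nat_lit 52)))) (PT.nd (nat_lit 188) (PT.nd (nat_lit 94) (PT.lf (nat_lit 16632) (nat_lit 6) (nat_lit 198) (nat_lit 3) (nat_lit 50) (nat_lit 43) (nat_lit 51)) (PT.lf (nat_lit 16632) (nat_lit 6) (nat_lit 198) (nat_lit 1) (nat_lit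 51) (nat_lit 43) (nat_lit 50))) (PT.nd (nat_lit 94) (PT.lf (nat_lit 16548) (nat_lit 6) (nat_lit 197) (nat_lit 1) (nat_lit 52) (nat_lit 43) (nat_lit 49)) (PT.lf (nat_lit 16464) (nat_lit 6) (nat_lit 196) (nat_lit 1) (nat_lit 53) (nat_lit 43) (nat_lit 48))))) (PT.nd (nat_lit 376) (PT.nd (nat_lit 188) (PT.nd (nat_lit 94) (PT.lf (nat_lit 15876) (nat_lit 6) (nat_lit 189) (nat_lit 1) (nat_lit 54) (nat_lit 43) (nat_lit 47)) (PT.lf (nat_lit 15204) (nat_lit 6) (nat_lit 181) (nat_lit 1) (nat_lit 55) (nat_lit 43) (nat_lit 46))) (PT.nd (nat_lit 94) (PT.lf (nat_lit 14448) (nat_lit 6) (nat_lit 172) (nat_lit 1) (nat_lit 56) (nat_lit 43) (nat_lit 45)) (PT.lf (nat_lit 13608) (nat_lit 6) (nat_lit 162) (nat_lit 1) (nat_lit 57) (nat_lit 43) (nat_lit 44)))) (PT.nd (nat_lit 188) (PT.nd (nat_lit 94) (PT.lf (nat_lit 12684) (nat_lit 3) (nat_lit 151) (nat_lit 0) (nat_lit 58) (nat_lit 43) (nat_lit 43)) (PT.lf (nat_lit 11760)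 (nat_lit 6) (nat_lit 140) (nat_lit 0) (nat_lit 59) (nat_lit 43) (nat_lit 42))) (PT.nd (nat_lit 94) (PT.lf (nat_lit 10752) (nat_lit 6) (nat_lit 128) (nat_lit 0) (nat_lit 60) (nat_lit 43) (nat_lit 41)) (PT.lf (nat_lit 9660) (nat_lit 6) (nat_lit 115) (nat_lit 0) (nat_lit 61) (nat_lit 43) (nat_lit 40))))))))
noncomputable def pc5 : PT := (PT.nd (nat_lit 54802) (PT.nd (nat_lit 1410) (PT.nd (nat_lit 658) (PT.nd (nat_lit 282) (PT.nd (nat_lit 94) (PT.lf (nat_lit 9744) (nat_lit 6) (nat_lit 116) (nat_lit 5) (nat_lit 39) (nat_lit 44) (nat_lit 61)) (PT.nd (nat_lit 94) (PT.lf (nat_lit 10836) (nat_lit 6) (nat_lit 129) (nat_lit 5) (nat_lit 40) (nat_lit 44) (nat_lit 60)) (PT.lf (nat_lit 11844) (nat_lit 6) (nat_lit 141) (nat_lit 5) (nat_lit 41) (nat_lit 44) (nat_lit 59)))) (PT.nd (nat_lit 188) (PT.nd (nat_lit 94) (PT.lf (nat_lit 12768) (nat_lit 6) (nat_lit 152) (nat_lit 5) (nat_lit 42) (nat_lit 44) (nat_lit 58))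 (PT.lf (nat_lit 13608) (nat_lit 6) (nat_lit 162) (nat_lit 5) (nat_lit 43) (nat_lit 44) (nat_lit 57))) (PT.nd (nat_lit 94) (PT.lf (nat_lit 14364) (nat_lit 3) (nat_lit 171) (nat_lit 3) (nat_lit 44) (nat_lit 44) (nat_lit 56)) (PT.lf (nat_lit 15120) (nat_lit 6) (nat_lit 180) (nat_lit 3) (nat_lit 45) (nat_lit 44) (nat_lit 55))))) (PT.nd (nat_lit 376) (PT.nd (nat_lit 188) (PT.nd (nat_lit 94) (PT.lf (nat_lit 15792) (nat_lit 6) (nat_lit 188) (nat_lit 3) (nat_lit 46) (nat_lit 44) (nat_lit 54)) (PT.lf (nat_lit 16380) (nat_lit 6) (nat_lit 195) (nat_lit 3) (nat_lit 47) (nat_lit 44) (nat_lit 53))) (PT.nd (nat_lit 94) (PT.lf (nat_lit 16884) (nat_lit 6) (nat_lit 201) (nat_lit 3) (nat_lit 48) (nat_lit 44) (nat_lit 52)) (PT.lf (nat_lit 16968) (nat_lit 6) (nat_lit 202) (nat_lit 3) (nat_lit 49) (nat_lit 44) (nat_lit 51)))) (PT.nd (nat_lit 188) (PT.nd (nat_lit 94) (PT.lf (nat_lit 17052) (nat_lit 3) (nat_lit 203) (nat_lit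 1) (nat_lit 50) (nat_lit 44) (nat_lit 50)) (PT.lf (nat_lit 16968) (nat_lit 6) (nat_lit 202) (nat_lit 1) (nat_lit 51) (nat_lit 44) (nat_lit 49))) (PT.nd (nat_lit 94) (PT.lf (nat_lit 16884) (nat_lit 6) (nat_lit 201) (nat_lit 1) (nat_lit 52) (nat_lit 44) (nat_lit 48)) (PT.lf (nat_lit 16380) (nat_lit 6) (nat_lit 195) (nat_lit 1) (nat_lit 53) (nat_lit 44) (nat_lit 47)))))) (PT.nd (nat_lit 658) (PT.nd (nat_lit 282) (PT.nd (nat_lit 94) (PT.lf (nat_lit 15792) (nat_lit 6) (nat_lit 188) (nat_lit 1) (nat_lit 54) (nat_lit 44) (nat_lit 46)) (PT.nd (nat_lit 94) (PT.lf (nat_lit 15120) (nat_lit 6) (nat_lit 180) (nat_lit 1) (nat_lit 55) (nat_lit 44) (nat_lit 45)) (PT.lf (nat_lit 14364) (nat_lit 3) (nat_lit 171) (nat_lit 0) (nat_lit 56) (nat_lit 44) (nat_lit 44)))) (PT.nd (nat_lit 188) (PT.nd (nat_lit 94) (PT.lf (nat_lit 13608) (nat_lit 6) (nat_lit 162) (nat_lit 0) (nat_lit 57) (nat_lit 44) (nat_lit 43)) (PT.lf (nat_lit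 12768) (nat_lit 6) (nat_lit 152) (nat_lit 0) (nat_lit 58) (nat_lit 44) (nat_lit 42))) (PT.nd (nat_lit 94) (PT.lf (nat_lit 11844) (nat_lit 6) (nat_lit 141) (nat_lit 0) (nat_lit 59) (nat_lit 44) (nat_lit 41)) (PT.lf (nat_lit 10836) (nat_lit 6) (nat_lit 129) (nat_lit 0) (nat_lit 60) (nat_lit 44) (nat_lit 40))))) (PT.nd (nat_lit 52358) (PT.nd (nat_lit 52170) (PT.nd (nat_lit 52076) (PT.lf (nat_lit 9744) (nat_lit 6) (nat_lit 116) (nat_lit 0) (nat_lit 61) (nat_lit 44) (nat_lit 39)) (PT.lf (nat_lit 9828) (nat_lit 6) (nat_lit 117) (nat_lit 5) (nat_lit 38) (nat_lit 45) (nat_lit 61))) (PT.nd (nat_lit 94) (PT.lf (nat_lit 10920) (nat_lit 6) (nat_lit 130) (nat_lit 5) (nat_lit 39) (nat_lit 45) (nat_lit 60)) (PT.lf (nat_lit 11928) (nat_lit 6) (nat_lit 142) (nat_lit 5) (nat_lit 40) (nat_lit 45) (nat_lit 59)))) (PT.nd (nat_lit 188) (PT.nd (nat_lit 94) (PT.lf (nat_lit 12852) (nat_lit 6) (nat_lit 153) (nat_lit 5) (nat_lit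 41) (nat_lit 45) (nat_lit 58)) (PT.lf (nat_lit 13692) (nat_lit 6) (nat_lit 163) (nat_lit 5) (nat_lit 42) (nat_lit 45) (nat_lit 57))) (PT.nd (nat_lit 94) (PT.lf (nat_lit 14448) (nat_lit 6) (nat_lit 172) (nat_lit 5) (nat_lit 43) (nat_lit 45) (nat_lit 56)) (PT.lf (nat_lit 15120) (nat_lit 6) (nat_lit 180) (nat_lit 5) (nat_lit 44) (nat_lit 45) (nat_lit 55))))))) (PT.nd (nat_lit 1410) (PT.nd (nat_lit 658) (PT.nd (nat_lit 282) (PT.nd (nat_lit 94) (PT.lf (nat_lit 15708) (nat_lit 3) (nat_lit 187) (nat_lit 3) (nat_lit 45) (nat_lit 45) (nat_lit 54)) (PT.nd (nat_lit 94) (PT.lf (nat_lit 16296) (nat_lit 6) (nat_lit 194) (nat_lit 3) (nat_lit 46) (nat_lit 45) (nat_lit 53)) (PT.lf (nat_lit 16800) (nat_lit 6) (nat_lit 200) (nat_lit 3) (nat_lit 47) (nat_lit 45) (nat_lit 52)))) (PT.nd (nat_lit 188) (PT.nd (nat_lit 94) (PT.lf (nat_lit 17220) (nat_lit 6) (nat_lit 205) (nat_lit 3) (nat_lit 48) (nat_lit 45) (nat_lit 51))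 (PT.lf (nat_lit 17304) (nat_lit 6) (nat_lit 206) (nat_lit 3) (nat_lit 49) (nat_lit 45) (nat_lit 50))) (PT.nd (nat_lit 94) (PT.lf (nat_lit 17304) (nat_lit 6) (nat_lit 206) (nat_lit 1) (nat_lit 50) (nat_lit 45) (nat_lit 49)) (PT.lf (nat_lit 17220) (nat_lit 6) (nat_lit 205) (nat_lit 1) (nat_lit 51) (nat_lit 45) (nat_lit 48))))) (PT.nd (nat_lit 376) (PT.nd (nat_lit 188) (PT.nd (nat_lit 94) (PT.lf (nat_lit 16800) (nat_lit 6) (nat_lit 200) (nat_lit 1) (nat_lit 52) (nat_lit 45) (nat_lit 47)) (PT.lf (nat_lit 16296) (nat_lit 6) (nat_lit 194) (nat_lit 1) (nat_lit 53) (nat_lit 45) (nat_lit 46))) (PT.nd (nat_lit 94) (PT.lf (nat_lit 15708) (nat_lit 3) (nat_lit 187) (nat_lit 0) (nat_lit 54) (nat_lit 45) (nat_lit 45)) (PT.lf (nat_lit 15120) (nat_lit 6) (nat_lit 180) (nat_lit 0) (nat_lit 55) (nat_lit 45) (nat_lit 44)))) (PT.nd (nat_lit 188) (PT.nd (nat_lit 94) (PT.lf (nat_lit 14448) (nat_lit 6) (nat_lit 172) (nat_lit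 0) (nat_lit 56) (nat_lit 45) (nat_lit 43)) (PT.lf (nat_lit 13692) (nat_lit 6) (nat_lit 163) (nat_lit 0) (nat_lit 57) (nat_lit 45) (nat_lit 42))) (PT.nd (nat_lit 94) (PT.lf (nat_lit 12852) (nat_lit 6) (nat_lit 153) (nat_lit 0) (nat_lit 58) (nat_lit 45) (nat_lit 41)) (PT.lf (nat_lit 11928) (nat_lit 6) (nat_lit 142) (nat_lit 0) (nat_lit 59) (nat_lit 45) (nat_lit 40)))))) (PT.nd (nat_lit 52546) (PT.nd (nat_lit 52170) (PT.nd (nat_lit 94) (PT.lf (nat_lit 10920) (nat_lit 6) (nat_lit 130) (nat_lit 0) (nat_lit 60) (nat_lit 45) (nat_lit 39)) (PT.nd (nat_lit 51982) (PT.lf (nat_lit 9828) (nat_lit 6) (nat_lit 117) (nat_lit 0) (nat_lit 61) (nat_lit 45) (nat_lit 38)) (PT.lf (nat_lit 9912) (nat_lit 6) (nat_lit 118) (nat_lit 5) (nat_lit 37) (nat_lit 46) (nat_lit 61)))) (PT.nd (nat_lit 188) (PT.nd (nat_lit 94) (PT.lf (nat_lit 11004) (nat_lit 6) (nat_lit 131) (nat_lit 5) (nat_lit 38) (nat_lit 46) (nat_lit 60)) (PT.lf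 (nat_lit 12012) (nat_lit 6) (nat_lit 143) (nat_lit 5) (nat_lit 39) (nat_lit 46) (nat_lit 59))) (PT.nd (nat_lit 94) (PT.lf (nat_lit 12936) (nat_lit 6) (nat_lit 154) (nat_lit 5) (nat_lit 40) (nat_lit 46) (nat_lit 58)) (PT.lf (nat_lit 13776) (nat_lit 6) (nat_lit 164) (nat_lit 5) (nat_lit 41) (nat_lit 46) (nat_lit 57))))) (PT.nd (nat_lit 376) (PT.nd (nat_lit 188) (PT.nd (nat_lit 94) (PT.lf (nat_lit 14532) (nat_lit 6) (nat_lit 173) (nat_lit 5) (nat_lit 42) (nat_lit 46) (nat_lit 56)) (PT.lf (nat_lit 15204) (nat_lit 6) (nat_lit 181) (nat_lit 5) (nat_lit 43) (nat_lit 46) (nat_lit 55))) (PT.nd (nat_lit 94) (PT.lf (nat_lit 15792) (nat_lit 6) (nat_lit 188) (nat_lit 5) (nat_lit 44) (nat_lit 46) (nat_lit 54)) (PT.lf (nat_lit 16296) (nat_lit 6) (nat_lit 194) (nat_lit 5) (nat_lit 45) (nat_lit 46) (nat_lit 53)))) (PT.nd (nat_lit 188) (PT.nd (nat_lit 94) (PT.lf (nat_lit 16716) (nat_lit 3) (nat_lit 199) (nat_lit 3)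 (nat_lit 46) (nat_lit 46) (nat_lit 52)) (PT.lf (nat_lit 17136) (nat_lit 6) (nat_lit 204) (nat_lit 3) (nat_lit 47) (nat_lit 46) (nat_lit 51))) (PT.nd (nat_lit 94) (PT.lf (nat_lit 17472) (nat_lit 6) (nat_lit 208) (nat_lit 3) (nat_lit 48) (nat_lit 46) (nat_lit 50)) (PT.lf (nat_lit 17556) (nat_lit 3) (nat_lit 209) (nat_lit 1) (nat_lit 49) (nat_lit 46) (nat_lit 49))))))))
noncomputable def pc6 : PT := (PT.nd (nat_lit 54614) (PT.nd (nat_lit 53204) (PT.nd (nat_lit 658) (PT.nd (nat_lit 282) (PT.nd (nat_lit 94) (PT.lf (nat_lit 17472) (nat_lit 6) (nat_lit 208) (nat_lit 1) (nat_lit 50) (nat_lit 46) (nat_lit 48)) (PT.nd (nat_lit 94) (PT.lf (nat_lit 17136) (nat_lit 6) (nat_lit 204) (nat_lit 1) (nat_lit 51) (nat_lit 46) (nat_lit 47)) (PT.lf (nat_lit 16716) (nat_lit 3) (nat_lit 199) (nat_lit 0) (nat_lit 52) (nat_lit 46) (nat_lit 46)))) (PT.nd (nat_lit 188) (PT.nd (nat_lit 94) (PT.lf (nat_lit 16296) (nat_lit 6)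 (nat_lit 194) (nat_lit 0) (nat_lit 53) (nat_lit 46) (nat_lit 45)) (PT.lf (nat_lit 15792) (nat_lit 6) (nat_lit 188) (nat_lit 0) (nat_lit 54) (nat_lit 46) (nat_lit 44))) (PT.nd (nat_lit 94) (PT.lf (nat_lit 15204) (nat_lit 6) (nat_lit 181) (nat_lit 0) (nat_lit 55) (nat_lit 46) (nat_lit 43)) (PT.lf (nat_lit 14532) (nat_lit 6) (nat_lit 173) (nat_lit 0) (nat_lit 56) (nat_lit 46) (nat_lit 42))))) (PT.nd (nat_lit 376) (PT.nd (nat_lit 188) (PT.nd (nat_lit 94) (PT.lf (nat_lit 13776) (nat_lit 6) (nat_lit 164) (nat_lit 0) (nat_lit 57) (nat_lit 46) (nat_lit 41)) (PT.lf (nat_lit 12936) (nat_lit 6) (nat_lit 154) (nat_lit 0) (nat_lit 58) (nat_lit 46) (nat_lit 40))) (PT.nd (nat_lit 94) (PT.lf (nat_lit 12012) (nat_lit 6) (nat_lit 143) (nat_lit 0) (nat_lit 59) (nat_lit 46) (nat_lit 39)) (PT.lf (nat_lit 11004) (nat_lit 6) (nat_lit 131) (nat_lit 0) (nat_lit 60) (nat_lit 46) (nat_lit 38)))) (PT.nd (nat_lit 51982) (PT.nd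 (nat_lit 51888) (PT.lf (nat_lit 9912) (nat_lit 6) (nat_lit 118) (nat_lit 0) (nat_lit 61) (nat_lit 46) (nat_lit 37)) (PT.lf (nat_lit 9996) (nat_lit 6) (nat_lit 119) (nat_lit 5) (nat_lit 36) (nat_lit 47) (nat_lit 61))) (PT.nd (nat_lit 94) (PT.lf (nat_lit 11088) (nat_lit 6) (nat_lit 132) (nat_lit 5) (nat_lit 37) (nat_lit 47) (nat_lit 60)) (PT.lf (nat_lit 12096) (nat_lit 6) (nat_lit 144) (nat_lit 5) (nat_lit 38) (nat_lit 47) (nat_lit 59)))))) (PT.nd (nat_lit 658) (PT.nd (nat_lit 282) (PT.nd (nat_lit 94) (PT.lf (nat_lit 13020) (nat_lit 6) (nat_lit 155) (nat_lit 5) (nat_lit 39) (nat_lit 47) (nat_lit 58)) (PT.nd (nat_lit 94) (PT.lf (nat_lit 13860) (nat_lit 6) (nat_lit 165) (nat_lit 5) (nat_lit 40) (nat_lit 47) (nat_lit 57)) (PT.lf (nat_lit 14616) (nat_lit 6) (nat_lit 174) (nat_lit 5) (nat_lit 41) (nat_lit 47) (nat_lit 56)))) (PT.nd (nat_lit 188) (PT.nd (nat_lit 94) (PT.lf (nat_lit 15288) (nat_lit 6) (nat_lit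 182) (nat_lit 5) (nat_lit 42) (nat_lit 47) (nat_lit 55)) (PT.lf (nat_lit 15876) (nat_lit 6) (nat_lit 189) (nat_lit 5) (nat_lit 43) (nat_lit 47) (nat_lit 54))) (PT.nd (nat_lit 94) (PT.lf (nat_lit 16380) (nat_lit 6) (nat_lit 195) (nat_lit 5) (nat_lit 44) (nat_lit 47) (nat_lit 53)) (PT.lf (nat_lit 16800) (nat_lit 6) (nat_lit 200) (nat_lit 5) (nat_lit 45) (nat_lit 47) (nat_lit 52))))) (PT.nd (nat_lit 376) (PT.nd (nat_lit 188) (PT.nd (nat_lit 94) (PT.lf (nat_lit 17136) (nat_lit 6) (nat_lit 204) (nat_lit 5) (nat_lit 46) (nat_lit 47) (nat_lit 51)) (PT.lf (nat_lit 17388) (nat_lit 3) (nat_lit 207) (nat_lit 3) (nat_lit 47) (nat_lit 47) (nat_lit 50))) (PT.nd (nat_lit 94) (PT.lf (nat_lit 17640) (nat_lit 6) (nat_lit 210) (nat_lit 3) (nat_lit 48) (nat_lit 47) (nat_lit 49)) (PT.lf (nat_lit 17640) (nat_lit 6) (nat_lit 210) (nat_lit 1) (nat_lit 49) (nat_lit 47) (nat_lit 48)))) (PT.nd (nat_lit 188) (PT.nd (nat_lit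 94) (PT.lf (nat_lit 17388) (nat_lit 3) (nat_lit 207) (nat_lit 0) (nat_lit 50) (nat_lit 47) (nat_lit 47)) (PT.lf (nat_lit 17136) (nat_lit 6) (nat_lit 204) (nat_lit 0) (nat_lit 51) (nat_lit 47) (nat_lit 46))) (PT.nd (nat_lit 94) (PT.lf (nat_lit 16800) (nat_lit 6) (nat_lit 200) (nat_lit 0) (nat_lit 52) (nat_lit 47) (nat_lit 45)) (PT.lf (nat_lit 16380) (nat_lit 6) (nat_lit 195) (nat_lit 0) (nat_lit 53) (nat_lit 47) (nat_lit 44))))))) (PT.nd (nat_lit 53110) (PT.nd (nat_lit 658) (PT.nd (nat_lit 282) (PT.nd (nat_lit 94) (PT.lf (nat_lit 15876) (nat_lit 6) (nat_lit 189) (nat_lit 0) (nat_lit 54) (nat_lit 47) (nat_lit 43)) (PT.nd (nat_lit 94) (PT.lf (nat_lit 15288) (nat_lit 6) (nat_lit 182) (nat_lit 0) (nat_lit 55) (nat_lit 47) (nat_lit 42)) (PT.lf (nat_lit 14616) (nat_lit 6) (nat_lit 174) (nat_lit 0) (nat_lit 56) (nat_lit 47) (nat_lit 41)))) (PT.nd (nat_lit 188) (PT.nd (nat_lit 94) (PT.lf (nat_lit 13860) (nat_lit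 6) (nat_lit 165) (nat_lit 0) (nat_lit 57) (nat_lit 47) (nat_lit 40)) (PT.lf (nat_lit 13020) (nat_lit 6) (nat_lit 155) (nat_lit 0) (nat_lit 58) (nat_lit 47) (nat_lit 39))) (PT.nd (nat_lit 94) (PT.lf (nat_lit 12096) (nat_lit 6) (nat_lit 144) (nat_lit 0) (nat_lit 59) (nat_lit 47) (nat_lit 38)) (PT.lf (nat_lit 11088) (nat_lit 6) (nat_lit 132) (nat_lit 0) (nat_lit 60) (nat_lit 47) (nat_lit 37))))) (PT.nd (nat_lit 52076) (PT.nd (nat_lit 51888) (PT.nd (nat_lit 51794) (PT.lf (nat_lit 9996) (nat_lit 6) (nat_lit 119) (nat_lit 0) (nat_lit 61) (nat_lit 47) (nat_lit 36)) (PT.lf (nat_lit 10080) (nat_lit 6) (nat_lit 120) (nat_lit 5) (nat_lit 35) (nat_lit 48) (nat_lit 61))) (PT.nd (nat_lit 94) (PT.lf (nat_lit 11172) (nat_lit 6) (nat_lit 133) (nat_lit 5) (nat_lit 36) (nat_lit 48) (nat_lit 60)) (PT.lf (nat_lit 12180) (nat_lit 6) (nat_lit 145) (nat_lit 5) (nat_lit 37) (nat_lit 48) (nat_lit 59)))) (PT.nd (nat_lit 188)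 (PT.nd (nat_lit 94) (PT.lf (nat_lit 13104) (nat_lit 6) (nat_lit 156) (nat_lit 5) (nat_lit 38) (nat_lit 48) (nat_lit 58)) (PT.lf (nat_lit 13944) (nat_lit 6) (nat_lit 166) (nat_lit 5) (nat_lit 39) (nat_lit 48) (nat_lit 57))) (PT.nd (nat_lit 94) (PT.lf (nat_lit 14700) (nat_lit 6) (nat_lit 175) (nat_lit 5) (nat_lit 40) (nat_lit 48) (nat_lit 56)) (PT.lf (nat_lit 15372) (nat_lit 6) (nat_lit 183) (nat_lit 5) (nat_lit 41) (nat_lit 48) (nat_lit 55)))))) (PT.nd (nat_lit 658) (PT.nd (nat_lit 282) (PT.nd (nat_lit 94) (PT.lf (nat_lit 15960) (nat_lit 6) (nat_lit 190) (nat_lit 5) (nat_lit 42) (nat_lit 48) (nat_lit 54)) (PT.nd (nat_lit 94) (PT.lf (nat_lit 16464) (nat_lit 6) (nat_lit 196) (nat_lit 5) (nat_lit 43) (nat_lit 48) (nat_lit 53)) (PT.lf (nat_lit 16884) (nat_lit 6) (nat_lit 201) (nat_lit 5) (nat_lit 44) (nat_lit 48) (nat_lit 52)))) (PT.nd (nat_lit 188) (PT.nd (nat_lit 94) (PT.lf (nat_lit 17220) (nat_lit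 6) (nat_lit 205) (nat_lit 5) (nat_lit 45) (nat_lit 48) (nat_lit 51)) (PT.lf (nat_lit 17472) (nat_lit 6) (nat_lit 208) (nat_lit 5) (nat_lit 46) (nat_lit 48) (nat_lit 50))) (PT.nd (nat_lit 94) (PT.lf (nat_lit 17640) (nat_lit 6) (nat_lit 210) (nat_lit 5) (nat_lit 47) (nat_lit 48) (nat_lit 49)) (PT.lf (nat_lit 17724) (nat_lit 1) (nat_lit 211) (nat_lit 0) (nat_lit 48) (nat_lit 48) (nat_lit 48))))) (PT.nd (nat_lit 376) (PT.nd (nat_lit 188) (PT.nd (nat_lit 94) (PT.lf (nat_lit 17640) (nat_lit 6) (nat_lit 210) (nat_lit 0) (nat_lit 49) (nat_lit 48) (nat_lit 47)) (PT.lf (nat_lit 17472) (nat_lit 6) (nat_lit 208) (nat_lit 0) (nat_lit 50) (nat_lit 48) (nat_lit 46))) (PT.nd (nat_lit 94) (PT.lf (nat_lit 17220) (nat_lit 6) (nat_lit 205) (nat_lit 0) (nat_lit 51) (nat_lit 48) (nat_lit 45)) (PT.lf (nat_lit 16884) (nat_lit 6) (nat_lit 201) (nat_lit 0) (nat_lit 52) (nat_lit 48) (nat_lit 44)))) (PT.nd (nat_lit 188) (PT.nd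 (nat_lit 94) (PT.lf (nat_lit 16464) (nat_lit 6) (nat_lit 196) (nat_lit 0) (nat_lit 53) (nat_lit 48) (nat_lit 43)) (PT.lf (nat_lit 15960) (nat_lit 6) (nat_lit 190) (nat_lit 0) (nat_lit 54) (nat_lit 48) (nat_lit 42))) (PT.nd (nat_lit 94) (PT.lf (nat_lit 15372) (nat_lit 6) (nat_lit 183) (nat_lit 0) (nat_lit 55) (nat_lit 48) (nat_lit 41)) (PT.lf (nat_lit 14700) (nat_lit 6) (nat_lit 175) (nat_lit 0) (nat_lit 56) (nat_lit 48) (nat_lit 40))))))))
noncomputable def pc7 : PT := (PT.nd (nat_lit 54426) (PT.nd (nat_lit 53016) (PT.nd (nat_lit 52264) (PT.nd (nat_lit 282) (PT.nd (nat_lit 94) (PT.lf (nat_lit 13944) (nat_lit 6) (nat_lit 166) (nat_lit 0) (nat_lit 57) (nat_lit 48) (nat_lit 39)) (PT.nd (nat_lit 94) (PT.lf (nat_lit 13104) (nat_lit 6) (nat_lit 156) (nat_lit 0) (nat_lit 58) (nat_lit 48) (nat_lit 38)) (PT.lf (nat_lit 12180) (nat_lit 6) (nat_lit 145) (nat_lit 0) (nat_lit 59) (nat_lit 48) (nat_lit 37))))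 (PT.nd (nat_lit 51794) (PT.nd (nat_lit 94) (PT.lf (nat_lit 11172) (nat_lit 6) (nat_lit 133) (nat_lit 0) (nat_lit 60) (nat_lit 48) (nat_lit 36)) (PT.lf (nat_lit 10080) (nat_lit 6) (nat_lit 120) (nat_lit 0) (nat_lit 61) (nat_lit 48) (nat_lit 35))) (PT.nd (nat_lit 94) (PT.lf (nat_lit 8988) (nat_lit 6) (nat_lit 107) (nat_lit 5) (nat_lit 34) (nat_lit 49) (nat_lit 61)) (PT.lf (nat_lit 10164) (nat_lit 6) (nat_lit 121) (nat_lit 5) (nat_lit 35) (nat_lit 49) (nat_lit 60))))) (PT.nd (nat_lit 376) (PT.nd (nat_lit 188) (PT.nd (nat_lit 94) (PT.lf (nat_lit 11256) (nat_lit 6) (nat_lit 134) (nat_lit 5) (nat_lit 36) (nat_lit 49) (nat_lit 59)) (PT.lf (nat_lit 12264) (nat_lit 6) (nat_lit 146) (nat_lit 5) (nat_lit 37) (nat_lit 49) (nat_lit 58))) (PT.nd (nat_lit 94) (PT.lf (nat_lit 13188) (nat_lit 6) (nat_lit 157) (nat_lit 5) (nat_lit 38) (nat_lit 49) (nat_lit 57)) (PT.lf (nat_lit 14028) (nat_lit 6) (nat_lit 167) (nat_lit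 5) (nat_lit 39) (nat_lit 49) (nat_lit 56)))) (PT.nd (nat_lit 188) (PT.nd (nat_lit 94) (PT.lf (nat_lit 14784) (nat_lit 6) (nat_lit 176) (nat_lit 5) (nat_lit 40) (nat_lit 49) (nat_lit 55)) (PT.lf (nat_lit 15456) (nat_lit 6) (nat_lit 184) (nat_lit 5) (nat_lit 41) (nat_lit 49) (nat_lit 54))) (PT.nd (nat_lit 94) (PT.lf (nat_lit 16044) (nat_lit 6) (nat_lit 191) (nat_lit 5) (nat_lit 42) (nat_lit 49) (nat_lit 53)) (PT.lf (nat_lit 16548) (nat_lit 6) (nat_lit 197) (nat_lit 5) (nat_lit 43) (nat_lit 49) (nat_lit 52)))))) (PT.nd (nat_lit 658) (PT.nd (nat_lit 282) (PT.nd (nat_lit 94) (PT.lf (nat_lit 16968) (nat_lit 6) (nat_lit 202) (nat_lit 5) (nat_lit 44) (nat_lit 49) (nat_lit 51)) (PT.nd (nat_lit 94) (PT.lf (nat_lit 17304) (nat_lit 6) (nat_lit 206) (nat_lit 5) (nat_lit 45) (nat_lit 49) (nat_lit 50)) (PT.lf (nat_lit 17556) (nat_lit 3) (nat_lit 209) (nat_lit 4) (nat_lit 46) (nat_lit 49) (nat_lit 49)))) (PT.nd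 (nat_lit 188) (PT.nd (nat_lit 94) (PT.lf (nat_lit 17640) (nat_lit 6) (nat_lit 210) (nat_lit 4) (nat_lit 47) (nat_lit 49) (nat_lit 48)) (PT.lf (nat_lit 17640) (nat_lit 6) (nat_lit 210) (nat_lit 2) (nat_lit 48) (nat_lit 49) (nat_lit 47))) (PT.nd (nat_lit 94) (PT.lf (nat_lit 17556) (nat_lit 3) (nat_lit 209) (nat_lit 0) (nat_lit 49) (nat_lit 49) (nat_lit 46)) (PT.lf (nat_lit 17304) (nat_lit 6) (nat_lit 206) (nat_lit 0) (nat_lit 50) (nat_lit 49) (nat_lit 45))))) (PT.nd (nat_lit 376) (PT.nd (nat_lit 188) (PT.nd (nat_lit 94) (PT.lf (nat_lit 16968) (nat_lit 6) (nat_lit 202) (nat_lit 0) (nat_lit 51) (nat_lit 49) (nat_lit 44)) (PT.lf (nat_lit 16548) (nat_lit 6) (nat_lit 197) (nat_lit 0) (nat_lit 52) (nat_lit 49) (nat_lit 43))) (PT.nd (nat_lit 94) (PT.lf (nat_lit 16044) (nat_lit 6) (nat_lit 191) (nat_lit 0) (nat_lit 53) (nat_lit 49) (nat_lit 42)) (PT.lf (nat_lit 15456) (nat_lit 6) (nat_lit 184) (nat_lit 0)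 (nat_lit 54) (nat_lit 49) (nat_lit 41)))) (PT.nd (nat_lit 188) (PT.nd (nat_lit 94) (PT.lf (nat_lit 14784) (nat_lit 6) (nat_lit 176) (nat_lit 0) (nat_lit 55) (nat_lit 49) (nat_lit 40)) (PT.lf (nat_lit 14028) (nat_lit 6) (nat_lit 167) (nat_lit 0) (nat_lit 56) (nat_lit 49) (nat_lit 39))) (PT.nd (nat_lit 94) (PT.lf (nat_lit 13188) (nat_lit 6) (nat_lit 157) (nat_lit 0) (nat_lit 57) (nat_lit 49) (nat_lit 38)) (PT.lf (nat_lit 12264) (nat_lit 6) (nat_lit 146) (nat_lit 0) (nat_lit 58) (nat_lit 49) (nat_lit 37))))))) (PT.nd (nat_lit 52922) (PT.nd (nat_lit 52170) (PT.nd (nat_lit 51794) (PT.nd (nat_lit 94) (PT.lf (nat_lit 11256) (nat_lit 6) (nat_lit 134) (nat_lit 0) (nat_lit 59) (nat_lit 49) (nat_lit 36)) (PT.nd (nat_lit 94) (PT.lf (nat_lit 10164) (nat_lit 6) (nat_lit 121) (nat_lit 0) (nat_lit 60) (nat_lit 49) (nat_lit 35)) (PT.lf (nat_lit 8988) (nat_lit 6) (nat_lit 107) (nat_lit 0) (nat_lit 61) (nat_lit 49)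 (nat_lit 34)))) (PT.nd (nat_lit 188) (PT.nd (nat_lit 94) (PT.lf (nat_lit 8484) (nat_lit 6) (nat_lit 101) (nat_lit 5) (nat_lit 33) (nat_lit 50) (nat_lit 61)) (PT.lf (nat_lit 9072) (nat_lit 6) (nat_lit 108) (nat_lit 5) (nat_lit 34) (nat_lit 50) (nat_lit 60))) (PT.nd (nat_lit 94) (PT.lf (nat_lit 10248) (nat_lit 6) (nat_lit 122) (nat_lit 5) (nat_lit 35) (nat_lit 50) (nat_lit 59)) (PT.lf (nat_lit 11340) (nat_lit 6) (nat_lit 135) (nat_lit 5) (nat_lit 36) (nat_lit 50) (nat_lit 58))))) (PT.nd (nat_lit 376) (PT.nd (nat_lit 188) (PT.nd (nat_lit 94) (PT.lf (nat_lit 12348) (nat_lit 6) (nat_lit 147) (nat_lit 5) (nat_lit 37) (nat_lit 50) (nat_lit 57)) (PT.lf (nat_lit 13272) (nat_lit 6) (nat_lit 158) (nat_lit 5) (nat_lit 38) (nat_lit 50) (nat_lit 56))) (PT.nd (nat_lit 94) (PT.lf (nat_lit 14112) (nat_lit 6) (nat_lit 168) (nat_lit 5) (nat_lit 39) (nat_lit 50) (nat_lit 55)) (PT.lf (nat_lit 14868) (nat_lit 6) (nat_lit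 177) (nat_lit 5) (nat_lit 40) (nat_lit 50) (nat_lit 54)))) (PT.nd (nat_lit 188) (PT.nd (nat_lit 94) (PT.lf (nat_lit 15540) (nat_lit 6) (nat_lit 185) (nat_lit 5) (nat_lit 41) (nat_lit 50) (nat_lit 53)) (PT.lf (nat_lit 16128) (nat_lit 6) (nat_lit 192) (nat_lit 5) (nat_lit 42) (nat_lit 50) (nat_lit 52))) (PT.nd (nat_lit 94) (PT.lf (nat_lit 16632) (nat_lit 6) (nat_lit 198) (nat_lit 5) (nat_lit 43) (nat_lit 50) (nat_lit 51)) (PT.lf (nat_lit 17052) (nat_lit 3) (nat_lit 203) (nat_lit 4) (nat_lit 44) (nat_lit 50) (nat_lit 50)))))) (PT.nd (nat_lit 658) (PT.nd (nat_lit 282) (PT.nd (nat_lit 94) (PT.lf (nat_lit 17304) (nat_lit 6) (nat_lit 206) (nat_lit 4) (nat_lit 45) (nat_lit 50) (nat_lit 49)) (PT.nd (nat_lit 94) (PT.lf (nat_lit 17472) (nat_lit 6) (nat_lit 208) (nat_lit 4) (nat_lit 46) (nat_lit 50) (nat_lit 48)) (PT.lf (nat_lit 17388) (nat_lit 3) (nat_lit 207) (nat_lit 2) (nat_lit 47) (nat_lit 50) (nat_lit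 47)))) (PT.nd (nat_lit 188) (PT.nd (nat_lit 94) (PT.lf (nat_lit 17472) (nat_lit 6) (nat_lit 208) (nat_lit 2) (nat_lit 48) (nat_lit 50) (nat_lit 46)) (PT.lf (nat_lit 17304) (nat_lit 6) (nat_lit 206) (nat_lit 2) (nat_lit 49) (nat_lit 50) (nat_lit 45))) (PT.nd (nat_lit 94) (PT.lf (nat_lit 17052) (nat_lit 3) (nat_lit 203) (nat_lit 0) (nat_lit 50) (nat_lit 50) (nat_lit 44)) (PT.lf (nat_lit 16632) (nat_lit 6) (nat_lit 198) (nat_lit 0) (nat_lit 51) (nat_lit 50) (nat_lit 43))))) (PT.nd (nat_lit 376) (PT.nd (nat_lit 188) (PT.nd (nat_lit 94) (PT.lf (nat_lit 16128) (nat_lit 6) (nat_lit 192) (nat_lit 0) (nat_lit 52) (nat_lit 50) (nat_lit 42)) (PT.lf (nat_lit 15540) (nat_lit 6) (nat_lit 185) (nat_lit 0) (nat_lit 53) (nat_lit 50) (nat_lit 41))) (PT.nd (nat_lit 94) (PT.lf (nat_lit 14868) (nat_lit 6) (nat_lit 177) (nat_lit 0) (nat_lit 54) (nat_lit 50) (nat_lit 40)) (PT.lf (nat_lit 14112) (nat_lit 6) (nat_lit 168)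 (nat_lit 0) (nat_lit 55) (nat_lit 50) (nat_lit 39)))) (PT.nd (nat_lit 188) (PT.nd (nat_lit 94) (PT.lf (nat_lit 13272) (nat_lit 6) (nat_lit 158) (nat_lit 0) (nat_lit 56) (nat_lit 50) (nat_lit 38)) (PT.lf (nat_lit 12348) (nat_lit 6) (nat_lit 147) (nat_lit 0) (nat_lit 57) (nat_lit 50) (nat_lit 37))) (PT.nd (nat_lit 94) (PT.lf (nat_lit 11340) (nat_lit 6) (nat_lit 135) (nat_lit 0) (nat_lit 58) (nat_lit 50) (nat_lit 36)) (PT.lf (nat_lit 10248) (nat_lit 6) (nat_lit 122) (nat_lit 0) (nat_lit 59) (nat_lit 50) (nat_lit 35))))))))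
noncomputable def pc8 : PT := (PT.nd (nat_lit 54144) (PT.nd (nat_lit 52734) (PT.nd (nat_lit 51982) (PT.nd (nat_lit 51606) (PT.nd (nat_lit 94) (PT.lf (nat_lit 9072) (nat_lit 6) (nat_lit 108) (nat_lit 0) (nat_lit 60) (nat_lit 50) (nat_lit 34)) (PT.nd (nat_lit 51418) (PT.lf (nat_lit 8484) (nat_lit 6) (nat_lit 101) (nat_lit 0) (nat_lit 61) (nat_lit 50) (nat_lit 33)) (PT.lf (nat_lit 7308) (nat_lit 6) (nat_lit 87) (nat_lit 5) (nat_lit 31) (nat_lit 51) (nat_lit 62)))) (PT.nd (nat_lit 188) (PT.nd (nat_lit 94) (PT.lf (nat_lit 7896) (nat_lit 6) (nat_lit 94) (nat_lit 5) (nat_lit 32) (nat_lit 51) (nat_lit 61)) (PT.lf (nat_lit 8568) (nat_lit 6) (nat_lit 102) (nat_lit 5) (nat_lit 33) (nat_lit 51) (nat_lit 60))) (PT.nd (nat_lit 94) (PT.lf (nat_lit 9156) (nat_lit 6) (nat_lit 109) (nat_lit 5) (nat_lit 34) (nat_lit 51) (nat_lit 59)) (PT.lf (nat_lit 10332) (nat_lit 6) (nat_lit 123) (nat_lit 5) (nat_lit 35) (nat_lit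 51) (nat_lit 58))))) (PT.nd (nat_lit 376) (PT.nd (nat_lit 188) (PT.nd (nat_lit 94) (PT.lf (nat_lit 11424) (nat_lit 6) (nat_lit 136) (nat_lit 5) (nat_lit 36) (nat_lit 51) (nat_lit 57)) (PT.lf (nat_lit 12432) (nat_lit 6) (nat_lit 148) (nat_lit 5) (nat_lit 37) (nat_lit 51) (nat_lit 56))) (PT.nd (nat_lit 94) (PT.lf (nat_lit 13356) (nat_lit 6) (nat_lit 159) (nat_lit 5) (nat_lit 38) (nat_lit 51) (nat_lit 55)) (PT.lf (nat_lit 14196) (nat_lit 6) (nat_lit 169) (nat_lit 5) (nat_lit 39) (nat_lit 51) (nat_lit 54)))) (PT.nd (nat_lit 188) (PT.nd (nat_lit 94) (PT.lf (nat_lit 14952) (nat_lit 6) (nat_lit 178) (nat_lit 5) (nat_lit 40) (nat_lit 51) (nat_lit 53)) (PT.lf (nat_lit 15624) (nat_lit 6) (nat_lit 186) (nat_lit 5) (nat_lit 41) (nat_lit 51) (nat_lit 52))) (PT.nd (nat_lit 94) (PT.lf (nat_lit 16212) (nat_lit 3) (nat_lit 193) (nat_lit 4) (nat_lit 42) (nat_lit 51) (nat_lit 51)) (PT.lf (nat_lit 16632) (nat_lit 6)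 (nat_lit 198) (nat_lit 4) (nat_lit 43) (nat_lit 51) (nat_lit 50)))))) (PT.nd (nat_lit 658) (PT.nd (nat_lit 282) (PT.nd (nat_lit 94) (PT.lf (nat_lit 16968) (nat_lit 6) (nat_lit 202) (nat_lit 4) (nat_lit 44) (nat_lit 51) (nat_lit 49)) (PT.nd (nat_lit 94) (PT.lf (nat_lit 17220) (nat_lit 6) (nat_lit 205) (nat_lit 4) (nat_lit 45) (nat_lit 51) (nat_lit 48)) (PT.lf (nat_lit 17136) (nat_lit 6) (nat_lit 204) (nat_lit 4) (nat_lit 46) (nat_lit 51) (nat_lit 47)))) (PT.nd (nat_lit 188) (PT.nd (nat_lit 94) (PT.lf (nat_lit 17136) (nat_lit 6) (nat_lit 204) (nat_lit 2) (nat_lit 47) (nat_lit 51) (nat_lit 46)) (PT.lf (nat_lit 17220) (nat_lit 6) (nat_lit 205) (nat_lit 2) (nat_lit 48) (nat_lit 51) (nat_lit 45))) (PT.nd (nat_lit 94) (PT.lf (nat_lit 16968) (nat_lit 6) (nat_lit 202) (nat_lit 2) (nat_lit 49) (nat_lit 51) (nat_lit 44)) (PT.lf (nat_lit 16632) (nat_lit 6) (nat_lit 198) (nat_lit 2) (nat_lit 50) (nat_lit 51)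 (nat_lit 43))))) (PT.nd (nat_lit 376) (PT.nd (nat_lit 188) (PT.nd (nat_lit 94) (PT.lf (nat_lit 16212) (nat_lit 3) (nat_lit 193) (nat_lit 0) (nat_lit 51) (nat_lit 51) (nat_lit 42)) (PT.lf (nat_lit 15624) (nat_lit 6) (nat_lit 186) (nat_lit 0) (nat_lit 52) (nat_lit 51) (nat_lit 41))) (PT.nd (nat_lit 94) (PT.lf (nat_lit 14952) (nat_lit 6) (nat_lit 178) (nat_lit 0) (nat_lit 53) (nat_lit 51) (nat_lit 40)) (PT.lf (nat_lit 14196) (nat_lit 6) (nat_lit 169) (nat_lit 0) (nat_lit 54) (nat_lit 51) (nat_lit 39)))) (PT.nd (nat_lit 188) (PT.nd (nat_lit 94) (PT.lf (nat_lit 13356) (nat_lit 6) (nat_lit 159) (nat_lit 0) (nat_lit 55) (nat_lit 51) (nat_lit 38)) (PT.lf (nat_lit 12432) (nat_lit 6) (nat_lit 148) (nat_lit 0) (nat_lit 56) (nat_lit 51) (nat_lit 37))) (PT.nd (nat_lit 94) (PT.lf (nat_lit 11424) (nat_lit 6) (nat_lit 136) (nat_lit 0) (nat_lit 57) (nat_lit 51) (nat_lit 36)) (PT.lf (nat_lit 10332) (nat_lit 6) (nat_lit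 123) (nat_lit 0) (nat_lit 58) (nat_lit 51) (nat_lit 35))))))) (PT.nd (nat_lit 52546) (PT.nd (nat_lit 51794) (PT.nd (nat_lit 282) (PT.nd (nat_lit 94) (PT.lf (nat_lit 9156) (nat_lit 6) (nat_lit 109) (nat_lit 0) (nat_lit 59) (nat_lit 51) (nat_lit 34)) (PT.nd (nat_lit 94) (PT.lf (nat_lit 8568) (nat_lit 6) (nat_lit 102) (nat_lit 0) (nat_lit 60) (nat_lit 51) (nat_lit 33)) (PT.lf (nat_lit 7896) (nat_lit 6) (nat_lit 94) (nat_lit 0) (nat_lit 61) (nat_lit 51) (nat_lit 32)))) (PT.nd (nat_lit 51324) (PT.nd (nat_lit 51230) (PT.lf (nat_lit 7308) (nat_lit 6) (nat_lit 87) (nat_lit 0) (nat_lit 62) (nat_lit 51) (nat_lit 31)) (PT.lf (nat_lit 6804) (nat_lit 6) (nat_lit 81) (nat_lit 5) (nat_lit 30) (nat_lit 52) (nat_lit 62))) (PT.nd (nat_lit 94) (PT.lf (nat_lit 7392) (nat_lit 6) (nat_lit 88) (nat_lit 5) (nat_lit 31) (nat_lit 52) (nat_lit 61)) (PT.lf (nat_lit 7980) (nat_lit 6) (nat_lit 95) (nat_lit 5) (nat_lit 32) (nat_lit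 52) (nat_lit 60))))) (PT.nd (nat_lit 376) (PT.nd (nat_lit 188) (PT.nd (nat_lit 94) (PT.lf (nat_lit 8652) (nat_lit 6) (nat_lit 103) (nat_lit 5) (nat_lit 33) (nat_lit 52) (nat_lit 59)) (PT.lf (nat_lit 9240) (nat_lit 6) (nat_lit 110) (nat_lit 5) (nat_lit 34) (nat_lit 52) (nat_lit 58))) (PT.nd (nat_lit 94) (PT.lf (nat_lit 10416) (nat_lit 6) (nat_lit 124) (nat_lit 5) (nat_lit 35) (nat_lit 52) (nat_lit 57)) (PT.lf (nat_lit 11508) (nat_lit 6) (nat_lit 137) (nat_lit 5) (nat_lit 36) (nat_lit 52) (nat_lit 56)))) (PT.nd (nat_lit 188) (PT.nd (nat_lit 94) (PT.lf (nat_lit 12516) (nat_lit 6) (nat_lit 149) (nat_lit 5) (nat_lit 37) (nat_lit 52) (nat_lit 55)) (PT.lf (nat_lit 13440) (nat_lit 6) (nat_lit 160) (nat_lit 5) (nat_lit 38) (nat_lit 52) (nat_lit 54))) (PT.nd (nat_lit 94) (PT.lf (nat_lit 14280) (nat_lit 6) (nat_lit 170) (nat_lit 5) (nat_lit 39) (nat_lit 52) (nat_lit 53)) (PT.lf (nat_lit 15036) (nat_lit 3) (nat_lit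 179) (nat_lit 4) (nat_lit 40) (nat_lit 52) (nat_lit 52)))))) (PT.nd (nat_lit 658) (PT.nd (nat_lit 282) (PT.nd (nat_lit 94) (PT.lf (nat_lit 15624) (nat_lit 6) (nat_lit 186) (nat_lit 4) (nat_lit 41) (nat_lit 52) (nat_lit 51)) (PT.nd (nat_lit 94) (PT.lf (nat_lit 16128) (nat_lit 6) (nat_lit 192) (nat_lit 4) (nat_lit 42) (nat_lit 52) (nat_lit 50)) (PT.lf (nat_lit 16548) (nat_lit 6) (nat_lit 197) (nat_lit 4) (nat_lit 43) (nat_lit 52) (nat_lit 49)))) (PT.nd (nat_lit 188) (PT.nd (nat_lit 94) (PT.lf (nat_lit 16884) (nat_lit 6) (nat_lit 201) (nat_lit 4) (nat_lit 44) (nat_lit 52) (nat_lit 48)) (PT.lf (nat_lit 16800) (nat_lit 6) (nat_lit 200) (nat_lit 4) (nat_lit 45) (nat_lit 52) (nat_lit 47))) (PT.nd (nat_lit 94) (PT.lf (nat_lit 16716) (nat_lit 3) (nat_lit 199) (nat_lit 2) (nat_lit 46) (nat_lit 52) (nat_lit 46)) (PT.lf (nat_lit 16800) (nat_lit 6) (nat_lit 200) (nat_lit 2) (nat_lit 47) (nat_lit 52) (nat_lit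 45))))) (PT.nd (nat_lit 376) (PT.nd (nat_lit 188) (PT.nd (nat_lit 94) (PT.lf (nat_lit 16884) (nat_lit 6) (nat_lit 201) (nat_lit 2) (nat_lit 48) (nat_lit 52) (nat_lit 44)) (PT.lf (nat_lit 16548) (nat_lit 6) (nat_lit 197) (nat_lit 2) (nat_lit 49) (nat_lit 52) (nat_lit 43))) (PT.nd (nat_lit 94) (PT.lf (nat_lit 16128) (nat_lit 6) (nat_lit 192) (nat_lit 2) (nat_lit 50) (nat_lit 52) (nat_lit 42)) (PT.lf (nat_lit 15624) (nat_lit 6) (nat_lit 186) (nat_lit 2) (nat_lit 51) (nat_lit 52) (nat_lit 41)))) (PT.nd (nat_lit 188) (PT.nd (nat_lit 94) (PT.lf (nat_lit 15036) (nat_lit 3) (nat_lit 179) (nat_lit 0) (nat_lit 52) (nat_lit 52) (nat_lit 40)) (PT.lf (nat_lit 14280) (nat_lit 6) (nat_lit 170) (nat_lit 0) (nat_lit 53) (nat_lit 52) (nat_lit 39))) (PT.nd (nat_lit 94) (PT.lf (nat_lit 13440) (nat_lit 6) (nat_lit 160) (nat_lit 0) (nat_lit 54) (nat_lit 52) (nat_lit 38)) (PT.lf (nat_lit 12516) (nat_lit 6) (nat_lit 149)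 (nat_lit 0) (nat_lit 55) (nat_lit 52) (nat_lit 37))))))))
noncomputable def pc9 : PT := (PT.nd (nat_lit 53862) (PT.nd (nat_lit 52452) (PT.nd (nat_lit 51700) (PT.nd (nat_lit 282) (PT.nd (nat_lit 94) (PT.lf (nat_lit 11508) (nat_lit 6) (nat_lit 137) (nat_lit 0) (nat_lit 56) (nat_lit 52) (nat_lit 36)) (PT.nd (nat_lit 94) (PT.lf (nat_lit 10416) (nat_lit 6) (nat_lit 124) (nat_lit 0) (nat_lit 57) (nat_lit 52) (nat_lit 35)) (PT.lf (nat_lit 9240) (nat_lit 6) (nat_lit 110) (nat_lit 0) (nat_lit 58) (nat_lit 52) (nat_lit 34)))) (PT.nd (nat_lit 188) (PT.nd (nat_lit 94) (PT.lf (nat_lit 8652) (nat_lit 6) (nat_lit 103) (nat_lit 0) (nat_lit 59) (nat_lit 52) (nat_lit 33)) (PT.lf (nat_lit 7980) (nat_lit 6) (nat_lit 95) (nat_lit 0) (nat_lit 60) (nat_lit 52) (nat_lit 32))) (PT.nd (nat_lit 94) (PT.lf (nat_lit 7392) (nat_lit 6) (nat_lit 88) (nat_lit 0) (nat_lit 61) (nat_lit 52) (nat_lit 31)) (PT.lf (nat_lit 6804) (nat_lit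 6) (nat_lit 81) (nat_lit 0) (nat_lit 62) (nat_lit 52) (nat_lit 30))))) (PT.nd (nat_lit 376) (PT.nd (nat_lit 188) (PT.nd (nat_lit 94) (PT.lf (nat_lit 6384) (nat_lit 6) (nat_lit 76) (nat_lit 5) (nat_lit 29) (nat_lit 53) (nat_lit 62)) (PT.lf (nat_lit 6888) (nat_lit 6) (nat_lit 82) (nat_lit 5) (nat_lit 30) (nat_lit 53) (nat_lit 61))) (PT.nd (nat_lit 94) (PT.lf (nat_lit 7476) (nat_lit 6) (nat_lit 89) (nat_lit 5) (nat_lit 31) (nat_lit 53) (nat_lit 60)) (PT.lf (nat_lit 8064) (nat_lit 6) (nat_lit 96) (nat_lit 5) (nat_lit 32) (nat_lit 53) (nat_lit 59)))) (PT.nd (nat_lit 188) (PT.nd (nat_lit 94) (PT.lf (nat_lit 8736) (nat_lit 6) (nat_lit 104) (nat_lit 5) (nat_lit 33) (nat_lit 53) (nat_lit 58)) (PT.lf (nat_lit 9324) (nat_lit 6) (nat_lit 111) (nat_lit 5) (nat_lit 34) (nat_lit 53) (nat_lit 57))) (PT.nd (nat_lit 94) (PT.lf (nat_lit 10500) (nat_lit 6) (nat_lit 125) (nat_lit 5) (nat_lit 35) (nat_lit 53) (nat_lit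 56)) (PT.lf (nat_lit 11592) (nat_lit 6) (nat_lit 138) (nat_lit 5) (nat_lit 36) (nat_lit 53) (nat_lit 55)))))) (PT.nd (nat_lit 658) (PT.nd (nat_lit 282) (PT.nd (nat_lit 94) (PT.lf (nat_lit 12600) (nat_lit 6) (nat_lit 150) (nat_lit 5) (nat_lit 37) (nat_lit 53) (nat_lit 54)) (PT.nd (nat_lit 94) (PT.lf (nat_lit 13524) (nat_lit 3) (nat_lit 161) (nat_lit 4) (nat_lit 38) (nat_lit 53) (nat_lit 53)) (PT.lf (nat_lit 14280) (nat_lit 6) (nat_lit 170) (nat_lit 4) (nat_lit 39) (nat_lit 53) (nat_lit 52)))) (PT.nd (nat_lit 188) (PT.nd (nat_lit 94) (PT.lf (nat_lit 14952) (nat_lit 6) (nat_lit 178) (nat_lit 4) (nat_lit 40) (nat_lit 53) (nat_lit 51)) (PT.lf (nat_lit 15540) (nat_lit 6) (nat_lit 185) (nat_lit 4) (nat_lit 41) (nat_lit 53) (nat_lit 50))) (PT.nd (nat_lit 94) (PT.lf (nat_lit 16044) (nat_lit 6) (nat_lit 191) (nat_lit 4) (nat_lit 42) (nat_lit 53) (nat_lit 49)) (PT.lf (nat_lit 16464) (nat_lit 6) (nat_lit 196)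 (nat_lit 4) (nat_lit 43) (nat_lit 53) (nat_lit 48))))) (PT.nd (nat_lit 376) (PT.nd (nat_lit 188) (PT.nd (nat_lit 94) (PT.lf (nat_lit 16380) (nat_lit 6) (nat_lit 195) (nat_lit 4) (nat_lit 44) (nat_lit 53) (nat_lit 47)) (PT.lf (nat_lit 16296) (nat_lit 6) (nat_lit 194) (nat_lit 4) (nat_lit 45) (nat_lit 53) (nat_lit 46))) (PT.nd (nat_lit 94) (PT.lf (nat_lit 16296) (nat_lit 6) (nat_lit 194) (nat_lit 2) (nat_lit 46) (nat_lit 53) (nat_lit 45)) (PT.lf (nat_lit 16380) (nat_lit 6) (nat_lit 195) (nat_lit 2) (nat_lit 47) (nat_lit 53) (nat_lit 44)))) (PT.nd (nat_lit 188) (PT.nd (nat_lit 94) (PT.lf (nat_lit 16464) (nat_lit 6) (nat_lit 196) (nat_lit 2) (nat_lit 48) (nat_lit 53) (nat_lit 43)) (PT.lf (nat_lit 16044) (nat_lit 6) (nat_lit 191) (nat_lit 2) (nat_lit 49) (nat_lit 53) (nat_lit 42))) (PT.nd (nat_lit 94) (PT.lf (nat_lit 15540) (nat_lit 6) (nat_lit 185) (nat_lit 2) (nat_lit 50) (nat_lit 53) (nat_lit 41))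 (PT.lf (nat_lit 14952) (nat_lit 6) (nat_lit 178) (nat_lit 2) (nat_lit 51) (nat_lit 53) (nat_lit 40))))))) (PT.nd (nat_lit 52358) (PT.nd (nat_lit 658) (PT.nd (nat_lit 282) (PT.nd (nat_lit 94) (PT.lf (nat_lit 14280) (nat_lit 6) (nat_lit 170) (nat_lit 2) (nat_lit 52) (nat_lit 53) (nat_lit 39)) (PT.nd (nat_lit 94) (PT.lf (nat_lit 13524) (nat_lit 3) (nat_lit 161) (nat_lit 0) (nat_lit 53) (nat_lit 53) (nat_lit 38)) (PT.lf (nat_lit 12600) (nat_lit 6) (nat_lit 150) (nat_lit 0) (nat_lit 54) (nat_lit 53) (nat_lit 37)))) (PT.nd (nat_lit 188) (PT.nd (nat_lit 94) (PT.lf (nat_lit 11592) (nat_lit 6) (nat_lit 138) (nat_lit 0) (nat_lit 55) (nat_lit 53) (nat_lit 36)) (PT.lf (nat_lit 10500) (nat_lit 6) (nat_lit 125) (nat_lit 0) (nat_lit 56) (nat_lit 53) (nat_lit 35))) (PT.nd (nat_lit 94) (PT.lf (nat_lit 9324) (nat_lit 6) (nat_lit 111) (nat_lit 0) (nat_lit 57) (nat_lit 53) (nat_lit 34)) (PT.lf (nat_lit 8736) (nat_lit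 6) (nat_lit 104) (nat_lit 0) (nat_lit 58) (nat_lit 53) (nat_lit 33))))) (PT.nd (nat_lit 51324) (PT.nd (nat_lit 188) (PT.nd (nat_lit 94) (PT.lf (nat_lit 8064) (nat_lit 6) (nat_lit 96) (nat_lit 0) (nat_lit 59) (nat_lit 53) (nat_lit 32)) (PT.lf (nat_lit 7476) (nat_lit 6) (nat_lit 89) (nat_lit 0) (nat_lit 60) (nat_lit 53) (nat_lit 31))) (PT.nd (nat_lit 94) (PT.lf (nat_lit 6888) (nat_lit 6) (nat_lit 82) (nat_lit 0) (nat_lit 61) (nat_lit 53) (nat_lit 30)) (PT.lf (nat_lit 6384) (nat_lit 6) (nat_lit 76) (nat_lit 0) (nat_lit 62) (nat_lit 53) (nat_lit 29)))) (PT.nd (nat_lit 188) (PT.nd (nat_lit 94) (PT.lf (nat_lit 5964) (nat_lit 6) (nat_lit 71) (nat_lit 5) (nat_lit 28) (nat_lit 54) (nat_lit 62)) (PT.lf (nat_lit 6468) (nat_lit 6) (nat_lit 77) (nat_lit 5) (nat_lit 29) (nat_lit 54) (nat_lit 61))) (PT.nd (nat_lit 94) (PT.lf (nat_lit 6972) (nat_lit 6) (nat_lit 83) (nat_lit 5) (nat_lit 30) (nat_lit 54) (nat_lit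 60)) (PT.lf (nat_lit 7560) (nat_lit 6) (nat_lit 90) (nat_lit 5) (nat_lit 31) (nat_lit 54) (nat_lit 59)))))) (PT.nd (nat_lit 658) (PT.nd (nat_lit 282) (PT.nd (nat_lit 94) (PT.lf (nat_lit 8148) (nat_lit 6) (nat_lit 97) (nat_lit 5) (nat_lit 32) (nat_lit 54) (nat_lit 58)) (PT.nd (nat_lit 94) (PT.lf (nat_lit 8820) (nat_lit 6) (nat_lit 105) (nat_lit 5) (nat_lit 33) (nat_lit 54) (nat_lit 57)) (PT.lf (nat_lit 9408) (nat_lit 6) (nat_lit 112) (nat_lit 5) (nat_lit 34) (nat_lit 54) (nat_lit 56)))) (PT.nd (nat_lit 188) (PT.nd (nat_lit 94) (PT.lf (nat_lit 10584) (nat_lit 6) (nat_lit 126) (nat_lit 5) (nat_lit 35) (nat_lit 54) (nat_lit 55)) (PT.lf (nat_lit 11676) (nat_lit 3) (nat_lit 139) (nat_lit 4) (nat_lit 36) (nat_lit 54) (nat_lit 54))) (PT.nd (nat_lit 94) (PT.lf (nat_lit 12600) (nat_lit 6) (nat_lit 150) (nat_lit 4) (nat_lit 37) (nat_lit 54) (nat_lit 53)) (PT.lf (nat_lit 13440) (nat_lit 6) (nat_lit 160) (nat_lit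 4) (nat_lit 38) (nat_lit 54) (nat_lit 52))))) (PT.nd (nat_lit 376) (PT.nd (nat_lit 188) (PT.nd (nat_lit 94) (PT.lf (nat_lit 14196) (nat_lit 6) (nat_lit 169) (nat_lit 4) (nat_lit 39) (nat_lit 54) (nat_lit 51)) (PT.lf (nat_lit 14868) (nat_lit 6) (nat_lit 177) (nat_lit 4) (nat_lit 40) (nat_lit 54) (nat_lit 50))) (PT.nd (nat_lit 94) (PT.lf (nat_lit 15456) (nat_lit 6) (nat_lit 184) (nat_lit 4) (nat_lit 41) (nat_lit 54) (nat_lit 49)) (PT.lf (nat_lit 15960) (nat_lit 6) (nat_lit 190) (nat_lit 4) (nat_lit 42) (nat_lit 54) (nat_lit 48)))) (PT.nd (nat_lit 188) (PT.nd (nat_lit 94) (PT.lf (nat_lit 15876) (nat_lit 6) (nat_lit 189) (nat_lit 4) (nat_lit 43) (nat_lit 54) (nat_lit 47)) (PT.lf (nat_lit 15792) (nat_lit 6) (nat_lit 188) (nat_lit 4) (nat_lit 44) (nat_lit 54) (nat_lit 46))) (PT.nd (nat_lit 94) (PT.lf (nat_lit 15708) (nat_lit 3) (nat_lit 187) (nat_lit 2) (nat_lit 45) (nat_lit 54) (nat_lit 45)) (PT.lf (nat_lit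 15792) (nat_lit 6) (nat_lit 188) (nat_lit 2) (nat_lit 46) (nat_lit 54) (nat_lit 44))))))))
noncomputable def pc10 : PT := (PT.nd (nat_lit 53674) (PT.nd (nat_lit 1410) (PT.nd (nat_lit 658) (PT.nd (nat_lit 282) (PT.nd (nat_lit 94) (PT.lf (nat_lit 15876) (nat_lit 6) (nat_lit 189) (nat_lit 2) (nat_lit 47) (nat_lit 54) (nat_lit 43)) (PT.nd (nat_lit 94) (PT.lf (nat_lit 15960) (nat_lit 6) (nat_lit 190) (nat_lit 2) (nat_lit 48) (nat_lit 54) (nat_lit 42)) (PT.lf (nat_lit 15456) (nat_lit 6) (nat_lit 184) (nat_lit 2) (nat_lit 49) (nat_lit 54) (nat_lit 41)))) (PT.nd (nat_lit 188) (PT.nd (nat_lit 94) (PT.lf (nat_lit 14868) (nat_lit 6) (nat_lit 177) (nat_lit 2) (nat_lit 50) (nat_lit 54) (nat_lit 40)) (PT.lf (nat_lit 14196) (nat_lit 6) (nat_lit 169) (nat_lit 2) (nat_lit 51) (nat_lit 54) (nat_lit 39))) (PT.nd (nat_lit 94) (PT.lf (nat_lit 13440) (nat_lit 6) (nat_lit 160) (nat_lit 2) (nat_lit 52) (nat_lit 54) (nat_lit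 38)) (PT.lf (nat_lit 12600) (nat_lit 6) (nat_lit 150) (nat_lit 2) (nat_lit 53) (nat_lit 54) (nat_lit 37))))) (PT.nd (nat_lit 376) (PT.nd (nat_lit 188) (PT.nd (nat_lit 94) (PT.lf (nat_lit 11676) (nat_lit 3) (nat_lit 139) (nat_lit 0) (nat_lit 54) (nat_lit 54) (nat_lit 36)) (PT.lf (nat_lit 10584) (nat_lit 6) (nat_lit 126) (nat_lit 0) (nat_lit 55) (nat_lit 54) (nat_lit 35))) (PT.nd (nat_lit 94) (PT.lf (nat_lit 9408) (nat_lit 6) (nat_lit 112) (nat_lit 0) (nat_lit 56) (nat_lit 54) (nat_lit 34)) (PT.lf (nat_lit 8820) (nat_lit 6) (nat_lit 105) (nat_lit 0) (nat_lit 57) (nat_lit 54) (nat_lit 33)))) (PT.nd (nat_lit 188) (PT.nd (nat_lit 94) (PT.lf (nat_lit 8148) (nat_lit 6) (nat_lit 97) (nat_lit 0) (nat_lit 58) (nat_lit 54) (nat_lit 32)) (PT.lf (nat_lit 7560) (nat_lit 6) (nat_lit 90) (nat_lit 0) (nat_lit 59) (nat_lit 54) (nat_lit 31))) (PT.nd (nat_lit 94) (PT.lf (nat_lit 6972) (nat_lit 6) (nat_lit 83) (nat_lit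 0) (nat_lit 60) (nat_lit 54) (nat_lit 30)) (PT.lf (nat_lit 6468) (nat_lit 6) (nat_lit 77) (nat_lit 0) (nat_lit 61) (nat_lit 54) (nat_lit 29)))))) (PT.nd (nat_lit 51512) (PT.nd (nat_lit 51136) (PT.nd (nat_lit 50948) (PT.lf (nat_lit 5964) (nat_lit 6) (nat_lit 71) (nat_lit 0) (nat_lit 62) (nat_lit 54) (nat_lit 28)) (PT.nd (nat_lit 94) (PT.lf (nat_lit 5544) (nat_lit 6) (nat_lit 66) (nat_lit 5) (nat_lit 27) (nat_lit 55) (nat_lit 62)) (PT.lf (nat_lit 6048) (nat_lit 6) (nat_lit 72) (nat_lit 5) (nat_lit 28) (nat_lit 55) (nat_lit 61)))) (PT.nd (nat_lit 188) (PT.nd (nat_lit 94) (PT.lf (nat_lit 6552) (nat_lit 6) (nat_lit 78) (nat_lit 5) (nat_lit 29) (nat_lit 55) (nat_lit 60)) (PT.lf (nat_lit 7056) (nat_lit 6) (nat_lit 84) (nat_lit 5) (nat_lit 30) (nat_lit 55) (nat_lit 59))) (PT.nd (nat_lit 94) (PT.lf (nat_lit 7644) (nat_lit 6) (nat_lit 91) (nat_lit 5) (nat_lit 31) (nat_lit 55) (nat_lit 58)) (PT.lf (nat_lit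 8232) (nat_lit 6) (nat_lit 98) (nat_lit 5) (nat_lit 32) (nat_lit 55) (nat_lit 57))))) (PT.nd (nat_lit 376) (PT.nd (nat_lit 188) (PT.nd (nat_lit 94) (PT.lf (nat_lit 8904) (nat_lit 6) (nat_lit 106) (nat_lit 5) (nat_lit 33) (nat_lit 55) (nat_lit 56)) (PT.lf (nat_lit 9492) (nat_lit 3) (nat_lit 113) (nat_lit 4) (nat_lit 34) (nat_lit 55) (nat_lit 55))) (PT.nd (nat_lit 94) (PT.lf (nat_lit 10584) (nat_lit 6) (nat_lit 126) (nat_lit 4) (nat_lit 35) (nat_lit 55) (nat_lit 54)) (PT.lf (nat_lit 11592) (nat_lit 6) (nat_lit 138) (nat_lit 4) (nat_lit 36) (nat_lit 55) (nat_lit 53)))) (PT.nd (nat_lit 188) (PT.nd (nat_lit 94) (PT.lf (nat_lit 12516) (nat_lit 6) (nat_lit 149) (nat_lit 4) (nat_lit 37) (nat_lit 55) (nat_lit 52)) (PT.lf (nat_lit 13356) (nat_lit 6) (nat_lit 159) (nat_lit 4) (nat_lit 38) (nat_lit 55) (nat_lit 51))) (PT.nd (nat_lit 94) (PT.lf (nat_lit 14112) (nat_lit 6) (nat_lit 168) (nat_lit 4) (nat_lit 39)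 (nat_lit 55) (nat_lit 50)) (PT.lf (nat_lit 14784) (nat_lit 6) (nat_lit 176) (nat_lit 4) (nat_lit 40) (nat_lit 55) (nat_lit 49))))))) (PT.nd (nat_lit 1410) (PT.nd (nat_lit 658) (PT.nd (nat_lit 282) (PT.nd (nat_lit 94) (PT.lf (nat_lit 15372) (nat_lit 6) (nat_lit 183) (nat_lit 4) (nat_lit 41) (nat_lit 55) (nat_lit 48)) (PT.nd (nat_lit 94) (PT.lf (nat_lit 15288) (nat_lit 6) (nat_lit 182) (nat_lit 4) (nat_lit 42) (nat_lit 55) (nat_lit 47)) (PT.lf (nat_lit 15204) (nat_lit 6) (nat_lit 181) (nat_lit 4) (nat_lit 43) (nat_lit 55) (nat_lit 46)))) (PT.nd (nat_lit 188) (PT.nd (nat_lit 94) (PT.lf (nat_lit 15120) (nat_lit 6) (nat_lit 180) (nat_lit 4) (nat_lit 44) (nat_lit 55) (nat_lit 45)) (PT.lf (nat_lit 15120) (nat_lit 6) (nat_lit 180) (nat_lit 2) (nat_lit 45) (nat_lit 55) (nat_lit 44))) (PT.nd (nat_lit 94) (PT.lf (nat_lit 15204) (nat_lit 6) (nat_lit 181) (nat_lit 2) (nat_lit 46) (nat_lit 55) (nat_lit 43)) (PT.lf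 (nat_lit 15288) (nat_lit 6) (nat_lit 182) (nat_lit 2) (nat_lit 47) (nat_lit 55) (nat_lit 42))))) (PT.nd (nat_lit 376) (PT.nd (nat_lit 188) (PT.nd (nat_lit 94) (PT.lf (nat_lit 15372) (nat_lit 6) (nat_lit 183) (nat_lit 2) (nat_lit 48) (nat_lit 55) (nat_lit 41)) (PT.lf (nat_lit 14784) (nat_lit 6) (nat_lit 176) (nat_lit 2) (nat_lit 49) (nat_lit 55) (nat_lit 40))) (PT.nd (nat_lit 94) (PT.lf (nat_lit 14112) (nat_lit 6) (nat_lit 168) (nat_lit 2) (nat_lit 50) (nat_lit 55) (nat_lit 39)) (PT.lf (nat_lit 13356) (nat_lit 6) (nat_lit 159) (nat_lit 2) (nat_lit 51) (nat_lit 55) (nat_lit 38)))) (PT.nd (nat_lit 188) (PT.nd (nat_lit 94) (PT.lf (nat_lit 12516) (nat_lit 6) (nat_lit 149) (nat_lit 2) (nat_lit 52) (nat_lit 55) (nat_lit 37)) (PT.lf (nat_lit 11592) (nat_lit 6) (nat_lit 138) (nat_lit 2) (nat_lit 53) (nat_lit 55) (nat_lit 36))) (PT.nd (nat_lit 94) (PT.lf (nat_lit 10584) (nat_lit 6) (nat_lit 126) (nat_lit 2)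 (nat_lit 54) (nat_lit 55) (nat_lit 35)) (PT.lf (nat_lit 9492) (nat_lit 3) (nat_lit 113) (nat_lit 0) (nat_lit 55) (nat_lit 55) (nat_lit 34)))))) (PT.nd (nat_lit 51324) (PT.nd (nat_lit 282) (PT.nd (nat_lit 94) (PT.lf (nat_lit 8904) (nat_lit 6) (nat_lit 106) (nat_lit 0) (nat_lit 56) (nat_lit 55) (nat_lit 33)) (PT.nd (nat_lit 94) (PT.lf (nat_lit 8232) (nat_lit 6) (nat_lit 98) (nat_lit 0) (nat_lit 57) (nat_lit 55) (nat_lit 32)) (PT.lf (nat_lit 7644) (nat_lit 6) (nat_lit 91) (nat_lit 0) (nat_lit 58) (nat_lit 55) (nat_lit 31)))) (PT.nd (nat_lit 188) (PT.nd (nat_lit 94) (PT.lf (nat_lit 7056) (nat_lit 6) (nat_lit 84) (nat_lit 0) (nat_lit 59) (nat_lit 55) (nat_lit 30)) (PT.lf (nat_lit 6552) (nat_lit 6) (nat_lit 78) (nat_lit 0) (nat_lit 60) (nat_lit 55) (nat_lit 29))) (PT.nd (nat_lit 94) (PT.lf (nat_lit 6048) (nat_lit 6) (nat_lit 72) (nat_lit 0) (nat_lit 61) (nat_lit 55) (nat_lit 28)) (PT.lf (nat_lit 5544)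 (nat_lit 6) (nat_lit 66) (nat_lit 0) (nat_lit 62) (nat_lit 55) (nat_lit 27))))) (PT.nd (nat_lit 376) (PT.nd (nat_lit 188) (PT.nd (nat_lit 94) (PT.lf (nat_lit 4704) (nat_lit 6) (nat_lit 56) (nat_lit 5) (nat_lit 25) (nat_lit 56) (nat_lit 63)) (PT.lf (nat_lit 5124) (nat_lit 6) (nat_lit 61) (nat_lit 5) (nat_lit 26) (nat_lit 56) (nat_lit 62))) (PT.nd (nat_lit 94) (PT.lf (nat_lit 5628) (nat_lit 6) (nat_lit 67) (nat_lit 5) (nat_lit 27) (nat_lit 56) (nat_lit 61)) (PT.lf (nat_lit 6132) (nat_lit 6) (nat_lit 73) (nat_lit 5) (nat_lit 28) (nat_lit 56) (nat_lit 60)))) (PT.nd (nat_lit 188) (PT.nd (nat_lit 94) (PT.lf (nat_lit 6636) (nat_lit 6) (nat_lit 79) (nat_lit 5) (nat_lit 29) (nat_lit 56) (nat_lit 59)) (PT.lf (nat_lit 7140) (nat_lit 6) (nat_lit 85) (nat_lit 5) (nat_lit 30) (nat_lit 56) (nat_lit 58))) (PT.nd (nat_lit 94) (PT.lf (nat_lit 7728) (nat_lit 6) (nat_lit 92) (nat_lit 5) (nat_lit 31) (nat_lit 56) (nat_lit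 57)) (PT.lf (nat_lit 8316) (nat_lit 3) (nat_lit 99) (nat_lit 4) (nat_lit 32) (nat_lit 56) (nat_lit 56))))))))
noncomputable def pc11 : PT := (PT.nd (nat_lit 2820) (PT.nd (nat_lit 1410) (PT.nd (nat_lit 658) (PT.nd (nat_lit 282) (PT.nd (nat_lit 94) (PT.lf (nat_lit 8904) (nat_lit 6) (nat_lit 106) (nat_lit 4) (nat_lit 33) (nat_lit 56) (nat_lit 55)) (PT.nd (nat_lit 94) (PT.lf (nat_lit 9408) (nat_lit 6) (nat_lit 112) (nat_lit 4) (nat_lit 34) (nat_lit 56) (nat_lit 54)) (PT.lf (nat_lit 10500) (nat_lit 6) (nat_lit 125) (nat_lit 4) (nat_lit 35) (nat_lit 56) (nat_lit 53)))) (PT.nd (nat_lit 188) (PT.nd (nat_lit 94) (PT.lf (nat_lit 11508) (nat_lit 6) (nat_lit 137) (nat_lit 4) (nat_lit 36) (nat_lit 56) (nat_lit 52)) (PT.lf (nat_lit 12432) (nat_lit 6) (nat_lit 148) (nat_lit 4) (nat_lit 37) (nat_lit 56) (nat_lit 51))) (PT.nd (nat_lit 94) (PT.lf (nat_lit 13272) (nat_lit 6) (nat_lit 158) (nat_lit 4) (nat_lit 38) (nat_lit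 56) (nat_lit 50)) (PT.lf (nat_lit 14028) (nat_lit 6) (nat_lit 167) (nat_lit 4) (nat_lit 39) (nat_lit 56) (nat_lit 49))))) (PT.nd (nat_lit 376) (PT.nd (nat_lit 188) (PT.nd (nat_lit 94) (PT.lf (nat_lit 14700) (nat_lit 6) (nat_lit 175) (nat_lit 4) (nat_lit 40) (nat_lit 56) (nat_lit 48)) (PT.lf (nat_lit 14616) (nat_lit 6) (nat_lit 174) (nat_lit 4) (nat_lit 41) (nat_lit 56) (nat_lit 47))) (PT.nd (nat_lit 94) (PT.lf (nat_lit 14532) (nat_lit 6) (nat_lit 173) (nat_lit 4) (nat_lit 42) (nat_lit 56) (nat_lit 46)) (PT.lf (nat_lit 14448) (nat_lit 6) (nat_lit 172) (nat_lit 4) (nat_lit 43) (nat_lit 56) (nat_lit 45)))) (PT.nd (nat_lit 188) (PT.nd (nat_lit 94) (PT.lf (nat_lit 14364) (nat_lit 3) (nat_lit 171) (nat_lit 2) (nat_lit 44) (nat_lit 56) (nat_lit 44)) (PT.lf (nat_lit 14448) (nat_lit 6) (nat_lit 172) (nat_lit 2) (nat_lit 45) (nat_lit 56) (nat_lit 43))) (PT.nd (nat_lit 94) (PT.lf (nat_lit 14532) (nat_lit 6)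 (nat_lit 173) (nat_lit 2) (nat_lit 46) (nat_lit 56) (nat_lit 42)) (PT.lf (nat_lit 14616) (nat_lit 6) (nat_lit 174) (nat_lit 2) (nat_lit 47) (nat_lit 56) (nat_lit 41)))))) (PT.nd (nat_lit 658) (PT.nd (nat_lit 282) (PT.nd (nat_lit 94) (PT.lf (nat_lit 14700) (nat_lit 6) (nat_lit 175) (nat_lit 2) (nat_lit 48) (nat_lit 56) (nat_lit 40)) (PT.nd (nat_lit 94) (PT.lf (nat_lit 14028) (nat_lit 6) (nat_lit 167) (nat_lit 2) (nat_lit 49) (nat_lit 56) (nat_lit 39)) (PT.lf (nat_lit 13272) (nat_lit 6) (nat_lit 158) (nat_lit 2) (nat_lit 50) (nat_lit 56) (nat_lit 38)))) (PT.nd (nat_lit 188) (PT.nd (nat_lit 94) (PT.lf (nat_lit 12432) (nat_lit 6) (nat_lit 148) (nat_lit 2) (nat_lit 51) (nat_lit 56) (nat_lit 37)) (PT.lf (nat_lit 11508) (nat_lit 6) (nat_lit 137) (nat_lit 2) (nat_lit 52) (nat_lit 56) (nat_lit 36))) (PT.nd (nat_lit 94) (PT.lf (nat_lit 10500) (nat_lit 6) (nat_lit 125) (nat_lit 2) (nat_lit 53) (nat_lit 56)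 (nat_lit 35)) (PT.lf (nat_lit 9408) (nat_lit 6) (nat_lit 112) (nat_lit 2) (nat_lit 54) (nat_lit 56) (nat_lit 34))))) (PT.nd (nat_lit 376) (PT.nd (nat_lit 188) (PT.nd (nat_lit 94) (PT.lf (nat_lit 8904) (nat_lit 6) (nat_lit 106) (nat_lit 2) (nat_lit 55) (nat_lit 56) (nat_lit 33)) (PT.lf (nat_lit 8316) (nat_lit 3) (nat_lit 99) (nat_lit 0) (nat_lit 56) (nat_lit 56) (nat_lit 32))) (PT.nd (nat_lit 94) (PT.lf (nat_lit 7728) (nat_lit 6) (nat_lit 92) (nat_lit 0) (nat_lit 57) (nat_lit 56) (nat_lit 31)) (PT.lf (nat_lit 7140) (nat_lit 6) (nat_lit 85) (nat_lit 0) (nat_lit 58) (nat_lit 56) (nat_lit 30)))) (PT.nd (nat_lit 188) (PT.nd (nat_lit 94) (PT.lf (nat_lit 6636) (nat_lit 6) (nat_lit 79) (nat_lit 0) (nat_lit 59) (nat_lit 56) (nat_lit 29)) (PT.lf (nat_lit 6132) (nat_lit 6) (nat_lit 73) (nat_lit 0) (nat_lit 60) (nat_lit 56) (nat_lit 28))) (PT.nd (nat_lit 94) (PT.lf (nat_lit 5628) (nat_lit 6) (nat_lit 67) (nat_lit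 0) (nat_lit 61) (nat_lit 56) (nat_lit 27)) (PT.lf (nat_lit 5124) (nat_lit 6) (nat_lit 61) (nat_lit 0) (nat_lit 62) (nat_lit 56) (nat_lit 26))))))) (PT.nd (nat_lit 51888) (PT.nd (nat_lit 51136) (PT.nd (nat_lit 50760) (PT.nd (nat_lit 50572) (PT.lf (nat_lit 4704) (nat_lit 6) (nat_lit 56) (nat_lit 0) (nat_lit 63) (nat_lit 56) (nat_lit 25)) (PT.nd (nat_lit 94) (PT.lf (nat_lit 4368) (nat_lit 6) (nat_lit 52) (nat_lit 5) (nat_lit 24) (nat_lit 57) (nat_lit 63)) (PT.lf (nat_lit 4788) (nat_lit 6) (nat_lit 57) (nat_lit 5) (nat_lit 25) (nat_lit 57) (nat_lit 62)))) (PT.nd (nat_lit 188) (PT.nd (nat_lit 94) (PT.lf (nat_lit 5208) (nat_lit 6) (nat_lit 62) (nat_lit 5) (nat_lit 26) (nat_lit 57) (nat_lit 61)) (PT.lf (nat_lit 5712) (nat_lit 6) (nat_lit 68) (nat_lit 5) (nat_lit 27) (nat_lit 57) (nat_lit 60))) (PT.nd (nat_lit 94) (PT.lf (nat_lit 6216) (nat_lit 6) (nat_lit 74) (nat_lit 5) (nat_lit 28) (nat_lit 57) (nat_lit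 59)) (PT.lf (nat_lit 6720) (nat_lit 6) (nat_lit 80) (nat_lit 5) (nat_lit 29) (nat_lit 57) (nat_lit 58))))) (PT.nd (nat_lit 376) (PT.nd (nat_lit 188) (PT.nd (nat_lit 94) (PT.lf (nat_lit 7224) (nat_lit 3) (nat_lit 86) (nat_lit 4) (nat_lit 30) (nat_lit 57) (nat_lit 57)) (PT.lf (nat_lit 7728) (nat_lit 6) (nat_lit 92) (nat_lit 4) (nat_lit 31) (nat_lit 57) (nat_lit 56))) (PT.nd (nat_lit 94) (PT.lf (nat_lit 8232) (nat_lit 6) (nat_lit 98) (nat_lit 4) (nat_lit 32) (nat_lit 57) (nat_lit 55)) (PT.lf (nat_lit 8820) (nat_lit 6) (nat_lit 105) (nat_lit 4) (nat_lit 33) (nat_lit 57) (nat_lit 54)))) (PT.nd (nat_lit 188) (PT.nd (nat_lit 94) (PT.lf (nat_lit 9324) (nat_lit 6) (nat_lit 111) (nat_lit 4) (nat_lit 34) (nat_lit 57) (nat_lit 53)) (PT.lf (nat_lit 10416) (nat_lit 6) (nat_lit 124) (nat_lit 4) (nat_lit 35) (nat_lit 57) (nat_lit 52))) (PT.nd (nat_lit 94) (PT.lf (nat_lit 11424) (nat_lit 6) (nat_lit 136) (nat_lit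 4) (nat_lit 36) (nat_lit 57) (nat_lit 51)) (PT.lf (nat_lit 12348) (nat_lit 6) (nat_lit 147) (nat_lit 4) (nat_lit 37) (nat_lit 57) (nat_lit 50)))))) (PT.nd (nat_lit 658) (PT.nd (nat_lit 282) (PT.nd (nat_lit 94) (PT.lf (nat_lit 13188) (nat_lit 6) (nat_lit 157) (nat_lit 4) (nat_lit 38) (nat_lit 57) (nat_lit 49)) (PT.nd (nat_lit 94) (PT.lf (nat_lit 13944) (nat_lit 6) (nat_lit 166) (nat_lit 4) (nat_lit 39) (nat_lit 57) (nat_lit 48)) (PT.lf (nat_lit 13860) (nat_lit 6) (nat_lit 165) (nat_lit 4) (nat_lit 40) (nat_lit 57) (nat_lit 47)))) (PT.nd (nat_lit 188) (PT.nd (nat_lit 94) (PT.lf (nat_lit 13776) (nat_lit 6) (nat_lit 164) (nat_lit 4) (nat_lit 41) (nat_lit 57) (nat_lit 46)) (PT.lf (nat_lit 13692) (nat_lit 6) (nat_lit 163) (nat_lit 4) (nat_lit 42) (nat_lit 57) (nat_lit 45))) (PT.nd (nat_lit 94) (PT.lf (nat_lit 13608) (nat_lit 6) (nat_lit 162) (nat_lit 4) (nat_lit 43) (nat_lit 57) (nat_lit 44)) (PT.lf (nat_lit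 13608) (nat_lit 6) (nat_lit 162) (nat_lit 2) (nat_lit 44) (nat_lit 57) (nat_lit 43))))) (PT.nd (nat_lit 376) (PT.nd (nat_lit 188) (PT.nd (nat_lit 94) (PT.lf (nat_lit 13692) (nat_lit 6) (nat_lit 163) (nat_lit 2) (nat_lit 45) (nat_lit 57) (nat_lit 42)) (PT.lf (nat_lit 13776) (nat_lit 6) (nat_lit 164) (nat_lit 2) (nat_lit 46) (nat_lit 57) (nat_lit 41))) (PT.nd (nat_lit 94) (PT.lf (nat_lit 13860) (nat_lit 6) (nat_lit 165) (nat_lit 2) (nat_lit 47) (nat_lit 57) (nat_lit 40)) (PT.lf (nat_lit 13944) (nat_lit 6) (nat_lit 166) (nat_lit 2) (nat_lit 48) (nat_lit 57) (nat_lit 39)))) (PT.nd (nat_lit 188) (PT.nd (nat_lit 94) (PT.lf (nat_lit 13188) (nat_lit 6) (nat_lit 157) (nat_lit 2) (nat_lit 49) (nat_lit 57) (nat_lit 38)) (PT.lf (nat_lit 12348) (nat_lit 6) (nat_lit 147) (nat_lit 2) (nat_lit 50) (nat_lit 57) (nat_lit 37))) (PT.nd (nat_lit 94) (PT.lf (nat_lit 11424) (nat_lit 6) (nat_lit 136) (nat_lit 2) (nat_lit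 51) (nat_lit 57) (nat_lit 36)) (PT.lf (nat_lit 10416) (nat_lit 6) (nat_lit 124) (nat_lit 2) (nat_lit 52) (nat_lit 57) (nat_lit 35))))))))
noncomputable def pc12 : PT := (PT.nd (nat_lit 53204) (PT.nd (nat_lit 51794) (PT.nd (nat_lit 658) (PT.nd (nat_lit 282) (PT.nd (nat_lit 94) (PT.lf (nat_lit 9324) (nat_lit 6) (nat_lit 111) (nat_lit 2) (nat_lit 53) (nat_lit 57) (nat_lit 34)) (PT.nd (nat_lit 94) (PT.lf (nat_lit 8820) (nat_lit 6) (nat_lit 105) (nat_lit 2) (nat_lit 54) (nat_lit 57) (nat_lit 33)) (PT.lf (nat_lit 8232) (nat_lit 6) (nat_lit 98) (nat_lit 2) (nat_lit 55) (nat_lit 57) (nat_lit 32)))) (PT.nd (nat_lit 188) (PT.nd (nat_lit 94) (PT.lf (nat_lit 7728) (nat_lit 6) (nat_lit 92) (nat_lit 2) (nat_lit 56) (nat_lit 57) (nat_lit 31)) (PT.lf (nat_lit 7224) (nat_lit 3) (nat_lit 86) (nat_lit 0) (nat_lit 57) (nat_lit 57) (nat_lit 30))) (PT.nd (nat_lit 94) (PT.lf (nat_lit 6720) (nat_lit 6) (nat_lit 80) (nat_lit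 0) (nat_lit 58) (nat_lit 57) (nat_lit 29)) (PT.lf (nat_lit 6216) (nat_lit 6) (nat_lit 74) (nat_lit 0) (nat_lit 59) (nat_lit 57) (nat_lit 28))))) (PT.nd (nat_lit 50760) (PT.nd (nat_lit 188) (PT.nd (nat_lit 94) (PT.lf (nat_lit 5712) (nat_lit 6) (nat_lit 68) (nat_lit 0) (nat_lit 60) (nat_lit 57) (nat_lit 27)) (PT.lf (nat_lit 5208) (nat_lit 6) (nat_lit 62) (nat_lit 0) (nat_lit 61) (nat_lit 57) (nat_lit 26))) (PT.nd (nat_lit 94) (PT.lf (nat_lit 4788) (nat_lit 6) (nat_lit 57) (nat_lit 0) (nat_lit 62) (nat_lit 57) (nat_lit 25)) (PT.lf (nat_lit 4368) (nat_lit 6) (nat_lit 52) (nat_lit 0) (nat_lit 63) (nat_lit 57) (nat_lit 24)))) (PT.nd (nat_lit 188) (PT.nd (nat_lit 94) (PT.lf (nat_lit 4032) (nat_lit 6) (nat_lit 48) (nat_lit 5) (nat_lit 23) (nat_lit 58) (nat_lit 63)) (PT.lf (nat_lit 4452) (nat_lit 6) (nat_lit 53) (nat_lit 5) (nat_lit 24) (nat_lit 58) (nat_lit 62))) (PT.nd (nat_lit 94) (PT.lf (nat_lit 4872)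 (nat_lit 6) (nat_lit 58) (nat_lit 5) (nat_lit 25) (nat_lit 58) (nat_lit 61)) (PT.lf (nat_lit 5292) (nat_lit 6) (nat_lit 63) (nat_lit 5) (nat_lit 26) (nat_lit 58) (nat_lit 60)))))) (PT.nd (nat_lit 658) (PT.nd (nat_lit 282) (PT.nd (nat_lit 94) (PT.lf (nat_lit 5796) (nat_lit 6) (nat_lit 69) (nat_lit 5) (nat_lit 27) (nat_lit 58) (nat_lit 59)) (PT.nd (nat_lit 94) (PT.lf (nat_lit 6300) (nat_lit 3) (nat_lit 75) (nat_lit 4) (nat_lit 28) (nat_lit 58) (nat_lit 58)) (PT.lf (nat_lit 6720) (nat_lit 6) (nat_lit 80) (nat_lit 4) (nat_lit 29) (nat_lit 58) (nat_lit 57)))) (PT.nd (nat_lit 188) (PT.nd (nat_lit 94) (PT.lf (nat_lit 7140) (nat_lit 6) (nat_lit 85) (nat_lit 4) (nat_lit 30) (nat_lit 58) (nat_lit 56)) (PT.lf (nat_lit 7644) (nat_lit 6) (nat_lit 91) (nat_lit 4) (nat_lit 31) (nat_lit 58) (nat_lit 55))) (PT.nd (nat_lit 94) (PT.lf (nat_lit 8148) (nat_lit 6) (nat_lit 97) (nat_lit 4) (nat_lit 32) (nat_lit 58) (nat_lit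 54)) (PT.lf (nat_lit 8736) (nat_lit 6) (nat_lit 104) (nat_lit 4) (nat_lit 33) (nat_lit 58) (nat_lit 53))))) (PT.nd (nat_lit 376) (PT.nd (nat_lit 188) (PT.nd (nat_lit 94) (PT.lf (nat_lit 9240) (nat_lit 6) (nat_lit 110) (nat_lit 4) (nat_lit 34) (nat_lit 58) (nat_lit 52)) (PT.lf (nat_lit 10332) (nat_lit 6) (nat_lit 123) (nat_lit 4) (nat_lit 35) (nat_lit 58) (nat_lit 51))) (PT.nd (nat_lit 94) (PT.lf (nat_lit 11340) (nat_lit 6) (nat_lit 135) (nat_lit 4) (nat_lit 36) (nat_lit 58) (nat_lit 50)) (PT.lf (nat_lit 12264) (nat_lit 6) (nat_lit 146) (nat_lit 4) (nat_lit 37) (nat_lit 58) (nat_lit 49)))) (PT.nd (nat_lit 188) (PT.nd (nat_lit 94) (PT.lf (nat_lit 13104) (nat_lit 6) (nat_lit 156) (nat_lit 4) (nat_lit 38) (nat_lit 58) (nat_lit 48)) (PT.lf (nat_lit 13020) (nat_lit 6) (nat_lit 155) (nat_lit 4) (nat_lit 39) (nat_lit 58) (nat_lit 47))) (PT.nd (nat_lit 94) (PT.lf (nat_lit 12936) (nat_lit 6) (nat_lit 154)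 (nat_lit 4) (nat_lit 40) (nat_lit 58) (nat_lit 46)) (PT.lf (nat_lit 12852) (nat_lit 6) (nat_lit 153) (nat_lit 4) (nat_lit 41) (nat_lit 58) (nat_lit 45))))))) (PT.nd (nat_lit 1410) (PT.nd (nat_lit 658) (PT.nd (nat_lit 282) (PT.nd (nat_lit 94) (PT.lf (nat_lit 12768) (nat_lit 6) (nat_lit 152) (nat_lit 4) (nat_lit 42) (nat_lit 58) (nat_lit 44)) (PT.nd (nat_lit 94) (PT.lf (nat_lit 12684) (nat_lit 3) (nat_lit 151) (nat_lit 2) (nat_lit 43) (nat_lit 58) (nat_lit 43)) (PT.lf (nat_lit 12768) (nat_lit 6) (nat_lit 152) (nat_lit 2) (nat_lit 44) (nat_lit 58) (nat_lit 42)))) (PT.nd (nat_lit 188) (PT.nd (nat_lit 94) (PT.lf (nat_lit 12852) (nat_lit 6) (nat_lit 153) (nat_lit 2) (nat_lit 45) (nat_lit 58) (nat_lit 41)) (PT.lf (nat_lit 12936) (nat_lit 6) (nat_lit 154) (nat_lit 2) (nat_lit 46) (nat_lit 58) (nat_lit 40))) (PT.nd (nat_lit 94) (PT.lf (nat_lit 13020) (nat_lit 6) (nat_lit 155) (nat_lit 2) (nat_lit 47) (nat_lit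 58) (nat_lit 39)) (PT.lf (nat_lit 13104) (nat_lit 6) (nat_lit 156) (nat_lit 2) (nat_lit 48) (nat_lit 58) (nat_lit 38))))) (PT.nd (nat_lit 376) (PT.nd (nat_lit 188) (PT.nd (nat_lit 94) (PT.lf (nat_lit 12264) (nat_lit 6) (nat_lit 146) (nat_lit 2) (nat_lit 49) (nat_lit 58) (nat_lit 37)) (PT.lf (nat_lit 11340) (nat_lit 6) (nat_lit 135) (nat_lit 2) (nat_lit 50) (nat_lit 58) (nat_lit 36))) (PT.nd (nat_lit 94) (PT.lf (nat_lit 10332) (nat_lit 6) (nat_lit 123) (nat_lit 2) (nat_lit 51) (nat_lit 58) (nat_lit 35)) (PT.lf (nat_lit 9240) (nat_lit 6) (nat_lit 110) (nat_lit 2) (nat_lit 52) (nat_lit 58) (nat_lit 34)))) (PT.nd (nat_lit 188) (PT.nd (nat_lit 94) (PT.lf (nat_lit 8736) (nat_lit 6) (nat_lit 104) (nat_lit 2) (nat_lit 53) (nat_lit 58) (nat_lit 33)) (PT.lf (nat_lit 8148) (nat_lit 6) (nat_lit 97) (nat_lit 2) (nat_lit 54) (nat_lit 58) (nat_lit 32))) (PT.nd (nat_lit 94) (PT.lf (nat_lit 7644) (nat_lit 6) (nat_lit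 91) (nat_lit 2) (nat_lit 55) (nat_lit 58) (nat_lit 31)) (PT.lf (nat_lit 7140) (nat_lit 6) (nat_lit 85) (nat_lit 2) (nat_lit 56) (nat_lit 58) (nat_lit 30)))))) (PT.nd (nat_lit 50948) (PT.nd (nat_lit 282) (PT.nd (nat_lit 94) (PT.lf (nat_lit 6720) (nat_lit 6) (nat_lit 80) (nat_lit 2) (nat_lit 57) (nat_lit 58) (nat_lit 29)) (PT.nd (nat_lit 94) (PT.lf (nat_lit 6300) (nat_lit 3) (nat_lit 75) (nat_lit 0) (nat_lit 58) (nat_lit 58) (nat_lit 28)) (PT.lf (nat_lit 5796) (nat_lit 6) (nat_lit 69) (nat_lit 0) (nat_lit 59) (nat_lit 58) (nat_lit 27)))) (PT.nd (nat_lit 188) (PT.nd (nat_lit 94) (PT.lf (nat_lit 5292) (nat_lit 6) (nat_lit 63) (nat_lit 0) (nat_lit 60) (nat_lit 58) (nat_lit 26)) (PT.lf (nat_lit 4872) (nat_lit 6) (nat_lit 58) (nat_lit 0) (nat_lit 61) (nat_lit 58) (nat_lit 25))) (PT.nd (nat_lit 94) (PT.lf (nat_lit 4452) (nat_lit 6) (nat_lit 53) (nat_lit 0) (nat_lit 62) (nat_lit 58) (nat_lit 24)) (PT.lf (nat_lit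 4032) (nat_lit 6) (nat_lit 48) (nat_lit 0) (nat_lit 63) (nat_lit 58) (nat_lit 23))))) (PT.nd (nat_lit 376) (PT.nd (nat_lit 188) (PT.nd (nat_lit 94) (PT.lf (nat_lit 3696) (nat_lit 6) (nat_lit 44) (nat_lit 5) (nat_lit 22) (nat_lit 59) (nat_lit 63)) (PT.lf (nat_lit 4116) (nat_lit 6) (nat_lit 49) (nat_lit 5) (nat_lit 23) (nat_lit 59) (nat_lit 62))) (PT.nd (nat_lit 94) (PT.lf (nat_lit 4536) (nat_lit 6) (nat_lit 54) (nat_lit 5) (nat_lit 24) (nat_lit 59) (nat_lit 61)) (PT.lf (nat_lit 4956) (nat_lit 6) (nat_lit 59) (nat_lit 5) (nat_lit 25) (nat_lit 59) (nat_lit 60)))) (PT.nd (nat_lit 188) (PT.nd (nat_lit 94) (PT.lf (nat_lit 5376) (nat_lit 3) (nat_lit 64) (nat_lit 4) (nat_lit 26) (nat_lit 59) (nat_lit 59)) (PT.lf (nat_lit 5796) (nat_lit 6) (nat_lit 69) (nat_lit 4) (nat_lit 27) (nat_lit 59) (nat_lit 58))) (PT.nd (nat_lit 94) (PT.lf (nat_lit 6216) (nat_lit 6) (nat_lit 74) (nat_lit 4) (nat_lit 28) (nat_lit 59)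 (nat_lit 57)) (PT.lf (nat_lit 6636) (nat_lit 6) (nat_lit 79) (nat_lit 4) (nat_lit 29) (nat_lit 59) (nat_lit 56))))))))
noncomputable def pc13 : PT := (PT.nd (nat_lit 2820) (PT.nd (nat_lit 1410) (PT.nd (nat_lit 658) (PT.nd (nat_lit 282) (PT.nd (nat_lit 94) (PT.lf (nat_lit 7056) (nat_lit 6) (nat_lit 84) (nat_lit 4) (nat_lit 30) (nat_lit 59) (nat_lit 55)) (PT.nd (nat_lit 94) (PT.lf (nat_lit 7560) (nat_lit 6) (nat_lit 90) (nat_lit 4) (nat_lit 31) (nat_lit 59) (nat_lit 54)) (PT.lf (nat_lit 8064) (nat_lit 6) (nat_lit 96) (nat_lit 4) (nat_lit 32) (nat_lit 59) (nat_lit 53)))) (PT.nd (nat_lit 188) (PT.nd (nat_lit 94) (PT.lf (nat_lit 8652) (nat_lit 6) (nat_lit 103) (nat_lit 4) (nat_lit 33) (nat_lit 59) (nat_lit 52)) (PT.lf (nat_lit 9156) (nat_lit 6) (nat_lit 109) (nat_lit 4) (nat_lit 34) (nat_lit 59) (nat_lit 51))) (PT.nd (nat_lit 94) (PT.lf (nat_lit 10248) (nat_lit 6) (nat_lit 122) (nat_lit 4) (nat_lit 35)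 (nat_lit 59) (nat_lit 50)) (PT.lf (nat_lit 11256) (nat_lit 6) (nat_lit 134) (nat_lit 4) (nat_lit 36) (nat_lit 59) (nat_lit 49))))) (PT.nd (nat_lit 376) (PT.nd (nat_lit 188) (PT.nd (nat_lit 94) (PT.lf (nat_lit 12180) (nat_lit 6) (nat_lit 145) (nat_lit 4) (nat_lit 37) (nat_lit 59) (nat_lit 48)) (PT.lf (nat_lit 12096) (nat_lit 6) (nat_lit 144) (nat_lit 4) (nat_lit 38) (nat_lit 59) (nat_lit 47))) (PT.nd (nat_lit 94) (PT.lf (nat_lit 12012) (nat_lit 6) (nat_lit 143) (nat_lit 4) (nat_lit 39) (nat_lit 59) (nat_lit 46)) (PT.lf (nat_lit 11928) (nat_lit 6) (nat_lit 142) (nat_lit 4) (nat_lit 40) (nat_lit 59) (nat_lit 45)))) (PT.nd (nat_lit 188) (PT.nd (nat_lit 94) (PT.lf (nat_lit 11844) (nat_lit 6) (nat_lit 141) (nat_lit 4) (nat_lit 41) (nat_lit 59) (nat_lit 44)) (PT.lf (nat_lit 11760) (nat_lit 6) (nat_lit 140) (nat_lit 4) (nat_lit 42) (nat_lit 59) (nat_lit 43))) (PT.nd (nat_lit 94) (PT.lf (nat_lit 11760) (nat_lit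 6) (nat_lit 140) (nat_lit 2) (nat_lit 43) (nat_lit 59) (nat_lit 42)) (PT.lf (nat_lit 11844) (nat_lit 6) (nat_lit 141) (nat_lit 2) (nat_lit 44) (nat_lit 59) (nat_lit 41)))))) (PT.nd (nat_lit 658) (PT.nd (nat_lit 282) (PT.nd (nat_lit 94) (PT.lf (nat_lit 11928) (nat_lit 6) (nat_lit 142) (nat_lit 2) (nat_lit 45) (nat_lit 59) (nat_lit 40)) (PT.nd (nat_lit 94) (PT.lf (nat_lit 12012) (nat_lit 6) (nat_lit 143) (nat_lit 2) (nat_lit 46) (nat_lit 59) (nat_lit 39)) (PT.lf (nat_lit 12096) (nat_lit 6) (nat_lit 144) (nat_lit 2) (nat_lit 47) (nat_lit 59) (nat_lit 38)))) (PT.nd (nat_lit 188) (PT.nd (nat_lit 94) (PT.lf (nat_lit 12180) (nat_lit 6) (nat_lit 145) (nat_lit 2) (nat_lit 48) (nat_lit 59) (nat_lit 37)) (PT.lf (nat_lit 11256) (nat_lit 6) (nat_lit 134) (nat_lit 2) (nat_lit 49) (nat_lit 59) (nat_lit 36))) (PT.nd (nat_lit 94) (PT.lf (nat_lit 10248) (nat_lit 6) (nat_lit 122) (nat_lit 2) (nat_lit 50) (nat_lit 59)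 (nat_lit 35)) (PT.lf (nat_lit 9156) (nat_lit 6) (nat_lit 109) (nat_lit 2) (nat_lit 51) (nat_lit 59) (nat_lit 34))))) (PT.nd (nat_lit 376) (PT.nd (nat_lit 188) (PT.nd (nat_lit 94) (PT.lf (nat_lit 8652) (nat_lit 6) (nat_lit 103) (nat_lit 2) (nat_lit 52) (nat_lit 59) (nat_lit 33)) (PT.lf (nat_lit 8064) (nat_lit 6) (nat_lit 96) (nat_lit 2) (nat_lit 53) (nat_lit 59) (nat_lit 32))) (PT.nd (nat_lit 94) (PT.lf (nat_lit 7560) (nat_lit 6) (nat_lit 90) (nat_lit 2) (nat_lit 54) (nat_lit 59) (nat_lit 31)) (PT.lf (nat_lit 7056) (nat_lit 6) (nat_lit 84) (nat_lit 2) (nat_lit 55) (nat_lit 59) (nat_lit 30)))) (PT.nd (nat_lit 188) (PT.nd (nat_lit 94) (PT.lf (nat_lit 6636) (nat_lit 6) (nat_lit 79) (nat_lit 2) (nat_lit 56) (nat_lit 59) (nat_lit 29)) (PT.lf (nat_lit 6216) (nat_lit 6) (nat_lit 74) (nat_lit 2) (nat_lit 57) (nat_lit 59) (nat_lit 28))) (PT.nd (nat_lit 94) (PT.lf (nat_lit 5796) (nat_lit 6) (nat_lit 69) (nat_lit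 2) (nat_lit 58) (nat_lit 59) (nat_lit 27)) (PT.lf (nat_lit 5376) (nat_lit 3) (nat_lit 64) (nat_lit 0) (nat_lit 59) (nat_lit 59) (nat_lit 26))))))) (PT.nd (nat_lit 51512) (PT.nd (nat_lit 50760) (PT.nd (nat_lit 282) (PT.nd (nat_lit 94) (PT.lf (nat_lit 4956) (nat_lit 6) (nat_lit 59) (nat_lit 0) (nat_lit 60) (nat_lit 59) (nat_lit 25)) (PT.nd (nat_lit 94) (PT.lf (nat_lit 4536) (nat_lit 6) (nat_lit 54) (nat_lit 0) (nat_lit 61) (nat_lit 59) (nat_lit 24)) (PT.lf (nat_lit 4116) (nat_lit 6) (nat_lit 49) (nat_lit 0) (nat_lit 62) (nat_lit 59) (nat_lit 23)))) (PT.nd (nat_lit 50290) (PT.nd (nat_lit 50196) (PT.lf (nat_lit 3696) (nat_lit 6) (nat_lit 44) (nat_lit 0) (nat_lit 63) (nat_lit 59) (nat_lit 22)) (PT.lf (nat_lit 3108) (nat_lit 6) (nat_lit 37) (nat_lit 5) (nat_lit 20) (nat_lit 60) (nat_lit 64))) (PT.nd (nat_lit 94) (PT.lf (nat_lit 3444) (nat_lit 6) (nat_lit 41) (nat_lit 5) (nat_lit 21) (nat_lit 60) (nat_lit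 63)) (PT.lf (nat_lit 3780) (nat_lit 6) (nat_lit 45) (nat_lit 5) (nat_lit 22) (nat_lit 60) (nat_lit 62))))) (PT.nd (nat_lit 376) (PT.nd (nat_lit 188) (PT.nd (nat_lit 94) (PT.lf (nat_lit 4200) (nat_lit 6) (nat_lit 50) (nat_lit 5) (nat_lit 23) (nat_lit 60) (nat_lit 61)) (PT.lf (nat_lit 4620) (nat_lit 3) (nat_lit 55) (nat_lit 4) (nat_lit 24) (nat_lit 60) (nat_lit 60))) (PT.nd (nat_lit 94) (PT.lf (nat_lit 4956) (nat_lit 6) (nat_lit 59) (nat_lit 4) (nat_lit 25) (nat_lit 60) (nat_lit 59)) (PT.lf (nat_lit 5292) (nat_lit 6) (nat_lit 63) (nat_lit 4) (nat_lit 26) (nat_lit 60) (nat_lit 58)))) (PT.nd (nat_lit 188) (PT.nd (nat_lit 94) (PT.lf (nat_lit 5712) (nat_lit 6) (nat_lit 68) (nat_lit 4) (nat_lit 27) (nat_lit 60) (nat_lit 57)) (PT.lf (nat_lit 6132) (nat_lit 6) (nat_lit 73) (nat_lit 4) (nat_lit 28) (nat_lit 60) (nat_lit 56))) (PT.nd (nat_lit 94) (PT.lf (nat_lit 6552) (nat_lit 6) (nat_lit 78) (nat_lit 4) (nat_lit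 29) (nat_lit 60) (nat_lit 55)) (PT.lf (nat_lit 6972) (nat_lit 6) (nat_lit 83) (nat_lit 4) (nat_lit 30) (nat_lit 60) (nat_lit 54)))))) (PT.nd (nat_lit 658) (PT.nd (nat_lit 282) (PT.nd (nat_lit 94) (PT.lf (nat_lit 7476) (nat_lit 6) (nat_lit 89) (nat_lit 4) (nat_lit 31) (nat_lit 60) (nat_lit 53)) (PT.nd (nat_lit 94) (PT.lf (nat_lit 7980) (nat_lit 6) (nat_lit 95) (nat_lit 4) (nat_lit 32) (nat_lit 60) (nat_lit 52)) (PT.lf (nat_lit 8568) (nat_lit 6) (nat_lit 102) (nat_lit 4) (nat_lit 33) (nat_lit 60) (nat_lit 51)))) (PT.nd (nat_lit 188) (PT.nd (nat_lit 94) (PT.lf (nat_lit 9072) (nat_lit 6) (nat_lit 108) (nat_lit 4) (nat_lit 34) (nat_lit 60) (nat_lit 50)) (PT.lf (nat_lit 10164) (nat_lit 6) (nat_lit 121) (nat_lit 4) (nat_lit 35) (nat_lit 60) (nat_lit 49))) (PT.nd (nat_lit 94) (PT.lf (nat_lit 11172) (nat_lit 6) (nat_lit 133) (nat_lit 4) (nat_lit 36) (nat_lit 60) (nat_lit 48)) (PT.lf (nat_lit 11088) (nat_lit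 6) (nat_lit 132) (nat_lit 4) (nat_lit 37) (nat_lit 60) (nat_lit 47))))) (PT.nd (nat_lit 376) (PT.nd (nat_lit 188) (PT.nd (nat_lit 94) (PT.lf (nat_lit 11004) (nat_lit 6) (nat_lit 131) (nat_lit 4) (nat_lit 38) (nat_lit 60) (nat_lit 46)) (PT.lf (nat_lit 10920) (nat_lit 6) (nat_lit 130) (nat_lit 4) (nat_lit 39) (nat_lit 60) (nat_lit 45))) (PT.nd (nat_lit 94) (PT.lf (nat_lit 10836) (nat_lit 6) (nat_lit 129) (nat_lit 4) (nat_lit 40) (nat_lit 60) (nat_lit 44)) (PT.lf (nat_lit 10752) (nat_lit 6) (nat_lit 128) (nat_lit 4) (nat_lit 41) (nat_lit 60) (nat_lit 43)))) (PT.nd (nat_lit 188) (PT.nd (nat_lit 94) (PT.lf (nat_lit 10668) (nat_lit 3) (nat_lit 127) (nat_lit 2) (nat_lit 42) (nat_lit 60) (nat_lit 42)) (PT.lf (nat_lit 10752) (nat_lit 6) (nat_lit 128) (nat_lit 2) (nat_lit 43) (nat_lit 60) (nat_lit 41))) (PT.nd (nat_lit 94) (PT.lf (nat_lit 10836) (nat_lit 6) (nat_lit 129) (nat_lit 2) (nat_lit 44) (nat_lit 60)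 (nat_lit 40)) (PT.lf (nat_lit 10920) (nat_lit 6) (nat_lit 130) (nat_lit 2) (nat_lit 45) (nat_lit 60) (nat_lit 39))))))))
noncomputable def pc14 : PT := (PT.nd (nat_lit 52734) (PT.nd (nat_lit 1410) (PT.nd (nat_lit 658) (PT.nd (nat_lit 282) (PT.nd (nat_lit 94) (PT.lf (nat_lit 11004) (nat_lit 6) (nat_lit 131) (nat_lit 2) (nat_lit 46) (nat_lit 60) (nat_lit 38)) (PT.nd (nat_lit 94) (PT.lf (nat_lit 11088) (nat_lit 6) (nat_lit 132) (nat_lit 2) (nat_lit 47) (nat_lit 60) (nat_lit 37)) (PT.lf (nat_lit 11172) (nat_lit 6) (nat_lit 133) (nat_lit 2) (nat_lit 48) (nat_lit 60) (nat_lit 36)))) (PT.nd (nat_lit 188) (PT.nd (nat_lit 94) (PT.lf (nat_lit 10164) (nat_lit 6) (nat_lit 121) (nat_lit 2) (nat_lit 49) (nat_lit 60) (nat_lit 35)) (PT.lf (nat_lit 9072) (nat_lit 6) (nat_lit 108) (nat_lit 2) (nat_lit 50) (nat_lit 60) (nat_lit 34))) (PT.nd (nat_lit 94) (PT.lf (nat_lit 8568) (nat_lit 6) (nat_lit 102) (nat_lit 2) (nat_lit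 51) (nat_lit 60) (nat_lit 33)) (PT.lf (nat_lit 7980) (nat_lit 6) (nat_lit 95) (nat_lit 2) (nat_lit 52) (nat_lit 60) (nat_lit 32))))) (PT.nd (nat_lit 376) (PT.nd (nat_lit 188) (PT.nd (nat_lit 94) (PT.lf (nat_lit 7476) (nat_lit 6) (nat_lit 89) (nat_lit 2) (nat_lit 53) (nat_lit 60) (nat_lit 31)) (PT.lf (nat_lit 6972) (nat_lit 6) (nat_lit 83) (nat_lit 2) (nat_lit 54) (nat_lit 60) (nat_lit 30))) (PT.nd (nat_lit 94) (PT.lf (nat_lit 6552) (nat_lit 6) (nat_lit 78) (nat_lit 2) (nat_lit 55) (nat_lit 60) (nat_lit 29)) (PT.lf (nat_lit 6132) (nat_lit 6) (nat_lit 73) (nat_lit 2) (nat_lit 56) (nat_lit 60) (nat_lit 28)))) (PT.nd (nat_lit 188) (PT.nd (nat_lit 94) (PT.lf (nat_lit 5712) (nat_lit 6) (nat_lit 68) (nat_lit 2) (nat_lit 57) (nat_lit 60) (nat_lit 27)) (PT.lf (nat_lit 5292) (nat_lit 6) (nat_lit 63) (nat_lit 2) (nat_lit 58) (nat_lit 60) (nat_lit 26))) (PT.nd (nat_lit 94) (PT.lf (nat_lit 4956) (nat_lit 6) (nat_lit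 59) (nat_lit 2) (nat_lit 59) (nat_lit 60) (nat_lit 25)) (PT.lf (nat_lit 4620) (nat_lit 3) (nat_lit 55) (nat_lit 0) (nat_lit 60) (nat_lit 60) (nat_lit 24)))))) (PT.nd (nat_lit 50572) (PT.nd (nat_lit 282) (PT.nd (nat_lit 94) (PT.lf (nat_lit 4200) (nat_lit 6) (nat_lit 50) (nat_lit 0) (nat_lit 61) (nat_lit 60) (nat_lit 23)) (PT.nd (nat_lit 94) (PT.lf (nat_lit 3780) (nat_lit 6) (nat_lit 45) (nat_lit 0) (nat_lit 62) (nat_lit 60) (nat_lit 22)) (PT.lf (nat_lit 3444) (nat_lit 6) (nat_lit 41) (nat_lit 0) (nat_lit 63) (nat_lit 60) (nat_lit 21)))) (PT.nd (nat_lit 50102) (PT.nd (nat_lit 50008) (PT.lf (nat_lit 3108) (nat_lit 6) (nat_lit 37) (nat_lit 0) (nat_lit 64) (nat_lit 60) (nat_lit 20)) (PT.lf (nat_lit 2856) (nat_lit 6) (nat_lit 34) (nat_lit 5) (nat_lit 19) (nat_lit 61) (nat_lit 64))) (PT.nd (nat_lit 94) (PT.lf (nat_lit 3192) (nat_lit 6) (nat_lit 38) (nat_lit 5) (nat_lit 20) (nat_lit 61) (nat_lit 63)) (PT.lf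 (nat_lit 3528) (nat_lit 6) (nat_lit 42) (nat_lit 5) (nat_lit 21) (nat_lit 61) (nat_lit 62))))) (PT.nd (nat_lit 376) (PT.nd (nat_lit 188) (PT.nd (nat_lit 94) (PT.lf (nat_lit 3864) (nat_lit 3) (nat_lit 46) (nat_lit 4) (nat_lit 22) (nat_lit 61) (nat_lit 61)) (PT.lf (nat_lit 4200) (nat_lit 6) (nat_lit 50) (nat_lit 4) (nat_lit 23) (nat_lit 61) (nat_lit 60))) (PT.nd (nat_lit 94) (PT.lf (nat_lit 4536) (nat_lit 6) (nat_lit 54) (nat_lit 4) (nat_lit 24) (nat_lit 61) (nat_lit 59)) (PT.lf (nat_lit 4872) (nat_lit 6) (nat_lit 58) (nat_lit 4) (nat_lit 25) (nat_lit 61) (nat_lit 58)))) (PT.nd (nat_lit 188) (PT.nd (nat_lit 94) (PT.lf (nat_lit 5208) (nat_lit 6) (nat_lit 62) (nat_lit 4) (nat_lit 26) (nat_lit 61) (nat_lit 57)) (PT.lf (nat_lit 5628) (nat_lit 6) (nat_lit 67) (nat_lit 4) (nat_lit 27) (nat_lit 61) (nat_lit 56))) (PT.nd (nat_lit 94) (PT.lf (nat_lit 6048) (nat_lit 6) (nat_lit 72) (nat_lit 4) (nat_lit 28) (nat_lit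 61) (nat_lit 55)) (PT.lf (nat_lit 6468) (nat_lit 6) (nat_lit 77) (nat_lit 4) (nat_lit 29) (nat_lit 61) (nat_lit 54))))))) (PT.nd (nat_lit 1410) (PT.nd (nat_lit 658) (PT.nd (nat_lit 282) (PT.nd (nat_lit 94) (PT.lf (nat_lit 6888) (nat_lit 6) (nat_lit 82) (nat_lit 4) (nat_lit 30) (nat_lit 61) (nat_lit 53)) (PT.nd (nat_lit 94) (PT.lf (nat_lit 7392) (nat_lit 6) (nat_lit 88) (nat_lit 4) (nat_lit 31) (nat_lit 61) (nat_lit 52)) (PT.lf (nat_lit 7896) (nat_lit 6) (nat_lit 94) (nat_lit 4) (nat_lit 32) (nat_lit 61) (nat_lit 51)))) (PT.nd (nat_lit 188) (PT.nd (nat_lit 94) (PT.lf (nat_lit 8484) (nat_lit 6) (nat_lit 101) (nat_lit 4) (nat_lit 33) (nat_lit 61) (nat_lit 50)) (PT.lf (nat_lit 8988) (nat_lit 6) (nat_lit 107) (nat_lit 4) (nat_lit 34) (nat_lit 61) (nat_lit 49))) (PT.nd (nat_lit 94) (PT.lf (nat_lit 10080) (nat_lit 6) (nat_lit 120) (nat_lit 4) (nat_lit 35) (nat_lit 61) (nat_lit 48)) (PT.lf (nat_lit 9996)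 (nat_lit 6) (nat_lit 119) (nat_lit 4) (nat_lit 36) (nat_lit 61) (nat_lit 47))))) (PT.nd (nat_lit 376) (PT.nd (nat_lit 188) (PT.nd (nat_lit 94) (PT.lf (nat_lit 9912) (nat_lit 6) (nat_lit 118) (nat_lit 4) (nat_lit 37) (nat_lit 61) (nat_lit 46)) (PT.lf (nat_lit 9828) (nat_lit 6) (nat_lit 117) (nat_lit 4) (nat_lit 38) (nat_lit 61) (nat_lit 45))) (PT.nd (nat_lit 94) (PT.lf (nat_lit 9744) (nat_lit 6) (nat_lit 116) (nat_lit 4) (nat_lit 39) (nat_lit 61) (nat_lit 44)) (PT.lf (nat_lit 9660) (nat_lit 6) (nat_lit 115) (nat_lit 4) (nat_lit 40) (nat_lit 61) (nat_lit 43)))) (PT.nd (nat_lit 188) (PT.nd (nat_lit 94) (PT.lf (nat_lit 9576) (nat_lit 6) (nat_lit 114) (nat_lit 4) (nat_lit 41) (nat_lit 61) (nat_lit 42)) (PT.lf (nat_lit 9576) (nat_lit 6) (nat_lit 114) (nat_lit 2) (nat_lit 42) (nat_lit 61) (nat_lit 41))) (PT.nd (nat_lit 94) (PT.lf (nat_lit 9660) (nat_lit 6) (nat_lit 115) (nat_lit 2) (nat_lit 43) (nat_lit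 61) (nat_lit 40)) (PT.lf (nat_lit 9744) (nat_lit 6) (nat_lit 116) (nat_lit 2) (nat_lit 44) (nat_lit 61) (nat_lit 39)))))) (PT.nd (nat_lit 658) (PT.nd (nat_lit 282) (PT.nd (nat_lit 94) (PT.lf (nat_lit 9828) (nat_lit 6) (nat_lit 117) (nat_lit 2) (nat_lit 45) (nat_lit 61) (nat_lit 38)) (PT.nd (nat_lit 94) (PT.lf (nat_lit 9912) (nat_lit 6) (nat_lit 118) (nat_lit 2) (nat_lit 46) (nat_lit 61) (nat_lit 37)) (PT.lf (nat_lit 9996) (nat_lit 6) (nat_lit 119) (nat_lit 2) (nat_lit 47) (nat_lit 61) (nat_lit 36)))) (PT.nd (nat_lit 188) (PT.nd (nat_lit 94) (PT.lf (nat_lit 10080) (nat_lit 6) (nat_lit 120) (nat_lit 2) (nat_lit 48) (nat_lit 61) (nat_lit 35)) (PT.lf (nat_lit 8988) (nat_lit 6) (nat_lit 107) (nat_lit 2) (nat_lit 49) (nat_lit 61) (nat_lit 34))) (PT.nd (nat_lit 94) (PT.lf (nat_lit 8484) (nat_lit 6) (nat_lit 101) (nat_lit 2) (nat_lit 50) (nat_lit 61) (nat_lit 33)) (PT.lf (nat_lit 7896) (nat_lit 6) (nat_lit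 94) (nat_lit 2) (nat_lit 51) (nat_lit 61) (nat_lit 32))))) (PT.nd (nat_lit 376) (PT.nd (nat_lit 188) (PT.nd (nat_lit 94) (PT.lf (nat_lit 7392) (nat_lit 6) (nat_lit 88) (nat_lit 2) (nat_lit 52) (nat_lit 61) (nat_lit 31)) (PT.lf (nat_lit 6888) (nat_lit 6) (nat_lit 82) (nat_lit 2) (nat_lit 53) (nat_lit 61) (nat_lit 30))) (PT.nd (nat_lit 94) (PT.lf (nat_lit 6468) (nat_lit 6) (nat_lit 77) (nat_lit 2) (nat_lit 54) (nat_lit 61) (nat_lit 29)) (PT.lf (nat_lit 6048) (nat_lit 6) (nat_lit 72) (nat_lit 2) (nat_lit 55) (nat_lit 61) (nat_lit 28)))) (PT.nd (nat_lit 188) (PT.nd (nat_lit 94) (PT.lf (nat_lit 5628) (nat_lit 6) (nat_lit 67) (nat_lit 2) (nat_lit 56) (nat_lit 61) (nat_lit 27)) (PT.lf (nat_lit 5208) (nat_lit 6) (nat_lit 62) (nat_lit 2) (nat_lit 57) (nat_lit 61) (nat_lit 26))) (PT.nd (nat_lit 94) (PT.lf (nat_lit 4872) (nat_lit 6) (nat_lit 58) (nat_lit 2) (nat_lit 58) (nat_lit 61) (nat_lit 25)) (PT.lf (nat_lit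 4536) (nat_lit 6) (nat_lit 54) (nat_lit 2) (nat_lit 59) (nat_lit 61) (nat_lit 24))))))))
noncomputable def pc15 : PT := (PT.nd (nat_lit 54426) (PT.nd (nat_lit 51230) (PT.nd (nat_lit 50478) (PT.nd (nat_lit 282) (PT.nd (nat_lit 94) (PT.lf (nat_lit 4200) (nat_lit 6) (nat_lit 50) (nat_lit 2) (nat_lit 60) (nat_lit 61) (nat_lit 23)) (PT.nd (nat_lit 94) (PT.lf (nat_lit 3864) (nat_lit 3) (nat_lit 46) (nat_lit 0) (nat_lit 61) (nat_lit 61) (nat_lit 22)) (PT.lf (nat_lit 3528) (nat_lit 6) (nat_lit 42) (nat_lit 0) (nat_lit 62) (nat_lit 61) (nat_lit 21)))) (PT.nd (nat_lit 50008) (PT.nd (nat_lit 94) (PT.lf (nat_lit 3192) (nat_lit 6) (nat_lit 38) (nat_lit 0) (nat_lit 63) (nat_lit 61) (nat_lit 20)) (PT.lf (nat_lit 2856) (nat_lit 6) (nat_lit 34) (nat_lit 0) (nat_lit 64) (nat_lit 61) (nat_lit 19))) (PT.nd (nat_lit 94) (PT.lf (nat_lit 2604) (nat_lit 6) (nat_lit 31) (nat_lit 5) (nat_lit 18) (nat_lit 62) (nat_lit 64))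 (PT.lf (nat_lit 2940) (nat_lit 6) (nat_lit 35) (nat_lit 5) (nat_lit 19) (nat_lit 62) (nat_lit 63))))) (PT.nd (nat_lit 376) (PT.nd (nat_lit 188) (PT.nd (nat_lit 94) (PT.lf (nat_lit 3276) (nat_lit 3) (nat_lit 39) (nat_lit 4) (nat_lit 20) (nat_lit 62) (nat_lit 62)) (PT.lf (nat_lit 3528) (nat_lit 6) (nat_lit 42) (nat_lit 4) (nat_lit 21) (nat_lit 62) (nat_lit 61))) (PT.nd (nat_lit 94) (PT.lf (nat_lit 3780) (nat_lit 6) (nat_lit 45) (nat_lit 4) (nat_lit 22) (nat_lit 62) (nat_lit 60)) (PT.lf (nat_lit 4116) (nat_lit 6) (nat_lit 49) (nat_lit 4) (nat_lit 23) (nat_lit 62) (nat_lit 59)))) (PT.nd (nat_lit 188) (PT.nd (nat_lit 94) (PT.lf (nat_lit 4452) (nat_lit 6) (nat_lit 53) (nat_lit 4) (nat_lit 24) (nat_lit 62) (nat_lit 58)) (PT.lf (nat_lit 4788) (nat_lit 6) (nat_lit 57) (nat_lit 4) (nat_lit 25) (nat_lit 62) (nat_lit 57))) (PT.nd (nat_lit 94) (PT.lf (nat_lit 5124) (nat_lit 6) (nat_lit 61) (nat_lit 4) (nat_lit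 26) (nat_lit 62) (nat_lit 56)) (PT.lf (nat_lit 5544) (nat_lit 6) (nat_lit 66) (nat_lit 4) (nat_lit 27) (nat_lit 62) (nat_lit 55)))))) (PT.nd (nat_lit 2444) (PT.nd (nat_lit 282) (PT.nd (nat_lit 94) (PT.lf (nat_lit 5964) (nat_lit 6) (nat_lit 71) (nat_lit 4) (nat_lit 28) (nat_lit 62) (nat_lit 54)) (PT.nd (nat_lit 94) (PT.lf (nat_lit 6384) (nat_lit 6) (nat_lit 76) (nat_lit 4) (nat_lit 29) (nat_lit 62) (nat_lit 53)) (PT.lf (nat_lit 6804) (nat_lit 6) (nat_lit 81) (nat_lit 4) (nat_lit 30) (nat_lit 62) (nat_lit 52)))) (PT.nd (nat_lit 1974) (PT.nd (nat_lit 1880) (PT.lf (nat_lit 7308) (nat_lit 6) (nat_lit 87) (nat_lit 4) (nat_lit 31) (nat_lit 62) (nat_lit 51)) (PT.lf (nat_lit 7308) (nat_lit 6) (nat_lit 87) (nat_lit 2) (nat_lit 51) (nat_lit 62) (nat_lit 31))) (PT.nd (nat_lit 94) (PT.lf (nat_lit 6804) (nat_lit 6) (nat_lit 81) (nat_lit 2) (nat_lit 52) (nat_lit 62) (nat_lit 30)) (PT.lf (nat_lit 6384) (nat_lit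 6) (nat_lit 76) (nat_lit 2) (nat_lit 53) (nat_lit 62) (nat_lit 29))))) (PT.nd (nat_lit 376) (PT.nd (nat_lit 188) (PT.nd (nat_lit 94) (PT.lf (nat_lit 5964) (nat_lit 6) (nat_lit 71) (nat_lit 2) (nat_lit 54) (nat_lit 62) (nat_lit 28)) (PT.lf (nat_lit 5544) (nat_lit 6) (nat_lit 66) (nat_lit 2) (nat_lit 55) (nat_lit 62) (nat_lit 27))) (PT.nd (nat_lit 94) (PT.lf (nat_lit 5124) (nat_lit 6) (nat_lit 61) (nat_lit 2) (nat_lit 56) (nat_lit 62) (nat_lit 26)) (PT.lf (nat_lit 4788) (nat_lit 6) (nat_lit 57) (nat_lit 2) (nat_lit 57) (nat_lit 62) (nat_lit 25)))) (PT.nd (nat_lit 188) (PT.nd (nat_lit 94) (PT.lf (nat_lit 4452) (nat_lit 6) (nat_lit 53) (nat_lit 2) (nat_lit 58) (nat_lit 62) (nat_lit 24)) (PT.lf (nat_lit 4116) (nat_lit 6) (nat_lit 49) (nat_lit 2) (nat_lit 59) (nat_lit 62) (nat_lit 23))) (PT.nd (nat_lit 94) (PT.lf (nat_lit 3780) (nat_lit 6) (nat_lit 45) (nat_lit 2) (nat_lit 60) (nat_lit 62) (nat_lit 22))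 (PT.lf (nat_lit 3528) (nat_lit 6) (nat_lit 42) (nat_lit 2) (nat_lit 61) (nat_lit 62) (nat_lit 21))))))) (PT.nd (nat_lit 54050) (PT.nd (nat_lit 50478) (PT.nd (nat_lit 50102) (PT.nd (nat_lit 94) (PT.lf (nat_lit 3276) (nat_lit 3) (nat_lit 39) (nat_lit 0) (nat_lit 62) (nat_lit 62) (nat_lit 20)) (PT.nd (nat_lit 94) (PT.lf (nat_lit 2940) (nat_lit 6) (nat_lit 35) (nat_lit 0) (nat_lit 63) (nat_lit 62) (nat_lit 19)) (PT.lf (nat_lit 2604) (nat_lit 6) (nat_lit 31) (nat_lit 0) (nat_lit 64) (nat_lit 62) (nat_lit 18)))) (PT.nd (nat_lit 188) (PT.nd (nat_lit 94) (PT.lf (nat_lit 2688) (nat_lit 3) (nat_lit 32) (nat_lit 4) (nat_lit 18) (nat_lit 63) (nat_lit 63)) (PT.lf (nat_lit 2940) (nat_lit 6) (nat_lit 35) (nat_lit 4) (nat_lit 19) (nat_lit 63) (nat_lit 62))) (PT.nd (nat_lit 94) (PT.lf (nat_lit 3192) (nat_lit 6) (nat_lit 38) (nat_lit 4) (nat_lit 20) (nat_lit 63) (nat_lit 61)) (PT.lf (nat_lit 3444) (nat_lit 6) (nat_lit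 41) (nat_lit 4) (nat_lit 21) (nat_lit 63) (nat_lit 60))))) (PT.nd (nat_lit 3196) (PT.nd (nat_lit 188) (PT.nd (nat_lit 94) (PT.lf (nat_lit 3696) (nat_lit 6) (nat_lit 44) (nat_lit 4) (nat_lit 22) (nat_lit 63) (nat_lit 59)) (PT.lf (nat_lit 4032) (nat_lit 6) (nat_lit 48) (nat_lit 4) (nat_lit 23) (nat_lit 63) (nat_lit 58))) (PT.nd (nat_lit 94) (PT.lf (nat_lit 4368) (nat_lit 6) (nat_lit 52) (nat_lit 4) (nat_lit 24) (nat_lit 63) (nat_lit 57)) (PT.lf (nat_lit 4704) (nat_lit 6) (nat_lit 56) (nat_lit 4) (nat_lit 25) (nat_lit 63) (nat_lit 56)))) (PT.nd (nat_lit 188) (PT.nd (nat_lit 94) (PT.lf (nat_lit 4704) (nat_lit 6) (nat_lit 56) (nat_lit 2) (nat_lit 56) (nat_lit 63) (nat_lit 25)) (PT.lf (nat_lit 4368) (nat_lit 6) (nat_lit 52) (nat_lit 2) (nat_lit 57) (nat_lit 63) (nat_lit 24))) (PT.nd (nat_lit 94) (PT.lf (nat_lit 4032) (nat_lit 6) (nat_lit 48) (nat_lit 2) (nat_lit 58) (nat_lit 63) (nat_lit 23)) (PT.lf (nat_lit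 3696) (nat_lit 6) (nat_lit 44) (nat_lit 2) (nat_lit 59) (nat_lit 63) (nat_lit 22)))))) (PT.nd (nat_lit 54332) (PT.nd (nat_lit 50290) (PT.nd (nat_lit 188) (PT.nd (nat_lit 94) (PT.lf (nat_lit 3444) (nat_lit 6) (nat_lit 41) (nat_lit 2) (nat_lit 60) (nat_lit 63) (nat_lit 21)) (PT.lf (nat_lit 3192) (nat_lit 6) (nat_lit 38) (nat_lit 2) (nat_lit 61) (nat_lit 63) (nat_lit 20))) (PT.nd (nat_lit 94) (PT.lf (nat_lit 2940) (nat_lit 6) (nat_lit 35) (nat_lit 2) (nat_lit 62) (nat_lit 63) (nat_lit 19)) (PT.lf (nat_lit 2688) (nat_lit 3) (nat_lit 32) (nat_lit 0) (nat_lit 63) (nat_lit 63) (nat_lit 18)))) (PT.nd (nat_lit 188) (PT.nd (nat_lit 94) (PT.lf (nat_lit 2604) (nat_lit 6) (nat_lit 31) (nat_lit 4) (nat_lit 18) (nat_lit 64) (nat_lit 62)) (PT.lf (nat_lit 2856) (nat_lit 6) (nat_lit 34) (nat_lit 4) (nat_lit 19) (nat_lit 64) (nat_lit 61))) (PT.nd (nat_lit 3760) (PT.lf (nat_lit 3108) (nat_lit 6) (nat_lit 37) (nat_lit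 4) (nat_lit 20) (nat_lit 64) (nat_lit 60)) (PT.lf (nat_lit 3108) (nat_lit 6) (nat_lit 37) (nat_lit 2) (nat_lit 60) (nat_lit 64) (nat_lit 20))))) (PT.nd (nat_lit 326274) (PT.nd (nat_lit 319976) (PT.nd (nat_lit 94) (PT.lf (nat_lit 2856) (nat_lit 6) (nat_lit 34) (nat_lit 2) (nat_lit 61) (nat_lit 64) (nat_lit 19)) (PT.lf (nat_lit 2604) (nat_lit 6) (nat_lit 31) (nat_lit 2) (nat_lit 62) (nat_lit 64) (nat_lit 18))) (PT.nd (nat_lit 94) (PT.lf (nat_lit 84) (nat_lit 6) (nat_lit 1) (nat_lit 5) (nat_lit 3) (nat_lit 70) (nat_lit 71)) (PT.lf (nat_lit 168) (nat_lit 3) (nat_lit 2) (nat_lit 4) (nat_lit 4) (nat_lit 70) (nat_lit 70)))) (PT.nd (nat_lit 47940) (PT.nd (nat_lit 94) (PT.lf (nat_lit 168) (nat_lit 3) (nat_lit 2) (nat_lit 0) (nat_lit 70) (nat_lit 70) (nat_lit 4)) (PT.lf (nat_lit 84) (nat_lit 6) (nat_lit 1) (nat_lit 0) (nat_lit 71) (nat_lit 70) (nat_lit 3))) (PT.nd (nat_lit 6298) (PT.lf (nat_lit 84) (nat_lit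 6) (nat_lit 1) (nat_lit 4) (nat_lit 3) (nat_lit 71) (nat_lit 70)) (PT.lf (nat_lit 84) (nat_lit 6) (nat_lit 1) (nat_lit 2) (nat_lit 70) (nat_lit 71) (nat_lit 3))))))))
noncomputable def xc0 : XT := (XT.nd (nat_lit 162244) (nat_lit 0) (nat_lit 0) (XT.nd (nat_lit 108100) (nat_lit 0) (nat_lit 0) (XT.nd (nat_lit 54144) (nat_lit 0) (nat_lit 0) (XT.nd (nat_lit 188) (nat_lit 252) (nat_lit 0) (XT.nd (nat_lit 94) (nat_lit 0) (nat_lit 0) (XT.lf (nat_lit 0) (nat_lit 1004122622) (nat_lit 336) (nat_lit 3577379606) (nat_lit 0) (nat_lit 1004122622) (nat_lit 35) (nat_lit 5) (nat_lit 39) (nat_lit 4) (nat_lit 35) (nat_lit 4) (nat_lit 342) (nat_lit 261) (nat_lit 261)) (XT.lf (nat_lit 0) (nat_lit 5091487172) (nat_lit 336) (nat_lit 1936976437) (nat_lit 0) (nat_lit 4361749850) (nat_lit 35) (nat_lit 5) (nat_lit 39) (nat_lit 4) (nat_lit 35) (nat_lit 4) (nat_lit 343) (nat_lit 261) (nat_lit 260))) (XT.nd (nat_lit 53862) (nat_lit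 0) (nat_lit 588) (XT.lf (nat_lit 0) (nat_lit 3402627091) (nat_lit 252) (nat_lit 4826182165) (nat_lit 252) (nat_lit 3388649187) (nat_lit 32) (nat_lit 4) (nat_lit 35) (nat_lit 5) (nat_lit 35) (nat_lit 4) (nat_lit 344) (nat_lit 261) (nat_lit 259)) (XT.lf (nat_lit 0) (nat_lit 2094119055) (nat_lit 252) (nat_lit 1641707079) (nat_lit 252) (nat_lit 1641707079) (nat_lit 39) (nat_lit 4) (nat_lit 42) (nat_lit 5) (nat_lit 42) (nat_lit 4) (nat_lit 340) (nat_lit 262) (nat_lit 262)))) (XT.nd (nat_lit 188) (nat_lit 252) (nat_lit 0) (XT.nd (nat_lit 94) (nat_lit 336) (nat_lit 0) (XT.lf (nat_lit 0) (nat_lit 9611632736) (nat_lit 252) (nat_lit 1062308264) (nat_lit 252) (nat_lit 286625950) (nat_lit 39) (nat_lit 4) (nat_lit 42) (nat_lit 5) (nat_lit 42) (nat_lit 4) (nat_lit 341) (nat_lit 262) (nat_lit 261)) (XT.lf (nat_lit 0) (nat_lit 2722402689) (nat_lit 336) (nat_lit 7209830078) (nat_lit 0) (nat_lit 1240306189) (nat_lit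 35) (nat_lit 5) (nat_lit 39) (nat_lit 4) (nat_lit 35) (nat_lit 4) (nat_lit 342) (nat_lit 262) (nat_lit 260))) (XT.nd (nat_lit 94) (nat_lit 252) (nat_lit 0) (XT.lf (nat_lit 0) (nat_lit 5768591527) (nat_lit 336) (nat_lit 2045462303) (nat_lit 0) (nat_lit 3578699371) (nat_lit 35) (nat_lit 5) (nat_lit 39) (nat_lit 4) (nat_lit 35) (nat_lit 4) (nat_lit 343) (nat_lit 262) (nat_lit 259)) (XT.lf (nat_lit 0) (nat_lit 3239036312) (nat_lit 252) (nat_lit 5629315479) (nat_lit 252) (nat_lit 2752909592) (nat_lit 32) (nat_lit 4) (nat_lit 35) (nat_lit 5) (nat_lit 35) (nat_lit 4) (nat_lit 344) (nat_lit 262) (nat_lit 258))))) (XT.nd (nat_lit 376) (nat_lit 504) (nat_lit 0) (XT.nd (nat_lit 188) (nat_lit 336) (nat_lit 0) (XT.nd (nat_lit 94) (nat_lit 0) (nat_lit 0) (XT.lf (nat_lit 0) (nat_lit 1015153771) (nat_lit 336) (nat_lit 3153071183) (nat_lit 0) (nat_lit 1015153771) (nat_lit 42) (nat_lit 5) (nat_lit 46) (nat_lit 4)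 (nat_lit 42) (nat_lit 4) (nat_lit 338) (nat_lit 263) (nat_lit 263)) (XT.lf (nat_lit 0) (nat_lit 5101864621) (nat_lit 336) (nat_lit 1153932877) (nat_lit 0) (nat_lit 4302136156) (nat_lit 42) (nat_lit 5) (nat_lit 46) (nat_lit 4) (nat_lit 42) (nat_lit 4) (nat_lit 339) (nat_lit 263) (nat_lit 262))) (XT.nd (nat_lit 94) (nat_lit 84) (nat_lit 0) (XT.lf (nat_lit 0) (nat_lit 4134645578) (nat_lit 252) (nat_lit 4098563283) (nat_lit 252) (nat_lit 2523152505) (nat_lit 39) (nat_lit 4) (nat_lit 42) (nat_lit 5) (nat_lit 42) (nat_lit 4) (nat_lit 340) (nat_lit 263) (nat_lit 261)) (XT.lf (nat_lit 0) (nat_lit 426584129) (nat_lit 336) (nat_lit 1461377589) (nat_lit 84) (nat_lit 9075022291) (nat_lit 38) (nat_lit 5) (nat_lit 42) (nat_lit 5) (nat_lit 39) (nat_lit 4) (nat_lit 341) (nat_lit 263) (nat_lit 260)))) (XT.nd (nat_lit 188) (nat_lit 252) (nat_lit 0) (XT.nd (nat_lit 94) (nat_lit 0) (nat_lit 0) (XT.lf (nat_lit 0) (nat_lit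 3383444191) (nat_lit 336) (nat_lit 7375094006) (nat_lit 0) (nat_lit 417869722) (nat_lit 35) (nat_lit 5) (nat_lit 39) (nat_lit 4) (nat_lit 35) (nat_lit 4) (nat_lit 342) (nat_lit 263) (nat_lit 259)) (XT.lf (nat_lit 0) (nat_lit 6393694049) (nat_lit 336) (nat_lit 2262535154) (nat_lit 0) (nat_lit 2741605849) (nat_lit 35) (nat_lit 5) (nat_lit 39) (nat_lit 4) (nat_lit 35) (nat_lit 4) (nat_lit 343) (nat_lit 263) (nat_lit 258))) (XT.nd (nat_lit 53486) (nat_lit 0) (nat_lit 1176) (XT.lf (nat_lit 0) (nat_lit 2966215593) (nat_lit 252) (nat_lit 6489673934) (nat_lit 252) (nat_lit 2171714026) (nat_lit 32) (nat_lit 4) (nat_lit 35) (nat_lit 5) (nat_lit 35) (nat_lit 4) (nat_lit 344) (nat_lit 263) (nat_lit 257)) (XT.lf (nat_lit 0) (nat_lit 1831005288) (nat_lit 336) (nat_lit 1585484622) (nat_lit 336) (nat_lit 1585484622) (nat_lit 46) (nat_lit 4) (nat_lit 50) (nat_lit 5) (nat_lit 50) (nat_lit 4) (nat_lit 336) (nat_lit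 264) (nat_lit 264)))))) (XT.nd (nat_lit 53956) (nat_lit 0) (nat_lit 252) (XT.nd (nat_lit 376) (nat_lit 588) (nat_lit 0) (XT.nd (nat_lit 188) (nat_lit 252) (nat_lit 0) (XT.nd (nat_lit 94) (nat_lit 336) (nat_lit 0) (XT.lf (nat_lit 0) (nat_lit 8969418659) (nat_lit 336) (nat_lit 1031914744) (nat_lit 336) (nat_lit 181834575) (nat_lit 46) (nat_lit 4) (nat_lit 50) (nat_lit 5) (nat_lit 50) (nat_lit 4) (nat_lit 337) (nat_lit 264) (nat_lit 263)) (XT.lf (nat_lit 0) (nat_lit 2816020514) (nat_lit 336) (nat_lit 6360283025) (nat_lit 0) (nat_lit 1191772002) (nat_lit 42) (nat_lit 5) (nat_lit 46) (nat_lit 4) (nat_lit 42) (nat_lit 4) (nat_lit 338) (nat_lit 264) (nat_lit 262))) (XT.nd (nat_lit 94) (nat_lit 252) (nat_lit 0) (XT.lf (nat_lit 0) (nat_lit 5849937364) (nat_lit 336) (nat_lit 1260586299) (nat_lit 0) (nat_lit 3450006539) (nat_lit 42) (nat_lit 5) (nat_lit 46) (nat_lit 4) (nat_lit 42) (nat_lit 4) (nat_lit 339)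 (nat_lit 264) (nat_lit 261)) (XT.lf (nat_lit 0) (nat_lit 3973818024) (nat_lit 252) (nat_lit 4969359684) (nat_lit 252) (nat_lit 1817069680) (nat_lit 39) (nat_lit 4) (nat_lit 42) (nat_lit 5) (nat_lit 42) (nat_lit 4) (nat_lit 340) (nat_lit 264) (nat_lit 260)))) (XT.nd (nat_lit 188) (nat_lit 252) (nat_lit 0) (XT.nd (nat_lit 94) (nat_lit 252) (nat_lit 0) (XT.lf (nat_lit 0) (nat_lit 1082059902) (nat_lit 336) (nat_lit 1684363662) (nat_lit 84) (nat_lit 8201458986) (nat_lit 38) (nat_lit 5) (nat_lit 42) (nat_lit 5) (nat_lit 39) (nat_lit 4) (nat_lit 341) (nat_lit 264) (nat_lit 259)) (XT.lf (nat_lit 0) (nat_lit 3527355468) (nat_lit 252) (nat_lit 469285816) (nat_lit 336) (nat_lit 7186074596) (nat_lit 35) (nat_lit 5) (nat_lit 38) (nat_lit 5) (nat_lit 39) (nat_lit 4) (nat_lit 342) (nat_lit 264) (nat_lit 258))) (XT.nd (nat_lit 94) (nat_lit 252) (nat_lit 0) (XT.lf (nat_lit 0) (nat_lit 6967377398) (nat_lit 336) (nat_lit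 2588397326) (nat_lit 0) (nat_lit 1849689026) (nat_lit 35) (nat_lit 5) (nat_lit 39) (nat_lit 4) (nat_lit 35) (nat_lit 4) (nat_lit 343) (nat_lit 264) (nat_lit 257)) (XT.lf (nat_lit 0) (nat_lit 2583910636) (nat_lit 252) (nat_lit 7408059475) (nat_lit 252) (nat_lit 1644520755) (nat_lit 32) (nat_lit 4) (nat_lit 35) (nat_lit 5) (nat_lit 35) (nat_lit 4) (nat_lit 344) (nat_lit 264) (nat_lit 256))))) (XT.nd (nat_lit 376) (nat_lit 840) (nat_lit 0) (XT.nd (nat_lit 188) (nat_lit 420) (nat_lit 0) (XT.nd (nat_lit 94) (nat_lit 0) (nat_lit 0) (XT.lf (nat_lit 0) (nat_lit 766530255) (nat_lit 420) (nat_lit 3299895637) (nat_lit 0) (nat_lit 766530255) (nat_lit 50) (nat_lit 5) (nat_lit 55) (nat_lit 4) (nat_lit 50) (nat_lit 4) (nat_lit 334) (nat_lit 265) (nat_lit 265)) (XT.lf (nat_lit 0) (nat_lit 4575647829) (nat_lit 420) (nat_lit 1557377816) (nat_lit 0) (nat_lit 3699215175) (nat_lit 50) (nat_lit 5) (nat_lit 55) (nat_lit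 4) (nat_lit 50) (nat_lit 4) (nat_lit 335) (nat_lit 265) (nat_lit 264))) (XT.nd (nat_lit 94) (nat_lit 84) (nat_lit 0) (XT.lf (nat_lit 0) (nat_lit 3609427148) (nat_lit 336) (nat_lit 4061180009) (nat_lit 336) (nat_lit 2334667187) (nat_lit 46) (nat_lit 4) (nat_lit 50) (nat_lit 5) (nat_lit 50) (nat_lit 4) (nat_lit 336) (nat_lit 265) (nat_lit 263)) (XT.lf (nat_lit 0) (nat_lit 603141696) (nat_lit 420) (nat_lit 1326052084) (nat_lit 84) (nat_lit 8256395616) (nat_lit 45) (nat_lit 5) (nat_lit 50) (nat_lit 5) (nat_lit 46) (nat_lit 4) (nat_lit 337) (nat_lit 265) (nat_lit 262)))) (XT.nd (nat_lit 188) (nat_lit 588) (nat_lit 0) (XT.nd (nat_lit 94) (nat_lit 0) (nat_lit 0) (XT.lf (nat_lit 0) (nat_lit 3549643284) (nat_lit 336) (nat_lit 6522755466) (nat_lit 0) (nat_lit 299632290) (nat_lit 42) (nat_lit 5) (nat_lit 46) (nat_lit 4) (nat_lit 42) (nat_lit 4) (nat_lit 338) (nat_lit 265) (nat_lit 261)) (XT.lf (nat_lit 0) (nat_lit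 6547051668) (nat_lit 336) (nat_lit 1473992555) (nat_lit 0) (nat_lit 2544681495) (nat_lit 42) (nat_lit 5) (nat_lit 46) (nat_lit 4) (nat_lit 42) (nat_lit 4) (nat_lit 339) (nat_lit 265) (nat_lit 260))) (XT.nd (nat_lit 94) (nat_lit 336) (nat_lit 0) (XT.lf (nat_lit 0) (nat_lit 3705605542) (nat_lit 252) (nat_lit 5896615035) (nat_lit 252) (nat_lit 1164507541) (nat_lit 39) (nat_lit 4) (nat_lit 42) (nat_lit 5) (nat_lit 42) (nat_lit 4) (nat_lit 340) (nat_lit 265) (nat_lit 259)) (XT.nd (nat_lit 94) (nat_lit 252) (nat_lit 0) (XT.lf (nat_lit 0) (nat_lit 1686187215) (nat_lit 336) (nat_lit 2015256916) (nat_lit 84) (nat_lit 7273911155) (nat_lit 38) (nat_lit 5) (nat_lit 42) (nat_lit 5) (nat_lit 39) (nat_lit 4) (nat_lit 341) (nat_lit 265) (nat_lit 258)) (XT.lf (nat_lit 0) (nat_lit 3140435262) (nat_lit 252) (nat_lit 1422268894) (nat_lit 336) (nat_lit 6628760266) (nat_lit 35) (nat_lit 5) (nat_lit 38) (nat_lit 5) (nat_lit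 39) (nat_lit 4) (nat_lit 342) (nat_lit 265) (nat_lit 257))))))))
noncomputable def xc1 : XT := (XT.nd (nat_lit 107348) (nat_lit 0) (nat_lit 0) (XT.nd (nat_lit 53768) (nat_lit 0) (nat_lit 0) (XT.nd (nat_lit 53392) (nat_lit 0) (nat_lit 1092) (XT.nd (nat_lit 53204) (nat_lit 0) (nat_lit 1932) (XT.nd (nat_lit 94) (nat_lit 252) (nat_lit 0) (XT.lf (nat_lit 0) (nat_lit 7490176307) (nat_lit 336) (nat_lit 3023352556) (nat_lit 0) (nat_lit 902117541) (nat_lit 35) (nat_lit 5) (nat_lit 39) (nat_lit 4) (nat_lit 35) (nat_lit 4) (nat_lit 343) (nat_lit 265) (nat_lit 256)) (XT.lf (nat_lit 0) (nat_lit 2091765092) (nat_lit 252) (nat_lit 8385328133) (nat_lit 252) (nat_lit 1170838380) (nat_lit 32) (nat_lit 4) (nat_lit 35) (nat_lit 5) (nat_lit 35) (nat_lit 4) (nat_lit 344) (nat_lit 265) (nat_lit 255))) (XT.nd (nat_lit 94) (nat_lit 0) (nat_lit 0) (XT.lf (nat_lit 0) (nat_lit 1141827389) (nat_lit 336) (nat_lit 1766656804)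 (nat_lit 336) (nat_lit 1766656804) (nat_lit 55) (nat_lit 4) (nat_lit 59) (nat_lit 5) (nat_lit 59) (nat_lit 4) (nat_lit 332) (nat_lit 266) (nat_lit 266)) (XT.lf (nat_lit 0) (nat_lit 7439100378) (nat_lit 336) (nat_lit 1499233080) (nat_lit 336) (nat_lit 567619350) (nat_lit 55) (nat_lit 4) (nat_lit 59) (nat_lit 5) (nat_lit 59) (nat_lit 4) (nat_lit 333) (nat_lit 266) (nat_lit 265)))) (XT.nd (nat_lit 188) (nat_lit 420) (nat_lit 0) (XT.nd (nat_lit 94) (nat_lit 0) (nat_lit 0) (XT.lf (nat_lit 0) (nat_lit 2397192101) (nat_lit 420) (nat_lit 6652912507) (nat_lit 0) (nat_lit 617157381) (nat_lit 50) (nat_lit 5) (nat_lit 55) (nat_lit 4) (nat_lit 50) (nat_lit 4) (nat_lit 334) (nat_lit 266) (nat_lit 264)) (XT.lf (nat_lit 0) (nat_lit 5401495736) (nat_lit 420) (nat_lit 1662023039) (nat_lit 0) (nat_lit 2771380847) (nat_lit 50) (nat_lit 5) (nat_lit 55) (nat_lit 4) (nat_lit 50) (nat_lit 4) (nat_lit 335) (nat_lit 266)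 (nat_lit 263))) (XT.nd (nat_lit 94) (nat_lit 84) (nat_lit 0) (XT.lf (nat_lit 0) (nat_lit 3451627849) (nat_lit 336) (nat_lit 5006129254) (nat_lit 336) (nat_lit 1551494318) (nat_lit 46) (nat_lit 4) (nat_lit 50) (nat_lit 5) (nat_lit 50) (nat_lit 4) (nat_lit 336) (nat_lit 266) (nat_lit 262)) (XT.lf (nat_lit 0) (nat_lit 1333542435) (nat_lit 420) (nat_lit 1545938715) (nat_lit 84) (nat_lit 7311102870) (nat_lit 45) (nat_lit 5) (nat_lit 50) (nat_lit 5) (nat_lit 46) (nat_lit 4) (nat_lit 337) (nat_lit 266) (nat_lit 261))))) (XT.nd (nat_lit 376) (nat_lit 504) (nat_lit 0) (XT.nd (nat_lit 188) (nat_lit 336) (nat_lit 0) (XT.nd (nat_lit 94) (nat_lit 0) (nat_lit 0) (XT.lf (nat_lit 0) (nat_lit 3578163744) (nat_lit 252) (nat_lit 660245639) (nat_lit 336) (nat_lit 6140015210) (nat_lit 42) (nat_lit 5) (nat_lit 45) (nat_lit 5) (nat_lit 46) (nat_lit 4) (nat_lit 338) (nat_lit 266) (nat_lit 260)) (XT.lf (nat_lit 0) (nat_lit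 7193857315) (nat_lit 336) (nat_lit 1794350561) (nat_lit 0) (nat_lit 1585317168) (nat_lit 42) (nat_lit 5) (nat_lit 46) (nat_lit 4) (nat_lit 42) (nat_lit 4) (nat_lit 339) (nat_lit 266) (nat_lit 259))) (XT.nd (nat_lit 94) (nat_lit 84) (nat_lit 0) (XT.lf (nat_lit 0) (nat_lit 3329758130) (nat_lit 252) (nat_lit 6881193635) (nat_lit 252) (nat_lit 564857831) (nat_lit 39) (nat_lit 4) (nat_lit 42) (nat_lit 5) (nat_lit 42) (nat_lit 4) (nat_lit 340) (nat_lit 266) (nat_lit 258)) (XT.lf (nat_lit 0) (nat_lit 2239529176) (nat_lit 336) (nat_lit 2454365777) (nat_lit 84) (nat_lit 6291514224) (nat_lit 38) (nat_lit 5) (nat_lit 42) (nat_lit 5) (nat_lit 39) (nat_lit 4) (nat_lit 341) (nat_lit 266) (nat_lit 257)))) (XT.nd (nat_lit 188) (nat_lit 252) (nat_lit 0) (XT.nd (nat_lit 94) (nat_lit 0) (nat_lit 0) (XT.lf (nat_lit 0) (nat_lit 2644554349) (nat_lit 252) (nat_lit 2433375533) (nat_lit 336) (nat_lit 6124862965) (nat_lit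 35) (nat_lit 5) (nat_lit 38) (nat_lit 5) (nat_lit 39) (nat_lit 4) (nat_lit 342) (nat_lit 266) (nat_lit 256)) (XT.lf (nat_lit 0) (nat_lit 7859521653) (nat_lit 252) (nat_lit 104089002) (nat_lit 336) (nat_lit 3464749842) (nat_lit 35) (nat_lit 5) (nat_lit 38) (nat_lit 5) (nat_lit 39) (nat_lit 4) (nat_lit 343) (nat_lit 266) (nat_lit 255))) (XT.nd (nat_lit 52922) (nat_lit 0) (nat_lit 2268) (XT.lf (nat_lit 0) (nat_lit 1489320231) (nat_lit 252) (nat_lit 9422390826) (nat_lit 252) (nat_lit 750225379) (nat_lit 32) (nat_lit 4) (nat_lit 35) (nat_lit 5) (nat_lit 35) (nat_lit 4) (nat_lit 344) (nat_lit 266) (nat_lit 254)) (XT.lf (nat_lit 0) (nat_lit 349121287) (nat_lit 420) (nat_lit 3830291401) (nat_lit 0) (nat_lit 349121287) (nat_lit 59) (nat_lit 5) (nat_lit 64) (nat_lit 4) (nat_lit 59) (nat_lit 4) (nat_lit 330) (nat_lit 267) (nat_lit 267)))))) (XT.nd (nat_lit 752) (nat_lit 840) (nat_lit 0) (XT.nd (nat_lit 376)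 (nat_lit 672) (nat_lit 0) (XT.nd (nat_lit 188) (nat_lit 420) (nat_lit 0) (XT.nd (nat_lit 94) (nat_lit 336) (nat_lit 0) (XT.lf (nat_lit 0) (nat_lit 3700095325) (nat_lit 420) (nat_lit 2761404536) (nat_lit 0) (nat_lit 2739601569) (nat_lit 59) (nat_lit 5) (nat_lit 64) (nat_lit 4) (nat_lit 59) (nat_lit 4) (nat_lit 331) (nat_lit 267) (nat_lit 266)) (XT.lf (nat_lit 0) (nat_lit 2232177240) (nat_lit 336) (nat_lit 4505785386) (nat_lit 336) (nat_lit 2613677900) (nat_lit 55) (nat_lit 4) (nat_lit 59) (nat_lit 5) (nat_lit 59) (nat_lit 4) (nat_lit 332) (nat_lit 267) (nat_lit 265))) (XT.nd (nat_lit 94) (nat_lit 336) (nat_lit 0) (XT.lf (nat_lit 0) (nat_lit 306092926) (nat_lit 420) (nat_lit 2174034818) (nat_lit 84) (nat_lit 7028405214) (nat_lit 54) (nat_lit 5) (nat_lit 59) (nat_lit 5) (nat_lit 55) (nat_lit 4) (nat_lit 333) (nat_lit 267) (nat_lit 264)) (XT.lf (nat_lit 0) (nat_lit 2855319010) (nat_lit 336) (nat_lit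 358595916) (nat_lit 420) (nat_lit 6457287121) (nat_lit 50) (nat_lit 5) (nat_lit 54) (nat_lit 5) (nat_lit 55) (nat_lit 4) (nat_lit 334) (nat_lit 267) (nat_lit 263)))) (XT.nd (nat_lit 188) (nat_lit 336) (nat_lit 0) (XT.nd (nat_lit 94) (nat_lit 336) (nat_lit 0) (XT.lf (nat_lit 0) (nat_lit 6177528672) (nat_lit 420) (nat_lit 1871411026) (nat_lit 0) (nat_lit 1791280006) (nat_lit 50) (nat_lit 5) (nat_lit 55) (nat_lit 4) (nat_lit 50) (nat_lit 4) (nat_lit 335) (nat_lit 267) (nat_lit 262)) (XT.lf (nat_lit 0) (nat_lit 3188465594) (nat_lit 336) (nat_lit 6006697769) (nat_lit 336) (nat_lit 820720638) (nat_lit 46) (nat_lit 4) (nat_lit 50) (nat_lit 5) (nat_lit 50) (nat_lit 4) (nat_lit 336) (nat_lit 267) (nat_lit 261))) (XT.nd (nat_lit 94) (nat_lit 252) (nat_lit 0) (XT.lf (nat_lit 0) (nat_lit 2013712011) (nat_lit 420) (nat_lit 1871810348) (nat_lit 84) (nat_lit 6312690065) (nat_lit 45) (nat_lit 5) (nat_lit 50) (nat_lit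 5) (nat_lit 46) (nat_lit 4) (nat_lit 337) (nat_lit 267) (nat_lit 260)) (XT.lf (nat_lit 0) (nat_lit 3197258422) (nat_lit 252) (nat_lit 1682740122) (nat_lit 336) (nat_lit 5507355445) (nat_lit 42) (nat_lit 5) (nat_lit 45) (nat_lit 5) (nat_lit 46) (nat_lit 4) (nat_lit 338) (nat_lit 267) (nat_lit 259))))) (XT.nd (nat_lit 376) (nat_lit 252) (nat_lit 0) (XT.nd (nat_lit 188) (nat_lit 336) (nat_lit 0) (XT.nd (nat_lit 94) (nat_lit 252) (nat_lit 0) (XT.lf (nat_lit 0) (nat_lit 7790957198) (nat_lit 336) (nat_lit 2221958926) (nat_lit 0) (nat_lit 571019328) (nat_lit 42) (nat_lit 5) (nat_lit 46) (nat_lit 4) (nat_lit 42) (nat_lit 4) (nat_lit 339) (nat_lit 267) (nat_lit 258)) (XT.lf (nat_lit 0) (nat_lit 2845925459) (nat_lit 252) (nat_lit 7924013214) (nat_lit 252) (nat_lit 17561614) (nat_lit 39) (nat_lit 4) (nat_lit 42) (nat_lit 5) (nat_lit 42) (nat_lit 4) (nat_lit 340) (nat_lit 267) (nat_lit 257))) (XT.nd (nat_lit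 94) (nat_lit 252) (nat_lit 0) (XT.lf (nat_lit 0) (nat_lit 2742601558) (nat_lit 336) (nat_lit 3002099542) (nat_lit 84) (nat_lit 5253352498) (nat_lit 38) (nat_lit 5) (nat_lit 42) (nat_lit 5) (nat_lit 39) (nat_lit 4) (nat_lit 341) (nat_lit 267) (nat_lit 256)) (XT.lf (nat_lit 0) (nat_lit 2039250516) (nat_lit 252) (nat_lit 3503548189) (nat_lit 336) (nat_lit 5673913009) (nat_lit 35) (nat_lit 5) (nat_lit 38) (nat_lit 5) (nat_lit 39) (nat_lit 4) (nat_lit 342) (nat_lit 267) (nat_lit 255)))) (XT.nd (nat_lit 52828) (nat_lit 0) (nat_lit 2268) (XT.nd (nat_lit 94) (nat_lit 252) (nat_lit 0) (XT.lf (nat_lit 0) (nat_lit 7209302652) (nat_lit 252) (nat_lit 1187500545) (nat_lit 336) (nat_lit 3046545558) (nat_lit 35) (nat_lit 5) (nat_lit 38) (nat_lit 5) (nat_lit 39) (nat_lit 4) (nat_lit 343) (nat_lit 267) (nat_lit 254)) (XT.lf (nat_lit 0) (nat_lit 776014511) (nat_lit 252) (nat_lit 10520214203) (nat_lit 252) (nat_lit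 382289696) (nat_lit 32) (nat_lit 4) (nat_lit 35) (nat_lit 5) (nat_lit 35) (nat_lit 4) (nat_lit 344) (nat_lit 267) (nat_lit 253))) (XT.nd (nat_lit 94) (nat_lit 420) (nat_lit 0) (XT.lf (nat_lit 0) (nat_lit 191327238) (nat_lit 420) (nat_lit 2100179527) (nat_lit 420) (nat_lit 2100179527) (nat_lit 64) (nat_lit 4) (nat_lit 69) (nat_lit 5) (nat_lit 69) (nat_lit 4) (nat_lit 328) (nat_lit 268) (nat_lit 268)) (XT.nd (nat_lit 94) (nat_lit 420) (nat_lit 0) (XT.lf (nat_lit 0) (nat_lit 5359458728) (nat_lit 420) (nat_lit 2289689222) (nat_lit 420) (nat_lit 1268721819) (nat_lit 64) (nat_lit 4) (nat_lit 69) (nat_lit 5) (nat_lit 69) (nat_lit 4) (nat_lit 329) (nat_lit 268) (nat_lit 267)) (XT.lf (nat_lit 0) (nat_lit 1342708499) (nat_lit 336) (nat_lit 308667652) (nat_lit 420) (nat_lit 7406981204) (nat_lit 59) (nat_lit 5) (nat_lit 63) (nat_lit 5) (nat_lit 64) (nat_lit 4) (nat_lit 330) (nat_lit 268) (nat_lit 266))))))))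
noncomputable def xc2 : XT := (XT.nd (nat_lit 53956) (nat_lit 84) (nat_lit 0) (XT.nd (nat_lit 752) (nat_lit 588) (nat_lit 0) (XT.nd (nat_lit 376) (nat_lit 672) (nat_lit 0) (XT.nd (nat_lit 188) (nat_lit 420) (nat_lit 0) (XT.nd (nat_lit 94) (nat_lit 336) (nat_lit 0) (XT.lf (nat_lit 0) (nat_lit 4611178029) (nat_lit 420) (nat_lit 2863848949) (nat_lit 0) (nat_lit 1728801480) (nat_lit 59) (nat_lit 5) (nat_lit 64) (nat_lit 4) (nat_lit 59) (nat_lit 4) (nat_lit 331) (nat_lit 268) (nat_lit 265)) (XT.lf (nat_lit 0) (nat_lit 2077696643) (nat_lit 336) (nat_lit 5531999680) (nat_lit 336) (nat_lit 1746021066) (nat_lit 55) (nat_lit 4) (nat_lit 59) (nat_lit 5) (nat_lit 59) (nat_lit 4) (nat_lit 332) (nat_lit 268) (nat_lit 264))) (XT.nd (nat_lit 94) (nat_lit 336) (nat_lit 0) (XT.lf (nat_lit 0) (nat_lit 1118604892) (nat_lit 420) (nat_lit 2390524731) (nat_lit 84) (nat_lit 6004503257) (nat_lit 54) (nat_lit 5) (nat_lit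 59) (nat_lit 5) (nat_lit 55) (nat_lit 4) (nat_lit 333) (nat_lit 268) (nat_lit 263)) (XT.lf (nat_lit 0) (nat_lit 2585551803) (nat_lit 336) (nat_lit 1401667911) (nat_lit 420) (nat_lit 5690416316) (nat_lit 50) (nat_lit 5) (nat_lit 54) (nat_lit 5) (nat_lit 55) (nat_lit 4) (nat_lit 334) (nat_lit 268) (nat_lit 262)))) (XT.nd (nat_lit 188) (nat_lit 336) (nat_lit 0) (XT.nd (nat_lit 94) (nat_lit 336) (nat_lit 0) (XT.lf (nat_lit 0) (nat_lit 6904469983) (nat_lit 420) (nat_lit 2185736947) (nat_lit 0) (nat_lit 757999096) (nat_lit 50) (nat_lit 5) (nat_lit 55) (nat_lit 4) (nat_lit 50) (nat_lit 4) (nat_lit 335) (nat_lit 268) (nat_lit 261)) (XT.lf (nat_lit 0) (nat_lit 2819695088) (nat_lit 336) (nat_lit 7063818189) (nat_lit 336) (nat_lit 141664989) (nat_lit 46) (nat_lit 4) (nat_lit 50) (nat_lit 5) (nat_lit 50) (nat_lit 4) (nat_lit 336) (nat_lit 268) (nat_lit 260))) (XT.nd (nat_lit 94) (nat_lit 252) (nat_lit 0) (XT.lf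 (nat_lit 0) (nat_lit 2644284415) (nat_lit 420) (nat_lit 2303970730) (nat_lit 84) (nat_lit 5260226574) (nat_lit 45) (nat_lit 5) (nat_lit 50) (nat_lit 5) (nat_lit 46) (nat_lit 4) (nat_lit 337) (nat_lit 268) (nat_lit 259)) (XT.lf (nat_lit 0) (nat_lit 2709332111) (nat_lit 252) (nat_lit 2762643177) (nat_lit 336) (nat_lit 4926946305) (nat_lit 42) (nat_lit 5) (nat_lit 45) (nat_lit 5) (nat_lit 46) (nat_lit 4) (nat_lit 338) (nat_lit 268) (nat_lit 258))))) (XT.nd (nat_lit 376) (nat_lit 0) (nat_lit 0) (XT.nd (nat_lit 188) (nat_lit 252) (nat_lit 0) (XT.nd (nat_lit 94) (nat_lit 336) (nat_lit 0) (XT.lf (nat_lit 0) (nat_lit 7834540239) (nat_lit 252) (nat_lit 509421156) (nat_lit 336) (nat_lit 2252848589) (nat_lit 42) (nat_lit 5) (nat_lit 45) (nat_lit 5) (nat_lit 46) (nat_lit 4) (nat_lit 339) (nat_lit 268) (nat_lit 257)) (XT.lf (nat_lit 0) (nat_lit 468262804) (nat_lit 336) (nat_lit 8552895283) (nat_lit 84) (nat_lit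 1780506037) (nat_lit 38) (nat_lit 5) (nat_lit 42) (nat_lit 5) (nat_lit 39) (nat_lit 4) (nat_lit 340) (nat_lit 268) (nat_lit 256))) (XT.nd (nat_lit 94) (nat_lit 252) (nat_lit 0) (XT.lf (nat_lit 0) (nat_lit 3195873279) (nat_lit 336) (nat_lit 3658968754) (nat_lit 84) (nat_lit 4158458301) (nat_lit 38) (nat_lit 5) (nat_lit 42) (nat_lit 5) (nat_lit 39) (nat_lit 4) (nat_lit 341) (nat_lit 268) (nat_lit 255)) (XT.lf (nat_lit 0) (nat_lit 1323959556) (nat_lit 252) (nat_lit 4633784376) (nat_lit 336) (nat_lit 5275490065) (nat_lit 35) (nat_lit 5) (nat_lit 38) (nat_lit 5) (nat_lit 39) (nat_lit 4) (nat_lit 342) (nat_lit 268) (nat_lit 254)))) (XT.nd (nat_lit 52640) (nat_lit 0) (nat_lit 2856) (XT.nd (nat_lit 94) (nat_lit 0) (nat_lit 0) (XT.lf (nat_lit 0) (nat_lit 6450447028) (nat_lit 252) (nat_lit 2330577553) (nat_lit 336) (nat_lit 2679883692) (nat_lit 35) (nat_lit 5) (nat_lit 38) (nat_lit 5) (nat_lit 39) (nat_lit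 4) (nat_lit 343) (nat_lit 268) (nat_lit 253)) (XT.lf (nat_lit 0) (nat_lit 11631488879) (nat_lit 336) (nat_lit 47833390) (nat_lit 0) (nat_lit 18355704) (nat_lit 35) (nat_lit 5) (nat_lit 39) (nat_lit 4) (nat_lit 35) (nat_lit 4) (nat_lit 344) (nat_lit 268) (nat_lit 252))) (XT.nd (nat_lit 94) (nat_lit 504) (nat_lit 0) (XT.lf (nat_lit 0) (nat_lit 3941900774) (nat_lit 420) (nat_lit 161527487) (nat_lit 420) (nat_lit 161527487) (nat_lit 75) (nat_lit 4) (nat_lit 80) (nat_lit 5) (nat_lit 80) (nat_lit 4) (nat_lit 326) (nat_lit 269) (nat_lit 269)) (XT.lf (nat_lit 0) (nat_lit 2627451016) (nat_lit 504) (nat_lit 4451985569) (nat_lit 0) (nat_lit 1574833623) (nat_lit 69) (nat_lit 5) (nat_lit 75) (nat_lit 4) (nat_lit 69) (nat_lit 4) (nat_lit 327) (nat_lit 269) (nat_lit 268)))))) (XT.nd (nat_lit 752) (nat_lit 1344) (nat_lit 0) (XT.nd (nat_lit 376) (nat_lit 756) (nat_lit 0) (XT.nd (nat_lit 188) (nat_lit 420) (nat_lit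 0) (XT.nd (nat_lit 94) (nat_lit 0) (nat_lit 0) (XT.lf (nat_lit 0) (nat_lit 332388897) (nat_lit 420) (nat_lit 5262981729) (nat_lit 420) (nat_lit 3189396933) (nat_lit 64) (nat_lit 4) (nat_lit 69) (nat_lit 5) (nat_lit 69) (nat_lit 4) (nat_lit 328) (nat_lit 269) (nat_lit 267)) (XT.lf (nat_lit 0) (nat_lit 5260438952) (nat_lit 420) (nat_lit 3362016340) (nat_lit 420) (nat_lit 298162481) (nat_lit 64) (nat_lit 4) (nat_lit 69) (nat_lit 5) (nat_lit 69) (nat_lit 4) (nat_lit 329) (nat_lit 269) (nat_lit 266))) (XT.nd (nat_lit 94) (nat_lit 0) (nat_lit 0) (XT.lf (nat_lit 0) (nat_lit 1179818930) (nat_lit 336) (nat_lit 1382547659) (nat_lit 420) (nat_lit 6499814789) (nat_lit 59) (nat_lit 5) (nat_lit 63) (nat_lit 5) (nat_lit 64) (nat_lit 4) (nat_lit 330) (nat_lit 269) (nat_lit 265)) (XT.lf (nat_lit 0) (nat_lit 5473698905) (nat_lit 420) (nat_lit 3068833263) (nat_lit 0) (nat_lit 666752887) (nat_lit 59) (nat_lit 5) (nat_lit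 64) (nat_lit 4) (nat_lit 59) (nat_lit 4) (nat_lit 331) (nat_lit 269) (nat_lit 264)))) (XT.nd (nat_lit 188) (nat_lit 336) (nat_lit 0) (XT.nd (nat_lit 94) (nat_lit 84) (nat_lit 0) (XT.lf (nat_lit 0) (nat_lit 1820068996) (nat_lit 336) (nat_lit 6612913029) (nat_lit 336) (nat_lit 929534358) (nat_lit 55) (nat_lit 4) (nat_lit 59) (nat_lit 5) (nat_lit 59) (nat_lit 4) (nat_lit 332) (nat_lit 269) (nat_lit 263)) (XT.lf (nat_lit 0) (nat_lit 1882110159) (nat_lit 420) (nat_lit 2710893106) (nat_lit 84) (nat_lit 4928428621) (nat_lit 54) (nat_lit 5) (nat_lit 59) (nat_lit 5) (nat_lit 55) (nat_lit 4) (nat_lit 333) (nat_lit 269) (nat_lit 262))) (XT.nd (nat_lit 94) (nat_lit 0) (nat_lit 0) (XT.lf (nat_lit 0) (nat_lit 2211238270) (nat_lit 336) (nat_lit 2500340832) (nat_lit 420) (nat_lit 4975184526) (nat_lit 50) (nat_lit 5) (nat_lit 54) (nat_lit 5) (nat_lit 55) (nat_lit 4) (nat_lit 334) (nat_lit 269) (nat_lit 261)) (XT.lf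 (nat_lit 0) (nat_lit 7250133721) (nat_lit 336) (nat_lit 336198663) (nat_lit 420) (nat_lit 2272430257) (nat_lit 50) (nat_lit 5) (nat_lit 54) (nat_lit 5) (nat_lit 55) (nat_lit 4) (nat_lit 335) (nat_lit 269) (nat_lit 260))))) (XT.nd (nat_lit 376) (nat_lit 672) (nat_lit 0) (XT.nd (nat_lit 188) (nat_lit 252) (nat_lit 0) (XT.nd (nat_lit 94) (nat_lit 0) (nat_lit 0) (XT.lf (nat_lit 0) (nat_lit 476507605) (nat_lit 420) (nat_lit 7696994493) (nat_lit 84) (nat_lit 1863491231) (nat_lit 45) (nat_lit 5) (nat_lit 50) (nat_lit 5) (nat_lit 46) (nat_lit 4) (nat_lit 336) (nat_lit 269) (nat_lit 259)) (XT.lf (nat_lit 0) (nat_lit 3225847405) (nat_lit 420) (nat_lit 2842822680) (nat_lit 84) (nat_lit 4152731390) (nat_lit 45) (nat_lit 5) (nat_lit 50) (nat_lit 5) (nat_lit 46) (nat_lit 4) (nat_lit 337) (nat_lit 269) (nat_lit 258))) (XT.nd (nat_lit 94) (nat_lit 0) (nat_lit 0) (XT.lf (nat_lit 0) (nat_lit 2113930013) (nat_lit 252)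 (nat_lit 3900961385) (nat_lit 336) (nat_lit 4398246785) (nat_lit 42) (nat_lit 5) (nat_lit 45) (nat_lit 5) (nat_lit 46) (nat_lit 4) (nat_lit 338) (nat_lit 269) (nat_lit 257)) (XT.lf (nat_lit 0) (nat_lit 7195035089) (nat_lit 252) (nat_lit 1659648927) (nat_lit 336) (nat_lit 1757436369) (nat_lit 42) (nat_lit 5) (nat_lit 45) (nat_lit 5) (nat_lit 46) (nat_lit 4) (nat_lit 339) (nat_lit 269) (nat_lit 256)))) (XT.nd (nat_lit 188) (nat_lit 336) (nat_lit 0) (XT.nd (nat_lit 94) (nat_lit 0) (nat_lit 0) (XT.lf (nat_lit 0) (nat_lit 903387077) (nat_lit 336) (nat_lit 9275501986) (nat_lit 84) (nat_lit 639582746) (nat_lit 38) (nat_lit 5) (nat_lit 42) (nat_lit 5) (nat_lit 39) (nat_lit 4) (nat_lit 340) (nat_lit 269) (nat_lit 255)) (XT.lf (nat_lit 0) (nat_lit 3599766834) (nat_lit 336) (nat_lit 4425585686) (nat_lit 84) (nat_lit 3005811077) (nat_lit 38) (nat_lit 5) (nat_lit 42) (nat_lit 5) (nat_lit 39) (nat_lit 4) (nat_lit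 341) (nat_lit 269) (nat_lit 254))) (XT.nd (nat_lit 94) (nat_lit 84) (nat_lit 0) (XT.lf (nat_lit 0) (nat_lit 498014744) (nat_lit 252) (nat_lit 5825137592) (nat_lit 336) (nat_lit 4929222760) (nat_lit 35) (nat_lit 5) (nat_lit 38) (nat_lit 5) (nat_lit 39) (nat_lit 4) (nat_lit 342) (nat_lit 269) (nat_lit 253)) (XT.nd (nat_lit 94) (nat_lit 84) (nat_lit 0) (XT.lf (nat_lit 0) (nat_lit 5582247449) (nat_lit 252) (nat_lit 3534385494) (nat_lit 336) (nat_lit 2364422477) (nat_lit 35) (nat_lit 5) (nat_lit 38) (nat_lit 5) (nat_lit 39) (nat_lit 4) (nat_lit 343) (nat_lit 269) (nat_lit 252)) (XT.lf (nat_lit 0) (nat_lit 214784301) (nat_lit 336) (nat_lit 980128833) (nat_lit 84) (nat_lit 10523826137) (nat_lit 34) (nat_lit 5) (nat_lit 38) (nat_lit 5) (nat_lit 35) (nat_lit 5) (nat_lit 344) (nat_lit 269) (nat_lit 251))))))))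
noncomputable def xc3 : XT := (XT.nd (nat_lit 1598) (nat_lit 336) (nat_lit 0) (XT.nd (nat_lit 752) (nat_lit 1764) (nat_lit 0) (XT.nd (nat_lit 376) (nat_lit 840) (nat_lit 0) (XT.nd (nat_lit 188) (nat_lit 504) (nat_lit 0) (XT.nd (nat_lit 94) (nat_lit 420) (nat_lit 0) (XT.lf (nat_lit 0) (nat_lit 1639081386) (nat_lit 504) (nat_lit 868628498) (nat_lit 0) (nat_lit 1639081386) (nat_lit 80) (nat_lit 5) (nat_lit 86) (nat_lit 4) (nat_lit 80) (nat_lit 4) (nat_lit 324) (nat_lit 270) (nat_lit 270)) (XT.lf (nat_lit 0) (nat_lit 3005808973) (nat_lit 420) (nat_lit 3261297981) (nat_lit 420) (nat_lit 2142406745) (nat_lit 75) (nat_lit 4) (nat_lit 80) (nat_lit 5) (nat_lit 80) (nat_lit 4) (nat_lit 325) (nat_lit 270) (nat_lit 269))) (XT.nd (nat_lit 94) (nat_lit 420) (nat_lit 0) (XT.lf (nat_lit 0) (nat_lit 739382832) (nat_lit 504) (nat_lit 702453234) (nat_lit 84) (nat_lit 7089235143) (nat_lit 74) (nat_lit 5) (nat_lit 80)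 (nat_lit 5) (nat_lit 75) (nat_lit 4) (nat_lit 326) (nat_lit 270) (nat_lit 268)) (XT.lf (nat_lit 0) (nat_lit 3631943623) (nat_lit 504) (nat_lit 4552018085) (nat_lit 0) (nat_lit 473110295) (nat_lit 69) (nat_lit 5) (nat_lit 75) (nat_lit 4) (nat_lit 69) (nat_lit 4) (nat_lit 327) (nat_lit 270) (nat_lit 267)))) (XT.nd (nat_lit 188) (nat_lit 336) (nat_lit 0) (XT.nd (nat_lit 94) (nat_lit 84) (nat_lit 0) (XT.lf (nat_lit 0) (nat_lit 181545309) (nat_lit 420) (nat_lit 6378255430) (nat_lit 420) (nat_lit 2229153040) (nat_lit 64) (nat_lit 4) (nat_lit 69) (nat_lit 5) (nat_lit 69) (nat_lit 4) (nat_lit 328) (nat_lit 270) (nat_lit 266)) (XT.lf (nat_lit 0) (nat_lit 610343538) (nat_lit 504) (nat_lit 3869988418) (nat_lit 84) (nat_lit 4445592828) (nat_lit 63) (nat_lit 5) (nat_lit 69) (nat_lit 5) (nat_lit 64) (nat_lit 4) (nat_lit 329) (nat_lit 270) (nat_lit 265))) (XT.nd (nat_lit 94) (nat_lit 0) (nat_lit 0) (XT.lf (nat_lit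 0) (nat_lit 914952833) (nat_lit 336) (nat_lit 2510041115) (nat_lit 420) (nat_lit 5643768780) (nat_lit 59) (nat_lit 5) (nat_lit 63) (nat_lit 5) (nat_lit 64) (nat_lit 4) (nat_lit 330) (nat_lit 270) (nat_lit 264)) (XT.lf (nat_lit 0) (nat_lit 5836256422) (nat_lit 336) (nat_lit 456736371) (nat_lit 420) (nat_lit 2924343055) (nat_lit 59) (nat_lit 5) (nat_lit 63) (nat_lit 5) (nat_lit 64) (nat_lit 4) (nat_lit 331) (nat_lit 270) (nat_lit 263))))) (XT.nd (nat_lit 376) (nat_lit 1008) (nat_lit 0) (XT.nd (nat_lit 188) (nat_lit 336) (nat_lit 0) (XT.nd (nat_lit 94) (nat_lit 84) (nat_lit 0) (XT.lf (nat_lit 0) (nat_lit 1459054163) (nat_lit 336) (nat_lit 7749532958) (nat_lit 336) (nat_lit 163456725) (nat_lit 55) (nat_lit 4) (nat_lit 59) (nat_lit 5) (nat_lit 59) (nat_lit 4) (nat_lit 332) (nat_lit 270) (nat_lit 262)) (XT.lf (nat_lit 0) (nat_lit 2597320392) (nat_lit 420) (nat_lit 3135438562) (nat_lit 84) (nat_lit 3799178289)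 (nat_lit 54) (nat_lit 5) (nat_lit 59) (nat_lit 5) (nat_lit 55) (nat_lit 4) (nat_lit 333) (nat_lit 270) (nat_lit 261))) (XT.nd (nat_lit 94) (nat_lit 0) (nat_lit 0) (XT.lf (nat_lit 0) (nat_lit 1732029509) (nat_lit 336) (nat_lit 3655638759) (nat_lit 420) (nat_lit 4310925082) (nat_lit 50) (nat_lit 5) (nat_lit 54) (nat_lit 5) (nat_lit 55) (nat_lit 4) (nat_lit 334) (nat_lit 270) (nat_lit 260)) (XT.lf (nat_lit 0) (nat_lit 6726372313) (nat_lit 336) (nat_lit 1502273364) (nat_lit 420) (nat_lit 1643101993) (nat_lit 50) (nat_lit 5) (nat_lit 54) (nat_lit 5) (nat_lit 55) (nat_lit 4) (nat_lit 335) (nat_lit 270) (nat_lit 259)))) (XT.nd (nat_lit 188) (nat_lit 588) (nat_lit 0) (XT.nd (nat_lit 94) (nat_lit 0) (nat_lit 0) (XT.lf (nat_lit 0) (nat_lit 1042343678) (nat_lit 420) (nat_lit 8298486154) (nat_lit 84) (nat_lit 710632027) (nat_lit 45) (nat_lit 5) (nat_lit 50) (nat_lit 5) (nat_lit 46) (nat_lit 4) (nat_lit 336)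 (nat_lit 270) (nat_lit 258)) (XT.lf (nat_lit 0) (nat_lit 3758943061) (nat_lit 420) (nat_lit 3488868464) (nat_lit 84) (nat_lit 2989172214) (nat_lit 45) (nat_lit 5) (nat_lit 50) (nat_lit 5) (nat_lit 46) (nat_lit 4) (nat_lit 337) (nat_lit 270) (nat_lit 257))) (XT.nd (nat_lit 94) (nat_lit 336) (nat_lit 0) (XT.lf (nat_lit 0) (nat_lit 1410497151) (nat_lit 252) (nat_lit 5098755780) (nat_lit 336) (nat_lit 3920764084) (nat_lit 42) (nat_lit 5) (nat_lit 45) (nat_lit 5) (nat_lit 46) (nat_lit 4) (nat_lit 338) (nat_lit 270) (nat_lit 256)) (XT.nd (nat_lit 94) (nat_lit 336) (nat_lit 0) (XT.lf (nat_lit 0) (nat_lit 6448825260) (nat_lit 252) (nat_lit 2868994789) (nat_lit 336) (nat_lit 1312240087) (nat_lit 42) (nat_lit 5) (nat_lit 45) (nat_lit 5) (nat_lit 46) (nat_lit 4) (nat_lit 339) (nat_lit 270) (nat_lit 255)) (XT.lf (nat_lit 0) (nat_lit 722199456) (nat_lit 252) (nat_lit 572045924) (nat_lit 336) (nat_lit 9543523113)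 (nat_lit 38) (nat_lit 5) (nat_lit 41) (nat_lit 5) (nat_lit 42) (nat_lit 5) (nat_lit 340) (nat_lit 270) (nat_lit 254))))))) (XT.nd (nat_lit 52828) (nat_lit 0) (nat_lit 1344) (XT.nd (nat_lit 52452) (nat_lit 0) (nat_lit 3444) (XT.nd (nat_lit 188) (nat_lit 336) (nat_lit 0) (XT.nd (nat_lit 94) (nat_lit 0) (nat_lit 0) (XT.lf (nat_lit 0) (nat_lit 3954658695) (nat_lit 336) (nat_lit 5302664904) (nat_lit 84) (nat_lit 1794336438) (nat_lit 38) (nat_lit 5) (nat_lit 42) (nat_lit 5) (nat_lit 39) (nat_lit 4) (nat_lit 341) (nat_lit 270) (nat_lit 253)) (XT.lf (nat_lit 0) (nat_lit 6643722960) (nat_lit 336) (nat_lit 430501788) (nat_lit 84) (nat_lit 4199792994) (nat_lit 38) (nat_lit 5) (nat_lit 42) (nat_lit 5) (nat_lit 39) (nat_lit 4) (nat_lit 342) (nat_lit 270) (nat_lit 252))) (XT.nd (nat_lit 94) (nat_lit 84) (nat_lit 0) (XT.lf (nat_lit 0) (nat_lit 4603894662) (nat_lit 252) (nat_lit 4800046443) (nat_lit 336) (nat_lit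 2099867871) (nat_lit 35) (nat_lit 5) (nat_lit 38) (nat_lit 5) (nat_lit 39) (nat_lit 4) (nat_lit 343) (nat_lit 270) (nat_lit 251)) (XT.lf (nat_lit 0) (nat_lit 445611240) (nat_lit 336) (nat_lit 2024270493) (nat_lit 84) (nat_lit 9272485107) (nat_lit 34) (nat_lit 5) (nat_lit 38) (nat_lit 5) (nat_lit 35) (nat_lit 5) (nat_lit 344) (nat_lit 270) (nat_lit 250)))) (XT.nd (nat_lit 188) (nat_lit 420) (nat_lit 0) (XT.nd (nat_lit 94) (nat_lit 504) (nat_lit 0) (XT.lf (nat_lit 0) (nat_lit 2631661408) (nat_lit 504) (nat_lit 703039309) (nat_lit 504) (nat_lit 703039309) (nat_lit 86) (nat_lit 4) (nat_lit 92) (nat_lit 5) (nat_lit 92) (nat_lit 4) (nat_lit 322) (nat_lit 271) (nat_lit 271)) (XT.lf (nat_lit 0) (nat_lit 1481591996) (nat_lit 504) (nat_lit 6373430524) (nat_lit 0) (nat_lit 328015131) (nat_lit 80) (nat_lit 5) (nat_lit 86) (nat_lit 4) (nat_lit 80) (nat_lit 4) (nat_lit 323) (nat_lit 271) (nat_lit 270))) (XT.nd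 (nat_lit 94) (nat_lit 420) (nat_lit 0) (XT.lf (nat_lit 0) (nat_lit 4391131054) (nat_lit 504) (nat_lit 1785208394) (nat_lit 0) (nat_lit 2118662953) (nat_lit 80) (nat_lit 5) (nat_lit 86) (nat_lit 4) (nat_lit 80) (nat_lit 4) (nat_lit 324) (nat_lit 271) (nat_lit 269)) (XT.lf (nat_lit 0) (nat_lit 2909405664) (nat_lit 420) (nat_lit 4430325671) (nat_lit 420) (nat_lit 1072609038) (nat_lit 75) (nat_lit 4) (nat_lit 80) (nat_lit 5) (nat_lit 80) (nat_lit 4) (nat_lit 325) (nat_lit 271) (nat_lit 268))))) (XT.nd (nat_lit 376) (nat_lit 1092) (nat_lit 0) (XT.nd (nat_lit 188) (nat_lit 504) (nat_lit 0) (XT.nd (nat_lit 94) (nat_lit 420) (nat_lit 0) (XT.lf (nat_lit 0) (nat_lit 1748422716) (nat_lit 504) (nat_lit 859287489) (nat_lit 84) (nat_lit 5927220912) (nat_lit 74) (nat_lit 5) (nat_lit 80) (nat_lit 5) (nat_lit 75) (nat_lit 4) (nat_lit 326) (nat_lit 271) (nat_lit 267)) (XT.lf (nat_lit 0) (nat_lit 3903417135) (nat_lit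 420) (nat_lit 692702295) (nat_lit 504) (nat_lit 4066345755) (nat_lit 69) (nat_lit 5) (nat_lit 74) (nat_lit 5) (nat_lit 75) (nat_lit 4) (nat_lit 327) (nat_lit 271) (nat_lit 266))) (XT.nd (nat_lit 94) (nat_lit 504) (nat_lit 0) (XT.lf (nat_lit 0) (nat_lit 7477897397) (nat_lit 504) (nat_lit 68606205) (nat_lit 0) (nat_lit 1249410015) (nat_lit 69) (nat_lit 5) (nat_lit 75) (nat_lit 4) (nat_lit 69) (nat_lit 4) (nat_lit 328) (nat_lit 271) (nat_lit 265)) (XT.lf (nat_lit 0) (nat_lit 1465177453) (nat_lit 504) (nat_lit 4184325703) (nat_lit 84) (nat_lit 3284407597) (nat_lit 63) (nat_lit 5) (nat_lit 69) (nat_lit 5) (nat_lit 64) (nat_lit 4) (nat_lit 329) (nat_lit 271) (nat_lit 264)))) (XT.nd (nat_lit 188) (nat_lit 756) (nat_lit 0) (XT.nd (nat_lit 94) (nat_lit 0) (nat_lit 0) (XT.lf (nat_lit 0) (nat_lit 547863324) (nat_lit 336) (nat_lit 3692198961) (nat_lit 420) (nat_lit 4838045252) (nat_lit 59) (nat_lit 5) (nat_lit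 63) (nat_lit 5) (nat_lit 64) (nat_lit 4) (nat_lit 330) (nat_lit 271) (nat_lit 263)) (XT.lf (nat_lit 0) (nat_lit 5424269916) (nat_lit 336) (nat_lit 1648308000) (nat_lit 420) (nat_lit 2155325037) (nat_lit 59) (nat_lit 5) (nat_lit 63) (nat_lit 5) (nat_lit 64) (nat_lit 4) (nat_lit 331) (nat_lit 271) (nat_lit 262))) (XT.nd (nat_lit 94) (nat_lit 336) (nat_lit 0) (XT.lf (nat_lit 0) (nat_lit 541785672) (nat_lit 420) (nat_lit 8395478111) (nat_lit 84) (nat_lit 446874836) (nat_lit 54) (nat_lit 5) (nat_lit 59) (nat_lit 5) (nat_lit 55) (nat_lit 4) (nat_lit 332) (nat_lit 271) (nat_lit 261)) (XT.nd (nat_lit 94) (nat_lit 336) (nat_lit 0) (XT.lf (nat_lit 0) (nat_lit 3264902244) (nat_lit 420) (nat_lit 3664556817) (nat_lit 84) (nat_lit 2615699684) (nat_lit 54) (nat_lit 5) (nat_lit 59) (nat_lit 5) (nat_lit 55) (nat_lit 4) (nat_lit 333) (nat_lit 271) (nat_lit 260)) (XT.lf (nat_lit 0) (nat_lit 1147478849) (nat_lit 336)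 (nat_lit 4868638550) (nat_lit 420) (nat_lit 3697018822) (nat_lit 50) (nat_lit 5) (nat_lit 54) (nat_lit 5) (nat_lit 55) (nat_lit 4) (nat_lit 334) (nat_lit 271) (nat_lit 259))))))))
noncomputable def xc4 : XT := (XT.nd (nat_lit 53392) (nat_lit 0) (nat_lit 336) (XT.nd (nat_lit 752) (nat_lit 336) (nat_lit 0) (XT.nd (nat_lit 376) (nat_lit 336) (nat_lit 0) (XT.nd (nat_lit 188) (nat_lit 252) (nat_lit 0) (XT.nd (nat_lit 94) (nat_lit 420) (nat_lit 0) (XT.lf (nat_lit 0) (nat_lit 6098608609) (nat_lit 336) (nat_lit 2725725894) (nat_lit 420) (nat_lit 1063076607) (nat_lit 50) (nat_lit 5) (nat_lit 54) (nat_lit 5) (nat_lit 55) (nat_lit 4) (nat_lit 335) (nat_lit 271) (nat_lit 258)) (XT.lf (nat_lit 0) (nat_lit 1054311609) (nat_lit 336) (nat_lit 509972259) (nat_lit 420) (nat_lit 8504200209) (nat_lit 45) (nat_lit 5) (nat_lit 49) (nat_lit 5) (nat_lit 50) (nat_lit 5) (nat_lit 336) (nat_lit 271) (nat_lit 257))) (XT.nd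 (nat_lit 94) (nat_lit 252) (nat_lit 0) (XT.lf (nat_lit 0) (nat_lit 4244068281) (nat_lit 420) (nat_lit 4242710264) (nat_lit 84) (nat_lit 1768464485) (nat_lit 45) (nat_lit 5) (nat_lit 50) (nat_lit 5) (nat_lit 46) (nat_lit 4) (nat_lit 337) (nat_lit 271) (nat_lit 256)) (XT.lf (nat_lit 0) (nat_lit 598377850) (nat_lit 252) (nat_lit 6357142830) (nat_lit 336) (nat_lit 3494053138) (nat_lit 42) (nat_lit 5) (nat_lit 45) (nat_lit 5) (nat_lit 46) (nat_lit 4) (nat_lit 338) (nat_lit 271) (nat_lit 255)))) (XT.nd (nat_lit 188) (nat_lit 252) (nat_lit 0) (XT.nd (nat_lit 94) (nat_lit 84) (nat_lit 0) (XT.lf (nat_lit 0) (nat_lit 5595215206) (nat_lit 252) (nat_lit 4138585978) (nat_lit 336) (nat_lit 916844775) (nat_lit 42) (nat_lit 5) (nat_lit 45) (nat_lit 5) (nat_lit 46) (nat_lit 4) (nat_lit 339) (nat_lit 271) (nat_lit 254)) (XT.lf (nat_lit 0) (nat_lit 1644747980) (nat_lit 336) (nat_lit 211409480) (nat_lit 84) (nat_lit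 9003304778) (nat_lit 41) (nat_lit 5) (nat_lit 45) (nat_lit 5) (nat_lit 42) (nat_lit 5) (nat_lit 340) (nat_lit 271) (nat_lit 253))) (XT.nd (nat_lit 94) (nat_lit 0) (nat_lit 0) (XT.lf (nat_lit 0) (nat_lit 4260879657) (nat_lit 336) (nat_lit 6291023939) (nat_lit 84) (nat_lit 522905163) (nat_lit 38) (nat_lit 5) (nat_lit 42) (nat_lit 5) (nat_lit 39) (nat_lit 4) (nat_lit 341) (nat_lit 271) (nat_lit 252)) (XT.lf (nat_lit 0) (nat_lit 6921446474) (nat_lit 336) (nat_lit 1459019335) (nat_lit 84) (nat_lit 2917663848) (nat_lit 38) (nat_lit 5) (nat_lit 42) (nat_lit 5) (nat_lit 39) (nat_lit 4) (nat_lit 342) (nat_lit 271) (nat_lit 251))))) (XT.nd (nat_lit 52264) (nat_lit 0) (nat_lit 3444) (XT.nd (nat_lit 52076) (nat_lit 0) (nat_lit 4368) (XT.nd (nat_lit 94) (nat_lit 84) (nat_lit 0) (XT.lf (nat_lit 0) (nat_lit 3514476740) (nat_lit 252) (nat_lit 6128740128) (nat_lit 336) (nat_lit 1885973280) (nat_lit 35) (nat_lit 5)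 (nat_lit 38) (nat_lit 5) (nat_lit 39) (nat_lit 4) (nat_lit 343) (nat_lit 271) (nat_lit 250)) (XT.lf (nat_lit 0) (nat_lit 627652702) (nat_lit 336) (nat_lit 3180387281) (nat_lit 84) (nat_lit 7960568896) (nat_lit 34) (nat_lit 5) (nat_lit 38) (nat_lit 5) (nat_lit 35) (nat_lit 5) (nat_lit 344) (nat_lit 271) (nat_lit 249))) (XT.nd (nat_lit 94) (nat_lit 504) (nat_lit 0) (XT.lf (nat_lit 0) (nat_lit 997149096) (nat_lit 588) (nat_lit 1942508103) (nat_lit 0) (nat_lit 997149096) (nat_lit 92) (nat_lit 5) (nat_lit 99) (nat_lit 4) (nat_lit 92) (nat_lit 4) (nat_lit 320) (nat_lit 272) (nat_lit 272)) (XT.lf (nat_lit 0) (nat_lit 602162771) (nat_lit 504) (nat_lit 4298470540) (nat_lit 504) (nat_lit 3072263323) (nat_lit 86) (nat_lit 4) (nat_lit 92) (nat_lit 5) (nat_lit 92) (nat_lit 4) (nat_lit 321) (nat_lit 272) (nat_lit 271)))) (XT.nd (nat_lit 188) (nat_lit 420) (nat_lit 0) (XT.nd (nat_lit 94) (nat_lit 504) (nat_lit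 0) (XT.lf (nat_lit 0) (nat_lit 5217268712) (nat_lit 504) (nat_lit 2637595262) (nat_lit 504) (nat_lit 222050297) (nat_lit 86) (nat_lit 4) (nat_lit 92) (nat_lit 5) (nat_lit 92) (nat_lit 4) (nat_lit 322) (nat_lit 272) (nat_lit 270)) (XT.lf (nat_lit 0) (nat_lit 1705985571) (nat_lit 420) (nat_lit 891310046) (nat_lit 504) (nat_lit 5588351671) (nat_lit 80) (nat_lit 5) (nat_lit 85) (nat_lit 5) (nat_lit 86) (nat_lit 4) (nat_lit 323) (nat_lit 272) (nat_lit 269))) (XT.nd (nat_lit 94) (nat_lit 420) (nat_lit 0) (XT.lf (nat_lit 0) (nat_lit 5458605202) (nat_lit 504) (nat_lit 1929107281) (nat_lit 0) (nat_lit 911550821) (nat_lit 80) (nat_lit 5) (nat_lit 86) (nat_lit 4) (nat_lit 80) (nat_lit 4) (nat_lit 324) (nat_lit 272) (nat_lit 268)) (XT.lf (nat_lit 0) (nat_lit 2716509189) (nat_lit 420) (nat_lit 5650579470) (nat_lit 420) (nat_lit 50907697) (nat_lit 75) (nat_lit 4) (nat_lit 80) (nat_lit 5) (nat_lit 80) (nat_lit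 4) (nat_lit 325) (nat_lit 272) (nat_lit 267)))))) (XT.nd (nat_lit 752) (nat_lit 1344) (nat_lit 0) (XT.nd (nat_lit 376) (nat_lit 756) (nat_lit 0) (XT.nd (nat_lit 188) (nat_lit 504) (nat_lit 0) (XT.nd (nat_lit 94) (nat_lit 420) (nat_lit 0) (XT.lf (nat_lit 0) (nat_lit 2711514043) (nat_lit 504) (nat_lit 1113554154) (nat_lit 84) (nat_lit 4716525968) (nat_lit 74) (nat_lit 5) (nat_lit 80) (nat_lit 5) (nat_lit 75) (nat_lit 4) (nat_lit 326) (nat_lit 272) (nat_lit 266)) (XT.lf (nat_lit 0) (nat_lit 3598804866) (nat_lit 420) (nat_lit 1920502422) (nat_lit 504) (nat_lit 3151196155) (nat_lit 69) (nat_lit 5) (nat_lit 74) (nat_lit 5) (nat_lit 75) (nat_lit 4) (nat_lit 327) (nat_lit 272) (nat_lit 265))) (XT.nd (nat_lit 94) (nat_lit 504) (nat_lit 0) (XT.lf (nat_lit 0) (nat_lit 8352623556) (nat_lit 504) (nat_lit 414019100) (nat_lit 0) (nat_lit 38945579) (nat_lit 69) (nat_lit 5) (nat_lit 75) (nat_lit 4) (nat_lit 69) (nat_lit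 4) (nat_lit 328) (nat_lit 272) (nat_lit 264)) (XT.lf (nat_lit 0) (nat_lit 2273143367) (nat_lit 504) (nat_lit 4600525863) (nat_lit 84) (nat_lit 2071005586) (nat_lit 63) (nat_lit 5) (nat_lit 69) (nat_lit 5) (nat_lit 64) (nat_lit 4) (nat_lit 329) (nat_lit 272) (nat_lit 263)))) (XT.nd (nat_lit 188) (nat_lit 420) (nat_lit 0) (XT.nd (nat_lit 94) (nat_lit 0) (nat_lit 0) (XT.lf (nat_lit 0) (nat_lit 78208238) (nat_lit 336) (nat_lit 4930123093) (nat_lit 420) (nat_lit 4081893186) (nat_lit 59) (nat_lit 5) (nat_lit 63) (nat_lit 5) (nat_lit 64) (nat_lit 4) (nat_lit 330) (nat_lit 272) (nat_lit 262)) (XT.lf (nat_lit 0) (nat_lit 4911067791) (nat_lit 336) (nat_lit 2895362862) (nat_lit 420) (nat_lit 1434774824) (nat_lit 59) (nat_lit 5) (nat_lit 63) (nat_lit 5) (nat_lit 64) (nat_lit 4) (nat_lit 331) (nat_lit 272) (nat_lit 261))) (XT.nd (nat_lit 94) (nat_lit 0) (nat_lit 0) (XT.lf (nat_lit 0) (nat_lit 404769270) (nat_lit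 336) (nat_lit 798850732) (nat_lit 420) (nat_lit 8195081315) (nat_lit 54) (nat_lit 5) (nat_lit 58) (nat_lit 5) (nat_lit 59) (nat_lit 5) (nat_lit 332) (nat_lit 272) (nat_lit 260)) (XT.lf (nat_lit 0) (nat_lit 3885477970) (nat_lit 420) (nat_lit 4298741067) (nat_lit 84) (nat_lit 1376889678) (nat_lit 54) (nat_lit 5) (nat_lit 59) (nat_lit 5) (nat_lit 55) (nat_lit 4) (nat_lit 333) (nat_lit 272) (nat_lit 259))))) (XT.nd (nat_lit 376) (nat_lit 588) (nat_lit 0) (XT.nd (nat_lit 188) (nat_lit 420) (nat_lit 0) (XT.nd (nat_lit 94) (nat_lit 0) (nat_lit 0) (XT.lf (nat_lit 0) (nat_lit 457041426) (nat_lit 336) (nat_lit 6140470848) (nat_lit 420) (nat_lit 3132893523) (nat_lit 50) (nat_lit 5) (nat_lit 54) (nat_lit 5) (nat_lit 55) (nat_lit 4) (nat_lit 334) (nat_lit 272) (nat_lit 258)) (XT.lf (nat_lit 0) (nat_lit 5366257468) (nat_lit 336) (nat_lit 4007696640) (nat_lit 420) (nat_lit 531813455) (nat_lit 50) (nat_lit 5) (nat_lit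 54) (nat_lit 5) (nat_lit 55) (nat_lit 4) (nat_lit 335) (nat_lit 272) (nat_lit 257))) (XT.nd (nat_lit 94) (nat_lit 0) (nat_lit 0) (XT.lf (nat_lit 0) (nat_lit 240546809) (nat_lit 336) (nat_lit 1804991934) (nat_lit 420) (nat_lit 8042452659) (nat_lit 45) (nat_lit 5) (nat_lit 49) (nat_lit 5) (nat_lit 50) (nat_lit 5) (nat_lit 336) (nat_lit 272) (nat_lit 256)) (XT.lf (nat_lit 0) (nat_lit 4681675255) (nat_lit 420) (nat_lit 5105050741) (nat_lit 84) (nat_lit 489470377) (nat_lit 45) (nat_lit 5) (nat_lit 50) (nat_lit 5) (nat_lit 46) (nat_lit 4) (nat_lit 337) (nat_lit 272) (nat_lit 255)))) (XT.nd (nat_lit 188) (nat_lit 336) (nat_lit 0) (XT.nd (nat_lit 94) (nat_lit 252) (nat_lit 0) (XT.lf (nat_lit 0) (nat_lit 7357316651) (nat_lit 420) (nat_lit 316673412) (nat_lit 84) (nat_lit 2797737373) (nat_lit 45) (nat_lit 5) (nat_lit 50) (nat_lit 5) (nat_lit 46) (nat_lit 4) (nat_lit 338) (nat_lit 272) (nat_lit 254)) (XT.lf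 (nat_lit 0) (nat_lit 4633409275) (nat_lit 252) (nat_lit 5469605886) (nat_lit 336) (nat_lit 570881883) (nat_lit 42) (nat_lit 5) (nat_lit 45) (nat_lit 5) (nat_lit 46) (nat_lit 4) (nat_lit 339) (nat_lit 272) (nat_lit 253))) (XT.nd (nat_lit 94) (nat_lit 252) (nat_lit 0) (XT.lf (nat_lit 0) (nat_lit 1954873303) (nat_lit 336) (nat_lit 1239607491) (nat_lit 84) (nat_lit 7689103266) (nat_lit 41) (nat_lit 5) (nat_lit 45) (nat_lit 5) (nat_lit 42) (nat_lit 5) (nat_lit 340) (nat_lit 272) (nat_lit 252)) (XT.nd (nat_lit 94) (nat_lit 0) (nat_lit 0) (XT.lf (nat_lit 0) (nat_lit 3700596025) (nat_lit 252) (nat_lit 826316286) (nat_lit 336) (nat_lit 6573464917) (nat_lit 38) (nat_lit 5) (nat_lit 41) (nat_lit 5) (nat_lit 42) (nat_lit 5) (nat_lit 341) (nat_lit 272) (nat_lit 251)) (XT.lf (nat_lit 0) (nat_lit 7151641379) (nat_lit 336) (nat_lit 2598530472) (nat_lit 84) (nat_lit 1574714622) (nat_lit 38) (nat_lit 5) (nat_lit 42)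 (nat_lit 5) (nat_lit 39) (nat_lit 4) (nat_lit 342) (nat_lit 272) (nat_lit 250))))))))
noncomputable def xc5 : XT := (XT.nd (nat_lit 53204) (nat_lit 0) (nat_lit 0) (XT.nd (nat_lit 52452) (nat_lit 0) (nat_lit 2100) (XT.nd (nat_lit 52076) (nat_lit 0) (nat_lit 3864) (XT.nd (nat_lit 51888) (nat_lit 0) (nat_lit 5376) (XT.nd (nat_lit 94) (nat_lit 84) (nat_lit 0) (XT.lf (nat_lit 0) (nat_lit 2312978230) (nat_lit 252) (nat_lit 7521705032) (nat_lit 336) (nat_lit 1722539332) (nat_lit 35) (nat_lit 5) (nat_lit 38) (nat_lit 5) (nat_lit 39) (nat_lit 4) (nat_lit 343) (nat_lit 272) (nat_lit 249)) (XT.lf (nat_lit 0) (nat_lit 761078369) (nat_lit 336) (nat_lit 4449556819) (nat_lit 84) (nat_lit 6586854661) (nat_lit 34) (nat_lit 5) (nat_lit 38) (nat_lit 5) (nat_lit 35) (nat_lit 5) (nat_lit 344) (nat_lit 272) (nat_lit 248))) (XT.nd (nat_lit 94) (nat_lit 84) (nat_lit 0) (XT.lf (nat_lit 0) (nat_lit 1383052270) (nat_lit 588)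 (nat_lit 1230380974) (nat_lit 588) (nat_lit 1230380974) (nat_lit 99) (nat_lit 4) (nat_lit 106) (nat_lit 5) (nat_lit 106) (nat_lit 4) (nat_lit 318) (nat_lit 273) (nat_lit 273)) (XT.lf (nat_lit 0) (nat_lit 378079799) (nat_lit 672) (nat_lit 535530378) (nat_lit 84) (nat_lit 6865957404) (nat_lit 98) (nat_lit 5) (nat_lit 106) (nat_lit 5) (nat_lit 99) (nat_lit 4) (nat_lit 319) (nat_lit 273) (nat_lit 272)))) (XT.nd (nat_lit 188) (nat_lit 504) (nat_lit 0) (XT.nd (nat_lit 94) (nat_lit 504) (nat_lit 0) (XT.lf (nat_lit 0) (nat_lit 3216981095) (nat_lit 588) (nat_lit 3931541338) (nat_lit 0) (nat_lit 726554235) (nat_lit 92) (nat_lit 5) (nat_lit 99) (nat_lit 4) (nat_lit 92) (nat_lit 4) (nat_lit 320) (nat_lit 273) (nat_lit 271)) (XT.lf (nat_lit 0) (nat_lit 508626883) (nat_lit 504) (nat_lit 5573473624) (nat_lit 504) (nat_lit 1893709018) (nat_lit 86) (nat_lit 4) (nat_lit 92) (nat_lit 5) (nat_lit 92) (nat_lit 4) (nat_lit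 321) (nat_lit 273) (nat_lit 270))) (XT.nd (nat_lit 94) (nat_lit 420) (nat_lit 0) (XT.lf (nat_lit 0) (nat_lit 897146177) (nat_lit 588) (nat_lit 3011237585) (nat_lit 84) (nat_lit 4172552926) (nat_lit 85) (nat_lit 5) (nat_lit 92) (nat_lit 5) (nat_lit 86) (nat_lit 4) (nat_lit 322) (nat_lit 273) (nat_lit 269)) (XT.lf (nat_lit 0) (nat_lit 1503836046) (nat_lit 420) (nat_lit 2167295787) (nat_lit 504) (nat_lit 4519893219) (nat_lit 80) (nat_lit 5) (nat_lit 85) (nat_lit 5) (nat_lit 86) (nat_lit 4) (nat_lit 323) (nat_lit 273) (nat_lit 268))))) (XT.nd (nat_lit 376) (nat_lit 840) (nat_lit 0) (XT.nd (nat_lit 188) (nat_lit 420) (nat_lit 0) (XT.nd (nat_lit 94) (nat_lit 504) (nat_lit 0) (XT.lf (nat_lit 0) (nat_lit 6133687664) (nat_lit 420) (nat_lit 351378265) (nat_lit 504) (nat_lit 1821195238) (nat_lit 80) (nat_lit 5) (nat_lit 85) (nat_lit 5) (nat_lit 86) (nat_lit 4) (nat_lit 324) (nat_lit 273) (nat_lit 267)) (XT.lf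 (nat_lit 0) (nat_lit 905040128) (nat_lit 504) (nat_lit 6008709893) (nat_lit 84) (nat_lit 1512452857) (nat_lit 74) (nat_lit 5) (nat_lit 80) (nat_lit 5) (nat_lit 75) (nat_lit 4) (nat_lit 325) (nat_lit 273) (nat_lit 266))) (XT.nd (nat_lit 94) (nat_lit 420) (nat_lit 0) (XT.lf (nat_lit 0) (nat_lit 3629554515) (nat_lit 504) (nat_lit 1465490234) (nat_lit 84) (nat_lit 3456021815) (nat_lit 74) (nat_lit 5) (nat_lit 80) (nat_lit 5) (nat_lit 75) (nat_lit 4) (nat_lit 326) (nat_lit 273) (nat_lit 265)) (XT.lf (nat_lit 0) (nat_lit 3195871484) (nat_lit 420) (nat_lit 3201706406) (nat_lit 504) (nat_lit 2283764866) (nat_lit 69) (nat_lit 5) (nat_lit 74) (nat_lit 5) (nat_lit 75) (nat_lit 4) (nat_lit 327) (nat_lit 273) (nat_lit 264)))) (XT.nd (nat_lit 188) (nat_lit 336) (nat_lit 0) (XT.nd (nat_lit 94) (nat_lit 420) (nat_lit 0) (XT.lf (nat_lit 0) (nat_lit 370112963) (nat_lit 504) (nat_lit 874808228) (nat_lit 84) (nat_lit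 7572621101) (nat_lit 68) (nat_lit 5) (nat_lit 74) (nat_lit 5) (nat_lit 69) (nat_lit 5) (nat_lit 328) (nat_lit 273) (nat_lit 263)) (XT.lf (nat_lit 0) (nat_lit 3034994389) (nat_lit 504) (nat_lit 5118976838) (nat_lit 84) (nat_lit 804255776) (nat_lit 63) (nat_lit 5) (nat_lit 69) (nat_lit 5) (nat_lit 64) (nat_lit 4) (nat_lit 329) (nat_lit 273) (nat_lit 262))) (XT.nd (nat_lit 94) (nat_lit 336) (nat_lit 0) (XT.lf (nat_lit 0) (nat_lit 5735422201) (nat_lit 504) (nat_lit 484488122) (nat_lit 84) (nat_lit 2885062585) (nat_lit 63) (nat_lit 5) (nat_lit 69) (nat_lit 5) (nat_lit 64) (nat_lit 4) (nat_lit 330) (nat_lit 273) (nat_lit 261)) (XT.lf (nat_lit 0) (nat_lit 4296171688) (nat_lit 336) (nat_lit 4199063342) (nat_lit 420) (nat_lit 762020788) (nat_lit 59) (nat_lit 5) (nat_lit 63) (nat_lit 5) (nat_lit 64) (nat_lit 4) (nat_lit 331) (nat_lit 273) (nat_lit 260)))))) (XT.nd (nat_lit 752) (nat_lit 672) (nat_lit 0) (XT.nd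 (nat_lit 376) (nat_lit 672) (nat_lit 0) (XT.nd (nat_lit 188) (nat_lit 336) (nat_lit 0) (XT.nd (nat_lit 94) (nat_lit 336) (nat_lit 0) (XT.lf (nat_lit 0) (nat_lit 1825985899) (nat_lit 420) (nat_lit 282756915) (nat_lit 84) (nat_lit 7307052054) (nat_lit 58) (nat_lit 5) (nat_lit 63) (nat_lit 5) (nat_lit 59) (nat_lit 5) (nat_lit 332) (nat_lit 273) (nat_lit 259)) (XT.lf (nat_lit 0) (nat_lit 4459626012) (nat_lit 420) (nat_lit 5038582437) (nat_lit 84) (nat_lit 81593571) (nat_lit 54) (nat_lit 5) (nat_lit 59) (nat_lit 5) (nat_lit 55) (nat_lit 4) (nat_lit 333) (nat_lit 273) (nat_lit 258))) (XT.nd (nat_lit 94) (nat_lit 336) (nat_lit 0) (XT.lf (nat_lit 0) (nat_lit 7135766928) (nat_lit 420) (nat_lit 333077559) (nat_lit 84) (nat_lit 2281469153) (nat_lit 54) (nat_lit 5) (nat_lit 59) (nat_lit 5) (nat_lit 55) (nat_lit 4) (nat_lit 334) (nat_lit 273) (nat_lit 257)) (XT.lf (nat_lit 0) (nat_lit 4528636262) (nat_lit 336)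 (nat_lit 5349380531) (nat_lit 420) (nat_lit 48817343) (nat_lit 50) (nat_lit 5) (nat_lit 54) (nat_lit 5) (nat_lit 55) (nat_lit 4) (nat_lit 335) (nat_lit 273) (nat_lit 256)))) (XT.nd (nat_lit 188) (nat_lit 252) (nat_lit 0) (XT.nd (nat_lit 94) (nat_lit 336) (nat_lit 0) (XT.lf (nat_lit 0) (nat_lit 2486124522) (nat_lit 420) (nat_lit 667925742) (nat_lit 84) (nat_lit 6955965161) (nat_lit 49) (nat_lit 5) (nat_lit 54) (nat_lit 5) (nat_lit 50) (nat_lit 5) (nat_lit 336) (nat_lit 273) (nat_lit 255)) (XT.lf (nat_lit 0) (nat_lit 4214307766) (nat_lit 336) (nat_lit 866459495) (nat_lit 420) (nat_lit 5218829574) (nat_lit 45) (nat_lit 5) (nat_lit 49) (nat_lit 5) (nat_lit 50) (nat_lit 5) (nat_lit 337) (nat_lit 273) (nat_lit 254))) (XT.nd (nat_lit 94) (nat_lit 252) (nat_lit 0) (XT.lf (nat_lit 0) (nat_lit 7718836531) (nat_lit 420) (nat_lit 1327748758) (nat_lit 84) (nat_lit 1449794771) (nat_lit 45) (nat_lit 5) (nat_lit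 50) (nat_lit 5) (nat_lit 46) (nat_lit 4) (nat_lit 338) (nat_lit 273) (nat_lit 253)) (XT.lf (nat_lit 0) (nat_lit 3562510961) (nat_lit 252) (nat_lit 6863295163) (nat_lit 336) (nat_lit 274028937) (nat_lit 42) (nat_lit 5) (nat_lit 45) (nat_lit 5) (nat_lit 46) (nat_lit 4) (nat_lit 339) (nat_lit 273) (nat_lit 252))))) (XT.nd (nat_lit 376) (nat_lit 84) (nat_lit 0) (XT.nd (nat_lit 188) (nat_lit 252) (nat_lit 0) (XT.nd (nat_lit 94) (nat_lit 252) (nat_lit 0) (XT.lf (nat_lit 0) (nat_lit 2217746111) (nat_lit 336) (nat_lit 2377903674) (nat_lit 84) (nat_lit 6314728752) (nat_lit 41) (nat_lit 5) (nat_lit 45) (nat_lit 5) (nat_lit 42) (nat_lit 5) (nat_lit 340) (nat_lit 273) (nat_lit 251)) (XT.lf (nat_lit 0) (nat_lit 2500769033) (nat_lit 252) (nat_lit 2249956320) (nat_lit 336) (nat_lit 6377734582) (nat_lit 38) (nat_lit 5) (nat_lit 41) (nat_lit 5) (nat_lit 42) (nat_lit 5) (nat_lit 341) (nat_lit 273) (nat_lit 250)))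 (XT.nd (nat_lit 94) (nat_lit 252) (nat_lit 0) (XT.lf (nat_lit 0) (nat_lit 7334522239) (nat_lit 336) (nat_lit 3850097340) (nat_lit 84) (nat_lit 169693546) (nat_lit 38) (nat_lit 5) (nat_lit 42) (nat_lit 5) (nat_lit 39) (nat_lit 4) (nat_lit 342) (nat_lit 273) (nat_lit 249)) (XT.lf (nat_lit 0) (nat_lit 998279212) (nat_lit 252) (nat_lit 8980239544) (nat_lit 336) (nat_lit 1609413690) (nat_lit 35) (nat_lit 5) (nat_lit 38) (nat_lit 5) (nat_lit 39) (nat_lit 4) (nat_lit 343) (nat_lit 273) (nat_lit 248)))) (XT.nd (nat_lit 51700) (nat_lit 0) (nat_lit 5376) (XT.nd (nat_lit 51606) (nat_lit 0) (nat_lit 6048) (XT.lf (nat_lit 0) (nat_lit 846012608) (nat_lit 336) (nat_lit 5832962105) (nat_lit 84) (nat_lit 5150061956) (nat_lit 34) (nat_lit 5) (nat_lit 38) (nat_lit 5) (nat_lit 35) (nat_lit 5) (nat_lit 344) (nat_lit 273) (nat_lit 247)) (XT.lf (nat_lit 0) (nat_lit 405911846) (nat_lit 588) (nat_lit 2946731730) (nat_lit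 0) (nat_lit 405911846) (nat_lit 106) (nat_lit 5) (nat_lit 113) (nat_lit 4) (nat_lit 106) (nat_lit 4) (nat_lit 316) (nat_lit 274) (nat_lit 274))) (XT.nd (nat_lit 94) (nat_lit 672) (nat_lit 0) (XT.lf (nat_lit 0) (nat_lit 3654744810) (nat_lit 588) (nat_lit 1635068962) (nat_lit 0) (nat_lit 2310928636) (nat_lit 106) (nat_lit 5) (nat_lit 113) (nat_lit 4) (nat_lit 106) (nat_lit 4) (nat_lit 317) (nat_lit 274) (nat_lit 273)) (XT.nd (nat_lit 94) (nat_lit 84) (nat_lit 0) (XT.lf (nat_lit 0) (nat_lit 2721597675) (nat_lit 588) (nat_lit 3807369062) (nat_lit 588) (nat_lit 1160142437) (nat_lit 99) (nat_lit 4) (nat_lit 106) (nat_lit 5) (nat_lit 106) (nat_lit 4) (nat_lit 318) (nat_lit 274) (nat_lit 272)) (XT.lf (nat_lit 0) (nat_lit 1611441041) (nat_lit 672) (nat_lit 638609510) (nat_lit 84) (nat_lit 5532046895) (nat_lit 98) (nat_lit 5) (nat_lit 106) (nat_lit 5) (nat_lit 99) (nat_lit 4) (nat_lit 319) (nat_lit 274) (nat_lit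 271))))))))
noncomputable def xc6 : XT := (XT.nd (nat_lit 1504) (nat_lit 1260) (nat_lit 0) (XT.nd (nat_lit 752) (nat_lit 1680) (nat_lit 0) (XT.nd (nat_lit 376) (nat_lit 924) (nat_lit 0) (XT.nd (nat_lit 188) (nat_lit 504) (nat_lit 0) (XT.nd (nat_lit 94) (nat_lit 504) (nat_lit 0) (XT.lf (nat_lit 0) (nat_lit 3802178571) (nat_lit 504) (nat_lit 599511263) (nat_lit 588) (nat_lit 3477596058) (nat_lit 92) (nat_lit 5) (nat_lit 98) (nat_lit 5) (nat_lit 99) (nat_lit 4) (nat_lit 320) (nat_lit 274) (nat_lit 270)) (XT.lf (nat_lit 0) (nat_lit 321467922) (nat_lit 504) (nat_lit 6898461012) (nat_lit 504) (nat_lit 761709090) (nat_lit 86) (nat_lit 4) (nat_lit 92) (nat_lit 5) (nat_lit 92) (nat_lit 4) (nat_lit 321) (nat_lit 274) (nat_lit 269))) (XT.nd (nat_lit 94) (nat_lit 420) (nat_lit 0) (XT.lf (nat_lit 0) (nat_lit 1967457736) (nat_lit 588) (nat_lit 3259736495) (nat_lit 84) (nat_lit 2860584306) (nat_lit 85) (nat_lit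 5) (nat_lit 92) (nat_lit 5) (nat_lit 86) (nat_lit 4) (nat_lit 322) (nat_lit 274) (nat_lit 268)) (XT.lf (nat_lit 0) (nat_lit 1206393934) (nat_lit 420) (nat_lit 3494386776) (nat_lit 504) (nat_lit 3498498192) (nat_lit 80) (nat_lit 5) (nat_lit 85) (nat_lit 5) (nat_lit 86) (nat_lit 4) (nat_lit 323) (nat_lit 274) (nat_lit 267)))) (XT.nd (nat_lit 188) (nat_lit 420) (nat_lit 0) (XT.nd (nat_lit 94) (nat_lit 504) (nat_lit 0) (XT.lf (nat_lit 0) (nat_lit 5793729978) (nat_lit 420) (nat_lit 1683984970) (nat_lit 504) (nat_lit 838093969) (nat_lit 80) (nat_lit 5) (nat_lit 85) (nat_lit 5) (nat_lit 86) (nat_lit 4) (nat_lit 324) (nat_lit 274) (nat_lit 266)) (XT.lf (nat_lit 0) (nat_lit 1814658179) (nat_lit 504) (nat_lit 6415764336) (nat_lit 84) (nat_lit 206827942) (nat_lit 74) (nat_lit 5) (nat_lit 80) (nat_lit 5) (nat_lit 75) (nat_lit 4) (nat_lit 325) (nat_lit 274) (nat_lit 265))) (XT.nd (nat_lit 94) (nat_lit 420) (nat_lit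 0) (XT.lf (nat_lit 0) (nat_lit 4503399844) (nat_lit 504) (nat_lit 1915423769) (nat_lit 84) (nat_lit 2144533532) (nat_lit 74) (nat_lit 5) (nat_lit 80) (nat_lit 5) (nat_lit 75) (nat_lit 4) (nat_lit 326) (nat_lit 274) (nat_lit 264)) (XT.lf (nat_lit 0) (nat_lit 2694241412) (nat_lit 420) (nat_lit 4537508462) (nat_lit 504) (nat_lit 1463243353) (nat_lit 69) (nat_lit 5) (nat_lit 74) (nat_lit 5) (nat_lit 75) (nat_lit 4) (nat_lit 327) (nat_lit 274) (nat_lit 263))))) (XT.nd (nat_lit 376) (nat_lit 840) (nat_lit 0) (XT.nd (nat_lit 188) (nat_lit 336) (nat_lit 0) (XT.nd (nat_lit 94) (nat_lit 420) (nat_lit 0) (XT.lf (nat_lit 0) (nat_lit 1139568611) (nat_lit 504) (nat_lit 1440229604) (nat_lit 84) (nat_lit 6252335093) (nat_lit 68) (nat_lit 5) (nat_lit 74) (nat_lit 5) (nat_lit 69) (nat_lit 5) (nat_lit 328) (nat_lit 274) (nat_lit 262)) (XT.lf (nat_lit 0) (nat_lit 3229021413) (nat_lit 420) (nat_lit 527653620) (nat_lit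 504) (nat_lit 5217742650) (nat_lit 63) (nat_lit 5) (nat_lit 68) (nat_lit 5) (nat_lit 69) (nat_lit 5) (nat_lit 329) (nat_lit 274) (nat_lit 261))) (XT.nd (nat_lit 94) (nat_lit 336) (nat_lit 0) (XT.lf (nat_lit 0) (nat_lit 6418905975) (nat_lit 504) (nat_lit 1147059842) (nat_lit 84) (nat_lit 1556496944) (nat_lit 63) (nat_lit 5) (nat_lit 69) (nat_lit 5) (nat_lit 64) (nat_lit 4) (nat_lit 330) (nat_lit 274) (nat_lit 260)) (XT.lf (nat_lit 0) (nat_lit 3579008461) (nat_lit 336) (nat_lit 5560624627) (nat_lit 420) (nat_lit 136435851) (nat_lit 59) (nat_lit 5) (nat_lit 63) (nat_lit 5) (nat_lit 64) (nat_lit 4) (nat_lit 331) (nat_lit 274) (nat_lit 259)))) (XT.nd (nat_lit 188) (nat_lit 420) (nat_lit 0) (XT.nd (nat_lit 94) (nat_lit 336) (nat_lit 0) (XT.lf (nat_lit 0) (nat_lit 2407135187) (nat_lit 420) (nat_lit 1065434526) (nat_lit 84) (nat_lit 5962937671) (nat_lit 58) (nat_lit 5) (nat_lit 63) (nat_lit 5) (nat_lit 59)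 (nat_lit 5) (nat_lit 332) (nat_lit 274) (nat_lit 258)) (XT.lf (nat_lit 0) (nat_lit 3703214782) (nat_lit 336) (nat_lit 1297538496) (nat_lit 420) (nat_lit 4600103784) (nat_lit 54) (nat_lit 5) (nat_lit 58) (nat_lit 5) (nat_lit 59) (nat_lit 5) (nat_lit 333) (nat_lit 274) (nat_lit 257))) (XT.nd (nat_lit 94) (nat_lit 420) (nat_lit 0) (XT.lf (nat_lit 0) (nat_lit 7633605884) (nat_lit 420) (nat_lit 1219100044) (nat_lit 84) (nat_lit 920103472) (nat_lit 54) (nat_lit 5) (nat_lit 59) (nat_lit 5) (nat_lit 55) (nat_lit 4) (nat_lit 334) (nat_lit 274) (nat_lit 256)) (XT.lf (nat_lit 0) (nat_lit 378577597) (nat_lit 420) (nat_lit 6369498988) (nat_lit 84) (nat_lit 3202435070) (nat_lit 49) (nat_lit 5) (nat_lit 54) (nat_lit 5) (nat_lit 50) (nat_lit 5) (nat_lit 335) (nat_lit 274) (nat_lit 255)))))) (XT.nd (nat_lit 752) (nat_lit 336) (nat_lit 0) (XT.nd (nat_lit 376) (nat_lit 336) (nat_lit 0) (XT.nd (nat_lit 188) (nat_lit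 252) (nat_lit 0) (XT.nd (nat_lit 94) (nat_lit 336) (nat_lit 0) (XT.lf (nat_lit 0) (nat_lit 2883153959) (nat_lit 420) (nat_lit 1678650903) (nat_lit 84) (nat_lit 5572874043) (nat_lit 49) (nat_lit 5) (nat_lit 54) (nat_lit 5) (nat_lit 50) (nat_lit 5) (nat_lit 336) (nat_lit 274) (nat_lit 254)) (XT.lf (nat_lit 0) (nat_lit 3144254477) (nat_lit 336) (nat_lit 2294428670) (nat_lit 420) (nat_lit 4886877115) (nat_lit 45) (nat_lit 5) (nat_lit 49) (nat_lit 5) (nat_lit 50) (nat_lit 5) (nat_lit 337) (nat_lit 274) (nat_lit 253))) (XT.nd (nat_lit 94) (nat_lit 252) (nat_lit 0) (XT.lf (nat_lit 0) (nat_lit 8034481313) (nat_lit 420) (nat_lit 2447846596) (nat_lit 84) (nat_lit 41410779) (nat_lit 45) (nat_lit 5) (nat_lit 50) (nat_lit 5) (nat_lit 46) (nat_lit 4) (nat_lit 338) (nat_lit 274) (nat_lit 252)) (XT.lf (nat_lit 0) (nat_lit 2381522076) (nat_lit 252) (nat_lit 8320952875) (nat_lit 336) (nat_lit 26009239) (nat_lit 42)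 (nat_lit 5) (nat_lit 45) (nat_lit 5) (nat_lit 46) (nat_lit 4) (nat_lit 339) (nat_lit 274) (nat_lit 251)))) (XT.nd (nat_lit 188) (nat_lit 0) (nat_lit 0) (XT.nd (nat_lit 94) (nat_lit 252) (nat_lit 0) (XT.lf (nat_lit 0) (nat_lit 2433611431) (nat_lit 336) (nat_lit 3627359042) (nat_lit 84) (nat_lit 4878900174) (nat_lit 41) (nat_lit 5) (nat_lit 45) (nat_lit 5) (nat_lit 42) (nat_lit 5) (nat_lit 340) (nat_lit 274) (nat_lit 250)) (XT.lf (nat_lit 0) (nat_lit 1188643538) (nat_lit 252) (nat_lit 3738589916) (nat_lit 336) (nat_lit 6232013712) (nat_lit 38) (nat_lit 5) (nat_lit 41) (nat_lit 5) (nat_lit 42) (nat_lit 5) (nat_lit 341) (nat_lit 274) (nat_lit 249))) (XT.nd (nat_lit 94) (nat_lit 0) (nat_lit 0) (XT.lf (nat_lit 0) (nat_lit 6157994655) (nat_lit 252) (nat_lit 1325413127) (nat_lit 336) (nat_lit 3902621666) (nat_lit 38) (nat_lit 5) (nat_lit 41) (nat_lit 5) (nat_lit 42) (nat_lit 5) (nat_lit 342) (nat_lit 274)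 (nat_lit 248)) (XT.lf (nat_lit 0) (nat_lit 10079131460) (nat_lit 336) (nat_lit 422165171) (nat_lit 84) (nat_lit 1119919200) (nat_lit 38) (nat_lit 5) (nat_lit 42) (nat_lit 5) (nat_lit 39) (nat_lit 4) (nat_lit 343) (nat_lit 274) (nat_lit 247))))) (XT.nd (nat_lit 51700) (nat_lit 0) (nat_lit 4284) (XT.nd (nat_lit 51512) (nat_lit 0) (nat_lit 6048) (XT.nd (nat_lit 51418) (nat_lit 0) (nat_lit 6636) (XT.lf (nat_lit 0) (nat_lit 882534587) (nat_lit 336) (nat_lit 7331892618) (nat_lit 84) (nat_lit 3648851539) (nat_lit 34) (nat_lit 5) (nat_lit 38) (nat_lit 5) (nat_lit 35) (nat_lit 5) (nat_lit 344) (nat_lit 274) (nat_lit 246)) (XT.lf (nat_lit 0) (nat_lit 272709232) (nat_lit 1092) (nat_lit 1703755771) (nat_lit 1092) (nat_lit 1703755771) (nat_lit 113) (nat_lit 4) (nat_lit 126) (nat_lit 5) (nat_lit 126) (nat_lit 4) (nat_lit 314) (nat_lit 275) (nat_lit 275))) (XT.nd (nat_lit 94) (nat_lit 588) (nat_lit 0) (XT.lf (nat_lit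 0) (nat_lit 4790970829) (nat_lit 1092) (nat_lit 2037386991) (nat_lit 1092) (nat_lit 608962806) (nat_lit 113) (nat_lit 4) (nat_lit 126) (nat_lit 5) (nat_lit 126) (nat_lit 4) (nat_lit 315) (nat_lit 275) (nat_lit 274)) (XT.lf (nat_lit 0) (nat_lit 1574200761) (nat_lit 504) (nat_lit 586360253) (nat_lit 588) (nat_lit 5357882040) (nat_lit 106) (nat_lit 5) (nat_lit 112) (nat_lit 5) (nat_lit 113) (nat_lit 4) (nat_lit 316) (nat_lit 275) (nat_lit 273)))) (XT.nd (nat_lit 188) (nat_lit 1092) (nat_lit 0) (XT.nd (nat_lit 94) (nat_lit 672) (nat_lit 0) (XT.lf (nat_lit 0) (nat_lit 4956390954) (nat_lit 588) (nat_lit 1723641181) (nat_lit 0) (nat_lit 923689854) (nat_lit 106) (nat_lit 5) (nat_lit 113) (nat_lit 4) (nat_lit 106) (nat_lit 4) (nat_lit 317) (nat_lit 275) (nat_lit 272)) (XT.lf (nat_lit 0) (nat_lit 93773604) (nat_lit 672) (nat_lit 5106466550) (nat_lit 84) (nat_lit 2493283182) (nat_lit 98) (nat_lit 5) (nat_lit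 106) (nat_lit 5) (nat_lit 99) (nat_lit 4) (nat_lit 318) (nat_lit 275) (nat_lit 271))) (XT.nd (nat_lit 94) (nat_lit 1092) (nat_lit 0) (XT.lf (nat_lit 0) (nat_lit 2802163514) (nat_lit 672) (nat_lit 831933862) (nat_lit 84) (nat_lit 4153462991) (nat_lit 98) (nat_lit 5) (nat_lit 106) (nat_lit 5) (nat_lit 99) (nat_lit 4) (nat_lit 319) (nat_lit 275) (nat_lit 270)) (XT.nd (nat_lit 94) (nat_lit 588) (nat_lit 0) (XT.lf (nat_lit 0) (nat_lit 3562452454) (nat_lit 504) (nat_lit 1988959737) (nat_lit 588) (nat_lit 2334773609) (nat_lit 92) (nat_lit 5) (nat_lit 98) (nat_lit 5) (nat_lit 99) (nat_lit 4) (nat_lit 320) (nat_lit 275) (nat_lit 269)) (XT.lf (nat_lit 0) (nat_lit 34255910) (nat_lit 504) (nat_lit 286837326) (nat_lit 588) (nat_lit 7669106235) (nat_lit 85) (nat_lit 5) (nat_lit 91) (nat_lit 5) (nat_lit 92) (nat_lit 5) (nat_lit 321) (nat_lit 275) (nat_lit 268))))))))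
noncomputable def xc7 : XT := (XT.nd (nat_lit 1598) (nat_lit 924) (nat_lit 0) (XT.nd (nat_lit 752) (nat_lit 1512) (nat_lit 0) (XT.nd (nat_lit 376) (nat_lit 924) (nat_lit 0) (XT.nd (nat_lit 188) (nat_lit 504) (nat_lit 0) (XT.nd (nat_lit 94) (nat_lit 420) (nat_lit 0) (XT.lf (nat_lit 0) (nat_lit 2994355842) (nat_lit 588) (nat_lit 3603171148) (nat_lit 84) (nat_lit 1499987491) (nat_lit 85) (nat_lit 5) (nat_lit 92) (nat_lit 5) (nat_lit 86) (nat_lit 4) (nat_lit 322) (nat_lit 275) (nat_lit 267)) (XT.lf (nat_lit 0) (nat_lit 813381987) (nat_lit 420) (nat_lit 4873820003) (nat_lit 504) (nat_lit 2523214542) (nat_lit 80) (nat_lit 5) (nat_lit 85) (nat_lit 5) (nat_lit 86) (nat_lit 4) (nat_lit 323) (nat_lit 275) (nat_lit 266))) (XT.nd (nat_lit 94) (nat_lit 420) (nat_lit 0) (XT.lf (nat_lit 0) (nat_lit 98031604) (nat_lit 504) (nat_lit 2969713212) (nat_lit 84) (nat_lit 5260425958) (nat_lit 79) (nat_lit 5) (nat_lit 85)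 (nat_lit 5) (nat_lit 80) (nat_lit 5) (nat_lit 324) (nat_lit 275) (nat_lit 265)) (XT.lf (nat_lit 0) (nat_lit 1516624188) (nat_lit 420) (nat_lit 1174850464) (nat_lit 504) (nat_lit 5759329101) (nat_lit 74) (nat_lit 5) (nat_lit 79) (nat_lit 5) (nat_lit 80) (nat_lit 5) (nat_lit 325) (nat_lit 275) (nat_lit 264)))) (XT.nd (nat_lit 188) (nat_lit 504) (nat_lit 0) (XT.nd (nat_lit 94) (nat_lit 420) (nat_lit 0) (XT.lf (nat_lit 0) (nat_lit 5333864543) (nat_lit 504) (nat_lit 2463774145) (nat_lit 84) (nat_lit 780838675) (nat_lit 74) (nat_lit 5) (nat_lit 80) (nat_lit 5) (nat_lit 75) (nat_lit 4) (nat_lit 326) (nat_lit 275) (nat_lit 263)) (XT.lf (nat_lit 0) (nat_lit 2093447079) (nat_lit 420) (nat_lit 5929153698) (nat_lit 504) (nat_lit 688866803) (nat_lit 69) (nat_lit 5) (nat_lit 74) (nat_lit 5) (nat_lit 75) (nat_lit 4) (nat_lit 327) (nat_lit 275) (nat_lit 262))) (XT.nd (nat_lit 94) (nat_lit 420) (nat_lit 0) (XT.lf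 (nat_lit 0) (nat_lit 1864847385) (nat_lit 504) (nat_lit 2105918473) (nat_lit 84) (nat_lit 4878760672) (nat_lit 68) (nat_lit 5) (nat_lit 74) (nat_lit 5) (nat_lit 69) (nat_lit 5) (nat_lit 328) (nat_lit 275) (nat_lit 261)) (XT.lf (nat_lit 0) (nat_lit 2509318782) (nat_lit 420) (nat_lit 1933006819) (nat_lit 504) (nat_lit 4550828849) (nat_lit 63) (nat_lit 5) (nat_lit 68) (nat_lit 5) (nat_lit 69) (nat_lit 5) (nat_lit 329) (nat_lit 275) (nat_lit 260))))) (XT.nd (nat_lit 376) (nat_lit 756) (nat_lit 0) (XT.nd (nat_lit 188) (nat_lit 336) (nat_lit 0) (XT.nd (nat_lit 94) (nat_lit 420) (nat_lit 0) (XT.lf (nat_lit 0) (nat_lit 7058643897) (nat_lit 504) (nat_lit 1911700228) (nat_lit 84) (nat_lit 172390305) (nat_lit 63) (nat_lit 5) (nat_lit 69) (nat_lit 5) (nat_lit 64) (nat_lit 4) (nat_lit 330) (nat_lit 275) (nat_lit 259)) (XT.lf (nat_lit 0) (nat_lit 433646436) (nat_lit 420) (nat_lit 6543143018) (nat_lit 84) (nat_lit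 2320736823) (nat_lit 58) (nat_lit 5) (nat_lit 63) (nat_lit 5) (nat_lit 59) (nat_lit 5) (nat_lit 331) (nat_lit 275) (nat_lit 258))) (XT.nd (nat_lit 94) (nat_lit 336) (nat_lit 0) (XT.lf (nat_lit 0) (nat_lit 2943594197) (nat_lit 420) (nat_lit 1952148298) (nat_lit 84) (nat_lit 4562239218) (nat_lit 58) (nat_lit 5) (nat_lit 63) (nat_lit 5) (nat_lit 59) (nat_lit 5) (nat_lit 332) (nat_lit 275) (nat_lit 257)) (XT.lf (nat_lit 0) (nat_lit 2759388237) (nat_lit 336) (nat_lit 2738515103) (nat_lit 420) (nat_lit 4126745409) (nat_lit 54) (nat_lit 5) (nat_lit 58) (nat_lit 5) (nat_lit 59) (nat_lit 5) (nat_lit 333) (nat_lit 275) (nat_lit 256)))) (XT.nd (nat_lit 188) (nat_lit 336) (nat_lit 0) (XT.nd (nat_lit 94) (nat_lit 420) (nat_lit 0) (XT.lf (nat_lit 0) (nat_lit 7581775727) (nat_lit 336) (nat_lit 510245241) (nat_lit 420) (nat_lit 1705876712) (nat_lit 54) (nat_lit 5) (nat_lit 58) (nat_lit 5) (nat_lit 59) (nat_lit 5)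 (nat_lit 334) (nat_lit 275) (nat_lit 255)) (XT.lf (nat_lit 0) (nat_lit 758533003) (nat_lit 420) (nat_lit 7450496405) (nat_lit 84) (nat_lit 1767911271) (nat_lit 49) (nat_lit 5) (nat_lit 54) (nat_lit 5) (nat_lit 50) (nat_lit 5) (nat_lit 335) (nat_lit 275) (nat_lit 254))) (XT.nd (nat_lit 94) (nat_lit 336) (nat_lit 0) (XT.lf (nat_lit 0) (nat_lit 3234610875) (nat_lit 420) (nat_lit 2797417259) (nat_lit 84) (nat_lit 4130050675) (nat_lit 49) (nat_lit 5) (nat_lit 54) (nat_lit 5) (nat_lit 50) (nat_lit 5) (nat_lit 336) (nat_lit 275) (nat_lit 253)) (XT.nd (nat_lit 94) (nat_lit 0) (nat_lit 0) (XT.lf (nat_lit 0) (nat_lit 1965097429) (nat_lit 336) (nat_lit 3785703648) (nat_lit 420) (nat_lit 4603463392) (nat_lit 45) (nat_lit 5) (nat_lit 49) (nat_lit 5) (nat_lit 50) (nat_lit 5) (nat_lit 337) (nat_lit 275) (nat_lit 252)) (XT.lf (nat_lit 0) (nat_lit 6860904861) (nat_lit 336) (nat_lit 1458104931) (nat_lit 420) (nat_lit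 2234370623) (nat_lit 45) (nat_lit 5) (nat_lit 49) (nat_lit 5) (nat_lit 50) (nat_lit 5) (nat_lit 338) (nat_lit 275) (nat_lit 251))))))) (XT.nd (nat_lit 51888) (nat_lit 0) (nat_lit 4284) (XT.nd (nat_lit 376) (nat_lit 336) (nat_lit 0) (XT.nd (nat_lit 188) (nat_lit 252) (nat_lit 0) (XT.nd (nat_lit 94) (nat_lit 0) (nat_lit 0) (XT.lf (nat_lit 0) (nat_lit 169914597) (nat_lit 336) (nat_lit 9672249552) (nat_lit 84) (nat_lit 917653656) (nat_lit 41) (nat_lit 5) (nat_lit 45) (nat_lit 5) (nat_lit 42) (nat_lit 5) (nat_lit 339) (nat_lit 275) (nat_lit 250)) (XT.lf (nat_lit 0) (nat_lit 2602670469) (nat_lit 336) (nat_lit 4989138217) (nat_lit 84) (nat_lit 3380279190) (nat_lit 41) (nat_lit 5) (nat_lit 45) (nat_lit 5) (nat_lit 42) (nat_lit 5) (nat_lit 340) (nat_lit 275) (nat_lit 249))) (XT.nd (nat_lit 94) (nat_lit 252) (nat_lit 0) (XT.lf (nat_lit 0) (nat_lit 5058952243) (nat_lit 336) (nat_lit 232228405) (nat_lit 84)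 (nat_lit 5901514088) (nat_lit 41) (nat_lit 5) (nat_lit 45) (nat_lit 5) (nat_lit 42) (nat_lit 5) (nat_lit 341) (nat_lit 275) (nat_lit 248)) (XT.lf (nat_lit 0) (nat_lit 4697559171) (nat_lit 252) (nat_lit 2890090628) (nat_lit 336) (nat_lit 3832749602) (nat_lit 38) (nat_lit 5) (nat_lit 41) (nat_lit 5) (nat_lit 42) (nat_lit 5) (nat_lit 342) (nat_lit 275) (nat_lit 247)))) (XT.nd (nat_lit 51324) (nat_lit 0) (nat_lit 7728) (XT.nd (nat_lit 94) (nat_lit 336) (nat_lit 0) (XT.lf (nat_lit 0) (nat_lit 9716562404) (nat_lit 252) (nat_lit 431102704) (nat_lit 336) (nat_lit 1509096114) (nat_lit 38) (nat_lit 5) (nat_lit 41) (nat_lit 5) (nat_lit 42) (nat_lit 5) (nat_lit 343) (nat_lit 275) (nat_lit 246)) (XT.lf (nat_lit 0) (nat_lit 870678347) (nat_lit 336) (nat_lit 8947745519) (nat_lit 84) (nat_lit 2081824126) (nat_lit 34) (nat_lit 5) (nat_lit 38) (nat_lit 5) (nat_lit 35) (nat_lit 5) (nat_lit 344) (nat_lit 275) (nat_lit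 245))) (XT.nd (nat_lit 94) (nat_lit 1092) (nat_lit 0) (XT.lf (nat_lit 0) (nat_lit 3411112046) (nat_lit 924) (nat_lit 99040439) (nat_lit 924) (nat_lit 99040439) (nat_lit 139) (nat_lit 4) (nat_lit 150) (nat_lit 5) (nat_lit 150) (nat_lit 4) (nat_lit 312) (nat_lit 276) (nat_lit 276)) (XT.lf (nat_lit 0) (nat_lit 2588667302) (nat_lit 1092) (nat_lit 3583137626) (nat_lit 0) (nat_lit 1115961968) (nat_lit 126) (nat_lit 5) (nat_lit 139) (nat_lit 4) (nat_lit 126) (nat_lit 4) (nat_lit 313) (nat_lit 276) (nat_lit 275))))) (XT.nd (nat_lit 376) (nat_lit 1764) (nat_lit 0) (XT.nd (nat_lit 188) (nat_lit 504) (nat_lit 0) (XT.nd (nat_lit 94) (nat_lit 84) (nat_lit 0) (XT.lf (nat_lit 0) (nat_lit 502607239) (nat_lit 1092) (nat_lit 4880247776) (nat_lit 1092) (nat_lit 1979118257) (nat_lit 113) (nat_lit 4) (nat_lit 126) (nat_lit 5) (nat_lit 126) (nat_lit 4) (nat_lit 314) (nat_lit 276) (nat_lit 274)) (XT.lf (nat_lit 0) (nat_lit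 760807045) (nat_lit 1176) (nat_lit 2741404884) (nat_lit 84) (nat_lit 3937887309) (nat_lit 112) (nat_lit 5) (nat_lit 126) (nat_lit 5) (nat_lit 113) (nat_lit 4) (nat_lit 315) (nat_lit 276) (nat_lit 273))) (XT.nd (nat_lit 94) (nat_lit 0) (nat_lit 0) (XT.lf (nat_lit 0) (nat_lit 1428873777) (nat_lit 504) (nat_lit 2046898721) (nat_lit 588) (nat_lit 4046760403) (nat_lit 106) (nat_lit 5) (nat_lit 112) (nat_lit 5) (nat_lit 113) (nat_lit 4) (nat_lit 316) (nat_lit 276) (nat_lit 272)) (XT.lf (nat_lit 0) (nat_lit 5703510510) (nat_lit 504) (nat_lit 518715550) (nat_lit 588) (nat_lit 1387298348) (nat_lit 106) (nat_lit 5) (nat_lit 112) (nat_lit 5) (nat_lit 113) (nat_lit 4) (nat_lit 317) (nat_lit 276) (nat_lit 271)))) (XT.nd (nat_lit 188) (nat_lit 1092) (nat_lit 0) (XT.nd (nat_lit 94) (nat_lit 0) (nat_lit 0) (XT.lf (nat_lit 0) (nat_lit 1281589188) (nat_lit 672) (nat_lit 5348644501) (nat_lit 84) (nat_lit 1070327446)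 (nat_lit 98) (nat_lit 5) (nat_lit 106) (nat_lit 5) (nat_lit 99) (nat_lit 4) (nat_lit 318) (nat_lit 276) (nat_lit 270)) (XT.lf (nat_lit 0) (nat_lit 3951357094) (nat_lit 672) (nat_lit 1115683631) (nat_lit 84) (nat_lit 2728920706) (nat_lit 98) (nat_lit 5) (nat_lit 106) (nat_lit 5) (nat_lit 99) (nat_lit 4) (nat_lit 319) (nat_lit 276) (nat_lit 269))) (XT.nd (nat_lit 94) (nat_lit 588) (nat_lit 0) (XT.lf (nat_lit 0) (nat_lit 3231717266) (nat_lit 504) (nat_lit 3428146850) (nat_lit 588) (nat_lit 1236146734) (nat_lit 92) (nat_lit 5) (nat_lit 98) (nat_lit 5) (nat_lit 99) (nat_lit 4) (nat_lit 320) (nat_lit 276) (nat_lit 268)) (XT.nd (nat_lit 94) (nat_lit 504) (nat_lit 0) (XT.lf (nat_lit 0) (nat_lit 1359986430) (nat_lit 588) (nat_lit 358724220) (nat_lit 84) (nat_lit 6282293039) (nat_lit 91) (nat_lit 5) (nat_lit 98) (nat_lit 5) (nat_lit 92) (nat_lit 5) (nat_lit 321) (nat_lit 276) (nat_lit 267)) (XT.lf (nat_lit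 0) (nat_lit 3978797671) (nat_lit 588) (nat_lit 4041861662) (nat_lit 84) (nat_lit 89494262) (nat_lit 85) (nat_lit 5) (nat_lit 92) (nat_lit 5) (nat_lit 86) (nat_lit 4) (nat_lit 322) (nat_lit 276) (nat_lit 266))))))))
noncomputable def xc8 : XT := (XT.nd (nat_lit 1504) (nat_lit 924) (nat_lit 0) (XT.nd (nat_lit 752) (nat_lit 1512) (nat_lit 0) (XT.nd (nat_lit 376) (nat_lit 924) (nat_lit 0) (XT.nd (nat_lit 188) (nat_lit 420) (nat_lit 0) (XT.nd (nat_lit 94) (nat_lit 84) (nat_lit 0) (XT.lf (nat_lit 0) (nat_lit 324433876) (nat_lit 420) (nat_lit 6306881244) (nat_lit 504) (nat_lit 1593133202) (nat_lit 80) (nat_lit 5) (nat_lit 85) (nat_lit 5) (nat_lit 86) (nat_lit 4) (nat_lit 323) (nat_lit 276) (nat_lit 265)) (XT.lf (nat_lit 0) (nat_lit 974074159) (nat_lit 504) (nat_lit 3522776820) (nat_lit 84) (nat_lit 3846293902) (nat_lit 79) (nat_lit 5) (nat_lit 85) (nat_lit 5) (nat_lit 80) (nat_lit 5) (nat_lit 324) (nat_lit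 276) (nat_lit 264))) (XT.nd (nat_lit 94) (nat_lit 0) (nat_lit 0) (XT.lf (nat_lit 0) (nat_lit 911744915) (nat_lit 420) (nat_lit 2615533484) (nat_lit 504) (nat_lit 4939876880) (nat_lit 74) (nat_lit 5) (nat_lit 79) (nat_lit 5) (nat_lit 80) (nat_lit 5) (nat_lit 325) (nat_lit 276) (nat_lit 263)) (XT.lf (nat_lit 0) (nat_lit 5478746809) (nat_lit 420) (nat_lit 649418193) (nat_lit 504) (nat_lit 2468076597) (nat_lit 74) (nat_lit 5) (nat_lit 79) (nat_lit 5) (nat_lit 80) (nat_lit 5) (nat_lit 326) (nat_lit 276) (nat_lit 262)))) (XT.nd (nat_lit 188) (nat_lit 420) (nat_lit 0) (XT.nd (nat_lit 94) (nat_lit 0) (nat_lit 0) (XT.lf (nat_lit 0) (nat_lit 39278927) (nat_lit 504) (nat_lit 7338250353) (nat_lit 84) (nat_lit 1353239562) (nat_lit 68) (nat_lit 5) (nat_lit 74) (nat_lit 5) (nat_lit 69) (nat_lit 5) (nat_lit 327) (nat_lit 276) (nat_lit 261)) (XT.lf (nat_lit 0) (nat_lit 2546625319) (nat_lit 504) (nat_lit 2872495327)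 (nat_lit 84) (nat_lit 3450617523) (nat_lit 68) (nat_lit 5) (nat_lit 74) (nat_lit 5) (nat_lit 69) (nat_lit 5) (nat_lit 328) (nat_lit 276) (nat_lit 260))) (XT.nd (nat_lit 94) (nat_lit 0) (nat_lit 0) (XT.lf (nat_lit 0) (nat_lit 1687866215) (nat_lit 420) (nat_lit 3396576609) (nat_lit 504) (nat_lit 3930264357) (nat_lit 63) (nat_lit 5) (nat_lit 68) (nat_lit 5) (nat_lit 69) (nat_lit 5) (nat_lit 329) (nat_lit 276) (nat_lit 259)) (XT.lf (nat_lit 0) (nat_lit 6373443772) (nat_lit 420) (nat_lit 1294631402) (nat_lit 504) (nat_lit 1497333507) (nat_lit 63) (nat_lit 5) (nat_lit 68) (nat_lit 5) (nat_lit 69) (nat_lit 5) (nat_lit 330) (nat_lit 276) (nat_lit 258))))) (XT.nd (nat_lit 376) (nat_lit 756) (nat_lit 0) (XT.nd (nat_lit 188) (nat_lit 336) (nat_lit 0) (XT.nd (nat_lit 94) (nat_lit 0) (nat_lit 0) (XT.lf (nat_lit 0) (nat_lit 955861275) (nat_lit 420) (nat_lit 7496622689) (nat_lit 84) (nat_lit 869272295) (nat_lit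 58) (nat_lit 5) (nat_lit 63) (nat_lit 5) (nat_lit 59) (nat_lit 5) (nat_lit 331) (nat_lit 276) (nat_lit 257)) (XT.lf (nat_lit 0) (nat_lit 3435862964) (nat_lit 420) (nat_lit 2943724741) (nat_lit 84) (nat_lit 3103651099) (nat_lit 58) (nat_lit 5) (nat_lit 63) (nat_lit 5) (nat_lit 59) (nat_lit 5) (nat_lit 332) (nat_lit 276) (nat_lit 256))) (XT.nd (nat_lit 94) (nat_lit 0) (nat_lit 0) (XT.lf (nat_lit 0) (nat_lit 1709711872) (nat_lit 336) (nat_lit 4241001659) (nat_lit 420) (nat_lit 3700511335) (nat_lit 54) (nat_lit 5) (nat_lit 58) (nat_lit 5) (nat_lit 59) (nat_lit 5) (nat_lit 333) (nat_lit 276) (nat_lit 255)) (XT.lf (nat_lit 0) (nat_lit 6495522178) (nat_lit 336) (nat_lit 2020773816) (nat_lit 420) (nat_lit 1309155323) (nat_lit 54) (nat_lit 5) (nat_lit 58) (nat_lit 5) (nat_lit 59) (nat_lit 5) (nat_lit 334) (nat_lit 276) (nat_lit 254)))) (XT.nd (nat_lit 188) (nat_lit 336) (nat_lit 0) (XT.nd (nat_lit 94) (nat_lit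 0) (nat_lit 0) (XT.lf (nat_lit 0) (nat_lit 1092386592) (nat_lit 420) (nat_lit 8641713456) (nat_lit 84) (nat_lit 272060809) (nat_lit 49) (nat_lit 5) (nat_lit 54) (nat_lit 5) (nat_lit 50) (nat_lit 5) (nat_lit 335) (nat_lit 276) (nat_lit 253)) (XT.lf (nat_lit 0) (nat_lit 3540822863) (nat_lit 420) (nat_lit 4025267616) (nat_lit 84) (nat_lit 2626150194) (nat_lit 49) (nat_lit 5) (nat_lit 54) (nat_lit 5) (nat_lit 50) (nat_lit 5) (nat_lit 336) (nat_lit 276) (nat_lit 252))) (XT.nd (nat_lit 94) (nat_lit 0) (nat_lit 0) (XT.lf (nat_lit 0) (nat_lit 675737524) (nat_lit 336) (nat_lit 5341674455) (nat_lit 420) (nat_lit 4368324235) (nat_lit 45) (nat_lit 5) (nat_lit 49) (nat_lit 5) (nat_lit 50) (nat_lit 5) (nat_lit 337) (nat_lit 276) (nat_lit 251)) (XT.lf (nat_lit 0) (nat_lit 5536372865) (nat_lit 336) (nat_lit 3022894576) (nat_lit 420) (nat_lit 2026481444) (nat_lit 45) (nat_lit 5) (nat_lit 49) (nat_lit 5) (nat_lit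 50) (nat_lit 5) (nat_lit 338) (nat_lit 276) (nat_lit 250)))))) (XT.nd (nat_lit 51700) (nat_lit 0) (nat_lit 4872) (XT.nd (nat_lit 376) (nat_lit 336) (nat_lit 0) (XT.nd (nat_lit 188) (nat_lit 252) (nat_lit 0) (XT.nd (nat_lit 94) (nat_lit 252) (nat_lit 0) (XT.lf (nat_lit 0) (nat_lit 327542913) (nat_lit 420) (nat_lit 318643244) (nat_lit 84) (nat_lit 10147439479) (nat_lit 44) (nat_lit 5) (nat_lit 49) (nat_lit 5) (nat_lit 45) (nat_lit 5) (nat_lit 339) (nat_lit 276) (nat_lit 249)) (XT.lf (nat_lit 0) (nat_lit 2725080808) (nat_lit 336) (nat_lit 6464510520) (nat_lit 84) (nat_lit 1817468928) (nat_lit 41) (nat_lit 5) (nat_lit 45) (nat_lit 5) (nat_lit 42) (nat_lit 5) (nat_lit 340) (nat_lit 276) (nat_lit 248))) (XT.nd (nat_lit 94) (nat_lit 252) (nat_lit 0) (XT.lf (nat_lit 0) (nat_lit 5156582020) (nat_lit 336) (nat_lit 1741688245) (nat_lit 84) (nat_lit 4330235651) (nat_lit 41) (nat_lit 5) (nat_lit 45) (nat_lit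 5) (nat_lit 42) (nat_lit 5) (nat_lit 341) (nat_lit 276) (nat_lit 247)) (XT.lf (nat_lit 0) (nat_lit 3123319309) (nat_lit 252) (nat_lit 4522308150) (nat_lit 336) (nat_lit 3811880819) (nat_lit 38) (nat_lit 5) (nat_lit 41) (nat_lit 5) (nat_lit 42) (nat_lit 5) (nat_lit 342) (nat_lit 276) (nat_lit 246)))) (XT.nd (nat_lit 51136) (nat_lit 0) (nat_lit 8820) (XT.nd (nat_lit 94) (nat_lit 336) (nat_lit 0) (XT.lf (nat_lit 0) (nat_lit 8109594675) (nat_lit 252) (nat_lit 2072410663) (nat_lit 336) (nat_lit 1512663944) (nat_lit 38) (nat_lit 5) (nat_lit 41) (nat_lit 5) (nat_lit 42) (nat_lit 5) (nat_lit 343) (nat_lit 276) (nat_lit 245)) (XT.lf (nat_lit 0) (nat_lit 810432838) (nat_lit 336) (nat_lit 10682026952) (nat_lit 84) (nat_lit 447519082) (nat_lit 34) (nat_lit 5) (nat_lit 38) (nat_lit 5) (nat_lit 35) (nat_lit 5) (nat_lit 344) (nat_lit 276) (nat_lit 244))) (XT.nd (nat_lit 94) (nat_lit 924) (nat_lit 0) (XT.lf (nat_lit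 0) (nat_lit 1460474061) (nat_lit 924) (nat_lit 623335575) (nat_lit 0) (nat_lit 1460474061) (nat_lit 150) (nat_lit 5) (nat_lit 161) (nat_lit 4) (nat_lit 150) (nat_lit 4) (nat_lit 310) (nat_lit 277) (nat_lit 277)) (XT.lf (nat_lit 0) (nat_lit 2733348260) (nat_lit 924) (nat_lit 2991991449) (nat_lit 924) (nat_lit 1426563114) (nat_lit 139) (nat_lit 4) (nat_lit 150) (nat_lit 5) (nat_lit 150) (nat_lit 4) (nat_lit 311) (nat_lit 277) (nat_lit 276))))) (XT.nd (nat_lit 376) (nat_lit 1680) (nat_lit 0) (XT.nd (nat_lit 188) (nat_lit 1176) (nat_lit 0) (XT.nd (nat_lit 94) (nat_lit 1008) (nat_lit 0) (XT.lf (nat_lit 0) (nat_lit 1296522992) (nat_lit 1008) (nat_lit 450549335) (nat_lit 84) (nat_lit 5472446475) (nat_lit 138) (nat_lit 5) (nat_lit 150) (nat_lit 5) (nat_lit 139) (nat_lit 4) (nat_lit 312) (nat_lit 277) (nat_lit 275)) (XT.lf (nat_lit 0) (nat_lit 3618356317) (nat_lit 1008) (nat_lit 406680209) (nat_lit 1092)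 (nat_lit 3265689495) (nat_lit 126) (nat_lit 5) (nat_lit 138) (nat_lit 5) (nat_lit 139) (nat_lit 4) (nat_lit 313) (nat_lit 277) (nat_lit 274))) (XT.nd (nat_lit 94) (nat_lit 84) (nat_lit 0) (XT.lf (nat_lit 0) (nat_lit 374133654) (nat_lit 1092) (nat_lit 6398699703) (nat_lit 1092) (nat_lit 593736509) (nat_lit 113) (nat_lit 4) (nat_lit 126) (nat_lit 5) (nat_lit 126) (nat_lit 4) (nat_lit 314) (nat_lit 277) (nat_lit 273)) (XT.lf (nat_lit 0) (nat_lit 2077428976) (nat_lit 1176) (nat_lit 2929521117) (nat_lit 84) (nat_lit 2438773517) (nat_lit 112) (nat_lit 5) (nat_lit 126) (nat_lit 5) (nat_lit 113) (nat_lit 4) (nat_lit 315) (nat_lit 277) (nat_lit 272)))) (XT.nd (nat_lit 188) (nat_lit 1176) (nat_lit 0) (XT.nd (nat_lit 94) (nat_lit 0) (nat_lit 0) (XT.lf (nat_lit 0) (nat_lit 1196004747) (nat_lit 504) (nat_lit 3554460326) (nat_lit 588) (nat_lit 2779173915) (nat_lit 106) (nat_lit 5) (nat_lit 112) (nat_lit 5) (nat_lit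 113) (nat_lit 4) (nat_lit 316) (nat_lit 277) (nat_lit 271)) (XT.lf (nat_lit 0) (nat_lit 5430986057) (nat_lit 504) (nat_lit 2027111193) (nat_lit 588) (nat_lit 159913143) (nat_lit 106) (nat_lit 5) (nat_lit 112) (nat_lit 5) (nat_lit 113) (nat_lit 4) (nat_lit 317) (nat_lit 277) (nat_lit 270))) (XT.nd (nat_lit 94) (nat_lit 504) (nat_lit 0) (XT.lf (nat_lit 0) (nat_lit 2023648784) (nat_lit 588) (nat_lit 408186240) (nat_lit 672) (nat_lit 5278625350) (nat_lit 98) (nat_lit 5) (nat_lit 105) (nat_lit 5) (nat_lit 106) (nat_lit 5) (nat_lit 318) (nat_lit 277) (nat_lit 269)) (XT.nd (nat_lit 94) (nat_lit 504) (nat_lit 0) (XT.lf (nat_lit 0) (nat_lit 5060092952) (nat_lit 672) (nat_lit 1490123303) (nat_lit 84) (nat_lit 1257092219) (nat_lit 98) (nat_lit 5) (nat_lit 106) (nat_lit 5) (nat_lit 99) (nat_lit 4) (nat_lit 319) (nat_lit 277) (nat_lit 268)) (XT.lf (nat_lit 0) (nat_lit 2809664727) (nat_lit 504) (nat_lit 4918414077)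 (nat_lit 588) (nat_lit 180691398) (nat_lit 92) (nat_lit 5) (nat_lit 98) (nat_lit 5) (nat_lit 99) (nat_lit 4) (nat_lit 320) (nat_lit 277) (nat_lit 267))))))))
noncomputable def xc9 : XT := (XT.nd (nat_lit 1504) (nat_lit 1008) (nat_lit 0) (XT.nd (nat_lit 752) (nat_lit 1596) (nat_lit 0) (XT.nd (nat_lit 376) (nat_lit 924) (nat_lit 0) (XT.nd (nat_lit 188) (nat_lit 504) (nat_lit 0) (XT.nd (nat_lit 94) (nat_lit 504) (nat_lit 0) (XT.lf (nat_lit 0) (nat_lit 2358038017) (nat_lit 588) (nat_lit 843609848) (nat_lit 84) (nat_lit 4813057801) (nat_lit 91) (nat_lit 5) (nat_lit 98) (nat_lit 5) (nat_lit 92) (nat_lit 5) (nat_lit 321) (nat_lit 277) (nat_lit 266)) (XT.lf (nat_lit 0) (nat_lit 3535167659) (nat_lit 504) (nat_lit 1400425561) (nat_lit 588) (nat_lit 3189683776) (nat_lit 85) (nat_lit 5) (nat_lit 91) (nat_lit 5) (nat_lit 92) (nat_lit 5) (nat_lit 322) (nat_lit 277) (nat_lit 265))) (XT.nd (nat_lit 94) (nat_lit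 504) (nat_lit 0) (XT.lf (nat_lit 0) (nat_lit 7536588337) (nat_lit 588) (nat_lit 255649469) (nat_lit 84) (nat_lit 449069314) (nat_lit 85) (nat_lit 5) (nat_lit 92) (nat_lit 5) (nat_lit 86) (nat_lit 4) (nat_lit 323) (nat_lit 277) (nat_lit 264)) (XT.lf (nat_lit 0) (nat_lit 1807735984) (nat_lit 504) (nat_lit 4173471280) (nat_lit 84) (nat_lit 2379795665) (nat_lit 79) (nat_lit 5) (nat_lit 85) (nat_lit 5) (nat_lit 80) (nat_lit 5) (nat_lit 324) (nat_lit 277) (nat_lit 263)))) (XT.nd (nat_lit 188) (nat_lit 504) (nat_lit 0) (XT.nd (nat_lit 94) (nat_lit 0) (nat_lit 0) (XT.lf (nat_lit 0) (nat_lit 208443352) (nat_lit 420) (nat_lit 4112311178) (nat_lit 504) (nat_lit 4165630662) (nat_lit 74) (nat_lit 5) (nat_lit 79) (nat_lit 5) (nat_lit 80) (nat_lit 5) (nat_lit 325) (nat_lit 277) (nat_lit 262)) (XT.lf (nat_lit 0) (nat_lit 4737397244) (nat_lit 420) (nat_lit 2151656113) (nat_lit 504) (nat_lit 1727550692) (nat_lit 74)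 (nat_lit 5) (nat_lit 79) (nat_lit 5) (nat_lit 80) (nat_lit 5) (nat_lit 326) (nat_lit 277) (nat_lit 261))) (XT.nd (nat_lit 94) (nat_lit 0) (nat_lit 0) (XT.lf (nat_lit 0) (nat_lit 583319252) (nat_lit 420) (nat_lit 127650367) (nat_lit 504) (nat_lit 8041720387) (nat_lit 68) (nat_lit 5) (nat_lit 73) (nat_lit 5) (nat_lit 74) (nat_lit 5) (nat_lit 327) (nat_lit 277) (nat_lit 260)) (XT.lf (nat_lit 0) (nat_lit 3185537903) (nat_lit 504) (nat_lit 3740674695) (nat_lit 84) (nat_lit 1966574466) (nat_lit 68) (nat_lit 5) (nat_lit 74) (nat_lit 5) (nat_lit 69) (nat_lit 5) (nat_lit 328) (nat_lit 277) (nat_lit 259))))) (XT.nd (nat_lit 376) (nat_lit 756) (nat_lit 0) (XT.nd (nat_lit 188) (nat_lit 420) (nat_lit 0) (XT.nd (nat_lit 94) (nat_lit 0) (nat_lit 0) (XT.lf (nat_lit 0) (nat_lit 763898033) (nat_lit 420) (nat_lit 4919727189) (nat_lit 504) (nat_lit 3355470745) (nat_lit 63) (nat_lit 5) (nat_lit 68) (nat_lit 5) (nat_lit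 69) (nat_lit 5) (nat_lit 329) (nat_lit 277) (nat_lit 258)) (XT.lf (nat_lit 0) (nat_lit 5412679018) (nat_lit 420) (nat_lit 2824568225) (nat_lit 504) (nat_lit 953585544) (nat_lit 63) (nat_lit 5) (nat_lit 68) (nat_lit 5) (nat_lit 69) (nat_lit 5) (nat_lit 330) (nat_lit 277) (nat_lit 257))) (XT.nd (nat_lit 94) (nat_lit 0) (nat_lit 0) (XT.lf (nat_lit 0) (nat_lit 785091087) (nat_lit 336) (nat_lit 654849402) (nat_lit 420) (nat_lit 7908681559) (nat_lit 58) (nat_lit 5) (nat_lit 62) (nat_lit 5) (nat_lit 63) (nat_lit 5) (nat_lit 331) (nat_lit 277) (nat_lit 256)) (XT.lf (nat_lit 0) (nat_lit 3884400335) (nat_lit 420) (nat_lit 4041088108) (nat_lit 84) (nat_lit 1585813757) (nat_lit 58) (nat_lit 5) (nat_lit 63) (nat_lit 5) (nat_lit 59) (nat_lit 5) (nat_lit 332) (nat_lit 277) (nat_lit 255)))) (XT.nd (nat_lit 188) (nat_lit 420) (nat_lit 0) (XT.nd (nat_lit 94) (nat_lit 0) (nat_lit 0) (XT.lf (nat_lit 0) (nat_lit 553207280)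 (nat_lit 336) (nat_lit 5806398639) (nat_lit 420) (nat_lit 3321004267) (nat_lit 54) (nat_lit 5) (nat_lit 58) (nat_lit 5) (nat_lit 59) (nat_lit 5) (nat_lit 333) (nat_lit 277) (nat_lit 254)) (XT.lf (nat_lit 0) (nat_lit 5303540201) (nat_lit 336) (nat_lit 3593971008) (nat_lit 420) (nat_lit 958273555) (nat_lit 54) (nat_lit 5) (nat_lit 58) (nat_lit 5) (nat_lit 59) (nat_lit 5) (nat_lit 334) (nat_lit 277) (nat_lit 253))) (XT.nd (nat_lit 94) (nat_lit 0) (nat_lit 0) (XT.lf (nat_lit 0) (nat_lit 80510414) (nat_lit 336) (nat_lit 1312963901) (nat_lit 420) (nat_lit 8644321343) (nat_lit 49) (nat_lit 5) (nat_lit 53) (nat_lit 5) (nat_lit 54) (nat_lit 5) (nat_lit 335) (nat_lit 277) (nat_lit 252)) (XT.lf (nat_lit 0) (nat_lit 3802075345) (nat_lit 420) (nat_lit 5363346459) (nat_lit 84) (nat_lit 1059770808) (nat_lit 49) (nat_lit 5) (nat_lit 54) (nat_lit 5) (nat_lit 50) (nat_lit 5) (nat_lit 336) (nat_lit 277) (nat_lit 251))))))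 (XT.nd (nat_lit 51512) (nat_lit 0) (nat_lit 5796) (XT.nd (nat_lit 376) (nat_lit 336) (nat_lit 0) (XT.nd (nat_lit 188) (nat_lit 336) (nat_lit 0) (XT.nd (nat_lit 94) (nat_lit 336) (nat_lit 0) (XT.lf (nat_lit 0) (nat_lit 6245956721) (nat_lit 420) (nat_lit 710419375) (nat_lit 84) (nat_lit 3463405772) (nat_lit 49) (nat_lit 5) (nat_lit 54) (nat_lit 5) (nat_lit 50) (nat_lit 5) (nat_lit 337) (nat_lit 277) (nat_lit 250)) (XT.lf (nat_lit 0) (nat_lit 4101493744) (nat_lit 336) (nat_lit 4653565213) (nat_lit 420) (nat_lit 1865828306) (nat_lit 45) (nat_lit 5) (nat_lit 49) (nat_lit 5) (nat_lit 50) (nat_lit 5) (nat_lit 338) (nat_lit 277) (nat_lit 249))) (XT.nd (nat_lit 94) (nat_lit 252) (nat_lit 0) (XT.lf (nat_lit 0) (nat_lit 459839839) (nat_lit 420) (nat_lit 1823932530) (nat_lit 84) (nat_lit 8545793734) (nat_lit 44) (nat_lit 5) (nat_lit 49) (nat_lit 5) (nat_lit 45) (nat_lit 5) (nat_lit 339) (nat_lit 277) (nat_lit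 248)) (XT.lf (nat_lit 0) (nat_lit 2800956546) (nat_lit 336) (nat_lit 8054851153) (nat_lit 84) (nat_lit 189012685) (nat_lit 41) (nat_lit 5) (nat_lit 45) (nat_lit 5) (nat_lit 42) (nat_lit 5) (nat_lit 340) (nat_lit 277) (nat_lit 247)))) (XT.nd (nat_lit 188) (nat_lit 84) (nat_lit 0) (XT.nd (nat_lit 94) (nat_lit 252) (nat_lit 0) (XT.lf (nat_lit 0) (nat_lit 5208422296) (nat_lit 336) (nat_lit 3365091475) (nat_lit 84) (nat_lit 2693565854) (nat_lit 41) (nat_lit 5) (nat_lit 45) (nat_lit 5) (nat_lit 42) (nat_lit 5) (nat_lit 341) (nat_lit 277) (nat_lit 246)) (XT.lf (nat_lit 0) (nat_lit 1433807712) (nat_lit 252) (nat_lit 6223587092) (nat_lit 336) (nat_lit 3839995864) (nat_lit 38) (nat_lit 5) (nat_lit 41) (nat_lit 5) (nat_lit 42) (nat_lit 5) (nat_lit 342) (nat_lit 277) (nat_lit 245))) (XT.nd (nat_lit 94) (nat_lit 84) (nat_lit 0) (XT.lf (nat_lit 0) (nat_lit 6388339268) (nat_lit 252) (nat_lit 3782506711) (nat_lit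 336) (nat_lit 1564480845) (nat_lit 38) (nat_lit 5) (nat_lit 41) (nat_lit 5) (nat_lit 42) (nat_lit 5) (nat_lit 343) (nat_lit 277) (nat_lit 244)) (XT.lf (nat_lit 0) (nat_lit 720077816) (nat_lit 336) (nat_lit 555527987) (nat_lit 84) (nat_lit 10706334201) (nat_lit 37) (nat_lit 5) (nat_lit 41) (nat_lit 5) (nat_lit 38) (nat_lit 5) (nat_lit 344) (nat_lit 277) (nat_lit 243))))) (XT.nd (nat_lit 376) (nat_lit 2688) (nat_lit 0) (XT.nd (nat_lit 188) (nat_lit 1008) (nat_lit 0) (XT.nd (nat_lit 94) (nat_lit 924) (nat_lit 0) (XT.lf (nat_lit 0) (nat_lit 2512027863) (nat_lit 756) (nat_lit 487090166) (nat_lit 756) (nat_lit 487090166) (nat_lit 161) (nat_lit 4) (nat_lit 170) (nat_lit 5) (nat_lit 170) (nat_lit 4) (nat_lit 308) (nat_lit 278) (nat_lit 278)) (XT.lf (nat_lit 0) (nat_lit 1755363212) (nat_lit 924) (nat_lit 5132653873) (nat_lit 0) (nat_lit 141406599) (nat_lit 150) (nat_lit 5) (nat_lit 161) (nat_lit 4) (nat_lit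 150) (nat_lit 4) (nat_lit 309) (nat_lit 278) (nat_lit 277))) (XT.nd (nat_lit 94) (nat_lit 1008) (nat_lit 0) (XT.lf (nat_lit 0) (nat_lit 4491364176) (nat_lit 924) (nat_lit 1286798994) (nat_lit 0) (nat_lit 1311979228) (nat_lit 150) (nat_lit 5) (nat_lit 161) (nat_lit 4) (nat_lit 150) (nat_lit 4) (nat_lit 310) (nat_lit 278) (nat_lit 276)) (XT.lf (nat_lit 0) (nat_lit 95725481) (nat_lit 1008) (nat_lit 4503325694) (nat_lit 84) (nat_lit 2555949062) (nat_lit 138) (nat_lit 5) (nat_lit 150) (nat_lit 5) (nat_lit 139) (nat_lit 4) (nat_lit 311) (nat_lit 278) (nat_lit 275)))) (XT.nd (nat_lit 188) (nat_lit 1680) (nat_lit 0) (XT.nd (nat_lit 94) (nat_lit 1008) (nat_lit 0) (XT.lf (nat_lit 0) (nat_lit 2748095265) (nat_lit 1008) (nat_lit 589067997) (nat_lit 84) (nat_lit 3886520986) (nat_lit 138) (nat_lit 5) (nat_lit 150) (nat_lit 5) (nat_lit 139) (nat_lit 4) (nat_lit 312) (nat_lit 278) (nat_lit 274)) (XT.lf (nat_lit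 0) (nat_lit 3437794450) (nat_lit 1008) (nat_lit 1996310973) (nat_lit 1092) (nat_lit 1862303000) (nat_lit 126) (nat_lit 5) (nat_lit 138) (nat_lit 5) (nat_lit 139) (nat_lit 4) (nat_lit 313) (nat_lit 278) (nat_lit 273))) (XT.nd (nat_lit 94) (nat_lit 504) (nat_lit 0) (XT.lf (nat_lit 0) (nat_lit 146126762) (nat_lit 1092) (nat_lit 594587322) (nat_lit 1176) (nat_lit 6633108062) (nat_lit 112) (nat_lit 5) (nat_lit 125) (nat_lit 5) (nat_lit 126) (nat_lit 5) (nat_lit 314) (nat_lit 278) (nat_lit 272)) (XT.nd (nat_lit 94) (nat_lit 504) (nat_lit 0) (XT.lf (nat_lit 0) (nat_lit 3354399457) (nat_lit 1176) (nat_lit 3204832854) (nat_lit 84) (nat_lit 895153942) (nat_lit 112) (nat_lit 5) (nat_lit 126) (nat_lit 5) (nat_lit 113) (nat_lit 4) (nat_lit 315) (nat_lit 278) (nat_lit 271)) (XT.lf (nat_lit 0) (nat_lit 875376612) (nat_lit 504) (nat_lit 5110450274) (nat_lit 588) (nat_lit 1553941051) (nat_lit 106) (nat_lit 5) (nat_lit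 112) (nat_lit 5) (nat_lit 113) (nat_lit 4) (nat_lit 316) (nat_lit 278) (nat_lit 270))))))))
noncomputable def xc10 : XT := (XT.nd (nat_lit 1504) (nat_lit 1764) (nat_lit 0) (XT.nd (nat_lit 752) (nat_lit 1764) (nat_lit 0) (XT.nd (nat_lit 376) (nat_lit 1008) (nat_lit 0) (XT.nd (nat_lit 188) (nat_lit 588) (nat_lit 0) (XT.nd (nat_lit 94) (nat_lit 588) (nat_lit 0) (XT.lf (nat_lit 0) (nat_lit 1005648999) (nat_lit 588) (nat_lit 2567764189) (nat_lit 84) (nat_lit 4055748942) (nat_lit 105) (nat_lit 5) (nat_lit 112) (nat_lit 5) (nat_lit 106) (nat_lit 5) (nat_lit 317) (nat_lit 278) (nat_lit 269)) (XT.lf (nat_lit 0) (nat_lit 1594445536) (nat_lit 588) (nat_lit 1958413887) (nat_lit 672) (nat_lit 4170145296) (nat_lit 98) (nat_lit 5) (nat_lit 105) (nat_lit 5) (nat_lit 106) (nat_lit 5) (nat_lit 318) (nat_lit 278) (nat_lit 268))) (XT.nd (nat_lit 94) (nat_lit 588) (nat_lit 0) (XT.lf (nat_lit 0) (nat_lit 5863260877) (nat_lit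 588) (nat_lit 268810298) (nat_lit 672) (nat_lit 1689458228) (nat_lit 98) (nat_lit 5) (nat_lit 105) (nat_lit 5) (nat_lit 106) (nat_lit 5) (nat_lit 319) (nat_lit 278) (nat_lit 267)) (XT.lf (nat_lit 0) (nat_lit 815801640) (nat_lit 588) (nat_lit 5636833567) (nat_lit 84) (nat_lit 1471584505) (nat_lit 91) (nat_lit 5) (nat_lit 98) (nat_lit 5) (nat_lit 92) (nat_lit 5) (nat_lit 320) (nat_lit 278) (nat_lit 266)))) (XT.nd (nat_lit 188) (nat_lit 504) (nat_lit 0) (XT.nd (nat_lit 94) (nat_lit 504) (nat_lit 0) (XT.lf (nat_lit 0) (nat_lit 3315838463) (nat_lit 588) (nat_lit 1421543116) (nat_lit 84) (nat_lit 3293947129) (nat_lit 91) (nat_lit 5) (nat_lit 98) (nat_lit 5) (nat_lit 92) (nat_lit 5) (nat_lit 321) (nat_lit 278) (nat_lit 265)) (XT.lf (nat_lit 0) (nat_lit 2907327095) (nat_lit 504) (nat_lit 2945840194) (nat_lit 588) (nat_lit 2290117969) (nat_lit 85) (nat_lit 5) (nat_lit 91) (nat_lit 5) (nat_lit 92) (nat_lit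 5) (nat_lit 322) (nat_lit 278) (nat_lit 264))) (XT.nd (nat_lit 94) (nat_lit 420) (nat_lit 0) (XT.lf (nat_lit 0) (nat_lit 152514284) (nat_lit 588) (nat_lit 936544090) (nat_lit 84) (nat_lit 7171517722) (nat_lit 84) (nat_lit 5) (nat_lit 91) (nat_lit 5) (nat_lit 85) (nat_lit 5) (nat_lit 323) (nat_lit 278) (nat_lit 263)) (XT.lf (nat_lit 0) (nat_lit 2599794140) (nat_lit 504) (nat_lit 4922403108) (nat_lit 84) (nat_lit 859564316) (nat_lit 79) (nat_lit 5) (nat_lit 85) (nat_lit 5) (nat_lit 80) (nat_lit 5) (nat_lit 324) (nat_lit 278) (nat_lit 262))))) (XT.nd (nat_lit 376) (nat_lit 840) (nat_lit 0) (XT.nd (nat_lit 188) (nat_lit 504) (nat_lit 0) (XT.nd (nat_lit 94) (nat_lit 420) (nat_lit 0) (XT.lf (nat_lit 0) (nat_lit 5078534566) (nat_lit 504) (nat_lit 581969564) (nat_lit 84) (nat_lit 2847824633) (nat_lit 79) (nat_lit 5) (nat_lit 85) (nat_lit 5) (nat_lit 80) (nat_lit 5) (nat_lit 325) (nat_lit 278) (nat_lit 261))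 (XT.lf (nat_lit 0) (nat_lit 3898113861) (nat_lit 420) (nat_lit 3711219683) (nat_lit 504) (nat_lit 1030495210) (nat_lit 74) (nat_lit 5) (nat_lit 79) (nat_lit 5) (nat_lit 80) (nat_lit 5) (nat_lit 326) (nat_lit 278) (nat_lit 260))) (XT.nd (nat_lit 94) (nat_lit 420) (nat_lit 0) (XT.lf (nat_lit 0) (nat_lit 1357110533) (nat_lit 504) (nat_lit 334401408) (nat_lit 84) (nat_lit 7085443003) (nat_lit 73) (nat_lit 5) (nat_lit 79) (nat_lit 5) (nat_lit 74) (nat_lit 5) (nat_lit 327) (nat_lit 278) (nat_lit 259)) (XT.lf (nat_lit 0) (nat_lit 3782180670) (nat_lit 504) (nat_lit 4711265812) (nat_lit 84) (nat_lit 425248218) (nat_lit 68) (nat_lit 5) (nat_lit 74) (nat_lit 5) (nat_lit 69) (nat_lit 5) (nat_lit 328) (nat_lit 278) (nat_lit 258)))) (XT.nd (nat_lit 188) (nat_lit 420) (nat_lit 0) (XT.nd (nat_lit 94) (nat_lit 420) (nat_lit 0) (XT.lf (nat_lit 0) (nat_lit 6243044725) (nat_lit 504) (nat_lit 258139128) (nat_lit 84)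 (nat_lit 2565078672) (nat_lit 68) (nat_lit 5) (nat_lit 74) (nat_lit 5) (nat_lit 69) (nat_lit 5) (nat_lit 329) (nat_lit 278) (nat_lit 257)) (XT.lf (nat_lit 0) (nat_lit 4349643810) (nat_lit 420) (nat_lit 4415301527) (nat_lit 504) (nat_lit 454139214) (nat_lit 63) (nat_lit 5) (nat_lit 68) (nat_lit 5) (nat_lit 69) (nat_lit 5) (nat_lit 330) (nat_lit 278) (nat_lit 256))) (XT.nd (nat_lit 94) (nat_lit 336) (nat_lit 0) (XT.lf (nat_lit 0) (nat_lit 1892917576) (nat_lit 504) (nat_lit 362269599) (nat_lit 84) (nat_lit 7122757456) (nat_lit 62) (nat_lit 5) (nat_lit 68) (nat_lit 5) (nat_lit 63) (nat_lit 5) (nat_lit 331) (nat_lit 278) (nat_lit 255)) (XT.lf (nat_lit 0) (nat_lit 4289624393) (nat_lit 420) (nat_lit 5245261257) (nat_lit 84) (nat_lit 7312407) (nat_lit 58) (nat_lit 5) (nat_lit 63) (nat_lit 5) (nat_lit 59) (nat_lit 5) (nat_lit 332) (nat_lit 278) (nat_lit 254)))))) (XT.nd (nat_lit 752) (nat_lit 336) (nat_lit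 0) (XT.nd (nat_lit 376) (nat_lit 672) (nat_lit 0) (XT.nd (nat_lit 188) (nat_lit 420) (nat_lit 0) (XT.nd (nat_lit 94) (nat_lit 336) (nat_lit 0) (XT.lf (nat_lit 0) (nat_lit 6732016860) (nat_lit 420) (nat_lit 696874357) (nat_lit 84) (nat_lit 2283722169) (nat_lit 58) (nat_lit 5) (nat_lit 63) (nat_lit 5) (nat_lit 59) (nat_lit 5) (nat_lit 333) (nat_lit 278) (nat_lit 253)) (XT.lf (nat_lit 0) (nat_lit 4004718744) (nat_lit 336) (nat_lit 5231303202) (nat_lit 420) (nat_lit 652904351) (nat_lit 54) (nat_lit 5) (nat_lit 58) (nat_lit 5) (nat_lit 59) (nat_lit 5) (nat_lit 334) (nat_lit 278) (nat_lit 252))) (XT.nd (nat_lit 94) (nat_lit 336) (nat_lit 0) (XT.lf (nat_lit 0) (nat_lit 1665505138) (nat_lit 420) (nat_lit 1290104800) (nat_lit 84) (nat_lit 7116158352) (nat_lit 53) (nat_lit 5) (nat_lit 58) (nat_lit 5) (nat_lit 54) (nat_lit 5) (nat_lit 335) (nat_lit 278) (nat_lit 251)) (XT.lf (nat_lit 0) (nat_lit 3442108979)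 (nat_lit 336) (nat_lit 582279138) (nat_lit 420) (nat_lit 6236398160) (nat_lit 49) (nat_lit 5) (nat_lit 53) (nat_lit 5) (nat_lit 54) (nat_lit 5) (nat_lit 336) (nat_lit 278) (nat_lit 250)))) (XT.nd (nat_lit 188) (nat_lit 336) (nat_lit 0) (XT.nd (nat_lit 94) (nat_lit 336) (nat_lit 0) (XT.lf (nat_lit 0) (nat_lit 6437270767) (nat_lit 420) (nat_lit 2193401143) (nat_lit 84) (nat_lit 1825741959) (nat_lit 49) (nat_lit 5) (nat_lit 54) (nat_lit 5) (nat_lit 50) (nat_lit 5) (nat_lit 337) (nat_lit 278) (nat_lit 249)) (XT.lf (nat_lit 0) (nat_lit 2554930041) (nat_lit 336) (nat_lit 6351636799) (nat_lit 420) (nat_lit 1752261464) (nat_lit 45) (nat_lit 5) (nat_lit 49) (nat_lit 5) (nat_lit 50) (nat_lit 5) (nat_lit 338) (nat_lit 278) (nat_lit 248))) (XT.nd (nat_lit 94) (nat_lit 252) (nat_lit 0) (XT.lf (nat_lit 0) (nat_lit 546754441) (nat_lit 420) (nat_lit 3442229329) (nat_lit 84) (nat_lit 6879314341) (nat_lit 44) (nat_lit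 5) (nat_lit 49) (nat_lit 5) (nat_lit 45) (nat_lit 5) (nat_lit 339) (nat_lit 278) (nat_lit 247)) (XT.lf (nat_lit 0) (nat_lit 1308035087) (nat_lit 252) (nat_lit 1537586368) (nat_lit 336) (nat_lit 8239309158) (nat_lit 41) (nat_lit 5) (nat_lit 44) (nat_lit 5) (nat_lit 45) (nat_lit 5) (nat_lit 340) (nat_lit 278) (nat_lit 246))))) (XT.nd (nat_lit 50948) (nat_lit 0) (nat_lit 9492) (XT.nd (nat_lit 188) (nat_lit 336) (nat_lit 0) (XT.nd (nat_lit 94) (nat_lit 0) (nat_lit 0) (XT.lf (nat_lit 0) (nat_lit 5214521391) (nat_lit 336) (nat_lit 5103951275) (nat_lit 84) (nat_lit 989979149) (nat_lit 41) (nat_lit 5) (nat_lit 45) (nat_lit 5) (nat_lit 42) (nat_lit 5) (nat_lit 341) (nat_lit 278) (nat_lit 245)) (XT.lf (nat_lit 0) (nat_lit 7626658549) (nat_lit 336) (nat_lit 365044360) (nat_lit 84) (nat_lit 3548266270) (nat_lit 41) (nat_lit 5) (nat_lit 45) (nat_lit 5) (nat_lit 42) (nat_lit 5) (nat_lit 342) (nat_lit 278) (nat_lit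 244))) (XT.nd (nat_lit 94) (nat_lit 84) (nat_lit 0) (XT.lf (nat_lit 0) (nat_lit 4551191794) (nat_lit 252) (nat_lit 5562984837) (nat_lit 336) (nat_lit 1664595117) (nat_lit 38) (nat_lit 5) (nat_lit 41) (nat_lit 5) (nat_lit 42) (nat_lit 5) (nat_lit 343) (nat_lit 278) (nat_lit 243)) (XT.lf (nat_lit 0) (nat_lit 600131924) (nat_lit 336) (nat_lit 2465498848) (nat_lit 84) (nat_lit 8960521038) (nat_lit 37) (nat_lit 5) (nat_lit 41) (nat_lit 5) (nat_lit 38) (nat_lit 5) (nat_lit 344) (nat_lit 278) (nat_lit 242)))) (XT.nd (nat_lit 188) (nat_lit 924) (nat_lit 0) (XT.nd (nat_lit 94) (nat_lit 756) (nat_lit 0) (XT.lf (nat_lit 0) (nat_lit 1084684978) (nat_lit 756) (nat_lit 1264761722) (nat_lit 0) (nat_lit 1084684978) (nat_lit 170) (nat_lit 5) (nat_lit 179) (nat_lit 4) (nat_lit 170) (nat_lit 4) (nat_lit 306) (nat_lit 279) (nat_lit 279)) (XT.lf (nat_lit 0) (nat_lit 1182377615) (nat_lit 756) (nat_lit 3726165750) (nat_lit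 756) (nat_lit 2010592814) (nat_lit 161) (nat_lit 4) (nat_lit 170) (nat_lit 5) (nat_lit 170) (nat_lit 4) (nat_lit 307) (nat_lit 279) (nat_lit 278))) (XT.nd (nat_lit 94) (nat_lit 840) (nat_lit 0) (XT.lf (nat_lit 0) (nat_lit 681906587) (nat_lit 840) (nat_lit 1994609924) (nat_lit 84) (nat_lit 4297285121) (nat_lit 160) (nat_lit 5) (nat_lit 170) (nat_lit 5) (nat_lit 161) (nat_lit 4) (nat_lit 308) (nat_lit 279) (nat_lit 277)) (XT.nd (nat_lit 94) (nat_lit 0) (nat_lit 0) (XT.lf (nat_lit 0) (nat_lit 1802682089) (nat_lit 840) (nat_lit 1543551738) (nat_lit 924) (nat_lit 3685914007) (nat_lit 150) (nat_lit 5) (nat_lit 160) (nat_lit 5) (nat_lit 161) (nat_lit 4) (nat_lit 309) (nat_lit 279) (nat_lit 276)) (XT.lf (nat_lit 0) (nat_lit 5684130918) (nat_lit 840) (nat_lit 343972513) (nat_lit 924) (nat_lit 1066659664) (nat_lit 150) (nat_lit 5) (nat_lit 160) (nat_lit 5) (nat_lit 161) (nat_lit 4) (nat_lit 310) (nat_lit 279)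 (nat_lit 275))))))))
noncomputable def xc11 : XT := (XT.nd (nat_lit 1598) (nat_lit 3024) (nat_lit 0) (XT.nd (nat_lit 752) (nat_lit 2100) (nat_lit 0) (XT.nd (nat_lit 376) (nat_lit 2268) (nat_lit 0) (XT.nd (nat_lit 188) (nat_lit 1092) (nat_lit 0) (XT.nd (nat_lit 94) (nat_lit 0) (nat_lit 0) (XT.lf (nat_lit 0) (nat_lit 1550322237) (nat_lit 1008) (nat_lit 4685734284) (nat_lit 84) (nat_lit 924745025) (nat_lit 138) (nat_lit 5) (nat_lit 150) (nat_lit 5) (nat_lit 139) (nat_lit 4) (nat_lit 311) (nat_lit 279) (nat_lit 274)) (XT.lf (nat_lit 0) (nat_lit 4161979843) (nat_lit 1008) (nat_lit 809881872) (nat_lit 84) (nat_lit 2259085272) (nat_lit 138) (nat_lit 5) (nat_lit 150) (nat_lit 5) (nat_lit 139) (nat_lit 4) (nat_lit 312) (nat_lit 279) (nat_lit 273))) (XT.nd (nat_lit 94) (nat_lit 84) (nat_lit 0) (XT.lf (nat_lit 0) (nat_lit 3174423723) (nat_lit 1008) (nat_lit 3631465558) (nat_lit 1092) (nat_lit 499280359) (nat_lit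 126) (nat_lit 5) (nat_lit 138) (nat_lit 5) (nat_lit 139) (nat_lit 4) (nat_lit 313) (nat_lit 279) (nat_lit 272)) (XT.lf (nat_lit 0) (nat_lit 2035579513) (nat_lit 1092) (nat_lit 180332933) (nat_lit 84) (nat_lit 5167695217) (nat_lit 125) (nat_lit 5) (nat_lit 138) (nat_lit 5) (nat_lit 126) (nat_lit 5) (nat_lit 314) (nat_lit 279) (nat_lit 271)))) (XT.nd (nat_lit 188) (nat_lit 672) (nat_lit 0) (XT.nd (nat_lit 94) (nat_lit 504) (nat_lit 0) (XT.lf (nat_lit 0) (nat_lit 3891250312) (nat_lit 1092) (nat_lit 708688727) (nat_lit 1176) (nat_lit 2865938268) (nat_lit 112) (nat_lit 5) (nat_lit 125) (nat_lit 5) (nat_lit 126) (nat_lit 5) (nat_lit 315) (nat_lit 279) (nat_lit 270)) (XT.lf (nat_lit 0) (nat_lit 466690514) (nat_lit 504) (nat_lit 6716318909) (nat_lit 588) (nat_lit 369919766) (nat_lit 106) (nat_lit 5) (nat_lit 112) (nat_lit 5) (nat_lit 113) (nat_lit 4) (nat_lit 316) (nat_lit 279) (nat_lit 269))) (XT.nd (nat_lit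 94) (nat_lit 588) (nat_lit 0) (XT.lf (nat_lit 0) (nat_lit 2128756792) (nat_lit 588) (nat_lit 3039586726) (nat_lit 84) (nat_lit 2474925544) (nat_lit 105) (nat_lit 5) (nat_lit 112) (nat_lit 5) (nat_lit 106) (nat_lit 5) (nat_lit 317) (nat_lit 279) (nat_lit 268)) (XT.lf (nat_lit 0) (nat_lit 1075078849) (nat_lit 588) (nat_lit 3559792341) (nat_lit 672) (nat_lit 3103670591) (nat_lit 98) (nat_lit 5) (nat_lit 105) (nat_lit 5) (nat_lit 106) (nat_lit 5) (nat_lit 318) (nat_lit 279) (nat_lit 267))))) (XT.nd (nat_lit 376) (nat_lit 1008) (nat_lit 0) (XT.nd (nat_lit 188) (nat_lit 504) (nat_lit 0) (XT.nd (nat_lit 94) (nat_lit 588) (nat_lit 0) (XT.lf (nat_lit 0) (nat_lit 5307189526) (nat_lit 588) (nat_lit 1871666216) (nat_lit 672) (nat_lit 659454226) (nat_lit 98) (nat_lit 5) (nat_lit 105) (nat_lit 5) (nat_lit 106) (nat_lit 5) (nat_lit 319) (nat_lit 279) (nat_lit 266)) (XT.lf (nat_lit 0) (nat_lit 1670481834) (nat_lit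 504) (nat_lit 98739511) (nat_lit 588) (nat_lit 6173335459) (nat_lit 91) (nat_lit 5) (nat_lit 97) (nat_lit 5) (nat_lit 98) (nat_lit 5) (nat_lit 320) (nat_lit 279) (nat_lit 265))) (XT.nd (nat_lit 94) (nat_lit 504) (nat_lit 0) (XT.lf (nat_lit 0) (nat_lit 4234280540) (nat_lit 588) (nat_lit 2093062719) (nat_lit 84) (nat_lit 1723545051) (nat_lit 91) (nat_lit 5) (nat_lit 98) (nat_lit 5) (nat_lit 92) (nat_lit 5) (nat_lit 321) (nat_lit 279) (nat_lit 264)) (XT.lf (nat_lit 0) (nat_lit 2185119166) (nat_lit 504) (nat_lit 4546349939) (nat_lit 588) (nat_lit 1432754151) (nat_lit 85) (nat_lit 5) (nat_lit 91) (nat_lit 5) (nat_lit 92) (nat_lit 5) (nat_lit 322) (nat_lit 279) (nat_lit 263)))) (XT.nd (nat_lit 188) (nat_lit 504) (nat_lit 0) (XT.nd (nat_lit 94) (nat_lit 420) (nat_lit 0) (XT.lf (nat_lit 0) (nat_lit 959806768) (nat_lit 588) (nat_lit 1724767248) (nat_lit 84) (nat_lit 5597819244) (nat_lit 84) (nat_lit 5) (nat_lit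 91) (nat_lit 5) (nat_lit 85) (nat_lit 5) (nat_lit 323) (nat_lit 279) (nat_lit 262)) (XT.lf (nat_lit 0) (nat_lit 2627698086) (nat_lit 420) (nat_lit 730535826) (nat_lit 504) (nat_lit 5046981565) (nat_lit 79) (nat_lit 5) (nat_lit 84) (nat_lit 5) (nat_lit 85) (nat_lit 5) (nat_lit 324) (nat_lit 279) (nat_lit 261))) (XT.nd (nat_lit 94) (nat_lit 504) (nat_lit 0) (XT.lf (nat_lit 0) (nat_lit 5798485494) (nat_lit 504) (nat_lit 1465997288) (nat_lit 84) (nat_lit 1268611686) (nat_lit 79) (nat_lit 5) (nat_lit 85) (nat_lit 5) (nat_lit 80) (nat_lit 5) (nat_lit 325) (nat_lit 279) (nat_lit 260)) (XT.nd (nat_lit 94) (nat_lit 84) (nat_lit 0) (XT.lf (nat_lit 0) (nat_lit 2960114359) (nat_lit 420) (nat_lit 5329562579) (nat_lit 504) (nat_lit 376260425) (nat_lit 74) (nat_lit 5) (nat_lit 79) (nat_lit 5) (nat_lit 80) (nat_lit 5) (nat_lit 326) (nat_lit 279) (nat_lit 259)) (XT.lf (nat_lit 0) (nat_lit 1968014719) (nat_lit 504)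 (nat_lit 1340445886) (nat_lit 84) (nat_lit 5495444637) (nat_lit 73) (nat_lit 5) (nat_lit 79) (nat_lit 5) (nat_lit 74) (nat_lit 5) (nat_lit 327) (nat_lit 279) (nat_lit 258))))))) (XT.nd (nat_lit 752) (nat_lit 1344) (nat_lit 0) (XT.nd (nat_lit 376) (nat_lit 756) (nat_lit 0) (XT.nd (nat_lit 188) (nat_lit 504) (nat_lit 0) (XT.nd (nat_lit 94) (nat_lit 0) (nat_lit 0) (XT.lf (nat_lit 0) (nat_lit 3150049376) (nat_lit 420) (nat_lit 1198954151) (nat_lit 504) (nat_lit 4598112992) (nat_lit 68) (nat_lit 5) (nat_lit 73) (nat_lit 5) (nat_lit 74) (nat_lit 5) (nat_lit 328) (nat_lit 279) (nat_lit 257)) (XT.lf (nat_lit 0) (nat_lit 6769219878) (nat_lit 504) (nat_lit 1367017785) (nat_lit 84) (nat_lit 959808602) (nat_lit 68) (nat_lit 5) (nat_lit 74) (nat_lit 5) (nat_lit 69) (nat_lit 5) (nat_lit 329) (nat_lit 279) (nat_lit 256))) (XT.nd (nat_lit 94) (nat_lit 0) (nat_lit 0) (XT.lf (nat_lit 0) (nat_lit 1441379) (nat_lit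 504) (nat_lit 6066857612) (nat_lit 84) (nat_lit 3181890861) (nat_lit 62) (nat_lit 5) (nat_lit 68) (nat_lit 5) (nat_lit 63) (nat_lit 5) (nat_lit 330) (nat_lit 279) (nat_lit 255)) (XT.lf (nat_lit 0) (nat_lit 2311590459) (nat_lit 504) (nat_lit 1598431461) (nat_lit 84) (nat_lit 5499841777) (nat_lit 62) (nat_lit 5) (nat_lit 68) (nat_lit 5) (nat_lit 63) (nat_lit 5) (nat_lit 331) (nat_lit 279) (nat_lit 254)))) (XT.nd (nat_lit 188) (nat_lit 420) (nat_lit 0) (XT.nd (nat_lit 94) (nat_lit 0) (nat_lit 0) (XT.lf (nat_lit 0) (nat_lit 3001540018) (nat_lit 336) (nat_lit 1666908773) (nat_lit 420) (nat_lit 4906993771) (nat_lit 58) (nat_lit 5) (nat_lit 62) (nat_lit 5) (nat_lit 63) (nat_lit 5) (nat_lit 332) (nat_lit 279) (nat_lit 253)) (XT.lf (nat_lit 0) (nat_lit 7067801696) (nat_lit 420) (nat_lit 2042697059) (nat_lit 84) (nat_lit 636780785) (nat_lit 58) (nat_lit 5) (nat_lit 63) (nat_lit 5) (nat_lit 59) (nat_lit 5)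 (nat_lit 333) (nat_lit 279) (nat_lit 252))) (XT.nd (nat_lit 94) (nat_lit 84) (nat_lit 0) (XT.lf (nat_lit 0) (nat_lit 2597847167) (nat_lit 336) (nat_lit 6934296562) (nat_lit 420) (nat_lit 392763073) (nat_lit 54) (nat_lit 5) (nat_lit 58) (nat_lit 5) (nat_lit 59) (nat_lit 5) (nat_lit 334) (nat_lit 279) (nat_lit 251)) (XT.lf (nat_lit 0) (nat_lit 1894811356) (nat_lit 420) (nat_lit 2768516004) (nat_lit 84) (nat_lit 5445214618) (nat_lit 53) (nat_lit 5) (nat_lit 58) (nat_lit 5) (nat_lit 54) (nat_lit 5) (nat_lit 335) (nat_lit 279) (nat_lit 250))))) (XT.nd (nat_lit 376) (nat_lit 588) (nat_lit 0) (XT.nd (nat_lit 188) (nat_lit 420) (nat_lit 0) (XT.nd (nat_lit 94) (nat_lit 0) (nat_lit 0) (XT.lf (nat_lit 0) (nat_lit 1900653999) (nat_lit 336) (nat_lit 2312924671) (nat_lit 420) (nat_lit 6085302256) (nat_lit 49) (nat_lit 5) (nat_lit 53) (nat_lit 5) (nat_lit 54) (nat_lit 5) (nat_lit 336) (nat_lit 279) (nat_lit 249))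 (XT.lf (nat_lit 0) (nat_lit 6584829042) (nat_lit 420) (nat_lit 3788204678) (nat_lit 84) (nat_lit 122840448) (nat_lit 49) (nat_lit 5) (nat_lit 54) (nat_lit 5) (nat_lit 50) (nat_lit 5) (nat_lit 337) (nat_lit 279) (nat_lit 248))) (XT.nd (nat_lit 94) (nat_lit 84) (nat_lit 0) (XT.lf (nat_lit 0) (nat_lit 895240197) (nat_lit 336) (nat_lit 8118692113) (nat_lit 420) (nat_lit 1685675063) (nat_lit 45) (nat_lit 5) (nat_lit 49) (nat_lit 5) (nat_lit 50) (nat_lit 5) (nat_lit 338) (nat_lit 279) (nat_lit 247)) (XT.lf (nat_lit 0) (nat_lit 588367733) (nat_lit 420) (nat_lit 5175042063) (nat_lit 84) (nat_lit 5146447965) (nat_lit 44) (nat_lit 5) (nat_lit 49) (nat_lit 5) (nat_lit 45) (nat_lit 5) (nat_lit 339) (nat_lit 279) (nat_lit 246)))) (XT.nd (nat_lit 188) (nat_lit 336) (nat_lit 0) (XT.nd (nat_lit 94) (nat_lit 252) (nat_lit 0) (XT.lf (nat_lit 0) (nat_lit 2851337884) (nat_lit 420) (nat_lit 481862265) (nat_lit 84) (nat_lit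 7794469337) (nat_lit 44) (nat_lit 5) (nat_lit 49) (nat_lit 5) (nat_lit 45) (nat_lit 5) (nat_lit 340) (nat_lit 279) (nat_lit 245)) (XT.lf (nat_lit 0) (nat_lit 4384608956) (nat_lit 252) (nat_lit 798194220) (nat_lit 336) (nat_lit 6169612411) (nat_lit 41) (nat_lit 5) (nat_lit 44) (nat_lit 5) (nat_lit 45) (nat_lit 5) (nat_lit 341) (nat_lit 279) (nat_lit 244))) (XT.nd (nat_lit 94) (nat_lit 336) (nat_lit 0) (XT.lf (nat_lit 0) (nat_lit 7565090237) (nat_lit 336) (nat_lit 2251150535) (nat_lit 84) (nat_lit 1768680020) (nat_lit 41) (nat_lit 5) (nat_lit 45) (nat_lit 5) (nat_lit 42) (nat_lit 5) (nat_lit 342) (nat_lit 279) (nat_lit 243)) (XT.nd (nat_lit 94) (nat_lit 84) (nat_lit 0) (XT.lf (nat_lit 0) (nat_lit 2596439839) (nat_lit 252) (nat_lit 7415504634) (nat_lit 336) (nat_lit 1813100075) (nat_lit 38) (nat_lit 5) (nat_lit 41) (nat_lit 5) (nat_lit 42) (nat_lit 5) (nat_lit 343) (nat_lit 279) (nat_lit 242)) (XT.lf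 (nat_lit 0) (nat_lit 433427254) (nat_lit 336) (nat_lit 4494508815) (nat_lit 84) (nat_lit 7145248173) (nat_lit 37) (nat_lit 5) (nat_lit 41) (nat_lit 5) (nat_lit 38) (nat_lit 5) (nat_lit 344) (nat_lit 279) (nat_lit 241))))))))
noncomputable def xc12 : XT := (XT.nd (nat_lit 1504) (nat_lit 4032) (nat_lit 0) (XT.nd (nat_lit 752) (nat_lit 3444) (nat_lit 0) (XT.nd (nat_lit 376) (nat_lit 1932) (nat_lit 0) (XT.nd (nat_lit 188) (nat_lit 756) (nat_lit 0) (XT.nd (nat_lit 94) (nat_lit 756) (nat_lit 0) (XT.lf (nat_lit 0) (nat_lit 1911314415) (nat_lit 588) (nat_lit 738470261) (nat_lit 588) (nat_lit 738470261) (nat_lit 179) (nat_lit 4) (nat_lit 186) (nat_lit 5) (nat_lit 186) (nat_lit 4) (nat_lit 304) (nat_lit 280) (nat_lit 280)) (XT.lf (nat_lit 0) (nat_lit 634073229) (nat_lit 672) (nat_lit 576000799) (nat_lit 756) (nat_lit 5611540844) (nat_lit 170) (nat_lit 5) (nat_lit 178) (nat_lit 5) (nat_lit 179) (nat_lit 4)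 (nat_lit 305) (nat_lit 280) (nat_lit 279))) (XT.nd (nat_lit 94) (nat_lit 756) (nat_lit 0) (XT.lf (nat_lit 0) (nat_lit 3893286518) (nat_lit 756) (nat_lit 2567655814) (nat_lit 0) (nat_lit 408957887) (nat_lit 170) (nat_lit 5) (nat_lit 179) (nat_lit 4) (nat_lit 170) (nat_lit 4) (nat_lit 306) (nat_lit 280) (nat_lit 278)) (XT.lf (nat_lit 0) (nat_lit 1105714853) (nat_lit 756) (nat_lit 5482493654) (nat_lit 756) (nat_lit 334175754) (nat_lit 161) (nat_lit 4) (nat_lit 170) (nat_lit 5) (nat_lit 170) (nat_lit 4) (nat_lit 307) (nat_lit 280) (nat_lit 277)))) (XT.nd (nat_lit 188) (nat_lit 1008) (nat_lit 0) (XT.nd (nat_lit 94) (nat_lit 840) (nat_lit 0) (XT.lf (nat_lit 0) (nat_lit 2281338456) (nat_lit 840) (nat_lit 2128876108) (nat_lit 84) (nat_lit 2567884340) (nat_lit 160) (nat_lit 5) (nat_lit 170) (nat_lit 5) (nat_lit 161) (nat_lit 4) (nat_lit 308) (nat_lit 280) (nat_lit 276)) (XT.lf (nat_lit 0) (nat_lit 1628311976)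 (nat_lit 840) (nat_lit 3273714032) (nat_lit 924) (nat_lit 2135990403) (nat_lit 150) (nat_lit 5) (nat_lit 160) (nat_lit 5) (nat_lit 161) (nat_lit 4) (nat_lit 309) (nat_lit 280) (nat_lit 275))) (XT.nd (nat_lit 94) (nat_lit 924) (nat_lit 0) (XT.lf (nat_lit 0) (nat_lit 431891105) (nat_lit 924) (nat_lit 1632946873) (nat_lit 84) (nat_lit 5037141329) (nat_lit 149) (nat_lit 5) (nat_lit 160) (nat_lit 5) (nat_lit 150) (nat_lit 5) (nat_lit 310) (nat_lit 280) (nat_lit 274)) (XT.lf (nat_lit 0) (nat_lit 2210130269) (nat_lit 924) (nat_lit 764781516) (nat_lit 1008) (nat_lit 4194603884) (nat_lit 138) (nat_lit 5) (nat_lit 149) (nat_lit 5) (nat_lit 150) (nat_lit 5) (nat_lit 311) (nat_lit 280) (nat_lit 273))))) (XT.nd (nat_lit 376) (nat_lit 1260) (nat_lit 0) (XT.nd (nat_lit 188) (nat_lit 1092) (nat_lit 0) (XT.nd (nat_lit 94) (nat_lit 1092) (nat_lit 0) (XT.lf (nat_lit 0) (nat_lit 5539494615) (nat_lit 1008) (nat_lit 1113196781)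 (nat_lit 84) (nat_lit 588622390) (nat_lit 138) (nat_lit 5) (nat_lit 150) (nat_lit 5) (nat_lit 139) (nat_lit 4) (nat_lit 312) (nat_lit 280) (nat_lit 272)) (XT.lf (nat_lit 0) (nat_lit 808034068) (nat_lit 1092) (nat_lit 4497199814) (nat_lit 84) (nat_lit 2011530360) (nat_lit 125) (nat_lit 5) (nat_lit 138) (nat_lit 5) (nat_lit 126) (nat_lit 5) (nat_lit 313) (nat_lit 280) (nat_lit 271))) (XT.nd (nat_lit 94) (nat_lit 1092) (nat_lit 0) (XT.lf (nat_lit 0) (nat_lit 3294768843) (nat_lit 1092) (nat_lit 588463583) (nat_lit 84) (nat_lit 3513172771) (nat_lit 125) (nat_lit 5) (nat_lit 138) (nat_lit 5) (nat_lit 126) (nat_lit 5) (nat_lit 314) (nat_lit 280) (nat_lit 270)) (XT.lf (nat_lit 0) (nat_lit 3438375625) (nat_lit 1092) (nat_lit 2379339016) (nat_lit 1176) (nat_lit 1662415156) (nat_lit 112) (nat_lit 5) (nat_lit 125) (nat_lit 5) (nat_lit 126) (nat_lit 5) (nat_lit 315) (nat_lit 280) (nat_lit 269)))) (XT.nd (nat_lit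 188) (nat_lit 672) (nat_lit 0) (XT.nd (nat_lit 94) (nat_lit 504) (nat_lit 0) (XT.lf (nat_lit 0) (nat_lit 766928645) (nat_lit 1176) (nat_lit 45726817) (nat_lit 84) (nat_lit 6755977121) (nat_lit 111) (nat_lit 5) (nat_lit 125) (nat_lit 5) (nat_lit 112) (nat_lit 5) (nat_lit 316) (nat_lit 280) (nat_lit 268)) (XT.lf (nat_lit 0) (nat_lit 3213678982) (nat_lit 588) (nat_lit 3601345379) (nat_lit 84) (nat_lit 845369157) (nat_lit 105) (nat_lit 5) (nat_lit 112) (nat_lit 5) (nat_lit 106) (nat_lit 5) (nat_lit 317) (nat_lit 280) (nat_lit 267))) (XT.nd (nat_lit 94) (nat_lit 84) (nat_lit 0) (XT.lf (nat_lit 0) (nat_lit 465064622) (nat_lit 588) (nat_lit 5213814256) (nat_lit 672) (nat_lit 2078207167) (nat_lit 98) (nat_lit 5) (nat_lit 105) (nat_lit 5) (nat_lit 106) (nat_lit 5) (nat_lit 318) (nat_lit 280) (nat_lit 266)) (XT.lf (nat_lit 0) (nat_lit 323973531) (nat_lit 672) (nat_lit 3199766019) (nat_lit 84) (nat_lit 4334219115)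 (nat_lit 97) (nat_lit 5) (nat_lit 105) (nat_lit 5) (nat_lit 98) (nat_lit 5) (nat_lit 319) (nat_lit 280) (nat_lit 265)))))) (XT.nd (nat_lit 752) (nat_lit 2016) (nat_lit 0) (XT.nd (nat_lit 376) (nat_lit 924) (nat_lit 0) (XT.nd (nat_lit 188) (nat_lit 588) (nat_lit 0) (XT.nd (nat_lit 94) (nat_lit 0) (nat_lit 0) (XT.lf (nat_lit 0) (nat_lit 945324008) (nat_lit 504) (nat_lit 1753225705) (nat_lit 588) (nat_lit 5264856391) (nat_lit 91) (nat_lit 5) (nat_lit 97) (nat_lit 5) (nat_lit 98) (nat_lit 5) (nat_lit 320) (nat_lit 280) (nat_lit 264)) (XT.lf (nat_lit 0) (nat_lit 5114220331) (nat_lit 588) (nat_lit 2858794584) (nat_lit 84) (nat_lit 100387789) (nat_lit 91) (nat_lit 5) (nat_lit 98) (nat_lit 5) (nat_lit 92) (nat_lit 5) (nat_lit 321) (nat_lit 280) (nat_lit 263))) (XT.nd (nat_lit 94) (nat_lit 84) (nat_lit 0) (XT.lf (nat_lit 0) (nat_lit 1367870696) (nat_lit 504) (nat_lit 6203446640) (nat_lit 588) (nat_lit 616793169)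 (nat_lit 85) (nat_lit 5) (nat_lit 91) (nat_lit 5) (nat_lit 92) (nat_lit 5) (nat_lit 322) (nat_lit 280) (nat_lit 262)) (XT.lf (nat_lit 0) (nat_lit 1727516738) (nat_lit 588) (nat_lit 2609469830) (nat_lit 84) (nat_lit 3970151475) (nat_lit 84) (nat_lit 5) (nat_lit 91) (nat_lit 5) (nat_lit 85) (nat_lit 5) (nat_lit 323) (nat_lit 280) (nat_lit 261)))) (XT.nd (nat_lit 188) (nat_lit 504) (nat_lit 0) (XT.nd (nat_lit 94) (nat_lit 0) (nat_lit 0) (XT.lf (nat_lit 0) (nat_lit 1689690900) (nat_lit 420) (nat_lit 2396093115) (nat_lit 504) (nat_lit 4345539840) (nat_lit 79) (nat_lit 5) (nat_lit 84) (nat_lit 5) (nat_lit 85) (nat_lit 5) (nat_lit 324) (nat_lit 280) (nat_lit 260)) (XT.lf (nat_lit 0) (nat_lit 6108274178) (nat_lit 420) (nat_lit 374653026) (nat_lit 504) (nat_lit 2077727073) (nat_lit 79) (nat_lit 5) (nat_lit 84) (nat_lit 5) (nat_lit 85) (nat_lit 5) (nat_lit 325) (nat_lit 280) (nat_lit 259))) (XT.nd (nat_lit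 94) (nat_lit 0) (nat_lit 0) (XT.lf (nat_lit 0) (nat_lit 231013371) (nat_lit 504) (nat_lit 6774768589) (nat_lit 84) (nat_lit 1689099749) (nat_lit 73) (nat_lit 5) (nat_lit 79) (nat_lit 5) (nat_lit 74) (nat_lit 5) (nat_lit 326) (nat_lit 280) (nat_lit 258)) (XT.lf (nat_lit 0) (nat_lit 2538465003) (nat_lit 504) (nat_lit 2447504505) (nat_lit 84) (nat_lit 3847775895) (nat_lit 73) (nat_lit 5) (nat_lit 79) (nat_lit 5) (nat_lit 74) (nat_lit 5) (nat_lit 327) (nat_lit 280) (nat_lit 257))))) (XT.nd (nat_lit 376) (nat_lit 1092) (nat_lit 0) (XT.nd (nat_lit 188) (nat_lit 504) (nat_lit 0) (XT.nd (nat_lit 94) (nat_lit 0) (nat_lit 0) (XT.lf (nat_lit 0) (nat_lit 1986194951) (nat_lit 420) (nat_lit 2893349844) (nat_lit 504) (nat_lit 4098750908) (nat_lit 68) (nat_lit 5) (nat_lit 73) (nat_lit 5) (nat_lit 74) (nat_lit 5) (nat_lit 328) (nat_lit 280) (nat_lit 256)) (XT.lf (nat_lit 0) (nat_lit 6542183359) (nat_lit 420) (nat_lit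 720022522) (nat_lit 504) (nat_lit 1866282560) (nat_lit 68) (nat_lit 5) (nat_lit 73) (nat_lit 5) (nat_lit 74) (nat_lit 5) (nat_lit 329) (nat_lit 280) (nat_lit 255))) (XT.nd (nat_lit 94) (nat_lit 0) (nat_lit 0) (XT.lf (nat_lit 0) (nat_lit 405335303) (nat_lit 504) (nat_lit 7375580365) (nat_lit 84) (nat_lit 1503136164) (nat_lit 62) (nat_lit 5) (nat_lit 68) (nat_lit 5) (nat_lit 63) (nat_lit 5) (nat_lit 330) (nat_lit 280) (nat_lit 254)) (XT.lf (nat_lit 0) (nat_lit 2688561183) (nat_lit 504) (nat_lit 2940364565) (nat_lit 84) (nat_lit 3815724681) (nat_lit 62) (nat_lit 5) (nat_lit 68) (nat_lit 5) (nat_lit 63) (nat_lit 5) (nat_lit 331) (nat_lit 280) (nat_lit 253)))) (XT.nd (nat_lit 188) (nat_lit 756) (nat_lit 0) (XT.nd (nat_lit 94) (nat_lit 0) (nat_lit 0) (XT.lf (nat_lit 0) (nat_lit 1599139889) (nat_lit 336) (nat_lit 3406253968) (nat_lit 420) (nat_lit 4606163658) (nat_lit 58) (nat_lit 5) (nat_lit 62) (nat_lit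 5) (nat_lit 63) (nat_lit 5) (nat_lit 332) (nat_lit 280) (nat_lit 252)) (XT.lf (nat_lit 0) (nat_lit 6276943367) (nat_lit 336) (nat_lit 1095711759) (nat_lit 420) (nat_lit 2411819005) (nat_lit 58) (nat_lit 5) (nat_lit 62) (nat_lit 5) (nat_lit 63) (nat_lit 5) (nat_lit 333) (nat_lit 280) (nat_lit 251))) (XT.nd (nat_lit 94) (nat_lit 420) (nat_lit 0) (XT.lf (nat_lit 0) (nat_lit 1081614121) (nat_lit 336) (nat_lit 8704538458) (nat_lit 420) (nat_lit 177607244) (nat_lit 54) (nat_lit 5) (nat_lit 58) (nat_lit 5) (nat_lit 59) (nat_lit 5) (nat_lit 334) (nat_lit 280) (nat_lit 250)) (XT.nd (nat_lit 94) (nat_lit 336) (nat_lit 0) (XT.lf (nat_lit 0) (nat_lit 2080808034) (nat_lit 420) (nat_lit 4357723336) (nat_lit 84) (nat_lit 3709644389) (nat_lit 53) (nat_lit 5) (nat_lit 58) (nat_lit 5) (nat_lit 54) (nat_lit 5) (nat_lit 335) (nat_lit 280) (nat_lit 249)) (XT.lf (nat_lit 0) (nat_lit 247106250) (nat_lit 336) (nat_lit 4111987872)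 (nat_lit 420) (nat_lit 5980750552) (nat_lit 49) (nat_lit 5) (nat_lit 53) (nat_lit 5) (nat_lit 54) (nat_lit 5) (nat_lit 336) (nat_lit 280) (nat_lit 248))))))))
noncomputable def xc13 : XT := (XT.nd (nat_lit 51794) (nat_lit 0) (nat_lit 3024) (XT.nd (nat_lit 50948) (nat_lit 0) (nat_lit 9408) (XT.nd (nat_lit 376) (nat_lit 588) (nat_lit 0) (XT.nd (nat_lit 188) (nat_lit 420) (nat_lit 0) (XT.nd (nat_lit 94) (nat_lit 0) (nat_lit 0) (XT.lf (nat_lit 0) (nat_lit 5024692930) (nat_lit 336) (nat_lit 1680749399) (nat_lit 420) (nat_lit 3832240346) (nat_lit 49) (nat_lit 5) (nat_lit 53) (nat_lit 5) (nat_lit 54) (nat_lit 5) (nat_lit 337) (nat_lit 280) (nat_lit 247)) (XT.lf (nat_lit 0) (nat_lit 9085976449) (nat_lit 420) (nat_lit 861410428) (nat_lit 84) (nat_lit 795605249) (nat_lit 49) (nat_lit 5) (nat_lit 54) (nat_lit 5) (nat_lit 50) (nat_lit 5) (nat_lit 338) (nat_lit 280) (nat_lit 246))) (XT.nd (nat_lit 94) (nat_lit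 0) (nat_lit 0) (XT.lf (nat_lit 0) (nat_lit 584718501) (nat_lit 420) (nat_lit 7023985895) (nat_lit 84) (nat_lit 3345579394) (nat_lit 44) (nat_lit 5) (nat_lit 49) (nat_lit 5) (nat_lit 45) (nat_lit 5) (nat_lit 339) (nat_lit 280) (nat_lit 245)) (XT.lf (nat_lit 0) (nat_lit 2825456846) (nat_lit 420) (nat_lit 2360612719) (nat_lit 84) (nat_lit 5986779561) (nat_lit 44) (nat_lit 5) (nat_lit 49) (nat_lit 5) (nat_lit 45) (nat_lit 5) (nat_lit 340) (nat_lit 280) (nat_lit 244)))) (XT.nd (nat_lit 188) (nat_lit 336) (nat_lit 0) (XT.nd (nat_lit 94) (nat_lit 0) (nat_lit 0) (XT.lf (nat_lit 0) (nat_lit 2437722683) (nat_lit 252) (nat_lit 2678322760) (nat_lit 336) (nat_lit 6282879449) (nat_lit 41) (nat_lit 5) (nat_lit 44) (nat_lit 5) (nat_lit 45) (nat_lit 5) (nat_lit 341) (nat_lit 280) (nat_lit 243)) (XT.lf (nat_lit 0) (nat_lit 7376727668) (nat_lit 252) (nat_lit 82499668) (nat_lit 336) (nat_lit 4173475627) (nat_lit 41)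 (nat_lit 5) (nat_lit 44) (nat_lit 5) (nat_lit 45) (nat_lit 5) (nat_lit 342) (nat_lit 280) (nat_lit 242))) (XT.nd (nat_lit 94) (nat_lit 84) (nat_lit 0) (XT.lf (nat_lit 0) (nat_lit 522261369) (nat_lit 252) (nat_lit 9341792843) (nat_lit 336) (nat_lit 2010134142) (nat_lit 38) (nat_lit 5) (nat_lit 41) (nat_lit 5) (nat_lit 42) (nat_lit 5) (nat_lit 343) (nat_lit 280) (nat_lit 241)) (XT.lf (nat_lit 0) (nat_lit 219808420) (nat_lit 336) (nat_lit 6644449136) (nat_lit 84) (nat_lit 5258823581) (nat_lit 37) (nat_lit 5) (nat_lit 41) (nat_lit 5) (nat_lit 38) (nat_lit 5) (nat_lit 344) (nat_lit 280) (nat_lit 240))))) (XT.nd (nat_lit 376) (nat_lit 1764) (nat_lit 0) (XT.nd (nat_lit 188) (nat_lit 756) (nat_lit 0) (XT.nd (nat_lit 94) (nat_lit 588) (nat_lit 0) (XT.lf (nat_lit 0) (nat_lit 867498363) (nat_lit 588) (nat_lit 1613175151) (nat_lit 0) (nat_lit 867498363) (nat_lit 186) (nat_lit 5) (nat_lit 193) (nat_lit 4) (nat_lit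 186) (nat_lit 4) (nat_lit 302) (nat_lit 281) (nat_lit 281)) (XT.lf (nat_lit 0) (nat_lit 228729372) (nat_lit 588) (nat_lit 4193436553) (nat_lit 588) (nat_lit 2313318230) (nat_lit 179) (nat_lit 4) (nat_lit 186) (nat_lit 5) (nat_lit 186) (nat_lit 4) (nat_lit 303) (nat_lit 281) (nat_lit 280))) (XT.nd (nat_lit 94) (nat_lit 672) (nat_lit 0) (XT.lf (nat_lit 0) (nat_lit 349110802) (nat_lit 672) (nat_lit 2994661407) (nat_lit 84) (nat_lit 3434292440) (nat_lit 178) (nat_lit 5) (nat_lit 186) (nat_lit 5) (nat_lit 179) (nat_lit 4) (nat_lit 304) (nat_lit 281) (nat_lit 279)) (XT.lf (nat_lit 0) (nat_lit 541093225) (nat_lit 672) (nat_lit 2419790264) (nat_lit 756) (nat_lit 3863488840) (nat_lit 170) (nat_lit 5) (nat_lit 178) (nat_lit 5) (nat_lit 179) (nat_lit 4) (nat_lit 305) (nat_lit 281) (nat_lit 278)))) (XT.nd (nat_lit 188) (nat_lit 924) (nat_lit 0) (XT.nd (nat_lit 94) (nat_lit 840) (nat_lit 0) (XT.lf (nat_lit 0)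 (nat_lit 4178219391) (nat_lit 672) (nat_lit 1418163410) (nat_lit 756) (nat_lit 1277993412) (nat_lit 170) (nat_lit 5) (nat_lit 178) (nat_lit 5) (nat_lit 179) (nat_lit 4) (nat_lit 306) (nat_lit 281) (nat_lit 277)) (XT.lf (nat_lit 0) (nat_lit 935431877) (nat_lit 756) (nat_lit 346366395) (nat_lit 840) (nat_lit 5646577456) (nat_lit 160) (nat_lit 5) (nat_lit 169) (nat_lit 5) (nat_lit 170) (nat_lit 5) (nat_lit 307) (nat_lit 281) (nat_lit 276))) (XT.nd (nat_lit 94) (nat_lit 924) (nat_lit 0) (XT.lf (nat_lit 0) (nat_lit 3845233673) (nat_lit 840) (nat_lit 2341620378) (nat_lit 84) (nat_lit 798757748) (nat_lit 160) (nat_lit 5) (nat_lit 170) (nat_lit 5) (nat_lit 161) (nat_lit 4) (nat_lit 308) (nat_lit 281) (nat_lit 275)) (XT.nd (nat_lit 94) (nat_lit 84) (nat_lit 0) (XT.lf (nat_lit 0) (nat_lit 1374972934) (nat_lit 840) (nat_lit 5047785363) (nat_lit 924) (nat_lit 624320962) (nat_lit 150) (nat_lit 5) (nat_lit 160)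 (nat_lit 5) (nat_lit 161) (nat_lit 4) (nat_lit 309) (nat_lit 281) (nat_lit 274)) (XT.lf (nat_lit 0) (nat_lit 1872719543) (nat_lit 924) (nat_lit 1946505690) (nat_lit 84) (nat_lit 3292803312) (nat_lit 149) (nat_lit 5) (nat_lit 160) (nat_lit 5) (nat_lit 150) (nat_lit 5) (nat_lit 310) (nat_lit 281) (nat_lit 273))))))) (XT.nd (nat_lit 752) (nat_lit 2688) (nat_lit 0) (XT.nd (nat_lit 376) (nat_lit 1680) (nat_lit 0) (XT.nd (nat_lit 188) (nat_lit 1092) (nat_lit 0) (XT.nd (nat_lit 94) (nat_lit 0) (nat_lit 0) (XT.lf (nat_lit 0) (nat_lit 1854329159) (nat_lit 924) (nat_lit 2518711510) (nat_lit 1008) (nat_lit 2808041283) (nat_lit 138) (nat_lit 5) (nat_lit 149) (nat_lit 5) (nat_lit 150) (nat_lit 5) (nat_lit 311) (nat_lit 281) (nat_lit 272)) (XT.lf (nat_lit 0) (nat_lit 5743741302) (nat_lit 924) (nat_lit 1149586305) (nat_lit 1008) (nat_lit 361113178) (nat_lit 138) (nat_lit 5) (nat_lit 149) (nat_lit 5) (nat_lit 150)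 (nat_lit 5) (nat_lit 312) (nat_lit 281) (nat_lit 271))) (XT.nd (nat_lit 94) (nat_lit 0) (nat_lit 0) (XT.lf (nat_lit 0) (nat_lit 2068192556) (nat_lit 1092) (nat_lit 4954706344) (nat_lit 84) (nat_lit 308416071) (nat_lit 125) (nat_lit 5) (nat_lit 138) (nat_lit 5) (nat_lit 126) (nat_lit 5) (nat_lit 313) (nat_lit 281) (nat_lit 270)) (XT.lf (nat_lit 0) (nat_lit 4518006176) (nat_lit 1092) (nat_lit 1081589735) (nat_lit 84) (nat_lit 1812675701) (nat_lit 125) (nat_lit 5) (nat_lit 138) (nat_lit 5) (nat_lit 126) (nat_lit 5) (nat_lit 314) (nat_lit 281) (nat_lit 269)))) (XT.nd (nat_lit 188) (nat_lit 504) (nat_lit 0) (XT.nd (nat_lit 94) (nat_lit 84) (nat_lit 0) (XT.lf (nat_lit 0) (nat_lit 2899850783) (nat_lit 1092) (nat_lit 4099947944) (nat_lit 1176) (nat_lit 497639221) (nat_lit 112) (nat_lit 5) (nat_lit 125) (nat_lit 5) (nat_lit 126) (nat_lit 5) (nat_lit 315) (nat_lit 281) (nat_lit 268)) (XT.lf (nat_lit 0) (nat_lit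 1872646962) (nat_lit 1176) (nat_lit 648201329) (nat_lit 84) (nat_lit 5065993688) (nat_lit 111) (nat_lit 5) (nat_lit 125) (nat_lit 5) (nat_lit 112) (nat_lit 5) (nat_lit 316) (nat_lit 281) (nat_lit 267))) (XT.nd (nat_lit 94) (nat_lit 0) (nat_lit 0) (XT.lf (nat_lit 0) (nat_lit 3418277860) (nat_lit 504) (nat_lit 851596917) (nat_lit 588) (nat_lit 3410414794) (nat_lit 105) (nat_lit 5) (nat_lit 111) (nat_lit 5) (nat_lit 112) (nat_lit 5) (nat_lit 317) (nat_lit 281) (nat_lit 266)) (XT.lf (nat_lit 0) (nat_lit 6688198401) (nat_lit 588) (nat_lit 231407530) (nat_lit 84) (nat_lit 858976236) (nat_lit 105) (nat_lit 5) (nat_lit 112) (nat_lit 5) (nat_lit 106) (nat_lit 5) (nat_lit 318) (nat_lit 281) (nat_lit 265))))) (XT.nd (nat_lit 376) (nat_lit 924) (nat_lit 0) (XT.nd (nat_lit 188) (nat_lit 588) (nat_lit 0) (XT.nd (nat_lit 94) (nat_lit 504) (nat_lit 0) (XT.lf (nat_lit 0) (nat_lit 1255908536) (nat_lit 672) (nat_lit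 3967700570) (nat_lit 84) (nat_lit 2656795669) (nat_lit 97) (nat_lit 5) (nat_lit 105) (nat_lit 5) (nat_lit 98) (nat_lit 5) (nat_lit 319) (nat_lit 281) (nat_lit 264)) (XT.lf (nat_lit 0) (nat_lit 126597069) (nat_lit 504) (nat_lit 3463157434) (nat_lit 588) (nat_lit 4397494396) (nat_lit 91) (nat_lit 5) (nat_lit 97) (nat_lit 5) (nat_lit 98) (nat_lit 5) (nat_lit 320) (nat_lit 281) (nat_lit 263))) (XT.nd (nat_lit 94) (nat_lit 588) (nat_lit 0) (XT.lf (nat_lit 0) (nat_lit 4362979385) (nat_lit 504) (nat_lit 1609464736) (nat_lit 588) (nat_lit 2125953805) (nat_lit 91) (nat_lit 5) (nat_lit 97) (nat_lit 5) (nat_lit 98) (nat_lit 5) (nat_lit 321) (nat_lit 281) (nat_lit 262)) (XT.lf (nat_lit 0) (nat_lit 155331601) (nat_lit 588) (nat_lit 7761721937) (nat_lit 84) (nat_lit 297866981) (nat_lit 84) (nat_lit 5) (nat_lit 91) (nat_lit 5) (nat_lit 85) (nat_lit 5) (nat_lit 322) (nat_lit 281) (nat_lit 261)))) (XT.nd (nat_lit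 188) (nat_lit 504) (nat_lit 0) (XT.nd (nat_lit 94) (nat_lit 420) (nat_lit 0) (XT.lf (nat_lit 0) (nat_lit 2456359782) (nat_lit 588) (nat_lit 3591476472) (nat_lit 84) (nat_lit 2286997260) (nat_lit 84) (nat_lit 5) (nat_lit 91) (nat_lit 5) (nat_lit 85) (nat_lit 5) (nat_lit 323) (nat_lit 281) (nat_lit 260)) (XT.lf (nat_lit 0) (nat_lit 653434667) (nat_lit 420) (nat_lit 4120985619) (nat_lit 504) (nat_lit 3685960521) (nat_lit 79) (nat_lit 5) (nat_lit 84) (nat_lit 5) (nat_lit 85) (nat_lit 5) (nat_lit 324) (nat_lit 281) (nat_lit 259))) (XT.nd (nat_lit 94) (nat_lit 504) (nat_lit 0) (XT.lf (nat_lit 0) (nat_lit 5038984462) (nat_lit 420) (nat_lit 2103224174) (nat_lit 504) (nat_lit 1448524203) (nat_lit 79) (nat_lit 5) (nat_lit 84) (nat_lit 5) (nat_lit 85) (nat_lit 5) (nat_lit 325) (nat_lit 281) (nat_lit 258)) (XT.nd (nat_lit 94) (nat_lit 0) (nat_lit 0) (XT.lf (nat_lit 0) (nat_lit 775988170) (nat_lit 420) (nat_lit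 14056179) (nat_lit 504) (nat_lit 7936609767) (nat_lit 73) (nat_lit 5) (nat_lit 78) (nat_lit 5) (nat_lit 79) (nat_lit 5) (nat_lit 326) (nat_lit 281) (nat_lit 257)) (XT.lf (nat_lit 0) (nat_lit 3068993106) (nat_lit 504) (nat_lit 3656609157) (nat_lit 84) (nat_lit 2140900980) (nat_lit 73) (nat_lit 5) (nat_lit 79) (nat_lit 5) (nat_lit 74) (nat_lit 5) (nat_lit 327) (nat_lit 281) (nat_lit 256))))))))
noncomputable def xc14 : XT := (XT.nd (nat_lit 1504) (nat_lit 252) (nat_lit 0) (XT.nd (nat_lit 752) (nat_lit 1008) (nat_lit 0) (XT.nd (nat_lit 376) (nat_lit 756) (nat_lit 0) (XT.nd (nat_lit 188) (nat_lit 504) (nat_lit 0) (XT.nd (nat_lit 94) (nat_lit 0) (nat_lit 0) (XT.lf (nat_lit 0) (nat_lit 719219498) (nat_lit 420) (nat_lit 4650774237) (nat_lit 504) (nat_lit 3642401040) (nat_lit 68) (nat_lit 5) (nat_lit 73) (nat_lit 5) (nat_lit 74) (nat_lit 5) (nat_lit 328) (nat_lit 281) (nat_lit 255)) (XT.lf (nat_lit 0) (nat_lit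 5243191294) (nat_lit 420) (nat_lit 2482462498) (nat_lit 504) (nat_lit 1437866565) (nat_lit 68) (nat_lit 5) (nat_lit 73) (nat_lit 5) (nat_lit 74) (nat_lit 5) (nat_lit 329) (nat_lit 281) (nat_lit 254))) (XT.nd (nat_lit 94) (nat_lit 0) (nat_lit 0) (XT.lf (nat_lit 0) (nat_lit 526027977) (nat_lit 420) (nat_lit 243456056) (nat_lit 504) (nat_lit 8551282805) (nat_lit 62) (nat_lit 5) (nat_lit 67) (nat_lit 5) (nat_lit 68) (nat_lit 5) (nat_lit 330) (nat_lit 281) (nat_lit 253)) (XT.lf (nat_lit 0) (nat_lit 3024181125) (nat_lit 504) (nat_lit 4389319735) (nat_lit 84) (nat_lit 2068836395) (nat_lit 62) (nat_lit 5) (nat_lit 68) (nat_lit 5) (nat_lit 63) (nat_lit 5) (nat_lit 331) (nat_lit 281) (nat_lit 252)))) (XT.nd (nat_lit 188) (nat_lit 420) (nat_lit 0) (XT.nd (nat_lit 94) (nat_lit 0) (nat_lit 0) (XT.lf (nat_lit 0) (nat_lit 88505557) (nat_lit 336) (nat_lit 5212194070) (nat_lit 420) (nat_lit 4349879250) (nat_lit 58)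 (nat_lit 5) (nat_lit 62) (nat_lit 5) (nat_lit 63) (nat_lit 5) (nat_lit 332) (nat_lit 281) (nat_lit 251)) (XT.lf (nat_lit 0) (nat_lit 4735382099) (nat_lit 336) (nat_lit 2907705081) (nat_lit 420) (nat_lit 2181261645) (nat_lit 58) (nat_lit 5) (nat_lit 62) (nat_lit 5) (nat_lit 63) (nat_lit 5) (nat_lit 333) (nat_lit 281) (nat_lit 250))) (XT.nd (nat_lit 94) (nat_lit 336) (nat_lit 0) (XT.lf (nat_lit 0) (nat_lit 3823936) (nat_lit 420) (nat_lit 539837514) (nat_lit 84) (nat_lit 9461523998) (nat_lit 57) (nat_lit 5) (nat_lit 62) (nat_lit 5) (nat_lit 58) (nat_lit 5) (nat_lit 334) (nat_lit 281) (nat_lit 249)) (XT.lf (nat_lit 0) (nat_lit 2223668541) (nat_lit 420) (nat_lit 6059208104) (nat_lit 84) (nat_lit 1907829931) (nat_lit 53) (nat_lit 5) (nat_lit 58) (nat_lit 5) (nat_lit 54) (nat_lit 5) (nat_lit 335) (nat_lit 281) (nat_lit 248))))) (XT.nd (nat_lit 376) (nat_lit 252) (nat_lit 0) (XT.nd (nat_lit 188) (nat_lit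 420) (nat_lit 0) (XT.nd (nat_lit 94) (nat_lit 336) (nat_lit 0) (XT.lf (nat_lit 0) (nat_lit 4476149446) (nat_lit 420) (nat_lit 1489449413) (nat_lit 84) (nat_lit 4417649385) (nat_lit 53) (nat_lit 5) (nat_lit 58) (nat_lit 5) (nat_lit 54) (nat_lit 5) (nat_lit 336) (nat_lit 281) (nat_lit 247)) (XT.lf (nat_lit 0) (nat_lit 3227723534) (nat_lit 336) (nat_lit 3556747627) (nat_lit 420) (nat_lit 3797864508) (nat_lit 49) (nat_lit 5) (nat_lit 53) (nat_lit 5) (nat_lit 54) (nat_lit 5) (nat_lit 337) (nat_lit 281) (nat_lit 246))) (XT.nd (nat_lit 94) (nat_lit 420) (nat_lit 0) (XT.lf (nat_lit 0) (nat_lit 8064024842) (nat_lit 336) (nat_lit 1070668469) (nat_lit 420) (nat_lit 1653959961) (nat_lit 49) (nat_lit 5) (nat_lit 53) (nat_lit 5) (nat_lit 54) (nat_lit 5) (nat_lit 338) (nat_lit 281) (nat_lit 245)) (XT.lf (nat_lit 0) (nat_lit 535803344) (nat_lit 420) (nat_lit 8990784235) (nat_lit 84) (nat_lit 1475030029) (nat_lit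 44) (nat_lit 5) (nat_lit 49) (nat_lit 5) (nat_lit 45) (nat_lit 5) (nat_lit 339) (nat_lit 281) (nat_lit 244)))) (XT.nd (nat_lit 188) (nat_lit 0) (nat_lit 0) (XT.nd (nat_lit 94) (nat_lit 252) (nat_lit 0) (XT.lf (nat_lit 0) (nat_lit 2754978347) (nat_lit 420) (nat_lit 4356321458) (nat_lit 84) (nat_lit 4109614090) (nat_lit 44) (nat_lit 5) (nat_lit 49) (nat_lit 5) (nat_lit 45) (nat_lit 5) (nat_lit 340) (nat_lit 281) (nat_lit 243)) (XT.lf (nat_lit 0) (nat_lit 372360371) (nat_lit 252) (nat_lit 4631802944) (nat_lit 336) (nat_lit 6444170466) (nat_lit 41) (nat_lit 5) (nat_lit 44) (nat_lit 5) (nat_lit 45) (nat_lit 5) (nat_lit 341) (nat_lit 281) (nat_lit 242))) (XT.nd (nat_lit 94) (nat_lit 0) (nat_lit 0) (XT.lf (nat_lit 0) (nat_lit 5283608124) (nat_lit 252) (nat_lit 2043175622) (nat_lit 336) (nat_lit 4356024300) (nat_lit 41) (nat_lit 5) (nat_lit 44) (nat_lit 5) (nat_lit 45) (nat_lit 5) (nat_lit 342) (nat_lit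 281) (nat_lit 241)) (XT.lf (nat_lit 0) (nat_lit 9686967116) (nat_lit 336) (nat_lit 1639564164) (nat_lit 84) (nat_lit 599203124) (nat_lit 41) (nat_lit 5) (nat_lit 45) (nat_lit 5) (nat_lit 42) (nat_lit 5) (nat_lit 343) (nat_lit 281) (nat_lit 240)))))) (XT.nd (nat_lit 50760) (nat_lit 0) (nat_lit 6132) (XT.nd (nat_lit 50384) (nat_lit 0) (nat_lit 11004) (XT.nd (nat_lit 50196) (nat_lit 0) (nat_lit 12432) (XT.nd (nat_lit 50102) (nat_lit 0) (nat_lit 13020) (XT.lf (nat_lit 0) (nat_lit 3258138064) (nat_lit 252) (nat_lit 8875972930) (nat_lit 336) (nat_lit 41765168) (nat_lit 38) (nat_lit 5) (nat_lit 41) (nat_lit 5) (nat_lit 42) (nat_lit 5) (nat_lit 344) (nat_lit 281) (nat_lit 239)) (XT.lf (nat_lit 0) (nat_lit 1648434520) (nat_lit 420) (nat_lit 832698544) (nat_lit 420) (nat_lit 832698544) (nat_lit 193) (nat_lit 4) (nat_lit 198) (nat_lit 5) (nat_lit 198) (nat_lit 4) (nat_lit 300) (nat_lit 282) (nat_lit 282)))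 (XT.nd (nat_lit 94) (nat_lit 0) (nat_lit 0) (XT.lf (nat_lit 0) (nat_lit 7763028) (nat_lit 504) (nat_lit 980053555) (nat_lit 588) (nat_lit 5673552079) (nat_lit 186) (nat_lit 5) (nat_lit 192) (nat_lit 5) (nat_lit 193) (nat_lit 4) (nat_lit 301) (nat_lit 282) (nat_lit 281)) (XT.lf (nat_lit 0) (nat_lit 3433754949) (nat_lit 504) (nat_lit 195319100) (nat_lit 588) (nat_lit 3068914295) (nat_lit 186) (nat_lit 5) (nat_lit 192) (nat_lit 5) (nat_lit 193) (nat_lit 4) (nat_lit 302) (nat_lit 282) (nat_lit 280)))) (XT.nd (nat_lit 188) (nat_lit 756) (nat_lit 0) (XT.nd (nat_lit 94) (nat_lit 84) (nat_lit 0) (XT.lf (nat_lit 0) (nat_lit 156463167) (nat_lit 588) (nat_lit 6112254352) (nat_lit 588) (nat_lit 470146914) (nat_lit 179) (nat_lit 4) (nat_lit 186) (nat_lit 5) (nat_lit 186) (nat_lit 4) (nat_lit 303) (nat_lit 282) (nat_lit 279)) (XT.lf (nat_lit 0) (nat_lit 2110583894) (nat_lit 672) (nat_lit 3124267245) (nat_lit 84)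 (nat_lit 1547655253) (nat_lit 178) (nat_lit 5) (nat_lit 186) (nat_lit 5) (nat_lit 179) (nat_lit 4) (nat_lit 304) (nat_lit 282) (nat_lit 278))) (XT.nd (nat_lit 94) (nat_lit 84) (nat_lit 0) (XT.lf (nat_lit 0) (nat_lit 373508732) (nat_lit 672) (nat_lit 4303962859) (nat_lit 756) (nat_lit 2152973343) (nat_lit 170) (nat_lit 5) (nat_lit 178) (nat_lit 5) (nat_lit 179) (nat_lit 4) (nat_lit 305) (nat_lit 282) (nat_lit 277)) (XT.lf (nat_lit 0) (nat_lit 380885227) (nat_lit 756) (nat_lit 2909464296) (nat_lit 84) (nat_lit 3591522126) (nat_lit 169) (nat_lit 5) (nat_lit 178) (nat_lit 5) (nat_lit 170) (nat_lit 5) (nat_lit 306) (nat_lit 282) (nat_lit 276))))) (XT.nd (nat_lit 376) (nat_lit 3192) (nat_lit 0) (XT.nd (nat_lit 188) (nat_lit 924) (nat_lit 0) (XT.nd (nat_lit 94) (nat_lit 0) (nat_lit 0) (XT.lf (nat_lit 0) (nat_lit 669798110) (nat_lit 756) (nat_lit 2200863052) (nat_lit 840) (nat_lit 4066407740) (nat_lit 160)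 (nat_lit 5) (nat_lit 169) (nat_lit 5) (nat_lit 170) (nat_lit 5) (nat_lit 307) (nat_lit 282) (nat_lit 275)) (XT.lf (nat_lit 0) (nat_lit 4352745757) (nat_lit 756) (nat_lit 1032547192) (nat_lit 840) (nat_lit 1610736839) (nat_lit 160) (nat_lit 5) (nat_lit 169) (nat_lit 5) (nat_lit 170) (nat_lit 5) (nat_lit 308) (nat_lit 282) (nat_lit 274))) (XT.nd (nat_lit 94) (nat_lit 0) (nat_lit 0) (XT.lf (nat_lit 0) (nat_lit 833367600) (nat_lit 924) (nat_lit 6025353104) (nat_lit 84) (nat_lit 200362578) (nat_lit 149) (nat_lit 5) (nat_lit 160) (nat_lit 5) (nat_lit 150) (nat_lit 5) (nat_lit 309) (nat_lit 282) (nat_lit 273)) (XT.lf (nat_lit 0) (nat_lit 3278659467) (nat_lit 924) (nat_lit 2341019502) (nat_lit 84) (nat_lit 1505569231) (nat_lit 149) (nat_lit 5) (nat_lit 160) (nat_lit 5) (nat_lit 150) (nat_lit 5) (nat_lit 310) (nat_lit 282) (nat_lit 272)))) (XT.nd (nat_lit 188) (nat_lit 2184) (nat_lit 0) (XT.nd (nat_lit 94)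 (nat_lit 84) (nat_lit 0) (XT.lf (nat_lit 0) (nat_lit 1416984729) (nat_lit 924) (nat_lit 4319665148) (nat_lit 1008) (nat_lit 1459151526) (nat_lit 138) (nat_lit 5) (nat_lit 149) (nat_lit 5) (nat_lit 150) (nat_lit 5) (nat_lit 311) (nat_lit 282) (nat_lit 271)) (XT.lf (nat_lit 0) (nat_lit 930132621) (nat_lit 1008) (nat_lit 2007189417) (nat_lit 84) (nat_lit 4332880885) (nat_lit 137) (nat_lit 5) (nat_lit 149) (nat_lit 5) (nat_lit 138) (nat_lit 5) (nat_lit 312) (nat_lit 282) (nat_lit 270))) (XT.nd (nat_lit 94) (nat_lit 1176) (nat_lit 0) (XT.lf (nat_lit 0) (nat_lit 1835196510) (nat_lit 1008) (nat_lit 1471833349) (nat_lit 1092) (nat_lit 4041506449) (nat_lit 125) (nat_lit 5) (nat_lit 137) (nat_lit 5) (nat_lit 138) (nat_lit 5) (nat_lit 313) (nat_lit 282) (nat_lit 269)) (XT.nd (nat_lit 94) (nat_lit 1176) (nat_lit 0) (XT.lf (nat_lit 0) (nat_lit 5706431697) (nat_lit 1092) (nat_lit 1660171035) (nat_lit 84) (nat_lit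 64618967) (nat_lit 125) (nat_lit 5) (nat_lit 138) (nat_lit 5) (nat_lit 126) (nat_lit 5) (nat_lit 314) (nat_lit 282) (nat_lit 268)) (XT.lf (nat_lit 0) (nat_lit 616792706) (nat_lit 1176) (nat_lit 5248888542) (nat_lit 84) (nat_lit 1651943066) (nat_lit 111) (nat_lit 5) (nat_lit 125) (nat_lit 5) (nat_lit 112) (nat_lit 5) (nat_lit 315) (nat_lit 282) (nat_lit 267))))))))
noncomputable def xc15 : XT := (XT.nd (nat_lit 1598) (nat_lit 2016) (nat_lit 0) (XT.nd (nat_lit 752) (nat_lit 1848) (nat_lit 0) (XT.nd (nat_lit 376) (nat_lit 1092) (nat_lit 0) (XT.nd (nat_lit 188) (nat_lit 672) (nat_lit 0) (XT.nd (nat_lit 94) (nat_lit 504) (nat_lit 0) (XT.lf (nat_lit 0) (nat_lit 2942532705) (nat_lit 1176) (nat_lit 1338471161) (nat_lit 84) (nat_lit 3327093019) (nat_lit 111) (nat_lit 5) (nat_lit 125) (nat_lit 5) (nat_lit 112) (nat_lit 5) (nat_lit 316) (nat_lit 282) (nat_lit 266)) (XT.lf (nat_lit 0) (nat_lit 2680127395) (nat_lit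 504) (nat_lit 2618828658) (nat_lit 588) (nat_lit 2404000267) (nat_lit 105) (nat_lit 5) (nat_lit 111) (nat_lit 5) (nat_lit 112) (nat_lit 5) (nat_lit 317) (nat_lit 282) (nat_lit 265))) (XT.nd (nat_lit 94) (nat_lit 672) (nat_lit 0) (XT.lf (nat_lit 0) (nat_lit 6785315758) (nat_lit 504) (nat_lit 890468229) (nat_lit 588) (nat_lit 126893781) (nat_lit 105) (nat_lit 5) (nat_lit 111) (nat_lit 5) (nat_lit 112) (nat_lit 5) (nat_lit 318) (nat_lit 282) (nat_lit 264)) (XT.lf (nat_lit 0) (nat_lit 2150505982) (nat_lit 672) (nat_lit 4829098024) (nat_lit 84) (nat_lit 926268012) (nat_lit 97) (nat_lit 5) (nat_lit 105) (nat_lit 5) (nat_lit 98) (nat_lit 5) (nat_lit 319) (nat_lit 282) (nat_lit 263)))) (XT.nd (nat_lit 188) (nat_lit 588) (nat_lit 0) (XT.nd (nat_lit 94) (nat_lit 504) (nat_lit 0) (XT.lf (nat_lit 0) (nat_lit 4451468213) (nat_lit 672) (nat_lit 770616663) (nat_lit 84) (nat_lit 2791780679) (nat_lit 97) (nat_lit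 5) (nat_lit 105) (nat_lit 5) (nat_lit 98) (nat_lit 5) (nat_lit 320) (nat_lit 282) (nat_lit 262)) (XT.lf (nat_lit 0) (nat_lit 3416991348) (nat_lit 504) (nat_lit 3378361128) (nat_lit 588) (nat_lit 1330991179) (nat_lit 91) (nat_lit 5) (nat_lit 97) (nat_lit 5) (nat_lit 98) (nat_lit 5) (nat_lit 321) (nat_lit 282) (nat_lit 261))) (XT.nd (nat_lit 94) (nat_lit 504) (nat_lit 0) (XT.lf (nat_lit 0) (nat_lit 896236485) (nat_lit 588) (nat_lit 567390272) (nat_lit 84) (nat_lit 6780292931) (nat_lit 90) (nat_lit 5) (nat_lit 97) (nat_lit 5) (nat_lit 91) (nat_lit 5) (nat_lit 322) (nat_lit 282) (nat_lit 260)) (XT.lf (nat_lit 0) (nat_lit 3147015256) (nat_lit 588) (nat_lit 4671702507) (nat_lit 84) (nat_lit 546787722) (nat_lit 84) (nat_lit 5) (nat_lit 91) (nat_lit 5) (nat_lit 85) (nat_lit 5) (nat_lit 323) (nat_lit 282) (nat_lit 259))))) (XT.nd (nat_lit 376) (nat_lit 924) (nat_lit 0) (XT.nd (nat_lit 188) (nat_lit 504) (nat_lit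 0) (XT.nd (nat_lit 94) (nat_lit 420) (nat_lit 0) (XT.lf (nat_lit 0) (nat_lit 5429566465) (nat_lit 588) (nat_lit 472324551) (nat_lit 84) (nat_lit 2590374160) (nat_lit 84) (nat_lit 5) (nat_lit 91) (nat_lit 5) (nat_lit 85) (nat_lit 5) (nat_lit 324) (nat_lit 282) (nat_lit 258)) (XT.lf (nat_lit 0) (nat_lit 3871473047) (nat_lit 420) (nat_lit 3892627707) (nat_lit 504) (nat_lit 859655586) (nat_lit 79) (nat_lit 5) (nat_lit 84) (nat_lit 5) (nat_lit 85) (nat_lit 5) (nat_lit 325) (nat_lit 282) (nat_lit 257))) (XT.nd (nat_lit 94) (nat_lit 420) (nat_lit 0) (XT.lf (nat_lit 0) (nat_lit 1331349244) (nat_lit 504) (nat_lit 477777290) (nat_lit 84) (nat_lit 6951578514) (nat_lit 78) (nat_lit 5) (nat_lit 84) (nat_lit 5) (nat_lit 79) (nat_lit 5) (nat_lit 326) (nat_lit 282) (nat_lit 256)) (XT.lf (nat_lit 0) (nat_lit 3560093534) (nat_lit 504) (nat_lit 4968886856) (nat_lit 84) (nat_lit 373228903) (nat_lit 73) (nat_lit 5) (nat_lit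 79) (nat_lit 5) (nat_lit 74) (nat_lit 5) (nat_lit 327) (nat_lit 282) (nat_lit 255)))) (XT.nd (nat_lit 188) (nat_lit 504) (nat_lit 0) (XT.nd (nat_lit 94) (nat_lit 420) (nat_lit 0) (XT.lf (nat_lit 0) (nat_lit 5827275996) (nat_lit 504) (nat_lit 638920420) (nat_lit 84) (nat_lit 2583048584) (nat_lit 73) (nat_lit 5) (nat_lit 79) (nat_lit 5) (nat_lit 74) (nat_lit 5) (nat_lit 328) (nat_lit 282) (nat_lit 254)) (XT.lf (nat_lit 0) (nat_lit 3840859919) (nat_lit 420) (nat_lit 4309418471) (nat_lit 504) (nat_lit 1051197509) (nat_lit 68) (nat_lit 5) (nat_lit 73) (nat_lit 5) (nat_lit 74) (nat_lit 5) (nat_lit 329) (nat_lit 282) (nat_lit 253))) (XT.nd (nat_lit 94) (nat_lit 420) (nat_lit 0) (XT.lf (nat_lit 0) (nat_lit 1117394476) (nat_lit 504) (nat_lit 959430143) (nat_lit 84) (nat_lit 7282826288) (nat_lit 67) (nat_lit 5) (nat_lit 73) (nat_lit 5) (nat_lit 68) (nat_lit 5) (nat_lit 330) (nat_lit 282) (nat_lit 252)) (XT.nd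 (nat_lit 94) (nat_lit 0) (nat_lit 0) (XT.lf (nat_lit 0) (nat_lit 3318763118) (nat_lit 504) (nat_lit 5946647549) (nat_lit 84) (nat_lit 257548635) (nat_lit 62) (nat_lit 5) (nat_lit 68) (nat_lit 5) (nat_lit 63) (nat_lit 5) (nat_lit 331) (nat_lit 282) (nat_lit 251)) (XT.lf (nat_lit 0) (nat_lit 5569836716) (nat_lit 504) (nat_lit 1500909272) (nat_lit 84) (nat_lit 2621325973) (nat_lit 62) (nat_lit 5) (nat_lit 68) (nat_lit 5) (nat_lit 63) (nat_lit 5) (nat_lit 332) (nat_lit 282) (nat_lit 250))))))) (XT.nd (nat_lit 752) (nat_lit 504) (nat_lit 0) (XT.nd (nat_lit 376) (nat_lit 756) (nat_lit 0) (XT.nd (nat_lit 188) (nat_lit 336) (nat_lit 0) (XT.nd (nat_lit 94) (nat_lit 84) (nat_lit 0) (XT.lf (nat_lit 0) (nat_lit 3085108467) (nat_lit 336) (nat_lit 4787794627) (nat_lit 420) (nat_lit 1994237547) (nat_lit 58) (nat_lit 5) (nat_lit 62) (nat_lit 5) (nat_lit 63) (nat_lit 5) (nat_lit 333) (nat_lit 282) (nat_lit 249))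 (XT.lf (nat_lit 0) (nat_lit 163364365) (nat_lit 420) (nat_lit 2264416033) (nat_lit 84) (nat_lit 7620949581) (nat_lit 57) (nat_lit 5) (nat_lit 62) (nat_lit 5) (nat_lit 58) (nat_lit 5) (nat_lit 334) (nat_lit 282) (nat_lit 248))) (XT.nd (nat_lit 94) (nat_lit 0) (nat_lit 0) (XT.lf (nat_lit 0) (nat_lit 2323526036) (nat_lit 420) (nat_lit 7874556270) (nat_lit 84) (nat_lit 38091764) (nat_lit 53) (nat_lit 5) (nat_lit 58) (nat_lit 5) (nat_lit 54) (nat_lit 5) (nat_lit 335) (nat_lit 282) (nat_lit 247)) (XT.lf (nat_lit 0) (nat_lit 4553355284) (nat_lit 420) (nat_lit 3333985023) (nat_lit 84) (nat_lit 2542148236) (nat_lit 53) (nat_lit 5) (nat_lit 58) (nat_lit 5) (nat_lit 54) (nat_lit 5) (nat_lit 336) (nat_lit 282) (nat_lit 246)))) (XT.nd (nat_lit 188) (nat_lit 420) (nat_lit 0) (XT.nd (nat_lit 94) (nat_lit 0) (nat_lit 0) (XT.lf (nat_lit 0) (nat_lit 1316368540) (nat_lit 336) (nat_lit 5504377011) (nat_lit 420) (nat_lit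 3809167773) (nat_lit 49) (nat_lit 5) (nat_lit 53) (nat_lit 5) (nat_lit 54) (nat_lit 5) (nat_lit 337) (nat_lit 282) (nat_lit 245)) (XT.lf (nat_lit 0) (nat_lit 6124646621) (nat_lit 336) (nat_lit 3024733126) (nat_lit 420) (nat_lit 1687586828) (nat_lit 49) (nat_lit 5) (nat_lit 53) (nat_lit 5) (nat_lit 54) (nat_lit 5) (nat_lit 338) (nat_lit 282) (nat_lit 244))) (XT.nd (nat_lit 94) (nat_lit 336) (nat_lit 0) (XT.lf (nat_lit 0) (nat_lit 446604049) (nat_lit 420) (nat_lit 29631653) (nat_lit 84) (nat_lit 10575511786) (nat_lit 48) (nat_lit 5) (nat_lit 53) (nat_lit 5) (nat_lit 49) (nat_lit 5) (nat_lit 339) (nat_lit 282) (nat_lit 243)) (XT.lf (nat_lit 0) (nat_lit 2639836694) (nat_lit 420) (nat_lit 6470848692) (nat_lit 84) (nat_lit 2161223210) (nat_lit 44) (nat_lit 5) (nat_lit 49) (nat_lit 5) (nat_lit 45) (nat_lit 5) (nat_lit 340) (nat_lit 282) (nat_lit 242))))) (XT.nd (nat_lit 50196) (nat_lit 0) (nat_lit 12432)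 (XT.nd (nat_lit 188) (nat_lit 252) (nat_lit 0) (XT.nd (nat_lit 94) (nat_lit 252) (nat_lit 0) (XT.lf (nat_lit 0) (nat_lit 4865041693) (nat_lit 420) (nat_lit 1776867080) (nat_lit 84) (nat_lit 4858221874) (nat_lit 44) (nat_lit 5) (nat_lit 49) (nat_lit 5) (nat_lit 45) (nat_lit 5) (nat_lit 341) (nat_lit 282) (nat_lit 241)) (XT.lf (nat_lit 0) (nat_lit 3070922008) (nat_lit 252) (nat_lit 4078807707) (nat_lit 336) (nat_lit 4586108119) (nat_lit 41) (nat_lit 5) (nat_lit 44) (nat_lit 5) (nat_lit 45) (nat_lit 5) (nat_lit 342) (nat_lit 282) (nat_lit 240))) (XT.nd (nat_lit 94) (nat_lit 252) (nat_lit 0) (XT.lf (nat_lit 0) (nat_lit 8053625451) (nat_lit 252) (nat_lit 1430877667) (nat_lit 336) (nat_lit 2495104087) (nat_lit 41) (nat_lit 5) (nat_lit 44) (nat_lit 5) (nat_lit 45) (nat_lit 5) (nat_lit 343) (nat_lit 282) (nat_lit 239)) (XT.lf (nat_lit 0) (nat_lit 912762788) (nat_lit 252) (nat_lit 10962596224) (nat_lit 336)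 (nat_lit 356188521) (nat_lit 38) (nat_lit 5) (nat_lit 41) (nat_lit 5) (nat_lit 42) (nat_lit 5) (nat_lit 344) (nat_lit 282) (nat_lit 238)))) (XT.nd (nat_lit 188) (nat_lit 1008) (nat_lit 0) (XT.nd (nat_lit 94) (nat_lit 0) (nat_lit 0) (XT.lf (nat_lit 0) (nat_lit 827290825) (nat_lit 420) (nat_lit 1630474891) (nat_lit 0) (nat_lit 827290825) (nat_lit 198) (nat_lit 5) (nat_lit 203) (nat_lit 4) (nat_lit 198) (nat_lit 4) (nat_lit 298) (nat_lit 283) (nat_lit 283)) (XT.lf (nat_lit 0) (nat_lit 4305121645) (nat_lit 420) (nat_lit 48274672) (nat_lit 0) (nat_lit 2244675926) (nat_lit 198) (nat_lit 5) (nat_lit 203) (nat_lit 4) (nat_lit 198) (nat_lit 4) (nat_lit 299) (nat_lit 283) (nat_lit 282))) (XT.nd (nat_lit 94) (nat_lit 504) (nat_lit 0) (XT.lf (nat_lit 0) (nat_lit 339616333) (nat_lit 504) (nat_lit 3369177400) (nat_lit 84) (nat_lit 2920498573) (nat_lit 192) (nat_lit 5) (nat_lit 198) (nat_lit 5) (nat_lit 193) (nat_lit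 4) (nat_lit 300) (nat_lit 283) (nat_lit 281)) (XT.nd (nat_lit 94) (nat_lit 504) (nat_lit 0) (XT.lf (nat_lit 0) (nat_lit 2913153420) (nat_lit 504) (nat_lit 80725567) (nat_lit 84) (nat_lit 3670306935) (nat_lit 192) (nat_lit 5) (nat_lit 198) (nat_lit 5) (nat_lit 193) (nat_lit 4) (nat_lit 301) (nat_lit 283) (nat_lit 280)) (XT.lf (nat_lit 0) (nat_lit 3310516877) (nat_lit 504) (nat_lit 2198087438) (nat_lit 588) (nat_lit 1193883683) (nat_lit 186) (nat_lit 5) (nat_lit 192) (nat_lit 5) (nat_lit 193) (nat_lit 4) (nat_lit 302) (nat_lit 283) (nat_lit 279))))))))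
noncomputable def xc16 : XT := (XT.nd (nat_lit 1504) (nat_lit 4284) (nat_lit 0) (XT.nd (nat_lit 752) (nat_lit 3780) (nat_lit 0) (XT.nd (nat_lit 376) (nat_lit 1680) (nat_lit 0) (XT.nd (nat_lit 188) (nat_lit 756) (nat_lit 0) (XT.nd (nat_lit 94) (nat_lit 588) (nat_lit 0) (XT.lf (nat_lit 0) (nat_lit 1324285305) (nat_lit 588) (nat_lit 15207884) (nat_lit 84) (nat_lit 5405306799) (nat_lit 185) (nat_lit 5) (nat_lit 192) (nat_lit 5) (nat_lit 186) (nat_lit 5) (nat_lit 303) (nat_lit 283) (nat_lit 278)) (XT.lf (nat_lit 0) (nat_lit 3458192985) (nat_lit 588) (nat_lit 384498982) (nat_lit 672) (nat_lit 2947483229) (nat_lit 178) (nat_lit 5) (nat_lit 185) (nat_lit 5) (nat_lit 186) (nat_lit 5) (nat_lit 304) (nat_lit 283) (nat_lit 277))) (XT.nd (nat_lit 94) (nat_lit 84) (nat_lit 0) (XT.lf (nat_lit 0) (nat_lit 131163544) (nat_lit 672) (nat_lit 6230274828) (nat_lit 756) (nat_lit 478399973) (nat_lit 170) (nat_lit 5) (nat_lit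 178) (nat_lit 5) (nat_lit 179) (nat_lit 4) (nat_lit 305) (nat_lit 283) (nat_lit 276)) (XT.lf (nat_lit 0) (nat_lit 1980087764) (nat_lit 756) (nat_lit 3212111383) (nat_lit 84) (nat_lit 1700060004) (nat_lit 169) (nat_lit 5) (nat_lit 178) (nat_lit 5) (nat_lit 170) (nat_lit 5) (nat_lit 306) (nat_lit 283) (nat_lit 275)))) (XT.nd (nat_lit 188) (nat_lit 924) (nat_lit 0) (XT.nd (nat_lit 94) (nat_lit 0) (nat_lit 0) (XT.lf (nat_lit 0) (nat_lit 326978688) (nat_lit 756) (nat_lit 4099104072) (nat_lit 840) (nat_lit 2522942756) (nat_lit 160) (nat_lit 5) (nat_lit 169) (nat_lit 5) (nat_lit 170) (nat_lit 5) (nat_lit 307) (nat_lit 283) (nat_lit 274)) (XT.lf (nat_lit 0) (nat_lit 3976997828) (nat_lit 756) (nat_lit 2924224083) (nat_lit 840) (nat_lit 108194295) (nat_lit 160) (nat_lit 5) (nat_lit 169) (nat_lit 5) (nat_lit 170) (nat_lit 5) (nat_lit 308) (nat_lit 283) (nat_lit 273))) (XT.nd (nat_lit 94) (nat_lit 0) (nat_lit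 0) (XT.lf (nat_lit 0) (nat_lit 589865294) (nat_lit 840) (nat_lit 1670427248) (nat_lit 924) (nat_lit 4813314134) (nat_lit 149) (nat_lit 5) (nat_lit 159) (nat_lit 5) (nat_lit 160) (nat_lit 5) (nat_lit 309) (nat_lit 283) (nat_lit 272)) (XT.lf (nat_lit 0) (nat_lit 4321389418) (nat_lit 840) (nat_lit 332934696) (nat_lit 924) (nat_lit 2487224095) (nat_lit 149) (nat_lit 5) (nat_lit 159) (nat_lit 5) (nat_lit 160) (nat_lit 5) (nat_lit 310) (nat_lit 283) (nat_lit 271))))) (XT.nd (nat_lit 376) (nat_lit 1764) (nat_lit 0) (XT.nd (nat_lit 188) (nat_lit 1008) (nat_lit 0) (XT.nd (nat_lit 94) (nat_lit 84) (nat_lit 0) (XT.lf (nat_lit 0) (nat_lit 897689330) (nat_lit 924) (nat_lit 6169321107) (nat_lit 1008) (nat_lit 146677307) (nat_lit 138) (nat_lit 5) (nat_lit 149) (nat_lit 5) (nat_lit 150) (nat_lit 5) (nat_lit 311) (nat_lit 283) (nat_lit 270)) (XT.lf (nat_lit 0) (nat_lit 2179555786) (nat_lit 1008) (nat_lit 2590977083)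 (nat_lit 84) (nat_lit 2518458744) (nat_lit 137) (nat_lit 5) (nat_lit 149) (nat_lit 5) (nat_lit 138) (nat_lit 5) (nat_lit 312) (nat_lit 283) (nat_lit 269))) (XT.nd (nat_lit 94) (nat_lit 0) (nat_lit 0) (XT.lf (nat_lit 0) (nat_lit 1206158981) (nat_lit 1008) (nat_lit 3308547004) (nat_lit 1092) (nat_lit 2854079156) (nat_lit 125) (nat_lit 5) (nat_lit 137) (nat_lit 5) (nat_lit 138) (nat_lit 5) (nat_lit 313) (nat_lit 283) (nat_lit 268)) (XT.lf (nat_lit 0) (nat_lit 5110441270) (nat_lit 1008) (nat_lit 1768253163) (nat_lit 1092) (nat_lit 574034908) (nat_lit 125) (nat_lit 5) (nat_lit 137) (nat_lit 5) (nat_lit 138) (nat_lit 5) (nat_lit 314) (nat_lit 283) (nat_lit 267)))) (XT.nd (nat_lit 188) (nat_lit 588) (nat_lit 0) (XT.nd (nat_lit 94) (nat_lit 0) (nat_lit 0) (XT.lf (nat_lit 0) (nat_lit 1544718665) (nat_lit 1092) (nat_lit 142015187) (nat_lit 1176) (nat_lit 5853982171) (nat_lit 111) (nat_lit 5) (nat_lit 124)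 (nat_lit 5) (nat_lit 125) (nat_lit 5) (nat_lit 315) (nat_lit 283) (nat_lit 266)) (XT.lf (nat_lit 0) (nat_lit 3977583120) (nat_lit 1176) (nat_lit 2117179715) (nat_lit 84) (nat_lit 1537654275) (nat_lit 111) (nat_lit 5) (nat_lit 125) (nat_lit 5) (nat_lit 112) (nat_lit 5) (nat_lit 316) (nat_lit 283) (nat_lit 265))) (XT.nd (nat_lit 94) (nat_lit 84) (nat_lit 0) (XT.lf (nat_lit 0) (nat_lit 1852732631) (nat_lit 504) (nat_lit 4440590785) (nat_lit 588) (nat_lit 1435356789) (nat_lit 105) (nat_lit 5) (nat_lit 111) (nat_lit 5) (nat_lit 112) (nat_lit 5) (nat_lit 317) (nat_lit 283) (nat_lit 264)) (XT.lf (nat_lit 0) (nat_lit 792516404) (nat_lit 588) (nat_lit 1911320502) (nat_lit 84) (nat_lit 5125440429) (nat_lit 104) (nat_lit 5) (nat_lit 111) (nat_lit 5) (nat_lit 105) (nat_lit 5) (nat_lit 318) (nat_lit 283) (nat_lit 263)))))) (XT.nd (nat_lit 752) (nat_lit 2100) (nat_lit 0) (XT.nd (nat_lit 376) (nat_lit 1008) (nat_lit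 0) (XT.nd (nat_lit 188) (nat_lit 588) (nat_lit 0) (XT.nd (nat_lit 94) (nat_lit 0) (nat_lit 0) (XT.lf (nat_lit 0) (nat_lit 2140656883) (nat_lit 588) (nat_lit 876639214) (nat_lit 672) (nat_lit 4916818448) (nat_lit 97) (nat_lit 5) (nat_lit 104) (nat_lit 5) (nat_lit 105) (nat_lit 5) (nat_lit 319) (nat_lit 283) (nat_lit 262)) (XT.lf (nat_lit 0) (nat_lit 5278885065) (nat_lit 672) (nat_lit 1758545335) (nat_lit 84) (nat_lit 1006024361) (nat_lit 97) (nat_lit 5) (nat_lit 105) (nat_lit 5) (nat_lit 98) (nat_lit 5) (nat_lit 320) (nat_lit 283) (nat_lit 261))) (XT.nd (nat_lit 94) (nat_lit 84) (nat_lit 0) (XT.lf (nat_lit 0) (nat_lit 2376810093) (nat_lit 504) (nat_lit 5205886004) (nat_lit 588) (nat_lit 574601351) (nat_lit 91) (nat_lit 5) (nat_lit 97) (nat_lit 5) (nat_lit 98) (nat_lit 5) (nat_lit 321) (nat_lit 283) (nat_lit 260)) (XT.lf (nat_lit 0) (nat_lit 1607805026) (nat_lit 588) (nat_lit 1677730545) (nat_lit 84)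 (nat_lit 4990137405) (nat_lit 90) (nat_lit 5) (nat_lit 97) (nat_lit 5) (nat_lit 91) (nat_lit 5) (nat_lit 322) (nat_lit 283) (nat_lit 259)))) (XT.nd (nat_lit 188) (nat_lit 504) (nat_lit 0) (XT.nd (nat_lit 94) (nat_lit 0) (nat_lit 0) (XT.lf (nat_lit 0) (nat_lit 2534958382) (nat_lit 504) (nat_lit 1277844922) (nat_lit 588) (nat_lit 4585986275) (nat_lit 84) (nat_lit 5) (nat_lit 90) (nat_lit 5) (nat_lit 91) (nat_lit 5) (nat_lit 323) (nat_lit 283) (nat_lit 258)) (XT.lf (nat_lit 0) (nat_lit 6054523777) (nat_lit 588) (nat_lit 1683171558) (nat_lit 84) (nat_lit 789227943) (nat_lit 84) (nat_lit 5) (nat_lit 91) (nat_lit 5) (nat_lit 85) (nat_lit 5) (nat_lit 324) (nat_lit 283) (nat_lit 257))) (XT.nd (nat_lit 94) (nat_lit 84) (nat_lit 0) (XT.lf (nat_lit 0) (nat_lit 2604651689) (nat_lit 420) (nat_lit 5744531538) (nat_lit 504) (nat_lit 310572335) (nat_lit 79) (nat_lit 5) (nat_lit 84) (nat_lit 5) (nat_lit 85) (nat_lit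 5) (nat_lit 325) (nat_lit 283) (nat_lit 256)) (XT.lf (nat_lit 0) (nat_lit 1842210203) (nat_lit 504) (nat_lit 1816844516) (nat_lit 84) (nat_lit 5138421420) (nat_lit 78) (nat_lit 5) (nat_lit 84) (nat_lit 5) (nat_lit 79) (nat_lit 5) (nat_lit 326) (nat_lit 283) (nat_lit 255))))) (XT.nd (nat_lit 376) (nat_lit 1176) (nat_lit 0) (XT.nd (nat_lit 188) (nat_lit 504) (nat_lit 0) (XT.nd (nat_lit 94) (nat_lit 0) (nat_lit 0) (XT.lf (nat_lit 0) (nat_lit 2540129133) (nat_lit 420) (nat_lit 1486844595) (nat_lit 504) (nat_lit 4913465869) (nat_lit 73) (nat_lit 5) (nat_lit 78) (nat_lit 5) (nat_lit 79) (nat_lit 5) (nat_lit 327) (nat_lit 283) (nat_lit 254)) (XT.lf (nat_lit 0) (nat_lit 6253525400) (nat_lit 504) (nat_lit 2086022619) (nat_lit 84) (nat_lit 749279769) (nat_lit 73) (nat_lit 5) (nat_lit 79) (nat_lit 5) (nat_lit 74) (nat_lit 5) (nat_lit 328) (nat_lit 283) (nat_lit 253))) (XT.nd (nat_lit 94) (nat_lit 84) (nat_lit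 0) (XT.lf (nat_lit 0) (nat_lit 2333882116) (nat_lit 420) (nat_lit 6202593354) (nat_lit 504) (nat_lit 705914974) (nat_lit 68) (nat_lit 5) (nat_lit 73) (nat_lit 5) (nat_lit 74) (nat_lit 5) (nat_lit 329) (nat_lit 283) (nat_lit 252)) (XT.lf (nat_lit 0) (nat_lit 1430744747) (nat_lit 504) (nat_lit 2540560646) (nat_lit 84) (nat_lit 5430012916) (nat_lit 67) (nat_lit 5) (nat_lit 73) (nat_lit 5) (nat_lit 68) (nat_lit 5) (nat_lit 330) (nat_lit 283) (nat_lit 251)))) (XT.nd (nat_lit 188) (nat_lit 756) (nat_lit 0) (XT.nd (nat_lit 94) (nat_lit 0) (nat_lit 0) (XT.lf (nat_lit 0) (nat_lit 1935847164) (nat_lit 420) (nat_lit 1653133871) (nat_lit 504) (nat_lit 5977065019) (nat_lit 62) (nat_lit 5) (nat_lit 67) (nat_lit 5) (nat_lit 68) (nat_lit 5) (nat_lit 331) (nat_lit 283) (nat_lit 250)) (XT.lf (nat_lit 0) (nat_lit 5799827099) (nat_lit 504) (nat_lit 3197453977) (nat_lit 84) (nat_lit 739204466) (nat_lit 62) (nat_lit 5)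 (nat_lit 68) (nat_lit 5) (nat_lit 63) (nat_lit 5) (nat_lit 332) (nat_lit 283) (nat_lit 249))) (XT.nd (nat_lit 94) (nat_lit 420) (nat_lit 0) (XT.lf (nat_lit 0) (nat_lit 1324584243) (nat_lit 336) (nat_lit 6737732838) (nat_lit 420) (nat_lit 1850572383) (nat_lit 58) (nat_lit 5) (nat_lit 62) (nat_lit 5) (nat_lit 63) (nat_lit 5) (nat_lit 333) (nat_lit 283) (nat_lit 248)) (XT.nd (nat_lit 94) (nat_lit 336) (nat_lit 0) (XT.lf (nat_lit 0) (nat_lit 281132521) (nat_lit 420) (nat_lit 4100880281) (nat_lit 84) (nat_lit 5713207690) (nat_lit 57) (nat_lit 5) (nat_lit 62) (nat_lit 5) (nat_lit 58) (nat_lit 5) (nat_lit 334) (nat_lit 283) (nat_lit 247)) (XT.lf (nat_lit 0) (nat_lit 459314888) (nat_lit 336) (nat_lit 1940407795) (nat_lit 420) (nat_lit 7884301219) (nat_lit 53) (nat_lit 5) (nat_lit 57) (nat_lit 5) (nat_lit 58) (nat_lit 5) (nat_lit 335) (nat_lit 283) (nat_lit 246))))))))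
noncomputable def xc17 : XT := (XT.nd (nat_lit 51136) (nat_lit 0) (nat_lit 4704) (XT.nd (nat_lit 752) (nat_lit 0) (nat_lit 0) (XT.nd (nat_lit 376) (nat_lit 588) (nat_lit 0) (XT.nd (nat_lit 188) (nat_lit 420) (nat_lit 0) (XT.nd (nat_lit 94) (nat_lit 0) (nat_lit 0) (XT.lf (nat_lit 0) (nat_lit 4588332277) (nat_lit 420) (nat_lit 5293198521) (nat_lit 84) (nat_lit 597153867) (nat_lit 53) (nat_lit 5) (nat_lit 58) (nat_lit 5) (nat_lit 54) (nat_lit 5) (nat_lit 336) (nat_lit 283) (nat_lit 245)) (XT.lf (nat_lit 0) (nat_lit 6821354045) (nat_lit 420) (nat_lit 696825471) (nat_lit 84) (nat_lit 3162061775) (nat_lit 53) (nat_lit 5) (nat_lit 58) (nat_lit 5) (nat_lit 54) (nat_lit 5) (nat_lit 337) (nat_lit 283) (nat_lit 244))) (XT.nd (nat_lit 94) (nat_lit 84) (nat_lit 0) (XT.lf (nat_lit 0) (nat_lit 4069943819) (nat_lit 336) (nat_lit 5052050839) (nat_lit 420) (nat_lit 1766232109) (nat_lit 49) (nat_lit 5) (nat_lit 53)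 (nat_lit 5) (nat_lit 54) (nat_lit 5) (nat_lit 338) (nat_lit 283) (nat_lit 243)) (XT.lf (nat_lit 0) (nat_lit 348965088) (nat_lit 420) (nat_lit 2161661578) (nat_lit 84) (nat_lit 8593103733) (nat_lit 48) (nat_lit 5) (nat_lit 53) (nat_lit 5) (nat_lit 49) (nat_lit 5) (nat_lit 339) (nat_lit 283) (nat_lit 242)))) (XT.nd (nat_lit 188) (nat_lit 252) (nat_lit 0) (XT.nd (nat_lit 94) (nat_lit 0) (nat_lit 0) (XT.lf (nat_lit 0) (nat_lit 2479924563) (nat_lit 420) (nat_lit 8706165381) (nat_lit 84) (nat_lit 139790817) (nat_lit 44) (nat_lit 5) (nat_lit 49) (nat_lit 5) (nat_lit 45) (nat_lit 5) (nat_lit 340) (nat_lit 283) (nat_lit 241)) (XT.lf (nat_lit 0) (nat_lit 4685453414) (nat_lit 420) (nat_lit 4038563970) (nat_lit 84) (nat_lit 2830752408) (nat_lit 44) (nat_lit 5) (nat_lit 49) (nat_lit 5) (nat_lit 45) (nat_lit 5) (nat_lit 341) (nat_lit 283) (nat_lit 240))) (XT.nd (nat_lit 94) (nat_lit 0) (nat_lit 0) (XT.lf (nat_lit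 0) (nat_lit 736606867) (nat_lit 252) (nat_lit 6191293346) (nat_lit 336) (nat_lit 4863941547) (nat_lit 41) (nat_lit 5) (nat_lit 44) (nat_lit 5) (nat_lit 45) (nat_lit 5) (nat_lit 342) (nat_lit 283) (nat_lit 239)) (XT.lf (nat_lit 0) (nat_lit 5693982352) (nat_lit 252) (nat_lit 3549929311) (nat_lit 336) (nat_lit 2792334730) (nat_lit 41) (nat_lit 5) (nat_lit 44) (nat_lit 5) (nat_lit 45) (nat_lit 5) (nat_lit 343) (nat_lit 283) (nat_lit 238))))) (XT.nd (nat_lit 50008) (nat_lit 0) (nat_lit 12096) (XT.nd (nat_lit 49820) (nat_lit 0) (nat_lit 13188) (XT.nd (nat_lit 49726) (nat_lit 0) (nat_lit 13608) (XT.lf (nat_lit 0) (nat_lit 10755142119) (nat_lit 252) (nat_lit 839617576) (nat_lit 336) (nat_lit 694719297) (nat_lit 41) (nat_lit 5) (nat_lit 44) (nat_lit 5) (nat_lit 45) (nat_lit 5) (nat_lit 344) (nat_lit 283) (nat_lit 237)) (XT.lf (nat_lit 0) (nat_lit 1758237628) (nat_lit 252) (nat_lit 751755131) (nat_lit 252)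 (nat_lit 751755131) (nat_lit 203) (nat_lit 4) (nat_lit 206) (nat_lit 5) (nat_lit 206) (nat_lit 4) (nat_lit 296) (nat_lit 284) (nat_lit 284))) (XT.nd (nat_lit 94) (nat_lit 0) (nat_lit 0) (XT.lf (nat_lit 0) (nat_lit 92836244) (nat_lit 336) (nat_lit 1031245334) (nat_lit 420) (nat_lit 5422100298) (nat_lit 198) (nat_lit 5) (nat_lit 202) (nat_lit 5) (nat_lit 203) (nat_lit 4) (nat_lit 297) (nat_lit 284) (nat_lit 283)) (XT.lf (nat_lit 0) (nat_lit 3272657810) (nat_lit 336) (nat_lit 463014660) (nat_lit 420) (nat_lit 2836077175) (nat_lit 198) (nat_lit 5) (nat_lit 202) (nat_lit 5) (nat_lit 203) (nat_lit 4) (nat_lit 298) (nat_lit 284) (nat_lit 282)))) (XT.nd (nat_lit 188) (nat_lit 588) (nat_lit 0) (XT.nd (nat_lit 94) (nat_lit 504) (nat_lit 0) (XT.lf (nat_lit 0) (nat_lit 6335235328) (nat_lit 420) (nat_lit 114363707) (nat_lit 0) (nat_lit 151977618) (nat_lit 198) (nat_lit 5) (nat_lit 203) (nat_lit 4) (nat_lit 198)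 (nat_lit 4) (nat_lit 299) (nat_lit 284) (nat_lit 281)) (XT.lf (nat_lit 0) (nat_lit 2278672473) (nat_lit 504) (nat_lit 3493675907) (nat_lit 84) (nat_lit 861543995) (nat_lit 192) (nat_lit 5) (nat_lit 198) (nat_lit 5) (nat_lit 193) (nat_lit 4) (nat_lit 300) (nat_lit 284) (nat_lit 280))) (XT.nd (nat_lit 94) (nat_lit 588) (nat_lit 0) (XT.lf (nat_lit 0) (nat_lit 4807548518) (nat_lit 504) (nat_lit 237646985) (nat_lit 84) (nat_lit 1625237373) (nat_lit 192) (nat_lit 5) (nat_lit 198) (nat_lit 5) (nat_lit 193) (nat_lit 4) (nat_lit 301) (nat_lit 284) (nat_lit 279)) (XT.lf (nat_lit 0) (nat_lit 634339405) (nat_lit 588) (nat_lit 3598539378) (nat_lit 84) (nat_lit 2477313567) (nat_lit 185) (nat_lit 5) (nat_lit 192) (nat_lit 5) (nat_lit 186) (nat_lit 5) (nat_lit 302) (nat_lit 284) (nat_lit 278)))))) (XT.nd (nat_lit 752) (nat_lit 4368) (nat_lit 0) (XT.nd (nat_lit 376) (nat_lit 1680) (nat_lit 0) (XT.nd (nat_lit 188)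 (nat_lit 756) (nat_lit 0) (XT.nd (nat_lit 94) (nat_lit 588) (nat_lit 0) (XT.lf (nat_lit 0) (nat_lit 3085455040) (nat_lit 588) (nat_lit 265872834) (nat_lit 84) (nat_lit 3402381722) (nat_lit 185) (nat_lit 5) (nat_lit 192) (nat_lit 5) (nat_lit 186) (nat_lit 5) (nat_lit 303) (nat_lit 284) (nat_lit 277)) (XT.lf (nat_lit 0) (nat_lit 3170447165) (nat_lit 588) (nat_lit 2388853701) (nat_lit 672) (nat_lit 1241397551) (nat_lit 178) (nat_lit 5) (nat_lit 185) (nat_lit 5) (nat_lit 186) (nat_lit 5) (nat_lit 304) (nat_lit 284) (nat_lit 276))) (XT.nd (nat_lit 94) (nat_lit 672) (nat_lit 0) (XT.lf (nat_lit 0) (nat_lit 1154017899) (nat_lit 672) (nat_lit 207728941) (nat_lit 84) (nat_lit 5489972571) (nat_lit 177) (nat_lit 5) (nat_lit 185) (nat_lit 5) (nat_lit 178) (nat_lit 5) (nat_lit 305) (nat_lit 284) (nat_lit 275)) (XT.lf (nat_lit 0) (nat_lit 3311811068) (nat_lit 672) (nat_lit 237397485) (nat_lit 756) (nat_lit 3356659856)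 (nat_lit 169) (nat_lit 5) (nat_lit 177) (nat_lit 5) (nat_lit 178) (nat_lit 5) (nat_lit 306) (nat_lit 284) (nat_lit 274)))) (XT.nd (nat_lit 188) (nat_lit 840) (nat_lit 0) (XT.nd (nat_lit 94) (nat_lit 840) (nat_lit 0) (XT.lf (nat_lit 0) (nat_lit 5950438887) (nat_lit 756) (nat_lit 91465220) (nat_lit 84) (nat_lit 922323905) (nat_lit 169) (nat_lit 5) (nat_lit 178) (nat_lit 5) (nat_lit 170) (nat_lit 5) (nat_lit 307) (nat_lit 284) (nat_lit 273)) (XT.lf (nat_lit 0) (nat_lit 1332905369) (nat_lit 840) (nat_lit 3514793899) (nat_lit 84) (nat_lit 2177916624) (nat_lit 159) (nat_lit 5) (nat_lit 169) (nat_lit 5) (nat_lit 160) (nat_lit 5) (nat_lit 308) (nat_lit 284) (nat_lit 272))) (XT.nd (nat_lit 94) (nat_lit 0) (nat_lit 0) (XT.lf (nat_lit 0) (nat_lit 63877697) (nat_lit 840) (nat_lit 3592393900) (nat_lit 924) (nat_lit 3435020199) (nat_lit 149) (nat_lit 5) (nat_lit 159) (nat_lit 5) (nat_lit 160) (nat_lit 5) (nat_lit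 309) (nat_lit 284) (nat_lit 271)) (XT.lf (nat_lit 0) (nat_lit 3763783899) (nat_lit 840) (nat_lit 2249616988) (nat_lit 924) (nat_lit 1147158317) (nat_lit 149) (nat_lit 5) (nat_lit 159) (nat_lit 5) (nat_lit 160) (nat_lit 5) (nat_lit 310) (nat_lit 284) (nat_lit 270))))) (XT.nd (nat_lit 376) (nat_lit 2268) (nat_lit 0) (XT.nd (nat_lit 188) (nat_lit 1092) (nat_lit 0) (XT.nd (nat_lit 94) (nat_lit 0) (nat_lit 0) (XT.lf (nat_lit 0) (nat_lit 275800575) (nat_lit 924) (nat_lit 840361487) (nat_lit 1008) (nat_lit 6117989462) (nat_lit 137) (nat_lit 5) (nat_lit 148) (nat_lit 5) (nat_lit 149) (nat_lit 5) (nat_lit 311) (nat_lit 284) (nat_lit 269)) (XT.lf (nat_lit 0) (nat_lit 3395596535) (nat_lit 1008) (nat_lit 3259024346) (nat_lit 84) (nat_lit 656314537) (nat_lit 137) (nat_lit 5) (nat_lit 149) (nat_lit 5) (nat_lit 138) (nat_lit 5) (nat_lit 312) (nat_lit 284) (nat_lit 268))) (XT.nd (nat_lit 94) (nat_lit 84) (nat_lit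 0) (XT.lf (nat_lit 0) (nat_lit 492128942) (nat_lit 1008) (nat_lit 5197095234) (nat_lit 1092) (nat_lit 1702952963) (nat_lit 125) (nat_lit 5) (nat_lit 137) (nat_lit 5) (nat_lit 138) (nat_lit 5) (nat_lit 313) (nat_lit 284) (nat_lit 267)) (XT.lf (nat_lit 0) (nat_lit 531252314) (nat_lit 1092) (nat_lit 3117566624) (nat_lit 84) (nat_lit 3828336957) (nat_lit 124) (nat_lit 5) (nat_lit 137) (nat_lit 5) (nat_lit 125) (nat_lit 5) (nat_lit 314) (nat_lit 284) (nat_lit 266)))) (XT.nd (nat_lit 188) (nat_lit 1176) (nat_lit 0) (XT.nd (nat_lit 94) (nat_lit 0) (nat_lit 0) (XT.lf (nat_lit 0) (nat_lit 715880812) (nat_lit 1092) (nat_lit 2023169376) (nat_lit 1176) (nat_lit 4827346330) (nat_lit 111) (nat_lit 5) (nat_lit 124) (nat_lit 5) (nat_lit 125) (nat_lit 5) (nat_lit 315) (nat_lit 284) (nat_lit 265)) (XT.lf (nat_lit 0) (nat_lit 4671599457) (nat_lit 1092) (nat_lit 310241155) (nat_lit 1176) (nat_lit 2677889305) (nat_lit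 111) (nat_lit 5) (nat_lit 124) (nat_lit 5) (nat_lit 125) (nat_lit 5) (nat_lit 316) (nat_lit 284) (nat_lit 264))) (XT.nd (nat_lit 94) (nat_lit 672) (nat_lit 0) (XT.lf (nat_lit 0) (nat_lit 935322350) (nat_lit 504) (nat_lit 6318581373) (nat_lit 588) (nat_lit 503581485) (nat_lit 105) (nat_lit 5) (nat_lit 111) (nat_lit 5) (nat_lit 112) (nat_lit 5) (nat_lit 317) (nat_lit 284) (nat_lit 263)) (XT.nd (nat_lit 94) (nat_lit 588) (nat_lit 0) (XT.lf (nat_lit 0) (nat_lit 1674215010) (nat_lit 588) (nat_lit 2898291799) (nat_lit 84) (nat_lit 3286389410) (nat_lit 104) (nat_lit 5) (nat_lit 111) (nat_lit 5) (nat_lit 105) (nat_lit 5) (nat_lit 318) (nat_lit 284) (nat_lit 262)) (XT.lf (nat_lit 0) (nat_lit 1102197783) (nat_lit 588) (nat_lit 2756133006) (nat_lit 672) (nat_lit 4106789331) (nat_lit 97) (nat_lit 5) (nat_lit 104) (nat_lit 5) (nat_lit 105) (nat_lit 5) (nat_lit 319) (nat_lit 284) (nat_lit 261))))))))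
noncomputable def xc18 : XT := (XT.nd (nat_lit 1504) (nat_lit 1344) (nat_lit 0) (XT.nd (nat_lit 752) (nat_lit 1344) (nat_lit 0) (XT.nd (nat_lit 376) (nat_lit 924) (nat_lit 0) (XT.nd (nat_lit 188) (nat_lit 504) (nat_lit 0) (XT.nd (nat_lit 94) (nat_lit 588) (nat_lit 0) (XT.lf (nat_lit 0) (nat_lit 5226695435) (nat_lit 588) (nat_lit 853289744) (nat_lit 672) (nat_lit 1995835442) (nat_lit 97) (nat_lit 5) (nat_lit 104) (nat_lit 5) (nat_lit 105) (nat_lit 5) (nat_lit 320) (nat_lit 284) (nat_lit 260)) (XT.lf (nat_lit 0) (nat_lit 141021032) (nat_lit 588) (nat_lit 6951249805) (nat_lit 84) (nat_lit 1098973058) (nat_lit 90) (nat_lit 5) (nat_lit 97) (nat_lit 5) (nat_lit 91) (nat_lit 5) (nat_lit 321) (nat_lit 284) (nat_lit 259))) (XT.nd (nat_lit 94) (nat_lit 504) (nat_lit 0) (XT.lf (nat_lit 0) (nat_lit 2283158215) (nat_lit 588) (nat_lit 2884941652) (nat_lit 84) (nat_lit 3142343924) (nat_lit 90) (nat_lit 5) (nat_lit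 97) (nat_lit 5) (nat_lit 91) (nat_lit 5) (nat_lit 322) (nat_lit 284) (nat_lit 258)) (XT.lf (nat_lit 0) (nat_lit 1272487301) (nat_lit 504) (nat_lit 3175315781) (nat_lit 588) (nat_lit 3987116523) (nat_lit 84) (nat_lit 5) (nat_lit 90) (nat_lit 5) (nat_lit 91) (nat_lit 5) (nat_lit 323) (nat_lit 284) (nat_lit 257)))) (XT.nd (nat_lit 188) (nat_lit 420) (nat_lit 0) (XT.nd (nat_lit 94) (nat_lit 504) (nat_lit 0) (XT.lf (nat_lit 0) (nat_lit 5559996505) (nat_lit 504) (nat_lit 1094251195) (nat_lit 588) (nat_lit 1910004154) (nat_lit 84) (nat_lit 5) (nat_lit 90) (nat_lit 5) (nat_lit 91) (nat_lit 5) (nat_lit 324) (nat_lit 284) (nat_lit 256)) (XT.lf (nat_lit 0) (nat_lit 195223163) (nat_lit 504) (nat_lit 7463400941) (nat_lit 84) (nat_lit 1040078685) (nat_lit 78) (nat_lit 5) (nat_lit 84) (nat_lit 5) (nat_lit 79) (nat_lit 5) (nat_lit 325) (nat_lit 284) (nat_lit 255))) (XT.nd (nat_lit 94) (nat_lit 420) (nat_lit 0) (XT.lf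 (nat_lit 0) (nat_lit 2315405501) (nat_lit 504) (nat_lit 3258096090) (nat_lit 84) (nat_lit 3263738704) (nat_lit 78) (nat_lit 5) (nat_lit 84) (nat_lit 5) (nat_lit 79) (nat_lit 5) (nat_lit 326) (nat_lit 284) (nat_lit 254)) (XT.lf (nat_lit 0) (nat_lit 1039671322) (nat_lit 420) (nat_lit 3420062191) (nat_lit 504) (nat_lit 4521816672) (nat_lit 73) (nat_lit 5) (nat_lit 78) (nat_lit 5) (nat_lit 79) (nat_lit 5) (nat_lit 327) (nat_lit 284) (nat_lit 253))))) (XT.nd (nat_lit 376) (nat_lit 420) (nat_lit 0) (XT.nd (nat_lit 188) (nat_lit 504) (nat_lit 0) (XT.nd (nat_lit 94) (nat_lit 420) (nat_lit 0) (XT.lf (nat_lit 0) (nat_lit 5481486297) (nat_lit 420) (nat_lit 1172146047) (nat_lit 504) (nat_lit 2477408406) (nat_lit 73) (nat_lit 5) (nat_lit 78) (nat_lit 5) (nat_lit 79) (nat_lit 5) (nat_lit 328) (nat_lit 284) (nat_lit 252)) (XT.lf (nat_lit 0) (nat_lit 720853223) (nat_lit 420) (nat_lit 8163751785) (nat_lit 504) (nat_lit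 401697122) (nat_lit 68) (nat_lit 5) (nat_lit 73) (nat_lit 5) (nat_lit 74) (nat_lit 5) (nat_lit 329) (nat_lit 284) (nat_lit 251))) (XT.nd (nat_lit 94) (nat_lit 420) (nat_lit 0) (XT.lf (nat_lit 0) (nat_lit 1704608662) (nat_lit 504) (nat_lit 4229435601) (nat_lit 84) (nat_lit 3511925388) (nat_lit 67) (nat_lit 5) (nat_lit 73) (nat_lit 5) (nat_lit 68) (nat_lit 5) (nat_lit 330) (nat_lit 284) (nat_lit 250)) (XT.lf (nat_lit 0) (nat_lit 183621732) (nat_lit 420) (nat_lit 3638344682) (nat_lit 504) (nat_lit 5790077991) (nat_lit 62) (nat_lit 5) (nat_lit 67) (nat_lit 5) (nat_lit 68) (nat_lit 5) (nat_lit 331) (nat_lit 284) (nat_lit 249)))) (XT.nd (nat_lit 188) (nat_lit 420) (nat_lit 0) (XT.nd (nat_lit 94) (nat_lit 0) (nat_lit 0) (XT.lf (nat_lit 0) (nat_lit 4766758823) (nat_lit 420) (nat_lit 1235504699) (nat_lit 504) (nat_lit 3781244762) (nat_lit 62) (nat_lit 5) (nat_lit 67) (nat_lit 5) (nat_lit 68) (nat_lit 5) (nat_lit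 332) (nat_lit 284) (nat_lit 248)) (XT.lf (nat_lit 0) (nat_lit 8216940252) (nat_lit 504) (nat_lit 536793980) (nat_lit 84) (nat_lit 1207735235) (nat_lit 62) (nat_lit 5) (nat_lit 68) (nat_lit 5) (nat_lit 63) (nat_lit 5) (nat_lit 333) (nat_lit 284) (nat_lit 247))) (XT.nd (nat_lit 94) (nat_lit 0) (nat_lit 0) (XT.lf (nat_lit 0) (nat_lit 357238177) (nat_lit 420) (nat_lit 6050942033) (nat_lit 84) (nat_lit 3736520108) (nat_lit 57) (nat_lit 5) (nat_lit 62) (nat_lit 5) (nat_lit 58) (nat_lit 5) (nat_lit 334) (nat_lit 284) (nat_lit 246)) (XT.lf (nat_lit 0) (nat_lit 2449631881) (nat_lit 420) (nat_lit 1527063197) (nat_lit 84) (nat_lit 6357689222) (nat_lit 57) (nat_lit 5) (nat_lit 62) (nat_lit 5) (nat_lit 58) (nat_lit 5) (nat_lit 335) (nat_lit 284) (nat_lit 245)))))) (XT.nd (nat_lit 752) (nat_lit 0) (nat_lit 0) (XT.nd (nat_lit 376) (nat_lit 588) (nat_lit 0) (XT.nd (nat_lit 188) (nat_lit 420) (nat_lit 0) (XT.nd (nat_lit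 94) (nat_lit 0) (nat_lit 0) (XT.lf (nat_lit 0) (nat_lit 3147153387) (nat_lit 336) (nat_lit 1448327225) (nat_lit 420) (nat_lit 5934956459) (nat_lit 53) (nat_lit 5) (nat_lit 57) (nat_lit 5) (nat_lit 58) (nat_lit 5) (nat_lit 336) (nat_lit 284) (nat_lit 244)) (XT.lf (nat_lit 0) (nat_lit 6793465580) (nat_lit 420) (nat_lit 2799176048) (nat_lit 84) (nat_lit 1140502633) (nat_lit 53) (nat_lit 5) (nat_lit 58) (nat_lit 5) (nat_lit 54) (nat_lit 5) (nat_lit 337) (nat_lit 284) (nat_lit 243))) (XT.nd (nat_lit 94) (nat_lit 84) (nat_lit 0) (XT.lf (nat_lit 0) (nat_lit 1898001239) (nat_lit 336) (nat_lit 7154511279) (nat_lit 420) (nat_lit 1889969110) (nat_lit 49) (nat_lit 5) (nat_lit 53) (nat_lit 5) (nat_lit 54) (nat_lit 5) (nat_lit 338) (nat_lit 284) (nat_lit 242)) (XT.lf (nat_lit 0) (nat_lit 207761647) (nat_lit 420) (nat_lit 4412671400) (nat_lit 84) (nat_lit 6538267794) (nat_lit 48) (nat_lit 5) (nat_lit 53) (nat_lit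 5) (nat_lit 49) (nat_lit 5) (nat_lit 339) (nat_lit 284) (nat_lit 241)))) (XT.nd (nat_lit 188) (nat_lit 252) (nat_lit 0) (XT.nd (nat_lit 94) (nat_lit 0) (nat_lit 0) (XT.lf (nat_lit 0) (nat_lit 298103073) (nat_lit 336) (nat_lit 1996798312) (nat_lit 420) (nat_lit 9087365249) (nat_lit 44) (nat_lit 5) (nat_lit 48) (nat_lit 5) (nat_lit 49) (nat_lit 5) (nat_lit 340) (nat_lit 284) (nat_lit 240)) (XT.lf (nat_lit 0) (nat_lit 4461537221) (nat_lit 420) (nat_lit 6422340667) (nat_lit 84) (nat_lit 728538763) (nat_lit 44) (nat_lit 5) (nat_lit 49) (nat_lit 5) (nat_lit 45) (nat_lit 5) (nat_lit 341) (nat_lit 284) (nat_lit 239))) (XT.nd (nat_lit 94) (nat_lit 252) (nat_lit 0) (XT.lf (nat_lit 0) (nat_lit 6678166094) (nat_lit 420) (nat_lit 1686828473) (nat_lit 84) (nat_lit 3485348051) (nat_lit 44) (nat_lit 5) (nat_lit 49) (nat_lit 5) (nat_lit 45) (nat_lit 5) (nat_lit 342) (nat_lit 284) (nat_lit 238)) (XT.lf (nat_lit 0)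 (nat_lit 3211295958) (nat_lit 252) (nat_lit 5747606141) (nat_lit 336) (nat_lit 3136990718) (nat_lit 41) (nat_lit 5) (nat_lit 44) (nat_lit 5) (nat_lit 45) (nat_lit 5) (nat_lit 343) (nat_lit 284) (nat_lit 237))))) (XT.nd (nat_lit 49820) (nat_lit 0) (nat_lit 12684) (XT.nd (nat_lit 49632) (nat_lit 0) (nat_lit 13524) (XT.nd (nat_lit 49538) (nat_lit 0) (nat_lit 13860) (XT.lf (nat_lit 0) (nat_lit 8248627986) (nat_lit 252) (nat_lit 3043471495) (nat_lit 336) (nat_lit 1057623569) (nat_lit 41) (nat_lit 5) (nat_lit 44) (nat_lit 5) (nat_lit 45) (nat_lit 5) (nat_lit 344) (nat_lit 284) (nat_lit 236)) (XT.lf (nat_lit 0) (nat_lit 980543582) (nat_lit 252) (nat_lit 1282647329) (nat_lit 0) (nat_lit 980543582) (nat_lit 206) (nat_lit 5) (nat_lit 209) (nat_lit 4) (nat_lit 206) (nat_lit 4) (nat_lit 294) (nat_lit 285) (nat_lit 285))) (XT.nd (nat_lit 94) (nat_lit 84) (nat_lit 0) (XT.lf (nat_lit 0) (nat_lit 417937864) (nat_lit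 252) (nat_lit 4172413164) (nat_lit 252) (nat_lit 1914344344) (nat_lit 203) (nat_lit 4) (nat_lit 206) (nat_lit 5) (nat_lit 206) (nat_lit 4) (nat_lit 295) (nat_lit 285) (nat_lit 284)) (XT.lf (nat_lit 0) (nat_lit 690207194) (nat_lit 336) (nat_lit 3046431449) (nat_lit 84) (nat_lit 2788454365) (nat_lit 202) (nat_lit 5) (nat_lit 206) (nat_lit 5) (nat_lit 203) (nat_lit 4) (nat_lit 296) (nat_lit 285) (nat_lit 283)))) (XT.nd (nat_lit 188) (nat_lit 504) (nat_lit 0) (XT.nd (nat_lit 94) (nat_lit 0) (nat_lit 0) (XT.lf (nat_lit 0) (nat_lit 5790870) (nat_lit 336) (nat_lit 3233181394) (nat_lit 420) (nat_lit 3310145512) (nat_lit 198) (nat_lit 5) (nat_lit 202) (nat_lit 5) (nat_lit 203) (nat_lit 4) (nat_lit 297) (nat_lit 285) (nat_lit 282)) (XT.lf (nat_lit 0) (nat_lit 3154960263) (nat_lit 336) (nat_lit 2649061293) (nat_lit 420) (nat_lit 772394337) (nat_lit 198) (nat_lit 5) (nat_lit 202) (nat_lit 5) (nat_lit 203) (nat_lit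 4) (nat_lit 298) (nat_lit 285) (nat_lit 281))) (XT.nd (nat_lit 94) (nat_lit 420) (nat_lit 0) (XT.lf (nat_lit 0) (nat_lit 1713697529) (nat_lit 420) (nat_lit 283947359) (nat_lit 84) (nat_lit 4609786189) (nat_lit 197) (nat_lit 5) (nat_lit 202) (nat_lit 5) (nat_lit 198) (nat_lit 5) (nat_lit 299) (nat_lit 285) (nat_lit 280)) (XT.nd (nat_lit 94) (nat_lit 0) (nat_lit 0) (XT.lf (nat_lit 0) (nat_lit 2941224684) (nat_lit 420) (nat_lit 1258391491) (nat_lit 504) (nat_lit 2441976709) (nat_lit 192) (nat_lit 5) (nat_lit 197) (nat_lit 5) (nat_lit 198) (nat_lit 5) (nat_lit 300) (nat_lit 285) (nat_lit 279)) (XT.lf (nat_lit 0) (nat_lit 6212055414) (nat_lit 420) (nat_lit 465250568) (nat_lit 504) (nat_lit 2668675) (nat_lit 192) (nat_lit 5) (nat_lit 197) (nat_lit 5) (nat_lit 198) (nat_lit 5) (nat_lit 301) (nat_lit 285) (nat_lit 278))))))))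
noncomputable def xc19 : XT := (XT.nd (nat_lit 1598) (nat_lit 3948) (nat_lit 0) (XT.nd (nat_lit 752) (nat_lit 4620) (nat_lit 0) (XT.nd (nat_lit 376) (nat_lit 1512) (nat_lit 0) (XT.nd (nat_lit 188) (nat_lit 672) (nat_lit 0) (XT.nd (nat_lit 94) (nat_lit 0) (nat_lit 0) (XT.lf (nat_lit 0) (nat_lit 2407106143) (nat_lit 588) (nat_lit 3889228161) (nat_lit 84) (nat_lit 424616256) (nat_lit 185) (nat_lit 5) (nat_lit 192) (nat_lit 5) (nat_lit 186) (nat_lit 5) (nat_lit 302) (nat_lit 285) (nat_lit 277)) (XT.lf (nat_lit 0) (nat_lit 4816515416) (nat_lit 588) (nat_lit 587845049) (nat_lit 84) (nat_lit 1361632466) (nat_lit 185) (nat_lit 5) (nat_lit 192) (nat_lit 5) (nat_lit 186) (nat_lit 5) (nat_lit 303) (nat_lit 285) (nat_lit 276))) (XT.nd (nat_lit 94) (nat_lit 0) (nat_lit 0) (XT.lf (nat_lit 0) (nat_lit 423071225) (nat_lit 672) (nat_lit 4007966984) (nat_lit 84) (nat_lit 2383400604) (nat_lit 177) (nat_lit 5) (nat_lit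 185) (nat_lit 5) (nat_lit 178) (nat_lit 5) (nat_lit 304) (nat_lit 285) (nat_lit 275)) (XT.lf (nat_lit 0) (nat_lit 2753322892) (nat_lit 672) (nat_lit 628832621) (nat_lit 84) (nat_lit 3484379161) (nat_lit 177) (nat_lit 5) (nat_lit 185) (nat_lit 5) (nat_lit 178) (nat_lit 5) (nat_lit 305) (nat_lit 285) (nat_lit 274)))) (XT.nd (nat_lit 188) (nat_lit 756) (nat_lit 0) (XT.nd (nat_lit 94) (nat_lit 84) (nat_lit 0) (XT.lf (nat_lit 0) (nat_lit 2851290090) (nat_lit 672) (nat_lit 2253709939) (nat_lit 756) (nat_lit 1817238095) (nat_lit 169) (nat_lit 5) (nat_lit 177) (nat_lit 5) (nat_lit 178) (nat_lit 5) (nat_lit 306) (nat_lit 285) (nat_lit 273)) (XT.lf (nat_lit 0) (nat_lit 466954354) (nat_lit 756) (nat_lit 594958927) (nat_lit 84) (nat_lit 5920206884) (nat_lit 168) (nat_lit 5) (nat_lit 177) (nat_lit 5) (nat_lit 169) (nat_lit 5) (nat_lit 307) (nat_lit 285) (nat_lit 272))) (XT.nd (nat_lit 94) (nat_lit 0) (nat_lit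 0) (XT.lf (nat_lit 0) (nat_lit 2739816515) (nat_lit 840) (nat_lit 4078102411) (nat_lit 84) (nat_lit 227120509) (nat_lit 159) (nat_lit 5) (nat_lit 169) (nat_lit 5) (nat_lit 160) (nat_lit 5) (nat_lit 308) (nat_lit 285) (nat_lit 271)) (XT.lf (nat_lit 0) (nat_lit 5025960442) (nat_lit 840) (nat_lit 531698698) (nat_lit 84) (nat_lit 1554391996) (nat_lit 159) (nat_lit 5) (nat_lit 169) (nat_lit 5) (nat_lit 160) (nat_lit 5) (nat_lit 309) (nat_lit 285) (nat_lit 270))))) (XT.nd (nat_lit 376) (nat_lit 2772) (nat_lit 0) (XT.nd (nat_lit 188) (nat_lit 924) (nat_lit 0) (XT.nd (nat_lit 94) (nat_lit 0) (nat_lit 0) (XT.lf (nat_lit 0) (nat_lit 155936258) (nat_lit 924) (nat_lit 4057742690) (nat_lit 84) (nat_lit 2969043537) (nat_lit 148) (nat_lit 5) (nat_lit 159) (nat_lit 5) (nat_lit 149) (nat_lit 5) (nat_lit 310) (nat_lit 285) (nat_lit 269)) (XT.lf (nat_lit 0) (nat_lit 2358168732) (nat_lit 924) (nat_lit 432739243) (nat_lit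 84) (nat_lit 4466397269) (nat_lit 148) (nat_lit 5) (nat_lit 159) (nat_lit 5) (nat_lit 149) (nat_lit 5) (nat_lit 311) (nat_lit 285) (nat_lit 268))) (XT.nd (nat_lit 94) (nat_lit 0) (nat_lit 0) (XT.lf (nat_lit 0) (nat_lit 3310998271) (nat_lit 924) (nat_lit 1281098733) (nat_lit 1008) (nat_lit 2743563819) (nat_lit 137) (nat_lit 5) (nat_lit 148) (nat_lit 5) (nat_lit 149) (nat_lit 5) (nat_lit 312) (nat_lit 285) (nat_lit 267)) (XT.lf (nat_lit 0) (nat_lit 6834730232) (nat_lit 1008) (nat_lit 301362525) (nat_lit 84) (nat_lit 282546767) (nat_lit 137) (nat_lit 5) (nat_lit 149) (nat_lit 5) (nat_lit 138) (nat_lit 5) (nat_lit 313) (nat_lit 285) (nat_lit 266)))) (XT.nd (nat_lit 188) (nat_lit 1680) (nat_lit 0) (XT.nd (nat_lit 94) (nat_lit 0) (nat_lit 0) (XT.lf (nat_lit 0) (nat_lit 1591484331) (nat_lit 1092) (nat_lit 3986047104) (nat_lit 84) (nat_lit 1927013845) (nat_lit 124) (nat_lit 5) (nat_lit 137) (nat_lit 5) (nat_lit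 125) (nat_lit 5) (nat_lit 314) (nat_lit 285) (nat_lit 265)) (XT.lf (nat_lit 0) (nat_lit 3759995140) (nat_lit 1092) (nat_lit 197251554) (nat_lit 84) (nat_lit 3637899596) (nat_lit 124) (nat_lit 5) (nat_lit 137) (nat_lit 5) (nat_lit 125) (nat_lit 5) (nat_lit 315) (nat_lit 285) (nat_lit 264))) (XT.nd (nat_lit 94) (nat_lit 588) (nat_lit 0) (XT.lf (nat_lit 0) (nat_lit 3724488746) (nat_lit 1092) (nat_lit 2244785296) (nat_lit 1176) (nat_lit 1720382705) (nat_lit 111) (nat_lit 5) (nat_lit 124) (nat_lit 5) (nat_lit 125) (nat_lit 5) (nat_lit 316) (nat_lit 285) (nat_lit 263)) (XT.nd (nat_lit 94) (nat_lit 504) (nat_lit 0) (XT.lf (nat_lit 0) (nat_lit 389773495) (nat_lit 1176) (nat_lit 80136650) (nat_lit 84) (nat_lit 7319197505) (nat_lit 110) (nat_lit 5) (nat_lit 124) (nat_lit 5) (nat_lit 111) (nat_lit 5) (nat_lit 317) (nat_lit 285) (nat_lit 262)) (XT.lf (nat_lit 0) (nat_lit 2521580498) (nat_lit 588) (nat_lit 3977937060)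 (nat_lit 84) (nat_lit 1392083494) (nat_lit 104) (nat_lit 5) (nat_lit 111) (nat_lit 5) (nat_lit 105) (nat_lit 5) (nat_lit 318) (nat_lit 285) (nat_lit 261))))))) (XT.nd (nat_lit 752) (nat_lit 1764) (nat_lit 0) (XT.nd (nat_lit 376) (nat_lit 1008) (nat_lit 0) (XT.nd (nat_lit 188) (nat_lit 588) (nat_lit 0) (XT.nd (nat_lit 94) (nat_lit 588) (nat_lit 0) (XT.lf (nat_lit 0) (nat_lit 4665312996) (nat_lit 588) (nat_lit 29300443) (nat_lit 84) (nat_lit 3304585711) (nat_lit 104) (nat_lit 5) (nat_lit 111) (nat_lit 5) (nat_lit 105) (nat_lit 5) (nat_lit 319) (nat_lit 285) (nat_lit 260)) (XT.lf (nat_lit 0) (nat_lit 4065248735) (nat_lit 588) (nat_lit 2792567032) (nat_lit 672) (nat_lit 1253106223) (nat_lit 97) (nat_lit 5) (nat_lit 104) (nat_lit 5) (nat_lit 105) (nat_lit 5) (nat_lit 320) (nat_lit 285) (nat_lit 259))) (XT.nd (nat_lit 94) (nat_lit 504) (nat_lit 0) (XT.lf (nat_lit 0) (nat_lit 816858741) (nat_lit 672) (nat_lit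 6824068) (nat_lit 84) (nat_lit 7404155400) (nat_lit 96) (nat_lit 5) (nat_lit 104) (nat_lit 5) (nat_lit 97) (nat_lit 5) (nat_lit 321) (nat_lit 285) (nat_lit 258)) (XT.lf (nat_lit 0) (nat_lit 2922925552) (nat_lit 588) (nat_lit 4190148838) (nat_lit 84) (nat_lit 1235190151) (nat_lit 90) (nat_lit 5) (nat_lit 97) (nat_lit 5) (nat_lit 91) (nat_lit 5) (nat_lit 322) (nat_lit 285) (nat_lit 257)))) (XT.nd (nat_lit 188) (nat_lit 504) (nat_lit 0) (XT.nd (nat_lit 94) (nat_lit 504) (nat_lit 0) (XT.lf (nat_lit 0) (nat_lit 5047954421) (nat_lit 588) (nat_lit 87284920) (nat_lit 84) (nat_lit 3338834111) (nat_lit 90) (nat_lit 5) (nat_lit 97) (nat_lit 5) (nat_lit 91) (nat_lit 5) (nat_lit 323) (nat_lit 285) (nat_lit 256)) (XT.lf (nat_lit 0) (nat_lit 4169795138) (nat_lit 504) (nat_lit 3057255012) (nat_lit 588) (nat_lit 1377305210) (nat_lit 84) (nat_lit 5) (nat_lit 90) (nat_lit 5) (nat_lit 91) (nat_lit 5) (nat_lit 324) (nat_lit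 285) (nat_lit 255))) (XT.nd (nat_lit 94) (nat_lit 420) (nat_lit 0) (XT.lf (nat_lit 0) (nat_lit 668268723) (nat_lit 588) (nat_lit 242942912) (nat_lit 84) (nat_lit 7829043193) (nat_lit 83) (nat_lit 5) (nat_lit 90) (nat_lit 5) (nat_lit 84) (nat_lit 5) (nat_lit 325) (nat_lit 285) (nat_lit 254)) (XT.lf (nat_lit 0) (nat_lit 2751376208) (nat_lit 504) (nat_lit 4802875411) (nat_lit 84) (nat_lit 1325782966) (nat_lit 78) (nat_lit 5) (nat_lit 84) (nat_lit 5) (nat_lit 79) (nat_lit 5) (nat_lit 326) (nat_lit 285) (nat_lit 253))))) (XT.nd (nat_lit 376) (nat_lit 840) (nat_lit 0) (XT.nd (nat_lit 188) (nat_lit 504) (nat_lit 0) (XT.nd (nat_lit 94) (nat_lit 420) (nat_lit 0) (XT.lf (nat_lit 0) (nat_lit 4860608025) (nat_lit 504) (nat_lit 554159184) (nat_lit 84) (nat_lit 3610755382) (nat_lit 78) (nat_lit 5) (nat_lit 84) (nat_lit 5) (nat_lit 79) (nat_lit 5) (nat_lit 327) (nat_lit 285) (nat_lit 252)) (XT.lf (nat_lit 0) (nat_lit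 3848441541) (nat_lit 420) (nat_lit 3176141607) (nat_lit 504) (nat_lit 2151445069) (nat_lit 73) (nat_lit 5) (nat_lit 78) (nat_lit 5) (nat_lit 79) (nat_lit 5) (nat_lit 328) (nat_lit 285) (nat_lit 251))) (XT.nd (nat_lit 94) (nat_lit 504) (nat_lit 0) (XT.lf (nat_lit 0) (nat_lit 8344468054) (nat_lit 420) (nat_lit 869062097) (nat_lit 504) (nat_lit 119147039) (nat_lit 73) (nat_lit 5) (nat_lit 78) (nat_lit 5) (nat_lit 79) (nat_lit 5) (nat_lit 329) (nat_lit 285) (nat_lit 250)) (XT.lf (nat_lit 0) (nat_lit 1939241490) (nat_lit 504) (nat_lit 6027629217) (nat_lit 84) (nat_lit 1526775847) (nat_lit 67) (nat_lit 5) (nat_lit 73) (nat_lit 5) (nat_lit 68) (nat_lit 5) (nat_lit 330) (nat_lit 285) (nat_lit 249)))) (XT.nd (nat_lit 188) (nat_lit 420) (nat_lit 0) (XT.nd (nat_lit 94) (nat_lit 420) (nat_lit 0) (XT.lf (nat_lit 0) (nat_lit 4031987932) (nat_lit 504) (nat_lit 1645475175) (nat_lit 84) (nat_lit 3983098525) (nat_lit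 67) (nat_lit 5) (nat_lit 73) (nat_lit 5) (nat_lit 68) (nat_lit 5) (nat_lit 331) (nat_lit 285) (nat_lit 248)) (XT.lf (nat_lit 0) (nat_lit 2876899260) (nat_lit 420) (nat_lit 3296355170) (nat_lit 504) (nat_lit 3660056080) (nat_lit 62) (nat_lit 5) (nat_lit 67) (nat_lit 5) (nat_lit 68) (nat_lit 5) (nat_lit 332) (nat_lit 285) (nat_lit 247))) (XT.nd (nat_lit 94) (nat_lit 420) (nat_lit 0) (XT.lf (nat_lit 0) (nat_lit 7521303569) (nat_lit 420) (nat_lit 832701371) (nat_lit 504) (nat_lit 1658391257) (nat_lit 62) (nat_lit 5) (nat_lit 67) (nat_lit 5) (nat_lit 68) (nat_lit 5) (nat_lit 333) (nat_lit 285) (nat_lit 246)) (XT.nd (nat_lit 94) (nat_lit 0) (nat_lit 0) (XT.lf (nat_lit 0) (nat_lit 391752271) (nat_lit 420) (nat_lit 8116418951) (nat_lit 84) (nat_lit 1689044357) (nat_lit 57) (nat_lit 5) (nat_lit 62) (nat_lit 5) (nat_lit 58) (nat_lit 5) (nat_lit 334) (nat_lit 285) (nat_lit 245)) (XT.lf (nat_lit 0) (nat_lit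 2463156645) (nat_lit 420) (nat_lit 3618788575) (nat_lit 84) (nat_lit 4305671430) (nat_lit 57) (nat_lit 5) (nat_lit 62) (nat_lit 5) (nat_lit 58) (nat_lit 5) (nat_lit 335) (nat_lit 285) (nat_lit 244))))))))
noncomputable def xc20 : XT := (XT.nd (nat_lit 50854) (nat_lit 0) (nat_lit 5880) (XT.nd (nat_lit 50102) (nat_lit 0) (nat_lit 13104) (XT.nd (nat_lit 376) (nat_lit 588) (nat_lit 0) (XT.nd (nat_lit 188) (nat_lit 420) (nat_lit 0) (XT.nd (nat_lit 94) (nat_lit 0) (nat_lit 0) (XT.lf (nat_lit 0) (nat_lit 986435126) (nat_lit 336) (nat_lit 3580777433) (nat_lit 420) (nat_lit 6017816864) (nat_lit 53) (nat_lit 5) (nat_lit 57) (nat_lit 5) (nat_lit 58) (nat_lit 5) (nat_lit 336) (nat_lit 285) (nat_lit 243)) (XT.lf (nat_lit 0) (nat_lit 5759952989) (nat_lit 336) (nat_lit 973701876) (nat_lit 420) (nat_lit 4055122059) (nat_lit 53) (nat_lit 5) (nat_lit 57) (nat_lit 5) (nat_lit 58) (nat_lit 5) (nat_lit 337) (nat_lit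 285) (nat_lit 242))) (XT.nd (nat_lit 94) (nat_lit 420) (nat_lit 0) (XT.lf (nat_lit 0) (nat_lit 8944769212) (nat_lit 420) (nat_lit 385283381) (nat_lit 84) (nat_lit 1669608218) (nat_lit 53) (nat_lit 5) (nat_lit 58) (nat_lit 5) (nat_lit 54) (nat_lit 5) (nat_lit 338) (nat_lit 285) (nat_lit 241)) (XT.lf (nat_lit 0) (nat_lit 22862112) (nat_lit 420) (nat_lit 6784759296) (nat_lit 84) (nat_lit 4409088647) (nat_lit 48) (nat_lit 5) (nat_lit 53) (nat_lit 5) (nat_lit 49) (nat_lit 5) (nat_lit 339) (nat_lit 285) (nat_lit 240)))) (XT.nd (nat_lit 188) (nat_lit 252) (nat_lit 0) (XT.nd (nat_lit 94) (nat_lit 336) (nat_lit 0) (XT.lf (nat_lit 0) (nat_lit 2088267400) (nat_lit 420) (nat_lit 2104488415) (nat_lit 84) (nat_lit 7248249105) (nat_lit 48) (nat_lit 5) (nat_lit 53) (nat_lit 5) (nat_lit 49) (nat_lit 5) (nat_lit 340) (nat_lit 285) (nat_lit 239)) (XT.lf (nat_lit 0) (nat_lit 2727566883) (nat_lit 336) (nat_lit 1480201300)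 (nat_lit 420) (nat_lit 7464901582) (nat_lit 44) (nat_lit 5) (nat_lit 48) (nat_lit 5) (nat_lit 49) (nat_lit 5) (nat_lit 341) (nat_lit 285) (nat_lit 238))) (XT.nd (nat_lit 94) (nat_lit 252) (nat_lit 0) (XT.lf (nat_lit 0) (nat_lit 6391759157) (nat_lit 420) (nat_lit 4218978349) (nat_lit 84) (nat_lit 1300922028) (nat_lit 44) (nat_lit 5) (nat_lit 49) (nat_lit 5) (nat_lit 45) (nat_lit 5) (nat_lit 342) (nat_lit 285) (nat_lit 237)) (XT.lf (nat_lit 0) (nat_lit 603252147) (nat_lit 252) (nat_lit 8025956622) (nat_lit 336) (nat_lit 3529393307) (nat_lit 41) (nat_lit 5) (nat_lit 44) (nat_lit 5) (nat_lit 45) (nat_lit 5) (nat_lit 343) (nat_lit 285) (nat_lit 236))))) (XT.nd (nat_lit 376) (nat_lit 420) (nat_lit 0) (XT.nd (nat_lit 188) (nat_lit 336) (nat_lit 0) (XT.nd (nat_lit 94) (nat_lit 252) (nat_lit 0) (XT.lf (nat_lit 0) (nat_lit 2272499179) (nat_lit 84) (nat_lit 479298234) (nat_lit 84) (nat_lit 479298234) (nat_lit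 209) (nat_lit 4) (nat_lit 210) (nat_lit 5) (nat_lit 210) (nat_lit 4) (nat_lit 292) (nat_lit 286) (nat_lit 286)) (XT.lf (nat_lit 0) (nat_lit 955599632) (nat_lit 168) (nat_lit 696708945) (nat_lit 252) (nat_lit 4821777873) (nat_lit 206) (nat_lit 5) (nat_lit 208) (nat_lit 5) (nat_lit 209) (nat_lit 4) (nat_lit 293) (nat_lit 286) (nat_lit 285))) (XT.nd (nat_lit 94) (nat_lit 336) (nat_lit 0) (XT.lf (nat_lit 0) (nat_lit 3889495406) (nat_lit 168) (nat_lit 353637754) (nat_lit 252) (nat_lit 2246087446) (nat_lit 206) (nat_lit 5) (nat_lit 208) (nat_lit 5) (nat_lit 209) (nat_lit 4) (nat_lit 294) (nat_lit 286) (nat_lit 284)) (XT.lf (nat_lit 0) (nat_lit 305567993) (nat_lit 336) (nat_lit 6155702619) (nat_lit 84) (nat_lit 47012780) (nat_lit 202) (nat_lit 5) (nat_lit 206) (nat_lit 5) (nat_lit 203) (nat_lit 4) (nat_lit 295) (nat_lit 286) (nat_lit 283)))) (XT.nd (nat_lit 188) (nat_lit 420) (nat_lit 0) (XT.nd (nat_lit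 94) (nat_lit 0) (nat_lit 0) (XT.lf (nat_lit 0) (nat_lit 2823878870) (nat_lit 336) (nat_lit 3165332766) (nat_lit 84) (nat_lit 540654957) (nat_lit 202) (nat_lit 5) (nat_lit 206) (nat_lit 5) (nat_lit 203) (nat_lit 4) (nat_lit 296) (nat_lit 286) (nat_lit 282)) (XT.lf (nat_lit 0) (nat_lit 5326348966) (nat_lit 336) (nat_lit 143261720) (nat_lit 84) (nat_lit 1086003375) (nat_lit 202) (nat_lit 5) (nat_lit 206) (nat_lit 5) (nat_lit 203) (nat_lit 4) (nat_lit 297) (nat_lit 286) (nat_lit 281))) (XT.nd (nat_lit 94) (nat_lit 0) (nat_lit 0) (XT.lf (nat_lit 0) (nat_lit 1234780588) (nat_lit 420) (nat_lit 3623905113) (nat_lit 84) (nat_lit 1725562225) (nat_lit 197) (nat_lit 5) (nat_lit 202) (nat_lit 5) (nat_lit 198) (nat_lit 5) (nat_lit 298) (nat_lit 286) (nat_lit 280)) (XT.lf (nat_lit 0) (nat_lit 3660812678) (nat_lit 420) (nat_lit 524073038) (nat_lit 84) (nat_lit 2431781687) (nat_lit 197) (nat_lit 5) (nat_lit 202)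 (nat_lit 5) (nat_lit 198) (nat_lit 5) (nat_lit 299) (nat_lit 286) (nat_lit 279)))))) (XT.nd (nat_lit 752) (nat_lit 4788) (nat_lit 0) (XT.nd (nat_lit 376) (nat_lit 1428) (nat_lit 0) (XT.nd (nat_lit 188) (nat_lit 504) (nat_lit 0) (XT.nd (nat_lit 94) (nat_lit 84) (nat_lit 0) (XT.lf (nat_lit 0) (nat_lit 2666451444) (nat_lit 420) (nat_lit 3434394296) (nat_lit 504) (nat_lit 551660423) (nat_lit 192) (nat_lit 5) (nat_lit 197) (nat_lit 5) (nat_lit 198) (nat_lit 5) (nat_lit 300) (nat_lit 286) (nat_lit 278)) (XT.lf (nat_lit 0) (nat_lit 1806794827) (nat_lit 504) (nat_lit 802268138) (nat_lit 84) (nat_lit 4082811350) (nat_lit 191) (nat_lit 5) (nat_lit 197) (nat_lit 5) (nat_lit 192) (nat_lit 5) (nat_lit 301) (nat_lit 286) (nat_lit 277))) (XT.nd (nat_lit 94) (nat_lit 0) (nat_lit 0) (XT.lf (nat_lit 0) (nat_lit 2465270117) (nat_lit 504) (nat_lit 1701734327) (nat_lit 588) (nat_lit 2567612034) (nat_lit 185) (nat_lit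 5) (nat_lit 191) (nat_lit 5) (nat_lit 192) (nat_lit 5) (nat_lit 302) (nat_lit 286) (nat_lit 276)) (XT.lf (nat_lit 0) (nat_lit 5792733552) (nat_lit 504) (nat_lit 733624052) (nat_lit 588) (nat_lit 255078230) (nat_lit 185) (nat_lit 5) (nat_lit 191) (nat_lit 5) (nat_lit 192) (nat_lit 5) (nat_lit 303) (nat_lit 286) (nat_lit 275)))) (XT.nd (nat_lit 188) (nat_lit 756) (nat_lit 0) (XT.nd (nat_lit 94) (nat_lit 0) (nat_lit 0) (XT.lf (nat_lit 0) (nat_lit 2031802283) (nat_lit 672) (nat_lit 4473198009) (nat_lit 84) (nat_lit 326169685) (nat_lit 177) (nat_lit 5) (nat_lit 185) (nat_lit 5) (nat_lit 178) (nat_lit 5) (nat_lit 304) (nat_lit 286) (nat_lit 274)) (XT.lf (nat_lit 0) (nat_lit 4323108858) (nat_lit 672) (nat_lit 1124202473) (nat_lit 84) (nat_lit 1437367337) (nat_lit 177) (nat_lit 5) (nat_lit 185) (nat_lit 5) (nat_lit 178) (nat_lit 5) (nat_lit 305) (nat_lit 286) (nat_lit 273))) (XT.nd (nat_lit 94) (nat_lit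 84) (nat_lit 0) (XT.lf (nat_lit 0) (nat_lit 2315900719) (nat_lit 672) (nat_lit 4315800053) (nat_lit 756) (nat_lit 310216340) (nat_lit 169) (nat_lit 5) (nat_lit 177) (nat_lit 5) (nat_lit 178) (nat_lit 5) (nat_lit 306) (nat_lit 286) (nat_lit 272)) (XT.lf (nat_lit 0) (nat_lit 1906120494) (nat_lit 756) (nat_lit 1194872257) (nat_lit 84) (nat_lit 3901692768) (nat_lit 168) (nat_lit 5) (nat_lit 177) (nat_lit 5) (nat_lit 169) (nat_lit 5) (nat_lit 307) (nat_lit 286) (nat_lit 271))))) (XT.nd (nat_lit 376) (nat_lit 3108) (nat_lit 0) (XT.nd (nat_lit 188) (nat_lit 924) (nat_lit 0) (XT.nd (nat_lit 94) (nat_lit 0) (nat_lit 0) (XT.lf (nat_lit 0) (nat_lit 2327466451) (nat_lit 756) (nat_lit 1806484503) (nat_lit 840) (nat_lit 2933231722) (nat_lit 159) (nat_lit 5) (nat_lit 168) (nat_lit 5) (nat_lit 169) (nat_lit 5) (nat_lit 308) (nat_lit 286) (nat_lit 270)) (XT.lf (nat_lit 0) (nat_lit 5926033173) (nat_lit 756) (nat_lit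 445067802) (nat_lit 840) (nat_lit 764788648) (nat_lit 159) (nat_lit 5) (nat_lit 168) (nat_lit 5) (nat_lit 169) (nat_lit 5) (nat_lit 309) (nat_lit 286) (nat_lit 269))) (XT.nd (nat_lit 94) (nat_lit 0) (nat_lit 0) (XT.lf (nat_lit 0) (nat_lit 1404026680) (nat_lit 924) (nat_lit 4813153930) (nat_lit 84) (nat_lit 990584317) (nat_lit 148) (nat_lit 5) (nat_lit 159) (nat_lit 5) (nat_lit 149) (nat_lit 5) (nat_lit 310) (nat_lit 286) (nat_lit 268)) (XT.lf (nat_lit 0) (nat_lit 3572079478) (nat_lit 924) (nat_lit 1217865045) (nat_lit 84) (nat_lit 2493623727) (nat_lit 148) (nat_lit 5) (nat_lit 159) (nat_lit 5) (nat_lit 149) (nat_lit 5) (nat_lit 311) (nat_lit 286) (nat_lit 267)))) (XT.nd (nat_lit 188) (nat_lit 2100) (nat_lit 0) (XT.nd (nat_lit 94) (nat_lit 84) (nat_lit 0) (XT.lf (nat_lit 0) (nat_lit 2480314942) (nat_lit 924) (nat_lit 3284300360) (nat_lit 1008) (nat_lit 1598747845) (nat_lit 137) (nat_lit 5) (nat_lit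 148) (nat_lit 5) (nat_lit 149) (nat_lit 5) (nat_lit 312) (nat_lit 286) (nat_lit 266)) (XT.lf (nat_lit 0) (nat_lit 513797529) (nat_lit 1008) (nat_lit 1191775747) (nat_lit 84) (nat_lit 5741853037) (nat_lit 136) (nat_lit 5) (nat_lit 148) (nat_lit 5) (nat_lit 137) (nat_lit 5) (nat_lit 313) (nat_lit 286) (nat_lit 265))) (XT.nd (nat_lit 94) (nat_lit 1092) (nat_lit 0) (XT.lf (nat_lit 0) (nat_lit 2591973620) (nat_lit 1008) (nat_lit 27514237) (nat_lit 1092) (nat_lit 4915603237) (nat_lit 124) (nat_lit 5) (nat_lit 136) (nat_lit 5) (nat_lit 137) (nat_lit 5) (nat_lit 314) (nat_lit 286) (nat_lit 264)) (XT.nd (nat_lit 94) (nat_lit 1092) (nat_lit 0) (XT.lf (nat_lit 0) (nat_lit 4756508031) (nat_lit 1092) (nat_lit 1183368555) (nat_lit 84) (nat_lit 1686929929) (nat_lit 124) (nat_lit 5) (nat_lit 137) (nat_lit 5) (nat_lit 125) (nat_lit 5) (nat_lit 315) (nat_lit 286) (nat_lit 263)) (XT.lf (nat_lit 0) (nat_lit 2689072414)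 (nat_lit 1092) (nat_lit 4236164020) (nat_lit 1176) (nat_lit 797471651) (nat_lit 111) (nat_lit 5) (nat_lit 124) (nat_lit 5) (nat_lit 125) (nat_lit 5) (nat_lit 316) (nat_lit 286) (nat_lit 262))))))))
noncomputable def xc21 : XT := (XT.nd (nat_lit 1598) (nat_lit 1512) (nat_lit 0) (XT.nd (nat_lit 752) (nat_lit 1848) (nat_lit 0) (XT.nd (nat_lit 376) (nat_lit 1092) (nat_lit 0) (XT.nd (nat_lit 188) (nat_lit 588) (nat_lit 0) (XT.nd (nat_lit 94) (nat_lit 504) (nat_lit 0) (XT.lf (nat_lit 0) (nat_lit 1264011457) (nat_lit 1176) (nat_lit 1186654385) (nat_lit 84) (nat_lit 5372267871) (nat_lit 110) (nat_lit 5) (nat_lit 124) (nat_lit 5) (nat_lit 111) (nat_lit 5) (nat_lit 317) (nat_lit 286) (nat_lit 261)) (XT.lf (nat_lit 0) (nat_lit 2770322341) (nat_lit 504) (nat_lit 570742193) (nat_lit 588) (nat_lit 4586182268) (nat_lit 104) (nat_lit 5) (nat_lit 110) (nat_lit 5) (nat_lit 111) (nat_lit 5) (nat_lit 318) (nat_lit 286)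 (nat_lit 260))) (XT.nd (nat_lit 94) (nat_lit 588) (nat_lit 0) (XT.lf (nat_lit 0) (nat_lit 5450571337) (nat_lit 588) (nat_lit 1231380750) (nat_lit 84) (nat_lit 1354072446) (nat_lit 104) (nat_lit 5) (nat_lit 111) (nat_lit 5) (nat_lit 105) (nat_lit 5) (nat_lit 319) (nat_lit 286) (nat_lit 259)) (XT.lf (nat_lit 0) (nat_lit 2809987567) (nat_lit 588) (nat_lit 4792929187) (nat_lit 672) (nat_lit 546190568) (nat_lit 97) (nat_lit 5) (nat_lit 104) (nat_lit 5) (nat_lit 105) (nat_lit 5) (nat_lit 320) (nat_lit 286) (nat_lit 258)))) (XT.nd (nat_lit 188) (nat_lit 504) (nat_lit 0) (XT.nd (nat_lit 94) (nat_lit 504) (nat_lit 0) (XT.lf (nat_lit 0) (nat_lit 1481998772) (nat_lit 672) (nat_lit 1335565428) (nat_lit 84) (nat_lit 5449203722) (nat_lit 96) (nat_lit 5) (nat_lit 104) (nat_lit 5) (nat_lit 97) (nat_lit 5) (nat_lit 321) (nat_lit 286) (nat_lit 257)) (XT.lf (nat_lit 0) (nat_lit 2786949711) (nat_lit 504) (nat_lit 748175652)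 (nat_lit 588) (nat_lit 4853815038) (nat_lit 90) (nat_lit 5) (nat_lit 96) (nat_lit 5) (nat_lit 97) (nat_lit 5) (nat_lit 322) (nat_lit 286) (nat_lit 256))) (XT.nd (nat_lit 94) (nat_lit 504) (nat_lit 0) (XT.lf (nat_lit 0) (nat_lit 5626551086) (nat_lit 588) (nat_lit 1519762247) (nat_lit 84) (nat_lit 1369579519) (nat_lit 90) (nat_lit 5) (nat_lit 97) (nat_lit 5) (nat_lit 91) (nat_lit 5) (nat_lit 323) (nat_lit 286) (nat_lit 255)) (XT.lf (nat_lit 0) (nat_lit 2680089726) (nat_lit 504) (nat_lit 5085385088) (nat_lit 588) (nat_lit 882044058) (nat_lit 84) (nat_lit 5) (nat_lit 90) (nat_lit 5) (nat_lit 91) (nat_lit 5) (nat_lit 324) (nat_lit 286) (nat_lit 254))))) (XT.nd (nat_lit 376) (nat_lit 924) (nat_lit 0) (XT.nd (nat_lit 188) (nat_lit 420) (nat_lit 0) (XT.nd (nat_lit 94) (nat_lit 420) (nat_lit 0) (XT.lf (nat_lit 0) (nat_lit 1128305314) (nat_lit 588) (nat_lit 1808275255) (nat_lit 84) (nat_lit 5847561026) (nat_lit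 83) (nat_lit 5) (nat_lit 90) (nat_lit 5) (nat_lit 84) (nat_lit 5) (nat_lit 325) (nat_lit 286) (nat_lit 253)) (XT.lf (nat_lit 0) (nat_lit 2466207399) (nat_lit 420) (nat_lit 691177864) (nat_lit 504) (nat_lit 5768301078) (nat_lit 78) (nat_lit 5) (nat_lit 83) (nat_lit 5) (nat_lit 84) (nat_lit 5) (nat_lit 326) (nat_lit 286) (nat_lit 252))) (XT.nd (nat_lit 94) (nat_lit 420) (nat_lit 0) (XT.lf (nat_lit 0) (nat_lit 5235723142) (nat_lit 504) (nat_lit 2231165242) (nat_lit 84) (nat_lit 1605331102) (nat_lit 78) (nat_lit 5) (nat_lit 84) (nat_lit 5) (nat_lit 79) (nat_lit 5) (nat_lit 327) (nat_lit 286) (nat_lit 251)) (XT.lf (nat_lit 0) (nat_lit 2109969678) (nat_lit 420) (nat_lit 5249168114) (nat_lit 504) (nat_lit 1864929489) (nat_lit 73) (nat_lit 5) (nat_lit 78) (nat_lit 5) (nat_lit 79) (nat_lit 5) (nat_lit 328) (nat_lit 286) (nat_lit 250)))) (XT.nd (nat_lit 188) (nat_lit 420) (nat_lit 0) (XT.nd (nat_lit 94) (nat_lit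 420) (nat_lit 0) (XT.lf (nat_lit 0) (nat_lit 140808686) (nat_lit 504) (nat_lit 2803108739) (nat_lit 84) (nat_lit 6437545954) (nat_lit 72) (nat_lit 5) (nat_lit 78) (nat_lit 5) (nat_lit 73) (nat_lit 5) (nat_lit 329) (nat_lit 286) (nat_lit 249)) (XT.lf (nat_lit 0) (nat_lit 1602072071) (nat_lit 420) (nat_lit 538128159) (nat_lit 504) (nat_lit 7404027737) (nat_lit 67) (nat_lit 5) (nat_lit 72) (nat_lit 5) (nat_lit 73) (nat_lit 5) (nat_lit 330) (nat_lit 286) (nat_lit 248))) (XT.nd (nat_lit 94) (nat_lit 420) (nat_lit 0) (XT.lf (nat_lit 0) (nat_lit 4205503855) (nat_lit 504) (nat_lit 3581049322) (nat_lit 84) (nat_lit 1925515645) (nat_lit 67) (nat_lit 5) (nat_lit 73) (nat_lit 5) (nat_lit 68) (nat_lit 5) (nat_lit 331) (nat_lit 286) (nat_lit 247)) (XT.nd (nat_lit 94) (nat_lit 0) (nat_lit 0) (XT.lf (nat_lit 0) (nat_lit 875407107) (nat_lit 420) (nat_lit 5430068313) (nat_lit 504) (nat_lit 3580695215) (nat_lit 62)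 (nat_lit 5) (nat_lit 67) (nat_lit 5) (nat_lit 68) (nat_lit 5) (nat_lit 332) (nat_lit 286) (nat_lit 246)) (XT.lf (nat_lit 0) (nat_lit 5494478115) (nat_lit 420) (nat_lit 2970701274) (nat_lit 504) (nat_lit 1600799978) (nat_lit 62) (nat_lit 5) (nat_lit 67) (nat_lit 5) (nat_lit 68) (nat_lit 5) (nat_lit 333) (nat_lit 286) (nat_lit 245))))))) (XT.nd (nat_lit 752) (nat_lit 0) (nat_lit 0) (XT.nd (nat_lit 376) (nat_lit 756) (nat_lit 0) (XT.nd (nat_lit 188) (nat_lit 336) (nat_lit 0) (XT.nd (nat_lit 94) (nat_lit 336) (nat_lit 0) (XT.lf (nat_lit 0) (nat_lit 389576901) (nat_lit 504) (nat_lit 49895197) (nat_lit 84) (nat_lit 9813192157) (nat_lit 61) (nat_lit 5) (nat_lit 67) (nat_lit 5) (nat_lit 62) (nat_lit 5) (nat_lit 334) (nat_lit 286) (nat_lit 244)) (XT.lf (nat_lit 0) (nat_lit 2435753123) (nat_lit 420) (nat_lit 5827065125) (nat_lit 84) (nat_lit 2181093576) (nat_lit 57) (nat_lit 5) (nat_lit 62) (nat_lit 5) (nat_lit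 58) (nat_lit 5) (nat_lit 335) (nat_lit 286) (nat_lit 243))) (XT.nd (nat_lit 94) (nat_lit 336) (nat_lit 0) (XT.lf (nat_lit 0) (nat_lit 4510277384) (nat_lit 420) (nat_lit 1266409612) (nat_lit 84) (nat_lit 4865615571) (nat_lit 57) (nat_lit 5) (nat_lit 62) (nat_lit 5) (nat_lit 58) (nat_lit 5) (nat_lit 336) (nat_lit 286) (nat_lit 242)) (XT.lf (nat_lit 0) (nat_lit 3456624554) (nat_lit 336) (nat_lit 3187879018) (nat_lit 420) (nat_lit 4202605803) (nat_lit 53) (nat_lit 5) (nat_lit 57) (nat_lit 5) (nat_lit 58) (nat_lit 5) (nat_lit 337) (nat_lit 286) (nat_lit 241)))) (XT.nd (nat_lit 188) (nat_lit 420) (nat_lit 0) (XT.nd (nat_lit 94) (nat_lit 336) (nat_lit 0) (XT.lf (nat_lit 0) (nat_lit 8304767534) (nat_lit 336) (nat_lit 515135407) (nat_lit 420) (nat_lit 2239256270) (nat_lit 53) (nat_lit 5) (nat_lit 57) (nat_lit 5) (nat_lit 58) (nat_lit 5) (nat_lit 338) (nat_lit 286) (nat_lit 240)) (XT.lf (nat_lit 0) (nat_lit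 1995526576) (nat_lit 336) (nat_lit 9072081199) (nat_lit 420) (nat_lit 210139711) (nat_lit 49) (nat_lit 5) (nat_lit 53) (nat_lit 5) (nat_lit 54) (nat_lit 5) (nat_lit 339) (nat_lit 286) (nat_lit 239))) (XT.nd (nat_lit 94) (nat_lit 336) (nat_lit 0) (XT.lf (nat_lit 0) (nat_lit 1841286784) (nat_lit 420) (nat_lit 4623626311) (nat_lit 84) (nat_lit 5037812112) (nat_lit 48) (nat_lit 5) (nat_lit 53) (nat_lit 5) (nat_lit 49) (nat_lit 5) (nat_lit 340) (nat_lit 286) (nat_lit 238)) (XT.lf (nat_lit 0) (nat_lit 133110009) (nat_lit 336) (nat_lit 3784275201) (nat_lit 420) (nat_lit 7818402343) (nat_lit 44) (nat_lit 5) (nat_lit 48) (nat_lit 5) (nat_lit 49) (nat_lit 5) (nat_lit 341) (nat_lit 286) (nat_lit 237))))) (XT.nd (nat_lit 49538) (nat_lit 0) (nat_lit 13272) (XT.nd (nat_lit 49350) (nat_lit 0) (nat_lit 13860) (XT.nd (nat_lit 94) (nat_lit 0) (nat_lit 0) (XT.lf (nat_lit 0) (nat_lit 5088990141) (nat_lit 336) (nat_lit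 981855194) (nat_lit 420) (nat_lit 5904928909) (nat_lit 44) (nat_lit 5) (nat_lit 48) (nat_lit 5) (nat_lit 49) (nat_lit 5) (nat_lit 342) (nat_lit 286) (nat_lit 236)) (XT.lf (nat_lit 0) (nat_lit 8275679822) (nat_lit 420) (nat_lit 2089613315) (nat_lit 84) (nat_lit 1858483664) (nat_lit 44) (nat_lit 5) (nat_lit 49) (nat_lit 5) (nat_lit 45) (nat_lit 5) (nat_lit 343) (nat_lit 286) (nat_lit 235))) (XT.nd (nat_lit 94) (nat_lit 84) (nat_lit 0) (XT.lf (nat_lit 0) (nat_lit 1342546705) (nat_lit 84) (nat_lit 538331343) (nat_lit 0) (nat_lit 1342546705) (nat_lit 210) (nat_lit 5) (nat_lit 211) (nat_lit 0) (nat_lit 210) (nat_lit 4) (nat_lit 290) (nat_lit 287) (nat_lit 287)) (XT.lf (nat_lit 0) (nat_lit 1694118712) (nat_lit 84) (nat_lit 3617069193) (nat_lit 84) (nat_lit 1142422691) (nat_lit 209) (nat_lit 4) (nat_lit 210) (nat_lit 5) (nat_lit 210) (nat_lit 4) (nat_lit 291) (nat_lit 287) (nat_lit 286)))) (XT.nd (nat_lit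 188) (nat_lit 336) (nat_lit 0) (XT.nd (nat_lit 94) (nat_lit 168) (nat_lit 0) (XT.lf (nat_lit 0) (nat_lit 1434519849) (nat_lit 168) (nat_lit 1961375778) (nat_lit 84) (nat_lit 3067744966) (nat_lit 208) (nat_lit 5) (nat_lit 210) (nat_lit 5) (nat_lit 209) (nat_lit 4) (nat_lit 292) (nat_lit 287) (nat_lit 285)) (XT.lf (nat_lit 0) (nat_lit 871954990) (nat_lit 168) (nat_lit 3103874421) (nat_lit 252) (nat_lit 2501295192) (nat_lit 206) (nat_lit 5) (nat_lit 208) (nat_lit 5) (nat_lit 209) (nat_lit 4) (nat_lit 293) (nat_lit 287) (nat_lit 284))) (XT.nd (nat_lit 94) (nat_lit 252) (nat_lit 0) (XT.lf (nat_lit 0) (nat_lit 23851346) (nat_lit 252) (nat_lit 2716441107) (nat_lit 84) (nat_lit 3753769483) (nat_lit 205) (nat_lit 5) (nat_lit 208) (nat_lit 5) (nat_lit 206) (nat_lit 5) (nat_lit 294) (nat_lit 287) (nat_lit 283)) (XT.nd (nat_lit 94) (nat_lit 0) (nat_lit 0) (XT.lf (nat_lit 0) (nat_lit 182217531) (nat_lit 252)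 (nat_lit 2298294434) (nat_lit 336) (nat_lit 4033760481) (nat_lit 202) (nat_lit 5) (nat_lit 205) (nat_lit 5) (nat_lit 206) (nat_lit 5) (nat_lit 295) (nat_lit 287) (nat_lit 282)) (XT.lf (nat_lit 0) (nat_lit 3171196605) (nat_lit 252) (nat_lit 1776209563) (nat_lit 336) (nat_lit 1590330952) (nat_lit 202) (nat_lit 5) (nat_lit 205) (nat_lit 5) (nat_lit 206) (nat_lit 5) (nat_lit 296) (nat_lit 287) (nat_lit 281))))))))
noncomputable def xc22 : XT := (XT.nd (nat_lit 1504) (nat_lit 5460) (nat_lit 0) (XT.nd (nat_lit 752) (nat_lit 3360) (nat_lit 0) (XT.nd (nat_lit 376) (nat_lit 1176) (nat_lit 0) (XT.nd (nat_lit 188) (nat_lit 504) (nat_lit 0) (XT.nd (nat_lit 94) (nat_lit 336) (nat_lit 0) (XT.lf (nat_lit 0) (nat_lit 817198183) (nat_lit 336) (nat_lit 376177221) (nat_lit 84) (nat_lit 5371698498) (nat_lit 201) (nat_lit 5) (nat_lit 205) (nat_lit 5) (nat_lit 202) (nat_lit 5) (nat_lit 297) (nat_lit 287) (nat_lit 280))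 (XT.lf (nat_lit 0) (nat_lit 2688664761) (nat_lit 336) (nat_lit 514194667) (nat_lit 420) (nat_lit 3392394844) (nat_lit 197) (nat_lit 5) (nat_lit 201) (nat_lit 5) (nat_lit 202) (nat_lit 5) (nat_lit 298) (nat_lit 287) (nat_lit 279))) (XT.nd (nat_lit 94) (nat_lit 504) (nat_lit 0) (XT.lf (nat_lit 0) (nat_lit 5580630845) (nat_lit 420) (nat_lit 830768054) (nat_lit 84) (nat_lit 218025432) (nat_lit 197) (nat_lit 5) (nat_lit 202) (nat_lit 5) (nat_lit 198) (nat_lit 5) (nat_lit 299) (nat_lit 287) (nat_lit 278)) (XT.lf (nat_lit 0) (nat_lit 1282134851) (nat_lit 504) (nat_lit 4355259860) (nat_lit 84) (nat_lit 1029115675) (nat_lit 191) (nat_lit 5) (nat_lit 197) (nat_lit 5) (nat_lit 192) (nat_lit 5) (nat_lit 300) (nat_lit 287) (nat_lit 277)))) (XT.nd (nat_lit 188) (nat_lit 672) (nat_lit 0) (XT.nd (nat_lit 94) (nat_lit 504) (nat_lit 0) (XT.lf (nat_lit 0) (nat_lit 3587942018) (nat_lit 504) (nat_lit 1205982362) (nat_lit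 84) (nat_lit 1913304272) (nat_lit 191) (nat_lit 5) (nat_lit 197) (nat_lit 5) (nat_lit 192) (nat_lit 5) (nat_lit 301) (nat_lit 287) (nat_lit 276)) (XT.lf (nat_lit 0) (nat_lit 2024512125) (nat_lit 504) (nat_lit 3878982601) (nat_lit 588) (nat_lit 848085699) (nat_lit 185) (nat_lit 5) (nat_lit 191) (nat_lit 5) (nat_lit 192) (nat_lit 5) (nat_lit 302) (nat_lit 287) (nat_lit 275))) (XT.nd (nat_lit 94) (nat_lit 588) (nat_lit 0) (XT.lf (nat_lit 0) (nat_lit 1394976391) (nat_lit 588) (nat_lit 1489863766) (nat_lit 84) (nat_lit 3914560130) (nat_lit 184) (nat_lit 5) (nat_lit 191) (nat_lit 5) (nat_lit 185) (nat_lit 5) (nat_lit 303) (nat_lit 287) (nat_lit 274)) (XT.lf (nat_lit 0) (nat_lit 1818708351) (nat_lit 588) (nat_lit 1810559142) (nat_lit 672) (nat_lit 3221464982) (nat_lit 177) (nat_lit 5) (nat_lit 184) (nat_lit 5) (nat_lit 185) (nat_lit 5) (nat_lit 304) (nat_lit 287) (nat_lit 273))))) (XT.nd (nat_lit 376) (nat_lit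 1848) (nat_lit 0) (XT.nd (nat_lit 188) (nat_lit 756) (nat_lit 0) (XT.nd (nat_lit 94) (nat_lit 756) (nat_lit 0) (XT.lf (nat_lit 0) (nat_lit 5205052394) (nat_lit 588) (nat_lit 666397353) (nat_lit 672) (nat_lit 1034513625) (nat_lit 177) (nat_lit 5) (nat_lit 184) (nat_lit 5) (nat_lit 185) (nat_lit 5) (nat_lit 305) (nat_lit 287) (nat_lit 272)) (XT.lf (nat_lit 0) (nat_lit 1142321633) (nat_lit 756) (nat_lit 5271344781) (nat_lit 84) (nat_lit 550898788) (nat_lit 168) (nat_lit 5) (nat_lit 177) (nat_lit 5) (nat_lit 169) (nat_lit 5) (nat_lit 306) (nat_lit 287) (nat_lit 271))) (XT.nd (nat_lit 94) (nat_lit 756) (nat_lit 0) (XT.lf (nat_lit 0) (nat_lit 3316043136) (nat_lit 756) (nat_lit 1872274274) (nat_lit 84) (nat_lit 1838230025) (nat_lit 168) (nat_lit 5) (nat_lit 177) (nat_lit 5) (nat_lit 169) (nat_lit 5) (nat_lit 307) (nat_lit 287) (nat_lit 270)) (XT.lf (nat_lit 0) (nat_lit 1607432976) (nat_lit 756) (nat_lit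 3894026060) (nat_lit 840) (nat_lit 1591076844) (nat_lit 159) (nat_lit 5) (nat_lit 168) (nat_lit 5) (nat_lit 169) (nat_lit 5) (nat_lit 308) (nat_lit 287) (nat_lit 269)))) (XT.nd (nat_lit 188) (nat_lit 924) (nat_lit 0) (XT.nd (nat_lit 94) (nat_lit 840) (nat_lit 0) (XT.lf (nat_lit 0) (nat_lit 530725812) (nat_lit 840) (nat_lit 1989696146) (nat_lit 84) (nat_lit 4641894542) (nat_lit 158) (nat_lit 5) (nat_lit 168) (nat_lit 5) (nat_lit 159) (nat_lit 5) (nat_lit 309) (nat_lit 287) (nat_lit 268)) (XT.lf (nat_lit 0) (nat_lit 1572898418) (nat_lit 840) (nat_lit 1058995935) (nat_lit 924) (nat_lit 4603842630) (nat_lit 148) (nat_lit 5) (nat_lit 158) (nat_lit 5) (nat_lit 159) (nat_lit 5) (nat_lit 310) (nat_lit 287) (nat_lit 267))) (XT.nd (nat_lit 94) (nat_lit 924) (nat_lit 0) (XT.lf (nat_lit 0) (nat_lit 4756289815) (nat_lit 924) (nat_lit 2085865418) (nat_lit 84) (nat_lit 470894604) (nat_lit 148) (nat_lit 5) (nat_lit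 159) (nat_lit 5) (nat_lit 149) (nat_lit 5) (nat_lit 311) (nat_lit 287) (nat_lit 266)) (XT.lf (nat_lit 0) (nat_lit 1565937381) (nat_lit 924) (nat_lit 5341662364) (nat_lit 1008) (nat_lit 486674450) (nat_lit 137) (nat_lit 5) (nat_lit 148) (nat_lit 5) (nat_lit 149) (nat_lit 5) (nat_lit 312) (nat_lit 287) (nat_lit 265)))))) (XT.nd (nat_lit 752) (nat_lit 2016) (nat_lit 0) (XT.nd (nat_lit 376) (nat_lit 1176) (nat_lit 0) (XT.nd (nat_lit 188) (nat_lit 1176) (nat_lit 0) (XT.nd (nat_lit 94) (nat_lit 1008) (nat_lit 0) (XT.lf (nat_lit 0) (nat_lit 1571536567) (nat_lit 1008) (nat_lit 2176566769) (nat_lit 84) (nat_lit 3731024309) (nat_lit 136) (nat_lit 5) (nat_lit 148) (nat_lit 5) (nat_lit 137) (nat_lit 5) (nat_lit 313) (nat_lit 287) (nat_lit 264)) (XT.lf (nat_lit 0) (nat_lit 1558751005) (nat_lit 1008) (nat_lit 2077257660) (nat_lit 1092) (nat_lit 3932199727) (nat_lit 124) (nat_lit 5) (nat_lit 136) (nat_lit 5) (nat_lit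 137) (nat_lit 5) (nat_lit 314) (nat_lit 287) (nat_lit 263))) (XT.nd (nat_lit 94) (nat_lit 1176) (nat_lit 0) (XT.lf (nat_lit 0) (nat_lit 5400488547) (nat_lit 1008) (nat_lit 325153102) (nat_lit 1092) (nat_lit 1935885216) (nat_lit 124) (nat_lit 5) (nat_lit 136) (nat_lit 5) (nat_lit 137) (nat_lit 5) (nat_lit 315) (nat_lit 287) (nat_lit 262)) (XT.lf (nat_lit 0) (nat_lit 89856471) (nat_lit 1176) (nat_lit 6195439111) (nat_lit 84) (nat_lit 1473590956) (nat_lit 110) (nat_lit 5) (nat_lit 124) (nat_lit 5) (nat_lit 111) (nat_lit 5) (nat_lit 316) (nat_lit 287) (nat_lit 261)))) (XT.nd (nat_lit 188) (nat_lit 672) (nat_lit 0) (XT.nd (nat_lit 94) (nat_lit 504) (nat_lit 0) (XT.lf (nat_lit 0) (nat_lit 2106098209) (nat_lit 1176) (nat_lit 2384394712) (nat_lit 84) (nat_lit 3369400715) (nat_lit 110) (nat_lit 5) (nat_lit 124) (nat_lit 5) (nat_lit 111) (nat_lit 5) (nat_lit 317) (nat_lit 287) (nat_lit 260)) (XT.lf (nat_lit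 0) (nat_lit 1520211883) (nat_lit 504) (nat_lit 2622241263) (nat_lit 588) (nat_lit 3823133859) (nat_lit 104) (nat_lit 5) (nat_lit 110) (nat_lit 5) (nat_lit 111) (nat_lit 5) (nat_lit 318) (nat_lit 287) (nat_lit 259))) (XT.nd (nat_lit 94) (nat_lit 672) (nat_lit 0) (XT.lf (nat_lit 0) (nat_lit 5541759079) (nat_lit 504) (nat_lit 668779109) (nat_lit 588) (nat_lit 1865225695) (nat_lit 104) (nat_lit 5) (nat_lit 110) (nat_lit 5) (nat_lit 111) (nat_lit 5) (nat_lit 319) (nat_lit 287) (nat_lit 258)) (XT.lf (nat_lit 0) (nat_lit 123040477) (nat_lit 672) (nat_lit 6731915989) (nat_lit 84) (nat_lit 1335417130) (nat_lit 96) (nat_lit 5) (nat_lit 104) (nat_lit 5) (nat_lit 97) (nat_lit 5) (nat_lit 320) (nat_lit 287) (nat_lit 257))))) (XT.nd (nat_lit 376) (nat_lit 1008) (nat_lit 0) (XT.nd (nat_lit 188) (nat_lit 504) (nat_lit 0) (XT.nd (nat_lit 94) (nat_lit 504) (nat_lit 0) (XT.lf (nat_lit 0) (nat_lit 2113520301) (nat_lit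 672) (nat_lit 2761211724) (nat_lit 84) (nat_lit 3434067059) (nat_lit 96) (nat_lit 5) (nat_lit 104) (nat_lit 5) (nat_lit 97) (nat_lit 5) (nat_lit 321) (nat_lit 287) (nat_lit 256)) (XT.lf (nat_lit 0) (nat_lit 1304835142) (nat_lit 504) (nat_lit 2821206958) (nat_lit 588) (nat_lit 4306290053) (nat_lit 90) (nat_lit 5) (nat_lit 96) (nat_lit 5) (nat_lit 97) (nat_lit 5) (nat_lit 322) (nat_lit 287) (nat_lit 255))) (XT.nd (nat_lit 94) (nat_lit 504) (nat_lit 0) (XT.lf (nat_lit 0) (nat_lit 5501974041) (nat_lit 504) (nat_lit 676243535) (nat_lit 588) (nat_lit 2382382565) (nat_lit 90) (nat_lit 5) (nat_lit 96) (nat_lit 5) (nat_lit 97) (nat_lit 5) (nat_lit 323) (nat_lit 287) (nat_lit 254)) (XT.lf (nat_lit 0) (nat_lit 1089491708) (nat_lit 504) (nat_lit 7180531851) (nat_lit 588) (nat_lit 423759063) (nat_lit 84) (nat_lit 5) (nat_lit 90) (nat_lit 5) (nat_lit 91) (nat_lit 5) (nat_lit 324) (nat_lit 287) (nat_lit 253))))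 (XT.nd (nat_lit 188) (nat_lit 504) (nat_lit 0) (XT.nd (nat_lit 94) (nat_lit 420) (nat_lit 0) (XT.lf (nat_lit 0) (nat_lit 1552869833) (nat_lit 588) (nat_lit 3476405254) (nat_lit 84) (nat_lit 3801838560) (nat_lit 83) (nat_lit 5) (nat_lit 90) (nat_lit 5) (nat_lit 84) (nat_lit 5) (nat_lit 325) (nat_lit 287) (nat_lit 252)) (XT.lf (nat_lit 0) (nat_lit 737325777) (nat_lit 420) (nat_lit 2803722506) (nat_lit 504) (nat_lit 5432965481) (nat_lit 78) (nat_lit 5) (nat_lit 83) (nat_lit 5) (nat_lit 84) (nat_lit 5) (nat_lit 326) (nat_lit 287) (nat_lit 251))) (XT.nd (nat_lit 94) (nat_lit 504) (nat_lit 0) (XT.lf (nat_lit 0) (nat_lit 5103272876) (nat_lit 420) (nat_lit 476569595) (nat_lit 504) (nat_lit 3542015089) (nat_lit 78) (nat_lit 5) (nat_lit 83) (nat_lit 5) (nat_lit 84) (nat_lit 5) (nat_lit 327) (nat_lit 287) (nat_lit 250)) (XT.nd (nat_lit 94) (nat_lit 84) (nat_lit 0) (XT.lf (nat_lit 0) (nat_lit 264450269) (nat_lit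 420) (nat_lit 7393157848) (nat_lit 504) (nat_lit 1617594605) (nat_lit 73) (nat_lit 5) (nat_lit 78) (nat_lit 5) (nat_lit 79) (nat_lit 5) (nat_lit 328) (nat_lit 287) (nat_lit 249)) (XT.lf (nat_lit 0) (nat_lit 360669779) (nat_lit 504) (nat_lit 4728141872) (nat_lit 84) (nat_lit 4344485688) (nat_lit 72) (nat_lit 5) (nat_lit 78) (nat_lit 5) (nat_lit 73) (nat_lit 5) (nat_lit 329) (nat_lit 287) (nat_lit 248))))))))
noncomputable def xc23 : XT := (XT.nd (nat_lit 50572) (nat_lit 0) (nat_lit 10416) (XT.nd (nat_lit 752) (nat_lit 756) (nat_lit 0) (XT.nd (nat_lit 376) (nat_lit 756) (nat_lit 0) (XT.nd (nat_lit 188) (nat_lit 420) (nat_lit 0) (XT.nd (nat_lit 94) (nat_lit 420) (nat_lit 0) (XT.lf (nat_lit 0) (nat_lit 2322354270) (nat_lit 504) (nat_lit 380384435) (nat_lit 84) (nat_lit 6894567190) (nat_lit 72) (nat_lit 5) (nat_lit 78) (nat_lit 5) (nat_lit 73) (nat_lit 5) (nat_lit 330) (nat_lit 287) (nat_lit 247)) (XT.lf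 (nat_lit 0) (nat_lit 4135949325) (nat_lit 420) (nat_lit 206958092) (nat_lit 504) (nat_lit 5423699389) (nat_lit 67) (nat_lit 5) (nat_lit 72) (nat_lit 5) (nat_lit 73) (nat_lit 5) (nat_lit 331) (nat_lit 287) (nat_lit 246))) (XT.nd (nat_lit 94) (nat_lit 420) (nat_lit 0) (XT.lf (nat_lit 0) (nat_lit 6411346555) (nat_lit 504) (nat_lit 1214608397) (nat_lit 84) (nat_lit 2315801777) (nat_lit 67) (nat_lit 5) (nat_lit 73) (nat_lit 5) (nat_lit 68) (nat_lit 5) (nat_lit 332) (nat_lit 287) (nat_lit 245)) (XT.lf (nat_lit 0) (nat_lit 3354916190) (nat_lit 420) (nat_lit 5183423800) (nat_lit 504) (nat_lit 1584307979) (nat_lit 62) (nat_lit 5) (nat_lit 67) (nat_lit 5) (nat_lit 68) (nat_lit 5) (nat_lit 333) (nat_lit 287) (nat_lit 244)))) (XT.nd (nat_lit 188) (nat_lit 336) (nat_lit 0) (XT.nd (nat_lit 94) (nat_lit 336) (nat_lit 0) (XT.lf (nat_lit 0) (nat_lit 385669116) (nat_lit 504) (nat_lit 2270599146) (nat_lit 84) (nat_lit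 7653746041) (nat_lit 61) (nat_lit 5) (nat_lit 67) (nat_lit 5) (nat_lit 62) (nat_lit 5) (nat_lit 334) (nat_lit 287) (nat_lit 243)) (XT.lf (nat_lit 0) (nat_lit 2349182963) (nat_lit 336) (nat_lit 18395292) (nat_lit 420) (nat_lit 8135738383) (nat_lit 57) (nat_lit 5) (nat_lit 61) (nat_lit 5) (nat_lit 62) (nat_lit 5) (nat_lit 335) (nat_lit 287) (nat_lit 242))) (XT.nd (nat_lit 94) (nat_lit 336) (nat_lit 0) (XT.lf (nat_lit 0) (nat_lit 4422767661) (nat_lit 420) (nat_lit 3617246909) (nat_lit 84) (nat_lit 2662352799) (nat_lit 57) (nat_lit 5) (nat_lit 62) (nat_lit 5) (nat_lit 58) (nat_lit 5) (nat_lit 336) (nat_lit 287) (nat_lit 241)) (XT.lf (nat_lit 0) (nat_lit 1033740474) (nat_lit 336) (nat_lit 5480641565) (nat_lit 420) (nat_lit 4394171890) (nat_lit 53) (nat_lit 5) (nat_lit 57) (nat_lit 5) (nat_lit 58) (nat_lit 5) (nat_lit 337) (nat_lit 287) (nat_lit 240))))) (XT.nd (nat_lit 376) (nat_lit 336) (nat_lit 0) (XT.nd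 (nat_lit 188) (nat_lit 420) (nat_lit 0) (XT.nd (nat_lit 94) (nat_lit 0) (nat_lit 0) (XT.lf (nat_lit 0) (nat_lit 5858887580) (nat_lit 336) (nat_lit 2812647761) (nat_lit 420) (nat_lit 2449691071) (nat_lit 53) (nat_lit 5) (nat_lit 57) (nat_lit 5) (nat_lit 58) (nat_lit 5) (nat_lit 338) (nat_lit 287) (nat_lit 239)) (XT.lf (nat_lit 0) (nat_lit 10788313936) (nat_lit 336) (nat_lit 71302949) (nat_lit 420) (nat_lit 482101428) (nat_lit 53) (nat_lit 5) (nat_lit 57) (nat_lit 5) (nat_lit 58) (nat_lit 5) (nat_lit 339) (nat_lit 287) (nat_lit 238))) (XT.nd (nat_lit 94) (nat_lit 0) (nat_lit 0) (XT.lf (nat_lit 0) (nat_lit 1550772107) (nat_lit 420) (nat_lit 7267664829) (nat_lit 84) (nat_lit 2749139765) (nat_lit 48) (nat_lit 5) (nat_lit 53) (nat_lit 5) (nat_lit 49) (nat_lit 5) (nat_lit 340) (nat_lit 287) (nat_lit 237)) (XT.lf (nat_lit 0) (nat_lit 3608416194) (nat_lit 420) (nat_lit 2535963872) (nat_lit 84) (nat_lit 5656881531)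 (nat_lit 48) (nat_lit 5) (nat_lit 53) (nat_lit 5) (nat_lit 49) (nat_lit 5) (nat_lit 341) (nat_lit 287) (nat_lit 236)))) (XT.nd (nat_lit 49162) (nat_lit 0) (nat_lit 13944) (XT.nd (nat_lit 94) (nat_lit 0) (nat_lit 0) (XT.lf (nat_lit 0) (nat_lit 2345644456) (nat_lit 336) (nat_lit 3373719307) (nat_lit 420) (nat_lit 6323251359) (nat_lit 44) (nat_lit 5) (nat_lit 48) (nat_lit 5) (nat_lit 49) (nat_lit 5) (nat_lit 342) (nat_lit 287) (nat_lit 235)) (XT.lf (nat_lit 0) (nat_lit 7388754691) (nat_lit 336) (nat_lit 500296171) (nat_lit 420) (nat_lit 4402703860) (nat_lit 44) (nat_lit 5) (nat_lit 48) (nat_lit 5) (nat_lit 49) (nat_lit 5) (nat_lit 343) (nat_lit 287) (nat_lit 234))) (XT.nd (nat_lit 94) (nat_lit 84) (nat_lit 0) (XT.lf (nat_lit 0) (nat_lit 0) (nat_lit 0) (nat_lit 0) (nat_lit 0) (nat_lit 1073741823) (nat_lit 1) (nat_lit 0) (nat_lit 1) (nat_lit 0) (nat_lit 211) (nat_lit 0) (nat_lit 288) (nat_lit 288) (nat_lit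 288)) (XT.nd (nat_lit 94) (nat_lit 0) (nat_lit 0) (XT.lf (nat_lit 0) (nat_lit 2604358303) (nat_lit 84) (nat_lit 3786270914) (nat_lit 0) (nat_lit 52997760) (nat_lit 210) (nat_lit 5) (nat_lit 211) (nat_lit 0) (nat_lit 210) (nat_lit 4) (nat_lit 289) (nat_lit 288) (nat_lit 287)) (XT.lf (nat_lit 0) (nat_lit 5185049725) (nat_lit 84) (nat_lit 1104706704) (nat_lit 0) (nat_lit 159042680) (nat_lit 210) (nat_lit 5) (nat_lit 211) (nat_lit 0) (nat_lit 210) (nat_lit 4) (nat_lit 290) (nat_lit 288) (nat_lit 286))))))) (XT.nd (nat_lit 752) (nat_lit 2436) (nat_lit 0) (XT.nd (nat_lit 376) (nat_lit 672) (nat_lit 0) (XT.nd (nat_lit 188) (nat_lit 252) (nat_lit 0) (XT.nd (nat_lit 94) (nat_lit 0) (nat_lit 0) (XT.lf (nat_lit 0) (nat_lit 1277000047) (nat_lit 168) (nat_lit 4832659040) (nat_lit 84) (nat_lit 347408646) (nat_lit 208) (nat_lit 5) (nat_lit 210) (nat_lit 5) (nat_lit 209) (nat_lit 4) (nat_lit 291) (nat_lit 288) (nat_lit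 285)) (XT.lf (nat_lit 0) (nat_lit 3781473178) (nat_lit 168) (nat_lit 2074143062) (nat_lit 84) (nat_lit 612988091) (nat_lit 208) (nat_lit 5) (nat_lit 210) (nat_lit 5) (nat_lit 209) (nat_lit 4) (nat_lit 292) (nat_lit 288) (nat_lit 284))) (XT.nd (nat_lit 94) (nat_lit 84) (nat_lit 0) (XT.lf (nat_lit 0) (nat_lit 728888004) (nat_lit 168) (nat_lit 5544510278) (nat_lit 252) (nat_lit 210536116) (nat_lit 206) (nat_lit 5) (nat_lit 208) (nat_lit 5) (nat_lit 209) (nat_lit 4) (nat_lit 293) (nat_lit 288) (nat_lit 283)) (XT.lf (nat_lit 0) (nat_lit 2220886423) (nat_lit 252) (nat_lit 2917456761) (nat_lit 84) (nat_lit 1363595235) (nat_lit 205) (nat_lit 5) (nat_lit 208) (nat_lit 5) (nat_lit 206) (nat_lit 5) (nat_lit 294) (nat_lit 288) (nat_lit 282)))) (XT.nd (nat_lit 188) (nat_lit 336) (nat_lit 0) (XT.nd (nat_lit 94) (nat_lit 336) (nat_lit 0) (XT.lf (nat_lit 0) (nat_lit 4629599450) (nat_lit 252) (nat_lit 50029302) (nat_lit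 84) (nat_lit 1844294108) (nat_lit 205) (nat_lit 5) (nat_lit 208) (nat_lit 5) (nat_lit 206) (nat_lit 5) (nat_lit 295) (nat_lit 288) (nat_lit 281)) (XT.lf (nat_lit 0) (nat_lit 491774128) (nat_lit 336) (nat_lit 3643416460) (nat_lit 84) (nat_lit 2413732940) (nat_lit 201) (nat_lit 5) (nat_lit 205) (nat_lit 5) (nat_lit 202) (nat_lit 5) (nat_lit 296) (nat_lit 288) (nat_lit 280))) (XT.nd (nat_lit 94) (nat_lit 336) (nat_lit 0) (XT.lf (nat_lit 0) (nat_lit 2822880415) (nat_lit 336) (nat_lit 696465010) (nat_lit 84) (nat_lit 3058064029) (nat_lit 201) (nat_lit 5) (nat_lit 205) (nat_lit 5) (nat_lit 202) (nat_lit 5) (nat_lit 297) (nat_lit 288) (nat_lit 279)) (XT.lf (nat_lit 0) (nat_lit 2334435418) (nat_lit 336) (nat_lit 2827545468) (nat_lit 420) (nat_lit 1447306823) (nat_lit 197) (nat_lit 5) (nat_lit 201) (nat_lit 5) (nat_lit 202) (nat_lit 5) (nat_lit 298) (nat_lit 288) (nat_lit 278))))) (XT.nd (nat_lit 376) (nat_lit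 1344) (nat_lit 0) (XT.nd (nat_lit 188) (nat_lit 588) (nat_lit 0) (XT.nd (nat_lit 94) (nat_lit 420) (nat_lit 0) (XT.lf (nat_lit 0) (nat_lit 833319050) (nat_lit 420) (nat_lit 1233342712) (nat_lit 84) (nat_lit 4578152232) (nat_lit 196) (nat_lit 5) (nat_lit 201) (nat_lit 5) (nat_lit 197) (nat_lit 5) (nat_lit 299) (nat_lit 288) (nat_lit 277)) (XT.lf (nat_lit 0) (nat_lit 1870875656) (nat_lit 420) (nat_lit 1218173019) (nat_lit 504) (nat_lit 3594437177) (nat_lit 191) (nat_lit 5) (nat_lit 196) (nat_lit 5) (nat_lit 197) (nat_lit 5) (nat_lit 300) (nat_lit 288) (nat_lit 276))) (XT.nd (nat_lit 94) (nat_lit 588) (nat_lit 0) (XT.lf (nat_lit 0) (nat_lit 5043553030) (nat_lit 420) (nat_lit 301929023) (nat_lit 504) (nat_lit 1380477897) (nat_lit 191) (nat_lit 5) (nat_lit 196) (nat_lit 5) (nat_lit 197) (nat_lit 5) (nat_lit 301) (nat_lit 288) (nat_lit 275)) (XT.lf (nat_lit 0) (nat_lit 824942730) (nat_lit 588) (nat_lit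 5266873564) (nat_lit 84) (nat_lit 679916274) (nat_lit 184) (nat_lit 5) (nat_lit 191) (nat_lit 5) (nat_lit 185) (nat_lit 5) (nat_lit 302) (nat_lit 288) (nat_lit 274)))) (XT.nd (nat_lit 188) (nat_lit 756) (nat_lit 0) (XT.nd (nat_lit 94) (nat_lit 588) (nat_lit 0) (XT.lf (nat_lit 0) (nat_lit 3012153141) (nat_lit 588) (nat_lit 2066124861) (nat_lit 84) (nat_lit 1742420859) (nat_lit 184) (nat_lit 5) (nat_lit 191) (nat_lit 5) (nat_lit 185) (nat_lit 5) (nat_lit 303) (nat_lit 288) (nat_lit 273)) (XT.lf (nat_lit 0) (nat_lit 1202839338) (nat_lit 588) (nat_lit 3999896335) (nat_lit 672) (nat_lit 1670849693) (nat_lit 177) (nat_lit 5) (nat_lit 184) (nat_lit 5) (nat_lit 185) (nat_lit 5) (nat_lit 304) (nat_lit 288) (nat_lit 272))) (XT.nd (nat_lit 94) (nat_lit 672) (nat_lit 0) (XT.lf (nat_lit 0) (nat_lit 468402545) (nat_lit 672) (nat_lit 2372631359) (nat_lit 84) (nat_lit 4088967514) (nat_lit 176) (nat_lit 5) (nat_lit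 184) (nat_lit 5) (nat_lit 177) (nat_lit 5) (nat_lit 305) (nat_lit 288) (nat_lit 271)) (XT.nd (nat_lit 94) (nat_lit 0) (nat_lit 0) (XT.lf (nat_lit 0) (nat_lit 975368387) (nat_lit 672) (nat_lit 1600091431) (nat_lit 756) (nat_lit 4414524179) (nat_lit 168) (nat_lit 5) (nat_lit 176) (nat_lit 5) (nat_lit 177) (nat_lit 5) (nat_lit 306) (nat_lit 288) (nat_lit 270)) (XT.lf (nat_lit 0) (nat_lit 4423091554) (nat_lit 672) (nat_lit 277699737) (nat_lit 756) (nat_lit 2352851466) (nat_lit 168) (nat_lit 5) (nat_lit 176) (nat_lit 5) (nat_lit 177) (nat_lit 5) (nat_lit 307) (nat_lit 288) (nat_lit 269))))))))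
noncomputable def xc24 : XT := (XT.nd (nat_lit 1504) (nat_lit 3528) (nat_lit 0) (XT.nd (nat_lit 752) (nat_lit 2856) (nat_lit 0) (XT.nd (nat_lit 376) (nat_lit 2016) (nat_lit 0) (XT.nd (nat_lit 188) (nat_lit 840) (nat_lit 0) (XT.nd (nat_lit 94) (nat_lit 84) (nat_lit 0) (XT.lf (nat_lit 0) (nat_lit 808536123) (nat_lit 756) (nat_lit 6032779902) (nat_lit 840) (nat_lit 279877931) (nat_lit 159) (nat_lit 5) (nat_lit 168) (nat_lit 5) (nat_lit 169) (nat_lit 5) (nat_lit 308) (nat_lit 288) (nat_lit 268)) (XT.lf (nat_lit 0) (nat_lit 1781551825) (nat_lit 840) (nat_lit 2858120088) (nat_lit 84) (nat_lit 2552113043) (nat_lit 158) (nat_lit 5) (nat_lit 168) (nat_lit 5) (nat_lit 159) (nat_lit 5) (nat_lit 309) (nat_lit 288) (nat_lit 267))) (XT.nd (nat_lit 94) (nat_lit 0) (nat_lit 0) (XT.lf (nat_lit 0) (nat_lit 659038217) (nat_lit 840) (nat_lit 3181682340) (nat_lit 924) (nat_lit 3425943030) (nat_lit 148) (nat_lit 5) (nat_lit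 158) (nat_lit 5) (nat_lit 159) (nat_lit 5) (nat_lit 310) (nat_lit 288) (nat_lit 266)) (XT.lf (nat_lit 0) (nat_lit 4291488974) (nat_lit 840) (nat_lit 1636650352) (nat_lit 924) (nat_lit 1417134850) (nat_lit 148) (nat_lit 5) (nat_lit 158) (nat_lit 5) (nat_lit 159) (nat_lit 5) (nat_lit 311) (nat_lit 288) (nat_lit 265)))) (XT.nd (nat_lit 188) (nat_lit 1008) (nat_lit 0) (XT.nd (nat_lit 94) (nat_lit 0) (nat_lit 0) (XT.lf (nat_lit 0) (nat_lit 560724203) (nat_lit 924) (nat_lit 21217622) (nat_lit 1008) (nat_lit 6846291854) (nat_lit 136) (nat_lit 5) (nat_lit 147) (nat_lit 5) (nat_lit 148) (nat_lit 5) (nat_lit 312) (nat_lit 288) (nat_lit 264)) (XT.lf (nat_lit 0) (nat_lit 2599168424) (nat_lit 1008) (nat_lit 3247971280) (nat_lit 84) (nat_lit 1666902513) (nat_lit 136) (nat_lit 5) (nat_lit 148) (nat_lit 5) (nat_lit 137) (nat_lit 5) (nat_lit 313) (nat_lit 288) (nat_lit 263))) (XT.nd (nat_lit 94) (nat_lit 0) (nat_lit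 0) (XT.lf (nat_lit 0) (nat_lit 437981333) (nat_lit 1008) (nat_lit 4184503641) (nat_lit 1092) (nat_lit 2982047860) (nat_lit 124) (nat_lit 5) (nat_lit 136) (nat_lit 5) (nat_lit 137) (nat_lit 5) (nat_lit 314) (nat_lit 288) (nat_lit 262)) (XT.lf (nat_lit 0) (nat_lit 4253205890) (nat_lit 1008) (nat_lit 2429514842) (nat_lit 1092) (nat_lit 1016171904) (nat_lit 124) (nat_lit 5) (nat_lit 136) (nat_lit 5) (nat_lit 137) (nat_lit 5) (nat_lit 315) (nat_lit 288) (nat_lit 261))))) (XT.nd (nat_lit 376) (nat_lit 1176) (nat_lit 0) (XT.nd (nat_lit 188) (nat_lit 504) (nat_lit 0) (XT.nd (nat_lit 94) (nat_lit 0) (nat_lit 0) (XT.lf (nat_lit 0) (nat_lit 333533737) (nat_lit 1092) (nat_lit 601305103) (nat_lit 1176) (nat_lit 6862995176) (nat_lit 110) (nat_lit 5) (nat_lit 123) (nat_lit 5) (nat_lit 124) (nat_lit 5) (nat_lit 316) (nat_lit 288) (nat_lit 260)) (XT.lf (nat_lit 0) (nat_lit 2916818667) (nat_lit 1176) (nat_lit 3674474050)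 (nat_lit 84) (nat_lit 1308729154) (nat_lit 110) (nat_lit 5) (nat_lit 124) (nat_lit 5) (nat_lit 111) (nat_lit 5) (nat_lit 317) (nat_lit 288) (nat_lit 259))) (XT.nd (nat_lit 94) (nat_lit 0) (nat_lit 0) (XT.lf (nat_lit 0) (nat_lit 176697882) (nat_lit 504) (nat_lit 4735701834) (nat_lit 588) (nat_lit 3094694586) (nat_lit 104) (nat_lit 5) (nat_lit 110) (nat_lit 5) (nat_lit 111) (nat_lit 5) (nat_lit 318) (nat_lit 288) (nat_lit 258)) (XT.lf (nat_lit 0) (nat_lit 4172146158) (nat_lit 504) (nat_lit 2781458877) (nat_lit 588) (nat_lit 1164611025) (nat_lit 104) (nat_lit 5) (nat_lit 110) (nat_lit 5) (nat_lit 111) (nat_lit 5) (nat_lit 319) (nat_lit 288) (nat_lit 257)))) (XT.nd (nat_lit 188) (nat_lit 504) (nat_lit 0) (XT.nd (nat_lit 94) (nat_lit 588) (nat_lit 0) (XT.lf (nat_lit 0) (nat_lit 754968837) (nat_lit 588) (nat_lit 2247098) (nat_lit 84) (nat_lit 7477191068) (nat_lit 103) (nat_lit 5) (nat_lit 110) (nat_lit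 5) (nat_lit 104) (nat_lit 5) (nat_lit 320) (nat_lit 288) (nat_lit 256)) (XT.lf (nat_lit 0) (nat_lit 2712011972) (nat_lit 672) (nat_lit 4285091806) (nat_lit 84) (nat_lit 1356867093) (nat_lit 96) (nat_lit 5) (nat_lit 104) (nat_lit 5) (nat_lit 97) (nat_lit 5) (nat_lit 321) (nat_lit 288) (nat_lit 255))) (XT.nd (nat_lit 94) (nat_lit 504) (nat_lit 0) (XT.lf (nat_lit 0) (nat_lit 4686466433) (nat_lit 672) (nat_lit 271141412) (nat_lit 84) (nat_lit 3521174963) (nat_lit 96) (nat_lit 5) (nat_lit 104) (nat_lit 5) (nat_lit 97) (nat_lit 5) (nat_lit 322) (nat_lit 288) (nat_lit 254)) (XT.lf (nat_lit 0) (nat_lit 3894876582) (nat_lit 504) (nat_lit 2816399037) (nat_lit 588) (nat_lit 1896719342) (nat_lit 90) (nat_lit 5) (nat_lit 96) (nat_lit 5) (nat_lit 97) (nat_lit 5) (nat_lit 323) (nat_lit 288) (nat_lit 253)))))) (XT.nd (nat_lit 752) (nat_lit 1596) (nat_lit 0) (XT.nd (nat_lit 376) (nat_lit 924) (nat_lit 0) (XT.nd (nat_lit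 188) (nat_lit 420) (nat_lit 0) (XT.nd (nat_lit 94) (nat_lit 504) (nat_lit 0) (XT.lf (nat_lit 0) (nat_lit 10155819) (nat_lit 588) (nat_lit 597454147) (nat_lit 84) (nat_lit 8135204110) (nat_lit 89) (nat_lit 5) (nat_lit 96) (nat_lit 5) (nat_lit 90) (nat_lit 5) (nat_lit 324) (nat_lit 288) (nat_lit 252)) (XT.lf (nat_lit 0) (nat_lit 1942358020) (nat_lit 588) (nat_lit 5248887780) (nat_lit 84) (nat_lit 1689968965) (nat_lit 83) (nat_lit 5) (nat_lit 90) (nat_lit 5) (nat_lit 84) (nat_lit 5) (nat_lit 325) (nat_lit 288) (nat_lit 251))) (XT.nd (nat_lit 94) (nat_lit 420) (nat_lit 0) (XT.lf (nat_lit 0) (nat_lit 3900185464) (nat_lit 588) (nat_lit 1075151416) (nat_lit 84) (nat_lit 4049803681) (nat_lit 83) (nat_lit 5) (nat_lit 90) (nat_lit 5) (nat_lit 84) (nat_lit 5) (nat_lit 326) (nat_lit 288) (nat_lit 250)) (XT.lf (nat_lit 0) (nat_lit 3243803678) (nat_lit 420) (nat_lit 2661700190) (nat_lit 504) (nat_lit 3268600483)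 (nat_lit 78) (nat_lit 5) (nat_lit 83) (nat_lit 5) (nat_lit 84) (nat_lit 5) (nat_lit 327) (nat_lit 288) (nat_lit 249)))) (XT.nd (nat_lit 188) (nat_lit 420) (nat_lit 0) (XT.nd (nat_lit 94) (nat_lit 504) (nat_lit 0) (XT.lf (nat_lit 0) (nat_lit 7670417887) (nat_lit 420) (nat_lit 269289213) (nat_lit 504) (nat_lit 1389172622) (nat_lit 78) (nat_lit 5) (nat_lit 83) (nat_lit 5) (nat_lit 84) (nat_lit 5) (nat_lit 328) (nat_lit 288) (nat_lit 248)) (XT.lf (nat_lit 0) (nat_lit 543041722) (nat_lit 504) (nat_lit 6763920916) (nat_lit 84) (nat_lit 2181301389) (nat_lit 72) (nat_lit 5) (nat_lit 78) (nat_lit 5) (nat_lit 73) (nat_lit 5) (nat_lit 329) (nat_lit 288) (nat_lit 247))) (XT.nd (nat_lit 94) (nat_lit 420) (nat_lit 0) (XT.lf (nat_lit 0) (nat_lit 2483567822) (nat_lit 504) (nat_lit 2440552607) (nat_lit 84) (nat_lit 4728880856) (nat_lit 72) (nat_lit 5) (nat_lit 78) (nat_lit 5) (nat_lit 73) (nat_lit 5) (nat_lit 330)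 (nat_lit 288) (nat_lit 246)) (XT.lf (nat_lit 0) (nat_lit 2009277660) (nat_lit 420) (nat_lit 2453224261) (nat_lit 504) (nat_lit 5361161070) (nat_lit 67) (nat_lit 5) (nat_lit 72) (nat_lit 5) (nat_lit 73) (nat_lit 5) (nat_lit 331) (nat_lit 288) (nat_lit 245))))) (XT.nd (nat_lit 376) (nat_lit 1092) (nat_lit 0) (XT.nd (nat_lit 188) (nat_lit 84) (nat_lit 0) (XT.nd (nat_lit 94) (nat_lit 420) (nat_lit 0) (XT.lf (nat_lit 0) (nat_lit 6488487857) (nat_lit 504) (nat_lit 3400129527) (nat_lit 84) (nat_lit 111580059) (nat_lit 67) (nat_lit 5) (nat_lit 73) (nat_lit 5) (nat_lit 68) (nat_lit 5) (nat_lit 332) (nat_lit 288) (nat_lit 244)) (XT.lf (nat_lit 0) (nat_lit 1100623497) (nat_lit 420) (nat_lit 7472931438) (nat_lit 504) (nat_lit 1608899886) (nat_lit 62) (nat_lit 5) (nat_lit 67) (nat_lit 5) (nat_lit 68) (nat_lit 5) (nat_lit 333) (nat_lit 288) (nat_lit 243))) (XT.nd (nat_lit 94) (nat_lit 0) (nat_lit 0) (XT.lf (nat_lit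 0) (nat_lit 342108561) (nat_lit 504) (nat_lit 4608033610) (nat_lit 84) (nat_lit 5420352421) (nat_lit 61) (nat_lit 5) (nat_lit 67) (nat_lit 5) (nat_lit 62) (nat_lit 5) (nat_lit 334) (nat_lit 288) (nat_lit 242)) (XT.lf (nat_lit 0) (nat_lit 2281834640) (nat_lit 504) (nat_lit 58452209) (nat_lit 84) (nat_lit 8224878362) (nat_lit 61) (nat_lit 5) (nat_lit 67) (nat_lit 5) (nat_lit 62) (nat_lit 5) (nat_lit 335) (nat_lit 288) (nat_lit 241)))) (XT.nd (nat_lit 188) (nat_lit 756) (nat_lit 0) (XT.nd (nat_lit 94) (nat_lit 0) (nat_lit 0) (XT.lf (nat_lit 0) (nat_lit 4294816264) (nat_lit 420) (nat_lit 6088142462) (nat_lit 84) (nat_lit 382624443) (nat_lit 57) (nat_lit 5) (nat_lit 62) (nat_lit 5) (nat_lit 58) (nat_lit 5) (nat_lit 336) (nat_lit 288) (nat_lit 240)) (XT.lf (nat_lit 0) (nat_lit 6358157865) (nat_lit 420) (nat_lit 1480515203) (nat_lit 84) (nat_lit 3134030136) (nat_lit 57) (nat_lit 5) (nat_lit 62) (nat_lit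 5) (nat_lit 58) (nat_lit 5) (nat_lit 337) (nat_lit 288) (nat_lit 239))) (XT.nd (nat_lit 94) (nat_lit 420) (nat_lit 0) (XT.lf (nat_lit 0) (nat_lit 3291885037) (nat_lit 336) (nat_lit 5190739798) (nat_lit 420) (nat_lit 2703819432) (nat_lit 53) (nat_lit 5) (nat_lit 57) (nat_lit 5) (nat_lit 58) (nat_lit 5) (nat_lit 338) (nat_lit 288) (nat_lit 238)) (XT.nd (nat_lit 94) (nat_lit 420) (nat_lit 0) (XT.lf (nat_lit 0) (nat_lit 8199677603) (nat_lit 336) (nat_lit 2453863455) (nat_lit 420) (nat_lit 753980876) (nat_lit 53) (nat_lit 5) (nat_lit 57) (nat_lit 5) (nat_lit 58) (nat_lit 5) (nat_lit 339) (nat_lit 288) (nat_lit 237)) (XT.lf (nat_lit 0) (nat_lit 1216452579) (nat_lit 420) (nat_lit 10039068487) (nat_lit 84) (nat_lit 380098782) (nat_lit 48) (nat_lit 5) (nat_lit 53) (nat_lit 5) (nat_lit 49) (nat_lit 5) (nat_lit 340) (nat_lit 288) (nat_lit 236))))))))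
noncomputable def xc25 : XT := (XT.nd (nat_lit 50572) (nat_lit 0) (nat_lit 5544) (XT.nd (nat_lit 49820) (nat_lit 0) (nat_lit 12264) (XT.nd (nat_lit 49444) (nat_lit 0) (nat_lit 13440) (XT.nd (nat_lit 188) (nat_lit 336) (nat_lit 0) (XT.nd (nat_lit 94) (nat_lit 0) (nat_lit 0) (XT.lf (nat_lit 0) (nat_lit 3257477972) (nat_lit 420) (nat_lit 5329048902) (nat_lit 84) (nat_lit 3283341996) (nat_lit 48) (nat_lit 5) (nat_lit 53) (nat_lit 5) (nat_lit 49) (nat_lit 5) (nat_lit 341) (nat_lit 288) (nat_lit 235)) (XT.lf (nat_lit 0) (nat_lit 5329037454) (nat_lit 420) (nat_lit 515729541) (nat_lit 84) (nat_lit 6267723905) (nat_lit 48) (nat_lit 5) (nat_lit 53) (nat_lit 5) (nat_lit 49) (nat_lit 5) (nat_lit 342) (nat_lit 288) (nat_lit 234))) (XT.nd (nat_lit 49162) (nat_lit 0) (nat_lit 13944) (XT.lf (nat_lit 0) (nat_lit 4495959681) (nat_lit 336) (nat_lit 2981702731) (nat_lit 420) (nat_lit 4884667064) (nat_lit 44) (nat_lit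 5) (nat_lit 48) (nat_lit 5) (nat_lit 49) (nat_lit 5) (nat_lit 343) (nat_lit 288) (nat_lit 233)) (XT.lf (nat_lit 0) (nat_lit 1288995757) (nat_lit 0) (nat_lit 1288995757) (nat_lit 84) (nat_lit 645405397) (nat_lit 210) (nat_lit 5) (nat_lit 210) (nat_lit 3) (nat_lit 211) (nat_lit 0) (nat_lit 289) (nat_lit 289) (nat_lit 286)))) (XT.nd (nat_lit 188) (nat_lit 252) (nat_lit 0) (XT.nd (nat_lit 94) (nat_lit 0) (nat_lit 0) (XT.lf (nat_lit 0) (nat_lit 1206781861) (nat_lit 252) (nat_lit 1225334331) (nat_lit 252) (nat_lit 4021402985) (nat_lit 207) (nat_lit 3) (nat_lit 210) (nat_lit 3) (nat_lit 210) (nat_lit 5) (nat_lit 290) (nat_lit 289) (nat_lit 285)) (XT.lf (nat_lit 84) (nat_lit 1464303832) (nat_lit 0) (nat_lit 2204825097) (nat_lit 252) (nat_lit 2794236305) (nat_lit 208) (nat_lit 5) (nat_lit 207) (nat_lit 3) (nat_lit 210) (nat_lit 5) (nat_lit 291) (nat_lit 289) (nat_lit 284))) (XT.nd (nat_lit 94) (nat_lit 252)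 (nat_lit 0) (XT.lf (nat_lit 84) (nat_lit 4211746642) (nat_lit 0) (nat_lit 1910975175) (nat_lit 252) (nat_lit 354072441) (nat_lit 208) (nat_lit 5) (nat_lit 207) (nat_lit 3) (nat_lit 210) (nat_lit 5) (nat_lit 292) (nat_lit 289) (nat_lit 283)) (XT.lf (nat_lit 84) (nat_lit 489552076) (nat_lit 0) (nat_lit 1536973461) (nat_lit 336) (nat_lit 4466892754) (nat_lit 205) (nat_lit 5) (nat_lit 204) (nat_lit 5) (nat_lit 208) (nat_lit 5) (nat_lit 293) (nat_lit 289) (nat_lit 282))))) (XT.nd (nat_lit 376) (nat_lit 840) (nat_lit 0) (XT.nd (nat_lit 188) (nat_lit 0) (nat_lit 84) (XT.nd (nat_lit 94) (nat_lit 336) (nat_lit 0) (XT.lf (nat_lit 84) (nat_lit 3321811580) (nat_lit 0) (nat_lit 1081233698) (nat_lit 336) (nat_lit 2110170338) (nat_lit 205) (nat_lit 5) (nat_lit 204) (nat_lit 5) (nat_lit 208) (nat_lit 5) (nat_lit 294) (nat_lit 289) (nat_lit 281)) (XT.lf (nat_lit 0) (nat_lit 220384793) (nat_lit 336) (nat_lit 347873046)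 (nat_lit 420) (nat_lit 5968696340) (nat_lit 200) (nat_lit 5) (nat_lit 204) (nat_lit 5) (nat_lit 205) (nat_lit 5) (nat_lit 295) (nat_lit 289) (nat_lit 280))) (XT.nd (nat_lit 94) (nat_lit 0) (nat_lit 0) (XT.lf (nat_lit 0) (nat_lit 2515251284) (nat_lit 336) (nat_lit 4001268735) (nat_lit 84) (nat_lit 46759671) (nat_lit 201) (nat_lit 5) (nat_lit 205) (nat_lit 5) (nat_lit 202) (nat_lit 5) (nat_lit 296) (nat_lit 289) (nat_lit 279)) (XT.lf (nat_lit 0) (nat_lit 4803310796) (nat_lit 336) (nat_lit 1081121907) (nat_lit 84) (nat_lit 708921864) (nat_lit 201) (nat_lit 5) (nat_lit 205) (nat_lit 5) (nat_lit 202) (nat_lit 5) (nat_lit 297) (nat_lit 289) (nat_lit 278)))) (XT.nd (nat_lit 188) (nat_lit 504) (nat_lit 0) (XT.nd (nat_lit 94) (nat_lit 0) (nat_lit 0) (XT.lf (nat_lit 0) (nat_lit 460137056) (nat_lit 420) (nat_lit 4716225419) (nat_lit 84) (nat_lit 1450395993) (nat_lit 196) (nat_lit 5) (nat_lit 201) (nat_lit 5)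 (nat_lit 197) (nat_lit 5) (nat_lit 298) (nat_lit 289) (nat_lit 277)) (XT.lf (nat_lit 0) (nat_lit 2670199181) (nat_lit 420) (nat_lit 1715892327) (nat_lit 84) (nat_lit 2277263908) (nat_lit 196) (nat_lit 5) (nat_lit 201) (nat_lit 5) (nat_lit 197) (nat_lit 5) (nat_lit 299) (nat_lit 289) (nat_lit 276))) (XT.nd (nat_lit 94) (nat_lit 84) (nat_lit 0) (XT.lf (nat_lit 0) (nat_lit 1351856327) (nat_lit 420) (nat_lit 3528764923) (nat_lit 504) (nat_lit 1823035802) (nat_lit 191) (nat_lit 5) (nat_lit 196) (nat_lit 5) (nat_lit 197) (nat_lit 5) (nat_lit 300) (nat_lit 289) (nat_lit 275)) (XT.lf (nat_lit 0) (nat_lit 343225412) (nat_lit 504) (nat_lit 2252255458) (nat_lit 84) (nat_lit 4151976441) (nat_lit 190) (nat_lit 5) (nat_lit 196) (nat_lit 5) (nat_lit 191) (nat_lit 5) (nat_lit 301) (nat_lit 289) (nat_lit 274)))))) (XT.nd (nat_lit 752) (nat_lit 4032) (nat_lit 0) (XT.nd (nat_lit 376) (nat_lit 1512) (nat_lit 0) (XT.nd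 (nat_lit 188) (nat_lit 672) (nat_lit 0) (XT.nd (nat_lit 94) (nat_lit 0) (nat_lit 0) (XT.lf (nat_lit 0) (nat_lit 889905169) (nat_lit 504) (nat_lit 1579248486) (nat_lit 588) (nat_lit 4325459322) (nat_lit 184) (nat_lit 5) (nat_lit 190) (nat_lit 5) (nat_lit 191) (nat_lit 5) (nat_lit 302) (nat_lit 289) (nat_lit 273)) (XT.lf (nat_lit 0) (nat_lit 4124998723) (nat_lit 504) (nat_lit 482890261) (nat_lit 588) (nat_lit 2237392365) (nat_lit 184) (nat_lit 5) (nat_lit 190) (nat_lit 5) (nat_lit 191) (nat_lit 5) (nat_lit 303) (nat_lit 289) (nat_lit 272))) (XT.nd (nat_lit 94) (nat_lit 84) (nat_lit 0) (XT.lf (nat_lit 0) (nat_lit 513195418) (nat_lit 588) (nat_lit 6237175866) (nat_lit 672) (nat_lit 149481034) (nat_lit 177) (nat_lit 5) (nat_lit 184) (nat_lit 5) (nat_lit 185) (nat_lit 5) (nat_lit 304) (nat_lit 289) (nat_lit 271)) (XT.lf (nat_lit 0) (nat_lit 1922939754) (nat_lit 672) (nat_lit 3130674828) (nat_lit 84) (nat_lit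 1903489395) (nat_lit 176) (nat_lit 5) (nat_lit 184) (nat_lit 5) (nat_lit 177) (nat_lit 5) (nat_lit 305) (nat_lit 289) (nat_lit 270)))) (XT.nd (nat_lit 188) (nat_lit 840) (nat_lit 0) (XT.nd (nat_lit 94) (nat_lit 0) (nat_lit 0) (XT.lf (nat_lit 0) (nat_lit 174971318) (nat_lit 672) (nat_lit 3811994241) (nat_lit 756) (nat_lit 3031631406) (nat_lit 168) (nat_lit 5) (nat_lit 176) (nat_lit 5) (nat_lit 177) (nat_lit 5) (nat_lit 306) (nat_lit 289) (nat_lit 269)) (XT.lf (nat_lit 0) (nat_lit 3596732632) (nat_lit 672) (nat_lit 2481270553) (nat_lit 756) (nat_lit 1005486780) (nat_lit 168) (nat_lit 5) (nat_lit 176) (nat_lit 5) (nat_lit 177) (nat_lit 5) (nat_lit 307) (nat_lit 289) (nat_lit 268))) (XT.nd (nat_lit 94) (nat_lit 756) (nat_lit 0) (XT.lf (nat_lit 0) (nat_lit 993061037) (nat_lit 756) (nat_lit 89454411) (nat_lit 84) (nat_lit 6069998900) (nat_lit 167) (nat_lit 5) (nat_lit 176) (nat_lit 5) (nat_lit 168) (nat_lit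 5) (nat_lit 308) (nat_lit 289) (nat_lit 267)) (XT.lf (nat_lit 0) (nat_lit 3004264079) (nat_lit 840) (nat_lit 3808350941) (nat_lit 84) (nat_lit 411942632) (nat_lit 158) (nat_lit 5) (nat_lit 168) (nat_lit 5) (nat_lit 159) (nat_lit 5) (nat_lit 309) (nat_lit 289) (nat_lit 266))))) (XT.nd (nat_lit 376) (nat_lit 2184) (nat_lit 0) (XT.nd (nat_lit 188) (nat_lit 1008) (nat_lit 0) (XT.nd (nat_lit 94) (nat_lit 840) (nat_lit 0) (XT.lf (nat_lit 0) (nat_lit 5024951129) (nat_lit 840) (nat_lit 330682244) (nat_lit 84) (nat_lit 1945147300) (nat_lit 158) (nat_lit 5) (nat_lit 168) (nat_lit 5) (nat_lit 159) (nat_lit 5) (nat_lit 310) (nat_lit 289) (nat_lit 265)) (XT.lf (nat_lit 0) (nat_lit 3269022917) (nat_lit 840) (nat_lit 3808758278) (nat_lit 924) (nat_lit 302829222) (nat_lit 148) (nat_lit 5) (nat_lit 158) (nat_lit 5) (nat_lit 159) (nat_lit 5) (nat_lit 311) (nat_lit 289) (nat_lit 264))) (XT.nd (nat_lit 94) (nat_lit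 924) (nat_lit 0) (XT.lf (nat_lit 0) (nat_lit 1637483201) (nat_lit 924) (nat_lit 545365939) (nat_lit 84) (nat_lit 5281642026) (nat_lit 147) (nat_lit 5) (nat_lit 158) (nat_lit 5) (nat_lit 148) (nat_lit 5) (nat_lit 312) (nat_lit 289) (nat_lit 263)) (XT.lf (nat_lit 0) (nat_lit 3140492127) (nat_lit 924) (nat_lit 461739346) (nat_lit 1008) (nat_lit 3949829105) (nat_lit 136) (nat_lit 5) (nat_lit 147) (nat_lit 5) (nat_lit 148) (nat_lit 5) (nat_lit 313) (nat_lit 289) (nat_lit 262)))) (XT.nd (nat_lit 188) (nat_lit 1176) (nat_lit 0) (XT.nd (nat_lit 94) (nat_lit 1008) (nat_lit 0) (XT.lf (nat_lit 0) (nat_lit 5587488470) (nat_lit 1008) (nat_lit 755838481) (nat_lit 84) (nat_lit 1300534106) (nat_lit 136) (nat_lit 5) (nat_lit 148) (nat_lit 5) (nat_lit 137) (nat_lit 5) (nat_lit 314) (nat_lit 289) (nat_lit 261)) (XT.lf (nat_lit 0) (nat_lit 3018128689) (nat_lit 1008) (nat_lit 4593430039) (nat_lit 1092) (nat_lit 127909370)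 (nat_lit 124) (nat_lit 5) (nat_lit 136) (nat_lit 5) (nat_lit 137) (nat_lit 5) (nat_lit 315) (nat_lit 289) (nat_lit 260))) (XT.nd (nat_lit 94) (nat_lit 1092) (nat_lit 0) (XT.lf (nat_lit 0) (nat_lit 1773837484) (nat_lit 1092) (nat_lit 983288717) (nat_lit 84) (nat_lit 5082101141) (nat_lit 123) (nat_lit 5) (nat_lit 136) (nat_lit 5) (nat_lit 124) (nat_lit 5) (nat_lit 316) (nat_lit 289) (nat_lit 259)) (XT.nd (nat_lit 94) (nat_lit 0) (nat_lit 0) (XT.lf (nat_lit 0) (nat_lit 2876788787) (nat_lit 1092) (nat_lit 828357123) (nat_lit 1176) (nat_lit 4237955171) (nat_lit 110) (nat_lit 5) (nat_lit 123) (nat_lit 5) (nat_lit 124) (nat_lit 5) (nat_lit 317) (nat_lit 289) (nat_lit 258)) (XT.lf (nat_lit 0) (nat_lit 5664135872) (nat_lit 1176) (nat_lit 1236056110) (nat_lit 84) (nat_lit 1151227465) (nat_lit 110) (nat_lit 5) (nat_lit 124) (nat_lit 5) (nat_lit 111) (nat_lit 5) (nat_lit 318) (nat_lit 289) (nat_lit 257))))))))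
noncomputable def xc26 : XT := (XT.nd (nat_lit 1504) (nat_lit 1428) (nat_lit 0) (XT.nd (nat_lit 752) (nat_lit 1848) (nat_lit 0) (XT.nd (nat_lit 376) (nat_lit 1092) (nat_lit 0) (XT.nd (nat_lit 188) (nat_lit 588) (nat_lit 0) (XT.nd (nat_lit 94) (nat_lit 84) (nat_lit 0) (XT.lf (nat_lit 0) (nat_lit 2708662137) (nat_lit 504) (nat_lit 4958093591) (nat_lit 588) (nat_lit 497089882) (nat_lit 104) (nat_lit 5) (nat_lit 110) (nat_lit 5) (nat_lit 111) (nat_lit 5) (nat_lit 319) (nat_lit 289) (nat_lit 256)) (XT.lf (nat_lit 0) (nat_lit 1383391810) (nat_lit 588) (nat_lit 1543164837) (nat_lit 84) (nat_lit 5354171591) (nat_lit 103) (nat_lit 5) (nat_lit 110) (nat_lit 5) (nat_lit 104) (nat_lit 5) (nat_lit 320) (nat_lit 289) (nat_lit 255))) (XT.nd (nat_lit 94) (nat_lit 0) (nat_lit 0) (XT.lf (nat_lit 0) (nat_lit 2485512478) (nat_lit 588) (nat_lit 800459824) (nat_lit 672) (nat_lit 5116106927) (nat_lit 96) (nat_lit 5) (nat_lit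 103) (nat_lit 5) (nat_lit 104) (nat_lit 5) (nat_lit 321) (nat_lit 289) (nat_lit 254)) (XT.lf (nat_lit 0) (nat_lit 5228118293) (nat_lit 672) (nat_lit 1919706689) (nat_lit 84) (nat_lit 1380163558) (nat_lit 96) (nat_lit 5) (nat_lit 104) (nat_lit 5) (nat_lit 97) (nat_lit 5) (nat_lit 322) (nat_lit 289) (nat_lit 253)))) (XT.nd (nat_lit 188) (nat_lit 504) (nat_lit 0) (XT.nd (nat_lit 94) (nat_lit 84) (nat_lit 0) (XT.lf (nat_lit 0) (nat_lit 2187635847) (nat_lit 504) (nat_lit 5024720472) (nat_lit 588) (nat_lit 1446195009) (nat_lit 90) (nat_lit 5) (nat_lit 96) (nat_lit 5) (nat_lit 97) (nat_lit 5) (nat_lit 323) (nat_lit 289) (nat_lit 252)) (XT.lf (nat_lit 0) (nat_lit 428115001) (nat_lit 588) (nat_lit 2384323460) (nat_lit 84) (nat_lit 5981608990) (nat_lit 89) (nat_lit 5) (nat_lit 96) (nat_lit 5) (nat_lit 90) (nat_lit 5) (nat_lit 324) (nat_lit 289) (nat_lit 251))) (XT.nd (nat_lit 94) (nat_lit 0) (nat_lit 0) (XT.lf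 (nat_lit 0) (nat_lit 1802001913) (nat_lit 504) (nat_lit 500091978) (nat_lit 588) (nat_lit 6632243969) (nat_lit 83) (nat_lit 5) (nat_lit 89) (nat_lit 5) (nat_lit 90) (nat_lit 5) (nat_lit 325) (nat_lit 289) (nat_lit 250)) (XT.lf (nat_lit 0) (nat_lit 4232616381) (nat_lit 588) (nat_lit 2978021923) (nat_lit 84) (nat_lit 1868554052) (nat_lit 83) (nat_lit 5) (nat_lit 90) (nat_lit 5) (nat_lit 84) (nat_lit 5) (nat_lit 326) (nat_lit 289) (nat_lit 249))))) (XT.nd (nat_lit 376) (nat_lit 924) (nat_lit 0) (XT.nd (nat_lit 188) (nat_lit 504) (nat_lit 0) (XT.nd (nat_lit 94) (nat_lit 0) (nat_lit 0) (XT.lf (nat_lit 0) (nat_lit 1277669796) (nat_lit 420) (nat_lit 4919088554) (nat_lit 504) (nat_lit 3032754040) (nat_lit 78) (nat_lit 5) (nat_lit 83) (nat_lit 5) (nat_lit 84) (nat_lit 5) (nat_lit 327) (nat_lit 289) (nat_lit 248)) (XT.lf (nat_lit 0) (nat_lit 5680873282) (nat_lit 420) (nat_lit 2528835555) (nat_lit 504) (nat_lit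 1175315134) (nat_lit 78) (nat_lit 5) (nat_lit 83) (nat_lit 5) (nat_lit 84) (nat_lit 5) (nat_lit 328) (nat_lit 289) (nat_lit 247))) (XT.nd (nat_lit 94) (nat_lit 0) (nat_lit 0) (XT.lf (nat_lit 0) (nat_lit 633507355) (nat_lit 420) (nat_lit 55134084) (nat_lit 504) (nat_lit 8857756283) (nat_lit 72) (nat_lit 5) (nat_lit 77) (nat_lit 5) (nat_lit 78) (nat_lit 5) (nat_lit 329) (nat_lit 289) (nat_lit 246)) (XT.lf (nat_lit 0) (nat_lit 2608098400) (nat_lit 504) (nat_lit 4612630919) (nat_lit 84) (nat_lit 2491129407) (nat_lit 72) (nat_lit 5) (nat_lit 78) (nat_lit 5) (nat_lit 73) (nat_lit 5) (nat_lit 330) (nat_lit 289) (nat_lit 245)))) (XT.nd (nat_lit 188) (nat_lit 504) (nat_lit 0) (XT.nd (nat_lit 94) (nat_lit 420) (nat_lit 0) (XT.lf (nat_lit 0) (nat_lit 4547195073) (nat_lit 504) (nat_lit 226227637) (nat_lit 84) (nat_lit 5110401162) (nat_lit 72) (nat_lit 5) (nat_lit 78) (nat_lit 5) (nat_lit 73) (nat_lit 5) (nat_lit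 331) (nat_lit 289) (nat_lit 244)) (XT.lf (nat_lit 0) (nat_lit 4338363355) (nat_lit 420) (nat_lit 2211865709) (nat_lit 504) (nat_lit 3510907192) (nat_lit 67) (nat_lit 5) (nat_lit 72) (nat_lit 5) (nat_lit 73) (nat_lit 5) (nat_lit 332) (nat_lit 289) (nat_lit 243))) (XT.nd (nat_lit 94) (nat_lit 504) (nat_lit 0) (XT.lf (nat_lit 0) (nat_lit 8583460579) (nat_lit 504) (nat_lit 1244903431) (nat_lit 84) (nat_lit 416700951) (nat_lit 67) (nat_lit 5) (nat_lit 73) (nat_lit 5) (nat_lit 68) (nat_lit 5) (nat_lit 333) (nat_lit 289) (nat_lit 242)) (XT.lf (nat_lit 0) (nat_lit 258854633) (nat_lit 504) (nat_lit 7064377325) (nat_lit 84) (nat_lit 3110929541) (nat_lit 61) (nat_lit 5) (nat_lit 67) (nat_lit 5) (nat_lit 62) (nat_lit 5) (nat_lit 334) (nat_lit 289) (nat_lit 241)))))) (XT.nd (nat_lit 752) (nat_lit 336) (nat_lit 0) (XT.nd (nat_lit 376) (nat_lit 420) (nat_lit 0) (XT.nd (nat_lit 188) (nat_lit 336) (nat_lit 0) (XT.nd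 (nat_lit 94) (nat_lit 336) (nat_lit 0) (XT.lf (nat_lit 0) (nat_lit 2180269485) (nat_lit 504) (nat_lit 2536978181) (nat_lit 84) (nat_lit 5912210886) (nat_lit 61) (nat_lit 5) (nat_lit 67) (nat_lit 5) (nat_lit 62) (nat_lit 5) (nat_lit 335) (nat_lit 289) (nat_lit 240)) (XT.lf (nat_lit 0) (nat_lit 2129987292) (nat_lit 336) (nat_lit 2016318769) (nat_lit 420) (nat_lit 6685082764) (nat_lit 57) (nat_lit 5) (nat_lit 61) (nat_lit 5) (nat_lit 62) (nat_lit 5) (nat_lit 336) (nat_lit 289) (nat_lit 239))) (XT.nd (nat_lit 94) (nat_lit 336) (nat_lit 0) (XT.lf (nat_lit 0) (nat_lit 6172169348) (nat_lit 420) (nat_lit 4095627196) (nat_lit 84) (nat_lit 771929449) (nat_lit 57) (nat_lit 5) (nat_lit 62) (nat_lit 5) (nat_lit 58) (nat_lit 5) (nat_lit 337) (nat_lit 289) (nat_lit 238)) (XT.lf (nat_lit 0) (nat_lit 601367189) (nat_lit 336) (nat_lit 7651628148) (nat_lit 420) (nat_lit 3001878230) (nat_lit 53) (nat_lit 5) (nat_lit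 57) (nat_lit 5) (nat_lit 58) (nat_lit 5) (nat_lit 338) (nat_lit 289) (nat_lit 237)))) (XT.nd (nat_lit 188) (nat_lit 336) (nat_lit 0) (XT.nd (nat_lit 94) (nat_lit 84) (nat_lit 0) (XT.lf (nat_lit 0) (nat_lit 5488176449) (nat_lit 336) (nat_lit 4919085916) (nat_lit 420) (nat_lit 1069257022) (nat_lit 53) (nat_lit 5) (nat_lit 57) (nat_lit 5) (nat_lit 58) (nat_lit 5) (nat_lit 339) (nat_lit 289) (nat_lit 236)) (XT.lf (nat_lit 0) (nat_lit 871439843) (nat_lit 420) (nat_lit 1229836892) (nat_lit 84) (nat_lit 9604605218) (nat_lit 52) (nat_lit 5) (nat_lit 57) (nat_lit 5) (nat_lit 53) (nat_lit 5) (nat_lit 340) (nat_lit 289) (nat_lit 235))) (XT.nd (nat_lit 94) (nat_lit 0) (nat_lit 0) (XT.lf (nat_lit 0) (nat_lit 2862922968) (nat_lit 420) (nat_lit 8251430400) (nat_lit 84) (nat_lit 827360892) (nat_lit 48) (nat_lit 5) (nat_lit 53) (nat_lit 5) (nat_lit 49) (nat_lit 5) (nat_lit 341) (nat_lit 289) (nat_lit 234)) (XT.lf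 (nat_lit 0) (nat_lit 4918848110) (nat_lit 420) (nat_lit 3458508186) (nat_lit 84) (nat_lit 3807510706) (nat_lit 48) (nat_lit 5) (nat_lit 53) (nat_lit 5) (nat_lit 49) (nat_lit 5) (nat_lit 342) (nat_lit 289) (nat_lit 233))))) (XT.nd (nat_lit 49538) (nat_lit 0) (nat_lit 12684) (XT.nd (nat_lit 49350) (nat_lit 0) (nat_lit 13440) (XT.nd (nat_lit 49256) (nat_lit 0) (nat_lit 13692) (XT.lf (nat_lit 0) (nat_lit 1472480827) (nat_lit 336) (nat_lit 5549834707) (nat_lit 420) (nat_lit 5413834589) (nat_lit 44) (nat_lit 5) (nat_lit 48) (nat_lit 5) (nat_lit 49) (nat_lit 5) (nat_lit 343) (nat_lit 289) (nat_lit 232)) (XT.lf (nat_lit 0) (nat_lit 1814470864) (nat_lit 252) (nat_lit 708190739) (nat_lit 252) (nat_lit 708190739) (nat_lit 207) (nat_lit 3) (nat_lit 210) (nat_lit 3) (nat_lit 210) (nat_lit 5) (nat_lit 290) (nat_lit 290) (nat_lit 284))) (XT.nd (nat_lit 94) (nat_lit 252) (nat_lit 0) (XT.lf (nat_lit 84) (nat_lit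 1243946492) (nat_lit 0) (nat_lit 4797216632) (nat_lit 252) (nat_lit 432256649) (nat_lit 208) (nat_lit 5) (nat_lit 207) (nat_lit 3) (nat_lit 210) (nat_lit 5) (nat_lit 291) (nat_lit 290) (nat_lit 283)) (XT.lf (nat_lit 0) (nat_lit 1919932314) (nat_lit 252) (nat_lit 2541270459) (nat_lit 336) (nat_lit 2026798138) (nat_lit 204) (nat_lit 5) (nat_lit 207) (nat_lit 3) (nat_lit 208) (nat_lit 5) (nat_lit 292) (nat_lit 290) (nat_lit 282)))) (XT.nd (nat_lit 188) (nat_lit 420) (nat_lit 0) (XT.nd (nat_lit 94) (nat_lit 336) (nat_lit 0) (XT.lf (nat_lit 84) (nat_lit 178434723) (nat_lit 0) (nat_lit 4065784263) (nat_lit 336) (nat_lit 2262109135) (nat_lit 205) (nat_lit 5) (nat_lit 204) (nat_lit 5) (nat_lit 208) (nat_lit 5) (nat_lit 293) (nat_lit 290) (nat_lit 281)) (XT.lf (nat_lit 0) (nat_lit 47022030) (nat_lit 336) (nat_lit 3542439189) (nat_lit 420) (nat_lit 2938321889) (nat_lit 200) (nat_lit 5) (nat_lit 204) (nat_lit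 5) (nat_lit 205) (nat_lit 5) (nat_lit 294) (nat_lit 290) (nat_lit 280))) (XT.nd (nat_lit 94) (nat_lit 420) (nat_lit 0) (XT.lf (nat_lit 0) (nat_lit 2290750580) (nat_lit 336) (nat_lit 745126894) (nat_lit 420) (nat_lit 3516631312) (nat_lit 200) (nat_lit 5) (nat_lit 204) (nat_lit 5) (nat_lit 205) (nat_lit 5) (nat_lit 295) (nat_lit 290) (nat_lit 279)) (XT.nd (nat_lit 94) (nat_lit 420) (nat_lit 0) (XT.lf (nat_lit 84) (nat_lit 2132047278) (nat_lit 0) (nat_lit 2405847257) (nat_lit 420) (nat_lit 2042673664) (nat_lit 201) (nat_lit 5) (nat_lit 200) (nat_lit 5) (nat_lit 205) (nat_lit 5) (nat_lit 296) (nat_lit 290) (nat_lit 278)) (XT.lf (nat_lit 0) (nat_lit 161602332) (nat_lit 420) (nat_lit 1549129941) (nat_lit 504) (nat_lit 4901614504) (nat_lit 195) (nat_lit 5) (nat_lit 200) (nat_lit 5) (nat_lit 201) (nat_lit 5) (nat_lit 297) (nat_lit 290) (nat_lit 277))))))))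
noncomputable def xc27 : XT := (XT.nd (nat_lit 1598) (nat_lit 5376) (nat_lit 0) (XT.nd (nat_lit 752) (nat_lit 3360) (nat_lit 0) (XT.nd (nat_lit 376) (nat_lit 1176) (nat_lit 0) (XT.nd (nat_lit 188) (nat_lit 420) (nat_lit 0) (XT.nd (nat_lit 94) (nat_lit 0) (nat_lit 0) (XT.lf (nat_lit 84) (nat_lit 1397383470) (nat_lit 0) (nat_lit 924342853) (nat_lit 504) (nat_lit 4325379836) (nat_lit 196) (nat_lit 5) (nat_lit 195) (nat_lit 5) (nat_lit 201) (nat_lit 5) (nat_lit 298) (nat_lit 290) (nat_lit 276)) (XT.lf (nat_lit 84) (nat_lit 4418564854) (nat_lit 0) (nat_lit 64535378) (nat_lit 504) (nat_lit 2202337455) (nat_lit 196) (nat_lit 5) (nat_lit 195) (nat_lit 5) (nat_lit 201) (nat_lit 5) (nat_lit 299) (nat_lit 290) (nat_lit 275))) (XT.nd (nat_lit 94) (nat_lit 84) (nat_lit 0) (XT.lf (nat_lit 0) (nat_lit 764450617) (nat_lit 420) (nat_lit 5883653022) (nat_lit 504) (nat_lit 79262137) (nat_lit 191) (nat_lit 5) (nat_lit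 196) (nat_lit 5) (nat_lit 197) (nat_lit 5) (nat_lit 300) (nat_lit 290) (nat_lit 274)) (XT.lf (nat_lit 0) (nat_lit 2013241455) (nat_lit 504) (nat_lit 2906643123) (nat_lit 84) (nat_lit 1852148095) (nat_lit 190) (nat_lit 5) (nat_lit 196) (nat_lit 5) (nat_lit 191) (nat_lit 5) (nat_lit 301) (nat_lit 290) (nat_lit 273)))) (XT.nd (nat_lit 188) (nat_lit 672) (nat_lit 0) (XT.nd (nat_lit 94) (nat_lit 0) (nat_lit 0) (XT.lf (nat_lit 0) (nat_lit 196350142) (nat_lit 504) (nat_lit 3898476292) (nat_lit 588) (nat_lit 2725935898) (nat_lit 184) (nat_lit 5) (nat_lit 190) (nat_lit 5) (nat_lit 191) (nat_lit 5) (nat_lit 302) (nat_lit 290) (nat_lit 272)) (XT.lf (nat_lit 0) (nat_lit 3406504986) (nat_lit 504) (nat_lit 2790472705) (nat_lit 588) (nat_lit 675780476) (nat_lit 184) (nat_lit 5) (nat_lit 190) (nat_lit 5) (nat_lit 191) (nat_lit 5) (nat_lit 303) (nat_lit 290) (nat_lit 271))) (XT.nd (nat_lit 94) (nat_lit 588) (nat_lit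 0) (XT.lf (nat_lit 0) (nat_lit 1335780233) (nat_lit 588) (nat_lit 275457398) (nat_lit 84) (nat_lit 5317324027) (nat_lit 183) (nat_lit 5) (nat_lit 190) (nat_lit 5) (nat_lit 184) (nat_lit 5) (nat_lit 304) (nat_lit 290) (nat_lit 270)) (XT.lf (nat_lit 0) (nat_lit 3018693150) (nat_lit 588) (nat_lit 335936304) (nat_lit 672) (nat_lit 3632881683) (nat_lit 176) (nat_lit 5) (nat_lit 183) (nat_lit 5) (nat_lit 184) (nat_lit 5) (nat_lit 305) (nat_lit 290) (nat_lit 269))))) (XT.nd (nat_lit 376) (nat_lit 1848) (nat_lit 0) (XT.nd (nat_lit 188) (nat_lit 756) (nat_lit 0) (XT.nd (nat_lit 94) (nat_lit 756) (nat_lit 0) (XT.lf (nat_lit 0) (nat_lit 5379550691) (nat_lit 672) (nat_lit 688803373) (nat_lit 84) (nat_lit 982033434) (nat_lit 176) (nat_lit 5) (nat_lit 184) (nat_lit 5) (nat_lit 177) (nat_lit 5) (nat_lit 306) (nat_lit 290) (nat_lit 268)) (XT.lf (nat_lit 0) (nat_lit 307338774) (nat_lit 756) (nat_lit 4426191841) (nat_lit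 84) (nat_lit 2383066733) (nat_lit 167) (nat_lit 5) (nat_lit 176) (nat_lit 5) (nat_lit 168) (nat_lit 5) (nat_lit 307) (nat_lit 290) (nat_lit 267))) (XT.nd (nat_lit 94) (nat_lit 756) (nat_lit 0) (XT.lf (nat_lit 0) (nat_lit 2252877989) (nat_lit 756) (nat_lit 1064117126) (nat_lit 84) (nat_lit 3869488816) (nat_lit 167) (nat_lit 5) (nat_lit 176) (nat_lit 5) (nat_lit 168) (nat_lit 5) (nat_lit 308) (nat_lit 290) (nat_lit 266)) (XT.lf (nat_lit 0) (nat_lit 2400804784) (nat_lit 756) (nat_lit 1817224578) (nat_lit 840) (nat_lit 3042076935) (nat_lit 158) (nat_lit 5) (nat_lit 167) (nat_lit 5) (nat_lit 168) (nat_lit 5) (nat_lit 309) (nat_lit 290) (nat_lit 265)))) (XT.nd (nat_lit 188) (nat_lit 924) (nat_lit 0) (XT.nd (nat_lit 94) (nat_lit 924) (nat_lit 0) (XT.lf (nat_lit 0) (nat_lit 5946453666) (nat_lit 756) (nat_lit 245689469) (nat_lit 840) (nat_lit 1145776858) (nat_lit 158) (nat_lit 5) (nat_lit 167) (nat_lit 5)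 (nat_lit 168) (nat_lit 5) (nat_lit 310) (nat_lit 290) (nat_lit 264)) (XT.lf (nat_lit 0) (nat_lit 766519134) (nat_lit 924) (nat_lit 5263251226) (nat_lit 84) (nat_lit 1389228355) (nat_lit 147) (nat_lit 5) (nat_lit 158) (nat_lit 5) (nat_lit 148) (nat_lit 5) (nat_lit 311) (nat_lit 290) (nat_lit 263))) (XT.nd (nat_lit 94) (nat_lit 924) (nat_lit 0) (XT.lf (nat_lit 0) (nat_lit 2670903817) (nat_lit 924) (nat_lit 1725190365) (nat_lit 84) (nat_lit 3107750820) (nat_lit 147) (nat_lit 5) (nat_lit 158) (nat_lit 5) (nat_lit 148) (nat_lit 5) (nat_lit 312) (nat_lit 290) (nat_lit 262)) (XT.nd (nat_lit 94) (nat_lit 0) (nat_lit 0) (XT.lf (nat_lit 0) (nat_lit 1911506180) (nat_lit 924) (nat_lit 2683024626) (nat_lit 1008) (nat_lit 2998288384) (nat_lit 136) (nat_lit 5) (nat_lit 147) (nat_lit 5) (nat_lit 148) (nat_lit 5) (nat_lit 313) (nat_lit 290) (nat_lit 261)) (XT.lf (nat_lit 0) (nat_lit 5648458377) (nat_lit 924) (nat_lit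 889863346) (nat_lit 1008) (nat_lit 1147709503) (nat_lit 136) (nat_lit 5) (nat_lit 147) (nat_lit 5) (nat_lit 148) (nat_lit 5) (nat_lit 314) (nat_lit 290) (nat_lit 260))))))) (XT.nd (nat_lit 752) (nat_lit 2016) (nat_lit 0) (XT.nd (nat_lit 376) (nat_lit 1176) (nat_lit 0) (XT.nd (nat_lit 188) (nat_lit 1092) (nat_lit 0) (XT.nd (nat_lit 94) (nat_lit 0) (nat_lit 0) (XT.lf (nat_lit 0) (nat_lit 715027901) (nat_lit 1092) (nat_lit 6096424361) (nat_lit 84) (nat_lit 971614399) (nat_lit 123) (nat_lit 5) (nat_lit 136) (nat_lit 5) (nat_lit 124) (nat_lit 5) (nat_lit 315) (nat_lit 290) (nat_lit 259)) (XT.lf (nat_lit 0) (nat_lit 2586982648) (nat_lit 1092) (nat_lit 2384509818) (nat_lit 84) (nat_lit 2912252841) (nat_lit 123) (nat_lit 5) (nat_lit 136) (nat_lit 5) (nat_lit 124) (nat_lit 5) (nat_lit 316) (nat_lit 290) (nat_lit 258))) (XT.nd (nat_lit 94) (nat_lit 0) (nat_lit 0) (XT.lf (nat_lit 0) (nat_lit 1422140193) (nat_lit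 1092) (nat_lit 3055323865) (nat_lit 1176) (nat_lit 3511532234) (nat_lit 110) (nat_lit 5) (nat_lit 123) (nat_lit 5) (nat_lit 124) (nat_lit 5) (nat_lit 317) (nat_lit 290) (nat_lit 257)) (XT.lf (nat_lit 0) (nat_lit 5348855821) (nat_lit 1092) (nat_lit 1050103182) (nat_lit 1176) (nat_lit 1699626256) (nat_lit 110) (nat_lit 5) (nat_lit 123) (nat_lit 5) (nat_lit 124) (nat_lit 5) (nat_lit 318) (nat_lit 290) (nat_lit 256)))) (XT.nd (nat_lit 188) (nat_lit 588) (nat_lit 0) (XT.nd (nat_lit 94) (nat_lit 0) (nat_lit 0) (XT.lf (nat_lit 0) (nat_lit 135180349) (nat_lit 588) (nat_lit 7064120746) (nat_lit 84) (nat_lit 1013351541) (nat_lit 103) (nat_lit 5) (nat_lit 110) (nat_lit 5) (nat_lit 104) (nat_lit 5) (nat_lit 319) (nat_lit 290) (nat_lit 255)) (XT.lf (nat_lit 0) (nat_lit 1980768897) (nat_lit 588) (nat_lit 3181458402) (nat_lit 84) (nat_lit 3168025094) (nat_lit 103) (nat_lit 5) (nat_lit 110) (nat_lit 5) (nat_lit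 104) (nat_lit 5) (nat_lit 320) (nat_lit 290) (nat_lit 254))) (XT.nd (nat_lit 94) (nat_lit 0) (nat_lit 0) (XT.lf (nat_lit 0) (nat_lit 789354421) (nat_lit 588) (nat_lit 3053039003) (nat_lit 672) (nat_lit 4610575405) (nat_lit 96) (nat_lit 5) (nat_lit 103) (nat_lit 5) (nat_lit 104) (nat_lit 5) (nat_lit 321) (nat_lit 290) (nat_lit 253)) (XT.lf (nat_lit 0) (nat_lit 4903079031) (nat_lit 588) (nat_lit 843850500) (nat_lit 672) (nat_lit 2833207444) (nat_lit 96) (nat_lit 5) (nat_lit 103) (nat_lit 5) (nat_lit 104) (nat_lit 5) (nat_lit 322) (nat_lit 290) (nat_lit 252))))) (XT.nd (nat_lit 376) (nat_lit 924) (nat_lit 0) (XT.nd (nat_lit 188) (nat_lit 504) (nat_lit 0) (XT.nd (nat_lit 94) (nat_lit 84) (nat_lit 0) (XT.lf (nat_lit 0) (nat_lit 378660508) (nat_lit 504) (nat_lit 7303266227) (nat_lit 588) (nat_lit 1030389630) (nat_lit 90) (nat_lit 5) (nat_lit 96) (nat_lit 5) (nat_lit 97) (nat_lit 5) (nat_lit 323) (nat_lit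 290) (nat_lit 251)) (XT.lf (nat_lit 0) (nat_lit 812760977) (nat_lit 588) (nat_lit 4275051872) (nat_lit 84) (nat_lit 3760662804) (nat_lit 89) (nat_lit 5) (nat_lit 96) (nat_lit 5) (nat_lit 90) (nat_lit 5) (nat_lit 324) (nat_lit 290) (nat_lit 250))) (XT.nd (nat_lit 94) (nat_lit 504) (nat_lit 0) (XT.lf (nat_lit 0) (nat_lit 2646766935) (nat_lit 588) (nat_lit 148178499) (nat_lit 84) (nat_lit 6195142034) (nat_lit 89) (nat_lit 5) (nat_lit 96) (nat_lit 5) (nat_lit 90) (nat_lit 5) (nat_lit 325) (nat_lit 290) (nat_lit 249)) (XT.lf (nat_lit 0) (nat_lit 4144535688) (nat_lit 504) (nat_lit 390676402) (nat_lit 588) (nat_lit 4601114045) (nat_lit 83) (nat_lit 5) (nat_lit 89) (nat_lit 5) (nat_lit 90) (nat_lit 5) (nat_lit 326) (nat_lit 290) (nat_lit 248)))) (XT.nd (nat_lit 188) (nat_lit 504) (nat_lit 0) (XT.nd (nat_lit 94) (nat_lit 420) (nat_lit 0) (XT.lf (nat_lit 0) (nat_lit 6461783352) (nat_lit 588) (nat_lit 780904416)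 (nat_lit 84) (nat_lit 2045200468) (nat_lit 83) (nat_lit 5) (nat_lit 90) (nat_lit 5) (nat_lit 84) (nat_lit 5) (nat_lit 327) (nat_lit 290) (nat_lit 247)) (XT.lf (nat_lit 0) (nat_lit 3583535261) (nat_lit 420) (nat_lit 4862678902) (nat_lit 504) (nat_lit 998144814) (nat_lit 78) (nat_lit 5) (nat_lit 83) (nat_lit 5) (nat_lit 84) (nat_lit 5) (nat_lit 328) (nat_lit 290) (nat_lit 246))) (XT.nd (nat_lit 94) (nat_lit 420) (nat_lit 0) (XT.lf (nat_lit 0) (nat_lit 835687977) (nat_lit 504) (nat_lit 1560198439) (nat_lit 84) (nat_lit 7210685610) (nat_lit 77) (nat_lit 5) (nat_lit 83) (nat_lit 5) (nat_lit 78) (nat_lit 5) (nat_lit 329) (nat_lit 290) (nat_lit 245)) (XT.nd (nat_lit 94) (nat_lit 0) (nat_lit 0) (XT.lf (nat_lit 0) (nat_lit 2696062082) (nat_lit 504) (nat_lit 6898643976) (nat_lit 84) (nat_lit 179227022) (nat_lit 72) (nat_lit 5) (nat_lit 78) (nat_lit 5) (nat_lit 73) (nat_lit 5) (nat_lit 330) (nat_lit 290) (nat_lit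 244)) (XT.lf (nat_lit 0) (nat_lit 4615852117) (nat_lit 504) (nat_lit 2534495319) (nat_lit 84) (nat_lit 2796215717) (nat_lit 72) (nat_lit 5) (nat_lit 78) (nat_lit 5) (nat_lit 73) (nat_lit 5) (nat_lit 331) (nat_lit 290) (nat_lit 243))))))))
noncomputable def xc28 : XT := (XT.nd (nat_lit 50760) (nat_lit 0) (nat_lit 8316) (XT.nd (nat_lit 752) (nat_lit 420) (nat_lit 0) (XT.nd (nat_lit 376) (nat_lit 672) (nat_lit 0) (XT.nd (nat_lit 188) (nat_lit 504) (nat_lit 0) (XT.nd (nat_lit 94) (nat_lit 0) (nat_lit 0) (XT.lf (nat_lit 0) (nat_lit 1960603639) (nat_lit 420) (nat_lit 4615968671) (nat_lit 504) (nat_lit 3548679379) (nat_lit 67) (nat_lit 5) (nat_lit 72) (nat_lit 5) (nat_lit 73) (nat_lit 5) (nat_lit 332) (nat_lit 290) (nat_lit 242)) (XT.lf (nat_lit 0) (nat_lit 6605384376) (nat_lit 420) (nat_lit 1981825691) (nat_lit 504) (nat_lit 1722733221) (nat_lit 67) (nat_lit 5) (nat_lit 72) (nat_lit 5) (nat_lit 73) (nat_lit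 5) (nat_lit 333) (nat_lit 290) (nat_lit 241))) (XT.nd (nat_lit 94) (nat_lit 0) (nat_lit 0) (XT.lf (nat_lit 0) (nat_lit 135829732) (nat_lit 504) (nat_lit 9641919859) (nat_lit 84) (nat_lit 723324778) (nat_lit 61) (nat_lit 5) (nat_lit 67) (nat_lit 5) (nat_lit 62) (nat_lit 5) (nat_lit 334) (nat_lit 290) (nat_lit 240)) (XT.lf (nat_lit 0) (nat_lit 2039483937) (nat_lit 504) (nat_lit 5136035998) (nat_lit 84) (nat_lit 3521459085) (nat_lit 61) (nat_lit 5) (nat_lit 67) (nat_lit 5) (nat_lit 62) (nat_lit 5) (nat_lit 335) (nat_lit 290) (nat_lit 239)))) (XT.nd (nat_lit 188) (nat_lit 336) (nat_lit 0) (XT.nd (nat_lit 94) (nat_lit 336) (nat_lit 0) (XT.lf (nat_lit 0) (nat_lit 3967164154) (nat_lit 504) (nat_lit 532853386) (nat_lit 84) (nat_lit 6400136104) (nat_lit 61) (nat_lit 5) (nat_lit 67) (nat_lit 5) (nat_lit 62) (nat_lit 5) (nat_lit 336) (nat_lit 290) (nat_lit 238)) (XT.lf (nat_lit 0) (nat_lit 4257701829) (nat_lit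 336) (nat_lit 1705202281) (nat_lit 420) (nat_lit 5146574164) (nat_lit 57) (nat_lit 5) (nat_lit 61) (nat_lit 5) (nat_lit 62) (nat_lit 5) (nat_lit 337) (nat_lit 290) (nat_lit 237))) (XT.nd (nat_lit 94) (nat_lit 336) (nat_lit 0) (XT.lf (nat_lit 0) (nat_lit 8004407608) (nat_lit 420) (nat_lit 2170542991) (nat_lit 84) (nat_lit 1150946276) (nat_lit 57) (nat_lit 5) (nat_lit 62) (nat_lit 5) (nat_lit 58) (nat_lit 5) (nat_lit 338) (nat_lit 290) (nat_lit 236)) (XT.lf (nat_lit 0) (nat_lit 2651283069) (nat_lit 336) (nat_lit 7469268179) (nat_lit 420) (nat_lit 1428223737) (nat_lit 53) (nat_lit 5) (nat_lit 57) (nat_lit 5) (nat_lit 58) (nat_lit 5) (nat_lit 339) (nat_lit 290) (nat_lit 235))))) (XT.nd (nat_lit 49632) (nat_lit 0) (nat_lit 12768) (XT.nd (nat_lit 188) (nat_lit 0) (nat_lit 0) (XT.nd (nat_lit 94) (nat_lit 336) (nat_lit 0) (XT.lf (nat_lit 0) (nat_lit 503834317) (nat_lit 420) (nat_lit 4155539123) (nat_lit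 84) (nat_lit 7119413984) (nat_lit 52) (nat_lit 5) (nat_lit 57) (nat_lit 5) (nat_lit 53) (nat_lit 5) (nat_lit 340) (nat_lit 290) (nat_lit 234)) (XT.lf (nat_lit 0) (nat_lit 693148531) (nat_lit 336) (nat_lit 1748581022) (nat_lit 420) (nat_lit 9574597448) (nat_lit 48) (nat_lit 5) (nat_lit 52) (nat_lit 5) (nat_lit 53) (nat_lit 5) (nat_lit 341) (nat_lit 290) (nat_lit 233))) (XT.nd (nat_lit 94) (nat_lit 0) (nat_lit 0) (XT.lf (nat_lit 0) (nat_lit 4465144307) (nat_lit 420) (nat_lit 6532693965) (nat_lit 84) (nat_lit 1262693957) (nat_lit 48) (nat_lit 5) (nat_lit 53) (nat_lit 5) (nat_lit 49) (nat_lit 5) (nat_lit 342) (nat_lit 290) (nat_lit 232)) (XT.lf (nat_lit 0) (nat_lit 6539296249) (nat_lit 420) (nat_lit 1650561147) (nat_lit 84) (nat_lit 4322910053) (nat_lit 48) (nat_lit 5) (nat_lit 53) (nat_lit 5) (nat_lit 49) (nat_lit 5) (nat_lit 343) (nat_lit 290) (nat_lit 231)))) (XT.nd (nat_lit 188) (nat_lit 336) (nat_lit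 0) (XT.nd (nat_lit 94) (nat_lit 0) (nat_lit 0) (XT.lf (nat_lit 0) (nat_lit 468844573) (nat_lit 0) (nat_lit 468844573) (nat_lit 252) (nat_lit 2305548720) (nat_lit 204) (nat_lit 5) (nat_lit 204) (nat_lit 3) (nat_lit 207) (nat_lit 3) (nat_lit 291) (nat_lit 291) (nat_lit 282)) (XT.lf (nat_lit 0) (nat_lit 3616595905) (nat_lit 0) (nat_lit 552348503) (nat_lit 252) (nat_lit 2333814421) (nat_lit 204) (nat_lit 5) (nat_lit 204) (nat_lit 3) (nat_lit 207) (nat_lit 3) (nat_lit 292) (nat_lit 291) (nat_lit 281))) (XT.nd (nat_lit 94) (nat_lit 336) (nat_lit 0) (XT.lf (nat_lit 0) (nat_lit 6332924190) (nat_lit 0) (nat_lit 109437715) (nat_lit 252) (nat_lit 80579987) (nat_lit 204) (nat_lit 5) (nat_lit 204) (nat_lit 3) (nat_lit 207) (nat_lit 3) (nat_lit 293) (nat_lit 291) (nat_lit 280)) (XT.lf (nat_lit 0) (nat_lit 2137257806) (nat_lit 336) (nat_lit 3977293451) (nat_lit 420) (nat_lit 430904696) (nat_lit 200) (nat_lit 5)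 (nat_lit 204) (nat_lit 5) (nat_lit 205) (nat_lit 5) (nat_lit 294) (nat_lit 291) (nat_lit 279)))))) (XT.nd (nat_lit 752) (nat_lit 3528) (nat_lit 0) (XT.nd (nat_lit 376) (nat_lit 504) (nat_lit 0) (XT.nd (nat_lit 188) (nat_lit 420) (nat_lit 0) (XT.nd (nat_lit 94) (nat_lit 0) (nat_lit 0) (XT.lf (nat_lit 0) (nat_lit 4338007354) (nat_lit 336) (nat_lit 1204506417) (nat_lit 420) (nat_lit 1029254710) (nat_lit 200) (nat_lit 5) (nat_lit 204) (nat_lit 5) (nat_lit 205) (nat_lit 5) (nat_lit 295) (nat_lit 291) (nat_lit 278)) (XT.lf (nat_lit 84) (nat_lit 1638945006) (nat_lit 0) (nat_lit 4899627952) (nat_lit 420) (nat_lit 62945712) (nat_lit 201) (nat_lit 5) (nat_lit 200) (nat_lit 5) (nat_lit 205) (nat_lit 5) (nat_lit 296) (nat_lit 291) (nat_lit 277))) (XT.nd (nat_lit 94) (nat_lit 0) (nat_lit 0) (XT.lf (nat_lit 0) (nat_lit 2060125777) (nat_lit 420) (nat_lit 2107450637) (nat_lit 504) (nat_lit 2466625090) (nat_lit 195)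 (nat_lit 5) (nat_lit 200) (nat_lit 5) (nat_lit 201) (nat_lit 5) (nat_lit 297) (nat_lit 291) (nat_lit 276)) (XT.lf (nat_lit 84) (nat_lit 803203095) (nat_lit 0) (nat_lit 3371077256) (nat_lit 504) (nat_lit 2496330831) (nat_lit 196) (nat_lit 5) (nat_lit 195) (nat_lit 5) (nat_lit 201) (nat_lit 5) (nat_lit 298) (nat_lit 291) (nat_lit 275)))) (XT.nd (nat_lit 188) (nat_lit 0) (nat_lit 0) (XT.nd (nat_lit 94) (nat_lit 504) (nat_lit 0) (XT.lf (nat_lit 84) (nat_lit 3800738058) (nat_lit 0) (nat_lit 2495811527) (nat_lit 504) (nat_lit 413823842) (nat_lit 196) (nat_lit 5) (nat_lit 195) (nat_lit 5) (nat_lit 201) (nat_lit 5) (nat_lit 299) (nat_lit 291) (nat_lit 274)) (XT.lf (nat_lit 84) (nat_lit 75548348) (nat_lit 0) (nat_lit 1545277887) (nat_lit 588) (nat_lit 5132828792) (nat_lit 190) (nat_lit 5) (nat_lit 189) (nat_lit 5) (nat_lit 196) (nat_lit 5) (nat_lit 300) (nat_lit 291) (nat_lit 273))) (XT.nd (nat_lit 94) (nat_lit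 0) (nat_lit 84) (XT.lf (nat_lit 84) (nat_lit 3162520025) (nat_lit 0) (nat_lit 501394281) (nat_lit 588) (nat_lit 3136064973) (nat_lit 190) (nat_lit 5) (nat_lit 189) (nat_lit 5) (nat_lit 196) (nat_lit 5) (nat_lit 301) (nat_lit 291) (nat_lit 272)) (XT.lf (nat_lit 0) (nat_lit 5702240898) (nat_lit 504) (nat_lit 557884363) (nat_lit 84) (nat_lit 590118043) (nat_lit 190) (nat_lit 5) (nat_lit 196) (nat_lit 5) (nat_lit 191) (nat_lit 5) (nat_lit 302) (nat_lit 291) (nat_lit 271))))) (XT.nd (nat_lit 376) (nat_lit 2436) (nat_lit 0) (XT.nd (nat_lit 188) (nat_lit 588) (nat_lit 0) (XT.nd (nat_lit 94) (nat_lit 0) (nat_lit 0) (XT.lf (nat_lit 0) (nat_lit 842240048) (nat_lit 588) (nat_lit 4295618327) (nat_lit 84) (nat_lit 1765579071) (nat_lit 183) (nat_lit 5) (nat_lit 190) (nat_lit 5) (nat_lit 184) (nat_lit 5) (nat_lit 303) (nat_lit 291) (nat_lit 270)) (XT.lf (nat_lit 0) (nat_lit 2805237907) (nat_lit 588) (nat_lit 1135882942)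 (nat_lit 84) (nat_lit 3019172073) (nat_lit 183) (nat_lit 5) (nat_lit 190) (nat_lit 5) (nat_lit 184) (nat_lit 5) (nat_lit 304) (nat_lit 291) (nat_lit 269))) (XT.nd (nat_lit 94) (nat_lit 0) (nat_lit 0) (XT.lf (nat_lit 0) (nat_lit 2116465508) (nat_lit 588) (nat_lit 2664774825) (nat_lit 672) (nat_lit 2239501450) (nat_lit 176) (nat_lit 5) (nat_lit 183) (nat_lit 5) (nat_lit 184) (nat_lit 5) (nat_lit 305) (nat_lit 291) (nat_lit 268)) (XT.lf (nat_lit 0) (nat_lit 5446221850) (nat_lit 588) (nat_lit 1316888143) (nat_lit 672) (nat_lit 322008735) (nat_lit 176) (nat_lit 5) (nat_lit 183) (nat_lit 5) (nat_lit 184) (nat_lit 5) (nat_lit 306) (nat_lit 291) (nat_lit 267)))) (XT.nd (nat_lit 188) (nat_lit 1680) (nat_lit 0) (XT.nd (nat_lit 94) (nat_lit 0) (nat_lit 0) (XT.lf (nat_lit 0) (nat_lit 1573459767) (nat_lit 756) (nat_lit 5456322756) (nat_lit 84) (nat_lit 123008879) (nat_lit 167) (nat_lit 5) (nat_lit 176) (nat_lit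 5) (nat_lit 168) (nat_lit 5) (nat_lit 307) (nat_lit 291) (nat_lit 266)) (XT.lf (nat_lit 0) (nat_lit 3487233429) (nat_lit 756) (nat_lit 2118742372) (nat_lit 84) (nat_lit 1617838374) (nat_lit 167) (nat_lit 5) (nat_lit 176) (nat_lit 5) (nat_lit 168) (nat_lit 5) (nat_lit 308) (nat_lit 291) (nat_lit 265))) (XT.nd (nat_lit 94) (nat_lit 924) (nat_lit 0) (XT.lf (nat_lit 0) (nat_lit 1300247933) (nat_lit 756) (nat_lit 4110408779) (nat_lit 840) (nat_lit 1888220303) (nat_lit 158) (nat_lit 5) (nat_lit 167) (nat_lit 5) (nat_lit 168) (nat_lit 5) (nat_lit 309) (nat_lit 291) (nat_lit 264)) (XT.nd (nat_lit 94) (nat_lit 924) (nat_lit 0) (XT.lf (nat_lit 0) (nat_lit 4822379504) (nat_lit 756) (nat_lit 2532273662) (nat_lit 840) (nat_lit 23113670) (nat_lit 158) (nat_lit 5) (nat_lit 167) (nat_lit 5) (nat_lit 168) (nat_lit 5) (nat_lit 310) (nat_lit 291) (nat_lit 263)) (XT.lf (nat_lit 0) (nat_lit 946990482) (nat_lit 840) (nat_lit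 863727180) (nat_lit 924) (nat_lit 5649647907) (nat_lit 147) (nat_lit 5) (nat_lit 157) (nat_lit 5) (nat_lit 158) (nat_lit 5) (nat_lit 311) (nat_lit 291) (nat_lit 262))))))))
noncomputable def xc29 : XT := (XT.nd (nat_lit 1598) (nat_lit 2520) (nat_lit 0) (XT.nd (nat_lit 752) (nat_lit 2604) (nat_lit 0) (XT.nd (nat_lit 376) (nat_lit 1176) (nat_lit 0) (XT.nd (nat_lit 188) (nat_lit 1092) (nat_lit 0) (XT.nd (nat_lit 94) (nat_lit 924) (nat_lit 0) (XT.lf (nat_lit 0) (nat_lit 3677604476) (nat_lit 924) (nat_lit 2991146139) (nat_lit 84) (nat_lit 877753692) (nat_lit 147) (nat_lit 5) (nat_lit 158) (nat_lit 5) (nat_lit 148) (nat_lit 5) (nat_lit 312) (nat_lit 291) (nat_lit 261)) (XT.lf (nat_lit 0) (nat_lit 595366598) (nat_lit 924) (nat_lit 4964748863) (nat_lit 1008) (nat_lit 2076763739) (nat_lit 136) (nat_lit 5) (nat_lit 147) (nat_lit 5) (nat_lit 148) (nat_lit 5) (nat_lit 313) (nat_lit 291) (nat_lit 260))) (XT.nd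 (nat_lit 94) (nat_lit 1092) (nat_lit 0) (XT.lf (nat_lit 0) (nat_lit 4308891868) (nat_lit 924) (nat_lit 3167566072) (nat_lit 1008) (nat_lit 254606513) (nat_lit 136) (nat_lit 5) (nat_lit 147) (nat_lit 5) (nat_lit 148) (nat_lit 5) (nat_lit 314) (nat_lit 291) (nat_lit 259)) (XT.lf (nat_lit 0) (nat_lit 250798127) (nat_lit 1008) (nat_lit 1288145985) (nat_lit 1092) (nat_lit 6290583170) (nat_lit 123) (nat_lit 5) (nat_lit 135) (nat_lit 5) (nat_lit 136) (nat_lit 5) (nat_lit 315) (nat_lit 291) (nat_lit 258)))) (XT.nd (nat_lit 188) (nat_lit 1176) (nat_lit 0) (XT.nd (nat_lit 94) (nat_lit 0) (nat_lit 0) (XT.lf (nat_lit 0) (nat_lit 3371723572) (nat_lit 1092) (nat_lit 3878155610) (nat_lit 84) (nat_lit 681652790) (nat_lit 123) (nat_lit 5) (nat_lit 136) (nat_lit 5) (nat_lit 124) (nat_lit 5) (nat_lit 316) (nat_lit 291) (nat_lit 257)) (XT.lf (nat_lit 0) (nat_lit 5222494150) (nat_lit 1092) (nat_lit 123552895) (nat_lit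 84) (nat_lit 2692075205) (nat_lit 123) (nat_lit 5) (nat_lit 136) (nat_lit 5) (nat_lit 124) (nat_lit 5) (nat_lit 317) (nat_lit 291) (nat_lit 256))) (XT.nd (nat_lit 94) (nat_lit 84) (nat_lit 0) (XT.lf (nat_lit 0) (nat_lit 3777464737) (nat_lit 1092) (nat_lit 3340210572) (nat_lit 1176) (nat_lit 1030956634) (nat_lit 110) (nat_lit 5) (nat_lit 123) (nat_lit 5) (nat_lit 124) (nat_lit 5) (nat_lit 318) (nat_lit 291) (nat_lit 255)) (XT.lf (nat_lit 0) (nat_lit 743962236) (nat_lit 1176) (nat_lit 515382309) (nat_lit 84) (nat_lit 7004686805) (nat_lit 109) (nat_lit 5) (nat_lit 123) (nat_lit 5) (nat_lit 110) (nat_lit 5) (nat_lit 319) (nat_lit 291) (nat_lit 254))))) (XT.nd (nat_lit 376) (nat_lit 1512) (nat_lit 0) (XT.nd (nat_lit 188) (nat_lit 588) (nat_lit 0) (XT.nd (nat_lit 94) (nat_lit 0) (nat_lit 0) (XT.lf (nat_lit 0) (nat_lit 2547656915) (nat_lit 588) (nat_lit 4918654853) (nat_lit 84) (nat_lit 916713860) (nat_lit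 103) (nat_lit 5) (nat_lit 110) (nat_lit 5) (nat_lit 104) (nat_lit 5) (nat_lit 320) (nat_lit 291) (nat_lit 253)) (XT.lf (nat_lit 0) (nat_lit 4378046616) (nat_lit 588) (nat_lit 986724120) (nat_lit 84) (nat_lit 3142032535) (nat_lit 103) (nat_lit 5) (nat_lit 110) (nat_lit 5) (nat_lit 104) (nat_lit 5) (nat_lit 321) (nat_lit 291) (nat_lit 252))) (XT.nd (nat_lit 94) (nat_lit 0) (nat_lit 0) (XT.lf (nat_lit 0) (nat_lit 3083965695) (nat_lit 588) (nat_lit 3165701080) (nat_lit 672) (nat_lit 2385415174) (nat_lit 96) (nat_lit 5) (nat_lit 103) (nat_lit 5) (nat_lit 104) (nat_lit 5) (nat_lit 322) (nat_lit 291) (nat_lit 251)) (XT.lf (nat_lit 0) (nat_lit 7256957398) (nat_lit 588) (nat_lit 887485975) (nat_lit 672) (nat_lit 624152230) (nat_lit 96) (nat_lit 5) (nat_lit 103) (nat_lit 5) (nat_lit 104) (nat_lit 5) (nat_lit 323) (nat_lit 291) (nat_lit 250)))) (XT.nd (nat_lit 188) (nat_lit 924) (nat_lit 0) (XT.nd (nat_lit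 94) (nat_lit 0) (nat_lit 0) (XT.lf (nat_lit 0) (nat_lit 1164452275) (nat_lit 588) (nat_lit 6271401739) (nat_lit 84) (nat_lit 1470295396) (nat_lit 89) (nat_lit 5) (nat_lit 96) (nat_lit 5) (nat_lit 90) (nat_lit 5) (nat_lit 324) (nat_lit 291) (nat_lit 249)) (XT.lf (nat_lit 0) (nat_lit 2977025789) (nat_lit 588) (nat_lit 2166978103) (nat_lit 84) (nat_lit 3904501512) (nat_lit 89) (nat_lit 5) (nat_lit 96) (nat_lit 5) (nat_lit 90) (nat_lit 5) (nat_lit 325) (nat_lit 291) (nat_lit 248))) (XT.nd (nat_lit 94) (nat_lit 420) (nat_lit 0) (XT.lf (nat_lit 0) (nat_lit 2062002970) (nat_lit 504) (nat_lit 2762020977) (nat_lit 588) (nat_lit 4372082357) (nat_lit 83) (nat_lit 5) (nat_lit 89) (nat_lit 5) (nat_lit 90) (nat_lit 5) (nat_lit 326) (nat_lit 291) (nat_lit 247)) (XT.nd (nat_lit 94) (nat_lit 420) (nat_lit 0) (XT.lf (nat_lit 0) (nat_lit 6424244530) (nat_lit 504) (nat_lit 285268076) (nat_lit 588) (nat_lit 2639504410)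 (nat_lit 83) (nat_lit 5) (nat_lit 89) (nat_lit 5) (nat_lit 90) (nat_lit 5) (nat_lit 327) (nat_lit 291) (nat_lit 246)) (XT.lf (nat_lit 0) (nat_lit 1376448884) (nat_lit 420) (nat_lit 7272994641) (nat_lit 504) (nat_lit 857496519) (nat_lit 78) (nat_lit 5) (nat_lit 83) (nat_lit 5) (nat_lit 84) (nat_lit 5) (nat_lit 328) (nat_lit 291) (nat_lit 245))))))) (XT.nd (nat_lit 752) (nat_lit 1092) (nat_lit 0) (XT.nd (nat_lit 376) (nat_lit 924) (nat_lit 0) (XT.nd (nat_lit 188) (nat_lit 0) (nat_lit 0) (XT.nd (nat_lit 94) (nat_lit 420) (nat_lit 0) (XT.lf (nat_lit 0) (nat_lit 953842264) (nat_lit 504) (nat_lit 3853095716) (nat_lit 84) (nat_lit 4862849809) (nat_lit 77) (nat_lit 5) (nat_lit 83) (nat_lit 5) (nat_lit 78) (nat_lit 5) (nat_lit 329) (nat_lit 291) (nat_lit 244)) (XT.lf (nat_lit 0) (nat_lit 515502391) (nat_lit 420) (nat_lit 2254402416) (nat_lit 504) (nat_lit 7068684116) (nat_lit 72) (nat_lit 5) (nat_lit 77)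 (nat_lit 5) (nat_lit 78) (nat_lit 5) (nat_lit 330) (nat_lit 291) (nat_lit 243))) (XT.nd (nat_lit 94) (nat_lit 0) (nat_lit 0) (XT.lf (nat_lit 0) (nat_lit 4648604765) (nat_lit 504) (nat_lit 4958159400) (nat_lit 84) (nat_lit 405793049) (nat_lit 72) (nat_lit 5) (nat_lit 78) (nat_lit 5) (nat_lit 73) (nat_lit 5) (nat_lit 331) (nat_lit 291) (nat_lit 242)) (XT.lf (nat_lit 0) (nat_lit 6571712456) (nat_lit 504) (nat_lit 523498680) (nat_lit 84) (nat_lit 3097263088) (nat_lit 72) (nat_lit 5) (nat_lit 78) (nat_lit 5) (nat_lit 73) (nat_lit 5) (nat_lit 332) (nat_lit 291) (nat_lit 241)))) (XT.nd (nat_lit 188) (nat_lit 420) (nat_lit 0) (XT.nd (nat_lit 94) (nat_lit 84) (nat_lit 0) (XT.lf (nat_lit 0) (nat_lit 4089793367) (nat_lit 420) (nat_lit 4469434355) (nat_lit 504) (nat_lit 1818715507) (nat_lit 67) (nat_lit 5) (nat_lit 72) (nat_lit 5) (nat_lit 73) (nat_lit 5) (nat_lit 333) (nat_lit 291) (nat_lit 240)) (XT.lf (nat_lit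 0) (nat_lit 8339392) (nat_lit 504) (nat_lit 1753915048) (nat_lit 84) (nat_lit 8807943102) (nat_lit 66) (nat_lit 5) (nat_lit 72) (nat_lit 5) (nat_lit 67) (nat_lit 5) (nat_lit 334) (nat_lit 291) (nat_lit 239))) (XT.nd (nat_lit 94) (nat_lit 0) (nat_lit 0) (XT.lf (nat_lit 0) (nat_lit 1859346768) (nat_lit 504) (nat_lit 7858048256) (nat_lit 84) (nat_lit 1050394527) (nat_lit 61) (nat_lit 5) (nat_lit 67) (nat_lit 5) (nat_lit 62) (nat_lit 5) (nat_lit 335) (nat_lit 291) (nat_lit 238)) (XT.lf (nat_lit 0) (nat_lit 3770318331) (nat_lit 504) (nat_lit 3275106539) (nat_lit 84) (nat_lit 3926110913) (nat_lit 61) (nat_lit 5) (nat_lit 67) (nat_lit 5) (nat_lit 62) (nat_lit 5) (nat_lit 336) (nat_lit 291) (nat_lit 237))))) (XT.nd (nat_lit 376) (nat_lit 336) (nat_lit 0) (XT.nd (nat_lit 188) (nat_lit 420) (nat_lit 0) (XT.nd (nat_lit 94) (nat_lit 0) (nat_lit 0) (XT.lf (nat_lit 0) (nat_lit 1439026351) (nat_lit 336) (nat_lit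 4282864068) (nat_lit 420) (nat_lit 5460391227) (nat_lit 57) (nat_lit 5) (nat_lit 61) (nat_lit 5) (nat_lit 62) (nat_lit 5) (nat_lit 337) (nat_lit 291) (nat_lit 236)) (XT.lf (nat_lit 0) (nat_lit 6329258389) (nat_lit 336) (nat_lit 1406571475) (nat_lit 420) (nat_lit 3663775332) (nat_lit 57) (nat_lit 5) (nat_lit 61) (nat_lit 5) (nat_lit 62) (nat_lit 5) (nat_lit 338) (nat_lit 291) (nat_lit 235))) (XT.nd (nat_lit 94) (nat_lit 420) (nat_lit 0) (XT.lf (nat_lit 0) (nat_lit 9796251878) (nat_lit 420) (nat_lit 307327532) (nat_lit 84) (nat_lit 1520680213) (nat_lit 57) (nat_lit 5) (nat_lit 62) (nat_lit 5) (nat_lit 58) (nat_lit 5) (nat_lit 339) (nat_lit 291) (nat_lit 234)) (XT.lf (nat_lit 0) (nat_lit 93567849) (nat_lit 420) (nat_lit 7211561827) (nat_lit 84) (nat_lit 4549886029) (nat_lit 52) (nat_lit 5) (nat_lit 57) (nat_lit 5) (nat_lit 53) (nat_lit 5) (nat_lit 340) (nat_lit 291) (nat_lit 233)))) (XT.nd (nat_lit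 188) (nat_lit 0) (nat_lit 0) (XT.nd (nat_lit 94) (nat_lit 336) (nat_lit 0) (XT.lf (nat_lit 0) (nat_lit 2009655854) (nat_lit 420) (nat_lit 2395762417) (nat_lit 84) (nat_lit 7687857699) (nat_lit 52) (nat_lit 5) (nat_lit 57) (nat_lit 5) (nat_lit 53) (nat_lit 5) (nat_lit 341) (nat_lit 291) (nat_lit 232)) (XT.lf (nat_lit 0) (nat_lit 2584114191) (nat_lit 336) (nat_lit 1397249848) (nat_lit 420) (nat_lit 8357763382) (nat_lit 48) (nat_lit 5) (nat_lit 52) (nat_lit 5) (nat_lit 53) (nat_lit 5) (nat_lit 342) (nat_lit 291) (nat_lit 231))) (XT.nd (nat_lit 49444) (nat_lit 0) (nat_lit 12684) (XT.lf (nat_lit 0) (nat_lit 6027389046) (nat_lit 420) (nat_lit 4877631538) (nat_lit 84) (nat_lit 1687256010) (nat_lit 48) (nat_lit 5) (nat_lit 53) (nat_lit 5) (nat_lit 49) (nat_lit 5) (nat_lit 343) (nat_lit 291) (nat_lit 230)) (XT.nd (nat_lit 94) (nat_lit 420) (nat_lit 0) (XT.lf (nat_lit 0) (nat_lit 1604395581) (nat_lit 0) (nat_lit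 1604395581) (nat_lit 252) (nat_lit 51565641) (nat_lit 204) (nat_lit 5) (nat_lit 204) (nat_lit 3) (nat_lit 207) (nat_lit 3) (nat_lit 292) (nat_lit 292) (nat_lit 280)) (XT.lf (nat_lit 0) (nat_lit 2062495295) (nat_lit 420) (nat_lit 660068210) (nat_lit 420) (nat_lit 3819307282) (nat_lit 199) (nat_lit 3) (nat_lit 204) (nat_lit 3) (nat_lit 204) (nat_lit 5) (nat_lit 293) (nat_lit 292) (nat_lit 279))))))))
noncomputable def xc30 : XT := (XT.nd (nat_lit 1504) (nat_lit 5796) (nat_lit 0) (XT.nd (nat_lit 752) (nat_lit 2604) (nat_lit 0) (XT.nd (nat_lit 376) (nat_lit 420) (nat_lit 0) (XT.nd (nat_lit 188) (nat_lit 420) (nat_lit 0) (XT.nd (nat_lit 94) (nat_lit 0) (nat_lit 0) (XT.lf (nat_lit 84) (nat_lit 2069399527) (nat_lit 0) (nat_lit 2156998704) (nat_lit 420) (nat_lit 2339837988) (nat_lit 200) (nat_lit 5) (nat_lit 199) (nat_lit 3) (nat_lit 204) (nat_lit 5) (nat_lit 294) (nat_lit 292) (nat_lit 278)) (XT.lf (nat_lit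 84) (nat_lit 4852698829) (nat_lit 0) (nat_lit 1526507687) (nat_lit 420) (nat_lit 215075260) (nat_lit 200) (nat_lit 5) (nat_lit 199) (nat_lit 3) (nat_lit 204) (nat_lit 5) (nat_lit 295) (nat_lit 292) (nat_lit 277))) (XT.nd (nat_lit 94) (nat_lit 0) (nat_lit 0) (XT.lf (nat_lit 84) (nat_lit 1055120158) (nat_lit 0) (nat_lit 807270842) (nat_lit 504) (nat_lit 4762944062) (nat_lit 195) (nat_lit 5) (nat_lit 194) (nat_lit 5) (nat_lit 200) (nat_lit 5) (nat_lit 296) (nat_lit 292) (nat_lit 276)) (XT.lf (nat_lit 84) (nat_lit 3928034587) (nat_lit 0) (nat_lit 8157308) (nat_lit 504) (nat_lit 2723519961) (nat_lit 195) (nat_lit 5) (nat_lit 194) (nat_lit 5) (nat_lit 200) (nat_lit 5) (nat_lit 297) (nat_lit 292) (nat_lit 275)))) (XT.nd (nat_lit 188) (nat_lit 0) (nat_lit 0) (XT.nd (nat_lit 94) (nat_lit 504) (nat_lit 0) (XT.lf (nat_lit 84) (nat_lit 142577246) (nat_lit 0) (nat_lit 5862264712) (nat_lit 504) (nat_lit 692908689)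 (nat_lit 196) (nat_lit 5) (nat_lit 195) (nat_lit 5) (nat_lit 201) (nat_lit 5) (nat_lit 298) (nat_lit 292) (nat_lit 274)) (XT.lf (nat_lit 0) (nat_lit 1323076551) (nat_lit 504) (nat_lit 3635118768) (nat_lit 588) (nat_lit 1780290028) (nat_lit 189) (nat_lit 5) (nat_lit 195) (nat_lit 5) (nat_lit 196) (nat_lit 5) (nat_lit 299) (nat_lit 292) (nat_lit 273))) (XT.nd (nat_lit 94) (nat_lit 0) (nat_lit 0) (XT.lf (nat_lit 0) (nat_lit 3311273464) (nat_lit 504) (nat_lit 678775843) (nat_lit 588) (nat_lit 2792971314) (nat_lit 189) (nat_lit 5) (nat_lit 195) (nat_lit 5) (nat_lit 196) (nat_lit 5) (nat_lit 300) (nat_lit 292) (nat_lit 272)) (XT.lf (nat_lit 84) (nat_lit 2371260346) (nat_lit 0) (nat_lit 2939758674) (nat_lit 588) (nat_lit 1519862828) (nat_lit 190) (nat_lit 5) (nat_lit 189) (nat_lit 5) (nat_lit 196) (nat_lit 5) (nat_lit 301) (nat_lit 292) (nat_lit 271))))) (XT.nd (nat_lit 376) (nat_lit 1512) (nat_lit 0) (XT.nd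 (nat_lit 188) (nat_lit 504) (nat_lit 0) (XT.nd (nat_lit 94) (nat_lit 0) (nat_lit 0) (XT.lf (nat_lit 0) (nat_lit 416811552) (nat_lit 588) (nat_lit 1401863724) (nat_lit 672) (nat_lit 5063809125) (nat_lit 182) (nat_lit 5) (nat_lit 189) (nat_lit 5) (nat_lit 190) (nat_lit 5) (nat_lit 302) (nat_lit 292) (nat_lit 270)) (XT.lf (nat_lit 84) (nat_lit 1724159649) (nat_lit 0) (nat_lit 604136995) (nat_lit 672) (nat_lit 4608929755) (nat_lit 183) (nat_lit 5) (nat_lit 182) (nat_lit 5) (nat_lit 190) (nat_lit 5) (nat_lit 303) (nat_lit 292) (nat_lit 269))) (XT.nd (nat_lit 94) (nat_lit 588) (nat_lit 0) (XT.lf (nat_lit 0) (nat_lit 4251404803) (nat_lit 588) (nat_lit 2070962473) (nat_lit 84) (nat_lit 673122309) (nat_lit 183) (nat_lit 5) (nat_lit 190) (nat_lit 5) (nat_lit 184) (nat_lit 5) (nat_lit 304) (nat_lit 292) (nat_lit 268)) (XT.lf (nat_lit 0) (nat_lit 1138773777) (nat_lit 588) (nat_lit 5046057242) (nat_lit 672) (nat_lit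 872593274) (nat_lit 176) (nat_lit 5) (nat_lit 183) (nat_lit 5) (nat_lit 184) (nat_lit 5) (nat_lit 305) (nat_lit 292) (nat_lit 267)))) (XT.nd (nat_lit 188) (nat_lit 756) (nat_lit 0) (XT.nd (nat_lit 94) (nat_lit 672) (nat_lit 0) (XT.lf (nat_lit 0) (nat_lit 991247005) (nat_lit 672) (nat_lit 2687145037) (nat_lit 84) (nat_lit 3444254619) (nat_lit 175) (nat_lit 5) (nat_lit 183) (nat_lit 5) (nat_lit 176) (nat_lit 5) (nat_lit 306) (nat_lit 292) (nat_lit 266)) (XT.lf (nat_lit 0) (nat_lit 601419882) (nat_lit 672) (nat_lit 2235066931) (nat_lit 756) (nat_lit 4355240924) (nat_lit 167) (nat_lit 5) (nat_lit 175) (nat_lit 5) (nat_lit 176) (nat_lit 5) (nat_lit 307) (nat_lit 292) (nat_lit 265))) (XT.nd (nat_lit 94) (nat_lit 756) (nat_lit 0) (XT.lf (nat_lit 0) (nat_lit 4003055301) (nat_lit 672) (nat_lit 701178380) (nat_lit 756) (nat_lit 2560090564) (nat_lit 167) (nat_lit 5) (nat_lit 175) (nat_lit 5) (nat_lit 176) (nat_lit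 5) (nat_lit 308) (nat_lit 292) (nat_lit 264)) (XT.lf (nat_lit 0) (nat_lit 117810161) (nat_lit 756) (nat_lit 6461277073) (nat_lit 840) (nat_lit 761948000) (nat_lit 158) (nat_lit 5) (nat_lit 167) (nat_lit 5) (nat_lit 168) (nat_lit 5) (nat_lit 309) (nat_lit 292) (nat_lit 263)))))) (XT.nd (nat_lit 752) (nat_lit 2856) (nat_lit 0) (XT.nd (nat_lit 376) (nat_lit 2016) (nat_lit 0) (XT.nd (nat_lit 188) (nat_lit 840) (nat_lit 0) (XT.nd (nat_lit 94) (nat_lit 0) (nat_lit 0) (XT.lf (nat_lit 0) (nat_lit 1051286504) (nat_lit 840) (nat_lit 3814480616) (nat_lit 84) (nat_lit 2554871758) (nat_lit 157) (nat_lit 5) (nat_lit 167) (nat_lit 5) (nat_lit 158) (nat_lit 5) (nat_lit 310) (nat_lit 292) (nat_lit 262)) (XT.lf (nat_lit 0) (nat_lit 2846503336) (nat_lit 840) (nat_lit 354257450) (nat_lit 84) (nat_lit 4303782348) (nat_lit 157) (nat_lit 5) (nat_lit 167) (nat_lit 5) (nat_lit 158) (nat_lit 5) (nat_lit 311) (nat_lit 292)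 (nat_lit 261))) (XT.nd (nat_lit 94) (nat_lit 0) (nat_lit 0) (XT.lf (nat_lit 0) (nat_lit 3233373607) (nat_lit 840) (nat_lit 1439429238) (nat_lit 924) (nat_lit 2919263341) (nat_lit 147) (nat_lit 5) (nat_lit 157) (nat_lit 5) (nat_lit 158) (nat_lit 5) (nat_lit 312) (nat_lit 292) (nat_lit 260)) (XT.lf (nat_lit 0) (nat_lit 6507912364) (nat_lit 924) (nat_lit 792850762) (nat_lit 84) (nat_lit 383269713) (nat_lit 147) (nat_lit 5) (nat_lit 158) (nat_lit 5) (nat_lit 148) (nat_lit 5) (nat_lit 313) (nat_lit 292) (nat_lit 259)))) (XT.nd (nat_lit 188) (nat_lit 1008) (nat_lit 0) (XT.nd (nat_lit 94) (nat_lit 0) (nat_lit 0) (XT.lf (nat_lit 0) (nat_lit 597899889) (nat_lit 1008) (nat_lit 4903814740) (nat_lit 84) (nat_lit 2277508602) (nat_lit 135) (nat_lit 5) (nat_lit 147) (nat_lit 5) (nat_lit 136) (nat_lit 5) (nat_lit 314) (nat_lit 292) (nat_lit 258)) (XT.lf (nat_lit 0) (nat_lit 2357633337) (nat_lit 1008) (nat_lit 1261112414)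 (nat_lit 84) (nat_lit 4259862934) (nat_lit 135) (nat_lit 5) (nat_lit 147) (nat_lit 5) (nat_lit 136) (nat_lit 5) (nat_lit 315) (nat_lit 292) (nat_lit 257))) (XT.nd (nat_lit 94) (nat_lit 0) (nat_lit 0) (XT.lf (nat_lit 0) (nat_lit 2500189896) (nat_lit 1008) (nat_lit 1644919627) (nat_lit 1092) (nat_lit 3837016507) (nat_lit 123) (nat_lit 5) (nat_lit 135) (nat_lit 5) (nat_lit 136) (nat_lit 5) (nat_lit 316) (nat_lit 292) (nat_lit 256)) (XT.lf (nat_lit 0) (nat_lit 5954729098) (nat_lit 1092) (nat_lit 1733706535) (nat_lit 84) (nat_lit 401661356) (nat_lit 123) (nat_lit 5) (nat_lit 136) (nat_lit 5) (nat_lit 124) (nat_lit 5) (nat_lit 317) (nat_lit 292) (nat_lit 255))))) (XT.nd (nat_lit 376) (nat_lit 1176) (nat_lit 0) (XT.nd (nat_lit 188) (nat_lit 504) (nat_lit 0) (XT.nd (nat_lit 94) (nat_lit 84) (nat_lit 0) (XT.lf (nat_lit 0) (nat_lit 2111741838) (nat_lit 1092) (nat_lit 5697557726) (nat_lit 1176) (nat_lit 392667893)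 (nat_lit 110) (nat_lit 5) (nat_lit 123) (nat_lit 5) (nat_lit 124) (nat_lit 5) (nat_lit 318) (nat_lit 292) (nat_lit 254)) (XT.lf (nat_lit 0) (nat_lit 1345474537) (nat_lit 1176) (nat_lit 2263146041) (nat_lit 84) (nat_lit 4709387214) (nat_lit 109) (nat_lit 5) (nat_lit 123) (nat_lit 5) (nat_lit 110) (nat_lit 5) (nat_lit 319) (nat_lit 292) (nat_lit 253))) (XT.nd (nat_lit 94) (nat_lit 0) (nat_lit 0) (XT.lf (nat_lit 0) (nat_lit 1668091144) (nat_lit 504) (nat_lit 1430685698) (nat_lit 588) (nat_lit 5339880320) (nat_lit 103) (nat_lit 5) (nat_lit 109) (nat_lit 5) (nat_lit 110) (nat_lit 5) (nat_lit 320) (nat_lit 292) (nat_lit 252)) (XT.lf (nat_lit 0) (nat_lit 4892273351) (nat_lit 588) (nat_lit 2846730154) (nat_lit 84) (nat_lit 824665125) (nat_lit 103) (nat_lit 5) (nat_lit 110) (nat_lit 5) (nat_lit 104) (nat_lit 5) (nat_lit 321) (nat_lit 292) (nat_lit 251)))) (XT.nd (nat_lit 188) (nat_lit 588) (nat_lit 0) (XT.nd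 (nat_lit 94) (nat_lit 0) (nat_lit 0) (XT.lf (nat_lit 0) (nat_lit 1163652315) (nat_lit 588) (nat_lit 5559173395) (nat_lit 672) (nat_lit 1970482124) (nat_lit 96) (nat_lit 5) (nat_lit 103) (nat_lit 5) (nat_lit 104) (nat_lit 5) (nat_lit 322) (nat_lit 292) (nat_lit 250)) (XT.lf (nat_lit 0) (nat_lit 5315245563) (nat_lit 588) (nat_lit 3280788453) (nat_lit 672) (nat_lit 231540886) (nat_lit 96) (nat_lit 5) (nat_lit 103) (nat_lit 5) (nat_lit 104) (nat_lit 5) (nat_lit 323) (nat_lit 292) (nat_lit 249))) (XT.nd (nat_lit 94) (nat_lit 0) (nat_lit 0) (XT.lf (nat_lit 0) (nat_lit 582581847) (nat_lit 504) (nat_lit 909961797) (nat_lit 588) (nat_lit 7474299004) (nat_lit 89) (nat_lit 5) (nat_lit 95) (nat_lit 5) (nat_lit 96) (nat_lit 5) (nat_lit 324) (nat_lit 292) (nat_lit 248)) (XT.nd (nat_lit 94) (nat_lit 0) (nat_lit 0) (XT.lf (nat_lit 0) (nat_lit 3275302209) (nat_lit 588) (nat_lit 4292584953) (nat_lit 84) (nat_lit 1542313120)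 (nat_lit 89) (nat_lit 5) (nat_lit 96) (nat_lit 5) (nat_lit 90) (nat_lit 5) (nat_lit 325) (nat_lit 292) (nat_lit 247)) (XT.lf (nat_lit 0) (nat_lit 5081682079) (nat_lit 588) (nat_lit 126268644) (nat_lit 84) (nat_lit 4051184674) (nat_lit 89) (nat_lit 5) (nat_lit 96) (nat_lit 5) (nat_lit 90) (nat_lit 5) (nat_lit 326) (nat_lit 292) (nat_lit 246))))))))
noncomputable def xc31 : XT := (XT.nd (nat_lit 51042) (nat_lit 0) (nat_lit 9912) (XT.nd (nat_lit 752) (nat_lit 1596) (nat_lit 0) (XT.nd (nat_lit 376) (nat_lit 840) (nat_lit 0) (XT.nd (nat_lit 188) (nat_lit 504) (nat_lit 0) (XT.nd (nat_lit 94) (nat_lit 0) (nat_lit 0) (XT.lf (nat_lit 0) (nat_lit 4212470392) (nat_lit 504) (nat_lit 2733657891) (nat_lit 588) (nat_lit 2466642933) (nat_lit 83) (nat_lit 5) (nat_lit 89) (nat_lit 5) (nat_lit 90) (nat_lit 5) (nat_lit 327) (nat_lit 292) (nat_lit 245)) (XT.lf (nat_lit 0) (nat_lit 8647203413) (nat_lit 504) (nat_lit 183552961)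 (nat_lit 588) (nat_lit 741722861) (nat_lit 83) (nat_lit 5) (nat_lit 89) (nat_lit 5) (nat_lit 90) (nat_lit 5) (nat_lit 328) (nat_lit 292) (nat_lit 244))) (XT.nd (nat_lit 94) (nat_lit 0) (nat_lit 0) (XT.lf (nat_lit 0) (nat_lit 1036929964) (nat_lit 504) (nat_lit 6260085456) (nat_lit 84) (nat_lit 2439283335) (nat_lit 77) (nat_lit 5) (nat_lit 83) (nat_lit 5) (nat_lit 78) (nat_lit 5) (nat_lit 329) (nat_lit 292) (nat_lit 243)) (XT.lf (nat_lit 0) (nat_lit 2829382913) (nat_lit 504) (nat_lit 1922414856) (nat_lit 84) (nat_lit 5154098440) (nat_lit 77) (nat_lit 5) (nat_lit 83) (nat_lit 5) (nat_lit 78) (nat_lit 5) (nat_lit 330) (nat_lit 292) (nat_lit 242)))) (XT.nd (nat_lit 188) (nat_lit 420) (nat_lit 0) (XT.nd (nat_lit 94) (nat_lit 0) (nat_lit 0) (XT.lf (nat_lit 0) (nat_lit 2560854099) (nat_lit 420) (nat_lit 2105516430) (nat_lit 504) (nat_lit 5414849541) (nat_lit 72) (nat_lit 5) (nat_lit 77) (nat_lit 5) (nat_lit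 78) (nat_lit 5) (nat_lit 331) (nat_lit 292) (nat_lit 241)) (XT.lf (nat_lit 0) (nat_lit 6550974289) (nat_lit 504) (nat_lit 3085125199) (nat_lit 84) (nat_lit 626291822) (nat_lit 72) (nat_lit 5) (nat_lit 78) (nat_lit 5) (nat_lit 73) (nat_lit 5) (nat_lit 332) (nat_lit 292) (nat_lit 240))) (XT.nd (nat_lit 94) (nat_lit 0) (nat_lit 0) (XT.lf (nat_lit 0) (nat_lit 1455393212) (nat_lit 420) (nat_lit 7039875526) (nat_lit 504) (nat_lit 1953990209) (nat_lit 67) (nat_lit 5) (nat_lit 72) (nat_lit 5) (nat_lit 73) (nat_lit 5) (nat_lit 333) (nat_lit 292) (nat_lit 239)) (XT.lf (nat_lit 0) (nat_lit 6162472450) (nat_lit 420) (nat_lit 4335512717) (nat_lit 504) (nat_lit 144107502) (nat_lit 67) (nat_lit 5) (nat_lit 72) (nat_lit 5) (nat_lit 73) (nat_lit 5) (nat_lit 334) (nat_lit 292) (nat_lit 238))))) (XT.nd (nat_lit 376) (nat_lit 756) (nat_lit 0) (XT.nd (nat_lit 188) (nat_lit 336) (nat_lit 0) (XT.nd (nat_lit 94) (nat_lit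 0) (nat_lit 0) (XT.lf (nat_lit 0) (nat_lit 120712769) (nat_lit 420) (nat_lit 1534196724) (nat_lit 504) (nat_lit 9186574851) (nat_lit 61) (nat_lit 5) (nat_lit 66) (nat_lit 5) (nat_lit 67) (nat_lit 5) (nat_lit 335) (nat_lit 292) (nat_lit 237)) (XT.lf (nat_lit 0) (nat_lit 3534455375) (nat_lit 504) (nat_lit 6142242732) (nat_lit 84) (nat_lit 1369558693) (nat_lit 61) (nat_lit 5) (nat_lit 67) (nat_lit 5) (nat_lit 62) (nat_lit 5) (nat_lit 336) (nat_lit 292) (nat_lit 236))) (XT.nd (nat_lit 94) (nat_lit 336) (nat_lit 0) (XT.lf (nat_lit 0) (nat_lit 5456033173) (nat_lit 504) (nat_lit 1476145008) (nat_lit 84) (nat_lit 4325804770) (nat_lit 61) (nat_lit 5) (nat_lit 67) (nat_lit 5) (nat_lit 62) (nat_lit 5) (nat_lit 337) (nat_lit 292) (nat_lit 235)) (XT.lf (nat_lit 0) (nat_lit 3364885250) (nat_lit 336) (nat_lit 4074709404) (nat_lit 420) (nat_lit 4036702510) (nat_lit 57) (nat_lit 5) (nat_lit 61) (nat_lit 5) (nat_lit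 62) (nat_lit 5) (nat_lit 338) (nat_lit 292) (nat_lit 234)))) (XT.nd (nat_lit 188) (nat_lit 420) (nat_lit 0) (XT.nd (nat_lit 94) (nat_lit 336) (nat_lit 0) (XT.lf (nat_lit 0) (nat_lit 8350149281) (nat_lit 336) (nat_lit 1119502591) (nat_lit 420) (nat_lit 2232288502) (nat_lit 57) (nat_lit 5) (nat_lit 61) (nat_lit 5) (nat_lit 62) (nat_lit 5) (nat_lit 339) (nat_lit 292) (nat_lit 233)) (XT.lf (nat_lit 0) (nat_lit 1530129346) (nat_lit 336) (nat_lit 10037256600) (nat_lit 420) (nat_lit 367139001) (nat_lit 53) (nat_lit 5) (nat_lit 57) (nat_lit 5) (nat_lit 58) (nat_lit 5) (nat_lit 340) (nat_lit 292) (nat_lit 232))) (XT.nd (nat_lit 94) (nat_lit 336) (nat_lit 0) (XT.lf (nat_lit 0) (nat_lit 1541863868) (nat_lit 420) (nat_lit 5603308005) (nat_lit 84) (nat_lit 5028218511) (nat_lit 52) (nat_lit 5) (nat_lit 57) (nat_lit 5) (nat_lit 53) (nat_lit 5) (nat_lit 341) (nat_lit 292) (nat_lit 231)) (XT.nd (nat_lit 94) (nat_lit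 336) (nat_lit 0) (XT.lf (nat_lit 0) (nat_lit 3473890603) (nat_lit 420) (nat_lit 693297552) (nat_lit 84) (nat_lit 8253325822) (nat_lit 52) (nat_lit 5) (nat_lit 57) (nat_lit 5) (nat_lit 53) (nat_lit 5) (nat_lit 342) (nat_lit 292) (nat_lit 230)) (XT.lf (nat_lit 0) (nat_lit 4422967400) (nat_lit 336) (nat_lit 1059048069) (nat_lit 420) (nat_lit 7192863340) (nat_lit 48) (nat_lit 5) (nat_lit 52) (nat_lit 5) (nat_lit 53) (nat_lit 5) (nat_lit 343) (nat_lit 292) (nat_lit 229))))))) (XT.nd (nat_lit 752) (nat_lit 1848) (nat_lit 0) (XT.nd (nat_lit 376) (nat_lit 504) (nat_lit 0) (XT.nd (nat_lit 188) (nat_lit 420) (nat_lit 0) (XT.nd (nat_lit 94) (nat_lit 0) (nat_lit 0) (XT.lf (nat_lit 0) (nat_lit 2091543795) (nat_lit 420) (nat_lit 595373702) (nat_lit 420) (nat_lit 595373702) (nat_lit 199) (nat_lit 3) (nat_lit 204) (nat_lit 3) (nat_lit 204) (nat_lit 5) (nat_lit 293) (nat_lit 293) (nat_lit 278)) (XT.lf (nat_lit 84)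 (nat_lit 1505762672) (nat_lit 0) (nat_lit 4793971697) (nat_lit 420) (nat_lit 290925252) (nat_lit 200) (nat_lit 5) (nat_lit 199) (nat_lit 3) (nat_lit 204) (nat_lit 5) (nat_lit 294) (nat_lit 293) (nat_lit 277))) (XT.nd (nat_lit 94) (nat_lit 0) (nat_lit 0) (XT.lf (nat_lit 0) (nat_lit 1755615487) (nat_lit 420) (nat_lit 2370298946) (nat_lit 504) (nat_lit 2493738525) (nat_lit 194) (nat_lit 5) (nat_lit 199) (nat_lit 3) (nat_lit 200) (nat_lit 5) (nat_lit 295) (nat_lit 293) (nat_lit 276)) (XT.lf (nat_lit 84) (nat_lit 389062603) (nat_lit 0) (nat_lit 3393045264) (nat_lit 504) (nat_lit 2870203340) (nat_lit 195) (nat_lit 5) (nat_lit 194) (nat_lit 5) (nat_lit 200) (nat_lit 5) (nat_lit 296) (nat_lit 293) (nat_lit 275)))) (XT.nd (nat_lit 188) (nat_lit 0) (nat_lit 0) (XT.nd (nat_lit 94) (nat_lit 504) (nat_lit 0) (XT.lf (nat_lit 84) (nat_lit 3240409214) (nat_lit 0) (nat_lit 2576456087) (nat_lit 504) (nat_lit 871251520)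 (nat_lit 195) (nat_lit 5) (nat_lit 194) (nat_lit 5) (nat_lit 200) (nat_lit 5) (nat_lit 297) (nat_lit 293) (nat_lit 274)) (XT.lf (nat_lit 0) (nat_lit 1087577339) (nat_lit 504) (nat_lit 601197401) (nat_lit 588) (nat_lit 5038731014) (nat_lit 188) (nat_lit 5) (nat_lit 194) (nat_lit 5) (nat_lit 195) (nat_lit 5) (nat_lit 298) (nat_lit 293) (nat_lit 273))) (XT.nd (nat_lit 94) (nat_lit 0) (nat_lit 84) (XT.lf (nat_lit 84) (nat_lit 2328382936) (nat_lit 0) (nat_lit 707974495) (nat_lit 588) (nat_lit 3733519872) (nat_lit 189) (nat_lit 5) (nat_lit 188) (nat_lit 5) (nat_lit 195) (nat_lit 5) (nat_lit 299) (nat_lit 293) (nat_lit 272)) (XT.lf (nat_lit 0) (nat_lit 4981288580) (nat_lit 504) (nat_lit 1500643746) (nat_lit 588) (nat_lit 334014847) (nat_lit 189) (nat_lit 5) (nat_lit 195) (nat_lit 5) (nat_lit 196) (nat_lit 5) (nat_lit 300) (nat_lit 293) (nat_lit 271))))) (XT.nd (nat_lit 376) (nat_lit 1344) (nat_lit 0) (XT.nd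 (nat_lit 188) (nat_lit 0) (nat_lit 0) (XT.nd (nat_lit 94) (nat_lit 0) (nat_lit 0) (XT.lf (nat_lit 0) (nat_lit 70538638) (nat_lit 588) (nat_lit 5355859014) (nat_lit 672) (nat_lit 1438930687) (nat_lit 182) (nat_lit 5) (nat_lit 189) (nat_lit 5) (nat_lit 190) (nat_lit 5) (nat_lit 301) (nat_lit 293) (nat_lit 270)) (XT.lf (nat_lit 0) (nat_lit 1941751709) (nat_lit 588) (nat_lit 2335688679) (nat_lit 672) (nat_lit 2640279569) (nat_lit 182) (nat_lit 5) (nat_lit 189) (nat_lit 5) (nat_lit 190) (nat_lit 5) (nat_lit 302) (nat_lit 293) (nat_lit 269))) (XT.nd (nat_lit 94) (nat_lit 0) (nat_lit 0) (XT.lf (nat_lit 84) (nat_lit 748851018) (nat_lit 0) (nat_lit 3060918688) (nat_lit 672) (nat_lit 3164210857) (nat_lit 183) (nat_lit 5) (nat_lit 182) (nat_lit 5) (nat_lit 190) (nat_lit 5) (nat_lit 303) (nat_lit 293) (nat_lit 268)) (XT.lf (nat_lit 84) (nat_lit 3934632160) (nat_lit 0) (nat_lit 1758440689) (nat_lit 672) (nat_lit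 1340570842) (nat_lit 183) (nat_lit 5) (nat_lit 182) (nat_lit 5) (nat_lit 190) (nat_lit 5) (nat_lit 304) (nat_lit 293) (nat_lit 267)))) (XT.nd (nat_lit 188) (nat_lit 672) (nat_lit 0) (XT.nd (nat_lit 94) (nat_lit 0) (nat_lit 84) (XT.lf (nat_lit 84) (nat_lit 75944803) (nat_lit 0) (nat_lit 387565176) (nat_lit 756) (nat_lit 6633819431) (nat_lit 175) (nat_lit 5) (nat_lit 174) (nat_lit 5) (nat_lit 183) (nat_lit 5) (nat_lit 305) (nat_lit 293) (nat_lit 266)) (XT.lf (nat_lit 0) (nat_lit 2274304930) (nat_lit 672) (nat_lit 3817492204) (nat_lit 84) (nat_lit 1071737159) (nat_lit 175) (nat_lit 5) (nat_lit 183) (nat_lit 5) (nat_lit 176) (nat_lit 5) (nat_lit 306) (nat_lit 293) (nat_lit 265))) (XT.nd (nat_lit 94) (nat_lit 756) (nat_lit 0) (XT.lf (nat_lit 0) (nat_lit 4082909495) (nat_lit 672) (nat_lit 563160498) (nat_lit 84) (nat_lit 2587827972) (nat_lit 175) (nat_lit 5) (nat_lit 183) (nat_lit 5) (nat_lit 176) (nat_lit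 5) (nat_lit 307) (nat_lit 293) (nat_lit 264)) (XT.nd (nat_lit 94) (nat_lit 84) (nat_lit 0) (XT.lf (nat_lit 0) (nat_lit 2805003145) (nat_lit 672) (nat_lit 3109987622) (nat_lit 756) (nat_lit 1392751826) (nat_lit 167) (nat_lit 5) (nat_lit 175) (nat_lit 5) (nat_lit 176) (nat_lit 5) (nat_lit 308) (nat_lit 293) (nat_lit 263)) (XT.lf (nat_lit 0) (nat_lit 357560661) (nat_lit 756) (nat_lit 1143031958) (nat_lit 84) (nat_lit 5885099877) (nat_lit 166) (nat_lit 5) (nat_lit 175) (nat_lit 5) (nat_lit 167) (nat_lit 5) (nat_lit 309) (nat_lit 293) (nat_lit 262))))))))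
noncomputable def xc32 : XT := (XT.nd (nat_lit 1504) (nat_lit 3108) (nat_lit 0) (XT.nd (nat_lit 752) (nat_lit 2856) (nat_lit 0) (XT.nd (nat_lit 376) (nat_lit 2016) (nat_lit 0) (XT.nd (nat_lit 188) (nat_lit 840) (nat_lit 0) (XT.nd (nat_lit 94) (nat_lit 0) (nat_lit 0) (XT.lf (nat_lit 0) (nat_lit 2100112469) (nat_lit 840) (nat_lit 5159241624) (nat_lit 84) (nat_lit 207553012) (nat_lit 157) (nat_lit 5) (nat_lit 167) (nat_lit 5) (nat_lit 158) (nat_lit 5) (nat_lit 310) (nat_lit 293) (nat_lit 261)) (XT.lf (nat_lit 0) (nat_lit 3867439339) (nat_lit 840) (nat_lit 1721177148) (nat_lit 84) (nat_lit 1963185569) (nat_lit 157) (nat_lit 5) (nat_lit 167) (nat_lit 5) (nat_lit 158) (nat_lit 5) (nat_lit 311) (nat_lit 293) (nat_lit 260))) (XT.nd (nat_lit 94) (nat_lit 0) (nat_lit 0) (XT.lf (nat_lit 0) (nat_lit 1816412883) (nat_lit 840) (nat_lit 3836218171) (nat_lit 924) (nat_lit 1988090712) (nat_lit 147) (nat_lit 5) (nat_lit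 157) (nat_lit 5) (nat_lit 158) (nat_lit 5) (nat_lit 312) (nat_lit 293) (nat_lit 259)) (XT.lf (nat_lit 0) (nat_lit 5456947069) (nat_lit 840) (nat_lit 2000464202) (nat_lit 924) (nat_lit 276335994) (nat_lit 147) (nat_lit 5) (nat_lit 157) (nat_lit 5) (nat_lit 158) (nat_lit 5) (nat_lit 313) (nat_lit 293) (nat_lit 258)))) (XT.nd (nat_lit 188) (nat_lit 1008) (nat_lit 0) (XT.nd (nat_lit 94) (nat_lit 0) (nat_lit 0) (XT.lf (nat_lit 0) (nat_lit 1349888910) (nat_lit 924) (nat_lit 69130955) (nat_lit 1008) (nat_lit 6411629311) (nat_lit 135) (nat_lit 5) (nat_lit 146) (nat_lit 5) (nat_lit 147) (nat_lit 5) (nat_lit 314) (nat_lit 293) (nat_lit 257)) (XT.lf (nat_lit 0) (nat_lit 3152655811) (nat_lit 1008) (nat_lit 2859379558) (nat_lit 84) (nat_lit 1918916537) (nat_lit 135) (nat_lit 5) (nat_lit 147) (nat_lit 5) (nat_lit 136) (nat_lit 5) (nat_lit 315) (nat_lit 293) (nat_lit 256))) (XT.nd (nat_lit 94) (nat_lit 0) (nat_lit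 0) (XT.lf (nat_lit 0) (nat_lit 847274501) (nat_lit 1008) (nat_lit 4051812734) (nat_lit 1092) (nat_lit 3136759404) (nat_lit 123) (nat_lit 5) (nat_lit 135) (nat_lit 5) (nat_lit 136) (nat_lit 5) (nat_lit 316) (nat_lit 293) (nat_lit 255)) (XT.lf (nat_lit 0) (nat_lit 4686537996) (nat_lit 1008) (nat_lit 1993986210) (nat_lit 1092) (nat_lit 1464268895) (nat_lit 123) (nat_lit 5) (nat_lit 135) (nat_lit 5) (nat_lit 136) (nat_lit 5) (nat_lit 317) (nat_lit 293) (nat_lit 254))))) (XT.nd (nat_lit 376) (nat_lit 1176) (nat_lit 0) (XT.nd (nat_lit 188) (nat_lit 504) (nat_lit 0) (XT.nd (nat_lit 94) (nat_lit 0) (nat_lit 0) (XT.lf (nat_lit 0) (nat_lit 211486327) (nat_lit 1176) (nat_lit 7910648128) (nat_lit 84) (nat_lit 136440685) (nat_lit 109) (nat_lit 5) (nat_lit 123) (nat_lit 5) (nat_lit 110) (nat_lit 5) (nat_lit 318) (nat_lit 293) (nat_lit 253)) (XT.lf (nat_lit 0) (nat_lit 1918520143) (nat_lit 1176) (nat_lit 4109164558)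 (nat_lit 84) (nat_lit 2347622062) (nat_lit 109) (nat_lit 5) (nat_lit 123) (nat_lit 5) (nat_lit 110) (nat_lit 5) (nat_lit 319) (nat_lit 293) (nat_lit 252))) (XT.nd (nat_lit 94) (nat_lit 504) (nat_lit 0) (XT.lf (nat_lit 0) (nat_lit 3632775039) (nat_lit 1176) (nat_lit 232583892) (nat_lit 84) (nat_lit 4631897809) (nat_lit 109) (nat_lit 5) (nat_lit 123) (nat_lit 5) (nat_lit 110) (nat_lit 5) (nat_lit 320) (nat_lit 293) (nat_lit 251)) (XT.lf (nat_lit 0) (nat_lit 3799253746) (nat_lit 504) (nat_lit 1594284200) (nat_lit 588) (nat_lit 3229832430) (nat_lit 103) (nat_lit 5) (nat_lit 109) (nat_lit 5) (nat_lit 110) (nat_lit 5) (nat_lit 321) (nat_lit 293) (nat_lit 250)))) (XT.nd (nat_lit 188) (nat_lit 504) (nat_lit 0) (XT.nd (nat_lit 94) (nat_lit 672) (nat_lit 0) (XT.lf (nat_lit 0) (nat_lit 7175375216) (nat_lit 588) (nat_lit 842330988) (nat_lit 84) (nat_lit 736898339) (nat_lit 103) (nat_lit 5) (nat_lit 110) (nat_lit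 5) (nat_lit 104) (nat_lit 5) (nat_lit 322) (nat_lit 293) (nat_lit 249)) (XT.lf (nat_lit 0) (nat_lit 126664677) (nat_lit 672) (nat_lit 5619961942) (nat_lit 84) (nat_lit 3143200361) (nat_lit 95) (nat_lit 5) (nat_lit 103) (nat_lit 5) (nat_lit 96) (nat_lit 5) (nat_lit 323) (nat_lit 293) (nat_lit 248))) (XT.nd (nat_lit 94) (nat_lit 504) (nat_lit 0) (XT.lf (nat_lit 0) (nat_lit 1819728433) (nat_lit 672) (nat_lit 1559716852) (nat_lit 84) (nat_lit 5650472639) (nat_lit 95) (nat_lit 5) (nat_lit 103) (nat_lit 5) (nat_lit 96) (nat_lit 5) (nat_lit 324) (nat_lit 293) (nat_lit 247)) (XT.lf (nat_lit 0) (nat_lit 2638921655) (nat_lit 504) (nat_lit 911999713) (nat_lit 588) (nat_lit 5624027774) (nat_lit 89) (nat_lit 5) (nat_lit 95) (nat_lit 5) (nat_lit 96) (nat_lit 5) (nat_lit 325) (nat_lit 293) (nat_lit 246)))))) (XT.nd (nat_lit 752) (nat_lit 1680) (nat_lit 0) (XT.nd (nat_lit 376) (nat_lit 420) (nat_lit 0) (XT.nd (nat_lit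 188) (nat_lit 504) (nat_lit 0) (XT.nd (nat_lit 94) (nat_lit 504) (nat_lit 0) (XT.lf (nat_lit 0) (nat_lit 5328697382) (nat_lit 588) (nat_lit 2381148995) (nat_lit 84) (nat_lit 1614997391) (nat_lit 89) (nat_lit 5) (nat_lit 96) (nat_lit 5) (nat_lit 90) (nat_lit 5) (nat_lit 326) (nat_lit 293) (nat_lit 245)) (XT.lf (nat_lit 0) (nat_lit 1890947501) (nat_lit 504) (nat_lit 5260197614) (nat_lit 588) (nat_lit 2328707029) (nat_lit 83) (nat_lit 5) (nat_lit 89) (nat_lit 5) (nat_lit 90) (nat_lit 5) (nat_lit 327) (nat_lit 293) (nat_lit 244))) (XT.nd (nat_lit 94) (nat_lit 504) (nat_lit 0) (XT.lf (nat_lit 0) (nat_lit 6306012652) (nat_lit 504) (nat_lit 2711167119) (nat_lit 588) (nat_lit 623025271) (nat_lit 83) (nat_lit 5) (nat_lit 89) (nat_lit 5) (nat_lit 90) (nat_lit 5) (nat_lit 328) (nat_lit 293) (nat_lit 243)) (XT.lf (nat_lit 0) (nat_lit 1022105690) (nat_lit 420) (nat_lit 63553287) (nat_lit 504) (nat_lit 8720488394)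 (nat_lit 77) (nat_lit 5) (nat_lit 82) (nat_lit 5) (nat_lit 83) (nat_lit 5) (nat_lit 329) (nat_lit 293) (nat_lit 242)))) (XT.nd (nat_lit 188) (nat_lit 420) (nat_lit 0) (XT.nd (nat_lit 94) (nat_lit 0) (nat_lit 0) (XT.lf (nat_lit 0) (nat_lit 2859541852) (nat_lit 504) (nat_lit 4465664276) (nat_lit 84) (nat_lit 2651176857) (nat_lit 77) (nat_lit 5) (nat_lit 83) (nat_lit 5) (nat_lit 78) (nat_lit 5) (nat_lit 330) (nat_lit 293) (nat_lit 241)) (XT.lf (nat_lit 0) (nat_lit 4653725267) (nat_lit 504) (nat_lit 53315412) (nat_lit 84) (nat_lit 5446053706) (nat_lit 77) (nat_lit 5) (nat_lit 83) (nat_lit 5) (nat_lit 78) (nat_lit 5) (nat_lit 331) (nat_lit 293) (nat_lit 240))) (XT.nd (nat_lit 94) (nat_lit 0) (nat_lit 0) (XT.lf (nat_lit 0) (nat_lit 4549408584) (nat_lit 420) (nat_lit 1964973245) (nat_lit 504) (nat_lit 3820684946) (nat_lit 72) (nat_lit 5) (nat_lit 77) (nat_lit 5) (nat_lit 78) (nat_lit 5) (nat_lit 332) (nat_lit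 293) (nat_lit 239)) (XT.lf (nat_lit 0) (nat_lit 8408172354) (nat_lit 504) (nat_lit 1274074048) (nat_lit 84) (nat_lit 841310648) (nat_lit 72) (nat_lit 5) (nat_lit 78) (nat_lit 5) (nat_lit 73) (nat_lit 5) (nat_lit 333) (nat_lit 293) (nat_lit 238))))) (XT.nd (nat_lit 376) (nat_lit 756) (nat_lit 0) (XT.nd (nat_lit 188) (nat_lit 420) (nat_lit 0) (XT.nd (nat_lit 94) (nat_lit 84) (nat_lit 0) (XT.lf (nat_lit 0) (nat_lit 3387896909) (nat_lit 420) (nat_lit 6993830286) (nat_lit 504) (nat_lit 335622891) (nat_lit 67) (nat_lit 5) (nat_lit 72) (nat_lit 5) (nat_lit 73) (nat_lit 5) (nat_lit 334) (nat_lit 293) (nat_lit 237)) (XT.lf (nat_lit 0) (nat_lit 1450067592) (nat_lit 504) (nat_lit 2748375292) (nat_lit 84) (nat_lit 6718942539) (nat_lit 66) (nat_lit 5) (nat_lit 72) (nat_lit 5) (nat_lit 67) (nat_lit 5) (nat_lit 335) (nat_lit 293) (nat_lit 236))) (XT.nd (nat_lit 94) (nat_lit 0) (nat_lit 0) (XT.lf (nat_lit 0) (nat_lit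 1974175844) (nat_lit 420) (nat_lit 1298056473) (nat_lit 504) (nat_lit 7851754843) (nat_lit 61) (nat_lit 5) (nat_lit 66) (nat_lit 5) (nat_lit 67) (nat_lit 5) (nat_lit 336) (nat_lit 293) (nat_lit 235)) (XT.lf (nat_lit 0) (nat_lit 5165686900) (nat_lit 504) (nat_lit 4489306152) (nat_lit 84) (nat_lit 1681641025) (nat_lit 61) (nat_lit 5) (nat_lit 67) (nat_lit 5) (nat_lit 62) (nat_lit 5) (nat_lit 337) (nat_lit 293) (nat_lit 234)))) (XT.nd (nat_lit 188) (nat_lit 420) (nat_lit 0) (XT.nd (nat_lit 94) (nat_lit 0) (nat_lit 0) (XT.lf (nat_lit 0) (nat_lit 271484879) (nat_lit 336) (nat_lit 6832288677) (nat_lit 420) (nat_lit 4452631928) (nat_lit 57) (nat_lit 5) (nat_lit 61) (nat_lit 5) (nat_lit 62) (nat_lit 5) (nat_lit 338) (nat_lit 293) (nat_lit 233)) (XT.lf (nat_lit 0) (nat_lit 5239016170) (nat_lit 336) (nat_lit 3880295425) (nat_lit 420) (nat_lit 2663233241) (nat_lit 57) (nat_lit 5) (nat_lit 61) (nat_lit 5) (nat_lit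 62) (nat_lit 5) (nat_lit 339) (nat_lit 293) (nat_lit 232))) (XT.nd (nat_lit 94) (nat_lit 420) (nat_lit 0) (XT.lf (nat_lit 0) (nat_lit 10325608639) (nat_lit 336) (nat_lit 843120876) (nat_lit 420) (nat_lit 847942359) (nat_lit 57) (nat_lit 5) (nat_lit 61) (nat_lit 5) (nat_lit 62) (nat_lit 5) (nat_lit 340) (nat_lit 293) (nat_lit 231)) (XT.nd (nat_lit 94) (nat_lit 0) (nat_lit 0) (XT.lf (nat_lit 0) (nat_lit 1031041447) (nat_lit 420) (nat_lit 8946443397) (nat_lit 84) (nat_lit 2279473233) (nat_lit 52) (nat_lit 5) (nat_lit 57) (nat_lit 5) (nat_lit 53) (nat_lit 5) (nat_lit 341) (nat_lit 293) (nat_lit 230)) (XT.lf (nat_lit 0) (nat_lit 2949443819) (nat_lit 420) (nat_lit 4053699690) (nat_lit 84) (nat_lit 5501401272) (nat_lit 52) (nat_lit 5) (nat_lit 57) (nat_lit 5) (nat_lit 53) (nat_lit 5) (nat_lit 342) (nat_lit 293) (nat_lit 229))))))))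
noncomputable def xc33 : XT := (XT.nd (nat_lit 51042) (nat_lit 0) (nat_lit 3444) (XT.nd (nat_lit 50290) (nat_lit 0) (nat_lit 9996) (XT.nd (nat_lit 49914) (nat_lit 0) (nat_lit 11760) (XT.nd (nat_lit 49726) (nat_lit 0) (nat_lit 12264) (XT.nd (nat_lit 49632) (nat_lit 0) (nat_lit 12264) (XT.lf (nat_lit 0) (nat_lit 976376568) (nat_lit 336) (nat_lit 3933786803) (nat_lit 420) (nat_lit 7850255335) (nat_lit 48) (nat_lit 5) (nat_lit 52) (nat_lit 5) (nat_lit 53) (nat_lit 5) (nat_lit 343) (nat_lit 293) (nat_lit 228)) (XT.lf (nat_lit 0) (nat_lit 427363885) (nat_lit 0) (nat_lit 427363885) (nat_lit 420) (nat_lit 2454315963) (nat_lit 194) (nat_lit 5) (nat_lit 194) (nat_lit 3) (nat_lit 199) (nat_lit 3) (nat_lit 294) (nat_lit 294) (nat_lit 276))) (XT.nd (nat_lit 94) (nat_lit 0) (nat_lit 0) (XT.lf (nat_lit 0) (nat_lit 3582533143) (nat_lit 0) (nat_lit 120282634) (nat_lit 420) (nat_lit 2945867694) (nat_lit 194) (nat_lit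 5) (nat_lit 194) (nat_lit 3) (nat_lit 199) (nat_lit 3) (nat_lit 295) (nat_lit 294) (nat_lit 275)) (XT.lf (nat_lit 0) (nat_lit 5685425884) (nat_lit 420) (nat_lit 334567579) (nat_lit 504) (nat_lit 662927079) (nat_lit 194) (nat_lit 5) (nat_lit 199) (nat_lit 3) (nat_lit 200) (nat_lit 5) (nat_lit 296) (nat_lit 294) (nat_lit 274)))) (XT.nd (nat_lit 188) (nat_lit 0) (nat_lit 0) (XT.nd (nat_lit 94) (nat_lit 0) (nat_lit 0) (XT.lf (nat_lit 0) (nat_lit 939393735) (nat_lit 504) (nat_lit 4240747221) (nat_lit 588) (nat_lit 1539781236) (nat_lit 188) (nat_lit 5) (nat_lit 194) (nat_lit 5) (nat_lit 195) (nat_lit 5) (nat_lit 297) (nat_lit 294) (nat_lit 273)) (XT.lf (nat_lit 0) (nat_lit 2843360908) (nat_lit 504) (nat_lit 1424136737) (nat_lit 588) (nat_lit 2492901448) (nat_lit 188) (nat_lit 5) (nat_lit 194) (nat_lit 5) (nat_lit 195) (nat_lit 5) (nat_lit 298) (nat_lit 294) (nat_lit 272))) (XT.nd (nat_lit 94) (nat_lit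 0) (nat_lit 0) (XT.lf (nat_lit 84) (nat_lit 1467480687) (nat_lit 0) (nat_lit 3279933914) (nat_lit 588) (nat_lit 2056935915) (nat_lit 189) (nat_lit 5) (nat_lit 188) (nat_lit 5) (nat_lit 195) (nat_lit 5) (nat_lit 299) (nat_lit 294) (nat_lit 271)) (XT.lf (nat_lit 84) (nat_lit 4437478691) (nat_lit 0) (nat_lit 2216184900) (nat_lit 588) (nat_lit 198143486) (nat_lit 189) (nat_lit 5) (nat_lit 188) (nat_lit 5) (nat_lit 195) (nat_lit 5) (nat_lit 300) (nat_lit 294) (nat_lit 270))))) (XT.nd (nat_lit 376) (nat_lit 588) (nat_lit 0) (XT.nd (nat_lit 188) (nat_lit 588) (nat_lit 0) (XT.nd (nat_lit 94) (nat_lit 0) (nat_lit 84) (XT.lf (nat_lit 84) (nat_lit 550850313) (nat_lit 0) (nat_lit 1067653419) (nat_lit 672) (nat_lit 5284080593) (nat_lit 182) (nat_lit 5) (nat_lit 181) (nat_lit 5) (nat_lit 189) (nat_lit 5) (nat_lit 301) (nat_lit 294) (nat_lit 269)) (XT.lf (nat_lit 0) (nat_lit 3445333637) (nat_lit 588) (nat_lit 3342805804)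 (nat_lit 672) (nat_lit 168383510) (nat_lit 182) (nat_lit 5) (nat_lit 189) (nat_lit 5) (nat_lit 190) (nat_lit 5) (nat_lit 302) (nat_lit 294) (nat_lit 268))) (XT.nd (nat_lit 94) (nat_lit 672) (nat_lit 0) (XT.lf (nat_lit 0) (nat_lit 5273147080) (nat_lit 588) (nat_lit 294530683) (nat_lit 672) (nat_lit 1446518121) (nat_lit 182) (nat_lit 5) (nat_lit 189) (nat_lit 5) (nat_lit 190) (nat_lit 5) (nat_lit 303) (nat_lit 294) (nat_lit 267)) (XT.lf (nat_lit 0) (nat_lit 45431497) (nat_lit 672) (nat_lit 4211332542) (nat_lit 756) (nat_lit 2818326094) (nat_lit 174) (nat_lit 5) (nat_lit 182) (nat_lit 5) (nat_lit 183) (nat_lit 5) (nat_lit 304) (nat_lit 294) (nat_lit 266)))) (XT.nd (nat_lit 188) (nat_lit 588) (nat_lit 0) (XT.nd (nat_lit 94) (nat_lit 0) (nat_lit 0) (XT.lf (nat_lit 0) (nat_lit 1790242800) (nat_lit 672) (nat_lit 1072336456) (nat_lit 756) (nat_lit 4276935857) (nat_lit 174) (nat_lit 5) (nat_lit 182) (nat_lit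 5) (nat_lit 183) (nat_lit 5) (nat_lit 305) (nat_lit 294) (nat_lit 265)) (XT.lf (nat_lit 84) (nat_lit 2165980567) (nat_lit 0) (nat_lit 1382583574) (nat_lit 756) (nat_lit 3658929441) (nat_lit 175) (nat_lit 5) (nat_lit 174) (nat_lit 5) (nat_lit 183) (nat_lit 5) (nat_lit 306) (nat_lit 294) (nat_lit 264))) (XT.nd (nat_lit 94) (nat_lit 672) (nat_lit 0) (XT.lf (nat_lit 0) (nat_lit 5313706378) (nat_lit 672) (nat_lit 1794916872) (nat_lit 84) (nat_lit 170723823) (nat_lit 175) (nat_lit 5) (nat_lit 183) (nat_lit 5) (nat_lit 176) (nat_lit 5) (nat_lit 307) (nat_lit 294) (nat_lit 263)) (XT.lf (nat_lit 0) (nat_lit 1526685541) (nat_lit 672) (nat_lit 5577568539) (nat_lit 756) (nat_lit 250363365) (nat_lit 167) (nat_lit 5) (nat_lit 175) (nat_lit 5) (nat_lit 176) (nat_lit 5) (nat_lit 308) (nat_lit 294) (nat_lit 262)))))) (XT.nd (nat_lit 752) (nat_lit 3864) (nat_lit 0) (XT.nd (nat_lit 376) (nat_lit 1008) (nat_lit 0) (XT.nd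 (nat_lit 188) (nat_lit 840) (nat_lit 0) (XT.nd (nat_lit 94) (nat_lit 756) (nat_lit 0) (XT.lf (nat_lit 0) (nat_lit 1448323607) (nat_lit 756) (nat_lit 2500870661) (nat_lit 84) (nat_lit 3484038661) (nat_lit 166) (nat_lit 5) (nat_lit 175) (nat_lit 5) (nat_lit 167) (nat_lit 5) (nat_lit 309) (nat_lit 294) (nat_lit 261)) (XT.lf (nat_lit 0) (nat_lit 902975428) (nat_lit 756) (nat_lit 2244093788) (nat_lit 840) (nat_lit 4368862423) (nat_lit 157) (nat_lit 5) (nat_lit 166) (nat_lit 5) (nat_lit 167) (nat_lit 5) (nat_lit 310) (nat_lit 294) (nat_lit 260))) (XT.nd (nat_lit 94) (nat_lit 840) (nat_lit 0) (XT.lf (nat_lit 0) (nat_lit 4423796596) (nat_lit 756) (nat_lit 445707911) (nat_lit 840) (nat_lit 2732836038) (nat_lit 157) (nat_lit 5) (nat_lit 166) (nat_lit 5) (nat_lit 167) (nat_lit 5) (nat_lit 311) (nat_lit 294) (nat_lit 259)) (XT.lf (nat_lit 0) (nat_lit 312317189) (nat_lit 840) (nat_lit 6296798748) (nat_lit 924)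 (nat_lit 1083675943) (nat_lit 147) (nat_lit 5) (nat_lit 157) (nat_lit 5) (nat_lit 158) (nat_lit 5) (nat_lit 312) (nat_lit 294) (nat_lit 258)))) (XT.nd (nat_lit 188) (nat_lit 924) (nat_lit 0) (XT.nd (nat_lit 94) (nat_lit 0) (nat_lit 0) (XT.lf (nat_lit 0) (nat_lit 589395484) (nat_lit 924) (nat_lit 3860478586) (nat_lit 84) (nat_lit 3336668668) (nat_lit 146) (nat_lit 5) (nat_lit 157) (nat_lit 5) (nat_lit 147) (nat_lit 5) (nat_lit 313) (nat_lit 294) (nat_lit 257)) (XT.lf (nat_lit 0) (nat_lit 2240546455) (nat_lit 924) (nat_lit 284370078) (nat_lit 84) (nat_lit 5359749146) (nat_lit 146) (nat_lit 5) (nat_lit 157) (nat_lit 5) (nat_lit 147) (nat_lit 5) (nat_lit 314) (nat_lit 294) (nat_lit 256))) (XT.nd (nat_lit 94) (nat_lit 0) (nat_lit 0) (XT.lf (nat_lit 0) (nat_lit 3431062604) (nat_lit 924) (nat_lit 496123634) (nat_lit 1008) (nat_lit 4059344053) (nat_lit 135) (nat_lit 5) (nat_lit 146) (nat_lit 5) (nat_lit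 147) (nat_lit 5) (nat_lit 315) (nat_lit 294) (nat_lit 255)) (XT.lf (nat_lit 0) (nat_lit 5636384452) (nat_lit 1008) (nat_lit 881666582) (nat_lit 84) (nat_lit 1574630062) (nat_lit 135) (nat_lit 5) (nat_lit 147) (nat_lit 5) (nat_lit 136) (nat_lit 5) (nat_lit 316) (nat_lit 294) (nat_lit 254))))) (XT.nd (nat_lit 376) (nat_lit 1680) (nat_lit 0) (XT.nd (nat_lit 188) (nat_lit 1092) (nat_lit 0) (XT.nd (nat_lit 94) (nat_lit 84) (nat_lit 0) (XT.lf (nat_lit 0) (nat_lit 2918973776) (nat_lit 1008) (nat_lit 4466530543) (nat_lit 1092) (nat_lit 817223850) (nat_lit 123) (nat_lit 5) (nat_lit 135) (nat_lit 5) (nat_lit 136) (nat_lit 5) (nat_lit 317) (nat_lit 294) (nat_lit 253)) (XT.lf (nat_lit 0) (nat_lit 817634286) (nat_lit 1092) (nat_lit 1510049708) (nat_lit 84) (nat_lit 5989583840) (nat_lit 122) (nat_lit 5) (nat_lit 135) (nat_lit 5) (nat_lit 123) (nat_lit 5) (nat_lit 318) (nat_lit 294) (nat_lit 252))) (XT.nd (nat_lit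 94) (nat_lit 0) (nat_lit 0) (XT.lf (nat_lit 0) (nat_lit 2379958764) (nat_lit 1092) (nat_lit 84512807) (nat_lit 1176) (nat_lit 5971484114) (nat_lit 109) (nat_lit 5) (nat_lit 122) (nat_lit 5) (nat_lit 123) (nat_lit 5) (nat_lit 319) (nat_lit 294) (nat_lit 251)) (XT.lf (nat_lit 0) (nat_lit 4156064870) (nat_lit 1176) (nat_lit 2198993202) (nat_lit 84) (nat_lit 2203637523) (nat_lit 109) (nat_lit 5) (nat_lit 123) (nat_lit 5) (nat_lit 110) (nat_lit 5) (nat_lit 320) (nat_lit 294) (nat_lit 250)))) (XT.nd (nat_lit 188) (nat_lit 1176) (nat_lit 0) (XT.nd (nat_lit 94) (nat_lit 0) (nat_lit 0) (XT.lf (nat_lit 0) (nat_lit 1772202388) (nat_lit 504) (nat_lit 4103349747) (nat_lit 588) (nat_lit 2810621437) (nat_lit 103) (nat_lit 5) (nat_lit 109) (nat_lit 5) (nat_lit 110) (nat_lit 5) (nat_lit 321) (nat_lit 294) (nat_lit 249)) (XT.lf (nat_lit 0) (nat_lit 5873312899) (nat_lit 504) (nat_lit 1755891037) (nat_lit 588) (nat_lit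 1189159802) (nat_lit 103) (nat_lit 5) (nat_lit 109) (nat_lit 5) (nat_lit 110) (nat_lit 5) (nat_lit 322) (nat_lit 294) (nat_lit 248))) (XT.nd (nat_lit 94) (nat_lit 504) (nat_lit 0) (XT.lf (nat_lit 0) (nat_lit 449374178) (nat_lit 672) (nat_lit 7837201764) (nat_lit 84) (nat_lit 668812183) (nat_lit 95) (nat_lit 5) (nat_lit 103) (nat_lit 5) (nat_lit 96) (nat_lit 5) (nat_lit 323) (nat_lit 294) (nat_lit 247)) (XT.nd (nat_lit 94) (nat_lit 504) (nat_lit 0) (XT.lf (nat_lit 0) (nat_lit 2122480166) (nat_lit 672) (nat_lit 3796967786) (nat_lit 84) (nat_lit 3176724856) (nat_lit 95) (nat_lit 5) (nat_lit 103) (nat_lit 5) (nat_lit 96) (nat_lit 5) (nat_lit 324) (nat_lit 294) (nat_lit 246)) (XT.lf (nat_lit 0) (nat_lit 335859735) (nat_lit 504) (nat_lit 3475609026) (nat_lit 588) (nat_lit 5431116391) (nat_lit 89) (nat_lit 5) (nat_lit 95) (nat_lit 5) (nat_lit 96) (nat_lit 5) (nat_lit 325) (nat_lit 294) (nat_lit 245))))))))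
noncomputable def xc34 : XT := (XT.nd (nat_lit 1504) (nat_lit 336) (nat_lit 0) (XT.nd (nat_lit 752) (nat_lit 1344) (nat_lit 0) (XT.nd (nat_lit 376) (nat_lit 840) (nat_lit 0) (XT.nd (nat_lit 188) (nat_lit 588) (nat_lit 0) (XT.nd (nat_lit 94) (nat_lit 0) (nat_lit 0) (XT.lf (nat_lit 0) (nat_lit 4638277197) (nat_lit 504) (nat_lit 915650951) (nat_lit 588) (nat_lit 3839717050) (nat_lit 89) (nat_lit 5) (nat_lit 95) (nat_lit 5) (nat_lit 96) (nat_lit 5) (nat_lit 326) (nat_lit 294) (nat_lit 244)) (XT.lf (nat_lit 0) (nat_lit 7330135749) (nat_lit 588) (nat_lit 531558119) (nat_lit 84) (nat_lit 1688461631) (nat_lit 89) (nat_lit 5) (nat_lit 96) (nat_lit 5) (nat_lit 90) (nat_lit 5) (nat_lit 327) (nat_lit 294) (nat_lit 243))) (XT.nd (nat_lit 94) (nat_lit 84) (nat_lit 0) (XT.lf (nat_lit 0) (nat_lit 3853500605) (nat_lit 504) (nat_lit 5319253879) (nat_lit 588) (nat_lit 538546226) (nat_lit 83) (nat_lit 5) (nat_lit 89)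 (nat_lit 5) (nat_lit 90) (nat_lit 5) (nat_lit 328) (nat_lit 294) (nat_lit 242)) (XT.lf (nat_lit 0) (nat_lit 1140562398) (nat_lit 588) (nat_lit 1541863266) (nat_lit 84) (nat_lit 7195717965) (nat_lit 82) (nat_lit 5) (nat_lit 89) (nat_lit 5) (nat_lit 83) (nat_lit 5) (nat_lit 329) (nat_lit 294) (nat_lit 241)))) (XT.nd (nat_lit 188) (nat_lit 420) (nat_lit 0) (XT.nd (nat_lit 94) (nat_lit 0) (nat_lit 0) (XT.lf (nat_lit 0) (nat_lit 2855295889) (nat_lit 504) (nat_lit 7127002668) (nat_lit 84) (nat_lit 67974926) (nat_lit 77) (nat_lit 5) (nat_lit 83) (nat_lit 5) (nat_lit 78) (nat_lit 5) (nat_lit 330) (nat_lit 294) (nat_lit 240)) (XT.lf (nat_lit 0) (nat_lit 4632602280) (nat_lit 504) (nat_lit 2733397343) (nat_lit 84) (nat_lit 2861567233) (nat_lit 77) (nat_lit 5) (nat_lit 83) (nat_lit 5) (nat_lit 78) (nat_lit 5) (nat_lit 331) (nat_lit 294) (nat_lit 239))) (XT.nd (nat_lit 94) (nat_lit 0) (nat_lit 0) (XT.lf (nat_lit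 0) (nat_lit 1795664894) (nat_lit 420) (nat_lit 4653906901) (nat_lit 504) (nat_lit 3961378766) (nat_lit 72) (nat_lit 5) (nat_lit 77) (nat_lit 5) (nat_lit 78) (nat_lit 5) (nat_lit 332) (nat_lit 294) (nat_lit 238)) (XT.lf (nat_lit 0) (nat_lit 6486524967) (nat_lit 420) (nat_lit 1832263949) (nat_lit 504) (nat_lit 2281469002) (nat_lit 72) (nat_lit 5) (nat_lit 77) (nat_lit 5) (nat_lit 78) (nat_lit 5) (nat_lit 333) (nat_lit 294) (nat_lit 237))))) (XT.nd (nat_lit 376) (nat_lit 420) (nat_lit 0) (XT.nd (nat_lit 188) (nat_lit 420) (nat_lit 0) (XT.nd (nat_lit 94) (nat_lit 84) (nat_lit 0) (XT.lf (nat_lit 0) (nat_lit 490056723) (nat_lit 420) (nat_lit 9739772026) (nat_lit 504) (nat_lit 566213812) (nat_lit 67) (nat_lit 5) (nat_lit 72) (nat_lit 5) (nat_lit 73) (nat_lit 5) (nat_lit 334) (nat_lit 294) (nat_lit 236)) (XT.lf (nat_lit 0) (nat_lit 1208615645) (nat_lit 504) (nat_lit 5740780370) (nat_lit 84) (nat_lit 4047283972)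 (nat_lit 66) (nat_lit 5) (nat_lit 72) (nat_lit 5) (nat_lit 67) (nat_lit 5) (nat_lit 335) (nat_lit 294) (nat_lit 235))) (XT.nd (nat_lit 94) (nat_lit 420) (nat_lit 0) (XT.lf (nat_lit 0) (nat_lit 2996155642) (nat_lit 504) (nat_lit 1075618355) (nat_lit 84) (nat_lit 7132630040) (nat_lit 66) (nat_lit 5) (nat_lit 72) (nat_lit 5) (nat_lit 67) (nat_lit 5) (nat_lit 336) (nat_lit 294) (nat_lit 234)) (XT.lf (nat_lit 0) (nat_lit 3775534135) (nat_lit 420) (nat_lit 1071399932) (nat_lit 504) (nat_lit 6571487323) (nat_lit 61) (nat_lit 5) (nat_lit 66) (nat_lit 5) (nat_lit 67) (nat_lit 5) (nat_lit 337) (nat_lit 294) (nat_lit 233)))) (XT.nd (nat_lit 188) (nat_lit 84) (nat_lit 0) (XT.nd (nat_lit 94) (nat_lit 336) (nat_lit 0) (XT.lf (nat_lit 0) (nat_lit 6757355872) (nat_lit 504) (nat_lit 2894313083) (nat_lit 84) (nat_lit 1987427499) (nat_lit 61) (nat_lit 5) (nat_lit 67) (nat_lit 5) (nat_lit 62) (nat_lit 5) (nat_lit 338)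 (nat_lit 294) (nat_lit 232)) (XT.lf (nat_lit 0) (nat_lit 1996505641) (nat_lit 336) (nat_lit 6733003331) (nat_lit 420) (nat_lit 3137116431) (nat_lit 57) (nat_lit 5) (nat_lit 61) (nat_lit 5) (nat_lit 62) (nat_lit 5) (nat_lit 339) (nat_lit 294) (nat_lit 231))) (XT.nd (nat_lit 94) (nat_lit 84) (nat_lit 0) (XT.lf (nat_lit 0) (nat_lit 7066415711) (nat_lit 336) (nat_lit 3698851998) (nat_lit 420) (nat_lit 1335951486) (nat_lit 57) (nat_lit 5) (nat_lit 61) (nat_lit 5) (nat_lit 62) (nat_lit 5) (nat_lit 340) (nat_lit 294) (nat_lit 230)) (XT.lf (nat_lit 0) (nat_lit 483285099) (nat_lit 420) (nat_lit 88267897) (nat_lit 84) (nat_lit 11772300196) (nat_lit 56) (nat_lit 5) (nat_lit 61) (nat_lit 5) (nat_lit 57) (nat_lit 5) (nat_lit 341) (nat_lit 294) (nat_lit 229)))))) (XT.nd (nat_lit 50384) (nat_lit 0) (nat_lit 9492) (XT.nd (nat_lit 50008) (nat_lit 0) (nat_lit 10836) (XT.nd (nat_lit 49820) (nat_lit 0) (nat_lit 11340)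 (XT.nd (nat_lit 94) (nat_lit 0) (nat_lit 0) (XT.lf (nat_lit 0) (nat_lit 2381900114) (nat_lit 420) (nat_lit 7552288609) (nat_lit 84) (nat_lit 2657904108) (nat_lit 52) (nat_lit 5) (nat_lit 57) (nat_lit 5) (nat_lit 53) (nat_lit 5) (nat_lit 342) (nat_lit 294) (nat_lit 228)) (XT.lf (nat_lit 0) (nat_lit 4320116522) (nat_lit 420) (nat_lit 2558128169) (nat_lit 84) (nat_lit 5970458003) (nat_lit 52) (nat_lit 5) (nat_lit 57) (nat_lit 5) (nat_lit 53) (nat_lit 5) (nat_lit 343) (nat_lit 294) (nat_lit 227))) (XT.nd (nat_lit 94) (nat_lit 588) (nat_lit 0) (XT.lf (nat_lit 0) (nat_lit 1414288238) (nat_lit 0) (nat_lit 1414288238) (nat_lit 420) (nat_lit 511777355) (nat_lit 194) (nat_lit 5) (nat_lit 194) (nat_lit 3) (nat_lit 199) (nat_lit 3) (nat_lit 295) (nat_lit 295) (nat_lit 274)) (XT.lf (nat_lit 0) (nat_lit 860960642) (nat_lit 588) (nat_lit 1142863455) (nat_lit 588) (nat_lit 4712443730) (nat_lit 187) (nat_lit 3) (nat_lit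 194) (nat_lit 3) (nat_lit 194) (nat_lit 5) (nat_lit 296) (nat_lit 295) (nat_lit 273)))) (XT.nd (nat_lit 188) (nat_lit 504) (nat_lit 0) (XT.nd (nat_lit 94) (nat_lit 0) (nat_lit 0) (XT.lf (nat_lit 84) (nat_lit 1633593487) (nat_lit 0) (nat_lit 1089513302) (nat_lit 588) (nat_lit 4031749280) (nat_lit 188) (nat_lit 5) (nat_lit 187) (nat_lit 3) (nat_lit 194) (nat_lit 5) (nat_lit 297) (nat_lit 295) (nat_lit 272)) (XT.lf (nat_lit 84) (nat_lit 4481503199) (nat_lit 0) (nat_lit 99564205) (nat_lit 588) (nat_lit 2215885126) (nat_lit 188) (nat_lit 5) (nat_lit 187) (nat_lit 3) (nat_lit 194) (nat_lit 5) (nat_lit 298) (nat_lit 295) (nat_lit 271))) (XT.nd (nat_lit 94) (nat_lit 588) (nat_lit 0) (XT.lf (nat_lit 84) (nat_lit 538439958) (nat_lit 0) (nat_lit 5901379152) (nat_lit 588) (nat_lit 402676750) (nat_lit 189) (nat_lit 5) (nat_lit 188) (nat_lit 5) (nat_lit 195) (nat_lit 5) (nat_lit 299) (nat_lit 295) (nat_lit 270))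 (XT.lf (nat_lit 0) (nat_lit 1392010621) (nat_lit 588) (nat_lit 3416645898) (nat_lit 672) (nat_lit 2082102342) (nat_lit 181) (nat_lit 5) (nat_lit 188) (nat_lit 5) (nat_lit 189) (nat_lit 5) (nat_lit 300) (nat_lit 295) (nat_lit 269))))) (XT.nd (nat_lit 376) (nat_lit 756) (nat_lit 0) (XT.nd (nat_lit 188) (nat_lit 588) (nat_lit 0) (XT.nd (nat_lit 94) (nat_lit 0) (nat_lit 0) (XT.lf (nat_lit 0) (nat_lit 3165479004) (nat_lit 588) (nat_lit 484595801) (nat_lit 672) (nat_lit 3292786287) (nat_lit 181) (nat_lit 5) (nat_lit 188) (nat_lit 5) (nat_lit 189) (nat_lit 5) (nat_lit 301) (nat_lit 295) (nat_lit 268)) (XT.lf (nat_lit 84) (nat_lit 2550202874) (nat_lit 0) (nat_lit 2402589949) (nat_lit 672) (nat_lit 2045397879) (nat_lit 182) (nat_lit 5) (nat_lit 181) (nat_lit 5) (nat_lit 189) (nat_lit 5) (nat_lit 302) (nat_lit 295) (nat_lit 267))) (XT.nd (nat_lit 94) (nat_lit 588) (nat_lit 0) (XT.lf (nat_lit 84) (nat_lit 5650227771)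 (nat_lit 0) (nat_lit 1085522666) (nat_lit 672) (nat_lit 321664724) (nat_lit 182) (nat_lit 5) (nat_lit 181) (nat_lit 5) (nat_lit 189) (nat_lit 5) (nat_lit 303) (nat_lit 295) (nat_lit 266)) (XT.lf (nat_lit 0) (nat_lit 1382563150) (nat_lit 672) (nat_lit 5414764469) (nat_lit 756) (nat_lit 322360058) (nat_lit 174) (nat_lit 5) (nat_lit 182) (nat_lit 5) (nat_lit 183) (nat_lit 5) (nat_lit 304) (nat_lit 295) (nat_lit 265)))) (XT.nd (nat_lit 188) (nat_lit 756) (nat_lit 0) (XT.nd (nat_lit 94) (nat_lit 0) (nat_lit 0) (XT.lf (nat_lit 0) (nat_lit 3096815168) (nat_lit 672) (nat_lit 2296264505) (nat_lit 756) (nat_lit 1792127227) (nat_lit 174) (nat_lit 5) (nat_lit 182) (nat_lit 5) (nat_lit 183) (nat_lit 5) (nat_lit 305) (nat_lit 295) (nat_lit 264)) (XT.lf (nat_lit 84) (nat_lit 896597431) (nat_lit 0) (nat_lit 3916306210) (nat_lit 756) (nat_lit 2441733434) (nat_lit 175) (nat_lit 5) (nat_lit 174) (nat_lit 5) (nat_lit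 183) (nat_lit 5) (nat_lit 306) (nat_lit 295) (nat_lit 263))) (XT.nd (nat_lit 94) (nat_lit 756) (nat_lit 0) (XT.lf (nat_lit 84) (nat_lit 4197150492) (nat_lit 0) (nat_lit 2350222540) (nat_lit 756) (nat_lit 780206595) (nat_lit 175) (nat_lit 5) (nat_lit 174) (nat_lit 5) (nat_lit 183) (nat_lit 5) (nat_lit 307) (nat_lit 295) (nat_lit 262)) (XT.nd (nat_lit 94) (nat_lit 0) (nat_lit 84) (XT.lf (nat_lit 84) (nat_lit 150802440) (nat_lit 0) (nat_lit 706858245) (nat_lit 840) (nat_lit 6546847459) (nat_lit 166) (nat_lit 5) (nat_lit 165) (nat_lit 5) (nat_lit 175) (nat_lit 5) (nat_lit 308) (nat_lit 295) (nat_lit 261)) (XT.lf (nat_lit 0) (nat_lit 2516542552) (nat_lit 756) (nat_lit 3942788731) (nat_lit 84) (nat_lit 1024919045) (nat_lit 166) (nat_lit 5) (nat_lit 175) (nat_lit 5) (nat_lit 167) (nat_lit 5) (nat_lit 309) (nat_lit 295) (nat_lit 260))))))))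
noncomputable def xc35 : XT := (XT.nd (nat_lit 1598) (nat_lit 3108) (nat_lit 0) (XT.nd (nat_lit 752) (nat_lit 2856) (nat_lit 0) (XT.nd (nat_lit 376) (nat_lit 1932) (nat_lit 0) (XT.nd (nat_lit 188) (nat_lit 924) (nat_lit 0) (XT.nd (nat_lit 94) (nat_lit 756) (nat_lit 0) (XT.lf (nat_lit 0) (nat_lit 4179416156) (nat_lit 756) (nat_lit 577186754) (nat_lit 84) (nat_lit 2811580475) (nat_lit 166) (nat_lit 5) (nat_lit 175) (nat_lit 5) (nat_lit 167) (nat_lit 5) (nat_lit 310) (nat_lit 295) (nat_lit 259)) (XT.lf (nat_lit 0) (nat_lit 2911918100) (nat_lit 756) (nat_lit 2957787836) (nat_lit 840) (nat_lit 1786001504) (nat_lit 157) (nat_lit 5) (nat_lit 166) (nat_lit 5) (nat_lit 167) (nat_lit 5) (nat_lit 311) (nat_lit 295) (nat_lit 258))) (XT.nd (nat_lit 94) (nat_lit 924) (nat_lit 0) (XT.lf (nat_lit 0) (nat_lit 6482321714) (nat_lit 756) (nat_lit 1084284450) (nat_lit 840) (nat_lit 180991730) (nat_lit 157) (nat_lit 5)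 (nat_lit 166) (nat_lit 5) (nat_lit 167) (nat_lit 5) (nat_lit 312) (nat_lit 295) (nat_lit 257)) (XT.lf (nat_lit 0) (nat_lit 1424949318) (nat_lit 924) (nat_lit 5538001294) (nat_lit 84) (nat_lit 879746039) (nat_lit 146) (nat_lit 5) (nat_lit 157) (nat_lit 5) (nat_lit 147) (nat_lit 5) (nat_lit 313) (nat_lit 295) (nat_lit 256)))) (XT.nd (nat_lit 188) (nat_lit 1008) (nat_lit 0) (XT.nd (nat_lit 94) (nat_lit 924) (nat_lit 0) (XT.lf (nat_lit 0) (nat_lit 3051613123) (nat_lit 924) (nat_lit 1981914181) (nat_lit 84) (nat_lit 2908156390) (nat_lit 146) (nat_lit 5) (nat_lit 157) (nat_lit 5) (nat_lit 147) (nat_lit 5) (nat_lit 314) (nat_lit 295) (nat_lit 255)) (XT.lf (nat_lit 0) (nat_lit 1678794816) (nat_lit 924) (nat_lit 3018324488) (nat_lit 1008) (nat_lit 3347805987) (nat_lit 135) (nat_lit 5) (nat_lit 146) (nat_lit 5) (nat_lit 147) (nat_lit 5) (nat_lit 315) (nat_lit 295) (nat_lit 254))) (XT.nd (nat_lit 94) (nat_lit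 1008) (nat_lit 0) (XT.lf (nat_lit 0) (nat_lit 5455959844) (nat_lit 924) (nat_lit 911188516) (nat_lit 1008) (nat_lit 1785240760) (nat_lit 135) (nat_lit 5) (nat_lit 146) (nat_lit 5) (nat_lit 147) (nat_lit 5) (nat_lit 316) (nat_lit 295) (nat_lit 253)) (XT.lf (nat_lit 0) (nat_lit 1056242762) (nat_lit 1008) (nat_lit 7010017331) (nat_lit 1092) (nat_lit 197822163) (nat_lit 123) (nat_lit 5) (nat_lit 135) (nat_lit 5) (nat_lit 136) (nat_lit 5) (nat_lit 317) (nat_lit 295) (nat_lit 252))))) (XT.nd (nat_lit 376) (nat_lit 1680) (nat_lit 0) (XT.nd (nat_lit 188) (nat_lit 0) (nat_lit 0) (XT.nd (nat_lit 94) (nat_lit 1092) (nat_lit 0) (XT.lf (nat_lit 0) (nat_lit 1402234756) (nat_lit 1092) (nat_lit 3460108816) (nat_lit 84) (nat_lit 3516869973) (nat_lit 122) (nat_lit 5) (nat_lit 135) (nat_lit 5) (nat_lit 123) (nat_lit 5) (nat_lit 318) (nat_lit 295) (nat_lit 251)) (XT.lf (nat_lit 0) (nat_lit 370173731) (nat_lit 1092)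 (nat_lit 2637310507) (nat_lit 1176) (nat_lit 5491793808) (nat_lit 109) (nat_lit 5) (nat_lit 122) (nat_lit 5) (nat_lit 123) (nat_lit 5) (nat_lit 319) (nat_lit 295) (nat_lit 250))) (XT.nd (nat_lit 94) (nat_lit 0) (nat_lit 0) (XT.lf (nat_lit 0) (nat_lit 4353880300) (nat_lit 1092) (nat_lit 301699018) (nat_lit 1176) (nat_lit 3967871878) (nat_lit 109) (nat_lit 5) (nat_lit 122) (nat_lit 5) (nat_lit 123) (nat_lit 5) (nat_lit 320) (nat_lit 295) (nat_lit 249)) (XT.lf (nat_lit 0) (nat_lit 6333962633) (nat_lit 1176) (nat_lit 350294433) (nat_lit 84) (nat_lit 2068028577) (nat_lit 109) (nat_lit 5) (nat_lit 123) (nat_lit 5) (nat_lit 110) (nat_lit 5) (nat_lit 321) (nat_lit 295) (nat_lit 248)))) (XT.nd (nat_lit 188) (nat_lit 1092) (nat_lit 0) (XT.nd (nat_lit 94) (nat_lit 84) (nat_lit 0) (XT.lf (nat_lit 0) (nat_lit 3724601659) (nat_lit 504) (nat_lit 4339364479) (nat_lit 588) (nat_lit 821322541) (nat_lit 103) (nat_lit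 5) (nat_lit 109) (nat_lit 5) (nat_lit 110) (nat_lit 5) (nat_lit 322) (nat_lit 295) (nat_lit 247)) (XT.lf (nat_lit 0) (nat_lit 772094728) (nat_lit 588) (nat_lit 1135709019) (nat_lit 84) (nat_lit 7115640122) (nat_lit 102) (nat_lit 5) (nat_lit 109) (nat_lit 5) (nat_lit 103) (nat_lit 5) (nat_lit 323) (nat_lit 295) (nat_lit 246))) (XT.nd (nat_lit 94) (nat_lit 504) (nat_lit 0) (XT.lf (nat_lit 0) (nat_lit 2395301755) (nat_lit 672) (nat_lit 6142994033) (nat_lit 84) (nat_lit 627552426) (nat_lit 95) (nat_lit 5) (nat_lit 103) (nat_lit 5) (nat_lit 96) (nat_lit 5) (nat_lit 324) (nat_lit 295) (nat_lit 245)) (XT.nd (nat_lit 94) (nat_lit 504) (nat_lit 0) (XT.lf (nat_lit 0) (nat_lit 4062182946) (nat_lit 672) (nat_lit 2035759156) (nat_lit 84) (nat_lit 3215074389) (nat_lit 95) (nat_lit 5) (nat_lit 103) (nat_lit 5) (nat_lit 96) (nat_lit 5) (nat_lit 325) (nat_lit 295) (nat_lit 244)) (XT.lf (nat_lit 0) (nat_lit 2206163696)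 (nat_lit 504) (nat_lit 3559472448) (nat_lit 588) (nat_lit 3699718065) (nat_lit 89) (nat_lit 5) (nat_lit 95) (nat_lit 5) (nat_lit 96) (nat_lit 5) (nat_lit 326) (nat_lit 295) (nat_lit 243))))))) (XT.nd (nat_lit 752) (nat_lit 1680) (nat_lit 0) (XT.nd (nat_lit 376) (nat_lit 420) (nat_lit 0) (XT.nd (nat_lit 188) (nat_lit 504) (nat_lit 0) (XT.nd (nat_lit 94) (nat_lit 504) (nat_lit 0) (XT.lf (nat_lit 0) (nat_lit 6586033052) (nat_lit 504) (nat_lit 920873708) (nat_lit 588) (nat_lit 2116107218) (nat_lit 89) (nat_lit 5) (nat_lit 95) (nat_lit 5) (nat_lit 96) (nat_lit 5) (nat_lit 327) (nat_lit 295) (nat_lit 242)) (XT.lf (nat_lit 0) (nat_lit 1287381277) (nat_lit 504) (nat_lit 8010244252) (nat_lit 588) (nat_lit 488206984) (nat_lit 83) (nat_lit 5) (nat_lit 89) (nat_lit 5) (nat_lit 90) (nat_lit 5) (nat_lit 328) (nat_lit 295) (nat_lit 241))) (XT.nd (nat_lit 94) (nat_lit 420) (nat_lit 0) (XT.lf (nat_lit 0) (nat_lit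 1172686500) (nat_lit 588) (nat_lit 4201374628) (nat_lit 84) (nat_lit 4579192659) (nat_lit 82) (nat_lit 5) (nat_lit 89) (nat_lit 5) (nat_lit 83) (nat_lit 5) (nat_lit 329) (nat_lit 295) (nat_lit 240)) (XT.lf (nat_lit 0) (nat_lit 191608990) (nat_lit 420) (nat_lit 2651333632) (nat_lit 504) (nat_lit 7283878603) (nat_lit 77) (nat_lit 5) (nat_lit 82) (nat_lit 5) (nat_lit 83) (nat_lit 5) (nat_lit 330) (nat_lit 295) (nat_lit 239)))) (XT.nd (nat_lit 188) (nat_lit 420) (nat_lit 0) (XT.nd (nat_lit 94) (nat_lit 0) (nat_lit 0) (XT.lf (nat_lit 0) (nat_lit 4577577889) (nat_lit 504) (nat_lit 5533485312) (nat_lit 84) (nat_lit 194431221) (nat_lit 77) (nat_lit 5) (nat_lit 83) (nat_lit 5) (nat_lit 78) (nat_lit 5) (nat_lit 331) (nat_lit 295) (nat_lit 238)) (XT.lf (nat_lit 0) (nat_lit 6360856818) (nat_lit 504) (nat_lit 1058235047) (nat_lit 84) (nat_lit 3070885975) (nat_lit 77) (nat_lit 5) (nat_lit 83) (nat_lit 5) (nat_lit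 78) (nat_lit 5) (nat_lit 332) (nat_lit 295) (nat_lit 237))) (XT.nd (nat_lit 94) (nat_lit 0) (nat_lit 0) (XT.lf (nat_lit 0) (nat_lit 3593410736) (nat_lit 420) (nat_lit 4610376399) (nat_lit 504) (nat_lit 2476366593) (nat_lit 72) (nat_lit 5) (nat_lit 77) (nat_lit 5) (nat_lit 78) (nat_lit 5) (nat_lit 333) (nat_lit 295) (nat_lit 236)) (XT.lf (nat_lit 0) (nat_lit 8377306785) (nat_lit 420) (nat_lit 1706909314) (nat_lit 504) (nat_lit 792723237) (nat_lit 72) (nat_lit 5) (nat_lit 77) (nat_lit 5) (nat_lit 78) (nat_lit 5) (nat_lit 334) (nat_lit 295) (nat_lit 235))))) (XT.nd (nat_lit 376) (nat_lit 756) (nat_lit 0) (XT.nd (nat_lit 188) (nat_lit 420) (nat_lit 0) (XT.nd (nat_lit 94) (nat_lit 0) (nat_lit 0) (XT.lf (nat_lit 0) (nat_lit 929131107) (nat_lit 504) (nat_lit 8861723793) (nat_lit 84) (nat_lit 1288624168) (nat_lit 66) (nat_lit 5) (nat_lit 72) (nat_lit 5) (nat_lit 67) (nat_lit 5) (nat_lit 335) (nat_lit 295)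 (nat_lit 234)) (XT.lf (nat_lit 0) (nat_lit 2702082686) (nat_lit 504) (nat_lit 4213646045) (nat_lit 84) (nat_lit 4371974103) (nat_lit 66) (nat_lit 5) (nat_lit 72) (nat_lit 5) (nat_lit 67) (nat_lit 5) (nat_lit 336) (nat_lit 295) (nat_lit 233))) (XT.nd (nat_lit 94) (nat_lit 0) (nat_lit 0) (XT.lf (nat_lit 0) (nat_lit 556070856) (nat_lit 420) (nat_lit 3950703005) (nat_lit 504) (nat_lit 6996421078) (nat_lit 61) (nat_lit 5) (nat_lit 66) (nat_lit 5) (nat_lit 67) (nat_lit 5) (nat_lit 337) (nat_lit 295) (nat_lit 232)) (XT.lf (nat_lit 0) (nat_lit 5529661944) (nat_lit 420) (nat_lit 853525763) (nat_lit 504) (nat_lit 5341781206) (nat_lit 61) (nat_lit 5) (nat_lit 66) (nat_lit 5) (nat_lit 67) (nat_lit 5) (nat_lit 338) (nat_lit 295) (nat_lit 231)))) (XT.nd (nat_lit 188) (nat_lit 420) (nat_lit 0) (XT.nd (nat_lit 94) (nat_lit 336) (nat_lit 0) (XT.lf (nat_lit 0) (nat_lit 8313574451) (nat_lit 504) (nat_lit 1352592588)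 (nat_lit 84) (nat_lit 2287668899) (nat_lit 61) (nat_lit 5) (nat_lit 67) (nat_lit 5) (nat_lit 62) (nat_lit 5) (nat_lit 339) (nat_lit 295) (nat_lit 230)) (XT.lf (nat_lit 0) (nat_lit 3673324609) (nat_lit 336) (nat_lit 6649066313) (nat_lit 420) (nat_lit 1866916036) (nat_lit 57) (nat_lit 5) (nat_lit 61) (nat_lit 5) (nat_lit 62) (nat_lit 5) (nat_lit 340) (nat_lit 295) (nat_lit 229))) (XT.nd (nat_lit 94) (nat_lit 420) (nat_lit 0) (XT.lf (nat_lit 0) (nat_lit 8851844427) (nat_lit 336) (nat_lit 3529655962) (nat_lit 420) (nat_lit 51031351) (nat_lit 57) (nat_lit 5) (nat_lit 61) (nat_lit 5) (nat_lit 62) (nat_lit 5) (nat_lit 341) (nat_lit 295) (nat_lit 228)) (XT.nd (nat_lit 94) (nat_lit 0) (nat_lit 0) (XT.lf (nat_lit 0) (nat_lit 1487993666) (nat_lit 336) (nat_lit 285569700) (nat_lit 420) (nat_lit 10909588550) (nat_lit 52) (nat_lit 5) (nat_lit 56) (nat_lit 5) (nat_lit 57) (nat_lit 5) (nat_lit 342) (nat_lit 295)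 (nat_lit 227)) (XT.lf (nat_lit 0) (nat_lit 3696514910) (nat_lit 420) (nat_lit 6213920506) (nat_lit 84) (nat_lit 3029836760) (nat_lit 52) (nat_lit 5) (nat_lit 57) (nat_lit 5) (nat_lit 53) (nat_lit 5) (nat_lit 343) (nat_lit 295) (nat_lit 226))))))))
noncomputable def xc36 : XT := (XT.nd (nat_lit 1504) (nat_lit 5712) (nat_lit 0) (XT.nd (nat_lit 752) (nat_lit 1344) (nat_lit 0) (XT.nd (nat_lit 376) (nat_lit 588) (nat_lit 0) (XT.nd (nat_lit 188) (nat_lit 588) (nat_lit 0) (XT.nd (nat_lit 94) (nat_lit 0) (nat_lit 0) (XT.lf (nat_lit 0) (nat_lit 1343782562) (nat_lit 588) (nat_lit 1016325848) (nat_lit 588) (nat_lit 1016325848) (nat_lit 187) (nat_lit 3) (nat_lit 194) (nat_lit 3) (nat_lit 194) (nat_lit 5) (nat_lit 296) (nat_lit 296) (nat_lit 272)) (XT.lf (nat_lit 84) (nat_lit 706383080) (nat_lit 0) (nat_lit 3797962812) (nat_lit 588) (nat_lit 2288710554) (nat_lit 188) (nat_lit 5) (nat_lit 187) (nat_lit 3) (nat_lit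 194) (nat_lit 5) (nat_lit 297) (nat_lit 296) (nat_lit 271))) (XT.nd (nat_lit 94) (nat_lit 588) (nat_lit 0) (XT.lf (nat_lit 84) (nat_lit 3535741586) (nat_lit 0) (nat_lit 2791301030) (nat_lit 588) (nat_lit 509391016) (nat_lit 188) (nat_lit 5) (nat_lit 187) (nat_lit 3) (nat_lit 194) (nat_lit 5) (nat_lit 298) (nat_lit 296) (nat_lit 270)) (XT.lf (nat_lit 0) (nat_lit 1227849901) (nat_lit 588) (nat_lit 479843740) (nat_lit 672) (nat_lit 5175599452) (nat_lit 180) (nat_lit 5) (nat_lit 187) (nat_lit 3) (nat_lit 188) (nat_lit 5) (nat_lit 299) (nat_lit 296) (nat_lit 269)))) (XT.nd (nat_lit 188) (nat_lit 588) (nat_lit 0) (XT.nd (nat_lit 94) (nat_lit 0) (nat_lit 84) (XT.lf (nat_lit 84) (nat_lit 2435102686) (nat_lit 0) (nat_lit 528998894) (nat_lit 672) (nat_lit 3969061816) (nat_lit 181) (nat_lit 5) (nat_lit 180) (nat_lit 5) (nat_lit 188) (nat_lit 5) (nat_lit 300) (nat_lit 296) (nat_lit 268)) (XT.lf (nat_lit 0) (nat_lit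 4699614001) (nat_lit 588) (nat_lit 1580224168) (nat_lit 672) (nat_lit 706770078) (nat_lit 181) (nat_lit 5) (nat_lit 188) (nat_lit 5) (nat_lit 189) (nat_lit 5) (nat_lit 301) (nat_lit 296) (nat_lit 267))) (XT.nd (nat_lit 94) (nat_lit 672) (nat_lit 0) (XT.lf (nat_lit 84) (nat_lit 1412781880) (nat_lit 0) (nat_lit 5031137822) (nat_lit 672) (nat_lit 599512400) (nat_lit 182) (nat_lit 5) (nat_lit 181) (nat_lit 5) (nat_lit 189) (nat_lit 5) (nat_lit 302) (nat_lit 296) (nat_lit 266)) (XT.lf (nat_lit 0) (nat_lit 1070144373) (nat_lit 672) (nat_lit 2620484857) (nat_lit 756) (nat_lit 3412807266) (nat_lit 173) (nat_lit 5) (nat_lit 181) (nat_lit 5) (nat_lit 182) (nat_lit 5) (nat_lit 303) (nat_lit 296) (nat_lit 265))))) (XT.nd (nat_lit 376) (nat_lit 672) (nat_lit 0) (XT.nd (nat_lit 188) (nat_lit 672) (nat_lit 0) (XT.nd (nat_lit 94) (nat_lit 0) (nat_lit 0) (XT.lf (nat_lit 84) (nat_lit 447500650) (nat_lit 0) (nat_lit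 2274139068) (nat_lit 756) (nat_lit 4445551081) (nat_lit 174) (nat_lit 5) (nat_lit 173) (nat_lit 5) (nat_lit 182) (nat_lit 5) (nat_lit 304) (nat_lit 296) (nat_lit 264)) (XT.lf (nat_lit 84) (nat_lit 3628155645) (nat_lit 0) (nat_lit 763106026) (nat_lit 756) (nat_lit 2842974370) (nat_lit 174) (nat_lit 5) (nat_lit 173) (nat_lit 5) (nat_lit 182) (nat_lit 5) (nat_lit 305) (nat_lit 296) (nat_lit 263))) (XT.nd (nat_lit 94) (nat_lit 756) (nat_lit 0) (XT.lf (nat_lit 0) (nat_lit 6062136474) (nat_lit 672) (nat_lit 442994894) (nat_lit 756) (nat_lit 800074673) (nat_lit 174) (nat_lit 5) (nat_lit 182) (nat_lit 5) (nat_lit 183) (nat_lit 5) (nat_lit 306) (nat_lit 296) (nat_lit 262)) (XT.lf (nat_lit 0) (nat_lit 377002892) (nat_lit 756) (nat_lit 4553746393) (nat_lit 840) (nat_lit 2448424366) (nat_lit 165) (nat_lit 5) (nat_lit 174) (nat_lit 5) (nat_lit 175) (nat_lit 5) (nat_lit 307) (nat_lit 296) (nat_lit 261)))) (XT.nd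 (nat_lit 188) (nat_lit 672) (nat_lit 0) (XT.nd (nat_lit 94) (nat_lit 0) (nat_lit 0) (XT.lf (nat_lit 0) (nat_lit 1970018882) (nat_lit 756) (nat_lit 1302500238) (nat_lit 840) (nat_lit 4184372310) (nat_lit 165) (nat_lit 5) (nat_lit 174) (nat_lit 5) (nat_lit 175) (nat_lit 5) (nat_lit 308) (nat_lit 296) (nat_lit 260)) (XT.lf (nat_lit 84) (nat_lit 2053062010) (nat_lit 0) (nat_lit 1525282163) (nat_lit 840) (nat_lit 3959979011) (nat_lit 166) (nat_lit 5) (nat_lit 165) (nat_lit 5) (nat_lit 175) (nat_lit 5) (nat_lit 309) (nat_lit 296) (nat_lit 259))) (XT.nd (nat_lit 94) (nat_lit 756) (nat_lit 0) (XT.lf (nat_lit 0) (nat_lit 5199981672) (nat_lit 756) (nat_lit 2123976484) (nat_lit 84) (nat_lit 299695042) (nat_lit 166) (nat_lit 5) (nat_lit 175) (nat_lit 5) (nat_lit 167) (nat_lit 5) (nat_lit 310) (nat_lit 296) (nat_lit 258)) (XT.lf (nat_lit 0) (nat_lit 1314071823) (nat_lit 756) (nat_lit 5535028604) (nat_lit 840)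 (nat_lit 863468198) (nat_lit 157) (nat_lit 5) (nat_lit 166) (nat_lit 5) (nat_lit 167) (nat_lit 5) (nat_lit 311) (nat_lit 296) (nat_lit 257)))))) (XT.nd (nat_lit 752) (nat_lit 2772) (nat_lit 0) (XT.nd (nat_lit 376) (nat_lit 2016) (nat_lit 0) (XT.nd (nat_lit 188) (nat_lit 0) (nat_lit 0) (XT.nd (nat_lit 94) (nat_lit 840) (nat_lit 0) (XT.lf (nat_lit 0) (nat_lit 701494628) (nat_lit 840) (nat_lit 2946636852) (nat_lit 84) (nat_lit 4156986115) (nat_lit 156) (nat_lit 5) (nat_lit 166) (nat_lit 5) (nat_lit 157) (nat_lit 5) (nat_lit 312) (nat_lit 296) (nat_lit 256)) (XT.lf (nat_lit 0) (nat_lit 577011167) (nat_lit 840) (nat_lit 1676289721) (nat_lit 924) (nat_lit 5648529940) (nat_lit 146) (nat_lit 5) (nat_lit 156) (nat_lit 5) (nat_lit 157) (nat_lit 5) (nat_lit 313) (nat_lit 296) (nat_lit 255))) (XT.nd (nat_lit 94) (nat_lit 0) (nat_lit 0) (XT.lf (nat_lit 0) (nat_lit 3839584803) (nat_lit 924) (nat_lit 3771522941)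 (nat_lit 84) (nat_lit 391063747) (nat_lit 146) (nat_lit 5) (nat_lit 157) (nat_lit 5) (nat_lit 147) (nat_lit 5) (nat_lit 314) (nat_lit 296) (nat_lit 254)) (XT.lf (nat_lit 0) (nat_lit 5445400382) (nat_lit 924) (nat_lit 163473412) (nat_lit 84) (nat_lit 2497868482) (nat_lit 146) (nat_lit 5) (nat_lit 157) (nat_lit 5) (nat_lit 147) (nat_lit 5) (nat_lit 315) (nat_lit 296) (nat_lit 253)))) (XT.nd (nat_lit 188) (nat_lit 1008) (nat_lit 0) (XT.nd (nat_lit 94) (nat_lit 84) (nat_lit 0) (XT.lf (nat_lit 0) (nat_lit 3591685466) (nat_lit 924) (nat_lit 3499559908) (nat_lit 1008) (nat_lit 1123806248) (nat_lit 135) (nat_lit 5) (nat_lit 146) (nat_lit 5) (nat_lit 147) (nat_lit 5) (nat_lit 316) (nat_lit 296) (nat_lit 252)) (XT.lf (nat_lit 0) (nat_lit 408801211) (nat_lit 1008) (nat_lit 902378122) (nat_lit 84) (nat_lit 7016922570) (nat_lit 134) (nat_lit 5) (nat_lit 146) (nat_lit 5) (nat_lit 135) (nat_lit 5) (nat_lit 317)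 (nat_lit 296) (nat_lit 251))) (XT.nd (nat_lit 94) (nat_lit 0) (nat_lit 0) (XT.lf (nat_lit 0) (nat_lit 1960985701) (nat_lit 1092) (nat_lit 5509682459) (nat_lit 84) (nat_lit 973952113) (nat_lit 122) (nat_lit 5) (nat_lit 135) (nat_lit 5) (nat_lit 123) (nat_lit 5) (nat_lit 318) (nat_lit 296) (nat_lit 250)) (XT.lf (nat_lit 0) (nat_lit 3541563510) (nat_lit 1092) (nat_lit 1705513019) (nat_lit 84) (nat_lit 3318457861) (nat_lit 122) (nat_lit 5) (nat_lit 135) (nat_lit 5) (nat_lit 123) (nat_lit 5) (nat_lit 319) (nat_lit 296) (nat_lit 249))))) (XT.nd (nat_lit 376) (nat_lit 1092) (nat_lit 0) (XT.nd (nat_lit 188) (nat_lit 588) (nat_lit 0) (XT.nd (nat_lit 94) (nat_lit 0) (nat_lit 0) (XT.lf (nat_lit 0) (nat_lit 2224658635) (nat_lit 1092) (nat_lit 2927181890) (nat_lit 1176) (nat_lit 3539121624) (nat_lit 109) (nat_lit 5) (nat_lit 122) (nat_lit 5) (nat_lit 123) (nat_lit 5) (nat_lit 320) (nat_lit 296) (nat_lit 248))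 (XT.lf (nat_lit 0) (nat_lit 6276444690) (nat_lit 1092) (nat_lit 512908873) (nat_lit 1176) (nat_lit 2031789784) (nat_lit 109) (nat_lit 5) (nat_lit 122) (nat_lit 5) (nat_lit 123) (nat_lit 5) (nat_lit 321) (nat_lit 296) (nat_lit 247))) (XT.nd (nat_lit 94) (nat_lit 84) (nat_lit 0) (XT.lf (nat_lit 0) (nat_lit 1471828719) (nat_lit 504) (nat_lit 7000777913) (nat_lit 588) (nat_lit 483066390) (nat_lit 103) (nat_lit 5) (nat_lit 109) (nat_lit 5) (nat_lit 110) (nat_lit 5) (nat_lit 322) (nat_lit 296) (nat_lit 246)) (XT.lf (nat_lit 0) (nat_lit 1084357608) (nat_lit 588) (nat_lit 3480574534) (nat_lit 84) (nat_lit 4529459365) (nat_lit 102) (nat_lit 5) (nat_lit 109) (nat_lit 5) (nat_lit 103) (nat_lit 5) (nat_lit 323) (nat_lit 296) (nat_lit 245)))) (XT.nd (nat_lit 188) (nat_lit 504) (nat_lit 0) (XT.nd (nat_lit 94) (nat_lit 0) (nat_lit 0) (XT.lf (nat_lit 0) (nat_lit 618156900) (nat_lit 588) (nat_lit 2040532938) (nat_lit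 672) (nat_lit 6579691735) (nat_lit 95) (nat_lit 5) (nat_lit 102) (nat_lit 5) (nat_lit 103) (nat_lit 5) (nat_lit 324) (nat_lit 296) (nat_lit 244)) (XT.lf (nat_lit 0) (nat_lit 4287117598) (nat_lit 672) (nat_lit 4511007224) (nat_lit 84) (nat_lit 588685564) (nat_lit 95) (nat_lit 5) (nat_lit 103) (nat_lit 5) (nat_lit 96) (nat_lit 5) (nat_lit 325) (nat_lit 296) (nat_lit 243))) (XT.nd (nat_lit 94) (nat_lit 504) (nat_lit 0) (XT.lf (nat_lit 0) (nat_lit 5951021858) (nat_lit 672) (nat_lit 331244388) (nat_lit 84) (nat_lit 3258174297) (nat_lit 95) (nat_lit 5) (nat_lit 103) (nat_lit 5) (nat_lit 96) (nat_lit 5) (nat_lit 326) (nat_lit 296) (nat_lit 242)) (XT.nd (nat_lit 94) (nat_lit 0) (nat_lit 0) (XT.lf (nat_lit 0) (nat_lit 4024282473) (nat_lit 504) (nat_lit 3647350116) (nat_lit 588) (nat_lit 2027172603) (nat_lit 89) (nat_lit 5) (nat_lit 95) (nat_lit 5) (nat_lit 96) (nat_lit 5) (nat_lit 327) (nat_lit 296) (nat_lit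 241)) (XT.lf (nat_lit 0) (nat_lit 8487317150) (nat_lit 504) (nat_lit 927630319) (nat_lit 588) (nat_lit 448208266) (nat_lit 89) (nat_lit 5) (nat_lit 95) (nat_lit 5) (nat_lit 96) (nat_lit 5) (nat_lit 328) (nat_lit 296) (nat_lit 240))))))))
noncomputable def xc37 : XT := (XT.nd (nat_lit 51418) (nat_lit 0) (nat_lit 7896) (XT.nd (nat_lit 752) (nat_lit 1176) (nat_lit 0) (XT.nd (nat_lit 376) (nat_lit 924) (nat_lit 0) (XT.nd (nat_lit 188) (nat_lit 420) (nat_lit 0) (XT.nd (nat_lit 94) (nat_lit 0) (nat_lit 0) (XT.lf (nat_lit 0) (nat_lit 1171921812) (nat_lit 588) (nat_lit 6979500491) (nat_lit 84) (nat_lit 1880439875) (nat_lit 82) (nat_lit 5) (nat_lit 89) (nat_lit 5) (nat_lit 83) (nat_lit 5) (nat_lit 329) (nat_lit 296) (nat_lit 239)) (XT.lf (nat_lit 0) (nat_lit 2824095073) (nat_lit 588) (nat_lit 2607650681) (nat_lit 84) (nat_lit 4774301450) (nat_lit 82) (nat_lit 5) (nat_lit 89) (nat_lit 5) (nat_lit 83) (nat_lit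 5) (nat_lit 330) (nat_lit 296) (nat_lit 238))) (XT.nd (nat_lit 94) (nat_lit 0) (nat_lit 0) (XT.lf (nat_lit 0) (nat_lit 1904061816) (nat_lit 420) (nat_lit 2610434825) (nat_lit 504) (nat_lit 5871650307) (nat_lit 77) (nat_lit 5) (nat_lit 82) (nat_lit 5) (nat_lit 83) (nat_lit 5) (nat_lit 331) (nat_lit 296) (nat_lit 237)) (XT.lf (nat_lit 0) (nat_lit 6256479765) (nat_lit 504) (nat_lit 3998042161) (nat_lit 84) (nat_lit 317442252) (nat_lit 77) (nat_lit 5) (nat_lit 83) (nat_lit 5) (nat_lit 78) (nat_lit 5) (nat_lit 332) (nat_lit 296) (nat_lit 236)))) (XT.nd (nat_lit 188) (nat_lit 504) (nat_lit 0) (XT.nd (nat_lit 94) (nat_lit 0) (nat_lit 0) (XT.lf (nat_lit 0) (nat_lit 576225183) (nat_lit 420) (nat_lit 7478317120) (nat_lit 504) (nat_lit 2709040693) (nat_lit 72) (nat_lit 5) (nat_lit 77) (nat_lit 5) (nat_lit 78) (nat_lit 5) (nat_lit 333) (nat_lit 296) (nat_lit 235)) (XT.lf (nat_lit 0) (nat_lit 5343700304) (nat_lit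 420) (nat_lit 4576620261) (nat_lit 504) (nat_lit 1040552673) (nat_lit 72) (nat_lit 5) (nat_lit 77) (nat_lit 5) (nat_lit 78) (nat_lit 5) (nat_lit 334) (nat_lit 296) (nat_lit 234))) (XT.nd (nat_lit 94) (nat_lit 420) (nat_lit 0) (XT.lf (nat_lit 0) (nat_lit 636711399) (nat_lit 504) (nat_lit 945100666) (nat_lit 84) (nat_lit 9583261683) (nat_lit 71) (nat_lit 5) (nat_lit 77) (nat_lit 5) (nat_lit 72) (nat_lit 5) (nat_lit 335) (nat_lit 296) (nat_lit 233)) (XT.lf (nat_lit 0) (nat_lit 2370155274) (nat_lit 504) (nat_lit 7482607438) (nat_lit 84) (nat_lit 1521805588) (nat_lit 66) (nat_lit 5) (nat_lit 72) (nat_lit 5) (nat_lit 67) (nat_lit 5) (nat_lit 336) (nat_lit 296) (nat_lit 232))))) (XT.nd (nat_lit 376) (nat_lit 420) (nat_lit 0) (XT.nd (nat_lit 188) (nat_lit 336) (nat_lit 0) (XT.nd (nat_lit 94) (nat_lit 420) (nat_lit 0) (XT.lf (nat_lit 0) (nat_lit 4155605835) (nat_lit 504) (nat_lit 2740166461) (nat_lit 84)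 (nat_lit 4694929230) (nat_lit 66) (nat_lit 5) (nat_lit 72) (nat_lit 5) (nat_lit 67) (nat_lit 5) (nat_lit 337) (nat_lit 296) (nat_lit 231)) (XT.lf (nat_lit 0) (nat_lit 2161171566) (nat_lit 420) (nat_lit 3829636905) (nat_lit 504) (nat_lit 5822987897) (nat_lit 61) (nat_lit 5) (nat_lit 66) (nat_lit 5) (nat_lit 67) (nat_lit 5) (nat_lit 338) (nat_lit 296) (nat_lit 230))) (XT.nd (nat_lit 94) (nat_lit 336) (nat_lit 0) (XT.lf (nat_lit 0) (nat_lit 7241200295) (nat_lit 420) (nat_lit 643769841) (nat_lit 504) (nat_lit 4158858252) (nat_lit 61) (nat_lit 5) (nat_lit 66) (nat_lit 5) (nat_lit 67) (nat_lit 5) (nat_lit 339) (nat_lit 296) (nat_lit 229)) (XT.lf (nat_lit 0) (nat_lit 143172617) (nat_lit 336) (nat_lit 9696513730) (nat_lit 420) (nat_lit 2441330922) (nat_lit 57) (nat_lit 5) (nat_lit 61) (nat_lit 5) (nat_lit 62) (nat_lit 5) (nat_lit 340) (nat_lit 296) (nat_lit 228)))) (XT.nd (nat_lit 188) (nat_lit 336) (nat_lit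 0) (XT.nd (nat_lit 94) (nat_lit 84) (nat_lit 0) (XT.lf (nat_lit 0) (nat_lit 5306470057) (nat_lit 336) (nat_lit 6579862007) (nat_lit 420) (nat_lit 638335893) (nat_lit 57) (nat_lit 5) (nat_lit 61) (nat_lit 5) (nat_lit 62) (nat_lit 5) (nat_lit 341) (nat_lit 296) (nat_lit 227)) (XT.lf (nat_lit 0) (nat_lit 1171080420) (nat_lit 420) (nat_lit 2188724291) (nat_lit 84) (nat_lit 9416538568) (nat_lit 56) (nat_lit 5) (nat_lit 61) (nat_lit 5) (nat_lit 57) (nat_lit 5) (nat_lit 342) (nat_lit 296) (nat_lit 226))) (XT.nd (nat_lit 49914) (nat_lit 0) (nat_lit 10752) (XT.lf (nat_lit 0) (nat_lit 3021352989) (nat_lit 336) (nat_lit 7816043) (nat_lit 420) (nat_lit 10006341328) (nat_lit 52) (nat_lit 5) (nat_lit 56) (nat_lit 5) (nat_lit 57) (nat_lit 5) (nat_lit 343) (nat_lit 296) (nat_lit 225)) (XT.nd (nat_lit 94) (nat_lit 588) (nat_lit 0) (XT.lf (nat_lit 0) (nat_lit 3136015992) (nat_lit 588) (nat_lit 140730466) (nat_lit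 588) (nat_lit 140730466) (nat_lit 187) (nat_lit 3) (nat_lit 194) (nat_lit 3) (nat_lit 194) (nat_lit 5) (nat_lit 297) (nat_lit 297) (nat_lit 270)) (XT.lf (nat_lit 0) (nat_lit 1154279641) (nat_lit 588) (nat_lit 4367230887) (nat_lit 672) (nat_lit 1357788793) (nat_lit 180) (nat_lit 5) (nat_lit 187) (nat_lit 3) (nat_lit 188) (nat_lit 5) (nat_lit 298) (nat_lit 297) (nat_lit 269))))))) (XT.nd (nat_lit 752) (nat_lit 2184) (nat_lit 0) (XT.nd (nat_lit 376) (nat_lit 0) (nat_lit 84) (XT.nd (nat_lit 188) (nat_lit 672) (nat_lit 0) (XT.nd (nat_lit 94) (nat_lit 0) (nat_lit 0) (XT.lf (nat_lit 0) (nat_lit 2847570130) (nat_lit 588) (nat_lit 1569752001) (nat_lit 672) (nat_lit 2509895441) (nat_lit 180) (nat_lit 5) (nat_lit 187) (nat_lit 3) (nat_lit 188) (nat_lit 5) (nat_lit 299) (nat_lit 297) (nat_lit 268)) (XT.lf (nat_lit 84) (nat_lit 1304652914) (nat_lit 0) (nat_lit 3235280265) (nat_lit 672) (nat_lit 2438681226) (nat_lit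 181) (nat_lit 5) (nat_lit 180) (nat_lit 5) (nat_lit 188) (nat_lit 5) (nat_lit 300) (nat_lit 297) (nat_lit 267))) (XT.nd (nat_lit 94) (nat_lit 672) (nat_lit 0) (XT.lf (nat_lit 84) (nat_lit 4265725929) (nat_lit 0) (nat_lit 1970697830) (nat_lit 672) (nat_lit 797006169) (nat_lit 181) (nat_lit 5) (nat_lit 180) (nat_lit 5) (nat_lit 188) (nat_lit 5) (nat_lit 301) (nat_lit 297) (nat_lit 266)) (XT.lf (nat_lit 84) (nat_lit 187276164) (nat_lit 0) (nat_lit 628371403) (nat_lit 756) (nat_lit 6276247329) (nat_lit 173) (nat_lit 5) (nat_lit 172) (nat_lit 5) (nat_lit 181) (nat_lit 5) (nat_lit 302) (nat_lit 297) (nat_lit 265)))) (XT.nd (nat_lit 188) (nat_lit 0) (nat_lit 0) (XT.nd (nat_lit 94) (nat_lit 0) (nat_lit 0) (XT.lf (nat_lit 0) (nat_lit 2436511052) (nat_lit 672) (nat_lit 3913063942) (nat_lit 756) (nat_lit 803424983) (nat_lit 173) (nat_lit 5) (nat_lit 181) (nat_lit 5) (nat_lit 182) (nat_lit 5) (nat_lit 303) (nat_lit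 297) (nat_lit 264)) (XT.lf (nat_lit 0) (nat_lit 4054002704) (nat_lit 672) (nat_lit 872423247) (nat_lit 756) (nat_lit 2291524932) (nat_lit 173) (nat_lit 5) (nat_lit 181) (nat_lit 5) (nat_lit 182) (nat_lit 5) (nat_lit 304) (nat_lit 297) (nat_lit 263))) (XT.nd (nat_lit 94) (nat_lit 0) (nat_lit 0) (XT.lf (nat_lit 84) (nat_lit 2272149825) (nat_lit 0) (nat_lit 3413786856) (nat_lit 756) (nat_lit 1600365973) (nat_lit 174) (nat_lit 5) (nat_lit 173) (nat_lit 5) (nat_lit 182) (nat_lit 5) (nat_lit 305) (nat_lit 297) (nat_lit 262)) (XT.lf (nat_lit 84) (nat_lit 5496958881) (nat_lit 0) (nat_lit 1823764715) (nat_lit 756) (nat_lit 37801831) (nat_lit 174) (nat_lit 5) (nat_lit 173) (nat_lit 5) (nat_lit 182) (nat_lit 5) (nat_lit 306) (nat_lit 297) (nat_lit 261))))) (XT.nd (nat_lit 376) (nat_lit 1512) (nat_lit 0) (XT.nd (nat_lit 188) (nat_lit 0) (nat_lit 84) (XT.nd (nat_lit 94) (nat_lit 0) (nat_lit 84) (XT.lf (nat_lit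 84) (nat_lit 1364563713) (nat_lit 0) (nat_lit 134521414) (nat_lit 840) (nat_lit 5934989330) (nat_lit 165) (nat_lit 5) (nat_lit 164) (nat_lit 5) (nat_lit 174) (nat_lit 5) (nat_lit 307) (nat_lit 297) (nat_lit 260)) (XT.lf (nat_lit 0) (nat_lit 3063961714) (nat_lit 756) (nat_lit 2835559940) (nat_lit 840) (nat_lit 1613265221) (nat_lit 165) (nat_lit 5) (nat_lit 174) (nat_lit 5) (nat_lit 175) (nat_lit 5) (nat_lit 308) (nat_lit 297) (nat_lit 259))) (XT.nd (nat_lit 94) (nat_lit 0) (nat_lit 0) (XT.lf (nat_lit 84) (nat_lit 470038249) (nat_lit 0) (nat_lit 4160545997) (nat_lit 840) (nat_lit 2965045806) (nat_lit 166) (nat_lit 5) (nat_lit 165) (nat_lit 5) (nat_lit 175) (nat_lit 5) (nat_lit 309) (nat_lit 297) (nat_lit 258)) (XT.lf (nat_lit 84) (nat_lit 3901894436) (nat_lit 0) (nat_lit 2321898494) (nat_lit 840) (nat_lit 1458163499) (nat_lit 166) (nat_lit 5) (nat_lit 165) (nat_lit 5) (nat_lit 175) (nat_lit 5) (nat_lit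 310) (nat_lit 297) (nat_lit 257)))) (XT.nd (nat_lit 188) (nat_lit 756) (nat_lit 0) (XT.nd (nat_lit 94) (nat_lit 0) (nat_lit 84) (XT.lf (nat_lit 0) (nat_lit 42749874) (nat_lit 840) (nat_lit 368266669) (nat_lit 924) (nat_lit 7361706447) (nat_lit 155) (nat_lit 5) (nat_lit 165) (nat_lit 5) (nat_lit 166) (nat_lit 5) (nat_lit 311) (nat_lit 297) (nat_lit 256)) (XT.lf (nat_lit 0) (nat_lit 1558120269) (nat_lit 840) (nat_lit 4719984654) (nat_lit 84) (nat_lit 1588004558) (nat_lit 156) (nat_lit 5) (nat_lit 166) (nat_lit 5) (nat_lit 157) (nat_lit 5) (nat_lit 312) (nat_lit 297) (nat_lit 255))) (XT.nd (nat_lit 94) (nat_lit 840) (nat_lit 0) (XT.lf (nat_lit 0) (nat_lit 3080583073) (nat_lit 840) (nat_lit 1226116154) (nat_lit 84) (nat_lit 3657134977) (nat_lit 156) (nat_lit 5) (nat_lit 166) (nat_lit 5) (nat_lit 157) (nat_lit 5) (nat_lit 313) (nat_lit 297) (nat_lit 254)) (XT.nd (nat_lit 94) (nat_lit 0) (nat_lit 0) (XT.lf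 (nat_lit 0) (nat_lit 2388421433) (nat_lit 840) (nat_lit 2238985546) (nat_lit 924) (nat_lit 3438089928) (nat_lit 146) (nat_lit 5) (nat_lit 156) (nat_lit 5) (nat_lit 157) (nat_lit 5) (nat_lit 314) (nat_lit 297) (nat_lit 253)) (XT.lf (nat_lit 0) (nat_lit 6105602559) (nat_lit 840) (nat_lit 83897173) (nat_lit 924) (nat_lit 1982019178) (nat_lit 146) (nat_lit 5) (nat_lit 156) (nat_lit 5) (nat_lit 157) (nat_lit 5) (nat_lit 315) (nat_lit 297) (nat_lit 252))))))))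
noncomputable def xc38 : XT := (XT.nd (nat_lit 1504) (nat_lit 2184) (nat_lit 0) (XT.nd (nat_lit 752) (nat_lit 1680) (nat_lit 0) (XT.nd (nat_lit 376) (nat_lit 1680) (nat_lit 0) (XT.nd (nat_lit 188) (nat_lit 1008) (nat_lit 0) (XT.nd (nat_lit 94) (nat_lit 84) (nat_lit 0) (XT.lf (nat_lit 0) (nat_lit 1632889590) (nat_lit 924) (nat_lit 6160519124) (nat_lit 1008) (nat_lit 487812489) (nat_lit 135) (nat_lit 5) (nat_lit 146) (nat_lit 5) (nat_lit 147) (nat_lit 5) (nat_lit 316) (nat_lit 297) (nat_lit 251)) (XT.lf (nat_lit 0) (nat_lit 1010481415) (nat_lit 1008) (nat_lit 2951722656) (nat_lit 84) (nat_lit 4432625745) (nat_lit 134) (nat_lit 5) (nat_lit 146) (nat_lit 5) (nat_lit 135) (nat_lit 5) (nat_lit 317) (nat_lit 297) (nat_lit 250))) (XT.nd (nat_lit 94) (nat_lit 0) (nat_lit 0) (XT.lf (nat_lit 0) (nat_lit 835733616) (nat_lit 1008) (nat_lit 1675293435) (nat_lit 1092) (nat_lit 6002006735) (nat_lit 122) (nat_lit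 5) (nat_lit 134) (nat_lit 5) (nat_lit 135) (nat_lit 5) (nat_lit 318) (nat_lit 297) (nat_lit 249)) (XT.lf (nat_lit 0) (nat_lit 4054617651) (nat_lit 1092) (nat_lit 3874605631) (nat_lit 84) (nat_lit 705953472) (nat_lit 122) (nat_lit 5) (nat_lit 135) (nat_lit 5) (nat_lit 123) (nat_lit 5) (nat_lit 319) (nat_lit 297) (nat_lit 248)))) (XT.nd (nat_lit 188) (nat_lit 588) (nat_lit 0) (XT.nd (nat_lit 94) (nat_lit 1092) (nat_lit 0) (XT.lf (nat_lit 0) (nat_lit 5623070110) (nat_lit 1092) (nat_lit 6805859) (nat_lit 84) (nat_lit 3132104879) (nat_lit 122) (nat_lit 5) (nat_lit 135) (nat_lit 5) (nat_lit 123) (nat_lit 5) (nat_lit 320) (nat_lit 297) (nat_lit 247)) (XT.lf (nat_lit 0) (nat_lit 4027467962) (nat_lit 1092) (nat_lit 3213712292) (nat_lit 1176) (nat_lit 1651660658) (nat_lit 109) (nat_lit 5) (nat_lit 122) (nat_lit 5) (nat_lit 123) (nat_lit 5) (nat_lit 321) (nat_lit 297) (nat_lit 246))) (XT.nd (nat_lit 94) (nat_lit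 588) (nat_lit 0) (XT.lf (nat_lit 0) (nat_lit 8152726318) (nat_lit 1092) (nat_lit 718709886) (nat_lit 1176) (nat_lit 157652342) (nat_lit 109) (nat_lit 5) (nat_lit 122) (nat_lit 5) (nat_lit 123) (nat_lit 5) (nat_lit 322) (nat_lit 297) (nat_lit 245)) (XT.lf (nat_lit 0) (nat_lit 1368520956) (nat_lit 588) (nat_lit 5934284428) (nat_lit 84) (nat_lit 1866047701) (nat_lit 102) (nat_lit 5) (nat_lit 109) (nat_lit 5) (nat_lit 103) (nat_lit 5) (nat_lit 323) (nat_lit 297) (nat_lit 244))))) (XT.nd (nat_lit 376) (nat_lit 588) (nat_lit 0) (XT.nd (nat_lit 188) (nat_lit 504) (nat_lit 0) (XT.nd (nat_lit 94) (nat_lit 588) (nat_lit 0) (XT.lf (nat_lit 0) (nat_lit 2918678785) (nat_lit 588) (nat_lit 1865273105) (nat_lit 84) (nat_lit 4529709148) (nat_lit 102) (nat_lit 5) (nat_lit 109) (nat_lit 5) (nat_lit 103) (nat_lit 5) (nat_lit 324) (nat_lit 297) (nat_lit 243)) (XT.lf (nat_lit 0) (nat_lit 2343073159) (nat_lit 588) (nat_lit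 2161519998) (nat_lit 672) (nat_lit 4958881032) (nat_lit 95) (nat_lit 5) (nat_lit 102) (nat_lit 5) (nat_lit 103) (nat_lit 5) (nat_lit 325) (nat_lit 297) (nat_lit 242))) (XT.nd (nat_lit 94) (nat_lit 504) (nat_lit 0) (XT.lf (nat_lit 0) (nat_lit 6129922454) (nat_lit 672) (nat_lit 2936373859) (nat_lit 84) (nat_lit 552068281) (nat_lit 95) (nat_lit 5) (nat_lit 103) (nat_lit 5) (nat_lit 96) (nat_lit 5) (nat_lit 326) (nat_lit 297) (nat_lit 241)) (XT.lf (nat_lit 0) (nat_lit 1348581901) (nat_lit 504) (nat_lit 6458790722) (nat_lit 588) (nat_lit 1970757084) (nat_lit 89) (nat_lit 5) (nat_lit 95) (nat_lit 5) (nat_lit 96) (nat_lit 5) (nat_lit 327) (nat_lit 297) (nat_lit 240)))) (XT.nd (nat_lit 188) (nat_lit 0) (nat_lit 0) (XT.nd (nat_lit 94) (nat_lit 588) (nat_lit 0) (XT.lf (nat_lit 0) (nat_lit 5795123565) (nat_lit 504) (nat_lit 3739282690) (nat_lit 588) (nat_lit 408639322) (nat_lit 89) (nat_lit 5) (nat_lit 95)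 (nat_lit 5) (nat_lit 96) (nat_lit 5) (nat_lit 328) (nat_lit 297) (nat_lit 239)) (XT.lf (nat_lit 0) (nat_lit 225785664) (nat_lit 504) (nat_lit 921624586) (nat_lit 588) (nat_lit 8966348402) (nat_lit 82) (nat_lit 5) (nat_lit 88) (nat_lit 5) (nat_lit 89) (nat_lit 5) (nat_lit 329) (nat_lit 297) (nat_lit 238))) (XT.nd (nat_lit 94) (nat_lit 0) (nat_lit 0) (XT.lf (nat_lit 0) (nat_lit 2774745367) (nat_lit 588) (nat_lit 5523734491) (nat_lit 84) (nat_lit 1990289106) (nat_lit 82) (nat_lit 5) (nat_lit 89) (nat_lit 5) (nat_lit 83) (nat_lit 5) (nat_lit 330) (nat_lit 297) (nat_lit 237)) (XT.lf (nat_lit 0) (nat_lit 4431034822) (nat_lit 588) (nat_lit 1066634782) (nat_lit 84) (nat_lit 4972310221) (nat_lit 82) (nat_lit 5) (nat_lit 89) (nat_lit 5) (nat_lit 83) (nat_lit 5) (nat_lit 331) (nat_lit 297) (nat_lit 236)))))) (XT.nd (nat_lit 752) (nat_lit 420) (nat_lit 0) (XT.nd (nat_lit 376) (nat_lit 840) (nat_lit 0) (XT.nd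 (nat_lit 188) (nat_lit 504) (nat_lit 0) (XT.nd (nat_lit 94) (nat_lit 0) (nat_lit 0) (XT.lf (nat_lit 0) (nat_lit 3568520997) (nat_lit 420) (nat_lit 2575558996) (nat_lit 504) (nat_lit 4512666168) (nat_lit 77) (nat_lit 5) (nat_lit 82) (nat_lit 5) (nat_lit 83) (nat_lit 5) (nat_lit 332) (nat_lit 297) (nat_lit 235)) (XT.lf (nat_lit 0) (nat_lit 7896388638) (nat_lit 504) (nat_lit 2516107691) (nat_lit 84) (nat_lit 437337483) (nat_lit 77) (nat_lit 5) (nat_lit 83) (nat_lit 5) (nat_lit 78) (nat_lit 5) (nat_lit 333) (nat_lit 297) (nat_lit 234))) (XT.nd (nat_lit 94) (nat_lit 84) (nat_lit 0) (XT.lf (nat_lit 0) (nat_lit 2183703911) (nat_lit 420) (nat_lit 7538779475) (nat_lit 504) (nat_lit 1325919806) (nat_lit 72) (nat_lit 5) (nat_lit 77) (nat_lit 5) (nat_lit 78) (nat_lit 5) (nat_lit 334) (nat_lit 297) (nat_lit 233)) (XT.lf (nat_lit 0) (nat_lit 343123378) (nat_lit 504) (nat_lit 4205577730) (nat_lit 84) (nat_lit 6704469479)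 (nat_lit 71) (nat_lit 5) (nat_lit 77) (nat_lit 5) (nat_lit 72) (nat_lit 5) (nat_lit 335) (nat_lit 297) (nat_lit 232)))) (XT.nd (nat_lit 188) (nat_lit 420) (nat_lit 0) (XT.nd (nat_lit 94) (nat_lit 0) (nat_lit 0) (XT.lf (nat_lit 0) (nat_lit 564704412) (nat_lit 420) (nat_lit 1449741214) (nat_lit 504) (nat_lit 9450189946) (nat_lit 66) (nat_lit 5) (nat_lit 71) (nat_lit 5) (nat_lit 72) (nat_lit 5) (nat_lit 336) (nat_lit 297) (nat_lit 231)) (XT.lf (nat_lit 0) (nat_lit 3772202916) (nat_lit 504) (nat_lit 6158697646) (nat_lit 84) (nat_lit 1750770048) (nat_lit 66) (nat_lit 5) (nat_lit 72) (nat_lit 5) (nat_lit 67) (nat_lit 5) (nat_lit 337) (nat_lit 297) (nat_lit 230))) (XT.nd (nat_lit 94) (nat_lit 420) (nat_lit 0) (XT.lf (nat_lit 0) (nat_lit 5573055056) (nat_lit 504) (nat_lit 1316022753) (nat_lit 84) (nat_lit 5016794526) (nat_lit 66) (nat_lit 5) (nat_lit 72) (nat_lit 5) (nat_lit 67) (nat_lit 5) (nat_lit 338)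 (nat_lit 297) (nat_lit 229)) (XT.lf (nat_lit 0) (nat_lit 3721978583) (nat_lit 420) (nat_lit 3719242923) (nat_lit 504) (nat_lit 4695529454) (nat_lit 61) (nat_lit 5) (nat_lit 66) (nat_lit 5) (nat_lit 67) (nat_lit 5) (nat_lit 339) (nat_lit 297) (nat_lit 228))))) (XT.nd (nat_lit 50384) (nat_lit 0) (nat_lit 9744) (XT.nd (nat_lit 188) (nat_lit 84) (nat_lit 0) (XT.nd (nat_lit 94) (nat_lit 336) (nat_lit 0) (XT.lf (nat_lit 0) (nat_lit 8914572458) (nat_lit 420) (nat_lit 441502917) (nat_lit 504) (nat_lit 3019139727) (nat_lit 61) (nat_lit 5) (nat_lit 66) (nat_lit 5) (nat_lit 67) (nat_lit 5) (nat_lit 340) (nat_lit 297) (nat_lit 227)) (XT.lf (nat_lit 0) (nat_lit 1621202031) (nat_lit 336) (nat_lit 9730058749) (nat_lit 420) (nat_lit 1269238621) (nat_lit 57) (nat_lit 5) (nat_lit 61) (nat_lit 5) (nat_lit 62) (nat_lit 5) (nat_lit 341) (nat_lit 297) (nat_lit 226))) (XT.nd (nat_lit 50102) (nat_lit 0) (nat_lit 10416)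 (XT.lf (nat_lit 0) (nat_lit 541007113) (nat_lit 420) (nat_lit 5978166243) (nat_lit 84) (nat_lit 6353599791) (nat_lit 56) (nat_lit 5) (nat_lit 61) (nat_lit 5) (nat_lit 57) (nat_lit 5) (nat_lit 342) (nat_lit 297) (nat_lit 225)) (XT.lf (nat_lit 0) (nat_lit 701108507) (nat_lit 0) (nat_lit 701108507) (nat_lit 588) (nat_lit 2060467826) (nat_lit 180) (nat_lit 5) (nat_lit 180) (nat_lit 3) (nat_lit 187) (nat_lit 3) (nat_lit 298) (nat_lit 298) (nat_lit 268)))) (XT.nd (nat_lit 188) (nat_lit 672) (nat_lit 0) (XT.nd (nat_lit 94) (nat_lit 0) (nat_lit 0) (XT.lf (nat_lit 0) (nat_lit 4243221130) (nat_lit 0) (nat_lit 210002039) (nat_lit 588) (nat_lit 2521610289) (nat_lit 180) (nat_lit 5) (nat_lit 180) (nat_lit 3) (nat_lit 187) (nat_lit 3) (nat_lit 299) (nat_lit 298) (nat_lit 267)) (XT.lf (nat_lit 84) (nat_lit 103442829) (nat_lit 0) (nat_lit 5996452014) (nat_lit 672) (nat_lit 927912875) (nat_lit 181) (nat_lit 5) (nat_lit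 180) (nat_lit 5) (nat_lit 188) (nat_lit 5) (nat_lit 300) (nat_lit 298) (nat_lit 266))) (XT.nd (nat_lit 94) (nat_lit 0) (nat_lit 0) (XT.lf (nat_lit 0) (nat_lit 668004066) (nat_lit 672) (nat_lit 4043041494) (nat_lit 756) (nat_lit 2372482339) (nat_lit 172) (nat_lit 5) (nat_lit 180) (nat_lit 5) (nat_lit 181) (nat_lit 5) (nat_lit 301) (nat_lit 298) (nat_lit 265)) (XT.nd (nat_lit 94) (nat_lit 0) (nat_lit 0) (XT.lf (nat_lit 0) (nat_lit 2232308157) (nat_lit 672) (nat_lit 1117057598) (nat_lit 756) (nat_lit 3793529962) (nat_lit 172) (nat_lit 5) (nat_lit 180) (nat_lit 5) (nat_lit 181) (nat_lit 5) (nat_lit 302) (nat_lit 298) (nat_lit 264)) (XT.lf (nat_lit 84) (nat_lit 1903878030) (nat_lit 0) (nat_lit 1900161544) (nat_lit 756) (nat_lit 3401626805) (nat_lit 173) (nat_lit 5) (nat_lit 172) (nat_lit 5) (nat_lit 181) (nat_lit 5) (nat_lit 303) (nat_lit 298) (nat_lit 263))))))))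
noncomputable def xc39 : XT := (XT.nd (nat_lit 1598) (nat_lit 4704) (nat_lit 0) (XT.nd (nat_lit 752) (nat_lit 2772) (nat_lit 0) (XT.nd (nat_lit 376) (nat_lit 756) (nat_lit 0) (XT.nd (nat_lit 188) (nat_lit 672) (nat_lit 0) (XT.nd (nat_lit 94) (nat_lit 0) (nat_lit 84) (XT.lf (nat_lit 84) (nat_lit 5008376391) (nat_lit 0) (nat_lit 369292937) (nat_lit 756) (nat_lit 1894445878) (nat_lit 173) (nat_lit 5) (nat_lit 172) (nat_lit 5) (nat_lit 181) (nat_lit 5) (nat_lit 304) (nat_lit 298) (nat_lit 262)) (XT.lf (nat_lit 84) (nat_lit 838367128) (nat_lit 0) (nat_lit 6125536163) (nat_lit 756) (nat_lit 378114434) (nat_lit 174) (nat_lit 5) (nat_lit 173) (nat_lit 5) (nat_lit 182) (nat_lit 5) (nat_lit 305) (nat_lit 298) (nat_lit 261))) (XT.nd (nat_lit 94) (nat_lit 0) (nat_lit 0) (XT.lf (nat_lit 0) (nat_lit 1133034331) (nat_lit 756) (nat_lit 3380575284) (nat_lit 840) (nat_lit 2901246836) (nat_lit 164) (nat_lit 5) (nat_lit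 173) (nat_lit 5) (nat_lit 174) (nat_lit 5) (nat_lit 306) (nat_lit 298) (nat_lit 260)) (XT.lf (nat_lit 0) (nat_lit 2628900084) (nat_lit 756) (nat_lit 199539985) (nat_lit 840) (nat_lit 4663324151) (nat_lit 164) (nat_lit 5) (nat_lit 173) (nat_lit 5) (nat_lit 174) (nat_lit 5) (nat_lit 307) (nat_lit 298) (nat_lit 259)))) (XT.nd (nat_lit 188) (nat_lit 756) (nat_lit 0) (XT.nd (nat_lit 94) (nat_lit 0) (nat_lit 84) (XT.lf (nat_lit 84) (nat_lit 3108806829) (nat_lit 0) (nat_lit 1040528211) (nat_lit 840) (nat_lit 3422637925) (nat_lit 165) (nat_lit 5) (nat_lit 164) (nat_lit 5) (nat_lit 174) (nat_lit 5) (nat_lit 308) (nat_lit 298) (nat_lit 258)) (XT.lf (nat_lit 0) (nat_lit 5675755334) (nat_lit 756) (nat_lit 1174242344) (nat_lit 840) (nat_lit 806179805) (nat_lit 165) (nat_lit 5) (nat_lit 174) (nat_lit 5) (nat_lit 175) (nat_lit 5) (nat_lit 309) (nat_lit 298) (nat_lit 257))) (XT.nd (nat_lit 94) (nat_lit 840) (nat_lit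 0) (XT.lf (nat_lit 84) (nat_lit 2216120108) (nat_lit 0) (nat_lit 5016324654) (nat_lit 840) (nat_lit 511302806) (nat_lit 166) (nat_lit 5) (nat_lit 165) (nat_lit 5) (nat_lit 175) (nat_lit 5) (nat_lit 310) (nat_lit 298) (nat_lit 256)) (XT.lf (nat_lit 0) (nat_lit 946292515) (nat_lit 840) (nat_lit 2142655812) (nat_lit 924) (nat_lit 4746131087) (nat_lit 155) (nat_lit 5) (nat_lit 165) (nat_lit 5) (nat_lit 166) (nat_lit 5) (nat_lit 311) (nat_lit 298) (nat_lit 255))))) (XT.nd (nat_lit 376) (nat_lit 2016) (nat_lit 0) (XT.nd (nat_lit 188) (nat_lit 756) (nat_lit 0) (XT.nd (nat_lit 94) (nat_lit 0) (nat_lit 84) (XT.lf (nat_lit 84) (nat_lit 1334571884) (nat_lit 0) (nat_lit 1069366600) (nat_lit 924) (nat_lit 5526418722) (nat_lit 156) (nat_lit 5) (nat_lit 155) (nat_lit 5) (nat_lit 166) (nat_lit 5) (nat_lit 312) (nat_lit 298) (nat_lit 254)) (XT.lf (nat_lit 0) (nat_lit 3892883792) (nat_lit 840) (nat_lit 3108916748)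 (nat_lit 84) (nat_lit 1027419210) (nat_lit 156) (nat_lit 5) (nat_lit 166) (nat_lit 5) (nat_lit 157) (nat_lit 5) (nat_lit 313) (nat_lit 298) (nat_lit 253))) (XT.nd (nat_lit 94) (nat_lit 0) (nat_lit 0) (XT.lf (nat_lit 0) (nat_lit 449476688) (nat_lit 840) (nat_lit 4948776026) (nat_lit 924) (nat_lit 2734010656) (nat_lit 146) (nat_lit 5) (nat_lit 156) (nat_lit 5) (nat_lit 157) (nat_lit 5) (nat_lit 314) (nat_lit 298) (nat_lit 252)) (XT.lf (nat_lit 0) (nat_lit 4149751985) (nat_lit 840) (nat_lit 2788873480) (nat_lit 924) (nat_lit 1300426157) (nat_lit 146) (nat_lit 5) (nat_lit 156) (nat_lit 5) (nat_lit 157) (nat_lit 5) (nat_lit 315) (nat_lit 298) (nat_lit 251)))) (XT.nd (nat_lit 188) (nat_lit 1008) (nat_lit 0) (XT.nd (nat_lit 94) (nat_lit 924) (nat_lit 0) (XT.lf (nat_lit 0) (nat_lit 130617315) (nat_lit 924) (nat_lit 420549671) (nat_lit 84) (nat_lit 7799451790) (nat_lit 145) (nat_lit 5) (nat_lit 156) (nat_lit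 5) (nat_lit 146) (nat_lit 5) (nat_lit 316) (nat_lit 298) (nat_lit 250)) (XT.lf (nat_lit 0) (nat_lit 1588460758) (nat_lit 1008) (nat_lit 5100193429) (nat_lit 84) (nat_lit 1776457270) (nat_lit 134) (nat_lit 5) (nat_lit 146) (nat_lit 5) (nat_lit 135) (nat_lit 5) (nat_lit 317) (nat_lit 298) (nat_lit 249))) (XT.nd (nat_lit 94) (nat_lit 1008) (nat_lit 0) (XT.lf (nat_lit 0) (nat_lit 3060489581) (nat_lit 1008) (nat_lit 1346574952) (nat_lit 84) (nat_lit 4177217163) (nat_lit 134) (nat_lit 5) (nat_lit 146) (nat_lit 5) (nat_lit 135) (nat_lit 5) (nat_lit 318) (nat_lit 298) (nat_lit 248)) (XT.nd (nat_lit 94) (nat_lit 0) (nat_lit 0) (XT.lf (nat_lit 0) (nat_lit 2541115396) (nat_lit 1008) (nat_lit 2022399770) (nat_lit 1092) (nat_lit 4144246786) (nat_lit 122) (nat_lit 5) (nat_lit 134) (nat_lit 5) (nat_lit 135) (nat_lit 5) (nat_lit 319) (nat_lit 298) (nat_lit 247)) (XT.lf (nat_lit 0) (nat_lit 6092743515) (nat_lit 1092)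 (nat_lit 2295806608) (nat_lit 84) (nat_lit 447309247) (nat_lit 122) (nat_lit 5) (nat_lit 135) (nat_lit 5) (nat_lit 123) (nat_lit 5) (nat_lit 320) (nat_lit 298) (nat_lit 246))))))) (XT.nd (nat_lit 752) (nat_lit 1932) (nat_lit 0) (XT.nd (nat_lit 376) (nat_lit 1092) (nat_lit 0) (XT.nd (nat_lit 188) (nat_lit 504) (nat_lit 0) (XT.nd (nat_lit 94) (nat_lit 84) (nat_lit 0) (XT.lf (nat_lit 0) (nat_lit 1674550720) (nat_lit 1092) (nat_lit 5994376204) (nat_lit 1176) (nat_lit 1299167287) (nat_lit 109) (nat_lit 5) (nat_lit 122) (nat_lit 5) (nat_lit 123) (nat_lit 5) (nat_lit 321) (nat_lit 298) (nat_lit 245)) (XT.lf (nat_lit 0) (nat_lit 172469256) (nat_lit 1176) (nat_lit 3323258811) (nat_lit 84) (nat_lit 5609196293) (nat_lit 108) (nat_lit 5) (nat_lit 122) (nat_lit 5) (nat_lit 109) (nat_lit 5) (nat_lit 322) (nat_lit 298) (nat_lit 244))) (XT.nd (nat_lit 94) (nat_lit 0) (nat_lit 0) (XT.lf (nat_lit 0) (nat_lit 738617306)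 (nat_lit 504) (nat_lit 895111959) (nat_lit 588) (nat_lit 7612893480) (nat_lit 102) (nat_lit 5) (nat_lit 108) (nat_lit 5) (nat_lit 109) (nat_lit 5) (nat_lit 323) (nat_lit 298) (nat_lit 243)) (XT.lf (nat_lit 0) (nat_lit 3157507755) (nat_lit 588) (nat_lit 4446860980) (nat_lit 84) (nat_lit 1787946143) (nat_lit 102) (nat_lit 5) (nat_lit 109) (nat_lit 5) (nat_lit 103) (nat_lit 5) (nat_lit 324) (nat_lit 298) (nat_lit 242)))) (XT.nd (nat_lit 188) (nat_lit 504) (nat_lit 0) (XT.nd (nat_lit 94) (nat_lit 588) (nat_lit 0) (XT.lf (nat_lit 0) (nat_lit 4703205014) (nat_lit 588) (nat_lit 301965373) (nat_lit 84) (nat_lit 4538268797) (nat_lit 102) (nat_lit 5) (nat_lit 109) (nat_lit 5) (nat_lit 103) (nat_lit 5) (nat_lit 325) (nat_lit 298) (nat_lit 241)) (XT.lf (nat_lit 0) (nat_lit 4020427127) (nat_lit 588) (nat_lit 2282838179) (nat_lit 672) (nat_lit 3395910109) (nat_lit 95) (nat_lit 5) (nat_lit 102) (nat_lit 5) (nat_lit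 103) (nat_lit 5) (nat_lit 326) (nat_lit 298) (nat_lit 240))) (XT.nd (nat_lit 94) (nat_lit 504) (nat_lit 0) (XT.lf (nat_lit 0) (nat_lit 7928573705) (nat_lit 672) (nat_lit 1414478125) (nat_lit 84) (nat_lit 517565702) (nat_lit 95) (nat_lit 5) (nat_lit 103) (nat_lit 5) (nat_lit 96) (nat_lit 5) (nat_lit 327) (nat_lit 298) (nat_lit 239)) (XT.lf (nat_lit 0) (nat_lit 2986981864) (nat_lit 504) (nat_lit 6638513448) (nat_lit 588) (nat_lit 401030349) (nat_lit 89) (nat_lit 5) (nat_lit 95) (nat_lit 5) (nat_lit 96) (nat_lit 5) (nat_lit 328) (nat_lit 298) (nat_lit 238))))) (XT.nd (nat_lit 376) (nat_lit 924) (nat_lit 0) (XT.nd (nat_lit 188) (nat_lit 420) (nat_lit 0) (XT.nd (nat_lit 94) (nat_lit 504) (nat_lit 0) (XT.lf (nat_lit 0) (nat_lit 1137096692) (nat_lit 588) (nat_lit 2686351403) (nat_lit 84) (nat_lit 6374394451) (nat_lit 88) (nat_lit 5) (nat_lit 95) (nat_lit 5) (nat_lit 89) (nat_lit 5) (nat_lit 329) (nat_lit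 298) (nat_lit 237)) (XT.lf (nat_lit 0) (nat_lit 1802705202) (nat_lit 504) (nat_lit 899161308) (nat_lit 588) (nat_lit 7672979513) (nat_lit 82) (nat_lit 5) (nat_lit 88) (nat_lit 5) (nat_lit 89) (nat_lit 5) (nat_lit 330) (nat_lit 298) (nat_lit 236))) (XT.nd (nat_lit 94) (nat_lit 420) (nat_lit 0) (XT.lf (nat_lit 0) (nat_lit 4334470331) (nat_lit 588) (nat_lit 4121882899) (nat_lit 84) (nat_lit 2100489938) (nat_lit 82) (nat_lit 5) (nat_lit 89) (nat_lit 5) (nat_lit 83) (nat_lit 5) (nat_lit 331) (nat_lit 298) (nat_lit 235)) (XT.lf (nat_lit 0) (nat_lit 434848706) (nat_lit 420) (nat_lit 5567258512) (nat_lit 504) (nat_lit 4742960404) (nat_lit 77) (nat_lit 5) (nat_lit 82) (nat_lit 5) (nat_lit 83) (nat_lit 5) (nat_lit 332) (nat_lit 298) (nat_lit 234)))) (XT.nd (nat_lit 188) (nat_lit 924) (nat_lit 0) (XT.nd (nat_lit 94) (nat_lit 0) (nat_lit 0) (XT.lf (nat_lit 0) (nat_lit 5189485851) (nat_lit 420) (nat_lit 2546461007)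 (nat_lit 504) (nat_lit 3202829903) (nat_lit 77) (nat_lit 5) (nat_lit 82) (nat_lit 5) (nat_lit 83) (nat_lit 5) (nat_lit 333) (nat_lit 298) (nat_lit 233)) (XT.lf (nat_lit 0) (nat_lit 9501488118) (nat_lit 504) (nat_lit 1083351906) (nat_lit 84) (nat_lit 554430748) (nat_lit 77) (nat_lit 5) (nat_lit 83) (nat_lit 5) (nat_lit 78) (nat_lit 5) (nat_lit 334) (nat_lit 298) (nat_lit 232))) (XT.nd (nat_lit 94) (nat_lit 420) (nat_lit 0) (XT.lf (nat_lit 0) (nat_lit 12913390) (nat_lit 504) (nat_lit 7598218254) (nat_lit 84) (nat_lit 3733810637) (nat_lit 71) (nat_lit 5) (nat_lit 77) (nat_lit 5) (nat_lit 72) (nat_lit 5) (nat_lit 335) (nat_lit 298) (nat_lit 231)) (XT.nd (nat_lit 94) (nat_lit 420) (nat_lit 0) (XT.lf (nat_lit 0) (nat_lit 1665490791) (nat_lit 504) (nat_lit 2854160471) (nat_lit 84) (nat_lit 7037380414) (nat_lit 71) (nat_lit 5) (nat_lit 77) (nat_lit 5) (nat_lit 72) (nat_lit 5) (nat_lit 336) (nat_lit 298)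 (nat_lit 230)) (XT.lf (nat_lit 0) (nat_lit 2048998623) (nat_lit 420) (nat_lit 1314735151) (nat_lit 504) (nat_lit 8412219902) (nat_lit 66) (nat_lit 5) (nat_lit 71) (nat_lit 5) (nat_lit 72) (nat_lit 5) (nat_lit 337) (nat_lit 298) (nat_lit 229))))))))
noncomputable def xc40 : XT := (XT.nd (nat_lit 51606) (nat_lit 0) (nat_lit 3192) (XT.nd (nat_lit 50854) (nat_lit 0) (nat_lit 8904) (XT.nd (nat_lit 376) (nat_lit 336) (nat_lit 0) (XT.nd (nat_lit 188) (nat_lit 0) (nat_lit 0) (XT.nd (nat_lit 94) (nat_lit 420) (nat_lit 0) (XT.lf (nat_lit 0) (nat_lit 5139020391) (nat_lit 504) (nat_lit 4885903531) (nat_lit 84) (nat_lit 1976064763) (nat_lit 66) (nat_lit 5) (nat_lit 72) (nat_lit 5) (nat_lit 67) (nat_lit 5) (nat_lit 338) (nat_lit 298) (nat_lit 228)) (XT.lf (nat_lit 0) (nat_lit 64176504) (nat_lit 420) (nat_lit 6894577845) (nat_lit 504) (nat_lit 5274653896) (nat_lit 61) (nat_lit 5) (nat_lit 66) (nat_lit 5) (nat_lit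 67) (nat_lit 5) (nat_lit 339) (nat_lit 298) (nat_lit 227))) (XT.nd (nat_lit 94) (nat_lit 0) (nat_lit 0) (XT.lf (nat_lit 0) (nat_lit 5242689652) (nat_lit 420) (nat_lit 3618997467) (nat_lit 504) (nat_lit 3610593165) (nat_lit 61) (nat_lit 5) (nat_lit 66) (nat_lit 5) (nat_lit 67) (nat_lit 5) (nat_lit 340) (nat_lit 298) (nat_lit 226)) (XT.lf (nat_lit 0) (nat_lit 10553998630) (nat_lit 420) (nat_lit 246128415) (nat_lit 504) (nat_lit 1919233833) (nat_lit 61) (nat_lit 5) (nat_lit 66) (nat_lit 5) (nat_lit 67) (nat_lit 5) (nat_lit 341) (nat_lit 298) (nat_lit 225)))) (XT.nd (nat_lit 50290) (nat_lit 0) (nat_lit 9576) (XT.nd (nat_lit 50196) (nat_lit 0) (nat_lit 10332) (XT.lf (nat_lit 0) (nat_lit 3057767034) (nat_lit 336) (nat_lit 9780461308) (nat_lit 420) (nat_lit 134719223) (nat_lit 57) (nat_lit 5) (nat_lit 61) (nat_lit 5) (nat_lit 62) (nat_lit 5) (nat_lit 342) (nat_lit 298) (nat_lit 224)) (XT.lf (nat_lit 0)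 (nat_lit 1517540589) (nat_lit 0) (nat_lit 1517540589) (nat_lit 588) (nat_lit 477641610) (nat_lit 180) (nat_lit 5) (nat_lit 180) (nat_lit 3) (nat_lit 187) (nat_lit 3) (nat_lit 299) (nat_lit 299) (nat_lit 266))) (XT.nd (nat_lit 94) (nat_lit 0) (nat_lit 0) (XT.lf (nat_lit 0) (nat_lit 582615803) (nat_lit 756) (nat_lit 1169420646) (nat_lit 756) (nat_lit 5327669528) (nat_lit 171) (nat_lit 3) (nat_lit 180) (nat_lit 3) (nat_lit 180) (nat_lit 5) (nat_lit 300) (nat_lit 299) (nat_lit 265)) (XT.lf (nat_lit 84) (nat_lit 1732103553) (nat_lit 0) (nat_lit 371645801) (nat_lit 756) (nat_lit 5033277080) (nat_lit 172) (nat_lit 5) (nat_lit 171) (nat_lit 3) (nat_lit 180) (nat_lit 5) (nat_lit 301) (nat_lit 299) (nat_lit 264))))) (XT.nd (nat_lit 376) (nat_lit 0) (nat_lit 84) (XT.nd (nat_lit 188) (nat_lit 756) (nat_lit 0) (XT.nd (nat_lit 94) (nat_lit 0) (nat_lit 0) (XT.lf (nat_lit 0) (nat_lit 3634847813) (nat_lit 672) (nat_lit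 2492048209) (nat_lit 756) (nat_lit 1070670093) (nat_lit 172) (nat_lit 5) (nat_lit 180) (nat_lit 5) (nat_lit 181) (nat_lit 5) (nat_lit 302) (nat_lit 299) (nat_lit 263)) (XT.lf (nat_lit 84) (nat_lit 483988841) (nat_lit 0) (nat_lit 4679873621) (nat_lit 756) (nat_lit 2097936737) (nat_lit 173) (nat_lit 5) (nat_lit 172) (nat_lit 5) (nat_lit 181) (nat_lit 5) (nat_lit 303) (nat_lit 299) (nat_lit 262))) (XT.nd (nat_lit 94) (nat_lit 756) (nat_lit 0) (XT.lf (nat_lit 84) (nat_lit 3572361158) (nat_lit 0) (nat_lit 3137200677) (nat_lit 756) (nat_lit 619686080) (nat_lit 173) (nat_lit 5) (nat_lit 172) (nat_lit 5) (nat_lit 181) (nat_lit 5) (nat_lit 304) (nat_lit 299) (nat_lit 261)) (XT.lf (nat_lit 0) (nat_lit 830326465) (nat_lit 756) (nat_lit 684457759) (nat_lit 840) (nat_lit 5885712436) (nat_lit 163) (nat_lit 5) (nat_lit 172) (nat_lit 5) (nat_lit 173) (nat_lit 5) (nat_lit 305) (nat_lit 299) (nat_lit 260)))) (XT.nd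 (nat_lit 188) (nat_lit 0) (nat_lit 0) (XT.nd (nat_lit 94) (nat_lit 0) (nat_lit 0) (XT.lf (nat_lit 0) (nat_lit 2285106884) (nat_lit 756) (nat_lit 4982048045) (nat_lit 840) (nat_lit 207697749) (nat_lit 164) (nat_lit 5) (nat_lit 173) (nat_lit 5) (nat_lit 174) (nat_lit 5) (nat_lit 306) (nat_lit 299) (nat_lit 259)) (XT.lf (nat_lit 0) (nat_lit 3755053197) (nat_lit 756) (nat_lit 1817721809) (nat_lit 840) (nat_lit 1979907582) (nat_lit 164) (nat_lit 5) (nat_lit 173) (nat_lit 5) (nat_lit 174) (nat_lit 5) (nat_lit 307) (nat_lit 299) (nat_lit 258))) (XT.nd (nat_lit 94) (nat_lit 0) (nat_lit 0) (XT.lf (nat_lit 84) (nat_lit 1440811969) (nat_lit 0) (nat_lit 3792989370) (nat_lit 840) (nat_lit 2400497356) (nat_lit 165) (nat_lit 5) (nat_lit 164) (nat_lit 5) (nat_lit 174) (nat_lit 5) (nat_lit 308) (nat_lit 299) (nat_lit 257)) (XT.lf (nat_lit 84) (nat_lit 4806312564) (nat_lit 0) (nat_lit 1921203890) (nat_lit 840) (nat_lit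 992112229) (nat_lit 165) (nat_lit 5) (nat_lit 164) (nat_lit 5) (nat_lit 174) (nat_lit 5) (nat_lit 309) (nat_lit 299) (nat_lit 256)))))) (XT.nd (nat_lit 752) (nat_lit 3276) (nat_lit 0) (XT.nd (nat_lit 376) (nat_lit 1764) (nat_lit 0) (XT.nd (nat_lit 188) (nat_lit 0) (nat_lit 0) (XT.nd (nat_lit 94) (nat_lit 0) (nat_lit 0) (XT.lf (nat_lit 0) (nat_lit 406310349) (nat_lit 840) (nat_lit 7369381181) (nat_lit 924) (nat_lit 33359218) (nat_lit 155) (nat_lit 5) (nat_lit 165) (nat_lit 5) (nat_lit 166) (nat_lit 5) (nat_lit 310) (nat_lit 299) (nat_lit 255)) (XT.lf (nat_lit 0) (nat_lit 1830092014) (nat_lit 840) (nat_lit 4006388316) (nat_lit 924) (nat_lit 2064575741) (nat_lit 155) (nat_lit 5) (nat_lit 165) (nat_lit 5) (nat_lit 166) (nat_lit 5) (nat_lit 311) (nat_lit 299) (nat_lit 254))) (XT.nd (nat_lit 94) (nat_lit 0) (nat_lit 0) (XT.lf (nat_lit 0) (nat_lit 3251693777) (nat_lit 840) (nat_lit 572447520) (nat_lit 924)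 (nat_lit 4173408717) (nat_lit 155) (nat_lit 5) (nat_lit 165) (nat_lit 5) (nat_lit 166) (nat_lit 5) (nat_lit 312) (nat_lit 299) (nat_lit 253)) (XT.lf (nat_lit 84) (nat_lit 2996004818) (nat_lit 0) (nat_lit 1706156640) (nat_lit 924) (nat_lit 3395539718) (nat_lit 156) (nat_lit 5) (nat_lit 155) (nat_lit 5) (nat_lit 166) (nat_lit 5) (nat_lit 313) (nat_lit 299) (nat_lit 252)))) (XT.nd (nat_lit 188) (nat_lit 1008) (nat_lit 0) (XT.nd (nat_lit 94) (nat_lit 840) (nat_lit 0) (XT.lf (nat_lit 0) (nat_lit 6164593938) (nat_lit 840) (nat_lit 1551998803) (nat_lit 84) (nat_lit 485576013) (nat_lit 156) (nat_lit 5) (nat_lit 166) (nat_lit 5) (nat_lit 157) (nat_lit 5) (nat_lit 314) (nat_lit 299) (nat_lit 251)) (XT.lf (nat_lit 0) (nat_lit 2099966708) (nat_lit 840) (nat_lit 5568220461) (nat_lit 924) (nat_lit 642000138) (nat_lit 146) (nat_lit 5) (nat_lit 156) (nat_lit 5) (nat_lit 157) (nat_lit 5) (nat_lit 315) (nat_lit 299)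 (nat_lit 250))) (XT.nd (nat_lit 94) (nat_lit 924) (nat_lit 0) (XT.lf (nat_lit 0) (nat_lit 755049378) (nat_lit 924) (nat_lit 2564417778) (nat_lit 84) (nat_lit 5102812192) (nat_lit 145) (nat_lit 5) (nat_lit 156) (nat_lit 5) (nat_lit 146) (nat_lit 5) (nat_lit 316) (nat_lit 299) (nat_lit 249)) (XT.lf (nat_lit 0) (nat_lit 1179260883) (nat_lit 924) (nat_lit 973676084) (nat_lit 1008) (nat_lit 6385775942) (nat_lit 134) (nat_lit 5) (nat_lit 145) (nat_lit 5) (nat_lit 146) (nat_lit 5) (nat_lit 317) (nat_lit 299) (nat_lit 248))))) (XT.nd (nat_lit 376) (nat_lit 2268) (nat_lit 0) (XT.nd (nat_lit 188) (nat_lit 0) (nat_lit 0) (XT.nd (nat_lit 94) (nat_lit 1008) (nat_lit 0) (XT.lf (nat_lit 0) (nat_lit 3595688728) (nat_lit 1008) (nat_lit 3612663046) (nat_lit 84) (nat_lit 1450518736) (nat_lit 134) (nat_lit 5) (nat_lit 146) (nat_lit 5) (nat_lit 135) (nat_lit 5) (nat_lit 318) (nat_lit 299) (nat_lit 247)) (XT.lf (nat_lit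 0) (nat_lit 212110330) (nat_lit 1008) (nat_lit 4844471765) (nat_lit 1092) (nat_lit 3727152146) (nat_lit 122) (nat_lit 5) (nat_lit 134) (nat_lit 5) (nat_lit 135) (nat_lit 5) (nat_lit 319) (nat_lit 299) (nat_lit 246))) (XT.nd (nat_lit 94) (nat_lit 0) (nat_lit 0) (XT.lf (nat_lit 0) (nat_lit 4199885888) (nat_lit 1008) (nat_lit 2362782845) (nat_lit 1092) (nat_lit 2349955365) (nat_lit 122) (nat_lit 5) (nat_lit 134) (nat_lit 5) (nat_lit 135) (nat_lit 5) (nat_lit 320) (nat_lit 299) (nat_lit 245)) (XT.lf (nat_lit 0) (nat_lit 8080774617) (nat_lit 1092) (nat_lit 768694269) (nat_lit 84) (nat_lit 197263250) (nat_lit 122) (nat_lit 5) (nat_lit 135) (nat_lit 5) (nat_lit 123) (nat_lit 5) (nat_lit 321) (nat_lit 299) (nat_lit 244)))) (XT.nd (nat_lit 188) (nat_lit 1092) (nat_lit 0) (XT.nd (nat_lit 94) (nat_lit 0) (nat_lit 0) (XT.lf (nat_lit 0) (nat_lit 473212132) (nat_lit 1176) (nat_lit 5880703055) (nat_lit 84) (nat_lit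 2830411465) (nat_lit 108) (nat_lit 5) (nat_lit 122) (nat_lit 5) (nat_lit 109) (nat_lit 5) (nat_lit 322) (nat_lit 299) (nat_lit 243)) (XT.lf (nat_lit 0) (nat_lit 1909791404) (nat_lit 1176) (nat_lit 1849506936) (nat_lit 84) (nat_lit 5567558222) (nat_lit 108) (nat_lit 5) (nat_lit 122) (nat_lit 5) (nat_lit 109) (nat_lit 5) (nat_lit 323) (nat_lit 299) (nat_lit 242))) (XT.nd (nat_lit 94) (nat_lit 588) (nat_lit 0) (XT.lf (nat_lit 0) (nat_lit 2322323932) (nat_lit 504) (nat_lit 1057433104) (nat_lit 588) (nat_lit 6094524283) (nat_lit 102) (nat_lit 5) (nat_lit 108) (nat_lit 5) (nat_lit 109) (nat_lit 5) (nat_lit 324) (nat_lit 299) (nat_lit 241)) (XT.nd (nat_lit 94) (nat_lit 588) (nat_lit 0) (XT.lf (nat_lit 0) (nat_lit 4898501249) (nat_lit 588) (nat_lit 3012326475) (nat_lit 84) (nat_lit 1715475931) (nat_lit 102) (nat_lit 5) (nat_lit 109) (nat_lit 5) (nat_lit 103) (nat_lit 5) (nat_lit 325) (nat_lit 299) (nat_lit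 240)) (XT.lf (nat_lit 0) (nat_lit 1238740379) (nat_lit 588) (nat_lit 5216258319) (nat_lit 672) (nat_lit 3328452245) (nat_lit 95) (nat_lit 5) (nat_lit 102) (nat_lit 5) (nat_lit 103) (nat_lit 5) (nat_lit 326) (nat_lit 299) (nat_lit 239))))))))
noncomputable def xc41 : XT := (XT.nd (nat_lit 51700) (nat_lit 0) (nat_lit 7056) (XT.nd (nat_lit 752) (nat_lit 1344) (nat_lit 0) (XT.nd (nat_lit 376) (nat_lit 924) (nat_lit 0) (XT.nd (nat_lit 188) (nat_lit 84) (nat_lit 0) (XT.nd (nat_lit 94) (nat_lit 504) (nat_lit 0) (XT.lf (nat_lit 0) (nat_lit 5654728833) (nat_lit 588) (nat_lit 2404700286) (nat_lit 672) (nat_lit 1886169945) (nat_lit 95) (nat_lit 5) (nat_lit 102) (nat_lit 5) (nat_lit 103) (nat_lit 5) (nat_lit 327) (nat_lit 299) (nat_lit 238)) (XT.lf (nat_lit 0) (nat_lit 60274564) (nat_lit 504) (nat_lit 9628024979) (nat_lit 588) (nat_lit 425374254) (nat_lit 89) (nat_lit 5) (nat_lit 95) (nat_lit 5) (nat_lit 96)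 (nat_lit 5) (nat_lit 328) (nat_lit 299) (nat_lit 237))) (XT.nd (nat_lit 94) (nat_lit 0) (nat_lit 0) (XT.lf (nat_lit 0) (nat_lit 1098180792) (nat_lit 588) (nat_lit 5715378269) (nat_lit 84) (nat_lit 3471959686) (nat_lit 88) (nat_lit 5) (nat_lit 95) (nat_lit 5) (nat_lit 89) (nat_lit 5) (nat_lit 329) (nat_lit 299) (nat_lit 236)) (XT.lf (nat_lit 0) (nat_lit 2630457978) (nat_lit 588) (nat_lit 1277591644) (nat_lit 84) (nat_lit 6555531902) (nat_lit 88) (nat_lit 5) (nat_lit 95) (nat_lit 5) (nat_lit 89) (nat_lit 5) (nat_lit 330) (nat_lit 299) (nat_lit 235)))) (XT.nd (nat_lit 188) (nat_lit 420) (nat_lit 0) (XT.nd (nat_lit 94) (nat_lit 0) (nat_lit 0) (XT.lf (nat_lit 0) (nat_lit 3335520186) (nat_lit 504) (nat_lit 879024477) (nat_lit 588) (nat_lit 6432588501) (nat_lit 82) (nat_lit 5) (nat_lit 88) (nat_lit 5) (nat_lit 89) (nat_lit 5) (nat_lit 331) (nat_lit 299) (nat_lit 234)) (XT.lf (nat_lit 0) (nat_lit 5855256530)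 (nat_lit 588) (nat_lit 2769750565) (nat_lit 84) (nat_lit 2211234146) (nat_lit 82) (nat_lit 5) (nat_lit 89) (nat_lit 5) (nat_lit 83) (nat_lit 5) (nat_lit 332) (nat_lit 299) (nat_lit 233))) (XT.nd (nat_lit 94) (nat_lit 0) (nat_lit 0) (XT.lf (nat_lit 0) (nat_lit 1913256953) (nat_lit 420) (nat_lit 5634178815) (nat_lit 504) (nat_lit 3483853558) (nat_lit 77) (nat_lit 5) (nat_lit 82) (nat_lit 5) (nat_lit 83) (nat_lit 5) (nat_lit 333) (nat_lit 299) (nat_lit 232)) (XT.lf (nat_lit 0) (nat_lit 6771240549) (nat_lit 420) (nat_lit 2522913702) (nat_lit 504) (nat_lit 1938258640) (nat_lit 77) (nat_lit 5) (nat_lit 82) (nat_lit 5) (nat_lit 83) (nat_lit 5) (nat_lit 334) (nat_lit 299) (nat_lit 231))))) (XT.nd (nat_lit 376) (nat_lit 420) (nat_lit 0) (XT.nd (nat_lit 188) (nat_lit 420) (nat_lit 0) (XT.nd (nat_lit 94) (nat_lit 84) (nat_lit 0) (XT.lf (nat_lit 0) (nat_lit 310592441) (nat_lit 420) (nat_lit 10768260781) (nat_lit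 504) (nat_lit 361509976) (nat_lit 72) (nat_lit 5) (nat_lit 77) (nat_lit 5) (nat_lit 78) (nat_lit 5) (nat_lit 335) (nat_lit 299) (nat_lit 230)) (XT.lf (nat_lit 0) (nat_lit 1285603315) (nat_lit 504) (nat_lit 6396527163) (nat_lit 84) (nat_lit 3970870486) (nat_lit 71) (nat_lit 5) (nat_lit 77) (nat_lit 5) (nat_lit 72) (nat_lit 5) (nat_lit 336) (nat_lit 299) (nat_lit 229))) (XT.nd (nat_lit 94) (nat_lit 420) (nat_lit 0) (XT.lf (nat_lit 0) (nat_lit 2951155546) (nat_lit 504) (nat_lit 1548618245) (nat_lit 84) (nat_lit 7373203338) (nat_lit 71) (nat_lit 5) (nat_lit 77) (nat_lit 5) (nat_lit 72) (nat_lit 5) (nat_lit 337) (nat_lit 299) (nat_lit 228)) (XT.lf (nat_lit 0) (nat_lit 3492425567) (nat_lit 420) (nat_lit 1186202530) (nat_lit 504) (nat_lit 7420905807) (nat_lit 66) (nat_lit 5) (nat_lit 71) (nat_lit 5) (nat_lit 72) (nat_lit 5) (nat_lit 338) (nat_lit 299) (nat_lit 227)))) (XT.nd (nat_lit 188) (nat_lit 0) (nat_lit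 0) (XT.nd (nat_lit 94) (nat_lit 420) (nat_lit 0) (XT.lf (nat_lit 0) (nat_lit 6474176724) (nat_lit 504) (nat_lit 3660351070) (nat_lit 84) (nat_lit 2198213756) (nat_lit 66) (nat_lit 5) (nat_lit 72) (nat_lit 5) (nat_lit 67) (nat_lit 5) (nat_lit 339) (nat_lit 299) (nat_lit 226)) (XT.lf (nat_lit 0) (nat_lit 1429240402) (nat_lit 420) (nat_lit 6899248665) (nat_lit 504) (nat_lit 4244668941) (nat_lit 61) (nat_lit 5) (nat_lit 66) (nat_lit 5) (nat_lit 67) (nat_lit 5) (nat_lit 340) (nat_lit 299) (nat_lit 225))) (XT.nd (nat_lit 94) (nat_lit 0) (nat_lit 0) (XT.lf (nat_lit 0) (nat_lit 6727302678) (nat_lit 420) (nat_lit 3528411322) (nat_lit 504) (nat_lit 2564908336) (nat_lit 61) (nat_lit 5) (nat_lit 66) (nat_lit 5) (nat_lit 67) (nat_lit 5) (nat_lit 341) (nat_lit 299) (nat_lit 224)) (XT.lf (nat_lit 0) (nat_lit 12163509782) (nat_lit 420) (nat_lit 57080349) (nat_lit 504) (nat_lit 855923858) (nat_lit 61) (nat_lit 5)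 (nat_lit 66) (nat_lit 5) (nat_lit 67) (nat_lit 5) (nat_lit 342) (nat_lit 299) (nat_lit 223)))))) (XT.nd (nat_lit 752) (nat_lit 1512) (nat_lit 0) (XT.nd (nat_lit 376) (nat_lit 672) (nat_lit 0) (XT.nd (nat_lit 188) (nat_lit 0) (nat_lit 0) (XT.nd (nat_lit 94) (nat_lit 0) (nat_lit 0) (XT.lf (nat_lit 0) (nat_lit 1035424855) (nat_lit 756) (nat_lit 1265978191) (nat_lit 756) (nat_lit 1265978191) (nat_lit 171) (nat_lit 3) (nat_lit 180) (nat_lit 3) (nat_lit 180) (nat_lit 5) (nat_lit 300) (nat_lit 300) (nat_lit 264)) (XT.lf (nat_lit 84) (nat_lit 325956704) (nat_lit 0) (nat_lit 3222573733) (nat_lit 756) (nat_lit 3645042021) (nat_lit 172) (nat_lit 5) (nat_lit 171) (nat_lit 3) (nat_lit 180) (nat_lit 5) (nat_lit 301) (nat_lit 300) (nat_lit 263))) (XT.nd (nat_lit 94) (nat_lit 0) (nat_lit 0) (XT.lf (nat_lit 84) (nat_lit 3295420969) (nat_lit 0) (nat_lit 1744601742) (nat_lit 756) (nat_lit 2215455422) (nat_lit 172)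 (nat_lit 5) (nat_lit 171) (nat_lit 3) (nat_lit 180) (nat_lit 5) (nat_lit 302) (nat_lit 300) (nat_lit 262)) (XT.lf (nat_lit 84) (nat_lit 6327142048) (nat_lit 0) (nat_lit 193940928) (nat_lit 756) (nat_lit 800248874) (nat_lit 172) (nat_lit 5) (nat_lit 171) (nat_lit 3) (nat_lit 180) (nat_lit 5) (nat_lit 303) (nat_lit 300) (nat_lit 261)))) (XT.nd (nat_lit 188) (nat_lit 0) (nat_lit 0) (XT.nd (nat_lit 94) (nat_lit 0) (nat_lit 0) (XT.lf (nat_lit 0) (nat_lit 624754374) (nat_lit 756) (nat_lit 5336384287) (nat_lit 840) (nat_lit 1428786714) (nat_lit 163) (nat_lit 5) (nat_lit 172) (nat_lit 5) (nat_lit 173) (nat_lit 5) (nat_lit 304) (nat_lit 300) (nat_lit 260)) (XT.lf (nat_lit 0) (nat_lit 2035613301) (nat_lit 756) (nat_lit 2285944192) (nat_lit 840) (nat_lit 3140375091) (nat_lit 163) (nat_lit 5) (nat_lit 172) (nat_lit 5) (nat_lit 173) (nat_lit 5) (nat_lit 305) (nat_lit 300) (nat_lit 259))) (XT.nd (nat_lit 94) (nat_lit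 0) (nat_lit 0) (XT.lf (nat_lit 84) (nat_lit 844875133) (nat_lit 0) (nat_lit 2601180198) (nat_lit 840) (nat_lit 4091726399) (nat_lit 164) (nat_lit 5) (nat_lit 163) (nat_lit 5) (nat_lit 173) (nat_lit 5) (nat_lit 306) (nat_lit 300) (nat_lit 258)) (XT.lf (nat_lit 84) (nat_lit 4090319854) (nat_lit 0) (nat_lit 782500161) (nat_lit 840) (nat_lit 2744245326) (nat_lit 164) (nat_lit 5) (nat_lit 163) (nat_lit 5) (nat_lit 173) (nat_lit 5) (nat_lit 307) (nat_lit 300) (nat_lit 257))))) (XT.nd (nat_lit 376) (nat_lit 756) (nat_lit 0) (XT.nd (nat_lit 188) (nat_lit 840) (nat_lit 0) (XT.nd (nat_lit 94) (nat_lit 0) (nat_lit 0) (XT.lf (nat_lit 0) (nat_lit 6305128439) (nat_lit 756) (nat_lit 305197718) (nat_lit 840) (nat_lit 1089906534) (nat_lit 164) (nat_lit 5) (nat_lit 173) (nat_lit 5) (nat_lit 174) (nat_lit 5) (nat_lit 308) (nat_lit 300) (nat_lit 256)) (XT.lf (nat_lit 84) (nat_lit 3038467173) (nat_lit 0) (nat_lit 4733481162)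 (nat_lit 840) (nat_lit 14556351) (nat_lit 165) (nat_lit 5) (nat_lit 164) (nat_lit 5) (nat_lit 174) (nat_lit 5) (nat_lit 309) (nat_lit 300) (nat_lit 255))) (XT.nd (nat_lit 94) (nat_lit 0) (nat_lit 0) (XT.lf (nat_lit 0) (nat_lit 1336039267) (nat_lit 840) (nat_lit 1428942410) (nat_lit 924) (nat_lit 5111618367) (nat_lit 154) (nat_lit 5) (nat_lit 164) (nat_lit 5) (nat_lit 165) (nat_lit 5) (nat_lit 310) (nat_lit 300) (nat_lit 254)) (XT.lf (nat_lit 84) (nat_lit 2002358297) (nat_lit 0) (nat_lit 699553524) (nat_lit 924) (nat_lit 5268587510) (nat_lit 155) (nat_lit 5) (nat_lit 154) (nat_lit 5) (nat_lit 165) (nat_lit 5) (nat_lit 311) (nat_lit 300) (nat_lit 253)))) (XT.nd (nat_lit 188) (nat_lit 840) (nat_lit 0) (XT.nd (nat_lit 94) (nat_lit 0) (nat_lit 0) (XT.lf (nat_lit 0) (nat_lit 4094454540) (nat_lit 840) (nat_lit 2543165771) (nat_lit 924) (nat_lit 1430369603) (nat_lit 155) (nat_lit 5) (nat_lit 165) (nat_lit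 5) (nat_lit 166) (nat_lit 5) (nat_lit 312) (nat_lit 300) (nat_lit 252)) (XT.lf (nat_lit 84) (nat_lit 969020395) (nat_lit 0) (nat_lit 4534339587) (nat_lit 924) (nat_lit 2666162453) (nat_lit 156) (nat_lit 5) (nat_lit 155) (nat_lit 5) (nat_lit 166) (nat_lit 5) (nat_lit 313) (nat_lit 300) (nat_lit 251))) (XT.nd (nat_lit 94) (nat_lit 840) (nat_lit 0) (XT.lf (nat_lit 84) (nat_lit 4612983175) (nat_lit 0) (nat_lit 2326932560) (nat_lit 924) (nat_lit 1334966593) (nat_lit 156) (nat_lit 5) (nat_lit 155) (nat_lit 5) (nat_lit 166) (nat_lit 5) (nat_lit 314) (nat_lit 300) (nat_lit 250)) (XT.nd (nat_lit 94) (nat_lit 840) (nat_lit 0) (XT.lf (nat_lit 84) (nat_lit 8339826420) (nat_lit 0) (nat_lit 39887129) (nat_lit 924) (nat_lit 5252414) (nat_lit 156) (nat_lit 5) (nat_lit 155) (nat_lit 5) (nat_lit 166) (nat_lit 5) (nat_lit 315) (nat_lit 300) (nat_lit 249)) (XT.lf (nat_lit 0) (nat_lit 1358005811) (nat_lit 924) (nat_lit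 4807083170) (nat_lit 84) (nat_lit 2332505284) (nat_lit 145) (nat_lit 5) (nat_lit 156) (nat_lit 5) (nat_lit 146) (nat_lit 5) (nat_lit 316) (nat_lit 300) (nat_lit 248))))))))
noncomputable def xc42 : XT := (XT.nd (nat_lit 1504) (nat_lit 1764) (nat_lit 0) (XT.nd (nat_lit 752) (nat_lit 2184) (nat_lit 0) (XT.nd (nat_lit 376) (nat_lit 1176) (nat_lit 0) (XT.nd (nat_lit 188) (nat_lit 1008) (nat_lit 0) (XT.nd (nat_lit 94) (nat_lit 924) (nat_lit 0) (XT.lf (nat_lit 0) (nat_lit 2724694611) (nat_lit 924) (nat_lit 1102607147) (nat_lit 84) (nat_lit 4787773004) (nat_lit 145) (nat_lit 5) (nat_lit 156) (nat_lit 5) (nat_lit 146) (nat_lit 5) (nat_lit 317) (nat_lit 300) (nat_lit 247)) (XT.lf (nat_lit 0) (nat_lit 2741521197) (nat_lit 924) (nat_lit 1381011381) (nat_lit 1008) (nat_lit 4614169489) (nat_lit 134) (nat_lit 5) (nat_lit 145) (nat_lit 5) (nat_lit 146) (nat_lit 5) (nat_lit 318) (nat_lit 300) (nat_lit 246))) (XT.nd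 (nat_lit 94) (nat_lit 1008) (nat_lit 0) (XT.lf (nat_lit 0) (nat_lit 5549165920) (nat_lit 1008) (nat_lit 2176493082) (nat_lit 84) (nat_lit 1137043905) (nat_lit 134) (nat_lit 5) (nat_lit 146) (nat_lit 5) (nat_lit 135) (nat_lit 5) (nat_lit 319) (nat_lit 300) (nat_lit 245)) (XT.lf (nat_lit 0) (nat_lit 1751174513) (nat_lit 1008) (nat_lit 5263989557) (nat_lit 1092) (nat_lit 1977744229) (nat_lit 122) (nat_lit 5) (nat_lit 134) (nat_lit 5) (nat_lit 135) (nat_lit 5) (nat_lit 320) (nat_lit 300) (nat_lit 244)))) (XT.nd (nat_lit 188) (nat_lit 0) (nat_lit 0) (XT.nd (nat_lit 94) (nat_lit 1176) (nat_lit 0) (XT.lf (nat_lit 0) (nat_lit 5816492403) (nat_lit 1008) (nat_lit 2697269818) (nat_lit 1092) (nat_lit 613929459) (nat_lit 122) (nat_lit 5) (nat_lit 134) (nat_lit 5) (nat_lit 135) (nat_lit 5) (nat_lit 321) (nat_lit 300) (nat_lit 243)) (XT.lf (nat_lit 0) (nat_lit 717588587) (nat_lit 1092) (nat_lit 30749404) (nat_lit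 1176) (nat_lit 8519070469) (nat_lit 108) (nat_lit 5) (nat_lit 121) (nat_lit 5) (nat_lit 122) (nat_lit 5) (nat_lit 322) (nat_lit 300) (nat_lit 242))) (XT.nd (nat_lit 94) (nat_lit 0) (nat_lit 0) (XT.lf (nat_lit 0) (nat_lit 2167780449) (nat_lit 1176) (nat_lit 4533642194) (nat_lit 84) (nat_lit 2709111391) (nat_lit 108) (nat_lit 5) (nat_lit 122) (nat_lit 5) (nat_lit 109) (nat_lit 5) (nat_lit 323) (nat_lit 300) (nat_lit 241)) (XT.lf (nat_lit 0) (nat_lit 3598382659) (nat_lit 1176) (nat_lit 423463710) (nat_lit 84) (nat_lit 5537395175) (nat_lit 108) (nat_lit 5) (nat_lit 122) (nat_lit 5) (nat_lit 109) (nat_lit 5) (nat_lit 324) (nat_lit 300) (nat_lit 240))))) (XT.nd (nat_lit 376) (nat_lit 1092) (nat_lit 0) (XT.nd (nat_lit 188) (nat_lit 588) (nat_lit 0) (XT.nd (nat_lit 94) (nat_lit 0) (nat_lit 0) (XT.lf (nat_lit 0) (nat_lit 3862676045) (nat_lit 504) (nat_lit 1216815235) (nat_lit 588) (nat_lit 4632999914) (nat_lit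 102) (nat_lit 5) (nat_lit 108) (nat_lit 5) (nat_lit 109) (nat_lit 5) (nat_lit 325) (nat_lit 300) (nat_lit 239)) (XT.lf (nat_lit 0) (nat_lit 6596141278) (nat_lit 588) (nat_lit 1626456587) (nat_lit 84) (nat_lit 1648334674) (nat_lit 102) (nat_lit 5) (nat_lit 109) (nat_lit 5) (nat_lit 103) (nat_lit 5) (nat_lit 326) (nat_lit 300) (nat_lit 238))) (XT.nd (nat_lit 94) (nat_lit 0) (nat_lit 0) (XT.lf (nat_lit 0) (nat_lit 2741417242) (nat_lit 588) (nat_lit 5427520158) (nat_lit 672) (nat_lit 1865180940) (nat_lit 95) (nat_lit 5) (nat_lit 102) (nat_lit 5) (nat_lit 103) (nat_lit 5) (nat_lit 327) (nat_lit 300) (nat_lit 237)) (XT.lf (nat_lit 0) (nat_lit 7250273643) (nat_lit 588) (nat_lit 2527313726) (nat_lit 672) (nat_lit 425287843) (nat_lit 95) (nat_lit 5) (nat_lit 102) (nat_lit 5) (nat_lit 103) (nat_lit 5) (nat_lit 328) (nat_lit 300) (nat_lit 236)))) (XT.nd (nat_lit 188) (nat_lit 504) (nat_lit 0) (XT.nd (nat_lit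 94) (nat_lit 0) (nat_lit 0) (XT.lf (nat_lit 0) (nat_lit 1028386456) (nat_lit 588) (nat_lit 8868667379) (nat_lit 84) (nat_lit 479884577) (nat_lit 88) (nat_lit 5) (nat_lit 95) (nat_lit 5) (nat_lit 89) (nat_lit 5) (nat_lit 329) (nat_lit 300) (nat_lit 235)) (XT.lf (nat_lit 0) (nat_lit 2546493348) (nat_lit 588) (nat_lit 4445380744) (nat_lit 84) (nat_lit 3563616841) (nat_lit 88) (nat_lit 5) (nat_lit 95) (nat_lit 5) (nat_lit 89) (nat_lit 5) (nat_lit 330) (nat_lit 300) (nat_lit 234))) (XT.nd (nat_lit 94) (nat_lit 0) (nat_lit 0) (XT.lf (nat_lit 0) (nat_lit 88241655) (nat_lit 504) (nat_lit 3996380749) (nat_lit 588) (nat_lit 6655893801) (nat_lit 82) (nat_lit 5) (nat_lit 88) (nat_lit 5) (nat_lit 89) (nat_lit 5) (nat_lit 331) (nat_lit 300) (nat_lit 233)) (XT.lf (nat_lit 0) (nat_lit 4828371274) (nat_lit 504) (nat_lit 861107169) (nat_lit 588) (nat_lit 5241304845) (nat_lit 82) (nat_lit 5) (nat_lit 88) (nat_lit 5)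 (nat_lit 89) (nat_lit 5) (nat_lit 332) (nat_lit 300) (nat_lit 232)))))) (XT.nd (nat_lit 752) (nat_lit 420) (nat_lit 0) (XT.nd (nat_lit 376) (nat_lit 420) (nat_lit 0) (XT.nd (nat_lit 188) (nat_lit 504) (nat_lit 0) (XT.nd (nat_lit 94) (nat_lit 420) (nat_lit 0) (XT.lf (nat_lit 0) (nat_lit 7341067211) (nat_lit 588) (nat_lit 1463359774) (nat_lit 84) (nat_lit 2322708739) (nat_lit 82) (nat_lit 5) (nat_lit 89) (nat_lit 5) (nat_lit 83) (nat_lit 5) (nat_lit 333) (nat_lit 300) (nat_lit 231)) (XT.lf (nat_lit 0) (nat_lit 3350725666) (nat_lit 420) (nat_lit 5709432348) (nat_lit 504) (nat_lit 2269002397) (nat_lit 77) (nat_lit 5) (nat_lit 82) (nat_lit 5) (nat_lit 83) (nat_lit 5) (nat_lit 334) (nat_lit 300) (nat_lit 230))) (XT.nd (nat_lit 94) (nat_lit 504) (nat_lit 0) (XT.lf (nat_lit 0) (nat_lit 8317868450) (nat_lit 420) (nat_lit 2504706946) (nat_lit 504) (nat_lit 715269371) (nat_lit 77) (nat_lit 5) (nat_lit 82) (nat_lit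 5) (nat_lit 83) (nat_lit 5) (nat_lit 335) (nat_lit 300) (nat_lit 229)) (XT.lf (nat_lit 0) (nat_lit 868827166) (nat_lit 504) (nat_lit 10077075055) (nat_lit 84) (nat_lit 806904326) (nat_lit 71) (nat_lit 5) (nat_lit 77) (nat_lit 5) (nat_lit 72) (nat_lit 5) (nat_lit 336) (nat_lit 300) (nat_lit 228)))) (XT.nd (nat_lit 188) (nat_lit 420) (nat_lit 0) (XT.nd (nat_lit 94) (nat_lit 0) (nat_lit 0) (XT.lf (nat_lit 0) (nat_lit 2522386737) (nat_lit 504) (nat_lit 5242713588) (nat_lit 84) (nat_lit 4208093689) (nat_lit 71) (nat_lit 5) (nat_lit 77) (nat_lit 5) (nat_lit 72) (nat_lit 5) (nat_lit 337) (nat_lit 300) (nat_lit 227)) (XT.lf (nat_lit 0) (nat_lit 4203581929) (nat_lit 504) (nat_lit 285174473) (nat_lit 84) (nat_lit 7712467324) (nat_lit 71) (nat_lit 5) (nat_lit 77) (nat_lit 5) (nat_lit 72) (nat_lit 5) (nat_lit 338) (nat_lit 300) (nat_lit 226))) (XT.nd (nat_lit 94) (nat_lit 0) (nat_lit 0) (XT.lf (nat_lit 0) (nat_lit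 4898864435) (nat_lit 420) (nat_lit 1063712699) (nat_lit 504) (nat_lit 6473024583) (nat_lit 66) (nat_lit 5) (nat_lit 71) (nat_lit 5) (nat_lit 72) (nat_lit 5) (nat_lit 339) (nat_lit 300) (nat_lit 225)) (XT.lf (nat_lit 0) (nat_lit 7781075490) (nat_lit 504) (nat_lit 2478369467) (nat_lit 84) (nat_lit 2417719520) (nat_lit 66) (nat_lit 5) (nat_lit 72) (nat_lit 5) (nat_lit 67) (nat_lit 5) (nat_lit 340) (nat_lit 300) (nat_lit 224))))) (XT.nd (nat_lit 50666) (nat_lit 0) (nat_lit 8484) (XT.nd (nat_lit 50478) (nat_lit 0) (nat_lit 9240) (XT.nd (nat_lit 94) (nat_lit 0) (nat_lit 0) (XT.lf (nat_lit 0) (nat_lit 2755884048) (nat_lit 420) (nat_lit 6916447327) (nat_lit 504) (nat_lit 3253447455) (nat_lit 61) (nat_lit 5) (nat_lit 66) (nat_lit 5) (nat_lit 67) (nat_lit 5) (nat_lit 341) (nat_lit 300) (nat_lit 223)) (XT.lf (nat_lit 0) (nat_lit 8179629074) (nat_lit 420) (nat_lit 3447027721) (nat_lit 504) (nat_lit 1555374691)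 (nat_lit 61) (nat_lit 5) (nat_lit 66) (nat_lit 5) (nat_lit 67) (nat_lit 5) (nat_lit 342) (nat_lit 300) (nat_lit 222))) (XT.nd (nat_lit 94) (nat_lit 0) (nat_lit 0) (XT.lf (nat_lit 0) (nat_lit 2495563770) (nat_lit 756) (nat_lit 565620174) (nat_lit 756) (nat_lit 565620174) (nat_lit 171) (nat_lit 3) (nat_lit 180) (nat_lit 3) (nat_lit 180) (nat_lit 5) (nat_lit 301) (nat_lit 301) (nat_lit 262)) (XT.lf (nat_lit 84) (nat_lit 1800292404) (nat_lit 0) (nat_lit 4642972958) (nat_lit 756) (nat_lit 873602584) (nat_lit 172) (nat_lit 5) (nat_lit 171) (nat_lit 3) (nat_lit 180) (nat_lit 5) (nat_lit 302) (nat_lit 301) (nat_lit 261)))) (XT.nd (nat_lit 188) (nat_lit 0) (nat_lit 84) (XT.nd (nat_lit 94) (nat_lit 0) (nat_lit 0) (XT.lf (nat_lit 0) (nat_lit 503224951) (nat_lit 756) (nat_lit 2571001609) (nat_lit 840) (nat_lit 4309306129) (nat_lit 162) (nat_lit 5) (nat_lit 171) (nat_lit 3) (nat_lit 172) (nat_lit 5) (nat_lit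 303) (nat_lit 301) (nat_lit 260)) (XT.lf (nat_lit 84) (nat_lit 436349007) (nat_lit 0) (nat_lit 1418459059) (nat_lit 840) (nat_lit 5598970571) (nat_lit 163) (nat_lit 5) (nat_lit 162) (nat_lit 5) (nat_lit 172) (nat_lit 5) (nat_lit 304) (nat_lit 301) (nat_lit 259))) (XT.nd (nat_lit 94) (nat_lit 0) (nat_lit 0) (XT.lf (nat_lit 0) (nat_lit 3225729240) (nat_lit 756) (nat_lit 3968283467) (nat_lit 840) (nat_lit 333129848) (nat_lit 163) (nat_lit 5) (nat_lit 172) (nat_lit 5) (nat_lit 173) (nat_lit 5) (nat_lit 305) (nat_lit 301) (nat_lit 258)) (XT.nd (nat_lit 94) (nat_lit 0) (nat_lit 0) (XT.lf (nat_lit 0) (nat_lit 4602701291) (nat_lit 756) (nat_lit 869389711) (nat_lit 840) (nat_lit 2132053339) (nat_lit 163) (nat_lit 5) (nat_lit 172) (nat_lit 5) (nat_lit 173) (nat_lit 5) (nat_lit 306) (nat_lit 301) (nat_lit 257)) (XT.lf (nat_lit 84) (nat_lit 2343426235) (nat_lit 0) (nat_lit 3652757254) (nat_lit 840) (nat_lit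 1688387830) (nat_lit 164) (nat_lit 5) (nat_lit 163) (nat_lit 5) (nat_lit 173) (nat_lit 5) (nat_lit 307) (nat_lit 301) (nat_lit 256))))))))
noncomputable def xc43 : XT := (XT.nd (nat_lit 1598) (nat_lit 3528) (nat_lit 0) (XT.nd (nat_lit 752) (nat_lit 3024) (nat_lit 0) (XT.nd (nat_lit 376) (nat_lit 840) (nat_lit 0) (XT.nd (nat_lit 188) (nat_lit 0) (nat_lit 0) (XT.nd (nat_lit 94) (nat_lit 756) (nat_lit 0) (XT.lf (nat_lit 84) (nat_lit 5645208977) (nat_lit 0) (nat_lit 1748504000) (nat_lit 840) (nat_lit 375212094) (nat_lit 164) (nat_lit 5) (nat_lit 163) (nat_lit 5) (nat_lit 173) (nat_lit 5) (nat_lit 308) (nat_lit 301) (nat_lit 255)) (XT.lf (nat_lit 0) (nat_lit 925707364) (nat_lit 840) (nat_lit 6681326787) (nat_lit 924) (nat_lit 249796161) (nat_lit 154) (nat_lit 5) (nat_lit 164) (nat_lit 5) (nat_lit 165) (nat_lit 5) (nat_lit 309) (nat_lit 301) (nat_lit 254))) (XT.nd (nat_lit 94) (nat_lit 0) (nat_lit 0) (XT.lf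 (nat_lit 0) (nat_lit 2253285529) (nat_lit 840) (nat_lit 3377580675) (nat_lit 924) (nat_lit 2316858220) (nat_lit 154) (nat_lit 5) (nat_lit 164) (nat_lit 5) (nat_lit 165) (nat_lit 5) (nat_lit 310) (nat_lit 301) (nat_lit 253)) (XT.lf (nat_lit 0) (nat_lit 3577253533) (nat_lit 840) (nat_lit 1370445) (nat_lit 924) (nat_lit 4464394583) (nat_lit 154) (nat_lit 5) (nat_lit 164) (nat_lit 5) (nat_lit 165) (nat_lit 5) (nat_lit 311) (nat_lit 301) (nat_lit 252)))) (XT.nd (nat_lit 188) (nat_lit 840) (nat_lit 0) (XT.nd (nat_lit 94) (nat_lit 0) (nat_lit 84) (XT.lf (nat_lit 84) (nat_lit 3521399230) (nat_lit 0) (nat_lit 1412378940) (nat_lit 924) (nat_lit 3207940465) (nat_lit 155) (nat_lit 5) (nat_lit 154) (nat_lit 5) (nat_lit 165) (nat_lit 5) (nat_lit 312) (nat_lit 301) (nat_lit 251)) (XT.lf (nat_lit 0) (nat_lit 6298250619) (nat_lit 840) (nat_lit 1128608965) (nat_lit 924) (nat_lit 817859130) (nat_lit 155) (nat_lit 5)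 (nat_lit 165) (nat_lit 5) (nat_lit 166) (nat_lit 5) (nat_lit 313) (nat_lit 301) (nat_lit 250))) (XT.nd (nat_lit 94) (nat_lit 924) (nat_lit 0) (XT.lf (nat_lit 84) (nat_lit 2477335689) (nat_lit 0) (nat_lit 5225714070) (nat_lit 924) (nat_lit 648100729) (nat_lit 156) (nat_lit 5) (nat_lit 155) (nat_lit 5) (nat_lit 166) (nat_lit 5) (nat_lit 314) (nat_lit 301) (nat_lit 249)) (XT.lf (nat_lit 0) (nat_lit 647876521) (nat_lit 924) (nat_lit 2278676705) (nat_lit 1008) (nat_lit 5535173654) (nat_lit 144) (nat_lit 5) (nat_lit 155) (nat_lit 5) (nat_lit 156) (nat_lit 5) (nat_lit 315) (nat_lit 301) (nat_lit 248))))) (XT.nd (nat_lit 376) (nat_lit 2184) (nat_lit 0) (XT.nd (nat_lit 188) (nat_lit 840) (nat_lit 0) (XT.nd (nat_lit 94) (nat_lit 0) (nat_lit 84) (XT.lf (nat_lit 84) (nat_lit 1420631842) (nat_lit 0) (nat_lit 524621096) (nat_lit 1008) (nat_lit 6631219458) (nat_lit 145) (nat_lit 5) (nat_lit 144) (nat_lit 5) (nat_lit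 156) (nat_lit 5) (nat_lit 316) (nat_lit 301) (nat_lit 247)) (XT.lf (nat_lit 0) (nat_lit 3287823392) (nat_lit 924) (nat_lit 3461139042) (nat_lit 84) (nat_lit 1945815502) (nat_lit 145) (nat_lit 5) (nat_lit 156) (nat_lit 5) (nat_lit 146) (nat_lit 5) (nat_lit 317) (nat_lit 301) (nat_lit 246))) (XT.nd (nat_lit 94) (nat_lit 0) (nat_lit 0) (XT.lf (nat_lit 0) (nat_lit 319665880) (nat_lit 924) (nat_lit 4323625040) (nat_lit 1008) (nat_lit 4174502853) (nat_lit 134) (nat_lit 5) (nat_lit 145) (nat_lit 5) (nat_lit 146) (nat_lit 5) (nat_lit 318) (nat_lit 301) (nat_lit 245)) (XT.lf (nat_lit 0) (nat_lit 4261841566) (nat_lit 924) (nat_lit 1778634753) (nat_lit 1008) (nat_lit 2904303973) (nat_lit 134) (nat_lit 5) (nat_lit 145) (nat_lit 5) (nat_lit 146) (nat_lit 5) (nat_lit 319) (nat_lit 301) (nat_lit 244)))) (XT.nd (nat_lit 188) (nat_lit 1176) (nat_lit 0) (XT.nd (nat_lit 94) (nat_lit 1008) (nat_lit 0) (XT.lf (nat_lit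 0) (nat_lit 7454095448) (nat_lit 1008) (nat_lit 787502166) (nat_lit 84) (nat_lit 835082423) (nat_lit 134) (nat_lit 5) (nat_lit 146) (nat_lit 5) (nat_lit 135) (nat_lit 5) (nat_lit 320) (nat_lit 301) (nat_lit 243)) (XT.lf (nat_lit 0) (nat_lit 3247177753) (nat_lit 1008) (nat_lit 5680558981) (nat_lit 1092) (nat_lit 284568827) (nat_lit 122) (nat_lit 5) (nat_lit 134) (nat_lit 5) (nat_lit 135) (nat_lit 5) (nat_lit 321) (nat_lit 301) (nat_lit 242))) (XT.nd (nat_lit 94) (nat_lit 1092) (nat_lit 0) (XT.lf (nat_lit 0) (nat_lit 1047237170) (nat_lit 1092) (nat_lit 1968483975) (nat_lit 84) (nat_lit 6337002927) (nat_lit 121) (nat_lit 5) (nat_lit 134) (nat_lit 5) (nat_lit 122) (nat_lit 5) (nat_lit 322) (nat_lit 301) (nat_lit 241)) (XT.nd (nat_lit 94) (nat_lit 0) (nat_lit 0) (XT.lf (nat_lit 0) (nat_lit 2164347833) (nat_lit 1092) (nat_lit 238629094) (nat_lit 1176) (nat_lit 7094909991) (nat_lit 108) (nat_lit 5) (nat_lit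 121) (nat_lit 5) (nat_lit 122) (nat_lit 5) (nat_lit 323) (nat_lit 301) (nat_lit 240)) (XT.lf (nat_lit 0) (nat_lit 3815377105) (nat_lit 1176) (nat_lit 3235409214) (nat_lit 84) (nat_lit 2596432980) (nat_lit 108) (nat_lit 5) (nat_lit 122) (nat_lit 5) (nat_lit 109) (nat_lit 5) (nat_lit 324) (nat_lit 301) (nat_lit 239))))))) (XT.nd (nat_lit 752) (nat_lit 1344) (nat_lit 0) (XT.nd (nat_lit 376) (nat_lit 1092) (nat_lit 0) (XT.nd (nat_lit 188) (nat_lit 588) (nat_lit 0) (XT.nd (nat_lit 94) (nat_lit 0) (nat_lit 0) (XT.lf (nat_lit 0) (nat_lit 978641280) (nat_lit 504) (nat_lit 4273875781) (nat_lit 588) (nat_lit 4549373702) (nat_lit 102) (nat_lit 5) (nat_lit 108) (nat_lit 5) (nat_lit 109) (nat_lit 5) (nat_lit 325) (nat_lit 301) (nat_lit 238)) (XT.lf (nat_lit 0) (nat_lit 5363805592) (nat_lit 504) (nat_lit 1373639376) (nat_lit 588) (nat_lit 3223927542) (nat_lit 102) (nat_lit 5) (nat_lit 108) (nat_lit 5) (nat_lit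 109) (nat_lit 5) (nat_lit 326) (nat_lit 301) (nat_lit 237))) (XT.nd (nat_lit 94) (nat_lit 588) (nat_lit 0) (XT.lf (nat_lit 0) (nat_lit 8254848567) (nat_lit 588) (nat_lit 285243361) (nat_lit 84) (nat_lit 1586238857) (nat_lit 102) (nat_lit 5) (nat_lit 109) (nat_lit 5) (nat_lit 103) (nat_lit 5) (nat_lit 327) (nat_lit 301) (nat_lit 236)) (XT.lf (nat_lit 0) (nat_lit 4203945519) (nat_lit 588) (nat_lit 5642395718) (nat_lit 672) (nat_lit 449331937) (nat_lit 95) (nat_lit 5) (nat_lit 102) (nat_lit 5) (nat_lit 103) (nat_lit 5) (nat_lit 328) (nat_lit 301) (nat_lit 235)))) (XT.nd (nat_lit 188) (nat_lit 504) (nat_lit 0) (XT.nd (nat_lit 94) (nat_lit 504) (nat_lit 0) (XT.lf (nat_lit 0) (nat_lit 970923523) (nat_lit 672) (nat_lit 1669823075) (nat_lit 84) (nat_lit 7830098635) (nat_lit 94) (nat_lit 5) (nat_lit 102) (nat_lit 5) (nat_lit 95) (nat_lit 5) (nat_lit 329) (nat_lit 301) (nat_lit 234)) (XT.lf (nat_lit 0) (nat_lit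 2432011297) (nat_lit 588) (nat_lit 7739935300) (nat_lit 84) (nat_lit 479267696) (nat_lit 88) (nat_lit 5) (nat_lit 95) (nat_lit 5) (nat_lit 89) (nat_lit 5) (nat_lit 330) (nat_lit 301) (nat_lit 233))) (XT.nd (nat_lit 94) (nat_lit 504) (nat_lit 0) (XT.lf (nat_lit 0) (nat_lit 3955934022) (nat_lit 588) (nat_lit 3221731904) (nat_lit 84) (nat_lit 3659061511) (nat_lit 88) (nat_lit 5) (nat_lit 95) (nat_lit 5) (nat_lit 89) (nat_lit 5) (nat_lit 331) (nat_lit 301) (nat_lit 232)) (XT.lf (nat_lit 0) (nat_lit 1438649273) (nat_lit 504) (nat_lit 4076459564) (nat_lit 588) (nat_lit 5513347848) (nat_lit 82) (nat_lit 5) (nat_lit 88) (nat_lit 5) (nat_lit 89) (nat_lit 5) (nat_lit 332) (nat_lit 301) (nat_lit 231))))) (XT.nd (nat_lit 376) (nat_lit 840) (nat_lit 0) (XT.nd (nat_lit 188) (nat_lit 504) (nat_lit 0) (XT.nd (nat_lit 94) (nat_lit 0) (nat_lit 0) (XT.lf (nat_lit 0) (nat_lit 6285201247) (nat_lit 504) (nat_lit 845309746)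 (nat_lit 588) (nat_lit 4095464577) (nat_lit 82) (nat_lit 5) (nat_lit 88) (nat_lit 5) (nat_lit 89) (nat_lit 5) (nat_lit 333) (nat_lit 301) (nat_lit 230)) (XT.lf (nat_lit 0) (nat_lit 8795682236) (nat_lit 588) (nat_lit 198936401) (nat_lit 84) (nat_lit 2435096445) (nat_lit 82) (nat_lit 5) (nat_lit 89) (nat_lit 5) (nat_lit 83) (nat_lit 5) (nat_lit 334) (nat_lit 301) (nat_lit 229))) (XT.nd (nat_lit 94) (nat_lit 84) (nat_lit 0) (XT.lf (nat_lit 0) (nat_lit 4751125265) (nat_lit 420) (nat_lit 5792906729) (nat_lit 504) (nat_lit 1094845558) (nat_lit 77) (nat_lit 5) (nat_lit 82) (nat_lit 5) (nat_lit 83) (nat_lit 5) (nat_lit 335) (nat_lit 301) (nat_lit 228)) (XT.lf (nat_lit 0) (nat_lit 460171744) (nat_lit 504) (nat_lit 2026671736) (nat_lit 84) (nat_lit 9368290642) (nat_lit 76) (nat_lit 5) (nat_lit 82) (nat_lit 5) (nat_lit 77) (nat_lit 5) (nat_lit 336) (nat_lit 301) (nat_lit 227)))) (XT.nd (nat_lit 188) (nat_lit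 420) (nat_lit 0) (XT.nd (nat_lit 94) (nat_lit 0) (nat_lit 0) (XT.lf (nat_lit 0) (nat_lit 2056701369) (nat_lit 504) (nat_lit 9078013444) (nat_lit 84) (nat_lit 942613043) (nat_lit 71) (nat_lit 5) (nat_lit 77) (nat_lit 5) (nat_lit 72) (nat_lit 5) (nat_lit 337) (nat_lit 301) (nat_lit 226)) (XT.lf (nat_lit 0) (nat_lit 3726614248) (nat_lit 504) (nat_lit 4133219341) (nat_lit 84) (nat_lit 4445910920) (nat_lit 71) (nat_lit 5) (nat_lit 77) (nat_lit 5) (nat_lit 72) (nat_lit 5) (nat_lit 338) (nat_lit 301) (nat_lit 225))) (XT.nd (nat_lit 94) (nat_lit 0) (nat_lit 0) (XT.lf (nat_lit 0) (nat_lit 959079893) (nat_lit 420) (nat_lit 4476503331) (nat_lit 504) (nat_lit 7106126157) (nat_lit 66) (nat_lit 5) (nat_lit 71) (nat_lit 5) (nat_lit 72) (nat_lit 5) (nat_lit 339) (nat_lit 301) (nat_lit 224)) (XT.nd (nat_lit 94) (nat_lit 0) (nat_lit 0) (XT.lf (nat_lit 0) (nat_lit 6272009857) (nat_lit 420) (nat_lit 946859051) (nat_lit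 504) (nat_lit 5565529810) (nat_lit 66) (nat_lit 5) (nat_lit 71) (nat_lit 5) (nat_lit 72) (nat_lit 5) (nat_lit 340) (nat_lit 301) (nat_lit 223)) (XT.lf (nat_lit 0) (nat_lit 9062966040) (nat_lit 504) (nat_lit 1336478302) (nat_lit 84) (nat_lit 2635064583) (nat_lit 66) (nat_lit 5) (nat_lit 72) (nat_lit 5) (nat_lit 67) (nat_lit 5) (nat_lit 341) (nat_lit 301) (nat_lit 222))))))))
noncomputable def xc44 : XT := (XT.nd (nat_lit 51888) (nat_lit 0) (nat_lit 1764) (XT.nd (nat_lit 51136) (nat_lit 0) (nat_lit 6972) (XT.nd (nat_lit 50760) (nat_lit 0) (nat_lit 7728) (XT.nd (nat_lit 50572) (nat_lit 0) (nat_lit 8484) (XT.nd (nat_lit 50478) (nat_lit 0) (nat_lit 8484) (XT.lf (nat_lit 0) (nat_lit 4047698619) (nat_lit 420) (nat_lit 6945828725) (nat_lit 504) (nat_lit 2298003837) (nat_lit 61) (nat_lit 5) (nat_lit 66) (nat_lit 5) (nat_lit 67) (nat_lit 5) (nat_lit 342) (nat_lit 301) (nat_lit 221)) (XT.lf (nat_lit 0) (nat_lit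 111500580) (nat_lit 0) (nat_lit 111500580) (nat_lit 756) (nat_lit 3467959310) (nat_lit 162) (nat_lit 5) (nat_lit 162) (nat_lit 3) (nat_lit 171) (nat_lit 3) (nat_lit 302) (nat_lit 302) (nat_lit 260))) (XT.nd (nat_lit 94) (nat_lit 0) (nat_lit 0) (XT.lf (nat_lit 0) (nat_lit 1776375485) (nat_lit 756) (nat_lit 4234271914) (nat_lit 840) (nat_lit 1438686398) (nat_lit 162) (nat_lit 5) (nat_lit 171) (nat_lit 3) (nat_lit 172) (nat_lit 5) (nat_lit 303) (nat_lit 302) (nat_lit 259)) (XT.lf (nat_lit 0) (nat_lit 3097789976) (nat_lit 756) (nat_lit 1249749632) (nat_lit 840) (nat_lit 3173094002) (nat_lit 162) (nat_lit 5) (nat_lit 171) (nat_lit 3) (nat_lit 172) (nat_lit 5) (nat_lit 304) (nat_lit 302) (nat_lit 258)))) (XT.nd (nat_lit 188) (nat_lit 756) (nat_lit 0) (XT.nd (nat_lit 94) (nat_lit 0) (nat_lit 0) (XT.lf (nat_lit 84) (nat_lit 1836645461) (nat_lit 0) (nat_lit 2590839582) (nat_lit 840) (nat_lit 3167905565) (nat_lit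 163) (nat_lit 5) (nat_lit 162) (nat_lit 5) (nat_lit 172) (nat_lit 5) (nat_lit 305) (nat_lit 302) (nat_lit 257)) (XT.lf (nat_lit 84) (nat_lit 5017841097) (nat_lit 0) (nat_lit 743960377) (nat_lit 840) (nat_lit 1912024855) (nat_lit 163) (nat_lit 5) (nat_lit 162) (nat_lit 5) (nat_lit 172) (nat_lit 5) (nat_lit 306) (nat_lit 302) (nat_lit 256))) (XT.nd (nat_lit 94) (nat_lit 840) (nat_lit 0) (XT.lf (nat_lit 84) (nat_lit 513317809) (nat_lit 0) (nat_lit 6592828117) (nat_lit 840) (nat_lit 649738907) (nat_lit 164) (nat_lit 5) (nat_lit 163) (nat_lit 5) (nat_lit 173) (nat_lit 5) (nat_lit 307) (nat_lit 302) (nat_lit 255)) (XT.lf (nat_lit 0) (nat_lit 626700960) (nat_lit 840) (nat_lit 4046180300) (nat_lit 924) (nat_lit 3167979586) (nat_lit 153) (nat_lit 5) (nat_lit 163) (nat_lit 5) (nat_lit 164) (nat_lit 5) (nat_lit 308) (nat_lit 302) (nat_lit 254))))) (XT.nd (nat_lit 376) (nat_lit 756) (nat_lit 0) (XT.nd (nat_lit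 188) (nat_lit 0) (nat_lit 84) (XT.nd (nat_lit 94) (nat_lit 0) (nat_lit 0) (XT.lf (nat_lit 0) (nat_lit 1883178328) (nat_lit 840) (nat_lit 785837862) (nat_lit 924) (nat_lit 5260876646) (nat_lit 153) (nat_lit 5) (nat_lit 163) (nat_lit 5) (nat_lit 164) (nat_lit 5) (nat_lit 309) (nat_lit 302) (nat_lit 253)) (XT.lf (nat_lit 84) (nat_lit 2600335730) (nat_lit 0) (nat_lit 559415078) (nat_lit 924) (nat_lit 4862713126) (nat_lit 154) (nat_lit 5) (nat_lit 153) (nat_lit 5) (nat_lit 164) (nat_lit 5) (nat_lit 310) (nat_lit 302) (nat_lit 252))) (XT.nd (nat_lit 94) (nat_lit 0) (nat_lit 0) (XT.lf (nat_lit 0) (nat_lit 4456791162) (nat_lit 840) (nat_lit 2054672505) (nat_lit 924) (nat_lit 1607222092) (nat_lit 154) (nat_lit 5) (nat_lit 164) (nat_lit 5) (nat_lit 165) (nat_lit 5) (nat_lit 311) (nat_lit 302) (nat_lit 251)) (XT.lf (nat_lit 84) (nat_lit 1411717888) (nat_lit 0) (nat_lit 4359934225) (nat_lit 924) (nat_lit 2447115430)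 (nat_lit 155) (nat_lit 5) (nat_lit 154) (nat_lit 5) (nat_lit 165) (nat_lit 5) (nat_lit 312) (nat_lit 302) (nat_lit 250)))) (XT.nd (nat_lit 188) (nat_lit 0) (nat_lit 0) (XT.nd (nat_lit 94) (nat_lit 840) (nat_lit 0) (XT.lf (nat_lit 84) (nat_lit 5001231734) (nat_lit 0) (nat_lit 2106364583) (nat_lit 924) (nat_lit 1215143105) (nat_lit 155) (nat_lit 5) (nat_lit 154) (nat_lit 5) (nat_lit 165) (nat_lit 5) (nat_lit 313) (nat_lit 302) (nat_lit 249)) (XT.lf (nat_lit 0) (nat_lit 18219948) (nat_lit 924) (nat_lit 8185075918) (nat_lit 1008) (nat_lit 227895135) (nat_lit 144) (nat_lit 5) (nat_lit 155) (nat_lit 5) (nat_lit 156) (nat_lit 5) (nat_lit 314) (nat_lit 302) (nat_lit 248))) (XT.nd (nat_lit 94) (nat_lit 0) (nat_lit 0) (XT.lf (nat_lit 0) (nat_lit 1281736954) (nat_lit 924) (nat_lit 4610780085) (nat_lit 1008) (nat_lit 2649732299) (nat_lit 144) (nat_lit 5) (nat_lit 155) (nat_lit 5) (nat_lit 156) (nat_lit 5) (nat_lit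 315) (nat_lit 302) (nat_lit 247)) (XT.lf (nat_lit 0) (nat_lit 2546201459) (nat_lit 924) (nat_lit 954073755) (nat_lit 1008) (nat_lit 5157817284) (nat_lit 144) (nat_lit 5) (nat_lit 155) (nat_lit 5) (nat_lit 156) (nat_lit 5) (nat_lit 316) (nat_lit 302) (nat_lit 246)))))) (XT.nd (nat_lit 752) (nat_lit 2184) (nat_lit 0) (XT.nd (nat_lit 376) (nat_lit 2184) (nat_lit 0) (XT.nd (nat_lit 188) (nat_lit 840) (nat_lit 0) (XT.nd (nat_lit 94) (nat_lit 0) (nat_lit 84) (XT.lf (nat_lit 84) (nat_lit 2845787785) (nat_lit 0) (nat_lit 995234859) (nat_lit 1008) (nat_lit 4936930671) (nat_lit 145) (nat_lit 5) (nat_lit 144) (nat_lit 5) (nat_lit 156) (nat_lit 5) (nat_lit 317) (nat_lit 302) (nat_lit 245)) (XT.lf (nat_lit 0) (nat_lit 5165652465) (nat_lit 924) (nat_lit 2162019906) (nat_lit 84) (nat_lit 1574325542) (nat_lit 145) (nat_lit 5) (nat_lit 156) (nat_lit 5) (nat_lit 146) (nat_lit 5) (nat_lit 318) (nat_lit 302) (nat_lit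 244))) (XT.nd (nat_lit 94) (nat_lit 0) (nat_lit 0) (XT.lf (nat_lit 0) (nat_lit 1721751285) (nat_lit 924) (nat_lit 4801800985) (nat_lit 1008) (nat_lit 2506720618) (nat_lit 134) (nat_lit 5) (nat_lit 145) (nat_lit 5) (nat_lit 146) (nat_lit 5) (nat_lit 319) (nat_lit 302) (nat_lit 243)) (XT.lf (nat_lit 0) (nat_lit 5744274623) (nat_lit 924) (nat_lit 2167568326) (nat_lit 1008) (nat_lit 1251183348) (nat_lit 134) (nat_lit 5) (nat_lit 145) (nat_lit 5) (nat_lit 146) (nat_lit 5) (nat_lit 320) (nat_lit 302) (nat_lit 242)))) (XT.nd (nat_lit 188) (nat_lit 1092) (nat_lit 0) (XT.nd (nat_lit 94) (nat_lit 0) (nat_lit 0) (XT.lf (nat_lit 0) (nat_lit 19961892) (nat_lit 1092) (nat_lit 8731158583) (nat_lit 84) (nat_lit 549587819) (nat_lit 121) (nat_lit 5) (nat_lit 134) (nat_lit 5) (nat_lit 122) (nat_lit 5) (nat_lit 321) (nat_lit 302) (nat_lit 241)) (XT.lf (nat_lit 0) (nat_lit 1329829804) (nat_lit 1092) (nat_lit 4751323084)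 (nat_lit 84) (nat_lit 3360451237) (nat_lit 121) (nat_lit 5) (nat_lit 134) (nat_lit 5) (nat_lit 122) (nat_lit 5) (nat_lit 322) (nat_lit 302) (nat_lit 240))) (XT.nd (nat_lit 94) (nat_lit 1092) (nat_lit 0) (XT.lf (nat_lit 0) (nat_lit 2648381544) (nat_lit 1092) (nat_lit 675662927) (nat_lit 84) (nat_lit 6263935936) (nat_lit 121) (nat_lit 5) (nat_lit 134) (nat_lit 5) (nat_lit 122) (nat_lit 5) (nat_lit 323) (nat_lit 302) (nat_lit 239)) (XT.lf (nat_lit 0) (nat_lit 3571580211) (nat_lit 1092) (nat_lit 440696446) (nat_lit 1176) (nat_lit 5726598574) (nat_lit 108) (nat_lit 5) (nat_lit 121) (nat_lit 5) (nat_lit 122) (nat_lit 5) (nat_lit 324) (nat_lit 302) (nat_lit 238))))) (XT.nd (nat_lit 376) (nat_lit 1092) (nat_lit 0) (XT.nd (nat_lit 188) (nat_lit 588) (nat_lit 0) (XT.nd (nat_lit 94) (nat_lit 504) (nat_lit 0) (XT.lf (nat_lit 0) (nat_lit 5420439729) (nat_lit 1176) (nat_lit 1982152171) (nat_lit 84) (nat_lit 2491910098)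 (nat_lit 108) (nat_lit 5) (nat_lit 122) (nat_lit 5) (nat_lit 109) (nat_lit 5) (nat_lit 325) (nat_lit 302) (nat_lit 237)) (XT.lf (nat_lit 0) (nat_lit 2348830362) (nat_lit 504) (nat_lit 4521887627) (nat_lit 588) (nat_lit 3184395199) (nat_lit 102) (nat_lit 5) (nat_lit 108) (nat_lit 5) (nat_lit 109) (nat_lit 5) (nat_lit 326) (nat_lit 302) (nat_lit 236))) (XT.nd (nat_lit 94) (nat_lit 588) (nat_lit 0) (XT.lf (nat_lit 0) (nat_lit 6829648262) (nat_lit 504) (nat_lit 1528270399) (nat_lit 588) (nat_lit 1863142733) (nat_lit 102) (nat_lit 5) (nat_lit 108) (nat_lit 5) (nat_lit 109) (nat_lit 5) (nat_lit 327) (nat_lit 302) (nat_lit 235)) (XT.lf (nat_lit 0) (nat_lit 1035991567) (nat_lit 588) (nat_lit 8853125029) (nat_lit 672) (nat_lit 503208352) (nat_lit 95) (nat_lit 5) (nat_lit 102) (nat_lit 5) (nat_lit 103) (nat_lit 5) (nat_lit 328) (nat_lit 302) (nat_lit 234)))) (XT.nd (nat_lit 188) (nat_lit 1008) (nat_lit 0)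 (XT.nd (nat_lit 94) (nat_lit 0) (nat_lit 0) (XT.lf (nat_lit 0) (nat_lit 904521591) (nat_lit 672) (nat_lit 4947207953) (nat_lit 84) (nat_lit 4716254920) (nat_lit 94) (nat_lit 5) (nat_lit 102) (nat_lit 5) (nat_lit 95) (nat_lit 5) (nat_lit 329) (nat_lit 302) (nat_lit 233)) (XT.lf (nat_lit 0) (nat_lit 2318625583) (nat_lit 672) (nat_lit 432773186) (nat_lit 84) (nat_lit 7998458727) (nat_lit 94) (nat_lit 5) (nat_lit 102) (nat_lit 5) (nat_lit 95) (nat_lit 5) (nat_lit 330) (nat_lit 302) (nat_lit 232))) (XT.nd (nat_lit 94) (nat_lit 504) (nat_lit 0) (XT.lf (nat_lit 0) (nat_lit 3797897711) (nat_lit 588) (nat_lit 6659353758) (nat_lit 84) (nat_lit 479549387) (nat_lit 88) (nat_lit 5) (nat_lit 95) (nat_lit 5) (nat_lit 89) (nat_lit 5) (nat_lit 331) (nat_lit 302) (nat_lit 231)) (XT.nd (nat_lit 94) (nat_lit 504) (nat_lit 0) (XT.lf (nat_lit 0) (nat_lit 5330259600) (nat_lit 588) (nat_lit 2040791299) (nat_lit 84) (nat_lit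 3758355068) (nat_lit 88) (nat_lit 5) (nat_lit 95) (nat_lit 5) (nat_lit 89) (nat_lit 5) (nat_lit 332) (nat_lit 302) (nat_lit 230)) (XT.lf (nat_lit 0) (nat_lit 2751094600) (nat_lit 504) (nat_lit 4161615703) (nat_lit 588) (nat_lit 4415279363) (nat_lit 82) (nat_lit 5) (nat_lit 88) (nat_lit 5) (nat_lit 89) (nat_lit 5) (nat_lit 333) (nat_lit 302) (nat_lit 229))))))))
noncomputable def xc45 : XT := (XT.nd (nat_lit 52076) (nat_lit 0) (nat_lit 3024) (XT.nd (nat_lit 752) (nat_lit 0) (nat_lit 0) (XT.nd (nat_lit 376) (nat_lit 840) (nat_lit 0) (XT.nd (nat_lit 188) (nat_lit 84) (nat_lit 0) (XT.nd (nat_lit 94) (nat_lit 420) (nat_lit 0) (XT.lf (nat_lit 0) (nat_lit 7709768188) (nat_lit 504) (nat_lit 831539463) (nat_lit 588) (nat_lit 2991597336) (nat_lit 82) (nat_lit 5) (nat_lit 88) (nat_lit 5) (nat_lit 89) (nat_lit 5) (nat_lit 334) (nat_lit 302) (nat_lit 228)) (XT.lf (nat_lit 0) (nat_lit 1048222485) (nat_lit 420)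 (nat_lit 9184886542) (nat_lit 504) (nat_lit 1510752183) (nat_lit 77) (nat_lit 5) (nat_lit 82) (nat_lit 5) (nat_lit 83) (nat_lit 5) (nat_lit 335) (nat_lit 302) (nat_lit 227))) (XT.nd (nat_lit 94) (nat_lit 0) (nat_lit 0) (XT.lf (nat_lit 0) (nat_lit 41150382) (nat_lit 504) (nat_lit 5842928140) (nat_lit 84) (nat_lit 6076561824) (nat_lit 76) (nat_lit 5) (nat_lit 82) (nat_lit 5) (nat_lit 77) (nat_lit 5) (nat_lit 336) (nat_lit 302) (nat_lit 226)) (XT.lf (nat_lit 0) (nat_lit 1587137006) (nat_lit 504) (nat_lit 879850864) (nat_lit 84) (nat_lit 9717450231) (nat_lit 76) (nat_lit 5) (nat_lit 82) (nat_lit 5) (nat_lit 77) (nat_lit 5) (nat_lit 337) (nat_lit 302) (nat_lit 225)))) (XT.nd (nat_lit 188) (nat_lit 420) (nat_lit 0) (XT.nd (nat_lit 94) (nat_lit 0) (nat_lit 0) (XT.lf (nat_lit 0) (nat_lit 3212635176) (nat_lit 504) (nat_lit 8125660407) (nat_lit 84) (nat_lit 1075972095) (nat_lit 71) (nat_lit 5) (nat_lit 77)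 (nat_lit 5) (nat_lit 72) (nat_lit 5) (nat_lit 338) (nat_lit 302) (nat_lit 224)) (XT.lf (nat_lit 0) (nat_lit 4901475918) (nat_lit 504) (nat_lit 3064674598) (nat_lit 84) (nat_lit 4684740994) (nat_lit 71) (nat_lit 5) (nat_lit 77) (nat_lit 5) (nat_lit 72) (nat_lit 5) (nat_lit 339) (nat_lit 302) (nat_lit 223))) (XT.nd (nat_lit 94) (nat_lit 0) (nat_lit 0) (XT.lf (nat_lit 0) (nat_lit 2173370657) (nat_lit 420) (nat_lit 4469951227) (nat_lit 504) (nat_lit 6251577528) (nat_lit 66) (nat_lit 5) (nat_lit 71) (nat_lit 5) (nat_lit 72) (nat_lit 5) (nat_lit 340) (nat_lit 302) (nat_lit 222)) (XT.lf (nat_lit 0) (nat_lit 7615384246) (nat_lit 420) (nat_lit 835257553) (nat_lit 504) (nat_lit 4695540826) (nat_lit 66) (nat_lit 5) (nat_lit 71) (nat_lit 5) (nat_lit 72) (nat_lit 5) (nat_lit 341) (nat_lit 302) (nat_lit 221))))) (XT.nd (nat_lit 50854) (nat_lit 0) (nat_lit 7224) (XT.nd (nat_lit 50666) (nat_lit 0) (nat_lit 8064)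 (XT.nd (nat_lit 50572) (nat_lit 0) (nat_lit 8064) (XT.lf (nat_lit 0) (nat_lit 10322954104) (nat_lit 504) (nat_lit 231375421) (nat_lit 84) (nat_lit 2850712999) (nat_lit 66) (nat_lit 5) (nat_lit 72) (nat_lit 5) (nat_lit 67) (nat_lit 5) (nat_lit 342) (nat_lit 302) (nat_lit 220)) (XT.lf (nat_lit 0) (nat_lit 762912259) (nat_lit 0) (nat_lit 762912259) (nat_lit 756) (nat_lit 2233462170) (nat_lit 162) (nat_lit 5) (nat_lit 162) (nat_lit 3) (nat_lit 171) (nat_lit 3) (nat_lit 303) (nat_lit 303) (nat_lit 258))) (XT.nd (nat_lit 94) (nat_lit 0) (nat_lit 0) (XT.lf (nat_lit 0) (nat_lit 4332864125) (nat_lit 756) (nat_lit 3006705025) (nat_lit 840) (nat_lit 251665292) (nat_lit 162) (nat_lit 5) (nat_lit 171) (nat_lit 3) (nat_lit 172) (nat_lit 5) (nat_lit 304) (nat_lit 303) (nat_lit 257)) (XT.lf (nat_lit 84) (nat_lit 30086484) (nat_lit 0) (nat_lit 5590241979) (nat_lit 840) (nat_lit 2047083741) (nat_lit 163) (nat_lit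 5) (nat_lit 162) (nat_lit 5) (nat_lit 172) (nat_lit 5) (nat_lit 305) (nat_lit 303) (nat_lit 256)))) (XT.nd (nat_lit 188) (nat_lit 0) (nat_lit 84) (XT.nd (nat_lit 94) (nat_lit 840) (nat_lit 0) (XT.lf (nat_lit 84) (nat_lit 3198210366) (nat_lit 0) (nat_lit 3732726346) (nat_lit 840) (nat_lit 815754421) (nat_lit 163) (nat_lit 5) (nat_lit 162) (nat_lit 5) (nat_lit 172) (nat_lit 5) (nat_lit 306) (nat_lit 303) (nat_lit 255)) (XT.lf (nat_lit 0) (nat_lit 397214001) (nat_lit 840) (nat_lit 1395314587) (nat_lit 924) (nat_lit 6037435521) (nat_lit 152) (nat_lit 5) (nat_lit 162) (nat_lit 5) (nat_lit 163) (nat_lit 5) (nat_lit 307) (nat_lit 303) (nat_lit 254))) (XT.nd (nat_lit 94) (nat_lit 0) (nat_lit 0) (XT.lf (nat_lit 0) (nat_lit 1605843751) (nat_lit 840) (nat_lit 6060565407) (nat_lit 924) (nat_lit 250126233) (nat_lit 153) (nat_lit 5) (nat_lit 163) (nat_lit 5) (nat_lit 164) (nat_lit 5) (nat_lit 308) (nat_lit 303)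 (nat_lit 253)) (XT.nd (nat_lit 94) (nat_lit 0) (nat_lit 0) (XT.lf (nat_lit 0) (nat_lit 2840336216) (nat_lit 840) (nat_lit 2813827317) (nat_lit 924) (nat_lit 2352181190) (nat_lit 153) (nat_lit 5) (nat_lit 163) (nat_lit 5) (nat_lit 164) (nat_lit 5) (nat_lit 309) (nat_lit 303) (nat_lit 252)) (XT.lf (nat_lit 84) (nat_lit 517180036) (nat_lit 0) (nat_lit 3557739634) (nat_lit 924) (nat_lit 4025390742) (nat_lit 154) (nat_lit 5) (nat_lit 153) (nat_lit 5) (nat_lit 164) (nat_lit 5) (nat_lit 310) (nat_lit 303) (nat_lit 251))))))) (XT.nd (nat_lit 752) (nat_lit 3444) (nat_lit 0) (XT.nd (nat_lit 376) (nat_lit 0) (nat_lit 0) (XT.nd (nat_lit 188) (nat_lit 840) (nat_lit 0) (XT.nd (nat_lit 94) (nat_lit 0) (nat_lit 84) (XT.lf (nat_lit 84) (nat_lit 3984571960) (nat_lit 0) (nat_lit 1350304110) (nat_lit 924) (nat_lit 2862895904) (nat_lit 154) (nat_lit 5) (nat_lit 153) (nat_lit 5) (nat_lit 164) (nat_lit 5) (nat_lit 311)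 (nat_lit 303) (nat_lit 250)) (XT.lf (nat_lit 0) (nat_lit 6602225503) (nat_lit 840) (nat_lit 775314153) (nat_lit 924) (nat_lit 921874383) (nat_lit 154) (nat_lit 5) (nat_lit 164) (nat_lit 5) (nat_lit 165) (nat_lit 5) (nat_lit 312) (nat_lit 303) (nat_lit 249))) (XT.nd (nat_lit 94) (nat_lit 924) (nat_lit 0) (XT.lf (nat_lit 84) (nat_lit 2784937134) (nat_lit 0) (nat_lit 5125743879) (nat_lit 924) (nat_lit 493641853) (nat_lit 155) (nat_lit 5) (nat_lit 154) (nat_lit 5) (nat_lit 165) (nat_lit 5) (nat_lit 313) (nat_lit 303) (nat_lit 248)) (XT.lf (nat_lit 0) (nat_lit 701087998) (nat_lit 924) (nat_lit 2074945289) (nat_lit 1008) (nat_lit 5737346046) (nat_lit 143) (nat_lit 5) (nat_lit 154) (nat_lit 5) (nat_lit 155) (nat_lit 5) (nat_lit 314) (nat_lit 303) (nat_lit 247)))) (XT.nd (nat_lit 188) (nat_lit 0) (nat_lit 84) (XT.nd (nat_lit 94) (nat_lit 0) (nat_lit 84) (XT.lf (nat_lit 84) (nat_lit 1579761286) (nat_lit 0)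 (nat_lit 320443082) (nat_lit 1008) (nat_lit 6726307097) (nat_lit 144) (nat_lit 5) (nat_lit 143) (nat_lit 5) (nat_lit 155) (nat_lit 5) (nat_lit 315) (nat_lit 303) (nat_lit 246)) (XT.lf (nat_lit 0) (nat_lit 3143236819) (nat_lit 924) (nat_lit 3400424329) (nat_lit 1008) (nat_lit 2199432920) (nat_lit 144) (nat_lit 5) (nat_lit 155) (nat_lit 5) (nat_lit 156) (nat_lit 5) (nat_lit 316) (nat_lit 303) (nat_lit 245))) (XT.nd (nat_lit 94) (nat_lit 0) (nat_lit 0) (XT.lf (nat_lit 84) (nat_lit 335713189) (nat_lit 0) (nat_lit 4059740181) (nat_lit 1008) (nat_lit 4468895050) (nat_lit 145) (nat_lit 5) (nat_lit 144) (nat_lit 5) (nat_lit 156) (nat_lit 5) (nat_lit 317) (nat_lit 303) (nat_lit 244)) (XT.lf (nat_lit 84) (nat_lit 4233317675) (nat_lit 0) (nat_lit 1453525689) (nat_lit 1008) (nat_lit 3302650691) (nat_lit 145) (nat_lit 5) (nat_lit 144) (nat_lit 5) (nat_lit 156) (nat_lit 5) (nat_lit 318) (nat_lit 303) (nat_lit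 243))))) (XT.nd (nat_lit 376) (nat_lit 1596) (nat_lit 0) (XT.nd (nat_lit 188) (nat_lit 1092) (nat_lit 0) (XT.nd (nat_lit 94) (nat_lit 924) (nat_lit 0) (XT.lf (nat_lit 0) (nat_lit 6996504255) (nat_lit 924) (nat_lit 905932412) (nat_lit 84) (nat_lit 1216896252) (nat_lit 145) (nat_lit 5) (nat_lit 156) (nat_lit 5) (nat_lit 146) (nat_lit 5) (nat_lit 319) (nat_lit 303) (nat_lit 242)) (XT.lf (nat_lit 0) (nat_lit 3084840384) (nat_lit 924) (nat_lit 5274416172) (nat_lit 1008) (nat_lit 893687882) (nat_lit 134) (nat_lit 5) (nat_lit 145) (nat_lit 5) (nat_lit 146) (nat_lit 5) (nat_lit 320) (nat_lit 303) (nat_lit 241))) (XT.nd (nat_lit 94) (nat_lit 1008) (nat_lit 0) (XT.lf (nat_lit 0) (nat_lit 342883626) (nat_lit 1008) (nat_lit 2202324910) (nat_lit 84) (nat_lit 6846218950) (nat_lit 133) (nat_lit 5) (nat_lit 145) (nat_lit 5) (nat_lit 134) (nat_lit 5) (nat_lit 321) (nat_lit 303) (nat_lit 240)) (XT.lf (nat_lit 0) (nat_lit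 1589260733) (nat_lit 1092) (nat_lit 7647980448) (nat_lit 84) (nat_lit 297110959) (nat_lit 121) (nat_lit 5) (nat_lit 134) (nat_lit 5) (nat_lit 122) (nat_lit 5) (nat_lit 322) (nat_lit 303) (nat_lit 239)))) (XT.nd (nat_lit 188) (nat_lit 504) (nat_lit 0) (XT.nd (nat_lit 94) (nat_lit 1092) (nat_lit 0) (XT.lf (nat_lit 0) (nat_lit 2892567643) (nat_lit 1092) (nat_lit 3585477290) (nat_lit 84) (nat_lit 3203214864) (nat_lit 121) (nat_lit 5) (nat_lit 134) (nat_lit 5) (nat_lit 122) (nat_lit 5) (nat_lit 323) (nat_lit 303) (nat_lit 238)) (XT.lf (nat_lit 0) (nat_lit 588910301) (nat_lit 1092) (nat_lit 3623177551) (nat_lit 1176) (nat_lit 5621499410) (nat_lit 108) (nat_lit 5) (nat_lit 121) (nat_lit 5) (nat_lit 122) (nat_lit 5) (nat_lit 324) (nat_lit 303) (nat_lit 237))) (XT.nd (nat_lit 94) (nat_lit 504) (nat_lit 0) (XT.lf (nat_lit 0) (nat_lit 4943058150) (nat_lit 1092) (nat_lit 637497257) (nat_lit 1176) (nat_lit 4409944486)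 (nat_lit 108) (nat_lit 5) (nat_lit 121) (nat_lit 5) (nat_lit 122) (nat_lit 5) (nat_lit 325) (nat_lit 303) (nat_lit 236)) (XT.nd (nat_lit 94) (nat_lit 504) (nat_lit 0) (XT.lf (nat_lit 0) (nat_lit 6987194417) (nat_lit 1176) (nat_lit 770217523) (nat_lit 84) (nat_lit 2395105601) (nat_lit 108) (nat_lit 5) (nat_lit 122) (nat_lit 5) (nat_lit 109) (nat_lit 5) (nat_lit 326) (nat_lit 303) (nat_lit 235)) (XT.lf (nat_lit 0) (nat_lit 3682133625) (nat_lit 504) (nat_lit 4770745292) (nat_lit 588) (nat_lit 1866305860) (nat_lit 102) (nat_lit 5) (nat_lit 108) (nat_lit 5) (nat_lit 109) (nat_lit 5) (nat_lit 327) (nat_lit 303) (nat_lit 234))))))))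
noncomputable def xc46 : XT := (XT.nd (nat_lit 52076) (nat_lit 0) (nat_lit 5628) (XT.nd (nat_lit 752) (nat_lit 1344) (nat_lit 0) (XT.nd (nat_lit 376) (nat_lit 504) (nat_lit 0) (XT.nd (nat_lit 188) (nat_lit 504) (nat_lit 0) (XT.nd (nat_lit 94) (nat_lit 672) (nat_lit 0) (XT.lf (nat_lit 0) (nat_lit 8263956613) (nat_lit 504) (nat_lit 1681058177) (nat_lit 588) (nat_lit 546694929) (nat_lit 102) (nat_lit 5) (nat_lit 108) (nat_lit 5) (nat_lit 109) (nat_lit 5) (nat_lit 328) (nat_lit 303) (nat_lit 233)) (XT.lf (nat_lit 0) (nat_lit 809248440) (nat_lit 672) (nat_lit 8352418674) (nat_lit 84) (nat_lit 1507395514) (nat_lit 94) (nat_lit 5) (nat_lit 102) (nat_lit 5) (nat_lit 95) (nat_lit 5) (nat_lit 329) (nat_lit 303) (nat_lit 232))) (XT.nd (nat_lit 94) (nat_lit 504) (nat_lit 0) (XT.lf (nat_lit 0) (nat_lit 2210547629) (nat_lit 672) (nat_lit 3850508931) (nat_lit 84) (nat_lit 4790322095) (nat_lit 94) (nat_lit 5) (nat_lit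 102) (nat_lit 5) (nat_lit 95) (nat_lit 5) (nat_lit 330) (nat_lit 303) (nat_lit 231)) (XT.lf (nat_lit 0) (nat_lit 782042989) (nat_lit 504) (nat_lit 2855777474) (nat_lit 588) (nat_lit 7402158193) (nat_lit 88) (nat_lit 5) (nat_lit 94) (nat_lit 5) (nat_lit 95) (nat_lit 5) (nat_lit 331) (nat_lit 303) (nat_lit 230)))) (XT.nd (nat_lit 188) (nat_lit 504) (nat_lit 0) (XT.nd (nat_lit 94) (nat_lit 0) (nat_lit 0) (XT.lf (nat_lit 0) (nat_lit 5129688431) (nat_lit 588) (nat_lit 5623490820) (nat_lit 84) (nat_lit 480703148) (nat_lit 88) (nat_lit 5) (nat_lit 95) (nat_lit 5) (nat_lit 89) (nat_lit 5) (nat_lit 332) (nat_lit 303) (nat_lit 229)) (XT.lf (nat_lit 0) (nat_lit 6673049434) (nat_lit 588) (nat_lit 899106359) (nat_lit 84) (nat_lit 3861564104) (nat_lit 88) (nat_lit 5) (nat_lit 95) (nat_lit 5) (nat_lit 89) (nat_lit 5) (nat_lit 333) (nat_lit 303) (nat_lit 228))) (XT.nd (nat_lit 94) (nat_lit 0) (nat_lit 0) (XT.lf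 (nat_lit 0) (nat_lit 4029128972) (nat_lit 504) (nat_lit 4251852865) (nat_lit 588) (nat_lit 3358334748) (nat_lit 82) (nat_lit 5) (nat_lit 88) (nat_lit 5) (nat_lit 89) (nat_lit 5) (nat_lit 334) (nat_lit 303) (nat_lit 227)) (XT.lf (nat_lit 0) (nat_lit 9105657946) (nat_lit 504) (nat_lit 819710081) (nat_lit 588) (nat_lit 1926414181) (nat_lit 82) (nat_lit 5) (nat_lit 88) (nat_lit 5) (nat_lit 89) (nat_lit 5) (nat_lit 335) (nat_lit 303) (nat_lit 226))))) (XT.nd (nat_lit 376) (nat_lit 420) (nat_lit 0) (XT.nd (nat_lit 188) (nat_lit 420) (nat_lit 0) (XT.nd (nat_lit 94) (nat_lit 84) (nat_lit 0) (XT.lf (nat_lit 0) (nat_lit 2263774205) (nat_lit 420) (nat_lit 9384284573) (nat_lit 504) (nat_lit 422006170) (nat_lit 77) (nat_lit 5) (nat_lit 82) (nat_lit 5) (nat_lit 83) (nat_lit 5) (nat_lit 336) (nat_lit 303) (nat_lit 225)) (XT.lf (nat_lit 0) (nat_lit 1121669437) (nat_lit 504) (nat_lit 4850782777) (nat_lit 84) (nat_lit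 6321911554) (nat_lit 76) (nat_lit 5) (nat_lit 82) (nat_lit 5) (nat_lit 77) (nat_lit 5) (nat_lit 337) (nat_lit 303) (nat_lit 224))) (XT.nd (nat_lit 94) (nat_lit 0) (nat_lit 0) (XT.lf (nat_lit 0) (nat_lit 235619150) (nat_lit 420) (nat_lit 2449849289) (nat_lit 504) (nat_lit 9840672564) (nat_lit 71) (nat_lit 5) (nat_lit 76) (nat_lit 5) (nat_lit 77) (nat_lit 5) (nat_lit 338) (nat_lit 303) (nat_lit 223)) (XT.lf (nat_lit 0) (nat_lit 4339711472) (nat_lit 504) (nat_lit 7216862822) (nat_lit 84) (nat_lit 1207297002) (nat_lit 71) (nat_lit 5) (nat_lit 77) (nat_lit 5) (nat_lit 72) (nat_lit 5) (nat_lit 339) (nat_lit 303) (nat_lit 222)))) (XT.nd (nat_lit 188) (nat_lit 0) (nat_lit 0) (XT.nd (nat_lit 94) (nat_lit 420) (nat_lit 0) (XT.lf (nat_lit 0) (nat_lit 6050011978) (nat_lit 504) (nat_lit 2033886050) (nat_lit 84) (nat_lit 4924991992) (nat_lit 71) (nat_lit 5) (nat_lit 77) (nat_lit 5) (nat_lit 72) (nat_lit 5) (nat_lit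 340) (nat_lit 303) (nat_lit 221)) (XT.lf (nat_lit 0) (nat_lit 3355140960) (nat_lit 420) (nat_lit 4471803781) (nat_lit 504) (nat_lit 5434202418) (nat_lit 66) (nat_lit 5) (nat_lit 71) (nat_lit 5) (nat_lit 72) (nat_lit 5) (nat_lit 341) (nat_lit 303) (nat_lit 220))) (XT.nd (nat_lit 50666) (nat_lit 0) (nat_lit 8064) (XT.lf (nat_lit 0) (nat_lit 8932349433) (nat_lit 420) (nat_lit 728545362) (nat_lit 504) (nat_lit 3860332453) (nat_lit 66) (nat_lit 5) (nat_lit 71) (nat_lit 5) (nat_lit 72) (nat_lit 5) (nat_lit 342) (nat_lit 303) (nat_lit 219)) (XT.lf (nat_lit 0) (nat_lit 1396138206) (nat_lit 0) (nat_lit 1396138206) (nat_lit 756) (nat_lit 1040184806) (nat_lit 162) (nat_lit 5) (nat_lit 162) (nat_lit 3) (nat_lit 171) (nat_lit 3) (nat_lit 304) (nat_lit 304) (nat_lit 256)))))) (XT.nd (nat_lit 752) (nat_lit 1596) (nat_lit 0) (XT.nd (nat_lit 376) (nat_lit 0) (nat_lit 0) (XT.nd (nat_lit 188) (nat_lit 0) (nat_lit 0)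 (XT.nd (nat_lit 94) (nat_lit 840) (nat_lit 0) (XT.lf (nat_lit 0) (nat_lit 5911852152) (nat_lit 0) (nat_lit 917691931) (nat_lit 756) (nat_lit 912981037) (nat_lit 162) (nat_lit 5) (nat_lit 162) (nat_lit 3) (nat_lit 171) (nat_lit 3) (nat_lit 305) (nat_lit 304) (nat_lit 255)) (XT.lf (nat_lit 0) (nat_lit 260773780) (nat_lit 840) (nat_lit 6529695295) (nat_lit 924) (nat_lit 1032924892) (nat_lit 152) (nat_lit 5) (nat_lit 162) (nat_lit 5) (nat_lit 163) (nat_lit 5) (nat_lit 306) (nat_lit 304) (nat_lit 254))) (XT.nd (nat_lit 94) (nat_lit 0) (nat_lit 0) (XT.lf (nat_lit 0) (nat_lit 1434674757) (nat_lit 840) (nat_lit 3397483128) (nat_lit 924) (nat_lit 3075058561) (nat_lit 152) (nat_lit 5) (nat_lit 162) (nat_lit 5) (nat_lit 163) (nat_lit 5) (nat_lit 307) (nat_lit 304) (nat_lit 253)) (XT.lf (nat_lit 0) (nat_lit 2600383530) (nat_lit 840) (nat_lit 193508917) (nat_lit 924) (nat_lit 5201321641) (nat_lit 152) (nat_lit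 5) (nat_lit 162) (nat_lit 5) (nat_lit 163) (nat_lit 5) (nat_lit 308) (nat_lit 304) (nat_lit 252)))) (XT.nd (nat_lit 188) (nat_lit 0) (nat_lit 84) (XT.nd (nat_lit 94) (nat_lit 0) (nat_lit 84) (XT.lf (nat_lit 84) (nat_lit 3148652097) (nat_lit 0) (nat_lit 641569583) (nat_lit 924) (nat_lit 4296278953) (nat_lit 153) (nat_lit 5) (nat_lit 152) (nat_lit 5) (nat_lit 163) (nat_lit 5) (nat_lit 309) (nat_lit 304) (nat_lit 251)) (XT.lf (nat_lit 0) (nat_lit 4992627496) (nat_lit 840) (nat_lit 1623695297) (nat_lit 924) (nat_lit 1565231171) (nat_lit 153) (nat_lit 5) (nat_lit 163) (nat_lit 5) (nat_lit 164) (nat_lit 5) (nat_lit 310) (nat_lit 304) (nat_lit 250))) (XT.nd (nat_lit 94) (nat_lit 0) (nat_lit 0) (XT.lf (nat_lit 84) (nat_lit 1797641155) (nat_lit 0) (nat_lit 4418317792) (nat_lit 924) (nat_lit 2064279378) (nat_lit 154) (nat_lit 5) (nat_lit 153) (nat_lit 5) (nat_lit 164) (nat_lit 5) (nat_lit 311) (nat_lit 304)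 (nat_lit 249)) (XT.lf (nat_lit 84) (nat_lit 5334503524) (nat_lit 0) (nat_lit 2119892179) (nat_lit 924) (nat_lit 928465777) (nat_lit 154) (nat_lit 5) (nat_lit 153) (nat_lit 5) (nat_lit 164) (nat_lit 5) (nat_lit 312) (nat_lit 304) (nat_lit 248))))) (XT.nd (nat_lit 376) (nat_lit 840) (nat_lit 0) (XT.nd (nat_lit 188) (nat_lit 0) (nat_lit 0) (XT.nd (nat_lit 94) (nat_lit 0) (nat_lit 0) (XT.lf (nat_lit 0) (nat_lit 205936917) (nat_lit 924) (nat_lit 8018189797) (nat_lit 1008) (nat_lit 265610425) (nat_lit 143) (nat_lit 5) (nat_lit 154) (nat_lit 5) (nat_lit 155) (nat_lit 5) (nat_lit 313) (nat_lit 304) (nat_lit 247)) (XT.lf (nat_lit 0) (nat_lit 1371977789) (nat_lit 924) (nat_lit 4491640628) (nat_lit 1008) (nat_lit 2735681797) (nat_lit 143) (nat_lit 5) (nat_lit 154) (nat_lit 5) (nat_lit 155) (nat_lit 5) (nat_lit 314) (nat_lit 304) (nat_lit 246))) (XT.nd (nat_lit 94) (nat_lit 0) (nat_lit 0) (XT.lf (nat_lit 0)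 (nat_lit 2537243102) (nat_lit 924) (nat_lit 881366297) (nat_lit 1008) (nat_lit 5294947378) (nat_lit 143) (nat_lit 5) (nat_lit 154) (nat_lit 5) (nat_lit 155) (nat_lit 5) (nat_lit 315) (nat_lit 304) (nat_lit 245)) (XT.lf (nat_lit 84) (nat_lit 2873901050) (nat_lit 0) (nat_lit 857427409) (nat_lit 1008) (nat_lit 5100401074) (nat_lit 144) (nat_lit 5) (nat_lit 143) (nat_lit 5) (nat_lit 155) (nat_lit 5) (nat_lit 316) (nat_lit 304) (nat_lit 244)))) (XT.nd (nat_lit 188) (nat_lit 924) (nat_lit 0) (XT.nd (nat_lit 94) (nat_lit 0) (nat_lit 0) (XT.lf (nat_lit 0) (nat_lit 4954536859) (nat_lit 924) (nat_lit 2232705224) (nat_lit 1008) (nat_lit 1766711658) (nat_lit 144) (nat_lit 5) (nat_lit 155) (nat_lit 5) (nat_lit 156) (nat_lit 5) (nat_lit 317) (nat_lit 304) (nat_lit 243)) (XT.lf (nat_lit 84) (nat_lit 1606363236) (nat_lit 0) (nat_lit 4600178499) (nat_lit 1008) (nat_lit 2873847061) (nat_lit 145) (nat_lit 5) (nat_lit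 144) (nat_lit 5) (nat_lit 156) (nat_lit 5) (nat_lit 318) (nat_lit 304) (nat_lit 242))) (XT.nd (nat_lit 94) (nat_lit 924) (nat_lit 0) (XT.lf (nat_lit 84) (nat_lit 5586900609) (nat_lit 0) (nat_lit 1900705619) (nat_lit 1008) (nat_lit 1723574341) (nat_lit 145) (nat_lit 5) (nat_lit 144) (nat_lit 5) (nat_lit 156) (nat_lit 5) (nat_lit 319) (nat_lit 304) (nat_lit 241)) (XT.nd (nat_lit 94) (nat_lit 84) (nat_lit 0) (XT.lf (nat_lit 0) (nat_lit 317112833) (nat_lit 924) (nat_lit 8471186012) (nat_lit 1008) (nat_lit 558481519) (nat_lit 134) (nat_lit 5) (nat_lit 145) (nat_lit 5) (nat_lit 146) (nat_lit 5) (nat_lit 320) (nat_lit 304) (nat_lit 240)) (XT.lf (nat_lit 0) (nat_lit 655720422) (nat_lit 1008) (nat_lit 5079940809) (nat_lit 84) (nat_lit 3750043797) (nat_lit 133) (nat_lit 5) (nat_lit 145) (nat_lit 5) (nat_lit 134) (nat_lit 5) (nat_lit 321) (nat_lit 304) (nat_lit 239))))))))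
noncomputable def xc47 : XT := (XT.nd (nat_lit 1598) (nat_lit 840) (nat_lit 0) (XT.nd (nat_lit 752) (nat_lit 2100) (nat_lit 0) (XT.nd (nat_lit 376) (nat_lit 588) (nat_lit 0) (XT.nd (nat_lit 188) (nat_lit 1092) (nat_lit 0) (XT.nd (nat_lit 94) (nat_lit 1008) (nat_lit 0) (XT.lf (nat_lit 0) (nat_lit 1865199371) (nat_lit 1008) (nat_lit 1038556103) (nat_lit 84) (nat_lit 6726076837) (nat_lit 133) (nat_lit 5) (nat_lit 145) (nat_lit 5) (nat_lit 134) (nat_lit 5) (nat_lit 322) (nat_lit 304) (nat_lit 238)) (XT.lf (nat_lit 0) (nat_lit 3114292233) (nat_lit 1092) (nat_lit 6611414292) (nat_lit 84) (nat_lit 52771097) (nat_lit 121) (nat_lit 5) (nat_lit 134) (nat_lit 5) (nat_lit 122) (nat_lit 5) (nat_lit 323) (nat_lit 304) (nat_lit 237))) (XT.nd (nat_lit 94) (nat_lit 1092) (nat_lit 0) (XT.lf (nat_lit 0) (nat_lit 4413628528) (nat_lit 1092) (nat_lit 2461269617) (nat_lit 84) (nat_lit 3056587947) (nat_lit 121) (nat_lit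 5) (nat_lit 134) (nat_lit 5) (nat_lit 122) (nat_lit 5) (nat_lit 324) (nat_lit 304) (nat_lit 236)) (XT.lf (nat_lit 0) (nat_lit 1830017104) (nat_lit 1092) (nat_lit 3913128666) (nat_lit 1176) (nat_lit 4346514054) (nat_lit 108) (nat_lit 5) (nat_lit 121) (nat_lit 5) (nat_lit 122) (nat_lit 5) (nat_lit 325) (nat_lit 304) (nat_lit 235)))) (XT.nd (nat_lit 188) (nat_lit 84) (nat_lit 0) (XT.nd (nat_lit 94) (nat_lit 504) (nat_lit 0) (XT.lf (nat_lit 0) (nat_lit 6282374993) (nat_lit 1092) (nat_lit 829551244) (nat_lit 1176) (nat_lit 3140976880) (nat_lit 108) (nat_lit 5) (nat_lit 121) (nat_lit 5) (nat_lit 122) (nat_lit 5) (nat_lit 326) (nat_lit 304) (nat_lit 234)) (XT.lf (nat_lit 0) (nat_lit 412166780) (nat_lit 504) (nat_lit 8111591822) (nat_lit 588) (nat_lit 1897531630) (nat_lit 102) (nat_lit 5) (nat_lit 108) (nat_lit 5) (nat_lit 109) (nat_lit 5) (nat_lit 327) (nat_lit 304) (nat_lit 233))) (XT.nd (nat_lit 94) (nat_lit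 84) (nat_lit 0) (XT.lf (nat_lit 0) (nat_lit 4982108337) (nat_lit 504) (nat_lit 5020880292) (nat_lit 588) (nat_lit 591275573) (nat_lit 102) (nat_lit 5) (nat_lit 108) (nat_lit 5) (nat_lit 109) (nat_lit 5) (nat_lit 328) (nat_lit 304) (nat_lit 232)) (XT.lf (nat_lit 0) (nat_lit 714475152) (nat_lit 588) (nat_lit 1110405871) (nat_lit 84) (nat_lit 8948379661) (nat_lit 101) (nat_lit 5) (nat_lit 108) (nat_lit 5) (nat_lit 102) (nat_lit 5) (nat_lit 329) (nat_lit 304) (nat_lit 231))))) (XT.nd (nat_lit 376) (nat_lit 1008) (nat_lit 0) (XT.nd (nat_lit 188) (nat_lit 504) (nat_lit 0) (XT.nd (nat_lit 94) (nat_lit 0) (nat_lit 0) (XT.lf (nat_lit 0) (nat_lit 2073894666) (nat_lit 672) (nat_lit 7398867932) (nat_lit 84) (nat_lit 1484157046) (nat_lit 94) (nat_lit 5) (nat_lit 102) (nat_lit 5) (nat_lit 95) (nat_lit 5) (nat_lit 330) (nat_lit 304) (nat_lit 230)) (XT.lf (nat_lit 0) (nat_lit 3481363184) (nat_lit 672) (nat_lit 2793855580)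 (nat_lit 84) (nat_lit 4870958134) (nat_lit 94) (nat_lit 5) (nat_lit 102) (nat_lit 5) (nat_lit 95) (nat_lit 5) (nat_lit 331) (nat_lit 304) (nat_lit 229))) (XT.nd (nat_lit 94) (nat_lit 0) (nat_lit 0) (XT.lf (nat_lit 0) (nat_lit 1970399312) (nat_lit 504) (nat_lit 2957880021) (nat_lit 588) (nat_lit 6413236831) (nat_lit 88) (nat_lit 5) (nat_lit 94) (nat_lit 5) (nat_lit 95) (nat_lit 5) (nat_lit 332) (nat_lit 304) (nat_lit 228)) (XT.lf (nat_lit 0) (nat_lit 6430854054) (nat_lit 588) (nat_lit 4629099860) (nat_lit 84) (nat_lit 482704877) (nat_lit 88) (nat_lit 5) (nat_lit 95) (nat_lit 5) (nat_lit 89) (nat_lit 5) (nat_lit 333) (nat_lit 304) (nat_lit 227)))) (XT.nd (nat_lit 188) (nat_lit 504) (nat_lit 0) (XT.nd (nat_lit 94) (nat_lit 0) (nat_lit 0) (XT.lf (nat_lit 0) (nat_lit 210847704) (nat_lit 504) (nat_lit 7778961274) (nat_lit 588) (nat_lit 3760004331) (nat_lit 82) (nat_lit 5) (nat_lit 88) (nat_lit 5) (nat_lit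 89) (nat_lit 5) (nat_lit 334) (nat_lit 304) (nat_lit 226)) (XT.lf (nat_lit 0) (nat_lit 5276133758) (nat_lit 504) (nat_lit 4347183965) (nat_lit 588) (nat_lit 2339336750) (nat_lit 82) (nat_lit 5) (nat_lit 88) (nat_lit 5) (nat_lit 89) (nat_lit 5) (nat_lit 335) (nat_lit 304) (nat_lit 225))) (XT.nd (nat_lit 94) (nat_lit 504) (nat_lit 0) (XT.lf (nat_lit 0) (nat_lit 10476295891) (nat_lit 504) (nat_lit 809741522) (nat_lit 588) (nat_lit 896796090) (nat_lit 82) (nat_lit 5) (nat_lit 88) (nat_lit 5) (nat_lit 89) (nat_lit 5) (nat_lit 336) (nat_lit 304) (nat_lit 224)) (XT.nd (nat_lit 94) (nat_lit 0) (nat_lit 0) (XT.lf (nat_lit 0) (nat_lit 620470514) (nat_lit 504) (nat_lit 8967971435) (nat_lit 84) (nat_lit 2819986592) (nat_lit 76) (nat_lit 5) (nat_lit 82) (nat_lit 5) (nat_lit 77) (nat_lit 5) (nat_lit 337) (nat_lit 304) (nat_lit 223)) (XT.lf (nat_lit 0) (nat_lit 2171759148) (nat_lit 504) (nat_lit 3897376062) (nat_lit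 84) (nat_lit 6571492321) (nat_lit 76) (nat_lit 5) (nat_lit 82) (nat_lit 5) (nat_lit 77) (nat_lit 5) (nat_lit 338) (nat_lit 304) (nat_lit 222))))))) (XT.nd (nat_lit 51418) (nat_lit 0) (nat_lit 6384) (XT.nd (nat_lit 51042) (nat_lit 0) (nat_lit 7140) (XT.nd (nat_lit 188) (nat_lit 420) (nat_lit 0) (XT.nd (nat_lit 94) (nat_lit 0) (nat_lit 0) (XT.lf (nat_lit 0) (nat_lit 1335529533) (nat_lit 420) (nat_lit 2428816701) (nat_lit 504) (nat_lit 9115955837) (nat_lit 71) (nat_lit 5) (nat_lit 76) (nat_lit 5) (nat_lit 77) (nat_lit 5) (nat_lit 339) (nat_lit 304) (nat_lit 221)) (XT.lf (nat_lit 0) (nat_lit 5440867461) (nat_lit 504) (nat_lit 6348642349) (nat_lit 84) (nat_lit 1336890064) (nat_lit 71) (nat_lit 5) (nat_lit 77) (nat_lit 5) (nat_lit 72) (nat_lit 5) (nat_lit 340) (nat_lit 304) (nat_lit 220))) (XT.nd (nat_lit 94) (nat_lit 420) (nat_lit 0) (XT.lf (nat_lit 0) (nat_lit 7175122905) (nat_lit 504) (nat_lit 1037825732)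 (nat_lit 84) (nat_lit 5167062336) (nat_lit 71) (nat_lit 5) (nat_lit 77) (nat_lit 5) (nat_lit 72) (nat_lit 5) (nat_lit 341) (nat_lit 304) (nat_lit 219)) (XT.lf (nat_lit 0) (nat_lit 4507538570) (nat_lit 420) (nat_lit 4481811682) (nat_lit 504) (nat_lit 4651382248) (nat_lit 66) (nat_lit 5) (nat_lit 71) (nat_lit 5) (nat_lit 72) (nat_lit 5) (nat_lit 342) (nat_lit 304) (nat_lit 218)))) (XT.nd (nat_lit 188) (nat_lit 0) (nat_lit 84) (XT.nd (nat_lit 94) (nat_lit 0) (nat_lit 0) (XT.lf (nat_lit 0) (nat_lit 112980145) (nat_lit 924) (nat_lit 1898728521) (nat_lit 924) (nat_lit 1898728521) (nat_lit 151) (nat_lit 3) (nat_lit 162) (nat_lit 3) (nat_lit 162) (nat_lit 5) (nat_lit 305) (nat_lit 305) (nat_lit 254)) (XT.lf (nat_lit 0) (nat_lit 1335302256) (nat_lit 924) (nat_lit 709353181) (nat_lit 924) (nat_lit 5858332370) (nat_lit 151) (nat_lit 3) (nat_lit 162) (nat_lit 3) (nat_lit 162) (nat_lit 5) (nat_lit 306) (nat_lit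 305) (nat_lit 253))) (XT.nd (nat_lit 94) (nat_lit 0) (nat_lit 0) (XT.lf (nat_lit 0) (nat_lit 2459713662) (nat_lit 840) (nat_lit 5487055427) (nat_lit 924) (nat_lit 41671183) (nat_lit 152) (nat_lit 5) (nat_lit 162) (nat_lit 5) (nat_lit 163) (nat_lit 5) (nat_lit 307) (nat_lit 305) (nat_lit 252)) (XT.lf (nat_lit 0) (nat_lit 3604131144) (nat_lit 840) (nat_lit 2295181029) (nat_lit 924) (nat_lit 2177878702) (nat_lit 152) (nat_lit 5) (nat_lit 162) (nat_lit 5) (nat_lit 163) (nat_lit 5) (nat_lit 308) (nat_lit 305) (nat_lit 251))))) (XT.nd (nat_lit 376) (nat_lit 840) (nat_lit 0) (XT.nd (nat_lit 188) (nat_lit 0) (nat_lit 84) (XT.nd (nat_lit 94) (nat_lit 0) (nat_lit 0) (XT.lf (nat_lit 84) (nat_lit 991787984) (nat_lit 0) (nat_lit 3760133844) (nat_lit 924) (nat_lit 3417949199) (nat_lit 153) (nat_lit 5) (nat_lit 152) (nat_lit 5) (nat_lit 163) (nat_lit 5) (nat_lit 309) (nat_lit 305) (nat_lit 250)) (XT.lf (nat_lit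 84) (nat_lit 4405715178) (nat_lit 0) (nat_lit 1512620490) (nat_lit 924) (nat_lit 2347791866) (nat_lit 153) (nat_lit 5) (nat_lit 152) (nat_lit 5) (nat_lit 163) (nat_lit 5) (nat_lit 310) (nat_lit 305) (nat_lit 249))) (XT.nd (nat_lit 94) (nat_lit 0) (nat_lit 0) (XT.lf (nat_lit 0) (nat_lit 7089371286) (nat_lit 840) (nat_lit 472329443) (nat_lit 924) (nat_lit 804817133) (nat_lit 153) (nat_lit 5) (nat_lit 163) (nat_lit 5) (nat_lit 164) (nat_lit 5) (nat_lit 311) (nat_lit 305) (nat_lit 248)) (XT.lf (nat_lit 84) (nat_lit 3042902301) (nat_lit 0) (nat_lit 5261133017) (nat_lit 924) (nat_lit 165924900) (nat_lit 154) (nat_lit 5) (nat_lit 153) (nat_lit 5) (nat_lit 164) (nat_lit 5) (nat_lit 312) (nat_lit 305) (nat_lit 247)))) (XT.nd (nat_lit 188) (nat_lit 0) (nat_lit 84) (XT.nd (nat_lit 94) (nat_lit 0) (nat_lit 0) (XT.lf (nat_lit 0) (nat_lit 927033561) (nat_lit 924) (nat_lit 1933522974) (nat_lit 1008) (nat_lit 5716930720)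 (nat_lit 142) (nat_lit 5) (nat_lit 153) (nat_lit 5) (nat_lit 154) (nat_lit 5) (nat_lit 313) (nat_lit 305) (nat_lit 246)) (XT.lf (nat_lit 84) (nat_lit 1676714460) (nat_lit 0) (nat_lit 353534988) (nat_lit 1008) (nat_lit 6658823507) (nat_lit 143) (nat_lit 5) (nat_lit 142) (nat_lit 5) (nat_lit 154) (nat_lit 5) (nat_lit 314) (nat_lit 305) (nat_lit 245))) (XT.nd (nat_lit 94) (nat_lit 0) (nat_lit 0) (XT.lf (nat_lit 0) (nat_lit 3174374645) (nat_lit 924) (nat_lit 3410801666) (nat_lit 1008) (nat_lit 2218881342) (nat_lit 143) (nat_lit 5) (nat_lit 154) (nat_lit 5) (nat_lit 155) (nat_lit 5) (nat_lit 315) (nat_lit 305) (nat_lit 244)) (XT.nd (nat_lit 94) (nat_lit 0) (nat_lit 0) (XT.lf (nat_lit 84) (nat_lit 280354453) (nat_lit 0) (nat_lit 4045274427) (nat_lit 1008) (nat_lit 4597999897) (nat_lit 144) (nat_lit 5) (nat_lit 143) (nat_lit 5) (nat_lit 155) (nat_lit 5) (nat_lit 316) (nat_lit 305) (nat_lit 243)) (XT.lf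 (nat_lit 84) (nat_lit 4134405765) (nat_lit 0) (nat_lit 1379840141) (nat_lit 1008) (nat_lit 3532747893) (nat_lit 144) (nat_lit 5) (nat_lit 143) (nat_lit 5) (nat_lit 155) (nat_lit 5) (nat_lit 317) (nat_lit 305) (nat_lit 242))))))))
noncomputable def xc48 : XT := (XT.nd (nat_lit 1504) (nat_lit 1428) (nat_lit 0) (XT.nd (nat_lit 752) (nat_lit 2772) (nat_lit 0) (XT.nd (nat_lit 376) (nat_lit 1008) (nat_lit 0) (XT.nd (nat_lit 188) (nat_lit 924) (nat_lit 0) (XT.nd (nat_lit 94) (nat_lit 0) (nat_lit 0) (XT.lf (nat_lit 0) (nat_lit 6720472356) (nat_lit 924) (nat_lit 1104196631) (nat_lit 1008) (nat_lit 1350245420) (nat_lit 144) (nat_lit 5) (nat_lit 155) (nat_lit 5) (nat_lit 156) (nat_lit 5) (nat_lit 318) (nat_lit 305) (nat_lit 241)) (XT.lf (nat_lit 84) (nat_lit 2841757087) (nat_lit 0) (nat_lit 5132813745) (nat_lit 1008) (nat_lit 1332035718) (nat_lit 145) (nat_lit 5) (nat_lit 144) (nat_lit 5) (nat_lit 156) (nat_lit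 5) (nat_lit 319) (nat_lit 305) (nat_lit 240))) (XT.nd (nat_lit 94) (nat_lit 924) (nat_lit 0) (XT.lf (nat_lit 84) (nat_lit 6910042725) (nat_lit 0) (nat_lit 2337929833) (nat_lit 1008) (nat_lit 195142291) (nat_lit 145) (nat_lit 5) (nat_lit 144) (nat_lit 5) (nat_lit 156) (nat_lit 5) (nat_lit 320) (nat_lit 305) (nat_lit 239)) (XT.lf (nat_lit 0) (nat_lit 947492881) (nat_lit 1008) (nat_lit 8071834394) (nat_lit 84) (nat_lit 564650924) (nat_lit 133) (nat_lit 5) (nat_lit 145) (nat_lit 5) (nat_lit 134) (nat_lit 5) (nat_lit 321) (nat_lit 305) (nat_lit 238)))) (XT.nd (nat_lit 188) (nat_lit 0) (nat_lit 0) (XT.nd (nat_lit 94) (nat_lit 1008) (nat_lit 0) (XT.lf (nat_lit 0) (nat_lit 2142280881) (nat_lit 1008) (nat_lit 4042422972) (nat_lit 84) (nat_lit 3543914068) (nat_lit 133) (nat_lit 5) (nat_lit 145) (nat_lit 5) (nat_lit 134) (nat_lit 5) (nat_lit 322) (nat_lit 305) (nat_lit 237)) (XT.lf (nat_lit 0) (nat_lit 90129555)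 (nat_lit 1008) (nat_lit 3255931675) (nat_lit 1092) (nat_lit 6532661994) (nat_lit 121) (nat_lit 5) (nat_lit 133) (nat_lit 5) (nat_lit 134) (nat_lit 5) (nat_lit 323) (nat_lit 305) (nat_lit 236))) (XT.nd (nat_lit 94) (nat_lit 0) (nat_lit 0) (XT.lf (nat_lit 0) (nat_lit 4413140688) (nat_lit 1008) (nat_lit 187911070) (nat_lit 1092) (nat_lit 5432108296) (nat_lit 121) (nat_lit 5) (nat_lit 133) (nat_lit 5) (nat_lit 134) (nat_lit 5) (nat_lit 324) (nat_lit 305) (nat_lit 235)) (XT.lf (nat_lit 0) (nat_lit 5897058544) (nat_lit 1092) (nat_lit 1375383845) (nat_lit 84) (nat_lit 2919982248) (nat_lit 121) (nat_lit 5) (nat_lit 134) (nat_lit 5) (nat_lit 122) (nat_lit 5) (nat_lit 325) (nat_lit 305) (nat_lit 234))))) (XT.nd (nat_lit 376) (nat_lit 1092) (nat_lit 0) (XT.nd (nat_lit 188) (nat_lit 588) (nat_lit 0) (XT.nd (nat_lit 94) (nat_lit 0) (nat_lit 0) (XT.lf (nat_lit 0) (nat_lit 3037166684) (nat_lit 1092) (nat_lit 4201546781)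 (nat_lit 1176) (nat_lit 3117845820) (nat_lit 108) (nat_lit 5) (nat_lit 121) (nat_lit 5) (nat_lit 122) (nat_lit 5) (nat_lit 326) (nat_lit 305) (nat_lit 233)) (XT.lf (nat_lit 0) (nat_lit 7592956988) (nat_lit 1092) (nat_lit 1017353780) (nat_lit 1176) (nat_lit 1915931867) (nat_lit 108) (nat_lit 5) (nat_lit 121) (nat_lit 5) (nat_lit 122) (nat_lit 5) (nat_lit 327) (nat_lit 305) (nat_lit 232))) (XT.nd (nat_lit 94) (nat_lit 84) (nat_lit 0) (XT.lf (nat_lit 0) (nat_lit 1575117151) (nat_lit 504) (nat_lit 8462218866) (nat_lit 588) (nat_lit 663546411) (nat_lit 102) (nat_lit 5) (nat_lit 108) (nat_lit 5) (nat_lit 109) (nat_lit 5) (nat_lit 328) (nat_lit 305) (nat_lit 231)) (XT.lf (nat_lit 0) (nat_lit 631349702) (nat_lit 588) (nat_lit 4634773817) (nat_lit 84) (nat_lit 5614203910) (nat_lit 101) (nat_lit 5) (nat_lit 108) (nat_lit 5) (nat_lit 102) (nat_lit 5) (nat_lit 329) (nat_lit 305) (nat_lit 230)))) (XT.nd (nat_lit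 188) (nat_lit 504) (nat_lit 0) (XT.nd (nat_lit 94) (nat_lit 588) (nat_lit 0) (XT.lf (nat_lit 0) (nat_lit 1928352916) (nat_lit 588) (nat_lit 33954037) (nat_lit 84) (nat_lit 9103657662) (nat_lit 101) (nat_lit 5) (nat_lit 108) (nat_lit 5) (nat_lit 102) (nat_lit 5) (nat_lit 330) (nat_lit 305) (nat_lit 229)) (XT.lf (nat_lit 0) (nat_lit 3304323691) (nat_lit 672) (nat_lit 6487574130) (nat_lit 84) (nat_lit 1464342495) (nat_lit 94) (nat_lit 5) (nat_lit 102) (nat_lit 5) (nat_lit 95) (nat_lit 5) (nat_lit 331) (nat_lit 305) (nat_lit 228))) (XT.nd (nat_lit 94) (nat_lit 504) (nat_lit 0) (XT.lf (nat_lit 0) (nat_lit 4720360410) (nat_lit 672) (nat_lit 1774103602) (nat_lit 84) (nat_lit 4958113588) (nat_lit 94) (nat_lit 5) (nat_lit 102) (nat_lit 5) (nat_lit 95) (nat_lit 5) (nat_lit 332) (nat_lit 305) (nat_lit 227)) (XT.lf (nat_lit 0) (nat_lit 3126642276) (nat_lit 504) (nat_lit 3062343769) (nat_lit 588) (nat_lit 5465826131)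 (nat_lit 88) (nat_lit 5) (nat_lit 94) (nat_lit 5) (nat_lit 95) (nat_lit 5) (nat_lit 333) (nat_lit 305) (nat_lit 226)))))) (XT.nd (nat_lit 51606) (nat_lit 0) (nat_lit 5964) (XT.nd (nat_lit 376) (nat_lit 840) (nat_lit 0) (XT.nd (nat_lit 188) (nat_lit 84) (nat_lit 0) (XT.nd (nat_lit 94) (nat_lit 504) (nat_lit 0) (XT.lf (nat_lit 0) (nat_lit 7704704592) (nat_lit 588) (nat_lit 3673108017) (nat_lit 84) (nat_lit 485532753) (nat_lit 88) (nat_lit 5) (nat_lit 95) (nat_lit 5) (nat_lit 89) (nat_lit 5) (nat_lit 334) (nat_lit 305) (nat_lit 225)) (XT.lf (nat_lit 0) (nat_lit 1305746533) (nat_lit 504) (nat_lit 7984729502) (nat_lit 588) (nat_lit 2787227535) (nat_lit 82) (nat_lit 5) (nat_lit 88) (nat_lit 5) (nat_lit 89) (nat_lit 5) (nat_lit 335) (nat_lit 305) (nat_lit 224))) (XT.nd (nat_lit 94) (nat_lit 84) (nat_lit 0) (XT.lf (nat_lit 0) (nat_lit 6495331683) (nat_lit 504) (nat_lit 4447630886) (nat_lit 588) (nat_lit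 1355273327) (nat_lit 82) (nat_lit 5) (nat_lit 88) (nat_lit 5) (nat_lit 89) (nat_lit 5) (nat_lit 336) (nat_lit 305) (nat_lit 223)) (XT.lf (nat_lit 0) (nat_lit 98197723) (nat_lit 588) (nat_lit 702336824) (nat_lit 84) (nat_lit 11725735330) (nat_lit 81) (nat_lit 5) (nat_lit 88) (nat_lit 5) (nat_lit 82) (nat_lit 5) (nat_lit 337) (nat_lit 305) (nat_lit 222)))) (XT.nd (nat_lit 188) (nat_lit 420) (nat_lit 0) (XT.nd (nat_lit 94) (nat_lit 0) (nat_lit 0) (XT.lf (nat_lit 0) (nat_lit 1624494585) (nat_lit 504) (nat_lit 8175385939) (nat_lit 84) (nat_lit 2959396001) (nat_lit 76) (nat_lit 5) (nat_lit 82) (nat_lit 5) (nat_lit 77) (nat_lit 5) (nat_lit 338) (nat_lit 305) (nat_lit 221)) (XT.lf (nat_lit 0) (nat_lit 3194262619) (nat_lit 504) (nat_lit 2979792576) (nat_lit 84) (nat_lit 6825635182) (nat_lit 76) (nat_lit 5) (nat_lit 82) (nat_lit 5) (nat_lit 77) (nat_lit 5) (nat_lit 339) (nat_lit 305) (nat_lit 220))) (XT.nd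 (nat_lit 94) (nat_lit 0) (nat_lit 0) (XT.lf (nat_lit 0) (nat_lit 2404820203) (nat_lit 420) (nat_lit 2412876270) (nat_lit 504) (nat_lit 8429768380) (nat_lit 71) (nat_lit 5) (nat_lit 76) (nat_lit 5) (nat_lit 77) (nat_lit 5) (nat_lit 340) (nat_lit 305) (nat_lit 219)) (XT.lf (nat_lit 0) (nat_lit 6518904436) (nat_lit 504) (nat_lit 5518184708) (nat_lit 84) (nat_lit 1465041311) (nat_lit 71) (nat_lit 5) (nat_lit 77) (nat_lit 5) (nat_lit 72) (nat_lit 5) (nat_lit 341) (nat_lit 305) (nat_lit 218))))) (XT.nd (nat_lit 376) (nat_lit 756) (nat_lit 0) (XT.nd (nat_lit 188) (nat_lit 0) (nat_lit 0) (XT.nd (nat_lit 94) (nat_lit 0) (nat_lit 0) (XT.lf (nat_lit 0) (nat_lit 1211352045) (nat_lit 924) (nat_lit 1390793276) (nat_lit 924) (nat_lit 1390793276) (nat_lit 151) (nat_lit 3) (nat_lit 162) (nat_lit 3) (nat_lit 162) (nat_lit 5) (nat_lit 306) (nat_lit 306) (nat_lit 252)) (XT.lf (nat_lit 84) (nat_lit 375734016) (nat_lit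 0) (nat_lit 3128588126) (nat_lit 924) (nat_lit 4568427042) (nat_lit 152) (nat_lit 5) (nat_lit 151) (nat_lit 3) (nat_lit 162) (nat_lit 5) (nat_lit 307) (nat_lit 306) (nat_lit 251))) (XT.nd (nat_lit 94) (nat_lit 0) (nat_lit 84) (XT.lf (nat_lit 84) (nat_lit 3667751644) (nat_lit 0) (nat_lit 938612038) (nat_lit 924) (nat_lit 3556539893) (nat_lit 152) (nat_lit 5) (nat_lit 151) (nat_lit 3) (nat_lit 162) (nat_lit 5) (nat_lit 308) (nat_lit 306) (nat_lit 250)) (XT.lf (nat_lit 0) (nat_lit 5714974388) (nat_lit 840) (nat_lit 1230237207) (nat_lit 924) (nat_lit 1311674137) (nat_lit 152) (nat_lit 5) (nat_lit 162) (nat_lit 5) (nat_lit 163) (nat_lit 5) (nat_lit 309) (nat_lit 306) (nat_lit 249)))) (XT.nd (nat_lit 188) (nat_lit 840) (nat_lit 0) (XT.nd (nat_lit 94) (nat_lit 0) (nat_lit 0) (XT.lf (nat_lit 84) (nat_lit 2147125910) (nat_lit 0) (nat_lit 4702267585) (nat_lit 924) (nat_lit 1504825377) (nat_lit 153) (nat_lit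 5) (nat_lit 152) (nat_lit 5) (nat_lit 163) (nat_lit 5) (nat_lit 310) (nat_lit 306) (nat_lit 248)) (XT.lf (nat_lit 84) (nat_lit 5633070717) (nat_lit 0) (nat_lit 2360258177) (nat_lit 924) (nat_lit 462202660) (nat_lit 153) (nat_lit 5) (nat_lit 152) (nat_lit 5) (nat_lit 163) (nat_lit 5) (nat_lit 311) (nat_lit 306) (nat_lit 247))) (XT.nd (nat_lit 94) (nat_lit 0) (nat_lit 0) (XT.lf (nat_lit 0) (nat_lit 569806003) (nat_lit 924) (nat_lit 7910066856) (nat_lit 1008) (nat_lit 81029076) (nat_lit 142) (nat_lit 5) (nat_lit 153) (nat_lit 5) (nat_lit 154) (nat_lit 5) (nat_lit 312) (nat_lit 306) (nat_lit 246)) (XT.nd (nat_lit 94) (nat_lit 0) (nat_lit 0) (XT.lf (nat_lit 0) (nat_lit 1641296953) (nat_lit 924) (nat_lit 4429838238) (nat_lit 1008) (nat_lit 2597879664) (nat_lit 142) (nat_lit 5) (nat_lit 153) (nat_lit 5) (nat_lit 154) (nat_lit 5) (nat_lit 313) (nat_lit 306) (nat_lit 245)) (XT.lf (nat_lit 0) (nat_lit 2710300094)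 (nat_lit 924) (nat_lit 864692591) (nat_lit 1008) (nat_lit 5206741257) (nat_lit 142) (nat_lit 5) (nat_lit 153) (nat_lit 5) (nat_lit 154) (nat_lit 5) (nat_lit 314) (nat_lit 306) (nat_lit 244))))))))
noncomputable def xc49 : XT := (XT.nd (nat_lit 1504) (nat_lit 2520) (nat_lit 0) (XT.nd (nat_lit 752) (nat_lit 2604) (nat_lit 0) (XT.nd (nat_lit 376) (nat_lit 840) (nat_lit 0) (XT.nd (nat_lit 188) (nat_lit 0) (nat_lit 84) (XT.nd (nat_lit 94) (nat_lit 0) (nat_lit 84) (XT.lf (nat_lit 84) (nat_lit 2846034426) (nat_lit 0) (nat_lit 960010438) (nat_lit 1008) (nat_lit 5092244173) (nat_lit 143) (nat_lit 5) (nat_lit 142) (nat_lit 5) (nat_lit 154) (nat_lit 5) (nat_lit 315) (nat_lit 306) (nat_lit 243)) (XT.lf (nat_lit 0) (nat_lit 4928405954) (nat_lit 924) (nat_lit 2368724113) (nat_lit 1008) (nat_lit 1721694261) (nat_lit 143) (nat_lit 5) (nat_lit 154) (nat_lit 5) (nat_lit 155) (nat_lit 5) (nat_lit 316) (nat_lit 306)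 (nat_lit 242))) (XT.nd (nat_lit 94) (nat_lit 0) (nat_lit 0) (XT.lf (nat_lit 84) (nat_lit 1425237276) (nat_lit 0) (nat_lit 4651601778) (nat_lit 1008) (nat_lit 3066662419) (nat_lit 144) (nat_lit 5) (nat_lit 143) (nat_lit 5) (nat_lit 155) (nat_lit 5) (nat_lit 317) (nat_lit 306) (nat_lit 241)) (XT.lf (nat_lit 84) (nat_lit 5364601281) (nat_lit 0) (nat_lit 1889078662) (nat_lit 1008) (nat_lit 2018717515) (nat_lit 144) (nat_lit 5) (nat_lit 143) (nat_lit 5) (nat_lit 155) (nat_lit 5) (nat_lit 318) (nat_lit 306) (nat_lit 240)))) (XT.nd (nat_lit 188) (nat_lit 0) (nat_lit 0) (XT.nd (nat_lit 94) (nat_lit 1008) (nat_lit 0) (XT.lf (nat_lit 0) (nat_lit 8445649907) (nat_lit 924) (nat_lit 11647422) (nat_lit 1008) (nat_lit 948780742) (nat_lit 144) (nat_lit 5) (nat_lit 155) (nat_lit 5) (nat_lit 156) (nat_lit 5) (nat_lit 319) (nat_lit 306) (nat_lit 239)) (XT.lf (nat_lit 0) (nat_lit 157727540) (nat_lit 1008) (nat_lit 5499484663)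 (nat_lit 1092) (nat_lit 3885849340) (nat_lit 132) (nat_lit 5) (nat_lit 144) (nat_lit 5) (nat_lit 145) (nat_lit 5) (nat_lit 320) (nat_lit 306) (nat_lit 238))) (XT.nd (nat_lit 94) (nat_lit 0) (nat_lit 84) (XT.lf (nat_lit 0) (nat_lit 1261045033) (nat_lit 1008) (nat_lit 1492092744) (nat_lit 1092) (nat_lit 6931881088) (nat_lit 132) (nat_lit 5) (nat_lit 144) (nat_lit 5) (nat_lit 145) (nat_lit 5) (nat_lit 321) (nat_lit 306) (nat_lit 237)) (XT.lf (nat_lit 0) (nat_lit 2399011742) (nat_lit 1008) (nat_lit 7162996272) (nat_lit 84) (nat_lit 269467337) (nat_lit 133) (nat_lit 5) (nat_lit 145) (nat_lit 5) (nat_lit 134) (nat_lit 5) (nat_lit 322) (nat_lit 306) (nat_lit 236))))) (XT.nd (nat_lit 376) (nat_lit 1680) (nat_lit 0) (XT.nd (nat_lit 188) (nat_lit 0) (nat_lit 0) (XT.nd (nat_lit 94) (nat_lit 1008) (nat_lit 0) (XT.lf (nat_lit 0) (nat_lit 3588077215) (nat_lit 1008) (nat_lit 3043523741) (nat_lit 84) (nat_lit 3350489501)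 (nat_lit 133) (nat_lit 5) (nat_lit 145) (nat_lit 5) (nat_lit 134) (nat_lit 5) (nat_lit 323) (nat_lit 306) (nat_lit 235)) (XT.lf (nat_lit 0) (nat_lit 1205756254) (nat_lit 1008) (nat_lit 3592982717) (nat_lit 1092) (nat_lit 5339214537) (nat_lit 121) (nat_lit 5) (nat_lit 133) (nat_lit 5) (nat_lit 134) (nat_lit 5) (nat_lit 324) (nat_lit 306) (nat_lit 234))) (XT.nd (nat_lit 94) (nat_lit 0) (nat_lit 0) (XT.lf (nat_lit 0) (nat_lit 5629320195) (nat_lit 1008) (nat_lit 422753927) (nat_lit 1092) (nat_lit 4246517253) (nat_lit 121) (nat_lit 5) (nat_lit 133) (nat_lit 5) (nat_lit 134) (nat_lit 5) (nat_lit 325) (nat_lit 306) (nat_lit 233)) (XT.lf (nat_lit 0) (nat_lit 7346713021) (nat_lit 1092) (nat_lit 324673829) (nat_lit 84) (nat_lit 2792845617) (nat_lit 121) (nat_lit 5) (nat_lit 134) (nat_lit 5) (nat_lit 122) (nat_lit 5) (nat_lit 326) (nat_lit 306) (nat_lit 232)))) (XT.nd (nat_lit 188) (nat_lit 588) (nat_lit 0)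 (XT.nd (nat_lit 94) (nat_lit 0) (nat_lit 0) (XT.lf (nat_lit 0) (nat_lit 4213596611) (nat_lit 1092) (nat_lit 4489007580) (nat_lit 1176) (nat_lit 1931845989) (nat_lit 108) (nat_lit 5) (nat_lit 121) (nat_lit 5) (nat_lit 122) (nat_lit 5) (nat_lit 327) (nat_lit 306) (nat_lit 231)) (XT.lf (nat_lit 0) (nat_lit 8878074600) (nat_lit 1092) (nat_lit 1201377536) (nat_lit 1176) (nat_lit 731239382) (nat_lit 108) (nat_lit 5) (nat_lit 121) (nat_lit 5) (nat_lit 122) (nat_lit 5) (nat_lit 328) (nat_lit 306) (nat_lit 230))) (XT.nd (nat_lit 94) (nat_lit 0) (nat_lit 0) (XT.lf (nat_lit 0) (nat_lit 521396103) (nat_lit 588) (nat_lit 8291003067) (nat_lit 84) (nat_lit 2179153845) (nat_lit 101) (nat_lit 5) (nat_lit 108) (nat_lit 5) (nat_lit 102) (nat_lit 5) (nat_lit 329) (nat_lit 306) (nat_lit 229)) (XT.lf (nat_lit 0) (nat_lit 1806817793) (nat_lit 588) (nat_lit 3700979046) (nat_lit 84) (nat_lit 5669794407) (nat_lit 101) (nat_lit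 5) (nat_lit 108) (nat_lit 5) (nat_lit 102) (nat_lit 5) (nat_lit 330) (nat_lit 306) (nat_lit 228)))))) (XT.nd (nat_lit 752) (nat_lit 420) (nat_lit 0) (XT.nd (nat_lit 376) (nat_lit 1008) (nat_lit 0) (XT.nd (nat_lit 188) (nat_lit 504) (nat_lit 0) (XT.nd (nat_lit 94) (nat_lit 0) (nat_lit 0) (XT.lf (nat_lit 0) (nat_lit 1030837895) (nat_lit 588) (nat_lit 2088660883) (nat_lit 672) (nat_lit 8250370907) (nat_lit 94) (nat_lit 5) (nat_lit 101) (nat_lit 5) (nat_lit 102) (nat_lit 5) (nat_lit 331) (nat_lit 306) (nat_lit 227)) (XT.lf (nat_lit 0) (nat_lit 4503823649) (nat_lit 672) (nat_lit 5615593388) (nat_lit 84) (nat_lit 1447812526) (nat_lit 94) (nat_lit 5) (nat_lit 102) (nat_lit 5) (nat_lit 95) (nat_lit 5) (nat_lit 332) (nat_lit 306) (nat_lit 226))) (XT.nd (nat_lit 94) (nat_lit 504) (nat_lit 0) (XT.lf (nat_lit 0) (nat_lit 5930771042) (nat_lit 672) (nat_lit 788270998) (nat_lit 84) (nat_lit 5051752465) (nat_lit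 94) (nat_lit 5) (nat_lit 102) (nat_lit 5) (nat_lit 95) (nat_lit 5) (nat_lit 333) (nat_lit 306) (nat_lit 225)) (XT.lf (nat_lit 0) (nat_lit 4253860535) (nat_lit 504) (nat_lit 3169289536) (nat_lit 588) (nat_lit 4556938333) (nat_lit 88) (nat_lit 5) (nat_lit 94) (nat_lit 5) (nat_lit 95) (nat_lit 5) (nat_lit 334) (nat_lit 306) (nat_lit 224)))) (XT.nd (nat_lit 188) (nat_lit 504) (nat_lit 0) (XT.nd (nat_lit 94) (nat_lit 504) (nat_lit 0) (XT.lf (nat_lit 0) (nat_lit 8954400372) (nat_lit 588) (nat_lit 2752605336) (nat_lit 84) (nat_lit 489167127) (nat_lit 88) (nat_lit 5) (nat_lit 95) (nat_lit 5) (nat_lit 89) (nat_lit 5) (nat_lit 335) (nat_lit 306) (nat_lit 223)) (XT.lf (nat_lit 0) (nat_lit 2370121647) (nat_lit 504) (nat_lit 8198972137) (nat_lit 588) (nat_lit 1848817950) (nat_lit 82) (nat_lit 5) (nat_lit 88) (nat_lit 5) (nat_lit 89) (nat_lit 5) (nat_lit 336) (nat_lit 306) (nat_lit 222))) (XT.nd (nat_lit 94) (nat_lit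 504) (nat_lit 0) (XT.lf (nat_lit 0) (nat_lit 7689797511) (nat_lit 504) (nat_lit 4553224244) (nat_lit 588) (nat_lit 403287151) (nat_lit 82) (nat_lit 5) (nat_lit 88) (nat_lit 5) (nat_lit 89) (nat_lit 5) (nat_lit 337) (nat_lit 306) (nat_lit 221)) (XT.lf (nat_lit 0) (nat_lit 267133449) (nat_lit 420) (nat_lit 781445860) (nat_lit 504) (nat_lit 11833451414) (nat_lit 76) (nat_lit 5) (nat_lit 81) (nat_lit 5) (nat_lit 82) (nat_lit 5) (nat_lit 338) (nat_lit 306) (nat_lit 220))))) (XT.nd (nat_lit 51324) (nat_lit 0) (nat_lit 5880) (XT.nd (nat_lit 188) (nat_lit 420) (nat_lit 0) (XT.nd (nat_lit 94) (nat_lit 0) (nat_lit 0) (XT.lf (nat_lit 0) (nat_lit 2601312634) (nat_lit 504) (nat_lit 7421643327) (nat_lit 84) (nat_lit 3100047655) (nat_lit 76) (nat_lit 5) (nat_lit 82) (nat_lit 5) (nat_lit 77) (nat_lit 5) (nat_lit 339) (nat_lit 306) (nat_lit 219)) (XT.lf (nat_lit 0) (nat_lit 4191886814) (nat_lit 504) (nat_lit 2095270340)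 (nat_lit 84) (nat_lit 7084669619) (nat_lit 76) (nat_lit 5) (nat_lit 82) (nat_lit 5) (nat_lit 77) (nat_lit 5) (nat_lit 340) (nat_lit 306) (nat_lit 218))) (XT.nd (nat_lit 51042) (nat_lit 0) (nat_lit 6720) (XT.lf (nat_lit 0) (nat_lit 3446375243) (nat_lit 420) (nat_lit 2401845617) (nat_lit 504) (nat_lit 7779691734) (nat_lit 71) (nat_lit 5) (nat_lit 76) (nat_lit 5) (nat_lit 77) (nat_lit 5) (nat_lit 341) (nat_lit 306) (nat_lit 217)) (XT.lf (nat_lit 0) (nat_lit 2278922478) (nat_lit 924) (nat_lit 900684325) (nat_lit 924) (nat_lit 900684325) (nat_lit 151) (nat_lit 3) (nat_lit 162) (nat_lit 3) (nat_lit 162) (nat_lit 5) (nat_lit 307) (nat_lit 307) (nat_lit 250)))) (XT.nd (nat_lit 188) (nat_lit 840) (nat_lit 0) (XT.nd (nat_lit 94) (nat_lit 0) (nat_lit 0) (XT.lf (nat_lit 84) (nat_lit 1443032035) (nat_lit 0) (nat_lit 4178492336) (nat_lit 924) (nat_lit 2630488932) (nat_lit 152) (nat_lit 5) (nat_lit 151) (nat_lit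 3) (nat_lit 162) (nat_lit 5) (nat_lit 308) (nat_lit 307) (nat_lit 249)) (XT.lf (nat_lit 84) (nat_lit 4805361028) (nat_lit 0) (nat_lit 1891974752) (nat_lit 924) (nat_lit 1649761254) (nat_lit 152) (nat_lit 5) (nat_lit 151) (nat_lit 3) (nat_lit 162) (nat_lit 5) (nat_lit 309) (nat_lit 307) (nat_lit 248))) (XT.nd (nat_lit 94) (nat_lit 924) (nat_lit 0) (XT.lf (nat_lit 0) (nat_lit 7772842758) (nat_lit 840) (nat_lit 199572945) (nat_lit 924) (nat_lit 473922994) (nat_lit 152) (nat_lit 5) (nat_lit 162) (nat_lit 5) (nat_lit 163) (nat_lit 5) (nat_lit 310) (nat_lit 307) (nat_lit 247)) (XT.nd (nat_lit 94) (nat_lit 0) (nat_lit 0) (XT.lf (nat_lit 0) (nat_lit 341000042) (nat_lit 924) (nat_lit 5280148188) (nat_lit 1008) (nat_lit 2927108389) (nat_lit 141) (nat_lit 5) (nat_lit 152) (nat_lit 5) (nat_lit 153) (nat_lit 5) (nat_lit 311) (nat_lit 307) (nat_lit 246)) (XT.lf (nat_lit 0) (nat_lit 1338323482) (nat_lit 924) (nat_lit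 1834450214) (nat_lit 1008) (nat_lit 5481572774) (nat_lit 141) (nat_lit 5) (nat_lit 152) (nat_lit 5) (nat_lit 153) (nat_lit 5) (nat_lit 312) (nat_lit 307) (nat_lit 245))))))))
noncomputable def xc50 : XT := (XT.nd (nat_lit 1504) (nat_lit 2688) (nat_lit 0) (XT.nd (nat_lit 752) (nat_lit 2016) (nat_lit 0) (XT.nd (nat_lit 376) (nat_lit 756) (nat_lit 0) (XT.nd (nat_lit 188) (nat_lit 0) (nat_lit 84) (XT.nd (nat_lit 94) (nat_lit 0) (nat_lit 84) (XT.lf (nat_lit 84) (nat_lit 1731821944) (nat_lit 0) (nat_lit 616290212) (nat_lit 1008) (nat_lit 6416332795) (nat_lit 142) (nat_lit 5) (nat_lit 141) (nat_lit 5) (nat_lit 153) (nat_lit 5) (nat_lit 313) (nat_lit 307) (nat_lit 244)) (XT.lf (nat_lit 0) (nat_lit 3393950671) (nat_lit 924) (nat_lit 3472333353) (nat_lit 1008) (nat_lit 2011668720) (nat_lit 142) (nat_lit 5) (nat_lit 153) (nat_lit 5) (nat_lit 154) (nat_lit 5) (nat_lit 314) (nat_lit 307) (nat_lit 243))) (XT.nd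 (nat_lit 94) (nat_lit 0) (nat_lit 0) (XT.lf (nat_lit 84) (nat_lit 173916611) (nat_lit 0) (nat_lit 4272732826) (nat_lit 1008) (nat_lit 4549261310) (nat_lit 143) (nat_lit 5) (nat_lit 142) (nat_lit 5) (nat_lit 154) (nat_lit 5) (nat_lit 315) (nat_lit 307) (nat_lit 242)) (XT.lf (nat_lit 84) (nat_lit 3985421242) (nat_lit 0) (nat_lit 1550013202) (nat_lit 1008) (nat_lit 3582118875) (nat_lit 143) (nat_lit 5) (nat_lit 142) (nat_lit 5) (nat_lit 154) (nat_lit 5) (nat_lit 316) (nat_lit 307) (nat_lit 241)))) (XT.nd (nat_lit 188) (nat_lit 924) (nat_lit 0) (XT.nd (nat_lit 94) (nat_lit 0) (nat_lit 0) (XT.lf (nat_lit 0) (nat_lit 6638746689) (nat_lit 924) (nat_lit 1362329050) (nat_lit 1008) (nat_lit 1242617895) (nat_lit 143) (nat_lit 5) (nat_lit 154) (nat_lit 5) (nat_lit 155) (nat_lit 5) (nat_lit 317) (nat_lit 307) (nat_lit 240)) (XT.lf (nat_lit 84) (nat_lit 2538312879) (nat_lit 0) (nat_lit 5248239334) (nat_lit 1008)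 (nat_lit 1586999989) (nat_lit 144) (nat_lit 5) (nat_lit 143) (nat_lit 5) (nat_lit 155) (nat_lit 5) (nat_lit 318) (nat_lit 307) (nat_lit 239))) (XT.nd (nat_lit 94) (nat_lit 924) (nat_lit 0) (XT.lf (nat_lit 84) (nat_lit 6567657798) (nat_lit 0) (nat_lit 2386474146) (nat_lit 1008) (nat_lit 553917579) (nat_lit 144) (nat_lit 5) (nat_lit 143) (nat_lit 5) (nat_lit 155) (nat_lit 5) (nat_lit 319) (nat_lit 307) (nat_lit 238)) (XT.lf (nat_lit 0) (nat_lit 487809267) (nat_lit 1008) (nat_lit 8582592740) (nat_lit 1092) (nat_lit 576678388) (nat_lit 132) (nat_lit 5) (nat_lit 144) (nat_lit 5) (nat_lit 145) (nat_lit 5) (nat_lit 320) (nat_lit 307) (nat_lit 237))))) (XT.nd (nat_lit 376) (nat_lit 2016) (nat_lit 0) (XT.nd (nat_lit 188) (nat_lit 0) (nat_lit 0) (XT.nd (nat_lit 94) (nat_lit 0) (nat_lit 0) (XT.lf (nat_lit 0) (nat_lit 1576955767) (nat_lit 1008) (nat_lit 4586061054) (nat_lit 1092) (nat_lit 3626515502) (nat_lit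 132) (nat_lit 5) (nat_lit 144) (nat_lit 5) (nat_lit 145) (nat_lit 5) (nat_lit 321) (nat_lit 307) (nat_lit 236)) (XT.lf (nat_lit 0) (nat_lit 2671949915) (nat_lit 1008) (nat_lit 487030807) (nat_lit 1092) (nat_lit 6778393876) (nat_lit 132) (nat_lit 5) (nat_lit 144) (nat_lit 5) (nat_lit 145) (nat_lit 5) (nat_lit 322) (nat_lit 307) (nat_lit 235))) (XT.nd (nat_lit 94) (nat_lit 0) (nat_lit 84) (XT.lf (nat_lit 84) (nat_lit 3794774984) (nat_lit 0) (nat_lit 16682014) (nat_lit 1092) (nat_lit 6278121045) (nat_lit 133) (nat_lit 5) (nat_lit 132) (nat_lit 5) (nat_lit 145) (nat_lit 5) (nat_lit 323) (nat_lit 307) (nat_lit 234)) (XT.lf (nat_lit 0) (nat_lit 4996989864) (nat_lit 1008) (nat_lit 2080247774) (nat_lit 84) (nat_lit 3169032916) (nat_lit 133) (nat_lit 5) (nat_lit 145) (nat_lit 5) (nat_lit 134) (nat_lit 5) (nat_lit 324) (nat_lit 307) (nat_lit 233)))) (XT.nd (nat_lit 188) (nat_lit 1092) (nat_lit 0) (XT.nd (nat_lit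 94) (nat_lit 0) (nat_lit 0) (XT.lf (nat_lit 0) (nat_lit 2290052395) (nat_lit 1008) (nat_lit 3926496718) (nat_lit 1092) (nat_lit 4191455308) (nat_lit 121) (nat_lit 5) (nat_lit 133) (nat_lit 5) (nat_lit 134) (nat_lit 5) (nat_lit 325) (nat_lit 307) (nat_lit 232)) (XT.lf (nat_lit 0) (nat_lit 6819268208) (nat_lit 1008) (nat_lit 651311808) (nat_lit 1092) (nat_lit 3104371820) (nat_lit 121) (nat_lit 5) (nat_lit 133) (nat_lit 5) (nat_lit 134) (nat_lit 5) (nat_lit 326) (nat_lit 307) (nat_lit 231))) (XT.nd (nat_lit 94) (nat_lit 0) (nat_lit 0) (XT.lf (nat_lit 0) (nat_lit 708114312) (nat_lit 1092) (nat_lit 8065179617) (nat_lit 1176) (nat_lit 1973570162) (nat_lit 108) (nat_lit 5) (nat_lit 121) (nat_lit 5) (nat_lit 122) (nat_lit 5) (nat_lit 327) (nat_lit 307) (nat_lit 230)) (XT.lf (nat_lit 0) (nat_lit 5362390701) (nat_lit 1092) (nat_lit 4776067678) (nat_lit 1176) (nat_lit 785053900) (nat_lit 108) (nat_lit 5) (nat_lit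 121) (nat_lit 5) (nat_lit 122) (nat_lit 5) (nat_lit 328) (nat_lit 307) (nat_lit 229)))))) (XT.nd (nat_lit 752) (nat_lit 1008) (nat_lit 0) (XT.nd (nat_lit 376) (nat_lit 504) (nat_lit 0) (XT.nd (nat_lit 188) (nat_lit 588) (nat_lit 0) (XT.nd (nat_lit 94) (nat_lit 504) (nat_lit 0) (XT.lf (nat_lit 0) (nat_lit 408097875) (nat_lit 1176) (nat_lit 969716454) (nat_lit 84) (nat_lit 9728495621) (nat_lit 107) (nat_lit 5) (nat_lit 121) (nat_lit 5) (nat_lit 108) (nat_lit 5) (nat_lit 329) (nat_lit 307) (nat_lit 228)) (XT.lf (nat_lit 0) (nat_lit 1658700265) (nat_lit 588) (nat_lit 7502948740) (nat_lit 84) (nat_lit 2131819327) (nat_lit 101) (nat_lit 5) (nat_lit 108) (nat_lit 5) (nat_lit 102) (nat_lit 5) (nat_lit 330) (nat_lit 307) (nat_lit 227))) (XT.nd (nat_lit 94) (nat_lit 588) (nat_lit 0) (XT.lf (nat_lit 0) (nat_lit 2950259680) (nat_lit 588) (nat_lit 2802057193) (nat_lit 84) (nat_lit 5734124196) (nat_lit 101) (nat_lit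 5) (nat_lit 108) (nat_lit 5) (nat_lit 102) (nat_lit 5) (nat_lit 331) (nat_lit 307) (nat_lit 226)) (XT.lf (nat_lit 0) (nat_lit 2066183755) (nat_lit 588) (nat_lit 2214707026) (nat_lit 672) (nat_lit 7404613014) (nat_lit 94) (nat_lit 5) (nat_lit 101) (nat_lit 5) (nat_lit 102) (nat_lit 5) (nat_lit 332) (nat_lit 307) (nat_lit 225)))) (XT.nd (nat_lit 188) (nat_lit 0) (nat_lit 0) (XT.nd (nat_lit 94) (nat_lit 504) (nat_lit 0) (XT.lf (nat_lit 0) (nat_lit 5675527013) (nat_lit 672) (nat_lit 4780142529) (nat_lit 84) (nat_lit 1434438027) (nat_lit 94) (nat_lit 5) (nat_lit 102) (nat_lit 5) (nat_lit 95) (nat_lit 5) (nat_lit 333) (nat_lit 307) (nat_lit 224)) (XT.lf (nat_lit 0) (nat_lit 169895295) (nat_lit 504) (nat_lit 6947467243) (nat_lit 588) (nat_lit 4983641847) (nat_lit 88) (nat_lit 5) (nat_lit 94) (nat_lit 5) (nat_lit 95) (nat_lit 5) (nat_lit 334) (nat_lit 307) (nat_lit 223))) (XT.nd (nat_lit 94) (nat_lit 0)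 (nat_lit 0) (XT.lf (nat_lit 0) (nat_lit 5354996580) (nat_lit 504) (nat_lit 3278839064) (nat_lit 588) (nat_lit 3683746252) (nat_lit 88) (nat_lit 5) (nat_lit 94) (nat_lit 5) (nat_lit 95) (nat_lit 5) (nat_lit 335) (nat_lit 307) (nat_lit 222)) (XT.lf (nat_lit 0) (nat_lit 10182962350) (nat_lit 588) (nat_lit 1864834521) (nat_lit 84) (nat_lit 493590424) (nat_lit 88) (nat_lit 5) (nat_lit 95) (nat_lit 5) (nat_lit 89) (nat_lit 5) (nat_lit 336) (nat_lit 307) (nat_lit 221))))) (XT.nd (nat_lit 376) (nat_lit 0) (nat_lit 0) (XT.nd (nat_lit 188) (nat_lit 420) (nat_lit 0) (XT.nd (nat_lit 94) (nat_lit 84) (nat_lit 0) (XT.lf (nat_lit 0) (nat_lit 3406845220) (nat_lit 504) (nat_lit 8421827762) (nat_lit 588) (nat_lit 942019134) (nat_lit 82) (nat_lit 5) (nat_lit 88) (nat_lit 5) (nat_lit 89) (nat_lit 5) (nat_lit 337) (nat_lit 307) (nat_lit 220)) (XT.lf (nat_lit 0) (nat_lit 508870867) (nat_lit 588) (nat_lit 4149820749) (nat_lit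 84) (nat_lit 8348285705) (nat_lit 81) (nat_lit 5) (nat_lit 88) (nat_lit 5) (nat_lit 82) (nat_lit 5) (nat_lit 338) (nat_lit 307) (nat_lit 219))) (XT.nd (nat_lit 94) (nat_lit 0) (nat_lit 0) (XT.lf (nat_lit 0) (nat_lit 1221951559) (nat_lit 420) (nat_lit 757255477) (nat_lit 504) (nat_lit 11271327521) (nat_lit 76) (nat_lit 5) (nat_lit 81) (nat_lit 5) (nat_lit 82) (nat_lit 5) (nat_lit 339) (nat_lit 307) (nat_lit 218)) (XT.lf (nat_lit 0) (nat_lit 3553536307) (nat_lit 504) (nat_lit 6704191664) (nat_lit 84) (nat_lit 3242162464) (nat_lit 76) (nat_lit 5) (nat_lit 82) (nat_lit 5) (nat_lit 77) (nat_lit 5) (nat_lit 340) (nat_lit 307) (nat_lit 217)))) (XT.nd (nat_lit 51230) (nat_lit 0) (nat_lit 5376) (XT.nd (nat_lit 51136) (nat_lit 0) (nat_lit 6300) (XT.lf (nat_lit 0) (nat_lit 5167211621) (nat_lit 504) (nat_lit 1241191125) (nat_lit 84) (nat_lit 7348924185) (nat_lit 76) (nat_lit 5) (nat_lit 82) (nat_lit 5) (nat_lit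 77) (nat_lit 5) (nat_lit 341) (nat_lit 307) (nat_lit 216)) (XT.lf (nat_lit 0) (nat_lit 3318577835) (nat_lit 924) (nat_lit 426965741) (nat_lit 924) (nat_lit 426965741) (nat_lit 151) (nat_lit 3) (nat_lit 162) (nat_lit 3) (nat_lit 162) (nat_lit 5) (nat_lit 308) (nat_lit 308) (nat_lit 248))) (XT.nd (nat_lit 94) (nat_lit 924) (nat_lit 0) (XT.lf (nat_lit 84) (nat_lit 2480888320) (nat_lit 0) (nat_lit 5204500614) (nat_lit 924) (nat_lit 755650601) (nat_lit 152) (nat_lit 5) (nat_lit 151) (nat_lit 3) (nat_lit 162) (nat_lit 5) (nat_lit 309) (nat_lit 308) (nat_lit 247)) (XT.nd (nat_lit 94) (nat_lit 0) (nat_lit 0) (XT.lf (nat_lit 0) (nat_lit 192693133) (nat_lit 924) (nat_lit 2625441412) (nat_lit 1008) (nat_lit 5722883960) (nat_lit 140) (nat_lit 5) (nat_lit 151) (nat_lit 3) (nat_lit 152) (nat_lit 5) (nat_lit 310) (nat_lit 308) (nat_lit 246)) (XT.lf (nat_lit 84) (nat_lit 801137338) (nat_lit 0) (nat_lit 324849945)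 (nat_lit 1008) (nat_lit 7518913681) (nat_lit 141) (nat_lit 5) (nat_lit 140) (nat_lit 5) (nat_lit 152) (nat_lit 5) (nat_lit 311) (nat_lit 308) (nat_lit 245))))))))
noncomputable def xc51 : XT := (XT.nd (nat_lit 1598) (nat_lit 2688) (nat_lit 0) (XT.nd (nat_lit 752) (nat_lit 2772) (nat_lit 0) (XT.nd (nat_lit 376) (nat_lit 0) (nat_lit 84) (XT.nd (nat_lit 188) (nat_lit 0) (nat_lit 0) (XT.nd (nat_lit 94) (nat_lit 0) (nat_lit 0) (XT.lf (nat_lit 0) (nat_lit 2102544262) (nat_lit 924) (nat_lit 4405249209) (nat_lit 1008) (nat_lit 2243913896) (nat_lit 141) (nat_lit 5) (nat_lit 152) (nat_lit 5) (nat_lit 153) (nat_lit 5) (nat_lit 312) (nat_lit 308) (nat_lit 244)) (XT.lf (nat_lit 0) (nat_lit 3078136649) (nat_lit 924) (nat_lit 883962620) (nat_lit 1008) (nat_lit 4900837269) (nat_lit 141) (nat_lit 5) (nat_lit 152) (nat_lit 5) (nat_lit 153) (nat_lit 5) (nat_lit 313) (nat_lit 308) (nat_lit 243))) (XT.nd (nat_lit 94)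 (nat_lit 0) (nat_lit 84) (XT.lf (nat_lit 84) (nat_lit 2782665405) (nat_lit 0) (nat_lit 1295390226) (nat_lit 1008) (nat_lit 4899880686) (nat_lit 142) (nat_lit 5) (nat_lit 141) (nat_lit 5) (nat_lit 153) (nat_lit 5) (nat_lit 314) (nat_lit 308) (nat_lit 242)) (XT.lf (nat_lit 0) (nat_lit 5100137697) (nat_lit 924) (nat_lit 2549994465) (nat_lit 1008) (nat_lit 1446777697) (nat_lit 142) (nat_lit 5) (nat_lit 153) (nat_lit 5) (nat_lit 154) (nat_lit 5) (nat_lit 315) (nat_lit 308) (nat_lit 241)))) (XT.nd (nat_lit 188) (nat_lit 0) (nat_lit 84) (XT.nd (nat_lit 94) (nat_lit 0) (nat_lit 0) (XT.lf (nat_lit 84) (nat_lit 1198861613) (nat_lit 0) (nat_lit 4948584673) (nat_lit 1008) (nat_lit 3072456338) (nat_lit 143) (nat_lit 5) (nat_lit 142) (nat_lit 5) (nat_lit 154) (nat_lit 5) (nat_lit 316) (nat_lit 308) (nat_lit 240)) (XT.lf (nat_lit 84) (nat_lit 5097867058) (nat_lit 0) (nat_lit 2125121932) (nat_lit 1008) (nat_lit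 2123977292) (nat_lit 143) (nat_lit 5) (nat_lit 142) (nat_lit 5) (nat_lit 154) (nat_lit 5) (nat_lit 317) (nat_lit 308) (nat_lit 239))) (XT.nd (nat_lit 94) (nat_lit 0) (nat_lit 0) (XT.lf (nat_lit 0) (nat_lit 8309851032) (nat_lit 924) (nat_lit 388695654) (nat_lit 1008) (nat_lit 780228021) (nat_lit 143) (nat_lit 5) (nat_lit 154) (nat_lit 5) (nat_lit 155) (nat_lit 5) (nat_lit 318) (nat_lit 308) (nat_lit 238)) (XT.lf (nat_lit 84) (nat_lit 3622581448) (nat_lit 0) (nat_lit 5836573983) (nat_lit 1008) (nat_lit 154741917) (nat_lit 144) (nat_lit 5) (nat_lit 143) (nat_lit 5) (nat_lit 155) (nat_lit 5) (nat_lit 319) (nat_lit 308) (nat_lit 237))))) (XT.nd (nat_lit 376) (nat_lit 1932) (nat_lit 0) (XT.nd (nat_lit 188) (nat_lit 0) (nat_lit 84) (XT.nd (nat_lit 94) (nat_lit 0) (nat_lit 84) (XT.lf (nat_lit 0) (nat_lit 848377431) (nat_lit 1008) (nat_lit 2016063246) (nat_lit 1092) (nat_lit 6889367607) (nat_lit 131) (nat_lit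 5) (nat_lit 143) (nat_lit 5) (nat_lit 144) (nat_lit 5) (nat_lit 320) (nat_lit 308) (nat_lit 236)) (XT.lf (nat_lit 0) (nat_lit 1874743840) (nat_lit 1008) (nat_lit 7797336303) (nat_lit 1092) (nat_lit 226179892) (nat_lit 132) (nat_lit 5) (nat_lit 144) (nat_lit 5) (nat_lit 145) (nat_lit 5) (nat_lit 321) (nat_lit 308) (nat_lit 235))) (XT.nd (nat_lit 94) (nat_lit 0) (nat_lit 0) (XT.lf (nat_lit 0) (nat_lit 2956406368) (nat_lit 1008) (nat_lit 3708523019) (nat_lit 1092) (nat_lit 3381638233) (nat_lit 132) (nat_lit 5) (nat_lit 144) (nat_lit 5) (nat_lit 145) (nat_lit 5) (nat_lit 322) (nat_lit 308) (nat_lit 234)) (XT.lf (nat_lit 84) (nat_lit 496928761) (nat_lit 0) (nat_lit 3553338880) (nat_lit 1092) (nat_lit 6149968907) (nat_lit 133) (nat_lit 5) (nat_lit 132) (nat_lit 5) (nat_lit 145) (nat_lit 5) (nat_lit 323) (nat_lit 308) (nat_lit 233)))) (XT.nd (nat_lit 188) (nat_lit 2016) (nat_lit 0) (XT.nd (nat_lit 94) (nat_lit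 0) (nat_lit 84) (XT.lf (nat_lit 84) (nat_lit 4891445328) (nat_lit 0) (nat_lit 299632289) (nat_lit 1092) (nat_lit 5167286797) (nat_lit 133) (nat_lit 5) (nat_lit 132) (nat_lit 5) (nat_lit 145) (nat_lit 5) (nat_lit 324) (nat_lit 308) (nat_lit 232)) (XT.lf (nat_lit 0) (nat_lit 6372714863) (nat_lit 1008) (nat_lit 1149755203) (nat_lit 84) (nat_lit 2998851273) (nat_lit 133) (nat_lit 5) (nat_lit 145) (nat_lit 5) (nat_lit 134) (nat_lit 5) (nat_lit 325) (nat_lit 308) (nat_lit 231))) (XT.nd (nat_lit 94) (nat_lit 1092) (nat_lit 0) (XT.lf (nat_lit 0) (nat_lit 3345950989) (nat_lit 1008) (nat_lit 4257192421) (nat_lit 1092) (nat_lit 3085903063) (nat_lit 121) (nat_lit 5) (nat_lit 133) (nat_lit 5) (nat_lit 134) (nat_lit 5) (nat_lit 326) (nat_lit 308) (nat_lit 230)) (XT.nd (nat_lit 94) (nat_lit 1092) (nat_lit 0) (XT.lf (nat_lit 0) (nat_lit 7985958412) (nat_lit 1008) (nat_lit 874193361) (nat_lit 1092) (nat_lit 2002268491)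 (nat_lit 121) (nat_lit 5) (nat_lit 133) (nat_lit 5) (nat_lit 134) (nat_lit 5) (nat_lit 327) (nat_lit 308) (nat_lit 229)) (XT.lf (nat_lit 0) (nat_lit 1717624144) (nat_lit 1092) (nat_lit 8458653980) (nat_lit 1176) (nat_lit 864353829) (nat_lit 108) (nat_lit 5) (nat_lit 121) (nat_lit 5) (nat_lit 122) (nat_lit 5) (nat_lit 328) (nat_lit 308) (nat_lit 228))))))) (XT.nd (nat_lit 752) (nat_lit 1008) (nat_lit 0) (XT.nd (nat_lit 376) (nat_lit 1092) (nat_lit 0) (XT.nd (nat_lit 188) (nat_lit 504) (nat_lit 0) (XT.nd (nat_lit 94) (nat_lit 0) (nat_lit 0) (XT.lf (nat_lit 0) (nat_lit 319250613) (nat_lit 1176) (nat_lit 4740683281) (nat_lit 84) (nat_lit 6163906367) (nat_lit 107) (nat_lit 5) (nat_lit 121) (nat_lit 5) (nat_lit 108) (nat_lit 5) (nat_lit 329) (nat_lit 308) (nat_lit 227)) (XT.lf (nat_lit 0) (nat_lit 1499637143) (nat_lit 1176) (nat_lit 44584831) (nat_lit 84) (nat_lit 9868992890) (nat_lit 107) (nat_lit 5)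 (nat_lit 121) (nat_lit 5) (nat_lit 108) (nat_lit 5) (nat_lit 330) (nat_lit 308) (nat_lit 226))) (XT.nd (nat_lit 94) (nat_lit 0) (nat_lit 0) (XT.lf (nat_lit 0) (nat_lit 2764853762) (nat_lit 588) (nat_lit 6752366336) (nat_lit 84) (nat_lit 2089822469) (nat_lit 101) (nat_lit 5) (nat_lit 108) (nat_lit 5) (nat_lit 102) (nat_lit 5) (nat_lit 331) (nat_lit 308) (nat_lit 225)) (XT.lf (nat_lit 0) (nat_lit 4064737894) (nat_lit 588) (nat_lit 1935309118) (nat_lit 84) (nat_lit 5807048625) (nat_lit 101) (nat_lit 5) (nat_lit 108) (nat_lit 5) (nat_lit 102) (nat_lit 5) (nat_lit 332) (nat_lit 308) (nat_lit 224)))) (XT.nd (nat_lit 188) (nat_lit 504) (nat_lit 0) (XT.nd (nat_lit 94) (nat_lit 0) (nat_lit 0) (XT.lf (nat_lit 0) (nat_lit 3074192835) (nat_lit 588) (nat_lit 2341029834) (nat_lit 672) (nat_lit 6597881507) (nat_lit 94) (nat_lit 5) (nat_lit 101) (nat_lit 5) (nat_lit 102) (nat_lit 5) (nat_lit 333) (nat_lit 308) (nat_lit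 223)) (XT.lf (nat_lit 0) (nat_lit 6822421029) (nat_lit 672) (nat_lit 3978589137) (nat_lit 84) (nat_lit 1424099563) (nat_lit 94) (nat_lit 5) (nat_lit 102) (nat_lit 5) (nat_lit 95) (nat_lit 5) (nat_lit 334) (nat_lit 308) (nat_lit 222))) (XT.nd (nat_lit 94) (nat_lit 0) (nat_lit 0) (XT.lf (nat_lit 0) (nat_lit 1115284619) (nat_lit 504) (nat_lit 7173800466) (nat_lit 588) (nat_lit 4154180167) (nat_lit 88) (nat_lit 5) (nat_lit 94) (nat_lit 5) (nat_lit 95) (nat_lit 5) (nat_lit 335) (nat_lit 308) (nat_lit 221)) (XT.lf (nat_lit 0) (nat_lit 6432856536) (nat_lit 504) (nat_lit 3391115217) (nat_lit 588) (nat_lit 2843573251) (nat_lit 88) (nat_lit 5) (nat_lit 94) (nat_lit 5) (nat_lit 95) (nat_lit 5) (nat_lit 336) (nat_lit 308) (nat_lit 220))))) (XT.nd (nat_lit 376) (nat_lit 0) (nat_lit 0) (XT.nd (nat_lit 188) (nat_lit 504) (nat_lit 0) (XT.nd (nat_lit 94) (nat_lit 504) (nat_lit 0) (XT.lf (nat_lit 0) (nat_lit 11393281837)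 (nat_lit 588) (nat_lit 1007181283) (nat_lit 84) (nat_lit 498787044) (nat_lit 88) (nat_lit 5) (nat_lit 95) (nat_lit 5) (nat_lit 89) (nat_lit 5) (nat_lit 337) (nat_lit 308) (nat_lit 219)) (XT.lf (nat_lit 0) (nat_lit 4418652288) (nat_lit 504) (nat_lit 8653446604) (nat_lit 588) (nat_lit 64215569) (nat_lit 82) (nat_lit 5) (nat_lit 88) (nat_lit 5) (nat_lit 89) (nat_lit 5) (nat_lit 338) (nat_lit 308) (nat_lit 218))) (XT.nd (nat_lit 94) (nat_lit 420) (nat_lit 0) (XT.lf (nat_lit 0) (nat_lit 1386655568) (nat_lit 588) (nat_lit 3378885791) (nat_lit 84) (nat_lit 8615022739) (nat_lit 81) (nat_lit 5) (nat_lit 88) (nat_lit 5) (nat_lit 82) (nat_lit 5) (nat_lit 339) (nat_lit 308) (nat_lit 217)) (XT.lf (nat_lit 0) (nat_lit 2150304025) (nat_lit 420) (nat_lit 735182908) (nat_lit 504) (nat_lit 10746801731) (nat_lit 76) (nat_lit 5) (nat_lit 81) (nat_lit 5) (nat_lit 82) (nat_lit 5) (nat_lit 340) (nat_lit 308) (nat_lit 216))))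 (XT.nd (nat_lit 51324) (nat_lit 0) (nat_lit 5376) (XT.nd (nat_lit 51230) (nat_lit 0) (nat_lit 5376) (XT.lf (nat_lit 0) (nat_lit 4483653562) (nat_lit 504) (nat_lit 6020622386) (nat_lit 84) (nat_lit 3385957385) (nat_lit 76) (nat_lit 5) (nat_lit 82) (nat_lit 5) (nat_lit 77) (nat_lit 5) (nat_lit 341) (nat_lit 308) (nat_lit 215)) (XT.lf (nat_lit 0) (nat_lit 31403946) (nat_lit 0) (nat_lit 31403946) (nat_lit 924) (nat_lit 4206769067) (nat_lit 140) (nat_lit 5) (nat_lit 140) (nat_lit 3) (nat_lit 151) (nat_lit 3) (nat_lit 309) (nat_lit 309) (nat_lit 246))) (XT.nd (nat_lit 94) (nat_lit 0) (nat_lit 0) (XT.lf (nat_lit 0) (nat_lit 1040042368) (nat_lit 924) (nat_lit 5158317119) (nat_lit 1008) (nat_lit 2441195538) (nat_lit 140) (nat_lit 5) (nat_lit 151) (nat_lit 3) (nat_lit 152) (nat_lit 5) (nat_lit 310) (nat_lit 309) (nat_lit 245)) (XT.nd (nat_lit 94) (nat_lit 0) (nat_lit 0) (XT.lf (nat_lit 0) (nat_lit 1947863031)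 (nat_lit 924) (nat_lit 1757392409) (nat_lit 1008) (nat_lit 5039044515) (nat_lit 140) (nat_lit 5) (nat_lit 151) (nat_lit 3) (nat_lit 152) (nat_lit 5) (nat_lit 311) (nat_lit 309) (nat_lit 244)) (XT.lf (nat_lit 84) (nat_lit 1765798079) (nat_lit 0) (nat_lit 1101019751) (nat_lit 1008) (nat_lit 5986144799) (nat_lit 141) (nat_lit 5) (nat_lit 140) (nat_lit 5) (nat_lit 152) (nat_lit 5) (nat_lit 312) (nat_lit 309) (nat_lit 243))))))))
noncomputable def xc52 : XT := (XT.nd (nat_lit 1504) (nat_lit 3780) (nat_lit 0) (XT.nd (nat_lit 752) (nat_lit 840) (nat_lit 0) (XT.nd (nat_lit 376) (nat_lit 840) (nat_lit 0) (XT.nd (nat_lit 188) (nat_lit 0) (nat_lit 0) (XT.nd (nat_lit 94) (nat_lit 0) (nat_lit 0) (XT.lf (nat_lit 0) (nat_lit 3814983212) (nat_lit 924) (nat_lit 3564745445) (nat_lit 1008) (nat_lit 1585381861) (nat_lit 141) (nat_lit 5) (nat_lit 152) (nat_lit 5) (nat_lit 153) (nat_lit 5) (nat_lit 313) (nat_lit 309)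 (nat_lit 242)) (XT.lf (nat_lit 84) (nat_lit 37069563) (nat_lit 0) (nat_lit 4734587490) (nat_lit 1008) (nat_lit 4309860264) (nat_lit 142) (nat_lit 5) (nat_lit 141) (nat_lit 5) (nat_lit 153) (nat_lit 5) (nat_lit 314) (nat_lit 309) (nat_lit 241))) (XT.nd (nat_lit 94) (nat_lit 0) (nat_lit 84) (XT.lf (nat_lit 84) (nat_lit 3807021697) (nat_lit 0) (nat_lit 1956449706) (nat_lit 1008) (nat_lit 3438022178) (nat_lit 142) (nat_lit 5) (nat_lit 141) (nat_lit 5) (nat_lit 153) (nat_lit 5) (nat_lit 315) (nat_lit 309) (nat_lit 240)) (XT.lf (nat_lit 0) (nat_lit 6764388056) (nat_lit 924) (nat_lit 1660070622) (nat_lit 1008) (nat_lit 901528306) (nat_lit 142) (nat_lit 5) (nat_lit 153) (nat_lit 5) (nat_lit 154) (nat_lit 5) (nat_lit 316) (nat_lit 309) (nat_lit 239)))) (XT.nd (nat_lit 188) (nat_lit 924) (nat_lit 0) (XT.nd (nat_lit 94) (nat_lit 0) (nat_lit 0) (XT.lf (nat_lit 84) (nat_lit 2195190006) (nat_lit 0) (nat_lit 5613201585)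 (nat_lit 1008) (nat_lit 1645697375) (nat_lit 143) (nat_lit 5) (nat_lit 142) (nat_lit 5) (nat_lit 154) (nat_lit 5) (nat_lit 317) (nat_lit 309) (nat_lit 238)) (XT.lf (nat_lit 84) (nat_lit 6186224586) (nat_lit 0) (nat_lit 2686840467) (nat_lit 1008) (nat_lit 713578969) (nat_lit 143) (nat_lit 5) (nat_lit 142) (nat_lit 5) (nat_lit 154) (nat_lit 5) (nat_lit 318) (nat_lit 309) (nat_lit 237))) (XT.nd (nat_lit 94) (nat_lit 0) (nat_lit 0) (XT.lf (nat_lit 0) (nat_lit 222982588) (nat_lit 1008) (nat_lit 9159915676) (nat_lit 1092) (nat_lit 341049736) (nat_lit 131) (nat_lit 5) (nat_lit 143) (nat_lit 5) (nat_lit 144) (nat_lit 5) (nat_lit 319) (nat_lit 309) (nat_lit 236)) (XT.lf (nat_lit 0) (nat_lit 1209301319) (nat_lit 1008) (nat_lit 5196011721) (nat_lit 1092) (nat_lit 3458976121) (nat_lit 131) (nat_lit 5) (nat_lit 143) (nat_lit 5) (nat_lit 144) (nat_lit 5) (nat_lit 320) (nat_lit 309) (nat_lit 235))))) (XT.nd (nat_lit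 376) (nat_lit 840) (nat_lit 0) (XT.nd (nat_lit 188) (nat_lit 0) (nat_lit 84) (XT.nd (nat_lit 94) (nat_lit 0) (nat_lit 0) (XT.lf (nat_lit 0) (nat_lit 2199241518) (nat_lit 1008) (nat_lit 1128558949) (nat_lit 1092) (nat_lit 6682121686) (nat_lit 131) (nat_lit 5) (nat_lit 143) (nat_lit 5) (nat_lit 144) (nat_lit 5) (nat_lit 321) (nat_lit 309) (nat_lit 234)) (XT.lf (nat_lit 84) (nat_lit 3108870747) (nat_lit 0) (nat_lit 115695550) (nat_lit 1092) (nat_lit 6935460375) (nat_lit 132) (nat_lit 5) (nat_lit 131) (nat_lit 5) (nat_lit 144) (nat_lit 5) (nat_lit 322) (nat_lit 309) (nat_lit 233))) (XT.nd (nat_lit 94) (nat_lit 0) (nat_lit 0) (XT.lf (nat_lit 0) (nat_lit 4299808296) (nat_lit 1008) (nat_lit 2864180233) (nat_lit 1092) (nat_lit 3150333216) (nat_lit 132) (nat_lit 5) (nat_lit 144) (nat_lit 5) (nat_lit 145) (nat_lit 5) (nat_lit 323) (nat_lit 309) (nat_lit 232)) (XT.lf (nat_lit 84) (nat_lit 1461928431) (nat_lit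 0) (nat_lit 3937433349) (nat_lit 1092) (nat_lit 5074414257) (nat_lit 133) (nat_lit 5) (nat_lit 132) (nat_lit 5) (nat_lit 145) (nat_lit 5) (nat_lit 324) (nat_lit 309) (nat_lit 231)))) (XT.nd (nat_lit 188) (nat_lit 924) (nat_lit 0) (XT.nd (nat_lit 94) (nat_lit 0) (nat_lit 84) (XT.lf (nat_lit 84) (nat_lit 5964122692) (nat_lit 0) (nat_lit 574625025) (nat_lit 1092) (nat_lit 4099341081) (nat_lit 133) (nat_lit 5) (nat_lit 132) (nat_lit 5) (nat_lit 145) (nat_lit 5) (nat_lit 325) (nat_lit 309) (nat_lit 230)) (XT.lf (nat_lit 0) (nat_lit 7718776178) (nat_lit 1008) (nat_lit 249351747) (nat_lit 84) (nat_lit 2839293074) (nat_lit 133) (nat_lit 5) (nat_lit 145) (nat_lit 5) (nat_lit 134) (nat_lit 5) (nat_lit 326) (nat_lit 309) (nat_lit 229))) (XT.nd (nat_lit 94) (nat_lit 0) (nat_lit 0) (XT.lf (nat_lit 0) (nat_lit 4376244714) (nat_lit 1008) (nat_lit 4585761785) (nat_lit 1092) (nat_lit 2019258730) (nat_lit 121) (nat_lit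 5) (nat_lit 133) (nat_lit 5) (nat_lit 134) (nat_lit 5) (nat_lit 327) (nat_lit 309) (nat_lit 228)) (XT.lf (nat_lit 0) (nat_lit 9132232380) (nat_lit 1008) (nat_lit 1091978515) (nat_lit 1092) (nat_lit 936979621) (nat_lit 121) (nat_lit 5) (nat_lit 133) (nat_lit 5) (nat_lit 134) (nat_lit 5) (nat_lit 328) (nat_lit 309) (nat_lit 227)))))) (XT.nd (nat_lit 752) (nat_lit 1008) (nat_lit 0) (XT.nd (nat_lit 376) (nat_lit 1092) (nat_lit 0) (XT.nd (nat_lit 188) (nat_lit 504) (nat_lit 0) (XT.nd (nat_lit 94) (nat_lit 0) (nat_lit 0) (XT.lf (nat_lit 0) (nat_lit 205694097) (nat_lit 1176) (nat_lit 8647987912) (nat_lit 84) (nat_lit 2492092890) (nat_lit 107) (nat_lit 5) (nat_lit 121) (nat_lit 5) (nat_lit 108) (nat_lit 5) (nat_lit 329) (nat_lit 309) (nat_lit 226)) (XT.lf (nat_lit 0) (nat_lit 1375595718) (nat_lit 1176) (nat_lit 3961172267) (nat_lit 84) (nat_lit 6198744889) (nat_lit 107) (nat_lit 5) (nat_lit 121) (nat_lit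 5) (nat_lit 108) (nat_lit 5) (nat_lit 330) (nat_lit 309) (nat_lit 225))) (XT.nd (nat_lit 94) (nat_lit 0) (nat_lit 0) (XT.lf (nat_lit 0) (nat_lit 870180360) (nat_lit 504) (nat_lit 1699561667) (nat_lit 588) (nat_lit 9161838917) (nat_lit 101) (nat_lit 5) (nat_lit 107) (nat_lit 5) (nat_lit 108) (nat_lit 5) (nat_lit 331) (nat_lit 309) (nat_lit 224)) (XT.lf (nat_lit 0) (nat_lit 3842824329) (nat_lit 588) (nat_lit 6036750946) (nat_lit 84) (nat_lit 2052925665) (nat_lit 101) (nat_lit 5) (nat_lit 108) (nat_lit 5) (nat_lit 102) (nat_lit 5) (nat_lit 332) (nat_lit 309) (nat_lit 223)))) (XT.nd (nat_lit 188) (nat_lit 504) (nat_lit 0) (XT.nd (nat_lit 94) (nat_lit 588) (nat_lit 0) (XT.lf (nat_lit 0) (nat_lit 5153169696) (nat_lit 588) (nat_lit 1098175915) (nat_lit 84) (nat_lit 5888443174) (nat_lit 101) (nat_lit 5) (nat_lit 108) (nat_lit 5) (nat_lit 102) (nat_lit 5) (nat_lit 333) (nat_lit 309) (nat_lit 222)) (XT.lf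 (nat_lit 0) (nat_lit 4057537985) (nat_lit 588) (nat_lit 2467852940) (nat_lit 672) (nat_lit 5827521636) (nat_lit 94) (nat_lit 5) (nat_lit 101) (nat_lit 5) (nat_lit 102) (nat_lit 5) (nat_lit 334) (nat_lit 309) (nat_lit 221))) (XT.nd (nat_lit 94) (nat_lit 504) (nat_lit 0) (XT.lf (nat_lit 0) (nat_lit 7947357570) (nat_lit 672) (nat_lit 3208442185) (nat_lit 84) (nat_lit 1416686862) (nat_lit 94) (nat_lit 5) (nat_lit 102) (nat_lit 5) (nat_lit 95) (nat_lit 5) (nat_lit 335) (nat_lit 309) (nat_lit 220)) (XT.lf (nat_lit 0) (nat_lit 2034295941) (nat_lit 504) (nat_lit 7406500737) (nat_lit 588) (nat_lit 3357286488) (nat_lit 88) (nat_lit 5) (nat_lit 94) (nat_lit 5) (nat_lit 95) (nat_lit 5) (nat_lit 336) (nat_lit 309) (nat_lit 219))))) (XT.nd (nat_lit 376) (nat_lit 420) (nat_lit 0) (XT.nd (nat_lit 188) (nat_lit 588) (nat_lit 0) (XT.nd (nat_lit 94) (nat_lit 0) (nat_lit 0) (XT.lf (nat_lit 0) (nat_lit 7490119414) (nat_lit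 504) (nat_lit 3506242171) (nat_lit 588) (nat_lit 2033883805) (nat_lit 88) (nat_lit 5) (nat_lit 94) (nat_lit 5) (nat_lit 95) (nat_lit 5) (nat_lit 337) (nat_lit 309) (nat_lit 218)) (XT.lf (nat_lit 0) (nat_lit 12588129717) (nat_lit 588) (nat_lit 177165242) (nat_lit 84) (nat_lit 504743277) (nat_lit 88) (nat_lit 5) (nat_lit 95) (nat_lit 5) (nat_lit 89) (nat_lit 5) (nat_lit 338) (nat_lit 309) (nat_lit 217))) (XT.nd (nat_lit 94) (nat_lit 0) (nat_lit 0) (XT.lf (nat_lit 0) (nat_lit 771218542) (nat_lit 588) (nat_lit 8114721985) (nat_lit 84) (nat_lit 4628881419) (nat_lit 81) (nat_lit 5) (nat_lit 88) (nat_lit 5) (nat_lit 82) (nat_lit 5) (nat_lit 339) (nat_lit 309) (nat_lit 216)) (XT.lf (nat_lit 0) (nat_lit 2240593284) (nat_lit 588) (nat_lit 2637335478) (nat_lit 84) (nat_lit 8889558310) (nat_lit 81) (nat_lit 5) (nat_lit 88) (nat_lit 5) (nat_lit 82) (nat_lit 5) (nat_lit 340) (nat_lit 309) (nat_lit 215)))) (XT.nd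 (nat_lit 51418) (nat_lit 0) (nat_lit 5376) (XT.nd (nat_lit 51324) (nat_lit 0) (nat_lit 5376) (XT.lf (nat_lit 0) (nat_lit 3054691238) (nat_lit 420) (nat_lit 715123945) (nat_lit 504) (nat_lit 10257780423) (nat_lit 76) (nat_lit 5) (nat_lit 81) (nat_lit 5) (nat_lit 82) (nat_lit 5) (nat_lit 341) (nat_lit 309) (nat_lit 214)) (XT.lf (nat_lit 0) (nat_lit 471856414) (nat_lit 0) (nat_lit 471856414) (nat_lit 924) (nat_lit 3427340805) (nat_lit 140) (nat_lit 5) (nat_lit 140) (nat_lit 3) (nat_lit 151) (nat_lit 3) (nat_lit 310) (nat_lit 310) (nat_lit 244))) (XT.nd (nat_lit 94) (nat_lit 0) (nat_lit 0) (XT.lf (nat_lit 0) (nat_lit 2768885438) (nat_lit 924) (nat_lit 4397334855) (nat_lit 1008) (nat_lit 1681519692) (nat_lit 140) (nat_lit 5) (nat_lit 151) (nat_lit 3) (nat_lit 152) (nat_lit 5) (nat_lit 311) (nat_lit 310) (nat_lit 243)) (XT.nd (nat_lit 94) (nat_lit 0) (nat_lit 0) (XT.lf (nat_lit 0) (nat_lit 3653835297)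 (nat_lit 924) (nat_lit 918670706) (nat_lit 1008) (nat_lit 4385019291) (nat_lit 140) (nat_lit 5) (nat_lit 151) (nat_lit 3) (nat_lit 152) (nat_lit 5) (nat_lit 312) (nat_lit 310) (nat_lit 242)) (XT.lf (nat_lit 84) (nat_lit 2704695831) (nat_lit 0) (nat_lit 1855873438) (nat_lit 1008) (nat_lit 4510454709) (nat_lit 141) (nat_lit 5) (nat_lit 140) (nat_lit 5) (nat_lit 152) (nat_lit 5) (nat_lit 313) (nat_lit 310) (nat_lit 241))))))))
noncomputable def xc53 : XT := (XT.nd (nat_lit 1598) (nat_lit 2184) (nat_lit 0) (XT.nd (nat_lit 752) (nat_lit 1932) (nat_lit 0) (XT.nd (nat_lit 376) (nat_lit 924) (nat_lit 0) (XT.nd (nat_lit 188) (nat_lit 0) (nat_lit 0) (XT.nd (nat_lit 94) (nat_lit 0) (nat_lit 0) (XT.lf (nat_lit 0) (nat_lit 5482937734) (nat_lit 924) (nat_lit 2756059386) (nat_lit 1008) (nat_lit 949561549) (nat_lit 141) (nat_lit 5) (nat_lit 152) (nat_lit 5) (nat_lit 153) (nat_lit 5) (nat_lit 314) (nat_lit 310) (nat_lit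 240)) (XT.lf (nat_lit 84) (nat_lit 948105882) (nat_lit 0) (nat_lit 5483592857) (nat_lit 1008) (nat_lit 2878233334) (nat_lit 142) (nat_lit 5) (nat_lit 141) (nat_lit 5) (nat_lit 153) (nat_lit 5) (nat_lit 315) (nat_lit 310) (nat_lit 239))) (XT.nd (nat_lit 94) (nat_lit 0) (nat_lit 84) (XT.lf (nat_lit 84) (nat_lit 4807568141) (nat_lit 0) (nat_lit 2601224919) (nat_lit 1008) (nat_lit 2026431517) (nat_lit 142) (nat_lit 5) (nat_lit 141) (nat_lit 5) (nat_lit 153) (nat_lit 5) (nat_lit 316) (nat_lit 310) (nat_lit 238)) (XT.lf (nat_lit 0) (nat_lit 8391018564) (nat_lit 924) (nat_lit 799953110) (nat_lit 1008) (nat_lit 374328788) (nat_lit 142) (nat_lit 5) (nat_lit 153) (nat_lit 5) (nat_lit 154) (nat_lit 5) (nat_lit 317) (nat_lit 310) (nat_lit 237)))) (XT.nd (nat_lit 188) (nat_lit 0) (nat_lit 0) (XT.nd (nat_lit 94) (nat_lit 1008) (nat_lit 0) (XT.lf (nat_lit 84) (nat_lit 3165591672) (nat_lit 0) (nat_lit 6268141731)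 (nat_lit 1008) (nat_lit 264859852) (nat_lit 143) (nat_lit 5) (nat_lit 142) (nat_lit 5) (nat_lit 154) (nat_lit 5) (nat_lit 318) (nat_lit 310) (nat_lit 236)) (XT.lf (nat_lit 0) (nat_lit 639942846) (nat_lit 1008) (nat_lit 2589980301) (nat_lit 1092) (nat_lit 6606593999) (nat_lit 130) (nat_lit 5) (nat_lit 142) (nat_lit 5) (nat_lit 143) (nat_lit 5) (nat_lit 319) (nat_lit 310) (nat_lit 235))) (XT.nd (nat_lit 94) (nat_lit 0) (nat_lit 84) (XT.lf (nat_lit 84) (nat_lit 1484543153) (nat_lit 0) (nat_lit 70616809) (nat_lit 1092) (nat_lit 8423954523) (nat_lit 131) (nat_lit 5) (nat_lit 130) (nat_lit 5) (nat_lit 143) (nat_lit 5) (nat_lit 320) (nat_lit 310) (nat_lit 234)) (XT.lf (nat_lit 0) (nat_lit 2531527183) (nat_lit 1008) (nat_lit 4435650396) (nat_lit 1092) (nat_lit 3158041125) (nat_lit 131) (nat_lit 5) (nat_lit 143) (nat_lit 5) (nat_lit 144) (nat_lit 5) (nat_lit 321) (nat_lit 310) (nat_lit 233))))) (XT.nd (nat_lit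 376) (nat_lit 2016) (nat_lit 0) (XT.nd (nat_lit 188) (nat_lit 0) (nat_lit 84) (XT.nd (nat_lit 94) (nat_lit 0) (nat_lit 0) (XT.lf (nat_lit 0) (nat_lit 3513526175) (nat_lit 1008) (nat_lit 269812280) (nat_lit 1092) (nat_lit 6493376812) (nat_lit 131) (nat_lit 5) (nat_lit 143) (nat_lit 5) (nat_lit 144) (nat_lit 5) (nat_lit 322) (nat_lit 310) (nat_lit 232)) (XT.lf (nat_lit 84) (nat_lit 4089929503) (nat_lit 0) (nat_lit 452014842) (nat_lit 1092) (nat_lit 5890565009) (nat_lit 132) (nat_lit 5) (nat_lit 131) (nat_lit 5) (nat_lit 144) (nat_lit 5) (nat_lit 323) (nat_lit 310) (nat_lit 231))) (XT.nd (nat_lit 94) (nat_lit 0) (nat_lit 0) (XT.lf (nat_lit 0) (nat_lit 5610712191) (nat_lit 1008) (nat_lit 2050484216) (nat_lit 1092) (nat_lit 2931767641) (nat_lit 132) (nat_lit 5) (nat_lit 144) (nat_lit 5) (nat_lit 145) (nat_lit 5) (nat_lit 324) (nat_lit 310) (nat_lit 230)) (XT.lf (nat_lit 84) (nat_lit 2400596960) (nat_lit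 0) (nat_lit 4317208754) (nat_lit 1092) (nat_lit 4040516825) (nat_lit 133) (nat_lit 5) (nat_lit 132) (nat_lit 5) (nat_lit 145) (nat_lit 5) (nat_lit 325) (nat_lit 310) (nat_lit 229)))) (XT.nd (nat_lit 188) (nat_lit 1176) (nat_lit 0) (XT.nd (nat_lit 94) (nat_lit 924) (nat_lit 0) (XT.lf (nat_lit 84) (nat_lit 7015498127) (nat_lit 0) (nat_lit 842404425) (nat_lit 1092) (nat_lit 3071033386) (nat_lit 133) (nat_lit 5) (nat_lit 132) (nat_lit 5) (nat_lit 145) (nat_lit 5) (nat_lit 326) (nat_lit 310) (nat_lit 228)) (XT.lf (nat_lit 0) (nat_lit 636341479) (nat_lit 1008) (nat_lit 8408508455) (nat_lit 1092) (nat_lit 2059717023) (nat_lit 121) (nat_lit 5) (nat_lit 133) (nat_lit 5) (nat_lit 134) (nat_lit 5) (nat_lit 327) (nat_lit 310) (nat_lit 227))) (XT.nd (nat_lit 94) (nat_lit 1176) (nat_lit 0) (XT.lf (nat_lit 0) (nat_lit 5383595261) (nat_lit 1008) (nat_lit 4912872058) (nat_lit 1092) (nat_lit 988393876) (nat_lit 121)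 (nat_lit 5) (nat_lit 133) (nat_lit 5) (nat_lit 134) (nat_lit 5) (nat_lit 328) (nat_lit 310) (nat_lit 226)) (XT.nd (nat_lit 94) (nat_lit 1092) (nat_lit 0) (XT.lf (nat_lit 0) (nat_lit 92652659) (nat_lit 1092) (nat_lit 1211600637) (nat_lit 84) (nat_lit 10167188990) (nat_lit 120) (nat_lit 5) (nat_lit 133) (nat_lit 5) (nat_lit 121) (nat_lit 5) (nat_lit 329) (nat_lit 310) (nat_lit 225)) (XT.lf (nat_lit 0) (nat_lit 1227054451) (nat_lit 1176) (nat_lit 8017460411) (nat_lit 84) (nat_lit 2417803080) (nat_lit 107) (nat_lit 5) (nat_lit 121) (nat_lit 5) (nat_lit 108) (nat_lit 5) (nat_lit 330) (nat_lit 310) (nat_lit 224))))))) (XT.nd (nat_lit 752) (nat_lit 588) (nat_lit 0) (XT.nd (nat_lit 376) (nat_lit 1092) (nat_lit 0) (XT.nd (nat_lit 188) (nat_lit 0) (nat_lit 0) (XT.nd (nat_lit 94) (nat_lit 504) (nat_lit 0) (XT.lf (nat_lit 0) (nat_lit 2402704594) (nat_lit 1176) (nat_lit 3212372947) (nat_lit 84) (nat_lit 6243917921)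 (nat_lit 107) (nat_lit 5) (nat_lit 121) (nat_lit 5) (nat_lit 108) (nat_lit 5) (nat_lit 331) (nat_lit 310) (nat_lit 223)) (XT.lf (nat_lit 0) (nat_lit 1759927489) (nat_lit 504) (nat_lit 1852899948) (nat_lit 588) (nat_lit 8449074748) (nat_lit 101) (nat_lit 5) (nat_lit 107) (nat_lit 5) (nat_lit 108) (nat_lit 5) (nat_lit 332) (nat_lit 310) (nat_lit 222))) (XT.nd (nat_lit 94) (nat_lit 0) (nat_lit 0) (XT.lf (nat_lit 0) (nat_lit 4895438719) (nat_lit 588) (nat_lit 5353737184) (nat_lit 84) (nat_lit 2020907817) (nat_lit 101) (nat_lit 5) (nat_lit 108) (nat_lit 5) (nat_lit 102) (nat_lit 5) (nat_lit 333) (nat_lit 310) (nat_lit 221)) (XT.lf (nat_lit 0) (nat_lit 6218336808) (nat_lit 588) (nat_lit 288229998) (nat_lit 84) (nat_lit 5978202620) (nat_lit 101) (nat_lit 5) (nat_lit 108) (nat_lit 5) (nat_lit 102) (nat_lit 5) (nat_lit 334) (nat_lit 310) (nat_lit 220)))) (XT.nd (nat_lit 188) (nat_lit 504) (nat_lit 0) (XT.nd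 (nat_lit 94) (nat_lit 0) (nat_lit 0) (XT.lf (nat_lit 0) (nat_lit 5018766399) (nat_lit 588) (nat_lit 2595394173) (nat_lit 672) (nat_lit 5091025262) (nat_lit 94) (nat_lit 5) (nat_lit 101) (nat_lit 5) (nat_lit 102) (nat_lit 5) (nat_lit 335) (nat_lit 310) (nat_lit 219)) (XT.lf (nat_lit 0) (nat_lit 9053062441) (nat_lit 672) (nat_lit 2467343219) (nat_lit 84) (nat_lit 1412098341) (nat_lit 94) (nat_lit 5) (nat_lit 102) (nat_lit 5) (nat_lit 95) (nat_lit 5) (nat_lit 336) (nat_lit 310) (nat_lit 218))) (XT.nd (nat_lit 94) (nat_lit 0) (nat_lit 0) (XT.lf (nat_lit 0) (nat_lit 2929409868) (nat_lit 504) (nat_lit 7645803891) (nat_lit 588) (nat_lit 2590518318) (nat_lit 88) (nat_lit 5) (nat_lit 94) (nat_lit 5) (nat_lit 95) (nat_lit 5) (nat_lit 337) (nat_lit 310) (nat_lit 217)) (XT.lf (nat_lit 0) (nat_lit 8529345853) (nat_lit 504) (nat_lit 3624345603) (nat_lit 588) (nat_lit 1252274600) (nat_lit 88) (nat_lit 5) (nat_lit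 94) (nat_lit 5) (nat_lit 95) (nat_lit 5) (nat_lit 338) (nat_lit 310) (nat_lit 216))))) (XT.nd (nat_lit 51794) (nat_lit 0) (nat_lit 4956) (XT.nd (nat_lit 51606) (nat_lit 0) (nat_lit 4956) (XT.nd (nat_lit 94) (nat_lit 0) (nat_lit 0) (XT.lf (nat_lit 0) (nat_lit 120200398) (nat_lit 588) (nat_lit 13014590917) (nat_lit 84) (nat_lit 519017710) (nat_lit 81) (nat_lit 5) (nat_lit 88) (nat_lit 5) (nat_lit 82) (nat_lit 5) (nat_lit 339) (nat_lit 310) (nat_lit 215)) (XT.lf (nat_lit 0) (nat_lit 1581694109) (nat_lit 588) (nat_lit 7545428926) (nat_lit 84) (nat_lit 4779622006) (nat_lit 81) (nat_lit 5) (nat_lit 88) (nat_lit 5) (nat_lit 82) (nat_lit 5) (nat_lit 340) (nat_lit 310) (nat_lit 214))) (XT.nd (nat_lit 94) (nat_lit 0) (nat_lit 0) (XT.lf (nat_lit 0) (nat_lit 899931818) (nat_lit 0) (nat_lit 899931818) (nat_lit 924) (nat_lit 2677641535) (nat_lit 140) (nat_lit 5) (nat_lit 140) (nat_lit 3) (nat_lit 151) (nat_lit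 3) (nat_lit 311) (nat_lit 311) (nat_lit 242)) (XT.lf (nat_lit 0) (nat_lit 4450830015) (nat_lit 924) (nat_lit 3667308038) (nat_lit 1008) (nat_lit 947773278) (nat_lit 140) (nat_lit 5) (nat_lit 151) (nat_lit 3) (nat_lit 152) (nat_lit 5) (nat_lit 312) (nat_lit 311) (nat_lit 241)))) (XT.nd (nat_lit 188) (nat_lit 0) (nat_lit 84) (XT.nd (nat_lit 94) (nat_lit 0) (nat_lit 0) (XT.lf (nat_lit 0) (nat_lit 5315221678) (nat_lit 924) (nat_lit 106854447) (nat_lit 1008) (nat_lit 3758710927) (nat_lit 140) (nat_lit 5) (nat_lit 151) (nat_lit 3) (nat_lit 152) (nat_lit 5) (nat_lit 313) (nat_lit 311) (nat_lit 240)) (XT.lf (nat_lit 84) (nat_lit 3620329220) (nat_lit 0) (nat_lit 2591437987) (nat_lit 1008) (nat_lit 3087417534) (nat_lit 141) (nat_lit 5) (nat_lit 140) (nat_lit 5) (nat_lit 152) (nat_lit 5) (nat_lit 314) (nat_lit 311) (nat_lit 239))) (XT.nd (nat_lit 94) (nat_lit 0) (nat_lit 0) (XT.lf (nat_lit 0) (nat_lit 7110808051)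 (nat_lit 924) (nat_lit 1976749444) (nat_lit 1008) (nat_lit 334602584) (nat_lit 141) (nat_lit 5) (nat_lit 152) (nat_lit 5) (nat_lit 153) (nat_lit 5) (nat_lit 315) (nat_lit 311) (nat_lit 238)) (XT.nd (nat_lit 94) (nat_lit 0) (nat_lit 0) (XT.lf (nat_lit 84) (nat_lit 1833490153) (nat_lit 0) (nat_lit 6220146090) (nat_lit 1008) (nat_lit 1494937375) (nat_lit 142) (nat_lit 5) (nat_lit 141) (nat_lit 5) (nat_lit 153) (nat_lit 5) (nat_lit 316) (nat_lit 311) (nat_lit 237)) (XT.lf (nat_lit 84) (nat_lit 5786857834) (nat_lit 0) (nat_lit 3231389423) (nat_lit 1008) (nat_lit 661005315) (nat_lit 142) (nat_lit 5) (nat_lit 141) (nat_lit 5) (nat_lit 153) (nat_lit 5) (nat_lit 317) (nat_lit 311) (nat_lit 236))))))))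
noncomputable def xc54 : XT := (XT.nd (nat_lit 1504) (nat_lit 1680) (nat_lit 0) (XT.nd (nat_lit 752) (nat_lit 2352) (nat_lit 0) (XT.nd (nat_lit 376) (nat_lit 0) (nat_lit 168) (XT.nd (nat_lit 188) (nat_lit 0) (nat_lit 84) (XT.nd (nat_lit 94) (nat_lit 0) (nat_lit 84) (XT.lf (nat_lit 84) (nat_lit 30373076) (nat_lit 0) (nat_lit 137079508) (nat_lit 1092) (nat_lit 9647424760) (nat_lit 130) (nat_lit 5) (nat_lit 129) (nat_lit 5) (nat_lit 142) (nat_lit 5) (nat_lit 318) (nat_lit 311) (nat_lit 235)) (XT.lf (nat_lit 0) (nat_lit 1052334308) (nat_lit 1008) (nat_lit 5851580140) (nat_lit 1092) (nat_lit 3049309487) (nat_lit 130) (nat_lit 5) (nat_lit 142) (nat_lit 5) (nat_lit 143) (nat_lit 5) (nat_lit 319) (nat_lit 311) (nat_lit 234))) (XT.nd (nat_lit 94) (nat_lit 0) (nat_lit 0) (XT.lf (nat_lit 0) (nat_lit 1939997422) (nat_lit 1008) (nat_lit 1815530991) (nat_lit 1092) (nat_lit 6341197500) (nat_lit 130) (nat_lit 5)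 (nat_lit 142) (nat_lit 5) (nat_lit 143) (nat_lit 5) (nat_lit 320) (nat_lit 311) (nat_lit 233)) (XT.lf (nat_lit 84) (nat_lit 2376649228) (nat_lit 0) (nat_lit 476836900) (nat_lit 1092) (nat_lit 7391342184) (nat_lit 131) (nat_lit 5) (nat_lit 130) (nat_lit 5) (nat_lit 143) (nat_lit 5) (nat_lit 321) (nat_lit 311) (nat_lit 232)))) (XT.nd (nat_lit 188) (nat_lit 0) (nat_lit 0) (XT.nd (nat_lit 94) (nat_lit 0) (nat_lit 0) (XT.lf (nat_lit 0) (nat_lit 3818644846) (nat_lit 1008) (nat_lit 3706296202) (nat_lit 1092) (nat_lit 2871953353) (nat_lit 131) (nat_lit 5) (nat_lit 143) (nat_lit 5) (nat_lit 144) (nat_lit 5) (nat_lit 322) (nat_lit 311) (nat_lit 231)) (XT.lf (nat_lit 84) (nat_lit 574186843) (nat_lit 0) (nat_lit 4226253697) (nat_lit 1092) (nat_lit 5753739289) (nat_lit 132) (nat_lit 5) (nat_lit 131) (nat_lit 5) (nat_lit 144) (nat_lit 5) (nat_lit 323) (nat_lit 311) (nat_lit 230))) (XT.nd (nat_lit 94) (nat_lit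 0) (nat_lit 84) (XT.lf (nat_lit 84) (nat_lit 5048999746) (nat_lit 0) (nat_lit 779051703) (nat_lit 1092) (nat_lit 4887903603) (nat_lit 132) (nat_lit 5) (nat_lit 131) (nat_lit 5) (nat_lit 144) (nat_lit 5) (nat_lit 324) (nat_lit 311) (nat_lit 229)) (XT.lf (nat_lit 0) (nat_lit 6892502260) (nat_lit 1008) (nat_lit 1265019390) (nat_lit 1092) (nat_lit 2725157136) (nat_lit 132) (nat_lit 5) (nat_lit 144) (nat_lit 5) (nat_lit 145) (nat_lit 5) (nat_lit 325) (nat_lit 311) (nat_lit 228))))) (XT.nd (nat_lit 376) (nat_lit 1596) (nat_lit 0) (XT.nd (nat_lit 188) (nat_lit 1008) (nat_lit 0) (XT.nd (nat_lit 94) (nat_lit 0) (nat_lit 0) (XT.lf (nat_lit 84) (nat_lit 3315449637) (nat_lit 0) (nat_lit 4693492297) (nat_lit 1092) (nat_lit 3045125641) (nat_lit 133) (nat_lit 5) (nat_lit 132) (nat_lit 5) (nat_lit 145) (nat_lit 5) (nat_lit 326) (nat_lit 311) (nat_lit 227)) (XT.lf (nat_lit 84) (nat_lit 8048142654) (nat_lit 0) (nat_lit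 1103679071) (nat_lit 1092) (nat_lit 2079283719) (nat_lit 133) (nat_lit 5) (nat_lit 132) (nat_lit 5) (nat_lit 145) (nat_lit 5) (nat_lit 327) (nat_lit 311) (nat_lit 226))) (XT.nd (nat_lit 94) (nat_lit 84) (nat_lit 0) (XT.lf (nat_lit 0) (nat_lit 1501545233) (nat_lit 1008) (nat_lit 8848562768) (nat_lit 1092) (nat_lit 1062984473) (nat_lit 121) (nat_lit 5) (nat_lit 133) (nat_lit 5) (nat_lit 134) (nat_lit 5) (nat_lit 328) (nat_lit 311) (nat_lit 225)) (XT.lf (nat_lit 0) (nat_lit 9465538) (nat_lit 1092) (nat_lit 5229603407) (nat_lit 84) (nat_lit 6360977825) (nat_lit 120) (nat_lit 5) (nat_lit 133) (nat_lit 5) (nat_lit 121) (nat_lit 5) (nat_lit 329) (nat_lit 311) (nat_lit 224)))) (XT.nd (nat_lit 188) (nat_lit 504) (nat_lit 0) (XT.nd (nat_lit 94) (nat_lit 1092) (nat_lit 0) (XT.lf (nat_lit 0) (nat_lit 1073185763) (nat_lit 1092) (nat_lit 430059551) (nat_lit 84) (nat_lit 10289904311) (nat_lit 120) (nat_lit 5) (nat_lit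 133) (nat_lit 5) (nat_lit 121) (nat_lit 5) (nat_lit 330) (nat_lit 311) (nat_lit 223)) (XT.lf (nat_lit 0) (nat_lit 2219957745) (nat_lit 1176) (nat_lit 7420613070) (nat_lit 84) (nat_lit 2350186538) (nat_lit 107) (nat_lit 5) (nat_lit 121) (nat_lit 5) (nat_lit 108) (nat_lit 5) (nat_lit 331) (nat_lit 311) (nat_lit 222))) (XT.nd (nat_lit 94) (nat_lit 504) (nat_lit 0) (XT.lf (nat_lit 0) (nat_lit 3403342274) (nat_lit 1176) (nat_lit 2491986950) (nat_lit 84) (nat_lit 6299197672) (nat_lit 107) (nat_lit 5) (nat_lit 121) (nat_lit 5) (nat_lit 108) (nat_lit 5) (nat_lit 332) (nat_lit 311) (nat_lit 221)) (XT.lf (nat_lit 0) (nat_lit 2626153343) (nat_lit 504) (nat_lit 2005029933) (nat_lit 588) (nat_lit 7773255946) (nat_lit 101) (nat_lit 5) (nat_lit 107) (nat_lit 5) (nat_lit 108) (nat_lit 5) (nat_lit 333) (nat_lit 311) (nat_lit 220)))))) (XT.nd (nat_lit 52264) (nat_lit 0) (nat_lit 4032) (XT.nd (nat_lit 376) (nat_lit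 1092) (nat_lit 0) (XT.nd (nat_lit 188) (nat_lit 0) (nat_lit 0) (XT.nd (nat_lit 94) (nat_lit 588) (nat_lit 0) (XT.lf (nat_lit 0) (nat_lit 5925392131) (nat_lit 588) (nat_lit 4701090650) (nat_lit 84) (nat_lit 1993563436) (nat_lit 101) (nat_lit 5) (nat_lit 108) (nat_lit 5) (nat_lit 102) (nat_lit 5) (nat_lit 334) (nat_lit 311) (nat_lit 219)) (XT.lf (nat_lit 0) (nat_lit 507049218) (nat_lit 588) (nat_lit 6760875364) (nat_lit 672) (nat_lit 5574221036) (nat_lit 94) (nat_lit 5) (nat_lit 101) (nat_lit 5) (nat_lit 102) (nat_lit 5) (nat_lit 335) (nat_lit 311) (nat_lit 218))) (XT.nd (nat_lit 94) (nat_lit 0) (nat_lit 0) (XT.lf (nat_lit 0) (nat_lit 5960308072) (nat_lit 588) (nat_lit 2723866127) (nat_lit 672) (nat_lit 4386021838) (nat_lit 94) (nat_lit 5) (nat_lit 101) (nat_lit 5) (nat_lit 102) (nat_lit 5) (nat_lit 336) (nat_lit 311) (nat_lit 217)) (XT.lf (nat_lit 0) (nat_lit 10142144173) (nat_lit 672) (nat_lit 1753058033)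 (nat_lit 84) (nat_lit 1410240659) (nat_lit 94) (nat_lit 5) (nat_lit 102) (nat_lit 5) (nat_lit 95) (nat_lit 5) (nat_lit 337) (nat_lit 311) (nat_lit 216)))) (XT.nd (nat_lit 188) (nat_lit 588) (nat_lit 0) (XT.nd (nat_lit 94) (nat_lit 0) (nat_lit 0) (XT.lf (nat_lit 0) (nat_lit 3802988535) (nat_lit 504) (nat_lit 7891950800) (nat_lit 588) (nat_lit 1851561919) (nat_lit 88) (nat_lit 5) (nat_lit 94) (nat_lit 5) (nat_lit 95) (nat_lit 5) (nat_lit 338) (nat_lit 311) (nat_lit 215)) (XT.lf (nat_lit 0) (nat_lit 9552986381) (nat_lit 504) (nat_lit 3745552874) (nat_lit 588) (nat_lit 496466143) (nat_lit 88) (nat_lit 5) (nat_lit 94) (nat_lit 5) (nat_lit 95) (nat_lit 5) (nat_lit 339) (nat_lit 311) (nat_lit 214))) (XT.nd (nat_lit 51606) (nat_lit 0) (nat_lit 4956) (XT.lf (nat_lit 0) (nat_lit 886843964) (nat_lit 588) (nat_lit 12621875010) (nat_lit 84) (nat_lit 542134672) (nat_lit 81) (nat_lit 5) (nat_lit 88) (nat_lit 5)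 (nat_lit 82) (nat_lit 5) (nat_lit 340) (nat_lit 311) (nat_lit 213)) (XT.lf (nat_lit 0) (nat_lit 1316788334) (nat_lit 0) (nat_lit 1316788334) (nat_lit 924) (nat_lit 1955400784) (nat_lit 140) (nat_lit 5) (nat_lit 140) (nat_lit 3) (nat_lit 151) (nat_lit 3) (nat_lit 312) (nat_lit 312) (nat_lit 240))))) (XT.nd (nat_lit 376) (nat_lit 924) (nat_lit 0) (XT.nd (nat_lit 188) (nat_lit 0) (nat_lit 0) (XT.nd (nat_lit 94) (nat_lit 0) (nat_lit 0) (XT.lf (nat_lit 0) (nat_lit 6090374598) (nat_lit 924) (nat_lit 2965965440) (nat_lit 1008) (nat_lit 237829359) (nat_lit 140) (nat_lit 5) (nat_lit 151) (nat_lit 3) (nat_lit 152) (nat_lit 5) (nat_lit 313) (nat_lit 312) (nat_lit 239)) (XT.lf (nat_lit 84) (nat_lit 694345516) (nat_lit 0) (nat_lit 6248955865) (nat_lit 1008) (nat_lit 2470678496) (nat_lit 141) (nat_lit 5) (nat_lit 140) (nat_lit 5) (nat_lit 152) (nat_lit 5) (nat_lit 314) (nat_lit 312) (nat_lit 238))) (XT.nd (nat_lit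 94) (nat_lit 0) (nat_lit 0) (XT.lf (nat_lit 84) (nat_lit 4515079027) (nat_lit 0) (nat_lit 3309644012) (nat_lit 1008) (nat_lit 1712837156) (nat_lit 141) (nat_lit 5) (nat_lit 140) (nat_lit 5) (nat_lit 152) (nat_lit 5) (nat_lit 315) (nat_lit 312) (nat_lit 237)) (XT.lf (nat_lit 84) (nat_lit 8438810084) (nat_lit 0) (nat_lit 266623332) (nat_lit 1008) (nat_lit 960522990) (nat_lit 141) (nat_lit 5) (nat_lit 140) (nat_lit 5) (nat_lit 152) (nat_lit 5) (nat_lit 316) (nat_lit 312) (nat_lit 236)))) (XT.nd (nat_lit 188) (nat_lit 0) (nat_lit 0) (XT.nd (nat_lit 94) (nat_lit 1008) (nat_lit 0) (XT.lf (nat_lit 84) (nat_lit 2695619406) (nat_lit 0) (nat_lit 6945974044) (nat_lit 1008) (nat_lit 155979194) (nat_lit 142) (nat_lit 5) (nat_lit 141) (nat_lit 5) (nat_lit 153) (nat_lit 5) (nat_lit 317) (nat_lit 312) (nat_lit 235)) (XT.lf (nat_lit 0) (nat_lit 648810786) (nat_lit 1008) (nat_lit 3192956588) (nat_lit 1092) (nat_lit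 6091745037) (nat_lit 129) (nat_lit 5) (nat_lit 141) (nat_lit 5) (nat_lit 142) (nat_lit 5) (nat_lit 318) (nat_lit 312) (nat_lit 234))) (XT.nd (nat_lit 94) (nat_lit 0) (nat_lit 84) (XT.lf (nat_lit 84) (nat_lit 836422143) (nat_lit 0) (nat_lit 621198181) (nat_lit 1092) (nat_lit 8616647382) (nat_lit 130) (nat_lit 5) (nat_lit 129) (nat_lit 5) (nat_lit 142) (nat_lit 5) (nat_lit 319) (nat_lit 312) (nat_lit 233)) (XT.nd (nat_lit 94) (nat_lit 0) (nat_lit 0) (XT.lf (nat_lit 0) (nat_lit 2326679609) (nat_lit 1008) (nat_lit 5203940618) (nat_lit 1092) (nat_lit 2687775120) (nat_lit 130) (nat_lit 5) (nat_lit 142) (nat_lit 5) (nat_lit 143) (nat_lit 5) (nat_lit 320) (nat_lit 312) (nat_lit 232)) (XT.lf (nat_lit 0) (nat_lit 3204524284) (nat_lit 1008) (nat_lit 1067701389) (nat_lit 1092) (nat_lit 6095424514) (nat_lit 130) (nat_lit 5) (nat_lit 142) (nat_lit 5) (nat_lit 143) (nat_lit 5) (nat_lit 321) (nat_lit 312) (nat_lit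 231))))))))
noncomputable def xc55 : XT := (XT.nd (nat_lit 1598) (nat_lit 588) (nat_lit 0) (XT.nd (nat_lit 752) (nat_lit 2268) (nat_lit 0) (XT.nd (nat_lit 376) (nat_lit 756) (nat_lit 0) (XT.nd (nat_lit 188) (nat_lit 0) (nat_lit 84) (XT.nd (nat_lit 94) (nat_lit 0) (nat_lit 84) (XT.lf (nat_lit 84) (nat_lit 3246295515) (nat_lit 0) (nat_lit 871718367) (nat_lit 1092) (nat_lit 6403350183) (nat_lit 131) (nat_lit 5) (nat_lit 130) (nat_lit 5) (nat_lit 143) (nat_lit 5) (nat_lit 322) (nat_lit 312) (nat_lit 230)) (XT.lf (nat_lit 0) (nat_lit 5074073320) (nat_lit 1008) (nat_lit 3005677591) (nat_lit 1092) (nat_lit 2599741070) (nat_lit 131) (nat_lit 5) (nat_lit 143) (nat_lit 5) (nat_lit 144) (nat_lit 5) (nat_lit 323) (nat_lit 312) (nat_lit 229))) (XT.nd (nat_lit 94) (nat_lit 0) (nat_lit 0) (XT.lf (nat_lit 84) (nat_lit 1399244083) (nat_lit 0) (nat_lit 4660879977) (nat_lit 1092) (nat_lit 4782474828) (nat_lit 132)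 (nat_lit 5) (nat_lit 131) (nat_lit 5) (nat_lit 144) (nat_lit 5) (nat_lit 324) (nat_lit 312) (nat_lit 228)) (XT.lf (nat_lit 84) (nat_lit 5988503653) (nat_lit 0) (nat_lit 1097685735) (nat_lit 1092) (nat_lit 3924365202) (nat_lit 132) (nat_lit 5) (nat_lit 131) (nat_lit 5) (nat_lit 144) (nat_lit 5) (nat_lit 325) (nat_lit 312) (nat_lit 227)))) (XT.nd (nat_lit 188) (nat_lit 924) (nat_lit 0) (XT.nd (nat_lit 94) (nat_lit 0) (nat_lit 0) (XT.lf (nat_lit 0) (nat_lit 8148407495) (nat_lit 1008) (nat_lit 505494646) (nat_lit 1092) (nat_lit 2529762862) (nat_lit 132) (nat_lit 5) (nat_lit 144) (nat_lit 5) (nat_lit 145) (nat_lit 5) (nat_lit 326) (nat_lit 312) (nat_lit 226)) (XT.lf (nat_lit 84) (nat_lit 4208882393) (nat_lit 0) (nat_lit 5067079897) (nat_lit 1092) (nat_lit 2085255184) (nat_lit 133) (nat_lit 5) (nat_lit 132) (nat_lit 5) (nat_lit 145) (nat_lit 5) (nat_lit 327) (nat_lit 312) (nat_lit 225))) (XT.nd (nat_lit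 94) (nat_lit 924) (nat_lit 0) (XT.lf (nat_lit 84) (nat_lit 9064515597) (nat_lit 0) (nat_lit 1359124295) (nat_lit 1092) (nat_lit 1121171822) (nat_lit 133) (nat_lit 5) (nat_lit 132) (nat_lit 5) (nat_lit 145) (nat_lit 5) (nat_lit 328) (nat_lit 312) (nat_lit 224)) (XT.lf (nat_lit 0) (nat_lit 2343491244) (nat_lit 1008) (nat_lit 9291633155) (nat_lit 1092) (nat_lit 98173407) (nat_lit 121) (nat_lit 5) (nat_lit 133) (nat_lit 5) (nat_lit 134) (nat_lit 5) (nat_lit 329) (nat_lit 312) (nat_lit 223))))) (XT.nd (nat_lit 376) (nat_lit 1092) (nat_lit 0) (XT.nd (nat_lit 188) (nat_lit 0) (nat_lit 0) (XT.nd (nat_lit 94) (nat_lit 1092) (nat_lit 0) (XT.lf (nat_lit 0) (nat_lit 958023637) (nat_lit 1092) (nat_lit 4597249042) (nat_lit 84) (nat_lit 6371487693) (nat_lit 120) (nat_lit 5) (nat_lit 133) (nat_lit 5) (nat_lit 121) (nat_lit 5) (nat_lit 330) (nat_lit 312) (nat_lit 222)) (XT.lf (nat_lit 0) (nat_lit 333920320) (nat_lit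 1092) (nat_lit 1695599077) (nat_lit 1176) (nat_lit 10097216199) (nat_lit 107) (nat_lit 5) (nat_lit 120) (nat_lit 5) (nat_lit 121) (nat_lit 5) (nat_lit 331) (nat_lit 312) (nat_lit 221))) (XT.nd (nat_lit 94) (nat_lit 0) (nat_lit 0) (XT.lf (nat_lit 0) (nat_lit 3187082776) (nat_lit 1176) (nat_lit 6855337276) (nat_lit 84) (nat_lit 2288918455) (nat_lit 107) (nat_lit 5) (nat_lit 121) (nat_lit 5) (nat_lit 108) (nat_lit 5) (nat_lit 332) (nat_lit 312) (nat_lit 220)) (XT.lf (nat_lit 0) (nat_lit 4380142044) (nat_lit 1176) (nat_lit 1797837189) (nat_lit 84) (nat_lit 6364381756) (nat_lit 107) (nat_lit 5) (nat_lit 121) (nat_lit 5) (nat_lit 108) (nat_lit 5) (nat_lit 333) (nat_lit 312) (nat_lit 219)))) (XT.nd (nat_lit 188) (nat_lit 588) (nat_lit 0) (XT.nd (nat_lit 94) (nat_lit 0) (nat_lit 0) (XT.lf (nat_lit 0) (nat_lit 3471155708) (nat_lit 504) (nat_lit 2156267291) (nat_lit 588) (nat_lit 7132030714) (nat_lit 101)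 (nat_lit 5) (nat_lit 107) (nat_lit 5) (nat_lit 108) (nat_lit 5) (nat_lit 334) (nat_lit 312) (nat_lit 218)) (XT.lf (nat_lit 0) (nat_lit 6935257117) (nat_lit 588) (nat_lit 4076699887) (nat_lit 84) (nat_lit 1970701790) (nat_lit 101) (nat_lit 5) (nat_lit 108) (nat_lit 5) (nat_lit 102) (nat_lit 5) (nat_lit 335) (nat_lit 312) (nat_lit 217))) (XT.nd (nat_lit 94) (nat_lit 0) (nat_lit 0) (XT.lf (nat_lit 0) (nat_lit 1285095498) (nat_lit 588) (nat_lit 7017033534) (nat_lit 672) (nat_lit 4910140019) (nat_lit 94) (nat_lit 5) (nat_lit 101) (nat_lit 5) (nat_lit 102) (nat_lit 5) (nat_lit 336) (nat_lit 312) (nat_lit 216)) (XT.nd (nat_lit 94) (nat_lit 0) (nat_lit 0) (XT.lf (nat_lit 0) (nat_lit 6884483785) (nat_lit 588) (nat_lit 2853476718) (nat_lit 672) (nat_lit 3710269922) (nat_lit 94) (nat_lit 5) (nat_lit 101) (nat_lit 5) (nat_lit 102) (nat_lit 5) (nat_lit 337) (nat_lit 312) (nat_lit 215)) (XT.lf (nat_lit 0) (nat_lit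 11217102343) (nat_lit 672) (nat_lit 1063468834) (nat_lit 84) (nat_lit 1411028293) (nat_lit 94) (nat_lit 5) (nat_lit 102) (nat_lit 5) (nat_lit 95) (nat_lit 5) (nat_lit 338) (nat_lit 312) (nat_lit 214))))))) (XT.nd (nat_lit 52358) (nat_lit 0) (nat_lit 3528) (XT.nd (nat_lit 51982) (nat_lit 0) (nat_lit 3444) (XT.nd (nat_lit 51794) (nat_lit 0) (nat_lit 4452) (XT.nd (nat_lit 94) (nat_lit 84) (nat_lit 0) (XT.lf (nat_lit 0) (nat_lit 4657283514) (nat_lit 504) (nat_lit 8145187655) (nat_lit 588) (nat_lit 1138224190) (nat_lit 88) (nat_lit 5) (nat_lit 94) (nat_lit 5) (nat_lit 95) (nat_lit 5) (nat_lit 339) (nat_lit 312) (nat_lit 213)) (XT.lf (nat_lit 0) (nat_lit 230956206) (nat_lit 588) (nat_lit 3636626303) (nat_lit 84) (nat_lit 10330022308) (nat_lit 87) (nat_lit 5) (nat_lit 94) (nat_lit 5) (nat_lit 88) (nat_lit 5) (nat_lit 340) (nat_lit 312) (nat_lit 212))) (XT.nd (nat_lit 94) (nat_lit 0) (nat_lit 0) (XT.lf (nat_lit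 0) (nat_lit 1723528718) (nat_lit 0) (nat_lit 1723528718) (nat_lit 924) (nat_lit 1258466767) (nat_lit 140) (nat_lit 5) (nat_lit 140) (nat_lit 3) (nat_lit 151) (nat_lit 3) (nat_lit 313) (nat_lit 313) (nat_lit 238)) (XT.lf (nat_lit 0) (nat_lit 7236772692) (nat_lit 0) (nat_lit 459591077) (nat_lit 924) (nat_lit 1836124916) (nat_lit 140) (nat_lit 5) (nat_lit 140) (nat_lit 3) (nat_lit 151) (nat_lit 3) (nat_lit 314) (nat_lit 313) (nat_lit 237)))) (XT.nd (nat_lit 188) (nat_lit 1008) (nat_lit 0) (XT.nd (nat_lit 94) (nat_lit 0) (nat_lit 0) (XT.lf (nat_lit 84) (nat_lit 1474861111) (nat_lit 0) (nat_lit 7061365493) (nat_lit 1008) (nat_lit 1121187743) (nat_lit 141) (nat_lit 5) (nat_lit 140) (nat_lit 5) (nat_lit 152) (nat_lit 5) (nat_lit 315) (nat_lit 313) (nat_lit 236)) (XT.lf (nat_lit 84) (nat_lit 5391216103) (nat_lit 0) (nat_lit 4012332207) (nat_lit 1008) (nat_lit 382732600) (nat_lit 141) (nat_lit 5) (nat_lit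 140) (nat_lit 5) (nat_lit 152) (nat_lit 5) (nat_lit 316) (nat_lit 313) (nat_lit 235))) (XT.nd (nat_lit 94) (nat_lit 0) (nat_lit 84) (XT.lf (nat_lit 0) (nat_lit 344235137) (nat_lit 1008) (nat_lit 509106219) (nat_lit 1092) (nat_lit 9066619505) (nat_lit 128) (nat_lit 5) (nat_lit 140) (nat_lit 5) (nat_lit 141) (nat_lit 5) (nat_lit 317) (nat_lit 313) (nat_lit 234)) (XT.lf (nat_lit 0) (nat_lit 1119415449) (nat_lit 1008) (nat_lit 6531632109) (nat_lit 1092) (nat_lit 2405676046) (nat_lit 129) (nat_lit 5) (nat_lit 141) (nat_lit 5) (nat_lit 142) (nat_lit 5) (nat_lit 318) (nat_lit 313) (nat_lit 233))))) (XT.nd (nat_lit 376) (nat_lit 0) (nat_lit 84) (XT.nd (nat_lit 188) (nat_lit 0) (nat_lit 84) (XT.nd (nat_lit 94) (nat_lit 0) (nat_lit 0) (XT.lf (nat_lit 0) (nat_lit 1907517465) (nat_lit 1008) (nat_lit 2526772016) (nat_lit 1092) (nat_lit 5763880297) (nat_lit 129) (nat_lit 5) (nat_lit 141) (nat_lit 5) (nat_lit 142)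 (nat_lit 5) (nat_lit 319) (nat_lit 313) (nat_lit 232)) (XT.lf (nat_lit 84) (nat_lit 1619770835) (nat_lit 0) (nat_lit 1091901058) (nat_lit 1092) (nat_lit 7632685052) (nat_lit 130) (nat_lit 5) (nat_lit 129) (nat_lit 5) (nat_lit 142) (nat_lit 5) (nat_lit 320) (nat_lit 313) (nat_lit 231))) (XT.nd (nat_lit 94) (nat_lit 0) (nat_lit 0) (XT.lf (nat_lit 0) (nat_lit 3566980238) (nat_lit 1008) (nat_lit 4585329642) (nat_lit 1092) (nat_lit 2342046578) (nat_lit 130) (nat_lit 5) (nat_lit 142) (nat_lit 5) (nat_lit 143) (nat_lit 5) (nat_lit 321) (nat_lit 313) (nat_lit 230)) (XT.lf (nat_lit 0) (nat_lit 4436913577) (nat_lit 1008) (nat_lit 344317944) (nat_lit 1092) (nat_lit 5868233721) (nat_lit 130) (nat_lit 5) (nat_lit 142) (nat_lit 5) (nat_lit 143) (nat_lit 5) (nat_lit 322) (nat_lit 313) (nat_lit 229)))) (XT.nd (nat_lit 188) (nat_lit 0) (nat_lit 84) (XT.nd (nat_lit 94) (nat_lit 0) (nat_lit 84) (XT.lf (nat_lit 84)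 (nat_lit 4095754161) (nat_lit 0) (nat_lit 1256327214) (nat_lit 1092) (nat_lit 5456822745) (nat_lit 131) (nat_lit 5) (nat_lit 130) (nat_lit 5) (nat_lit 143) (nat_lit 5) (nat_lit 323) (nat_lit 313) (nat_lit 228)) (XT.lf (nat_lit 0) (nat_lit 6301070631) (nat_lit 1008) (nat_lit 2331644082) (nat_lit 1092) (nat_lit 2340487238) (nat_lit 131) (nat_lit 5) (nat_lit 143) (nat_lit 5) (nat_lit 144) (nat_lit 5) (nat_lit 324) (nat_lit 313) (nat_lit 227))) (XT.nd (nat_lit 94) (nat_lit 0) (nat_lit 0) (XT.lf (nat_lit 84) (nat_lit 2202062857) (nat_lit 0) (nat_lit 5090996189) (nat_lit 1092) (nat_lit 3849195744) (nat_lit 132) (nat_lit 5) (nat_lit 131) (nat_lit 5) (nat_lit 144) (nat_lit 5) (nat_lit 325) (nat_lit 313) (nat_lit 226)) (XT.nd (nat_lit 94) (nat_lit 0) (nat_lit 84) (XT.lf (nat_lit 84) (nat_lit 6910754645) (nat_lit 0) (nat_lit 1408754664) (nat_lit 1092) (nat_lit 2997004225) (nat_lit 132) (nat_lit 5) (nat_lit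 131) (nat_lit 5) (nat_lit 144) (nat_lit 5) (nat_lit 326) (nat_lit 313) (nat_lit 225)) (XT.lf (nat_lit 84) (nat_lit 234999319) (nat_lit 0) (nat_lit 9148844174) (nat_lit 1092) (nat_lit 2112220692) (nat_lit 133) (nat_lit 5) (nat_lit 132) (nat_lit 5) (nat_lit 145) (nat_lit 5) (nat_lit 327) (nat_lit 313) (nat_lit 224))))))))
noncomputable def xc56 : XT := (XT.nd (nat_lit 53204) (nat_lit 0) (nat_lit 1596) (XT.nd (nat_lit 752) (nat_lit 1092) (nat_lit 0) (XT.nd (nat_lit 376) (nat_lit 1596) (nat_lit 0) (XT.nd (nat_lit 188) (nat_lit 1008) (nat_lit 0) (XT.nd (nat_lit 94) (nat_lit 0) (nat_lit 0) (XT.lf (nat_lit 84) (nat_lit 5083179785) (nat_lit 0) (nat_lit 5438738591) (nat_lit 1092) (nat_lit 1158074921) (nat_lit 133) (nat_lit 5) (nat_lit 132) (nat_lit 5) (nat_lit 145) (nat_lit 5) (nat_lit 328) (nat_lit 313) (nat_lit 223)) (XT.lf (nat_lit 84) (nat_lit 10066972455) (nat_lit 0) (nat_lit 1609384419) (nat_lit 1092)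 (nat_lit 193927010) (nat_lit 133) (nat_lit 5) (nat_lit 132) (nat_lit 5) (nat_lit 145) (nat_lit 5) (nat_lit 329) (nat_lit 313) (nat_lit 222))) (XT.nd (nat_lit 94) (nat_lit 0) (nat_lit 0) (XT.lf (nat_lit 0) (nat_lit 820574854) (nat_lit 1092) (nat_lit 8909302516) (nat_lit 84) (nat_lit 2335284817) (nat_lit 120) (nat_lit 5) (nat_lit 133) (nat_lit 5) (nat_lit 121) (nat_lit 5) (nat_lit 330) (nat_lit 313) (nat_lit 221)) (XT.lf (nat_lit 0) (nat_lit 1879819697) (nat_lit 1092) (nat_lit 3992349633) (nat_lit 84) (nat_lit 6393380770) (nat_lit 120) (nat_lit 5) (nat_lit 133) (nat_lit 5) (nat_lit 121) (nat_lit 5) (nat_lit 331) (nat_lit 313) (nat_lit 220)))) (XT.nd (nat_lit 188) (nat_lit 504) (nat_lit 0) (XT.nd (nat_lit 94) (nat_lit 0) (nat_lit 0) (XT.lf (nat_lit 0) (nat_lit 1084119083) (nat_lit 1092) (nat_lit 1880928630) (nat_lit 1176) (nat_lit 9507379617) (nat_lit 107) (nat_lit 5) (nat_lit 120) (nat_lit 5) (nat_lit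 121) (nat_lit 5) (nat_lit 332) (nat_lit 313) (nat_lit 219)) (XT.lf (nat_lit 0) (nat_lit 4130980460) (nat_lit 1176) (nat_lit 6319645790) (nat_lit 84) (nat_lit 2233695448) (nat_lit 107) (nat_lit 5) (nat_lit 121) (nat_lit 5) (nat_lit 108) (nat_lit 5) (nat_lit 333) (nat_lit 313) (nat_lit 218))) (XT.nd (nat_lit 94) (nat_lit 504) (nat_lit 0) (XT.lf (nat_lit 0) (nat_lit 5335614244) (nat_lit 1176) (nat_lit 1127860208) (nat_lit 84) (nat_lit 6439292063) (nat_lit 107) (nat_lit 5) (nat_lit 121) (nat_lit 5) (nat_lit 108) (nat_lit 5) (nat_lit 334) (nat_lit 313) (nat_lit 217)) (XT.lf (nat_lit 0) (nat_lit 4297124307) (nat_lit 504) (nat_lit 2306916562) (nat_lit 588) (nat_lit 6523181489) (nat_lit 101) (nat_lit 5) (nat_lit 107) (nat_lit 5) (nat_lit 108) (nat_lit 5) (nat_lit 335) (nat_lit 313) (nat_lit 216))))) (XT.nd (nat_lit 376) (nat_lit 504) (nat_lit 0) (XT.nd (nat_lit 188) (nat_lit 0) (nat_lit 0) (XT.nd (nat_lit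 94) (nat_lit 588) (nat_lit 0) (XT.lf (nat_lit 0) (nat_lit 7927491990) (nat_lit 588) (nat_lit 3478568807) (nat_lit 84) (nat_lit 1952146114) (nat_lit 101) (nat_lit 5) (nat_lit 108) (nat_lit 5) (nat_lit 102) (nat_lit 5) (nat_lit 336) (nat_lit 313) (nat_lit 215)) (XT.lf (nat_lit 0) (nat_lit 2042107234) (nat_lit 588) (nat_lit 7278374125) (nat_lit 672) (nat_lit 4275042436) (nat_lit 94) (nat_lit 5) (nat_lit 101) (nat_lit 5) (nat_lit 102) (nat_lit 5) (nat_lit 337) (nat_lit 313) (nat_lit 214))) (XT.nd (nat_lit 94) (nat_lit 0) (nat_lit 0) (XT.lf (nat_lit 0) (nat_lit 7793512651) (nat_lit 588) (nat_lit 2984429696) (nat_lit 672) (nat_lit 3061649179) (nat_lit 94) (nat_lit 5) (nat_lit 101) (nat_lit 5) (nat_lit 102) (nat_lit 5) (nat_lit 338) (nat_lit 313) (nat_lit 213)) (XT.lf (nat_lit 0) (nat_lit 12280335438) (nat_lit 672) (nat_lit 396566854) (nat_lit 84) (nat_lit 1414383151) (nat_lit 94) (nat_lit 5) (nat_lit 102)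 (nat_lit 5) (nat_lit 95) (nat_lit 5) (nat_lit 339) (nat_lit 313) (nat_lit 212)))) (XT.nd (nat_lit 51888) (nat_lit 0) (nat_lit 3360) (XT.nd (nat_lit 51794) (nat_lit 0) (nat_lit 4368) (XT.lf (nat_lit 0) (nat_lit 5494443266) (nat_lit 504) (nat_lit 8405766266) (nat_lit 588) (nat_lit 448425014) (nat_lit 88) (nat_lit 5) (nat_lit 94) (nat_lit 5) (nat_lit 95) (nat_lit 5) (nat_lit 340) (nat_lit 313) (nat_lit 211)) (XT.lf (nat_lit 0) (nat_lit 2121203988) (nat_lit 0) (nat_lit 2121203988) (nat_lit 924) (nat_lit 584798863) (nat_lit 140) (nat_lit 5) (nat_lit 140) (nat_lit 3) (nat_lit 151) (nat_lit 3) (nat_lit 314) (nat_lit 314) (nat_lit 236))) (XT.nd (nat_lit 94) (nat_lit 1008) (nat_lit 0) (XT.lf (nat_lit 0) (nat_lit 8128902907) (nat_lit 0) (nat_lit 1141628663) (nat_lit 924) (nat_lit 510541640) (nat_lit 140) (nat_lit 5) (nat_lit 140) (nat_lit 3) (nat_lit 151) (nat_lit 3) (nat_lit 315) (nat_lit 314) (nat_lit 235))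 (XT.lf (nat_lit 0) (nat_lit 181927161) (nat_lit 1008) (nat_lit 7678487525) (nat_lit 1092) (nat_lit 2050790252) (nat_lit 128) (nat_lit 5) (nat_lit 140) (nat_lit 5) (nat_lit 141) (nat_lit 5) (nat_lit 316) (nat_lit 314) (nat_lit 234)))))) (XT.nd (nat_lit 752) (nat_lit 1764) (nat_lit 0) (XT.nd (nat_lit 376) (nat_lit 0) (nat_lit 84) (XT.nd (nat_lit 188) (nat_lit 0) (nat_lit 84) (XT.nd (nat_lit 94) (nat_lit 0) (nat_lit 0) (XT.lf (nat_lit 0) (nat_lit 888408249) (nat_lit 1008) (nat_lit 3803578014) (nat_lit 1092) (nat_lit 5353227431) (nat_lit 128) (nat_lit 5) (nat_lit 140) (nat_lit 5) (nat_lit 141) (nat_lit 5) (nat_lit 317) (nat_lit 314) (nat_lit 233)) (XT.lf (nat_lit 84) (nat_lit 180810030) (nat_lit 0) (nat_lit 1412607127) (nat_lit 1092) (nat_lit 8590783539) (nat_lit 129) (nat_lit 5) (nat_lit 128) (nat_lit 5) (nat_lit 141) (nat_lit 5) (nat_lit 318) (nat_lit 314) (nat_lit 232))) (XT.nd (nat_lit 94) (nat_lit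 0) (nat_lit 0) (XT.lf (nat_lit 0) (nat_lit 2355468971) (nat_lit 1008) (nat_lit 5991953415) (nat_lit 1092) (nat_lit 1979079515) (nat_lit 129) (nat_lit 5) (nat_lit 141) (nat_lit 5) (nat_lit 142) (nat_lit 5) (nat_lit 319) (nat_lit 314) (nat_lit 231)) (XT.lf (nat_lit 0) (nat_lit 3131880034) (nat_lit 1008) (nat_lit 1885257827) (nat_lit 1092) (nat_lit 5456457299) (nat_lit 129) (nat_lit 5) (nat_lit 141) (nat_lit 5) (nat_lit 142) (nat_lit 5) (nat_lit 320) (nat_lit 314) (nat_lit 230)))) (XT.nd (nat_lit 188) (nat_lit 0) (nat_lit 84) (XT.nd (nat_lit 94) (nat_lit 0) (nat_lit 84) (XT.lf (nat_lit 84) (nat_lit 2382540077) (nat_lit 0) (nat_lit 1550455820) (nat_lit 1092) (nat_lit 6692323405) (nat_lit 130) (nat_lit 5) (nat_lit 129) (nat_lit 5) (nat_lit 142) (nat_lit 5) (nat_lit 321) (nat_lit 314) (nat_lit 229)) (XT.lf (nat_lit 0) (nat_lit 4776537267) (nat_lit 1008) (nat_lit 3993738500) (nat_lit 1092) (nat_lit 2011013792)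 (nat_lit 130) (nat_lit 5) (nat_lit 142) (nat_lit 5) (nat_lit 143) (nat_lit 5) (nat_lit 322) (nat_lit 314) (nat_lit 228))) (XT.nd (nat_lit 94) (nat_lit 0) (nat_lit 0) (XT.lf (nat_lit 84) (nat_lit 364016778) (nat_lit 0) (nat_lit 5279988818) (nat_lit 1092) (nat_lit 5298243541) (nat_lit 131) (nat_lit 5) (nat_lit 130) (nat_lit 5) (nat_lit 143) (nat_lit 5) (nat_lit 323) (nat_lit 314) (nat_lit 227)) (XT.lf (nat_lit 84) (nat_lit 4927191928) (nat_lit 0) (nat_lit 1631678529) (nat_lit 1092) (nat_lit 4548775120) (nat_lit 131) (nat_lit 5) (nat_lit 130) (nat_lit 5) (nat_lit 143) (nat_lit 5) (nat_lit 324) (nat_lit 314) (nat_lit 226))))) (XT.nd (nat_lit 376) (nat_lit 2016) (nat_lit 0) (XT.nd (nat_lit 188) (nat_lit 0) (nat_lit 0) (XT.nd (nat_lit 94) (nat_lit 0) (nat_lit 0) (XT.lf (nat_lit 0) (nat_lit 7502744634) (nat_lit 1008) (nat_lit 1682158667) (nat_lit 1092) (nat_lit 2093326186) (nat_lit 131) (nat_lit 5) (nat_lit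 143) (nat_lit 5) (nat_lit 144) (nat_lit 5) (nat_lit 325) (nat_lit 314) (nat_lit 225)) (XT.lf (nat_lit 84) (nat_lit 2984785951) (nat_lit 0) (nat_lit 5517527713) (nat_lit 1092) (nat_lit 2951046226) (nat_lit 132) (nat_lit 5) (nat_lit 131) (nat_lit 5) (nat_lit 144) (nat_lit 5) (nat_lit 326) (nat_lit 314) (nat_lit 224))) (XT.nd (nat_lit 94) (nat_lit 0) (nat_lit 84) (XT.lf (nat_lit 84) (nat_lit 7817964901) (nat_lit 0) (nat_lit 1713057137) (nat_lit 1092) (nat_lit 2103030089) (nat_lit 132) (nat_lit 5) (nat_lit 131) (nat_lit 5) (nat_lit 144) (nat_lit 5) (nat_lit 327) (nat_lit 314) (nat_lit 223)) (XT.lf (nat_lit 84) (nat_lit 963741173) (nat_lit 0) (nat_lit 9640585615) (nat_lit 1092) (nat_lit 1215698395) (nat_lit 133) (nat_lit 5) (nat_lit 132) (nat_lit 5) (nat_lit 145) (nat_lit 5) (nat_lit 328) (nat_lit 314) (nat_lit 222)))) (XT.nd (nat_lit 188) (nat_lit 1008) (nat_lit 0) (XT.nd (nat_lit 94) (nat_lit 1092)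 (nat_lit 0) (XT.lf (nat_lit 84) (nat_lit 5940522543) (nat_lit 0) (nat_lit 5809208810) (nat_lit 1092) (nat_lit 260899454) (nat_lit 133) (nat_lit 5) (nat_lit 132) (nat_lit 5) (nat_lit 145) (nat_lit 5) (nat_lit 329) (nat_lit 314) (nat_lit 221)) (XT.lf (nat_lit 0) (nat_lit 690875597) (nat_lit 1092) (nat_lit 1156987952) (nat_lit 1176) (nat_lit 10359685429) (nat_lit 119) (nat_lit 5) (nat_lit 132) (nat_lit 5) (nat_lit 133) (nat_lit 5) (nat_lit 330) (nat_lit 314) (nat_lit 220))) (XT.nd (nat_lit 94) (nat_lit 1092) (nat_lit 0) (XT.lf (nat_lit 0) (nat_lit 1711286513) (nat_lit 1092) (nat_lit 8460549933) (nat_lit 84) (nat_lit 2237336220) (nat_lit 120) (nat_lit 5) (nat_lit 133) (nat_lit 5) (nat_lit 121) (nat_lit 5) (nat_lit 331) (nat_lit 314) (nat_lit 219)) (XT.nd (nat_lit 94) (nat_lit 1092) (nat_lit 0) (XT.lf (nat_lit 0) (nat_lit 2777350983) (nat_lit 1092) (nat_lit 3412968960) (nat_lit 84) (nat_lit 6426354985)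 (nat_lit 120) (nat_lit 5) (nat_lit 133) (nat_lit 5) (nat_lit 121) (nat_lit 5) (nat_lit 332) (nat_lit 314) (nat_lit 218)) (XT.lf (nat_lit 0) (nat_lit 1813751589) (nat_lit 1092) (nat_lit 2064139443) (nat_lit 1176) (nat_lit 8952735470) (nat_lit 107) (nat_lit 5) (nat_lit 120) (nat_lit 5) (nat_lit 121) (nat_lit 5) (nat_lit 333) (nat_lit 314) (nat_lit 217))))))))
noncomputable def xc57 : XT := (XT.nd (nat_lit 53392) (nat_lit 0) (nat_lit 0) (XT.nd (nat_lit 52640) (nat_lit 0) (nat_lit 2856) (XT.nd (nat_lit 376) (nat_lit 588) (nat_lit 0) (XT.nd (nat_lit 188) (nat_lit 504) (nat_lit 0) (XT.nd (nat_lit 94) (nat_lit 0) (nat_lit 0) (XT.lf (nat_lit 0) (nat_lit 5054082364) (nat_lit 1176) (nat_lit 5811665446) (nat_lit 84) (nat_lit 2184234354) (nat_lit 107) (nat_lit 5) (nat_lit 121) (nat_lit 5) (nat_lit 108) (nat_lit 5) (nat_lit 334) (nat_lit 314) (nat_lit 216)) (XT.lf (nat_lit 0) (nat_lit 6272154570) (nat_lit 1176)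 (nat_lit 480098983) (nat_lit 84) (nat_lit 6523773694) (nat_lit 107) (nat_lit 5) (nat_lit 121) (nat_lit 5) (nat_lit 108) (nat_lit 5) (nat_lit 335) (nat_lit 314) (nat_lit 215))) (XT.nd (nat_lit 94) (nat_lit 0) (nat_lit 0) (XT.lf (nat_lit 0) (nat_lit 5106148076) (nat_lit 504) (nat_lit 2457272048) (nat_lit 588) (nat_lit 5944616834) (nat_lit 101) (nat_lit 5) (nat_lit 107) (nat_lit 5) (nat_lit 108) (nat_lit 5) (nat_lit 336) (nat_lit 314) (nat_lit 214)) (XT.lf (nat_lit 0) (nat_lit 8904448776) (nat_lit 588) (nat_lit 2904809559) (nat_lit 84) (nat_lit 1937732867) (nat_lit 101) (nat_lit 5) (nat_lit 108) (nat_lit 5) (nat_lit 102) (nat_lit 5) (nat_lit 337) (nat_lit 314) (nat_lit 213)))) (XT.nd (nat_lit 52076) (nat_lit 0) (nat_lit 2772) (XT.nd (nat_lit 94) (nat_lit 0) (nat_lit 0) (XT.lf (nat_lit 0) (nat_lit 2780106903) (nat_lit 588) (nat_lit 7545221182) (nat_lit 672) (nat_lit 3666890662) (nat_lit 94) (nat_lit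 5) (nat_lit 101) (nat_lit 5) (nat_lit 102) (nat_lit 5) (nat_lit 338) (nat_lit 314) (nat_lit 212)) (XT.lf (nat_lit 0) (nat_lit 8689519250) (nat_lit 588) (nat_lit 3116925153) (nat_lit 672) (nat_lit 2438152845) (nat_lit 94) (nat_lit 5) (nat_lit 101) (nat_lit 5) (nat_lit 102) (nat_lit 5) (nat_lit 339) (nat_lit 314) (nat_lit 211))) (XT.nd (nat_lit 94) (nat_lit 0) (nat_lit 0) (XT.lf (nat_lit 0) (nat_lit 66178695) (nat_lit 1092) (nat_lit 2443947453) (nat_lit 1092) (nat_lit 2443947453) (nat_lit 127) (nat_lit 3) (nat_lit 140) (nat_lit 3) (nat_lit 140) (nat_lit 5) (nat_lit 315) (nat_lit 315) (nat_lit 234)) (XT.lf (nat_lit 0) (nat_lit 758647343) (nat_lit 1092) (nat_lit 1038688987) (nat_lit 1092) (nat_lit 8242568734) (nat_lit 127) (nat_lit 3) (nat_lit 140) (nat_lit 3) (nat_lit 140) (nat_lit 5) (nat_lit 316) (nat_lit 315) (nat_lit 233))))) (XT.nd (nat_lit 376) (nat_lit 0) (nat_lit 84) (XT.nd (nat_lit 188) (nat_lit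 0) (nat_lit 0) (XT.nd (nat_lit 94) (nat_lit 0) (nat_lit 0) (XT.lf (nat_lit 0) (nat_lit 1424283977) (nat_lit 1008) (nat_lit 7214465015) (nat_lit 1092) (nat_lit 1536479952) (nat_lit 128) (nat_lit 5) (nat_lit 140) (nat_lit 5) (nat_lit 141) (nat_lit 5) (nat_lit 317) (nat_lit 315) (nat_lit 232)) (XT.lf (nat_lit 0) (nat_lit 2115480499) (nat_lit 1008) (nat_lit 3240542643) (nat_lit 1092) (nat_lit 4958668462) (nat_lit 128) (nat_lit 5) (nat_lit 140) (nat_lit 5) (nat_lit 141) (nat_lit 5) (nat_lit 318) (nat_lit 315) (nat_lit 231))) (XT.nd (nat_lit 94) (nat_lit 0) (nat_lit 84) (XT.lf (nat_lit 84) (nat_lit 860467460) (nat_lit 0) (nat_lit 1952496516) (nat_lit 1092) (nat_lit 7646076499) (nat_lit 129) (nat_lit 5) (nat_lit 128) (nat_lit 5) (nat_lit 141) (nat_lit 5) (nat_lit 319) (nat_lit 315) (nat_lit 230)) (XT.lf (nat_lit 0) (nat_lit 3558682037) (nat_lit 1008) (nat_lit 5479504047) (nat_lit 1092) (nat_lit 1568943796)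 (nat_lit 129) (nat_lit 5) (nat_lit 141) (nat_lit 5) (nat_lit 142) (nat_lit 5) (nat_lit 320) (nat_lit 315) (nat_lit 229)))) (XT.nd (nat_lit 188) (nat_lit 0) (nat_lit 84) (XT.nd (nat_lit 94) (nat_lit 0) (nat_lit 0) (XT.lf (nat_lit 0) (nat_lit 4325179302) (nat_lit 1008) (nat_lit 1266494299) (nat_lit 1092) (nat_lit 5168296919) (nat_lit 129) (nat_lit 5) (nat_lit 141) (nat_lit 5) (nat_lit 142) (nat_lit 5) (nat_lit 321) (nat_lit 315) (nat_lit 228)) (XT.lf (nat_lit 84) (nat_lit 3126749233) (nat_lit 0) (nat_lit 1998069727) (nat_lit 1092) (nat_lit 5792524786) (nat_lit 130) (nat_lit 5) (nat_lit 129) (nat_lit 5) (nat_lit 142) (nat_lit 5) (nat_lit 322) (nat_lit 315) (nat_lit 227))) (XT.nd (nat_lit 94) (nat_lit 0) (nat_lit 0) (XT.lf (nat_lit 0) (nat_lit 5958496058) (nat_lit 1008) (nat_lit 3427268494) (nat_lit 1092) (nat_lit 1693627054) (nat_lit 130) (nat_lit 5) (nat_lit 142) (nat_lit 5) (nat_lit 143) (nat_lit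 5) (nat_lit 323) (nat_lit 315) (nat_lit 226)) (XT.lf (nat_lit 84) (nat_lit 1058588774) (nat_lit 0) (nat_lit 5769958648) (nat_lit 1092) (nat_lit 4417669372) (nat_lit 131) (nat_lit 5) (nat_lit 130) (nat_lit 5) (nat_lit 143) (nat_lit 5) (nat_lit 324) (nat_lit 315) (nat_lit 225)))))) (XT.nd (nat_lit 752) (nat_lit 2100) (nat_lit 0) (XT.nd (nat_lit 376) (nat_lit 924) (nat_lit 0) (XT.nd (nat_lit 188) (nat_lit 0) (nat_lit 84) (XT.nd (nat_lit 94) (nat_lit 0) (nat_lit 84) (XT.lf (nat_lit 84) (nat_lit 5742677338) (nat_lit 0) (nat_lit 1998739881) (nat_lit 1092) (nat_lit 3676382960) (nat_lit 131) (nat_lit 5) (nat_lit 130) (nat_lit 5) (nat_lit 143) (nat_lit 5) (nat_lit 325) (nat_lit 315) (nat_lit 224)) (XT.lf (nat_lit 0) (nat_lit 8682063242) (nat_lit 1008) (nat_lit 1055290664) (nat_lit 1092) (nat_lit 1857440476) (nat_lit 131) (nat_lit 5) (nat_lit 143) (nat_lit 5) (nat_lit 144) (nat_lit 5) (nat_lit 326) (nat_lit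 315) (nat_lit 223))) (XT.nd (nat_lit 94) (nat_lit 0) (nat_lit 0) (XT.lf (nat_lit 84) (nat_lit 3749454821) (nat_lit 0) (nat_lit 5941365522) (nat_lit 1092) (nat_lit 2085320835) (nat_lit 132) (nat_lit 5) (nat_lit 131) (nat_lit 5) (nat_lit 144) (nat_lit 5) (nat_lit 327) (nat_lit 315) (nat_lit 222)) (XT.lf (nat_lit 84) (nat_lit 8712252469) (nat_lit 0) (nat_lit 2011355362) (nat_lit 1092) (nat_lit 1239797422) (nat_lit 132) (nat_lit 5) (nat_lit 131) (nat_lit 5) (nat_lit 144) (nat_lit 5) (nat_lit 328) (nat_lit 315) (nat_lit 221)))) (XT.nd (nat_lit 188) (nat_lit 0) (nat_lit 0) (XT.nd (nat_lit 94) (nat_lit 1092) (nat_lit 0) (XT.lf (nat_lit 84) (nat_lit 1672340897) (nat_lit 0) (nat_lit 10135243305) (nat_lit 1092) (nat_lit 348364881) (nat_lit 133) (nat_lit 5) (nat_lit 132) (nat_lit 5) (nat_lit 145) (nat_lit 5) (nat_lit 329) (nat_lit 315) (nat_lit 220)) (XT.lf (nat_lit 0) (nat_lit 596554392) (nat_lit 1092) (nat_lit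 5576425343) (nat_lit 1176) (nat_lit 6180213499) (nat_lit 119) (nat_lit 5) (nat_lit 132) (nat_lit 5) (nat_lit 133) (nat_lit 5) (nat_lit 330) (nat_lit 315) (nat_lit 219))) (XT.nd (nat_lit 94) (nat_lit 0) (nat_lit 84) (XT.lf (nat_lit 0) (nat_lit 1546552910) (nat_lit 1092) (nat_lit 534088438) (nat_lit 1176) (nat_lit 10476389321) (nat_lit 119) (nat_lit 5) (nat_lit 132) (nat_lit 5) (nat_lit 133) (nat_lit 5) (nat_lit 331) (nat_lit 315) (nat_lit 218)) (XT.lf (nat_lit 0) (nat_lit 2578358582) (nat_lit 1092) (nat_lit 8040825516) (nat_lit 84) (nat_lit 2146440889) (nat_lit 120) (nat_lit 5) (nat_lit 133) (nat_lit 5) (nat_lit 121) (nat_lit 5) (nat_lit 332) (nat_lit 315) (nat_lit 217))))) (XT.nd (nat_lit 376) (nat_lit 588) (nat_lit 0) (XT.nd (nat_lit 188) (nat_lit 504) (nat_lit 0) (XT.nd (nat_lit 94) (nat_lit 1092) (nat_lit 0) (XT.lf (nat_lit 0) (nat_lit 3652995118) (nat_lit 1092) (nat_lit 2857275881) (nat_lit 84)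 (nat_lit 6470137700) (nat_lit 120) (nat_lit 5) (nat_lit 133) (nat_lit 5) (nat_lit 121) (nat_lit 5) (nat_lit 333) (nat_lit 315) (nat_lit 216)) (XT.lf (nat_lit 0) (nat_lit 2524775962) (nat_lit 1092) (nat_lit 2245631630) (nat_lit 1176) (nat_lit 8431207166) (nat_lit 107) (nat_lit 5) (nat_lit 120) (nat_lit 5) (nat_lit 121) (nat_lit 5) (nat_lit 334) (nat_lit 315) (nat_lit 215))) (XT.nd (nat_lit 94) (nat_lit 504) (nat_lit 0) (XT.lf (nat_lit 0) (nat_lit 5958708757) (nat_lit 1176) (nat_lit 5329630283) (nat_lit 84) (nat_lit 2140271106) (nat_lit 107) (nat_lit 5) (nat_lit 121) (nat_lit 5) (nat_lit 108) (nat_lit 5) (nat_lit 335) (nat_lit 315) (nat_lit 214)) (XT.lf (nat_lit 0) (nat_lit 150332745) (nat_lit 504) (nat_lit 7043210498) (nat_lit 588) (nat_lit 6468852556) (nat_lit 101) (nat_lit 5) (nat_lit 107) (nat_lit 5) (nat_lit 108) (nat_lit 5) (nat_lit 336) (nat_lit 315) (nat_lit 213)))) (XT.nd (nat_lit 188) (nat_lit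 588) (nat_lit 0) (XT.nd (nat_lit 94) (nat_lit 0) (nat_lit 0) (XT.lf (nat_lit 0) (nat_lit 5900222026) (nat_lit 504) (nat_lit 2607618661) (nat_lit 588) (nat_lit 5394363805) (nat_lit 101) (nat_lit 5) (nat_lit 107) (nat_lit 5) (nat_lit 108) (nat_lit 5) (nat_lit 337) (nat_lit 315) (nat_lit 212)) (XT.lf (nat_lit 0) (nat_lit 9868380725) (nat_lit 588) (nat_lit 2353635806) (nat_lit 84) (nat_lit 1927311028) (nat_lit 101) (nat_lit 5) (nat_lit 108) (nat_lit 5) (nat_lit 102) (nat_lit 5) (nat_lit 338) (nat_lit 315) (nat_lit 211))) (XT.nd (nat_lit 52076) (nat_lit 0) (nat_lit 2772) (XT.lf (nat_lit 0) (nat_lit 3501021261) (nat_lit 588) (nat_lit 7817899117) (nat_lit 672) (nat_lit 3083757814) (nat_lit 94) (nat_lit 5) (nat_lit 101) (nat_lit 5) (nat_lit 102) (nat_lit 5) (nat_lit 339) (nat_lit 315) (nat_lit 210)) (XT.nd (nat_lit 94) (nat_lit 0) (nat_lit 0) (XT.lf (nat_lit 0) (nat_lit 686276124) (nat_lit 1092) (nat_lit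 2199885889) (nat_lit 1092) (nat_lit 2199885889) (nat_lit 127) (nat_lit 3) (nat_lit 140) (nat_lit 3) (nat_lit 140) (nat_lit 5) (nat_lit 316) (nat_lit 316) (nat_lit 232)) (XT.lf (nat_lit 0) (nat_lit 1981090511) (nat_lit 1092) (nat_lit 450473340) (nat_lit 1092) (nat_lit 7877673358) (nat_lit 127) (nat_lit 3) (nat_lit 140) (nat_lit 3) (nat_lit 140) (nat_lit 5) (nat_lit 317) (nat_lit 316) (nat_lit 231))))))))
noncomputable def xc58 : XT := (XT.nd (nat_lit 1504) (nat_lit 1512) (nat_lit 0) (XT.nd (nat_lit 752) (nat_lit 756) (nat_lit 0) (XT.nd (nat_lit 376) (nat_lit 0) (nat_lit 84) (XT.nd (nat_lit 188) (nat_lit 0) (nat_lit 0) (XT.nd (nat_lit 94) (nat_lit 0) (nat_lit 0) (XT.lf (nat_lit 0) (nat_lit 2631900985) (nat_lit 1008) (nat_lit 6777641763) (nat_lit 1092) (nat_lit 1040455138) (nat_lit 128) (nat_lit 5) (nat_lit 140) (nat_lit 5) (nat_lit 141) (nat_lit 5) (nat_lit 318) (nat_lit 316) (nat_lit 230)) (XT.lf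 (nat_lit 0) (nat_lit 3309541679) (nat_lit 1008) (nat_lit 2700386791) (nat_lit 1092) (nat_lit 4585078075) (nat_lit 128) (nat_lit 5) (nat_lit 140) (nat_lit 5) (nat_lit 141) (nat_lit 5) (nat_lit 319) (nat_lit 316) (nat_lit 229))) (XT.nd (nat_lit 94) (nat_lit 0) (nat_lit 84) (XT.lf (nat_lit 84) (nat_lit 1521268998) (nat_lit 0) (nat_lit 2479737708) (nat_lit 1092) (nat_lit 6743814408) (nat_lit 129) (nat_lit 5) (nat_lit 128) (nat_lit 5) (nat_lit 141) (nat_lit 5) (nat_lit 320) (nat_lit 316) (nat_lit 228)) (XT.lf (nat_lit 0) (nat_lit 4732251411) (nat_lit 1008) (nat_lit 4992524326) (nat_lit 1092) (nat_lit 1174020862) (nat_lit 129) (nat_lit 5) (nat_lit 141) (nat_lit 5) (nat_lit 142) (nat_lit 5) (nat_lit 321) (nat_lit 316) (nat_lit 227)))) (XT.nd (nat_lit 188) (nat_lit 0) (nat_lit 84) (XT.nd (nat_lit 94) (nat_lit 0) (nat_lit 0) (XT.lf (nat_lit 0) (nat_lit 5490540395) (nat_lit 1008) (nat_lit 668661202) (nat_lit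 1092) (nat_lit 4898290853) (nat_lit 129) (nat_lit 5) (nat_lit 141) (nat_lit 5) (nat_lit 142) (nat_lit 5) (nat_lit 322) (nat_lit 316) (nat_lit 226)) (XT.lf (nat_lit 84) (nat_lit 3854322870) (nat_lit 0) (nat_lit 2435893647) (nat_lit 1092) (nat_lit 4930417352) (nat_lit 130) (nat_lit 5) (nat_lit 129) (nat_lit 5) (nat_lit 142) (nat_lit 5) (nat_lit 323) (nat_lit 316) (nat_lit 225))) (XT.nd (nat_lit 94) (nat_lit 0) (nat_lit 0) (XT.lf (nat_lit 0) (nat_lit 7115856726) (nat_lit 1008) (nat_lit 2884124141) (nat_lit 1092) (nat_lit 1388893276) (nat_lit 130) (nat_lit 5) (nat_lit 142) (nat_lit 5) (nat_lit 143) (nat_lit 5) (nat_lit 324) (nat_lit 316) (nat_lit 224)) (XT.lf (nat_lit 84) (nat_lit 1734220215) (nat_lit 0) (nat_lit 6255790816) (nat_lit 1092) (nat_lit 3571683865) (nat_lit 131) (nat_lit 5) (nat_lit 130) (nat_lit 5) (nat_lit 143) (nat_lit 5) (nat_lit 325) (nat_lit 316) (nat_lit 223))))) (XT.nd (nat_lit 376)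 (nat_lit 924) (nat_lit 0) (XT.nd (nat_lit 188) (nat_lit 0) (nat_lit 84) (XT.nd (nat_lit 94) (nat_lit 0) (nat_lit 84) (XT.lf (nat_lit 84) (nat_lit 6544187425) (nat_lit 0) (nat_lit 2358434523) (nat_lit 1092) (nat_lit 2836972308) (nat_lit 131) (nat_lit 5) (nat_lit 130) (nat_lit 5) (nat_lit 143) (nat_lit 5) (nat_lit 326) (nat_lit 316) (nat_lit 222)) (XT.lf (nat_lit 0) (nat_lit 9841864079) (nat_lit 1008) (nat_lit 449208968) (nat_lit 1092) (nat_lit 1632057955) (nat_lit 131) (nat_lit 5) (nat_lit 143) (nat_lit 5) (nat_lit 144) (nat_lit 5) (nat_lit 327) (nat_lit 316) (nat_lit 221))) (XT.nd (nat_lit 94) (nat_lit 0) (nat_lit 0) (XT.lf (nat_lit 84) (nat_lit 4498016394) (nat_lit 0) (nat_lit 6363368855) (nat_lit 1092) (nat_lit 1249455015) (nat_lit 132) (nat_lit 5) (nat_lit 131) (nat_lit 5) (nat_lit 144) (nat_lit 5) (nat_lit 328) (nat_lit 316) (nat_lit 220)) (XT.lf (nat_lit 84) (nat_lit 9595647983) (nat_lit 0)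 (nat_lit 2304377603) (nat_lit 1092) (nat_lit 404796839) (nat_lit 132) (nat_lit 5) (nat_lit 131) (nat_lit 5) (nat_lit 144) (nat_lit 5) (nat_lit 329) (nat_lit 316) (nat_lit 219)))) (XT.nd (nat_lit 188) (nat_lit 0) (nat_lit 0) (XT.nd (nat_lit 94) (nat_lit 0) (nat_lit 0) (XT.lf (nat_lit 0) (nat_lit 482332334) (nat_lit 1092) (nat_lit 10146270948) (nat_lit 1176) (nat_lit 1875338349) (nat_lit 119) (nat_lit 5) (nat_lit 132) (nat_lit 5) (nat_lit 133) (nat_lit 5) (nat_lit 330) (nat_lit 316) (nat_lit 218)) (XT.lf (nat_lit 0) (nat_lit 1424223301) (nat_lit 1092) (nat_lit 5110336099) (nat_lit 1176) (nat_lit 6173501032) (nat_lit 119) (nat_lit 5) (nat_lit 132) (nat_lit 5) (nat_lit 133) (nat_lit 5) (nat_lit 331) (nat_lit 316) (nat_lit 217))) (XT.nd (nat_lit 94) (nat_lit 0) (nat_lit 84) (XT.lf (nat_lit 84) (nat_lit 70521973) (nat_lit 0) (nat_lit 2309519175) (nat_lit 1176) (nat_lit 10538998354) (nat_lit 120) (nat_lit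 5) (nat_lit 119) (nat_lit 5) (nat_lit 133) (nat_lit 5) (nat_lit 332) (nat_lit 316) (nat_lit 216)) (XT.lf (nat_lit 0) (nat_lit 3424093958) (nat_lit 1092) (nat_lit 7648485755) (nat_lit 84) (nat_lit 2062219849) (nat_lit 120) (nat_lit 5) (nat_lit 133) (nat_lit 5) (nat_lit 121) (nat_lit 5) (nat_lit 333) (nat_lit 316) (nat_lit 215)))))) (XT.nd (nat_lit 52828) (nat_lit 0) (nat_lit 2268) (XT.nd (nat_lit 376) (nat_lit 0) (nat_lit 0) (XT.nd (nat_lit 188) (nat_lit 504) (nat_lit 0) (XT.nd (nat_lit 94) (nat_lit 1092) (nat_lit 0) (XT.lf (nat_lit 0) (nat_lit 4509018043) (nat_lit 1092) (nat_lit 2323537804) (nat_lit 84) (nat_lit 6524484318) (nat_lit 120) (nat_lit 5) (nat_lit 133) (nat_lit 5) (nat_lit 121) (nat_lit 5) (nat_lit 334) (nat_lit 316) (nat_lit 214)) (XT.lf (nat_lit 0) (nat_lit 3219057279) (nat_lit 1092) (nat_lit 2425790120) (nat_lit 1176) (nat_lit 7940841361) (nat_lit 107) (nat_lit 5) (nat_lit 120) (nat_lit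 5) (nat_lit 121) (nat_lit 5) (nat_lit 335) (nat_lit 316) (nat_lit 213))) (XT.nd (nat_lit 94) (nat_lit 504) (nat_lit 0) (XT.lf (nat_lit 0) (nat_lit 6847076219) (nat_lit 1176) (nat_lit 4871875081) (nat_lit 84) (nat_lit 2101559669) (nat_lit 107) (nat_lit 5) (nat_lit 121) (nat_lit 5) (nat_lit 108) (nat_lit 5) (nat_lit 336) (nat_lit 316) (nat_lit 212)) (XT.lf (nat_lit 0) (nat_lit 771659752) (nat_lit 504) (nat_lit 7333491033) (nat_lit 588) (nat_lit 5956936791) (nat_lit 101) (nat_lit 5) (nat_lit 107) (nat_lit 5) (nat_lit 108) (nat_lit 5) (nat_lit 337) (nat_lit 316) (nat_lit 211)))) (XT.nd (nat_lit 52264) (nat_lit 0) (nat_lit 2184) (XT.nd (nat_lit 94) (nat_lit 0) (nat_lit 0) (XT.lf (nat_lit 0) (nat_lit 6681253731) (nat_lit 504) (nat_lit 2758232734) (nat_lit 588) (nat_lit 4870560766) (nat_lit 101) (nat_lit 5) (nat_lit 107) (nat_lit 5) (nat_lit 108) (nat_lit 5) (nat_lit 338) (nat_lit 316) (nat_lit 210)) (XT.lf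 (nat_lit 0) (nat_lit 10821449423) (nat_lit 588) (nat_lit 1823356395) (nat_lit 84) (nat_lit 1920741447) (nat_lit 101) (nat_lit 5) (nat_lit 108) (nat_lit 5) (nat_lit 102) (nat_lit 5) (nat_lit 339) (nat_lit 316) (nat_lit 209))) (XT.nd (nat_lit 94) (nat_lit 0) (nat_lit 0) (XT.lf (nat_lit 0) (nat_lit 1288988657) (nat_lit 1092) (nat_lit 1967202135) (nat_lit 1092) (nat_lit 1967202135) (nat_lit 127) (nat_lit 3) (nat_lit 140) (nat_lit 3) (nat_lit 140) (nat_lit 5) (nat_lit 317) (nat_lit 317) (nat_lit 230)) (XT.lf (nat_lit 84) (nat_lit 121680336) (nat_lit 0) (nat_lit 3049941777) (nat_lit 1092) (nat_lit 7417741216) (nat_lit 128) (nat_lit 5) (nat_lit 127) (nat_lit 3) (nat_lit 140) (nat_lit 5) (nat_lit 318) (nat_lit 317) (nat_lit 229))))) (XT.nd (nat_lit 376) (nat_lit 0) (nat_lit 84) (XT.nd (nat_lit 188) (nat_lit 0) (nat_lit 0) (XT.nd (nat_lit 94) (nat_lit 0) (nat_lit 0) (XT.lf (nat_lit 0) (nat_lit 3808040143)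 (nat_lit 1008) (nat_lit 6366397858) (nat_lit 1092) (nat_lit 561255212) (nat_lit 128) (nat_lit 5) (nat_lit 140) (nat_lit 5) (nat_lit 141) (nat_lit 5) (nat_lit 319) (nat_lit 317) (nat_lit 228)) (XT.lf (nat_lit 0) (nat_lit 4473776877) (nat_lit 1008) (nat_lit 2181430692) (nat_lit 1092) (nat_lit 4231139806) (nat_lit 128) (nat_lit 5) (nat_lit 140) (nat_lit 5) (nat_lit 141) (nat_lit 5) (nat_lit 320) (nat_lit 317) (nat_lit 227))) (XT.nd (nat_lit 94) (nat_lit 0) (nat_lit 84) (XT.lf (nat_lit 84) (nat_lit 2164994953) (nat_lit 0) (nat_lit 2995679119) (nat_lit 1092) (nat_lit 5881064317) (nat_lit 129) (nat_lit 5) (nat_lit 128) (nat_lit 5) (nat_lit 141) (nat_lit 5) (nat_lit 321) (nat_lit 317) (nat_lit 226)) (XT.lf (nat_lit 0) (nat_lit 5879223304) (nat_lit 1008) (nat_lit 4529354249) (nat_lit 1092) (nat_lit 793128148) (nat_lit 129) (nat_lit 5) (nat_lit 141) (nat_lit 5) (nat_lit 142) (nat_lit 5) (nat_lit 322) (nat_lit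 317) (nat_lit 225)))) (XT.nd (nat_lit 188) (nat_lit 0) (nat_lit 84) (XT.nd (nat_lit 94) (nat_lit 0) (nat_lit 0) (XT.lf (nat_lit 0) (nat_lit 6630943169) (nat_lit 1008) (nat_lit 90031473) (nat_lit 1092) (nat_lit 4645397461) (nat_lit 129) (nat_lit 5) (nat_lit 141) (nat_lit 5) (nat_lit 142) (nat_lit 5) (nat_lit 323) (nat_lit 317) (nat_lit 224)) (XT.lf (nat_lit 84) (nat_lit 4567097141) (nat_lit 0) (nat_lit 2865025871) (nat_lit 1092) (nat_lit 4103284824) (nat_lit 130) (nat_lit 5) (nat_lit 129) (nat_lit 5) (nat_lit 142) (nat_lit 5) (nat_lit 324) (nat_lit 317) (nat_lit 223))) (XT.nd (nat_lit 94) (nat_lit 0) (nat_lit 0) (XT.lf (nat_lit 0) (nat_lit 8251484010) (nat_lit 1008) (nat_lit 2362606775) (nat_lit 1092) (nat_lit 1095872465) (nat_lit 130) (nat_lit 5) (nat_lit 142) (nat_lit 5) (nat_lit 143) (nat_lit 5) (nat_lit 325) (nat_lit 317) (nat_lit 222)) (XT.nd (nat_lit 94) (nat_lit 0) (nat_lit 0) (XT.lf (nat_lit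 84) (nat_lit 2392721187) (nat_lit 0) (nat_lit 6738501811) (nat_lit 1092) (nat_lit 2757693627) (nat_lit 131) (nat_lit 5) (nat_lit 130) (nat_lit 5) (nat_lit 143) (nat_lit 5) (nat_lit 326) (nat_lit 317) (nat_lit 221)) (XT.lf (nat_lit 84) (nat_lit 7333614116) (nat_lit 0) (nat_lit 2711644422) (nat_lit 1092) (nat_lit 2028010169) (nat_lit 131) (nat_lit 5) (nat_lit 130) (nat_lit 5) (nat_lit 143) (nat_lit 5) (nat_lit 327) (nat_lit 317) (nat_lit 220))))))))
noncomputable def xc59 : XT := (XT.nd (nat_lit 53768) (nat_lit 0) (nat_lit 504) (XT.nd (nat_lit 752) (nat_lit 1428) (nat_lit 0) (XT.nd (nat_lit 376) (nat_lit 0) (nat_lit 84) (XT.nd (nat_lit 188) (nat_lit 1092) (nat_lit 0) (XT.nd (nat_lit 94) (nat_lit 0) (nat_lit 0) (XT.lf (nat_lit 84) (nat_lit 140658246) (nat_lit 0) (nat_lit 10845600711) (nat_lit 1092) (nat_lit 1277186069) (nat_lit 132) (nat_lit 5) (nat_lit 131) (nat_lit 5) (nat_lit 144) (nat_lit 5) (nat_lit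 328) (nat_lit 317) (nat_lit 219)) (XT.lf (nat_lit 84) (nat_lit 5232329478) (nat_lit 0) (nat_lit 6784367747) (nat_lit 1092) (nat_lit 441016149) (nat_lit 132) (nat_lit 5) (nat_lit 131) (nat_lit 5) (nat_lit 144) (nat_lit 5) (nat_lit 329) (nat_lit 317) (nat_lit 218))) (XT.nd (nat_lit 94) (nat_lit 0) (nat_lit 84) (XT.lf (nat_lit 0) (nat_lit 396206924) (nat_lit 1092) (nat_lit 2192478029) (nat_lit 1176) (nat_lit 10069758507) (nat_lit 118) (nat_lit 5) (nat_lit 131) (nat_lit 5) (nat_lit 132) (nat_lit 5) (nat_lit 330) (nat_lit 317) (nat_lit 217)) (XT.lf (nat_lit 0) (nat_lit 1282130149) (nat_lit 1092) (nat_lit 9841059053) (nat_lit 1176) (nat_lit 1741137189) (nat_lit 119) (nat_lit 5) (nat_lit 132) (nat_lit 5) (nat_lit 133) (nat_lit 5) (nat_lit 331) (nat_lit 317) (nat_lit 216)))) (XT.nd (nat_lit 188) (nat_lit 0) (nat_lit 84) (XT.nd (nat_lit 94) (nat_lit 0) (nat_lit 0) (XT.lf (nat_lit 0) (nat_lit 2229621082) (nat_lit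 1092) (nat_lit 4667644692) (nat_lit 1176) (nat_lit 6178326074) (nat_lit 119) (nat_lit 5) (nat_lit 132) (nat_lit 5) (nat_lit 133) (nat_lit 5) (nat_lit 332) (nat_lit 317) (nat_lit 215)) (XT.lf (nat_lit 84) (nat_lit 667734264) (nat_lit 0) (nat_lit 2530348661) (nat_lit 1176) (nat_lit 10095639707) (nat_lit 120) (nat_lit 5) (nat_lit 119) (nat_lit 5) (nat_lit 133) (nat_lit 5) (nat_lit 333) (nat_lit 317) (nat_lit 214))) (XT.nd (nat_lit 94) (nat_lit 0) (nat_lit 0) (XT.lf (nat_lit 0) (nat_lit 4250687114) (nat_lit 1092) (nat_lit 7281986846) (nat_lit 84) (nat_lit 1984317771) (nat_lit 120) (nat_lit 5) (nat_lit 133) (nat_lit 5) (nat_lit 121) (nat_lit 5) (nat_lit 334) (nat_lit 317) (nat_lit 213)) (XT.lf (nat_lit 0) (nat_lit 5347581544) (nat_lit 1092) (nat_lit 1810114549) (nat_lit 84) (nat_lit 6589176995) (nat_lit 120) (nat_lit 5) (nat_lit 133) (nat_lit 5) (nat_lit 121) (nat_lit 5) (nat_lit 335) (nat_lit 317) (nat_lit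 212))))) (XT.nd (nat_lit 52546) (nat_lit 0) (nat_lit 2184) (XT.nd (nat_lit 188) (nat_lit 504) (nat_lit 0) (XT.nd (nat_lit 94) (nat_lit 0) (nat_lit 0) (XT.lf (nat_lit 0) (nat_lit 3898373796) (nat_lit 1092) (nat_lit 2604985818) (nat_lit 1176) (nat_lit 7479800662) (nat_lit 107) (nat_lit 5) (nat_lit 120) (nat_lit 5) (nat_lit 121) (nat_lit 5) (nat_lit 336) (nat_lit 317) (nat_lit 211)) (XT.lf (nat_lit 0) (nat_lit 7721304826) (nat_lit 1176) (nat_lit 4436829268) (nat_lit 84) (nat_lit 2067871053) (nat_lit 107) (nat_lit 5) (nat_lit 121) (nat_lit 5) (nat_lit 108) (nat_lit 5) (nat_lit 337) (nat_lit 317) (nat_lit 210))) (XT.nd (nat_lit 94) (nat_lit 0) (nat_lit 0) (XT.lf (nat_lit 0) (nat_lit 1375721672) (nat_lit 504) (nat_lit 7628509075) (nat_lit 588) (nat_lit 5471351282) (nat_lit 101) (nat_lit 5) (nat_lit 107) (nat_lit 5) (nat_lit 108) (nat_lit 5) (nat_lit 338) (nat_lit 317) (nat_lit 209)) (XT.lf (nat_lit 0)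 (nat_lit 7451069462) (nat_lit 504) (nat_lit 2909382779) (nat_lit 588) (nat_lit 4371450623) (nat_lit 101) (nat_lit 5) (nat_lit 107) (nat_lit 5) (nat_lit 108) (nat_lit 5) (nat_lit 339) (nat_lit 317) (nat_lit 208)))) (XT.nd (nat_lit 188) (nat_lit 0) (nat_lit 84) (XT.nd (nat_lit 94) (nat_lit 0) (nat_lit 0) (XT.lf (nat_lit 0) (nat_lit 1875945712) (nat_lit 1092) (nat_lit 1745126835) (nat_lit 1092) (nat_lit 1745126835) (nat_lit 127) (nat_lit 3) (nat_lit 140) (nat_lit 3) (nat_lit 140) (nat_lit 5) (nat_lit 318) (nat_lit 318) (nat_lit 228)) (XT.lf (nat_lit 84) (nat_lit 685838131) (nat_lit 0) (nat_lit 3650765995) (nat_lit 1092) (nat_lit 6543769404) (nat_lit 128) (nat_lit 5) (nat_lit 127) (nat_lit 3) (nat_lit 140) (nat_lit 5) (nat_lit 319) (nat_lit 318) (nat_lit 227))) (XT.nd (nat_lit 94) (nat_lit 0) (nat_lit 0) (XT.lf (nat_lit 0) (nat_lit 4955807531) (nat_lit 1008) (nat_lit 5979209064) (nat_lit 1092) (nat_lit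 97494386) (nat_lit 128) (nat_lit 5) (nat_lit 140) (nat_lit 5) (nat_lit 141) (nat_lit 5) (nat_lit 320) (nat_lit 318) (nat_lit 226)) (XT.nd (nat_lit 94) (nat_lit 0) (nat_lit 0) (XT.lf (nat_lit 0) (nat_lit 5611220647) (nat_lit 1008) (nat_lit 1682084018) (nat_lit 1092) (nat_lit 3895612864) (nat_lit 128) (nat_lit 5) (nat_lit 140) (nat_lit 5) (nat_lit 141) (nat_lit 5) (nat_lit 321) (nat_lit 318) (nat_lit 225)) (XT.lf (nat_lit 84) (nat_lit 2793340750) (nat_lit 0) (nat_lit 3501607874) (nat_lit 1092) (nat_lit 5055054015) (nat_lit 129) (nat_lit 5) (nat_lit 128) (nat_lit 5) (nat_lit 141) (nat_lit 5) (nat_lit 322) (nat_lit 318) (nat_lit 224))))))) (XT.nd (nat_lit 752) (nat_lit 924) (nat_lit 0) (XT.nd (nat_lit 376) (nat_lit 924) (nat_lit 0) (XT.nd (nat_lit 188) (nat_lit 0) (nat_lit 0) (XT.nd (nat_lit 94) (nat_lit 0) (nat_lit 0) (XT.lf (nat_lit 0) (nat_lit 7002503496) (nat_lit 1008) (nat_lit 4088427445) (nat_lit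 1092) (nat_lit 425144403) (nat_lit 129) (nat_lit 5) (nat_lit 141) (nat_lit 5) (nat_lit 142) (nat_lit 5) (nat_lit 323) (nat_lit 318) (nat_lit 223)) (XT.lf (nat_lit 84) (nat_lit 480720203) (nat_lit 0) (nat_lit 7273280658) (nat_lit 1092) (nat_lit 3932686441) (nat_lit 130) (nat_lit 5) (nat_lit 129) (nat_lit 5) (nat_lit 142) (nat_lit 5) (nat_lit 324) (nat_lit 318) (nat_lit 222))) (XT.nd (nat_lit 94) (nat_lit 0) (nat_lit 84) (XT.lf (nat_lit 84) (nat_lit 5266825817) (nat_lit 0) (nat_lit 3286515703) (nat_lit 1092) (nat_lit 3308556812) (nat_lit 130) (nat_lit 5) (nat_lit 129) (nat_lit 5) (nat_lit 142) (nat_lit 5) (nat_lit 325) (nat_lit 318) (nat_lit 221)) (XT.lf (nat_lit 0) (nat_lit 9368116608) (nat_lit 1008) (nat_lit 1861108518) (nat_lit 1092) (nat_lit 813674395) (nat_lit 130) (nat_lit 5) (nat_lit 142) (nat_lit 5) (nat_lit 143) (nat_lit 5) (nat_lit 326) (nat_lit 318) (nat_lit 220)))) (XT.nd (nat_lit 188)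 (nat_lit 1008) (nat_lit 0) (XT.nd (nat_lit 94) (nat_lit 0) (nat_lit 0) (XT.lf (nat_lit 84) (nat_lit 3035815894) (nat_lit 0) (nat_lit 7219071826) (nat_lit 1092) (nat_lit 1973241992) (nat_lit 131) (nat_lit 5) (nat_lit 130) (nat_lit 5) (nat_lit 143) (nat_lit 5) (nat_lit 327) (nat_lit 318) (nat_lit 219)) (XT.lf (nat_lit 84) (nat_lit 8112770267) (nat_lit 0) (nat_lit 3059213118) (nat_lit 1092) (nat_lit 1247095616) (nat_lit 131) (nat_lit 5) (nat_lit 130) (nat_lit 5) (nat_lit 143) (nat_lit 5) (nat_lit 328) (nat_lit 318) (nat_lit 218))) (XT.nd (nat_lit 94) (nat_lit 1092) (nat_lit 0) (XT.lf (nat_lit 84) (nat_lit 722006601) (nat_lit 0) (nat_lit 11398821566) (nat_lit 1092) (nat_lit 495079544) (nat_lit 132) (nat_lit 5) (nat_lit 131) (nat_lit 5) (nat_lit 144) (nat_lit 5) (nat_lit 329) (nat_lit 318) (nat_lit 217)) (XT.lf (nat_lit 0) (nat_lit 335408194) (nat_lit 1092) (nat_lit 6866256261) (nat_lit 1176) (nat_lit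 5615261659) (nat_lit 118) (nat_lit 5) (nat_lit 131) (nat_lit 5) (nat_lit 132) (nat_lit 5) (nat_lit 330) (nat_lit 318) (nat_lit 216))))) (XT.nd (nat_lit 376) (nat_lit 924) (nat_lit 0) (XT.nd (nat_lit 188) (nat_lit 0) (nat_lit 84) (XT.nd (nat_lit 94) (nat_lit 0) (nat_lit 84) (XT.lf (nat_lit 0) (nat_lit 1165943172) (nat_lit 1092) (nat_lit 1699238274) (nat_lit 1176) (nat_lit 10159372888) (nat_lit 118) (nat_lit 5) (nat_lit 131) (nat_lit 5) (nat_lit 132) (nat_lit 5) (nat_lit 331) (nat_lit 318) (nat_lit 215)) (XT.lf (nat_lit 0) (nat_lit 2060233951) (nat_lit 1092) (nat_lit 9563094225) (nat_lit 1176) (nat_lit 1614168222) (nat_lit 119) (nat_lit 5) (nat_lit 132) (nat_lit 5) (nat_lit 133) (nat_lit 5) (nat_lit 332) (nat_lit 318) (nat_lit 214))) (XT.nd (nat_lit 94) (nat_lit 0) (nat_lit 0) (XT.lf (nat_lit 0) (nat_lit 3014896240) (nat_lit 1092) (nat_lit 4246834733) (nat_lit 1176) (nat_lit 6194350575) (nat_lit 119)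 (nat_lit 5) (nat_lit 132) (nat_lit 5) (nat_lit 133) (nat_lit 5) (nat_lit 333) (nat_lit 318) (nat_lit 213)) (XT.lf (nat_lit 84) (nat_lit 1248215721) (nat_lit 0) (nat_lit 2749184452) (nat_lit 1176) (nat_lit 9684149363) (nat_lit 120) (nat_lit 5) (nat_lit 119) (nat_lit 5) (nat_lit 133) (nat_lit 5) (nat_lit 334) (nat_lit 318) (nat_lit 212)))) (XT.nd (nat_lit 188) (nat_lit 1092) (nat_lit 0) (XT.nd (nat_lit 94) (nat_lit 0) (nat_lit 0) (XT.lf (nat_lit 0) (nat_lit 5060231394) (nat_lit 1092) (nat_lit 6939878848) (nat_lit 84) (nat_lit 1912401615) (nat_lit 120) (nat_lit 5) (nat_lit 133) (nat_lit 5) (nat_lit 121) (nat_lit 5) (nat_lit 335) (nat_lit 318) (nat_lit 211)) (XT.lf (nat_lit 0) (nat_lit 6170750345) (nat_lit 1092) (nat_lit 1315452552) (nat_lit 84) (nat_lit 6664023435) (nat_lit 120) (nat_lit 5) (nat_lit 133) (nat_lit 5) (nat_lit 121) (nat_lit 5) (nat_lit 336) (nat_lit 318) (nat_lit 210))) (XT.nd (nat_lit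 94) (nat_lit 0) (nat_lit 0) (XT.lf (nat_lit 0) (nat_lit 4564422824) (nat_lit 1092) (nat_lit 2783576710) (nat_lit 1176) (nat_lit 7046356769) (nat_lit 107) (nat_lit 5) (nat_lit 120) (nat_lit 5) (nat_lit 121) (nat_lit 5) (nat_lit 337) (nat_lit 318) (nat_lit 209)) (XT.nd (nat_lit 52452) (nat_lit 0) (nat_lit 1680) (XT.lf (nat_lit 0) (nat_lit 8583424948) (nat_lit 1176) (nat_lit 4023011198) (nat_lit 84) (nat_lit 2038992371) (nat_lit 107) (nat_lit 5) (nat_lit 121) (nat_lit 5) (nat_lit 108) (nat_lit 5) (nat_lit 338) (nat_lit 318) (nat_lit 208)) (XT.lf (nat_lit 0) (nat_lit 2448698783) (nat_lit 1092) (nat_lit 1532933244) (nat_lit 1092) (nat_lit 1532933244) (nat_lit 127) (nat_lit 3) (nat_lit 140) (nat_lit 3) (nat_lit 140) (nat_lit 5) (nat_lit 319) (nat_lit 319) (nat_lit 226))))))))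
noncomputable def xc60 : XT := (XT.nd (nat_lit 1504) (nat_lit 924) (nat_lit 0) (XT.nd (nat_lit 752) (nat_lit 756) (nat_lit 0) (XT.nd (nat_lit 376) (nat_lit 0) (nat_lit 168) (XT.nd (nat_lit 188) (nat_lit 0) (nat_lit 84) (XT.nd (nat_lit 94) (nat_lit 0) (nat_lit 0) (XT.lf (nat_lit 84) (nat_lit 1234292213) (nat_lit 0) (nat_lit 4240228167) (nat_lit 1092) (nat_lit 5708091643) (nat_lit 128) (nat_lit 5) (nat_lit 127) (nat_lit 3) (nat_lit 140) (nat_lit 5) (nat_lit 320) (nat_lit 319) (nat_lit 225)) (XT.lf (nat_lit 84) (nat_lit 5722344978) (nat_lit 0) (nat_lit 359383893) (nat_lit 1092) (nat_lit 5258822383) (nat_lit 128) (nat_lit 5) (nat_lit 127) (nat_lit 3) (nat_lit 140) (nat_lit 5) (nat_lit 321) (nat_lit 319) (nat_lit 224))) (XT.nd (nat_lit 94) (nat_lit 0) (nat_lit 0) (XT.lf (nat_lit 0) (nat_lit 6724767104) (nat_lit 1008) (nat_lit 1200840261) (nat_lit 1092) (nat_lit 3577327569) (nat_lit 128) (nat_lit 5) (nat_lit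 140) (nat_lit 5) (nat_lit 141) (nat_lit 5) (nat_lit 322) (nat_lit 319) (nat_lit 223)) (XT.lf (nat_lit 84) (nat_lit 3407922597) (nat_lit 0) (nat_lit 3998754008) (nat_lit 1092) (nat_lit 4263162110) (nat_lit 129) (nat_lit 5) (nat_lit 128) (nat_lit 5) (nat_lit 141) (nat_lit 5) (nat_lit 323) (nat_lit 319) (nat_lit 222)))) (XT.nd (nat_lit 188) (nat_lit 0) (nat_lit 0) (XT.nd (nat_lit 94) (nat_lit 0) (nat_lit 0) (XT.lf (nat_lit 0) (nat_lit 8104866896) (nat_lit 1008) (nat_lit 3668265483) (nat_lit 1092) (nat_lit 69005799) (nat_lit 129) (nat_lit 5) (nat_lit 141) (nat_lit 5) (nat_lit 142) (nat_lit 5) (nat_lit 324) (nat_lit 319) (nat_lit 221)) (XT.lf (nat_lit 84) (nat_lit 1036988839) (nat_lit 0) (nat_lit 7821423581) (nat_lit 1092) (nat_lit 3160390369) (nat_lit 130) (nat_lit 5) (nat_lit 129) (nat_lit 5) (nat_lit 142) (nat_lit 5) (nat_lit 325) (nat_lit 319) (nat_lit 220))) (XT.nd (nat_lit 94) (nat_lit 0) (nat_lit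 84) (XT.lf (nat_lit 84) (nat_lit 5955185981) (nat_lit 0) (nat_lit 3701366868) (nat_lit 1092) (nat_lit 2543799715) (nat_lit 130) (nat_lit 5) (nat_lit 129) (nat_lit 5) (nat_lit 142) (nat_lit 5) (nat_lit 326) (nat_lit 319) (nat_lit 219)) (XT.lf (nat_lit 0) (nat_lit 10468375990) (nat_lit 1008) (nat_lit 1378106594) (nat_lit 1092) (nat_lit 541455482) (nat_lit 130) (nat_lit 5) (nat_lit 142) (nat_lit 5) (nat_lit 143) (nat_lit 5) (nat_lit 327) (nat_lit 319) (nat_lit 218))))) (XT.nd (nat_lit 376) (nat_lit 0) (nat_lit 0) (XT.nd (nat_lit 188) (nat_lit 1008) (nat_lit 0) (XT.nd (nat_lit 94) (nat_lit 0) (nat_lit 0) (XT.lf (nat_lit 84) (nat_lit 3665148411) (nat_lit 0) (nat_lit 7698447649) (nat_lit 1092) (nat_lit 1216000401) (nat_lit 131) (nat_lit 5) (nat_lit 130) (nat_lit 5) (nat_lit 143) (nat_lit 5) (nat_lit 328) (nat_lit 319) (nat_lit 217)) (XT.lf (nat_lit 84) (nat_lit 8883395364) (nat_lit 0) (nat_lit 3401948430)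 (nat_lit 1092) (nat_lit 491951416) (nat_lit 131) (nat_lit 5) (nat_lit 130) (nat_lit 5) (nat_lit 143) (nat_lit 5) (nat_lit 329) (nat_lit 319) (nat_lit 216))) (XT.nd (nat_lit 94) (nat_lit 0) (nat_lit 0) (XT.lf (nat_lit 0) (nat_lit 257310789) (nat_lit 1092) (nat_lit 11696341970) (nat_lit 1176) (nat_lit 1027204183) (nat_lit 118) (nat_lit 5) (nat_lit 131) (nat_lit 5) (nat_lit 132) (nat_lit 5) (nat_lit 330) (nat_lit 319) (nat_lit 215)) (XT.lf (nat_lit 0) (nat_lit 1080484639) (nat_lit 1092) (nat_lit 6534777931) (nat_lit 1176) (nat_lit 5573478191) (nat_lit 118) (nat_lit 5) (nat_lit 131) (nat_lit 5) (nat_lit 132) (nat_lit 5) (nat_lit 331) (nat_lit 319) (nat_lit 214)))) (XT.nd (nat_lit 188) (nat_lit 0) (nat_lit 84) (XT.nd (nat_lit 94) (nat_lit 0) (nat_lit 84) (XT.lf (nat_lit 0) (nat_lit 1914675956) (nat_lit 1092) (nat_lit 1223949312) (nat_lit 1176) (nat_lit 10264947221) (nat_lit 118) (nat_lit 5) (nat_lit 131)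 (nat_lit 5) (nat_lit 132) (nat_lit 5) (nat_lit 332) (nat_lit 319) (nat_lit 213)) (XT.lf (nat_lit 0) (nat_lit 2818724777) (nat_lit 1092) (nat_lit 9311046805) (nat_lit 1176) (nat_lit 1493980854) (nat_lit 119) (nat_lit 5) (nat_lit 132) (nat_lit 5) (nat_lit 133) (nat_lit 5) (nat_lit 333) (nat_lit 319) (nat_lit 212))) (XT.nd (nat_lit 94) (nat_lit 0) (nat_lit 0) (XT.lf (nat_lit 0) (nat_lit 3782095728) (nat_lit 1092) (nat_lit 3846475610) (nat_lit 1176) (nat_lit 6221267214) (nat_lit 119) (nat_lit 5) (nat_lit 132) (nat_lit 5) (nat_lit 133) (nat_lit 5) (nat_lit 334) (nat_lit 319) (nat_lit 211)) (XT.lf (nat_lit 84) (nat_lit 1813535274) (nat_lit 0) (nat_lit 2966488318) (nat_lit 1176) (nat_lit 9302813540) (nat_lit 120) (nat_lit 5) (nat_lit 119) (nat_lit 5) (nat_lit 133) (nat_lit 5) (nat_lit 335) (nat_lit 319) (nat_lit 210)))))) (XT.nd (nat_lit 53204) (nat_lit 0) (nat_lit 840) (XT.nd (nat_lit 52828) (nat_lit 0)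 (nat_lit 1680) (XT.nd (nat_lit 188) (nat_lit 1092) (nat_lit 0) (XT.nd (nat_lit 94) (nat_lit 0) (nat_lit 0) (XT.lf (nat_lit 0) (nat_lit 5854725892) (nat_lit 1092) (nat_lit 6620800206) (nat_lit 84) (nat_lit 1846159347) (nat_lit 120) (nat_lit 5) (nat_lit 133) (nat_lit 5) (nat_lit 121) (nat_lit 5) (nat_lit 336) (nat_lit 319) (nat_lit 209)) (XT.lf (nat_lit 0) (nat_lit 6980498819) (nat_lit 1092) (nat_lit 838079412) (nat_lit 84) (nat_lit 6748855767) (nat_lit 120) (nat_lit 5) (nat_lit 133) (nat_lit 5) (nat_lit 121) (nat_lit 5) (nat_lit 337) (nat_lit 319) (nat_lit 208))) (XT.nd (nat_lit 52546) (nat_lit 0) (nat_lit 1680) (XT.lf (nat_lit 0) (nat_lit 5218826275) (nat_lit 1092) (nat_lit 2961908905) (nat_lit 1176) (nat_lit 6638884024) (nat_lit 107) (nat_lit 5) (nat_lit 120) (nat_lit 5) (nat_lit 121) (nat_lit 5) (nat_lit 338) (nat_lit 319) (nat_lit 207)) (XT.lf (nat_lit 0) (nat_lit 3008726635) (nat_lit 1092) (nat_lit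 1329934615) (nat_lit 1092) (nat_lit 1329934615) (nat_lit 127) (nat_lit 3) (nat_lit 140) (nat_lit 3) (nat_lit 140) (nat_lit 5) (nat_lit 320) (nat_lit 320) (nat_lit 224)))) (XT.nd (nat_lit 188) (nat_lit 0) (nat_lit 84) (XT.nd (nat_lit 94) (nat_lit 0) (nat_lit 0) (XT.lf (nat_lit 84) (nat_lit 1768521822) (nat_lit 0) (nat_lit 4819752288) (nat_lit 1092) (nat_lit 4908022054) (nat_lit 128) (nat_lit 5) (nat_lit 127) (nat_lit 3) (nat_lit 140) (nat_lit 5) (nat_lit 321) (nat_lit 320) (nat_lit 223)) (XT.lf (nat_lit 84) (nat_lit 6380791552) (nat_lit 0) (nat_lit 805129108) (nat_lit 1092) (nat_lit 4474202396) (nat_lit 128) (nat_lit 5) (nat_lit 127) (nat_lit 3) (nat_lit 140) (nat_lit 5) (nat_lit 322) (nat_lit 320) (nat_lit 222))) (XT.nd (nat_lit 94) (nat_lit 0) (nat_lit 0) (XT.lf (nat_lit 0) (nat_lit 7817179467) (nat_lit 1008) (nat_lit 736271454) (nat_lit 1092) (nat_lit 3275181071) (nat_lit 128) (nat_lit 5) (nat_lit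 140) (nat_lit 5) (nat_lit 141) (nat_lit 5) (nat_lit 323) (nat_lit 320) (nat_lit 221)) (XT.lf (nat_lit 84) (nat_lit 4010282830) (nat_lit 0) (nat_lit 4488294450) (nat_lit 1092) (nat_lit 3502908674) (nat_lit 129) (nat_lit 5) (nat_lit 128) (nat_lit 5) (nat_lit 141) (nat_lit 5) (nat_lit 324) (nat_lit 320) (nat_lit 220))))) (XT.nd (nat_lit 376) (nat_lit 924) (nat_lit 0) (XT.nd (nat_lit 188) (nat_lit 0) (nat_lit 84) (XT.nd (nat_lit 94) (nat_lit 0) (nat_lit 84) (XT.lf (nat_lit 84) (nat_lit 8909784826) (nat_lit 0) (nat_lit 281979007) (nat_lit 1092) (nat_lit 2988290773) (nat_lit 129) (nat_lit 5) (nat_lit 128) (nat_lit 5) (nat_lit 141) (nat_lit 5) (nat_lit 325) (nat_lit 320) (nat_lit 219)) (XT.lf (nat_lit 84) (nat_lit 1578435748) (nat_lit 0) (nat_lit 8367446566) (nat_lit 1092) (nat_lit 2417118670) (nat_lit 130) (nat_lit 5) (nat_lit 129) (nat_lit 5) (nat_lit 142) (nat_lit 5) (nat_lit 326) (nat_lit 320) (nat_lit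 218))) (XT.nd (nat_lit 94) (nat_lit 0) (nat_lit 84) (XT.lf (nat_lit 84) (nat_lit 6633783415) (nat_lit 0) (nat_lit 4110540719) (nat_lit 1092) (nat_lit 1806708135) (nat_lit 130) (nat_lit 5) (nat_lit 129) (nat_lit 5) (nat_lit 142) (nat_lit 5) (nat_lit 327) (nat_lit 320) (nat_lit 217)) (XT.lf (nat_lit 0) (nat_lit 11554774744) (nat_lit 1008) (nat_lit 912157976) (nat_lit 1092) (nat_lit 278415830) (nat_lit 130) (nat_lit 5) (nat_lit 142) (nat_lit 5) (nat_lit 143) (nat_lit 5) (nat_lit 328) (nat_lit 320) (nat_lit 216)))) (XT.nd (nat_lit 188) (nat_lit 0) (nat_lit 84) (XT.nd (nat_lit 94) (nat_lit 1092) (nat_lit 0) (XT.lf (nat_lit 84) (nat_lit 4282288107) (nat_lit 0) (nat_lit 8177545409) (nat_lit 1092) (nat_lit 483760270) (nat_lit 131) (nat_lit 5) (nat_lit 130) (nat_lit 5) (nat_lit 143) (nat_lit 5) (nat_lit 329) (nat_lit 320) (nat_lit 215)) (XT.lf (nat_lit 0) (nat_lit 234756792) (nat_lit 1092) (nat_lit 3503417841)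 (nat_lit 1176) (nat_lit 9409953754) (nat_lit 117) (nat_lit 5) (nat_lit 130) (nat_lit 5) (nat_lit 131) (nat_lit 5) (nat_lit 330) (nat_lit 320) (nat_lit 214))) (XT.nd (nat_lit 94) (nat_lit 0) (nat_lit 0) (XT.lf (nat_lit 0) (nat_lit 977875969) (nat_lit 1092) (nat_lit 11530963223) (nat_lit 1176) (nat_lit 849681287) (nat_lit 118) (nat_lit 5) (nat_lit 131) (nat_lit 5) (nat_lit 132) (nat_lit 5) (nat_lit 331) (nat_lit 320) (nat_lit 213)) (XT.nd (nat_lit 94) (nat_lit 0) (nat_lit 0) (XT.lf (nat_lit 0) (nat_lit 1805142171) (nat_lit 1092) (nat_lit 6225265505) (nat_lit 1176) (nat_lit 5543184991) (nat_lit 118) (nat_lit 5) (nat_lit 131) (nat_lit 5) (nat_lit 132) (nat_lit 5) (nat_lit 332) (nat_lit 320) (nat_lit 212)) (XT.lf (nat_lit 0) (nat_lit 2644411617) (nat_lit 1092) (nat_lit 765198683) (nat_lit 1176) (nat_lit 10386195479) (nat_lit 118) (nat_lit 5) (nat_lit 131) (nat_lit 5) (nat_lit 132) (nat_lit 5) (nat_lit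 333) (nat_lit 320) (nat_lit 211))))))))
noncomputable def xc61 : XT := (XT.nd (nat_lit 54238) (nat_lit 84) (nat_lit 0) (XT.nd (nat_lit 53392) (nat_lit 168) (nat_lit 0) (XT.nd (nat_lit 53016) (nat_lit 0) (nat_lit 672) (XT.nd (nat_lit 188) (nat_lit 0) (nat_lit 0) (XT.nd (nat_lit 94) (nat_lit 0) (nat_lit 0) (XT.lf (nat_lit 0) (nat_lit 3559585075) (nat_lit 1092) (nat_lit 9083674707) (nat_lit 1176) (nat_lit 1380150489) (nat_lit 119) (nat_lit 5) (nat_lit 132) (nat_lit 5) (nat_lit 133) (nat_lit 5) (nat_lit 334) (nat_lit 320) (nat_lit 210)) (XT.lf (nat_lit 0) (nat_lit 4533171763) (nat_lit 1092) (nat_lit 3465217276) (nat_lit 1176) (nat_lit 6258797912) (nat_lit 119) (nat_lit 5) (nat_lit 132) (nat_lit 5) (nat_lit 133) (nat_lit 5) (nat_lit 335) (nat_lit 320) (nat_lit 209))) (XT.nd (nat_lit 94) (nat_lit 0) (nat_lit 84) (XT.lf (nat_lit 84) (nat_lit 2365186841) (nat_lit 0) (nat_lit 3182705329) (nat_lit 1176) (nat_lit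 8950025350) (nat_lit 120) (nat_lit 5) (nat_lit 119) (nat_lit 5) (nat_lit 133) (nat_lit 5) (nat_lit 336) (nat_lit 320) (nat_lit 208)) (XT.lf (nat_lit 0) (nat_lit 6636081962) (nat_lit 1092) (nat_lit 6323472589) (nat_lit 84) (nat_lit 1785298730) (nat_lit 120) (nat_lit 5) (nat_lit 133) (nat_lit 5) (nat_lit 121) (nat_lit 5) (nat_lit 337) (nat_lit 320) (nat_lit 207)))) (XT.nd (nat_lit 188) (nat_lit 0) (nat_lit 0) (XT.nd (nat_lit 94) (nat_lit 0) (nat_lit 0) (XT.lf (nat_lit 0) (nat_lit 3557440200) (nat_lit 1092) (nat_lit 1135481730) (nat_lit 1092) (nat_lit 1135481730) (nat_lit 127) (nat_lit 3) (nat_lit 140) (nat_lit 3) (nat_lit 140) (nat_lit 5) (nat_lit 321) (nat_lit 321) (nat_lit 222)) (XT.lf (nat_lit 84) (nat_lit 2289935600) (nat_lit 0) (nat_lit 5390701286) (nat_lit 1092) (nat_lit 4141020902) (nat_lit 128) (nat_lit 5) (nat_lit 127) (nat_lit 3) (nat_lit 140) (nat_lit 5) (nat_lit 322) (nat_lit 321) (nat_lit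 221))) (XT.nd (nat_lit 94) (nat_lit 0) (nat_lit 84) (XT.lf (nat_lit 84) (nat_lit 7031156325) (nat_lit 0) (nat_lit 1238950066) (nat_lit 1092) (nat_lit 3721389735) (nat_lit 128) (nat_lit 5) (nat_lit 127) (nat_lit 3) (nat_lit 140) (nat_lit 5) (nat_lit 323) (nat_lit 321) (nat_lit 220)) (XT.lf (nat_lit 0) (nat_lit 8891099063) (nat_lit 1008) (nat_lit 287023182) (nat_lit 1092) (nat_lit 2988133315) (nat_lit 128) (nat_lit 5) (nat_lit 140) (nat_lit 5) (nat_lit 141) (nat_lit 5) (nat_lit 324) (nat_lit 321) (nat_lit 219))))) (XT.nd (nat_lit 376) (nat_lit 924) (nat_lit 0) (XT.nd (nat_lit 188) (nat_lit 0) (nat_lit 84) (XT.nd (nat_lit 94) (nat_lit 0) (nat_lit 0) (XT.lf (nat_lit 84) (nat_lit 4601894973) (nat_lit 0) (nat_lit 4971356771) (nat_lit 1092) (nat_lit 2771946440) (nat_lit 129) (nat_lit 5) (nat_lit 128) (nat_lit 5) (nat_lit 141) (nat_lit 5) (nat_lit 325) (nat_lit 321) (nat_lit 218)) (XT.lf (nat_lit 84) (nat_lit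 9639231003) (nat_lit 0) (nat_lit 624304443) (nat_lit 1092) (nat_lit 2266618957) (nat_lit 129) (nat_lit 5) (nat_lit 128) (nat_lit 5) (nat_lit 141) (nat_lit 5) (nat_lit 326) (nat_lit 321) (nat_lit 217))) (XT.nd (nat_lit 94) (nat_lit 0) (nat_lit 0) (XT.lf (nat_lit 84) (nat_lit 2106500786) (nat_lit 0) (nat_lit 8912415953) (nat_lit 1092) (nat_lit 1700633858) (nat_lit 130) (nat_lit 5) (nat_lit 129) (nat_lit 5) (nat_lit 142) (nat_lit 5) (nat_lit 327) (nat_lit 321) (nat_lit 216)) (XT.lf (nat_lit 84) (nat_lit 7304157694) (nat_lit 0) (nat_lit 4514959278) (nat_lit 1092) (nat_lit 1095096796) (nat_lit 130) (nat_lit 5) (nat_lit 129) (nat_lit 5) (nat_lit 142) (nat_lit 5) (nat_lit 328) (nat_lit 321) (nat_lit 215)))) (XT.nd (nat_lit 188) (nat_lit 0) (nat_lit 0) (XT.nd (nat_lit 94) (nat_lit 1092) (nat_lit 0) (XT.lf (nat_lit 0) (nat_lit 12629724455) (nat_lit 1008) (nat_lit 461894342) (nat_lit 1092) (nat_lit 23796449)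 (nat_lit 130) (nat_lit 5) (nat_lit 142) (nat_lit 5) (nat_lit 143) (nat_lit 5) (nat_lit 329) (nat_lit 321) (nat_lit 214)) (XT.lf (nat_lit 0) (nat_lit 221029842) (nat_lit 1092) (nat_lit 8433916238) (nat_lit 1176) (nat_lit 4665397836) (nat_lit 117) (nat_lit 5) (nat_lit 130) (nat_lit 5) (nat_lit 131) (nat_lit 5) (nat_lit 330) (nat_lit 321) (nat_lit 213))) (XT.nd (nat_lit 94) (nat_lit 0) (nat_lit 84) (XT.lf (nat_lit 0) (nat_lit 930431772) (nat_lit 1092) (nat_lit 3135843205) (nat_lit 1176) (nat_lit 9465532047) (nat_lit 117) (nat_lit 5) (nat_lit 130) (nat_lit 5) (nat_lit 131) (nat_lit 5) (nat_lit 331) (nat_lit 321) (nat_lit 212)) (XT.nd (nat_lit 94) (nat_lit 0) (nat_lit 0) (XT.lf (nat_lit 0) (nat_lit 1678570831) (nat_lit 1092) (nat_lit 11391730026) (nat_lit 1176) (nat_lit 679056301) (nat_lit 118) (nat_lit 5) (nat_lit 131) (nat_lit 5) (nat_lit 132) (nat_lit 5) (nat_lit 332) (nat_lit 321) (nat_lit 211)) (XT.lf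 (nat_lit 0) (nat_lit 2511325347) (nat_lit 1092) (nat_lit 5936490193) (nat_lit 1176) (nat_lit 5523980946) (nat_lit 118) (nat_lit 5) (nat_lit 131) (nat_lit 5) (nat_lit 132) (nat_lit 5) (nat_lit 333) (nat_lit 321) (nat_lit 210))))))) (XT.nd (nat_lit 53486) (nat_lit 168) (nat_lit 0) (XT.nd (nat_lit 53110) (nat_lit 0) (nat_lit 756) (XT.nd (nat_lit 188) (nat_lit 0) (nat_lit 84) (XT.nd (nat_lit 94) (nat_lit 0) (nat_lit 84) (XT.lf (nat_lit 0) (nat_lit 3357061286) (nat_lit 1092) (nat_lit 321646766) (nat_lit 1176) (nat_lit 10522869014) (nat_lit 118) (nat_lit 5) (nat_lit 131) (nat_lit 5) (nat_lit 132) (nat_lit 5) (nat_lit 334) (nat_lit 321) (nat_lit 209)) (XT.lf (nat_lit 0) (nat_lit 4284705313) (nat_lit 1092) (nat_lit 8879818500) (nat_lit 1176) (nat_lit 1272276972) (nat_lit 119) (nat_lit 5) (nat_lit 132) (nat_lit 5) (nat_lit 133) (nat_lit 5) (nat_lit 335) (nat_lit 321) (nat_lit 208))) (XT.nd (nat_lit 94) (nat_lit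 0) (nat_lit 0) (XT.lf (nat_lit 0) (nat_lit 5269988255) (nat_lit 1092) (nat_lit 3101785352) (nat_lit 1176) (nat_lit 6306692440) (nat_lit 119) (nat_lit 5) (nat_lit 132) (nat_lit 5) (nat_lit 133) (nat_lit 5) (nat_lit 336) (nat_lit 321) (nat_lit 207)) (XT.lf (nat_lit 84) (nat_lit 2904594323) (nat_lit 0) (nat_lit 3398265180) (nat_lit 1176) (nat_lit 8624278645) (nat_lit 120) (nat_lit 5) (nat_lit 119) (nat_lit 5) (nat_lit 133) (nat_lit 5) (nat_lit 337) (nat_lit 321) (nat_lit 206)))) (XT.nd (nat_lit 188) (nat_lit 0) (nat_lit 0) (XT.nd (nat_lit 94) (nat_lit 0) (nat_lit 0) (XT.lf (nat_lit 0) (nat_lit 4096187215) (nat_lit 1092) (nat_lit 948960586) (nat_lit 1092) (nat_lit 948960586) (nat_lit 127) (nat_lit 3) (nat_lit 140) (nat_lit 3) (nat_lit 140) (nat_lit 5) (nat_lit 322) (nat_lit 322) (nat_lit 220)) (XT.lf (nat_lit 84) (nat_lit 2799876305) (nat_lit 0) (nat_lit 5954381364) (nat_lit 1092) (nat_lit 3404685532)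 (nat_lit 128) (nat_lit 5) (nat_lit 127) (nat_lit 3) (nat_lit 140) (nat_lit 5) (nat_lit 323) (nat_lit 322) (nat_lit 219))) (XT.nd (nat_lit 94) (nat_lit 0) (nat_lit 84) (XT.lf (nat_lit 84) (nat_lit 7674876488) (nat_lit 0) (nat_lit 1662001881) (nat_lit 1092) (nat_lit 2998045719) (nat_lit 128) (nat_lit 5) (nat_lit 127) (nat_lit 3) (nat_lit 140) (nat_lit 5) (nat_lit 324) (nat_lit 322) (nat_lit 218)) (XT.lf (nat_lit 84) (nat_lit 151237205) (nat_lit 0) (nat_lit 9799316928) (nat_lit 1092) (nat_lit 2565466327) (nat_lit 129) (nat_lit 5) (nat_lit 128) (nat_lit 5) (nat_lit 141) (nat_lit 5) (nat_lit 325) (nat_lit 322) (nat_lit 217))))) (XT.nd (nat_lit 376) (nat_lit 1008) (nat_lit 0) (XT.nd (nat_lit 188) (nat_lit 0) (nat_lit 84) (XT.nd (nat_lit 94) (nat_lit 0) (nat_lit 0) (XT.lf (nat_lit 84) (nat_lit 5184168506) (nat_lit 0) (nat_lit 5449022746) (nat_lit 1092) (nat_lit 2068052503) (nat_lit 129) (nat_lit 5) (nat_lit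 128) (nat_lit 5) (nat_lit 141) (nat_lit 5) (nat_lit 326) (nat_lit 322) (nat_lit 216)) (XT.lf (nat_lit 84) (nat_lit 10364443661) (nat_lit 0) (nat_lit 957483210) (nat_lit 1092) (nat_lit 1570808222) (nat_lit 129) (nat_lit 5) (nat_lit 128) (nat_lit 5) (nat_lit 141) (nat_lit 5) (nat_lit 327) (nat_lit 322) (nat_lit 215))) (XT.nd (nat_lit 94) (nat_lit 0) (nat_lit 0) (XT.lf (nat_lit 84) (nat_lit 2622555940) (nat_lit 0) (nat_lit 9457364084) (nat_lit 1092) (nat_lit 1008814912) (nat_lit 130) (nat_lit 5) (nat_lit 129) (nat_lit 5) (nat_lit 142) (nat_lit 5) (nat_lit 328) (nat_lit 322) (nat_lit 214)) (XT.lf (nat_lit 84) (nat_lit 7967787000) (nat_lit 0) (nat_lit 4915508115) (nat_lit 1092) (nat_lit 406892909) (nat_lit 130) (nat_lit 5) (nat_lit 129) (nat_lit 5) (nat_lit 142) (nat_lit 5) (nat_lit 329) (nat_lit 322) (nat_lit 213)))) (XT.nd (nat_lit 188) (nat_lit 0) (nat_lit 84) (XT.nd (nat_lit 94) (nat_lit 0) (nat_lit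 84) (XT.lf (nat_lit 0) (nat_lit 195416835) (nat_lit 1092) (nat_lit 30254655) (nat_lit 1176) (nat_lit 13272634273) (nat_lit 116) (nat_lit 5) (nat_lit 129) (nat_lit 5) (nat_lit 130) (nat_lit 5) (nat_lit 330) (nat_lit 322) (nat_lit 212)) (XT.lf (nat_lit 0) (nat_lit 895580621) (nat_lit 1092) (nat_lit 8233504800) (nat_lit 1176) (nat_lit 4580994837) (nat_lit 117) (nat_lit 5) (nat_lit 130) (nat_lit 5) (nat_lit 131) (nat_lit 5) (nat_lit 331) (nat_lit 322) (nat_lit 211))) (XT.nd (nat_lit 94) (nat_lit 0) (nat_lit 84) (XT.lf (nat_lit 0) (nat_lit 1606897712) (nat_lit 1092) (nat_lit 2785078746) (nat_lit 1176) (nat_lit 9536819668) (nat_lit 117) (nat_lit 5) (nat_lit 130) (nat_lit 5) (nat_lit 131) (nat_lit 5) (nat_lit 332) (nat_lit 322) (nat_lit 210)) (XT.nd (nat_lit 94) (nat_lit 0) (nat_lit 0) (XT.lf (nat_lit 0) (nat_lit 2361279435) (nat_lit 1092) (nat_lit 11277600580) (nat_lit 1176) (nat_lit 514808521) (nat_lit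 118) (nat_lit 5) (nat_lit 131) (nat_lit 5) (nat_lit 132) (nat_lit 5) (nat_lit 333) (nat_lit 322) (nat_lit 209)) (XT.lf (nat_lit 0) (nat_lit 3200886335) (nat_lit 1092) (nat_lit 5667298231) (nat_lit 1176) (nat_lit 5515497367) (nat_lit 118) (nat_lit 5) (nat_lit 131) (nat_lit 5) (nat_lit 132) (nat_lit 5) (nat_lit 334) (nat_lit 322) (nat_lit 208))))))))
noncomputable def xc62 : XT := (XT.nd (nat_lit 107442) (nat_lit 0) (nat_lit 0) (XT.nd (nat_lit 53674) (nat_lit 168) (nat_lit 0) (XT.nd (nat_lit 53298) (nat_lit 0) (nat_lit 756) (XT.nd (nat_lit 53110) (nat_lit 0) (nat_lit 756) (XT.nd (nat_lit 94) (nat_lit 0) (nat_lit 84) (XT.lf (nat_lit 84) (nat_lit 110198122) (nat_lit 0) (nat_lit 3945342315) (nat_lit 1176) (nat_lit 10565650033) (nat_lit 119) (nat_lit 5) (nat_lit 118) (nat_lit 5) (nat_lit 132) (nat_lit 5) (nat_lit 335) (nat_lit 322) (nat_lit 207)) (XT.lf (nat_lit 0) (nat_lit 4995890215) (nat_lit 1092) (nat_lit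 8698396792) (nat_lit 1176) (nat_lit 1169983118) (nat_lit 119) (nat_lit 5) (nat_lit 132) (nat_lit 5) (nat_lit 133) (nat_lit 5) (nat_lit 336) (nat_lit 322) (nat_lit 206))) (XT.nd (nat_lit 94) (nat_lit 0) (nat_lit 0) (XT.lf (nat_lit 0) (nat_lit 4626256591) (nat_lit 1092) (nat_lit 769790206) (nat_lit 1092) (nat_lit 769790206) (nat_lit 127) (nat_lit 3) (nat_lit 140) (nat_lit 3) (nat_lit 140) (nat_lit 5) (nat_lit 323) (nat_lit 323) (nat_lit 218)) (XT.lf (nat_lit 84) (nat_lit 3299625251) (nat_lit 0) (nat_lit 6512046102) (nat_lit 1092) (nat_lit 2696741842) (nat_lit 128) (nat_lit 5) (nat_lit 127) (nat_lit 3) (nat_lit 140) (nat_lit 5) (nat_lit 324) (nat_lit 323) (nat_lit 217)))) (XT.nd (nat_lit 188) (nat_lit 0) (nat_lit 84) (XT.nd (nat_lit 94) (nat_lit 0) (nat_lit 84) (XT.lf (nat_lit 84) (nat_lit 8313333819) (nat_lit 0) (nat_lit 2075385158) (nat_lit 1092) (nat_lit 2301956095) (nat_lit 128) (nat_lit 5) (nat_lit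 127) (nat_lit 3) (nat_lit 140) (nat_lit 5) (nat_lit 325) (nat_lit 323) (nat_lit 216)) (XT.lf (nat_lit 84) (nat_lit 582322055) (nat_lit 0) (nat_lit 10416921082) (nat_lit 1092) (nat_lit 1878919860) (nat_lit 129) (nat_lit 5) (nat_lit 128) (nat_lit 5) (nat_lit 141) (nat_lit 5) (nat_lit 326) (nat_lit 323) (nat_lit 215))) (XT.nd (nat_lit 94) (nat_lit 0) (nat_lit 0) (XT.lf (nat_lit 84) (nat_lit 5758453381) (nat_lit 0) (nat_lit 5922331713) (nat_lit 1092) (nat_lit 1389120498) (nat_lit 129) (nat_lit 5) (nat_lit 128) (nat_lit 5) (nat_lit 141) (nat_lit 5) (nat_lit 327) (nat_lit 323) (nat_lit 214)) (XT.lf (nat_lit 84) (nat_lit 11086881717) (nat_lit 0) (nat_lit 1282402108) (nat_lit 1092) (nat_lit 898803343) (nat_lit 129) (nat_lit 5) (nat_lit 128) (nat_lit 5) (nat_lit 141) (nat_lit 5) (nat_lit 328) (nat_lit 323) (nat_lit 213))))) (XT.nd (nat_lit 376) (nat_lit 0) (nat_lit 84) (XT.nd (nat_lit 188) (nat_lit 0) (nat_lit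 0) (XT.nd (nat_lit 94) (nat_lit 1092) (nat_lit 0) (XT.lf (nat_lit 84) (nat_lit 3127909895) (nat_lit 0) (nat_lit 10003292224) (nat_lit 1092) (nat_lit 339649875) (nat_lit 130) (nat_lit 5) (nat_lit 129) (nat_lit 5) (nat_lit 142) (nat_lit 5) (nat_lit 329) (nat_lit 323) (nat_lit 212)) (XT.lf (nat_lit 0) (nat_lit 254635182) (nat_lit 1092) (nat_lit 5055746012) (nat_lit 1176) (nat_lit 8368799633) (nat_lit 116) (nat_lit 5) (nat_lit 129) (nat_lit 5) (nat_lit 130) (nat_lit 5) (nat_lit 330) (nat_lit 323) (nat_lit 211))) (XT.nd (nat_lit 94) (nat_lit 0) (nat_lit 84) (XT.lf (nat_lit 84) (nat_lit 391326024) (nat_lit 0) (nat_lit 459704499) (nat_lit 1176) (nat_lit 13043165875) (nat_lit 117) (nat_lit 5) (nat_lit 116) (nat_lit 5) (nat_lit 130) (nat_lit 5) (nat_lit 331) (nat_lit 323) (nat_lit 210)) (XT.lf (nat_lit 0) (nat_lit 1551493528) (nat_lit 1092) (nat_lit 8054237535) (nat_lit 1176) (nat_lit 4507541203) (nat_lit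 117) (nat_lit 5) (nat_lit 130) (nat_lit 5) (nat_lit 131) (nat_lit 5) (nat_lit 332) (nat_lit 323) (nat_lit 209)))) (XT.nd (nat_lit 188) (nat_lit 0) (nat_lit 84) (XT.nd (nat_lit 94) (nat_lit 0) (nat_lit 84) (XT.lf (nat_lit 0) (nat_lit 2265974303) (nat_lit 1092) (nat_lit 2449974952) (nat_lit 1176) (nat_lit 9623475167) (nat_lit 117) (nat_lit 5) (nat_lit 130) (nat_lit 5) (nat_lit 131) (nat_lit 5) (nat_lit 333) (nat_lit 323) (nat_lit 208)) (XT.lf (nat_lit 0) (nat_lit 3027796171) (nat_lit 1092) (nat_lit 11187610506) (nat_lit 1176) (nat_lit 356444609) (nat_lit 118) (nat_lit 5) (nat_lit 131) (nat_lit 5) (nat_lit 132) (nat_lit 5) (nat_lit 334) (nat_lit 323) (nat_lit 207))) (XT.nd (nat_lit 94) (nat_lit 0) (nat_lit 0) (XT.lf (nat_lit 0) (nat_lit 3875591089) (nat_lit 1092) (nat_lit 5416606501) (nat_lit 1176) (nat_lit 5517396334) (nat_lit 118) (nat_lit 5) (nat_lit 131) (nat_lit 5) (nat_lit 132) (nat_lit 5) (nat_lit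 335) (nat_lit 323) (nat_lit 206)) (XT.lf (nat_lit 84) (nat_lit 535675545) (nat_lit 0) (nat_lit 4207947432) (nat_lit 1176) (nat_lit 10311313275) (nat_lit 119) (nat_lit 5) (nat_lit 118) (nat_lit 5) (nat_lit 132) (nat_lit 5) (nat_lit 336) (nat_lit 323) (nat_lit 205)))))) (XT.nd (nat_lit 752) (nat_lit 0) (nat_lit 0) (XT.nd (nat_lit 376) (nat_lit 924) (nat_lit 0) (XT.nd (nat_lit 188) (nat_lit 0) (nat_lit 0) (XT.nd (nat_lit 94) (nat_lit 0) (nat_lit 0) (XT.lf (nat_lit 0) (nat_lit 5148882550) (nat_lit 1092) (nat_lit 597420578) (nat_lit 1092) (nat_lit 597420578) (nat_lit 127) (nat_lit 3) (nat_lit 140) (nat_lit 3) (nat_lit 140) (nat_lit 5) (nat_lit 324) (nat_lit 324) (nat_lit 216)) (XT.lf (nat_lit 84) (nat_lit 3790406514) (nat_lit 0) (nat_lit 7064900345) (nat_lit 1092) (nat_lit 2015036242) (nat_lit 128) (nat_lit 5) (nat_lit 127) (nat_lit 3) (nat_lit 140) (nat_lit 5) (nat_lit 325) (nat_lit 324) (nat_lit 215)))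 (XT.nd (nat_lit 94) (nat_lit 0) (nat_lit 84) (XT.lf (nat_lit 84) (nat_lit 8947858885) (nat_lit 0) (nat_lit 2480149656) (nat_lit 1092) (nat_lit 1631023235) (nat_lit 128) (nat_lit 5) (nat_lit 127) (nat_lit 3) (nat_lit 140) (nat_lit 5) (nat_lit 326) (nat_lit 324) (nat_lit 214)) (XT.lf (nat_lit 84) (nat_lit 1001514342) (nat_lit 0) (nat_lit 11035082554) (nat_lit 1092) (nat_lit 1216466441) (nat_lit 129) (nat_lit 5) (nat_lit 128) (nat_lit 5) (nat_lit 141) (nat_lit 5) (nat_lit 327) (nat_lit 324) (nat_lit 213)))) (XT.nd (nat_lit 188) (nat_lit 1008) (nat_lit 0) (XT.nd (nat_lit 94) (nat_lit 0) (nat_lit 0) (XT.lf (nat_lit 84) (nat_lit 6326044294) (nat_lit 0) (nat_lit 6392283762) (nat_lit 1092) (nat_lit 733153230) (nat_lit 129) (nat_lit 5) (nat_lit 128) (nat_lit 5) (nat_lit 141) (nat_lit 5) (nat_lit 328) (nat_lit 324) (nat_lit 212)) (XT.lf (nat_lit 84) (nat_lit 11807955125) (nat_lit 0) (nat_lit 1599906103) (nat_lit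 1092) (nat_lit 248654603) (nat_lit 129) (nat_lit 5) (nat_lit 128) (nat_lit 5) (nat_lit 141) (nat_lit 5) (nat_lit 329) (nat_lit 324) (nat_lit 211))) (XT.nd (nat_lit 94) (nat_lit 0) (nat_lit 0) (XT.lf (nat_lit 0) (nat_lit 302550068) (nat_lit 1092) (nat_lit 10245465259) (nat_lit 1176) (nat_lit 3318104265) (nat_lit 116) (nat_lit 5) (nat_lit 129) (nat_lit 5) (nat_lit 130) (nat_lit 5) (nat_lit 330) (nat_lit 324) (nat_lit 210)) (XT.lf (nat_lit 0) (nat_lit 888788585) (nat_lit 1092) (nat_lit 4810307091) (nat_lit 1176) (nat_lit 8382377873) (nat_lit 116) (nat_lit 5) (nat_lit 129) (nat_lit 5) (nat_lit 130) (nat_lit 5) (nat_lit 331) (nat_lit 324) (nat_lit 209))))) (XT.nd (nat_lit 53580) (nat_lit 0) (nat_lit 924) (XT.nd (nat_lit 188) (nat_lit 0) (nat_lit 84) (XT.nd (nat_lit 94) (nat_lit 0) (nat_lit 84) (XT.lf (nat_lit 84) (nat_lit 801552598) (nat_lit 0) (nat_lit 687238428) (nat_lit 1176) (nat_lit 12814895486)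 (nat_lit 117) (nat_lit 5) (nat_lit 116) (nat_lit 5) (nat_lit 130) (nat_lit 5) (nat_lit 332) (nat_lit 324) (nat_lit 208)) (XT.lf (nat_lit 0) (nat_lit 2190533341) (nat_lit 1092) (nat_lit 7895149513) (nat_lit 1176) (nat_lit 4444572836) (nat_lit 117) (nat_lit 5) (nat_lit 130) (nat_lit 5) (nat_lit 131) (nat_lit 5) (nat_lit 333) (nat_lit 324) (nat_lit 207))) (XT.nd (nat_lit 94) (nat_lit 0) (nat_lit 84) (XT.lf (nat_lit 0) (nat_lit 2909394593) (nat_lit 1092) (nat_lit 2129445625) (nat_lit 1176) (nat_lit 9725195580) (nat_lit 117) (nat_lit 5) (nat_lit 130) (nat_lit 5) (nat_lit 131) (nat_lit 5) (nat_lit 334) (nat_lit 324) (nat_lit 206)) (XT.lf (nat_lit 0) (nat_lit 3679831739) (nat_lit 1092) (nat_lit 11120868745) (nat_lit 1176) (nat_lit 203496864) (nat_lit 118) (nat_lit 5) (nat_lit 131) (nat_lit 5) (nat_lit 132) (nat_lit 5) (nat_lit 335) (nat_lit 324) (nat_lit 205)))) (XT.nd (nat_lit 188) (nat_lit 0) (nat_lit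 0) (XT.nd (nat_lit 94) (nat_lit 0) (nat_lit 0) (XT.lf (nat_lit 0) (nat_lit 5665248538) (nat_lit 1092) (nat_lit 431330715) (nat_lit 1092) (nat_lit 431330715) (nat_lit 127) (nat_lit 3) (nat_lit 140) (nat_lit 3) (nat_lit 140) (nat_lit 5) (nat_lit 325) (nat_lit 325) (nat_lit 214)) (XT.lf (nat_lit 84) (nat_lit 4273390898) (nat_lit 0) (nat_lit 7614103874) (nat_lit 1092) (nat_lit 1357528069) (nat_lit 128) (nat_lit 5) (nat_lit 127) (nat_lit 3) (nat_lit 140) (nat_lit 5) (nat_lit 326) (nat_lit 325) (nat_lit 213))) (XT.nd (nat_lit 94) (nat_lit 0) (nat_lit 84) (XT.lf (nat_lit 84) (nat_lit 9579735024) (nat_lit 0) (nat_lit 2877297747) (nat_lit 1092) (nat_lit 983258771) (nat_lit 128) (nat_lit 5) (nat_lit 127) (nat_lit 3) (nat_lit 140) (nat_lit 5) (nat_lit 327) (nat_lit 325) (nat_lit 212)) (XT.nd (nat_lit 94) (nat_lit 0) (nat_lit 0) (XT.lf (nat_lit 84) (nat_lit 1409941362) (nat_lit 0) (nat_lit 11654919643) (nat_lit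 1092) (nat_lit 576165257) (nat_lit 129) (nat_lit 5) (nat_lit 128) (nat_lit 5) (nat_lit 141) (nat_lit 5) (nat_lit 328) (nat_lit 325) (nat_lit 211)) (XT.lf (nat_lit 84) (nat_lit 6888184718) (nat_lit 0) (nat_lit 6859842745) (nat_lit 1092) (nat_lit 98255719) (nat_lit 129) (nat_lit 5) (nat_lit 128) (nat_lit 5) (nat_lit 141) (nat_lit 5) (nat_lit 329) (nat_lit 325) (nat_lit 210))))))))
noncomputable def xc63 : XT := (XT.nd (nat_lit 108382) (nat_lit 84) (nat_lit 0) (XT.nd (nat_lit 54050) (nat_lit 0) (nat_lit 0) (XT.nd (nat_lit 376) (nat_lit 0) (nat_lit 168) (XT.nd (nat_lit 188) (nat_lit 0) (nat_lit 84) (XT.nd (nat_lit 94) (nat_lit 0) (nat_lit 84) (XT.lf (nat_lit 0) (nat_lit 373802804) (nat_lit 1092) (nat_lit 1533096603) (nat_lit 1176) (nat_lit 12151324403) (nat_lit 115) (nat_lit 5) (nat_lit 128) (nat_lit 5) (nat_lit 129) (nat_lit 5) (nat_lit 330) (nat_lit 325) (nat_lit 209)) (XT.lf (nat_lit 0) (nat_lit 919358521)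 (nat_lit 1092) (nat_lit 10172999952) (nat_lit 1176) (nat_lit 3182503278) (nat_lit 116) (nat_lit 5) (nat_lit 129) (nat_lit 5) (nat_lit 130) (nat_lit 5) (nat_lit 331) (nat_lit 325) (nat_lit 208))) (XT.nd (nat_lit 94) (nat_lit 0) (nat_lit 0) (XT.lf (nat_lit 0) (nat_lit 1505506308) (nat_lit 1092) (nat_lit 4581080606) (nat_lit 1176) (nat_lit 8410939424) (nat_lit 116) (nat_lit 5) (nat_lit 129) (nat_lit 5) (nat_lit 130) (nat_lit 5) (nat_lit 332) (nat_lit 325) (nat_lit 207)) (XT.lf (nat_lit 84) (nat_lit 1200916320) (nat_lit 0) (nat_lit 909192786) (nat_lit 1176) (nat_lit 12617019202) (nat_lit 117) (nat_lit 5) (nat_lit 116) (nat_lit 5) (nat_lit 130) (nat_lit 5) (nat_lit 333) (nat_lit 325) (nat_lit 206)))) (XT.nd (nat_lit 53486) (nat_lit 0) (nat_lit 840) (XT.nd (nat_lit 94) (nat_lit 0) (nat_lit 0) (XT.lf (nat_lit 0) (nat_lit 2814380792) (nat_lit 1092) (nat_lit 7755341874) (nat_lit 1176) (nat_lit 4391658845)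 (nat_lit 117) (nat_lit 5) (nat_lit 130) (nat_lit 5) (nat_lit 131) (nat_lit 5) (nat_lit 334) (nat_lit 325) (nat_lit 205)) (XT.lf (nat_lit 0) (nat_lit 3538810769) (nat_lit 1092) (nat_lit 1822463993) (nat_lit 1176) (nat_lit 9841714714) (nat_lit 117) (nat_lit 5) (nat_lit 130) (nat_lit 5) (nat_lit 131) (nat_lit 5) (nat_lit 335) (nat_lit 325) (nat_lit 204))) (XT.nd (nat_lit 94) (nat_lit 0) (nat_lit 0) (XT.lf (nat_lit 0) (nat_lit 6176490920) (nat_lit 1092) (nat_lit 271026828) (nat_lit 1092) (nat_lit 271026828) (nat_lit 127) (nat_lit 3) (nat_lit 140) (nat_lit 3) (nat_lit 140) (nat_lit 5) (nat_lit 326) (nat_lit 326) (nat_lit 212)) (XT.lf (nat_lit 84) (nat_lit 4749699686) (nat_lit 0) (nat_lit 8160774898) (nat_lit 1092) (nat_lit 722282453) (nat_lit 128) (nat_lit 5) (nat_lit 127) (nat_lit 3) (nat_lit 140) (nat_lit 5) (nat_lit 327) (nat_lit 326) (nat_lit 211))))) (XT.nd (nat_lit 376) (nat_lit 0) (nat_lit 84)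 (XT.nd (nat_lit 188) (nat_lit 0) (nat_lit 0) (XT.nd (nat_lit 94) (nat_lit 1008) (nat_lit 0) (XT.lf (nat_lit 84) (nat_lit 10210202126) (nat_lit 0) (nat_lit 3267787677) (nat_lit 1092) (nat_lit 356776664) (nat_lit 128) (nat_lit 5) (nat_lit 127) (nat_lit 3) (nat_lit 140) (nat_lit 5) (nat_lit 328) (nat_lit 326) (nat_lit 210)) (XT.lf (nat_lit 0) (nat_lit 42942486) (nat_lit 1092) (nat_lit 12234129384) (nat_lit 1176) (nat_lit 1765286034) (nat_lit 115) (nat_lit 5) (nat_lit 128) (nat_lit 5) (nat_lit 129) (nat_lit 5) (nat_lit 329) (nat_lit 326) (nat_lit 209))) (XT.nd (nat_lit 94) (nat_lit 0) (nat_lit 0) (XT.lf (nat_lit 0) (nat_lit 506947463) (nat_lit 1092) (nat_lit 6813700185) (nat_lit 1176) (nat_lit 6933831776) (nat_lit 115) (nat_lit 5) (nat_lit 128) (nat_lit 5) (nat_lit 129) (nat_lit 5) (nat_lit 330) (nat_lit 326) (nat_lit 208)) (XT.lf (nat_lit 0) (nat_lit 973371397) (nat_lit 1092) (nat_lit 1232325404) (nat_lit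 1176) (nat_lit 12267895778) (nat_lit 115) (nat_lit 5) (nat_lit 128) (nat_lit 5) (nat_lit 129) (nat_lit 5) (nat_lit 331) (nat_lit 326) (nat_lit 207)))) (XT.nd (nat_lit 188) (nat_lit 0) (nat_lit 0) (XT.nd (nat_lit 94) (nat_lit 0) (nat_lit 0) (XT.lf (nat_lit 0) (nat_lit 1519308952) (nat_lit 1092) (nat_lit 10121393013) (nat_lit 1176) (nat_lit 3056823185) (nat_lit 116) (nat_lit 5) (nat_lit 129) (nat_lit 5) (nat_lit 130) (nat_lit 5) (nat_lit 332) (nat_lit 326) (nat_lit 206)) (XT.lf (nat_lit 0) (nat_lit 2106445013) (nat_lit 1092) (nat_lit 4367158181) (nat_lit 1176) (nat_lit 8454086215) (nat_lit 116) (nat_lit 5) (nat_lit 129) (nat_lit 5) (nat_lit 130) (nat_lit 5) (nat_lit 333) (nat_lit 326) (nat_lit 205))) (XT.nd (nat_lit 53580) (nat_lit 0) (nat_lit 924) (XT.lf (nat_lit 84) (nat_lit 1590477117) (nat_lit 0) (nat_lit 1126142888) (nat_lit 1176) (nat_lit 12448259798) (nat_lit 117) (nat_lit 5) (nat_lit 116) (nat_lit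 5) (nat_lit 130) (nat_lit 5) (nat_lit 334) (nat_lit 326) (nat_lit 204)) (XT.nd (nat_lit 94) (nat_lit 0) (nat_lit 0) (XT.lf (nat_lit 0) (nat_lit 6683702489) (nat_lit 1092) (nat_lit 116040595) (nat_lit 1092) (nat_lit 116040595) (nat_lit 127) (nat_lit 3) (nat_lit 140) (nat_lit 3) (nat_lit 140) (nat_lit 5) (nat_lit 327) (nat_lit 327) (nat_lit 210)) (XT.lf (nat_lit 84) (nat_lit 5220408190) (nat_lit 0) (nat_lit 8705993352) (nat_lit 1092) (nat_lit 107463579) (nat_lit 128) (nat_lit 5) (nat_lit 127) (nat_lit 3) (nat_lit 140) (nat_lit 5) (nat_lit 328) (nat_lit 327) (nat_lit 209))))))) (XT.nd (nat_lit 54332) (nat_lit 0) (nat_lit 0) (XT.nd (nat_lit 376) (nat_lit 0) (nat_lit 0) (XT.nd (nat_lit 188) (nat_lit 0) (nat_lit 84) (XT.nd (nat_lit 94) (nat_lit 0) (nat_lit 84) (XT.lf (nat_lit 0) (nat_lit 245172096) (nat_lit 1092) (nat_lit 3404805462) (nat_lit 1176) (nat_lit 10592729019) (nat_lit 114) (nat_lit 5) (nat_lit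 127) (nat_lit 3) (nat_lit 128) (nat_lit 5) (nat_lit 329) (nat_lit 327) (nat_lit 208)) (XT.lf (nat_lit 0) (nat_lit 632254409) (nat_lit 1092) (nat_lit 12265090201) (nat_lit 1176) (nat_lit 1559890220) (nat_lit 115) (nat_lit 5) (nat_lit 128) (nat_lit 5) (nat_lit 129) (nat_lit 5) (nat_lit 330) (nat_lit 327) (nat_lit 207))) (XT.nd (nat_lit 94) (nat_lit 0) (nat_lit 0) (XT.lf (nat_lit 0) (nat_lit 1092964198) (nat_lit 1092) (nat_lit 6687100260) (nat_lit 1176) (nat_lit 6896482131) (nat_lit 115) (nat_lit 5) (nat_lit 128) (nat_lit 5) (nat_lit 129) (nat_lit 5) (nat_lit 331) (nat_lit 327) (nat_lit 206)) (XT.lf (nat_lit 0) (nat_lit 1556699513) (nat_lit 1092) (nat_lit 942860537) (nat_lit 1176) (nat_lit 12403488201) (nat_lit 115) (nat_lit 5) (nat_lit 128) (nat_lit 5) (nat_lit 129) (nat_lit 5) (nat_lit 332) (nat_lit 327) (nat_lit 205)))) (XT.nd (nat_lit 53768) (nat_lit 168) (nat_lit 0) (XT.nd (nat_lit 94) (nat_lit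 0) (nat_lit 0) (XT.lf (nat_lit 0) (nat_lit 2104009866) (nat_lit 1092) (nat_lit 10089922517) (nat_lit 1176) (nat_lit 2940534916) (nat_lit 116) (nat_lit 5) (nat_lit 129) (nat_lit 5) (nat_lit 130) (nat_lit 5) (nat_lit 333) (nat_lit 327) (nat_lit 204)) (XT.lf (nat_lit 0) (nat_lit 2693182574) (nat_lit 1092) (nat_lit 4167686856) (nat_lit 1176) (nat_lit 8511458922) (nat_lit 116) (nat_lit 5) (nat_lit 129) (nat_lit 5) (nat_lit 130) (nat_lit 5) (nat_lit 334) (nat_lit 327) (nat_lit 203))) (XT.nd (nat_lit 94) (nat_lit 0) (nat_lit 0) (XT.lf (nat_lit 0) (nat_lit 33727502) (nat_lit 0) (nat_lit 33727502) (nat_lit 1092) (nat_lit 7052293729) (nat_lit 114) (nat_lit 5) (nat_lit 114) (nat_lit 3) (nat_lit 127) (nat_lit 3) (nat_lit 328) (nat_lit 328) (nat_lit 208)) (XT.lf (nat_lit 0) (nat_lit 478826017) (nat_lit 1092) (nat_lit 8766980052) (nat_lit 1176) (nat_lit 5202725125) (nat_lit 114) (nat_lit 5) (nat_lit 127) (nat_lit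 3) (nat_lit 128) (nat_lit 5) (nat_lit 329) (nat_lit 328) (nat_lit 207))))) (XT.nd (nat_lit 54144) (nat_lit 0) (nat_lit 0) (XT.nd (nat_lit 188) (nat_lit 0) (nat_lit 84) (XT.nd (nat_lit 94) (nat_lit 0) (nat_lit 84) (XT.lf (nat_lit 0) (nat_lit 822499585) (nat_lit 1092) (nat_lit 3201338967) (nat_lit 1176) (nat_lit 10640588032) (nat_lit 114) (nat_lit 5) (nat_lit 127) (nat_lit 3) (nat_lit 128) (nat_lit 5) (nat_lit 330) (nat_lit 328) (nat_lit 206)) (XT.lf (nat_lit 0) (nat_lit 1205007898) (nat_lit 1092) (nat_lit 12317641042) (nat_lit 1176) (nat_lit 1363534470) (nat_lit 115) (nat_lit 5) (nat_lit 128) (nat_lit 5) (nat_lit 129) (nat_lit 5) (nat_lit 331) (nat_lit 328) (nat_lit 205))) (XT.nd (nat_lit 94) (nat_lit 0) (nat_lit 0) (XT.lf (nat_lit 0) (nat_lit 1663367526) (nat_lit 1092) (nat_lit 6576585669) (nat_lit 1176) (nat_lit 6872918716) (nat_lit 115) (nat_lit 5) (nat_lit 128) (nat_lit 5) (nat_lit 129) (nat_lit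 5) (nat_lit 332) (nat_lit 328) (nat_lit 204)) (XT.lf (nat_lit 0) (nat_lit 2125346565) (nat_lit 1092) (nat_lit 663830533) (nat_lit 1176) (nat_lit 12557778720) (nat_lit 115) (nat_lit 5) (nat_lit 128) (nat_lit 5) (nat_lit 129) (nat_lit 5) (nat_lit 333) (nat_lit 328) (nat_lit 203)))) (XT.nd (nat_lit 188) (nat_lit 0) (nat_lit 0) (XT.nd (nat_lit 94) (nat_lit 0) (nat_lit 0) (XT.lf (nat_lit 0) (nat_lit 177914835) (nat_lit 0) (nat_lit 177914835) (nat_lit 1092) (nat_lit 6974685306) (nat_lit 114) (nat_lit 5) (nat_lit 114) (nat_lit 3) (nat_lit 127) (nat_lit 3) (nat_lit 329) (nat_lit 329) (nat_lit 206)) (XT.lf (nat_lit 0) (nat_lit 1046266283) (nat_lit 1092) (nat_lit 8739032414) (nat_lit 1176) (nat_lit 5091928532) (nat_lit 114) (nat_lit 5) (nat_lit 127) (nat_lit 3) (nat_lit 128) (nat_lit 5) (nat_lit 330) (nat_lit 329) (nat_lit 205))) (XT.nd (nat_lit 94) (nat_lit 0) (nat_lit 0) (XT.lf (nat_lit 0) (nat_lit 1383978313)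 (nat_lit 1092) (nat_lit 3009868525) (nat_lit 1176) (nat_lit 10706546094) (nat_lit 114) (nat_lit 5) (nat_lit 127) (nat_lit 3) (nat_lit 128) (nat_lit 5) (nat_lit 331) (nat_lit 329) (nat_lit 204)) (XT.nd (nat_lit 54144) (nat_lit 84) (nat_lit 0) (XT.lf (nat_lit 0) (nat_lit 1762752510) (nat_lit 1092) (nat_lit 12391229234) (nat_lit 1176) (nat_lit 1175586423) (nat_lit 115) (nat_lit 5) (nat_lit 128) (nat_lit 5) (nat_lit 129) (nat_lit 5) (nat_lit 332) (nat_lit 329) (nat_lit 203)) (XT.lf (nat_lit 0) (nat_lit 1598565950) (nat_lit 1092) (nat_lit 8727971565) (nat_lit 1176) (nat_lit 4993813071) (nat_lit 114) (nat_lit 5) (nat_lit 127) (nat_lit 3) (nat_lit 128) (nat_lit 5) (nat_lit 331) (nat_lit 330) (nat_lit 203))))))))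

set_option maxRecDepth 10000000 in
noncomputable def Tp : PT := (PT.nd (nat_lit 2717540) (PT.nd (nat_lit 2227988) (PT.nd (nat_lit 1795212) (PT.nd (nat_lit 1523740) pc0 pc1) (PT.nd (nat_lit 217140) pc2 pc3)) (PT.nd (nat_lit 271660) (PT.nd (nat_lit 162150) pc4 pc5) (PT.nd (nat_lit 109134) pc6 pc7))) (PT.nd (nat_lit 379008) (PT.nd (nat_lit 215730) (PT.nd (nat_lit 108100) pc8 pc9) (PT.nd (nat_lit 107160) pc10 pc11)) (PT.nd (nat_lit 162056) (PT.nd (nat_lit 106314) pc12 pc13) (PT.nd (nat_lit 55554) pc14 pc15))))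

set_option maxRecDepth 10000000 in
noncomputable def Tx : XT := (XT.nd (nat_lit 14188266) (nat_lit 0) (nat_lit 2688) XT.nil (XT.nd (nat_lit 3741482) (nat_lit 0) (nat_lit 0) (XT.nd (nat_lit 1732608) (nat_lit 0) (nat_lit 1344) (XT.nd (nat_lit 1189570) (nat_lit 0) (nat_lit 756) (XT.nd (nat_lit 811784) (nat_lit 0) (nat_lit 168) (XT.nd (nat_lit 541722) (nat_lit 0) (nat_lit 168) (XT.nd (nat_lit 378632) (nat_lit 0) (nat_lit 168) (XT.nd (nat_lit 217046) (nat_lit 0) (nat_lit 0) xc0 xc1) (XT.nd (nat_lit 107818) (nat_lit 0) (nat_lit 0) xc2 xc3)) (XT.nd (nat_lit 161304) (nat_lit 0) (nat_lit 0) (XT.nd (nat_lit 54990) (nat_lit 0) (nat_lit 0) xc4 xc5) (XT.nd (nat_lit 54426) (nat_lit 0) (nat_lit 0) xc6 xc7))) (XT.nd (nat_lit 215166) (nat_lit 0) (nat_lit 252) (XT.nd (nat_lit 107912) (nat_lit 0) (nat_lit 252) (XT.nd (nat_lit 54050) (nat_lit 0) (nat_lit 252) xc8 xc9) (XT.nd (nat_lit 53674) (nat_lit 0) (nat_lit 0)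 xc10 xc11)) (XT.nd (nat_lit 56494) (nat_lit 0) (nat_lit 84) (XT.nd (nat_lit 3102) (nat_lit 1008) (nat_lit 0) xc12 xc13) (XT.nd (nat_lit 53110) (nat_lit 0) (nat_lit 0) xc14 xc15)))) (XT.nd (nat_lit 271660) (nat_lit 0) (nat_lit 252) (XT.nd (nat_lit 111578) (nat_lit 0) (nat_lit 0) (XT.nd (nat_lit 55836) (nat_lit 0) (nat_lit 0) (XT.nd (nat_lit 3102) (nat_lit 1008) (nat_lit 0) xc16 xc17) (XT.nd (nat_lit 52546) (nat_lit 0) (nat_lit 1344) xc18 xc19)) (XT.nd (nat_lit 104810) (nat_lit 0) (nat_lit 252) (XT.nd (nat_lit 52452) (nat_lit 0) (nat_lit 252) xc20 xc21) (XT.nd (nat_lit 3102) (nat_lit 2352) (nat_lit 0) xc22 xc23))) (XT.nd (nat_lit 110732) (nat_lit 0) (nat_lit 336) (XT.nd (nat_lit 55272) (nat_lit 0) (nat_lit 0) (XT.nd (nat_lit 3102) (nat_lit 336) (nat_lit 0) xc24 xc25) (XT.nd (nat_lit 52264) (nat_lit 0) (nat_lit 2352) xc26 xc27)) (XT.nd (nat_lit 104904) (nat_lit 0) (nat_lit 0) (XT.nd (nat_lit 52358)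 (nat_lit 0) (nat_lit 0) xc28 xc29) (XT.nd (nat_lit 3102) (nat_lit 3444) (nat_lit 0) xc30 xc31))))) (XT.nd (nat_lit 651608) (nat_lit 0) (nat_lit 1932) (XT.nd (nat_lit 273822) (nat_lit 0) (nat_lit 756) (XT.nd (nat_lit 161398) (nat_lit 0) (nat_lit 336) (XT.nd (nat_lit 55742) (nat_lit 0) (nat_lit 336) (XT.nd (nat_lit 3102) (nat_lit 336) (nat_lit 0) xc32 xc33) (XT.nd (nat_lit 52734) (nat_lit 0) (nat_lit 0) xc34 xc35)) (XT.nd (nat_lit 56118) (nat_lit 0) (nat_lit 336) (XT.nd (nat_lit 3102) (nat_lit 3108) (nat_lit 0) xc36 xc37) (XT.nd (nat_lit 53110) (nat_lit 0) (nat_lit 840) xc38 xc39))) (XT.nd (nat_lit 163090) (nat_lit 0) (nat_lit 336) (XT.nd (nat_lit 106502) (nat_lit 0) (nat_lit 336) (XT.nd (nat_lit 53204) (nat_lit 0) (nat_lit 336) xc40 xc41) (XT.nd (nat_lit 53392) (nat_lit 0) (nat_lit 420) xc42 xc43)) (XT.nd (nat_lit 107160) (nat_lit 0) (nat_lit 420) (XT.nd (nat_lit 53486) (nat_lit 0) (nat_lit 420) xc44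 xc45) (XT.nd (nat_lit 53674) (nat_lit 0) (nat_lit 0) xc46 xc47)))) (XT.nd (nat_lit 434844) (nat_lit 0) (nat_lit 1428) (XT.nd (nat_lit 216482) (nat_lit 0) (nat_lit 420) (XT.nd (nat_lit 108006) (nat_lit 0) (nat_lit 420) (XT.nd (nat_lit 53956) (nat_lit 0) (nat_lit 0) xc48 xc49) (XT.nd (nat_lit 54144) (nat_lit 0) (nat_lit 0) xc50 xc51)) (XT.nd (nat_lit 108946) (nat_lit 0) (nat_lit 420) (XT.nd (nat_lit 54332) (nat_lit 0) (nat_lit 420) xc52 xc53) (XT.nd (nat_lit 54614) (nat_lit 0) (nat_lit 504) xc54 xc55))) (XT.nd (nat_lit 324676) (nat_lit 0) (nat_lit 1596) (XT.nd (nat_lit 161774) (nat_lit 0) (nat_lit 1092) (XT.nd (nat_lit 54802) (nat_lit 0) (nat_lit 504) xc56 xc57) (XT.nd (nat_lit 55178) (nat_lit 0) (nat_lit 0) xc58 xc59)) (XT.nd (nat_lit 164124) (nat_lit 0) (nat_lit 588) (XT.nd (nat_lit 55554) (nat_lit 0) (nat_lit 756) xc60 xc61) (XT.nd (nat_lit 162244) (nat_lit 168) (nat_lit 0) xc62 xc63)))))) XT.nil))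

set_option maxRecDepth 10000000 in
noncomputable def Te : XT := XT.nil

set_option maxRecDepth 10000000 in
noncomputable def Tz : ZL := (ZL.cons (nat_lit 84) (nat_lit 6) (nat_lit 156012236968852749420) (ZL.cons (nat_lit 168) (nat_lit 3) (nat_lit 77031510270783406558) (ZL.cons (nat_lit 2604) (nat_lit 6) (nat_lit 131461148370424487616) (ZL.cons (nat_lit 2688) (nat_lit 3) (nat_lit 65703393248201025839) (ZL.cons (nat_lit 2856) (nat_lit 6) (nat_lit 130217935812356707746) (ZL.cons (nat_lit 2940) (nat_lit 6) (nat_lit 130110846611445391166) (ZL.cons (nat_lit 3108) (nat_lit 6) (nat_lit 129040052919025021248) (ZL.cons (nat_lit 3192) (nat_lit 6) (nat_lit 128881821790966390762) (ZL.cons (nat_lit 3276) (nat_lit 3) (nat_lit 64414547232038755060) (ZL.cons (nat_lit 3444) (nat_lit 6) (nat_lit 127718566455088735888) (ZL.cons (nat_lit 3528) (nat_lit 6) (nat_lit 127614697201052541340) (ZL.cons (nat_lit 3696) (nat_lit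 6) (nat_lit 126619996327985289380) (ZL.cons (nat_lit 3780) (nat_lit 6) (nat_lit 126466522876909993076) (ZL.cons (nat_lit 3864) (nat_lit 3) (nat_lit 63207690474881339585) (ZL.cons (nat_lit 4032) (nat_lit 6) (nat_lit 125585087427219439778) (ZL.cons (nat_lit 4116) (nat_lit 6) (nat_lit 125383501272905441480) (ZL.cons (nat_lit 4200) (nat_lit 6) (nat_lit 125282755148719025818) (ZL.cons (nat_lit 4368) (nat_lit 6) (nat_lit 124612875109286205524) (ZL.cons (nat_lit 4452) (nat_lit 6) (nat_lit 124364622899454552532) (ZL.cons (nat_lit 4536) (nat_lit 6) (nat_lit 124215764072029434876) (ZL.cons (nat_lit 4620) (nat_lit 3) (nat_lit 62083079937495166560) (ZL.cons (nat_lit 4704) (nat_lit 6) (nat_lit 123702453170463439352) (ZL.cons (nat_lit 4788) (nat_lit 6) (nat_lit 123408938055183042714) (ZL.cons (nat_lit 4872) (nat_lit 6) (nat_lit 123213413172240270364) (ZL.cons (nat_lit 4956) (nat_lit 6) (nat_lit 123115696271962466614)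 (ZL.cons (nat_lit 5124) (nat_lit 6) (nat_lit 122515555941705514436) (ZL.cons (nat_lit 5208) (nat_lit 6) (nat_lit 122274768153313998440) (ZL.cons (nat_lit 5292) (nat_lit 6) (nat_lit 122130385197518539996) (ZL.cons (nat_lit 5376) (nat_lit 3) (nat_lit 61041136247139919001) (ZL.cons (nat_lit 5544) (nat_lit 6) (nat_lit 121683643833308047320) (ZL.cons (nat_lit 5628) (nat_lit 6) (nat_lit 121398954099767410428) (ZL.cons (nat_lit 5712) (nat_lit 6) (nat_lit 121209308238523208338) (ZL.cons (nat_lit 5796) (nat_lit 6) (nat_lit 121114529479766851650) (ZL.cons (nat_lit 5964) (nat_lit 6) (nat_lit 120912426300760602602) (ZL.cons (nat_lit 6048) (nat_lit 6) (nat_lit 120585154661158742726) (ZL.cons (nat_lit 6132) (nat_lit 6) (nat_lit 120351606854765419740) (ZL.cons (nat_lit 6216) (nat_lit 6) (nat_lit 120211565190560319406) (ZL.cons (nat_lit 6300) (nat_lit 3) (nat_lit 60082449567521332356) (ZL.cons (nat_lit 6384) (nat_lit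 6) (nat_lit 120201184488535752454) (ZL.cons (nat_lit 6468) (nat_lit 6) (nat_lit 119832611291163550208) (ZL.cons (nat_lit 6552) (nat_lit 6) (nat_lit 119556481578709004238) (ZL.cons (nat_lit 6636) (nat_lit 6) (nat_lit 119372537969354783008) (ZL.cons (nat_lit 6720) (nat_lit 6) (nat_lit 119280609008388384668) (ZL.cons (nat_lit 6804) (nat_lit 6) (nat_lit 119549255444760026376) (ZL.cons (nat_lit 6888) (nat_lit 6) (nat_lit 119140622540530072074) (ZL.cons (nat_lit 6972) (nat_lit 6) (nat_lit 118823191270305183734) (ZL.cons (nat_lit 7056) (nat_lit 6) (nat_lit 118596665754889739520) (ZL.cons (nat_lit 7140) (nat_lit 6) (nat_lit 118460834848774220284) (ZL.cons (nat_lit 7224) (nat_lit 3) (nat_lit 59207785971662738319) (ZL.cons (nat_lit 7308) (nat_lit 6) (nat_lit 118956031503273319160) (ZL.cons (nat_lit 7392) (nat_lit 6) (nat_lit 118508543403255050546) (ZL.cons (nat_lit 7476) (nat_lit 6) (nat_lit 118151052426172410150)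 (ZL.cons (nat_lit 7560) (nat_lit 6) (nat_lit 117883225352986623566) (ZL.cons (nat_lit 7644) (nat_lit 6) (nat_lit 117704812540809881346) (ZL.cons (nat_lit 7728) (nat_lit 6) (nat_lit 117615647690212016804) (ZL.cons (nat_lit 7896) (nat_lit 6) (nat_lit 117935784715370569718) (ZL.cons (nat_lit 7980) (nat_lit 6) (nat_lit 117539438542499615010) (ZL.cons (nat_lit 8064) (nat_lit 6) (nat_lit 117231551762456076370) (ZL.cons (nat_lit 8148) (nat_lit 6) (nat_lit 117011837392508991780) (ZL.cons (nat_lit 8232) (nat_lit 6) (nat_lit 116880090635849904254) (ZL.cons (nat_lit 8316) (nat_lit 3) (nat_lit 58418094345350391679) (ZL.cons (nat_lit 8484) (nat_lit 6) (nat_lit 117421812605781520974) (ZL.cons (nat_lit 8568) (nat_lit 6) (nat_lit 116987779531079029588) (ZL.cons (nat_lit 8652) (nat_lit 6) (nat_lit 116641037555247176636) (ZL.cons (nat_lit 8736) (nat_lit 6) (nat_lit 116381263478442339990) (ZL.cons (nat_lit 8820) (nat_lit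 6) (nat_lit 116208215164012910094) (ZL.cons (nat_lit 8904) (nat_lit 6) (nat_lit 116121731312802566214) (ZL.cons (nat_lit 8988) (nat_lit 6) (nat_lit 116966147998641817916) (ZL.cons (nat_lit 9072) (nat_lit 6) (nat_lit 116495561187924257010) (ZL.cons (nat_lit 9156) (nat_lit 6) (nat_lit 116111132310260867380) (ZL.cons (nat_lit 9240) (nat_lit 6) (nat_lit 115812503037667716422) (ZL.cons (nat_lit 9324) (nat_lit 6) (nat_lit 115599395016380534470) (ZL.cons (nat_lit 9408) (nat_lit 6) (nat_lit 115471609607399848220) (ZL.cons (nat_lit 9492) (nat_lit 3) (nat_lit 57714513850669312618) (ZL.cons (nat_lit 9576) (nat_lit 6) (nat_lit 115380187433145302312) (ZL.cons (nat_lit 9660) (nat_lit 6) (nat_lit 115436591927068068552) (ZL.cons (nat_lit 9744) (nat_lit 6) (nat_lit 115549453489810458242) (ZL.cons (nat_lit 9828) (nat_lit 6) (nat_lit 115718877320171497020) (ZL.cons (nat_lit 9912) (nat_lit 6) (nat_lit 115945021338908679512)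 (ZL.cons (nat_lit 9996) (nat_lit 6) (nat_lit 116228096335936657930) (ZL.cons (nat_lit 10080) (nat_lit 6) (nat_lit 116568366166805523342) (ZL.cons (nat_lit 10164) (nat_lit 6) (nat_lit 116062324713978292678) (ZL.cons (nat_lit 10248) (nat_lit 6) (nat_lit 115641342100299833528) (ZL.cons (nat_lit 10332) (nat_lit 6) (nat_lit 115305025925875145892) (ZL.cons (nat_lit 10416) (nat_lit 6) (nat_lit 115053062708799649628) (ZL.cons (nat_lit 10500) (nat_lit 6) (nat_lit 114885217592961211322) (ZL.cons (nat_lit 10584) (nat_lit 6) (nat_lit 114801334129129645968) (ZL.cons (nat_lit 10668) (nat_lit 3) (nat_lit 57327041820940255283) (ZL.cons (nat_lit 10752) (nat_lit 6) (nat_lit 114682716351498615930) (ZL.cons (nat_lit 10836) (nat_lit 6) (nat_lit 114768641169037648802) (ZL.cons (nat_lit 10920) (nat_lit 6) (nat_lit 114911938185428409388) (ZL.cons (nat_lit 11004) (nat_lit 6) (nat_lit 115112740968500918560) (ZL.cons (nat_lit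 11088) (nat_lit 6) (nat_lit 115371236687483627028) (ZL.cons (nat_lit 11172) (nat_lit 6) (nat_lit 115687666287464742730) (ZL.cons (nat_lit 11256) (nat_lit 6) (nat_lit 115231229031676613822) (ZL.cons (nat_lit 11340) (nat_lit 6) (nat_lit 114858359121236856666) (ZL.cons (nat_lit 11424) (nat_lit 6) (nat_lit 114568709002329823724) (ZL.cons (nat_lit 11508) (nat_lit 6) (nat_lit 114362008690703071106) (ZL.cons (nat_lit 11592) (nat_lit 6) (nat_lit 114238065520013753696) (ZL.cons (nat_lit 11676) (nat_lit 3) (nat_lit 57098381981121705663) (ZL.cons (nat_lit 11760) (nat_lit 6) (nat_lit 114006216757272925940) (ZL.cons (nat_lit 11844) (nat_lit 6) (nat_lit 114064369790507297936) (ZL.cons (nat_lit 11928) (nat_lit 6) (nat_lit 114180730061694701704) (ZL.cons (nat_lit 12012) (nat_lit 6) (nat_lit 114355406030796932684) (ZL.cons (nat_lit 12096) (nat_lit 6) (nat_lit 114588560514114967832) (ZL.cons (nat_lit 12180) (nat_lit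 6) (nat_lit 114880410836050813584) (ZL.cons (nat_lit 12264) (nat_lit 6) (nat_lit 114472086283501386670) (ZL.cons (nat_lit 12348) (nat_lit 6) (nat_lit 114145882428579284208) (ZL.cons (nat_lit 12432) (nat_lit 6) (nat_lit 113901495215120994912) (ZL.cons (nat_lit 12516) (nat_lit 6) (nat_lit 113738696848643363190) (ZL.cons (nat_lit 12600) (nat_lit 6) (nat_lit 113657335584015268764) (ZL.cons (nat_lit 12684) (nat_lit 3) (nat_lit 56703231287952021654) (ZL.cons (nat_lit 12768) (nat_lit 6) (nat_lit 113435982899520309940) (ZL.cons (nat_lit 12852) (nat_lit 6) (nat_lit 113524571386403052832) (ZL.cons (nat_lit 12936) (nat_lit 6) (nat_lit 113672310610301926994) (ZL.cons (nat_lit 13020) (nat_lit 6) (nat_lit 113879338279649683950) (ZL.cons (nat_lit 13104) (nat_lit 6) (nat_lit 114145847365920856382) (ZL.cons (nat_lit 13188) (nat_lit 6) (nat_lit 113784188868889084162) (ZL.cons (nat_lit 13272) (nat_lit 6) (nat_lit 113503247919415725346)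 (ZL.cons (nat_lit 13356) (nat_lit 6) (nat_lit 113302762651106556946) (ZL.cons (nat_lit 13440) (nat_lit 6) (nat_lit 113182546190690148208) (ZL.cons (nat_lit 13524) (nat_lit 3) (nat_lit 56571243241916198076) (ZL.cons (nat_lit 13608) (nat_lit 6) (nat_lit 112882894773669082002) (ZL.cons (nat_lit 13692) (nat_lit 6) (nat_lit 112942850550933719530) (ZL.cons (nat_lit 13776) (nat_lit 6) (nat_lit 113062817990527932816) (ZL.cons (nat_lit 13860) (nat_lit 6) (nat_lit 113242908914672332954) (ZL.cons (nat_lit 13944) (nat_lit 6) (nat_lit 113483291186973227194) (ZL.cons (nat_lit 14028) (nat_lit 6) (nat_lit 113166895595390198620) (ZL.cons (nat_lit 14112) (nat_lit 6) (nat_lit 112929856591065960700) (ZL.cons (nat_lit 14196) (nat_lit 6) (nat_lit 112771953228818015284) (ZL.cons (nat_lit 14280) (nat_lit 6) (nat_lit 112693038326171948916) (ZL.cons (nat_lit 14364) (nat_lit 3) (nat_lit 56202294938441432171) (ZL.cons (nat_lit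 14448) (nat_lit 6) (nat_lit 112435025330531235238) (ZL.cons (nat_lit 14532) (nat_lit 6) (nat_lit 112526360060507343160) (ZL.cons (nat_lit 14616) (nat_lit 6) (nat_lit 112678679200347082422) (ZL.cons (nat_lit 14700) (nat_lit 6) (nat_lit 112892124727444619844) (ZL.cons (nat_lit 14784) (nat_lit 6) (nat_lit 112619631081010712166) (ZL.cons (nat_lit 14868) (nat_lit 6) (nat_lit 112425173982747697230) (ZL.cons (nat_lit 14952) (nat_lit 6) (nat_lit 112308572178270094184) (ZL.cons (nat_lit 15036) (nat_lit 3) (nat_lit 56134858491240889936) (ZL.cons (nat_lit 15120) (nat_lit 6) (nat_lit 112000622378894138474) (ZL.cons (nat_lit 15204) (nat_lit 6) (nat_lit 112062436785253979764) (ZL.cons (nat_lit 15288) (nat_lit 6) (nat_lit 112186123215475613662) (ZL.cons (nat_lit 15372) (nat_lit 6) (nat_lit 112371796958268490208) (ZL.cons (nat_lit 15456) (nat_lit 6) (nat_lit 112141885217895805514) (ZL.cons (nat_lit 15540) (nat_lit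 6) (nat_lit 111988729677403132948) (ZL.cons (nat_lit 15624) (nat_lit 6) (nat_lit 111912187579783281958) (ZL.cons (nat_lit 15708) (nat_lit 3) (nat_lit 55819618393483317795) (ZL.cons (nat_lit 15792) (nat_lit 6) (nat_lit 111670615739678105984) (ZL.cons (nat_lit 15876) (nat_lit 6) (nat_lit 111764781846283473250) (ZL.cons (nat_lit 15960) (nat_lit 6) (nat_lit 111921822879458244432) (ZL.cons (nat_lit 16044) (nat_lit 6) (nat_lit 111733212696855902108) (ZL.cons (nat_lit 16128) (nat_lit 6) (nat_lit 111620116863220981598) (ZL.cons (nat_lit 16212) (nat_lit 3) (nat_lit 55791214980694722460) (ZL.cons (nat_lit 16296) (nat_lit 6) (nat_lit 111350531705520945470) (ZL.cons (nat_lit 16380) (nat_lit 6) (nat_lit 111414262358477941840) (ZL.cons (nat_lit 16464) (nat_lit 6) (nat_lit 111541783068036446390) (ZL.cons (nat_lit 16548) (nat_lit 6) (nat_lit 111393232592291856122) (ZL.cons (nat_lit 16632) (nat_lit 6) (nat_lit 111318991954445249924)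 (ZL.cons (nat_lit 16716) (nat_lit 3) (nat_lit 55550943165466503703) (ZL.cons (nat_lit 16800) (nat_lit 6) (nat_lit 111134238031178533382) (ZL.cons (nat_lit 16884) (nat_lit 6) (nat_lit 111231323287088667036) (ZL.cons (nat_lit 16968) (nat_lit 6) (nat_lit 111121628007132391080) (ZL.cons (nat_lit 17052) (nat_lit 3) (nat_lit 55542537135558660780) (ZL.cons (nat_lit 17136) (nat_lit 6) (nat_lit 110924447852378909630) (ZL.cons (nat_lit 17220) (nat_lit 6) (nat_lit 110990154155577572890) (ZL.cons (nat_lit 17304) (nat_lit 6) (nat_lit 110918145777452833612) (ZL.cons (nat_lit 17388) (nat_lit 3) (nat_lit 55392348137828174266) (ZL.cons (nat_lit 17472) (nat_lit 6) (nat_lit 110818050878609485816) (ZL.cons (nat_lit 17556) (nat_lit 3) (nat_lit 55391298118249908029) (ZL.cons (nat_lit 17640) (nat_lit 6) (nat_lit 110714853037901994238) (ZL.cons (nat_lit 17724) (nat_lit 1) (nat_lit 18446744073709551617) ZL.nil))))))))))))))))))))))))))))))))))))))))))))))))))))))))))))))))))))))))))))))))))))))))))))))))))))))))))))))))))))))))))))))))))))))))))))))))))))))))))))))))))))))))))))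

noncomputable def vl : XL := ⟨(nat_lit 0), (nat_lit 84), (nat_lit 197218411), (nat_lit 168), (nat_lit 371959946), (nat_lit 84), (nat_lit 197218411), (nat_lit 1), (nat_lit 5), (nat_lit 2), (nat_lit 4), (nat_lit 1), (nat_lit 4), (nat_lit 0), (nat_lit 0), (nat_lit 0)⟩

noncomputable def cp0 : Nat := (nat_lit 136673763181534529735918831742374334526982517032841274780357626222753108016993296570330497244473352243533612693390937182981280795786663918259822580333352635228876639901270463172041911929433261153347990869554030812841457541704091309369481591874153886179311910125314523908329894035859531228787890015729022348197949205189891873818569848732376334270661984900677130350246519029980509884203914500063526444494688776271828701635359867564960072968797639944595028891147790485439192123243836230128818324427720739852139644775390821435115624369317712970953252092964857090998141784649536452035829419575468282747429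233475843705101361925292711063668245727760381906361699842214405109582169523251717375915495920616267421355932488451364957343725183679111721130301591032226067504635730298604537160000171195907299413456553131620227767235058234748662127343278466729665768934521198977422801867719134443775423695990719593688692218810020713452626966566373198575983769210730246499664795178627828233991646500817589453094981757368439507336143948141034837217207347016331115196233182492959739698818567226742407766390693491098251991891605039890043647032632165141537733407464081585432683996086452679319504745617127963233546828442800287380617921715131672645305735277684650257942718749766783252855531761836304309805933060398510769793099639099899677170982288287443548962970079753566136301335381911513166416983717579734662409297410944041734674941935150421489449640467817789439337414997163489347113842113128982507198479414829527861701581686382283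864930026006392882638598904655571498086954388255175594559753518317645483583161076745456148942374338817247287126456828589134717200303129434066083746743087930758655380286609666856186878738701916160018384783663778471436880448486808239078544037287350554461019912219546142167685074728730408564644000304898846064940877259462041987425433744766783244558489843497941696659861735915892180266106381907799363136615340367025042846789472642529482152614272864117882643417325079995310889172031145336351467036392291331185753655987327733036908122605076025332992143109910289817183204730740888139507253085348462169515511705787939555754879416163364176705963104937429291250352887787279316344701447711114148100398856058123234361550794124498028654237480271834506933518265012009262954529148565448558885415294709104312256818869622886082496583151370311674565620957340086604031983276044267950266137955997154265884082862936924045811655643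000758493846494299334114404792668918603802243577728254737708357793957063836072998783026193498148717235491852790575541438444184178609282863334037376266732273468834423886002535057484083099430346093390432270166171701056704179130854651095065926080846326722796267615496596853399529735171882784008867249208420299116581281669773455593273790127981097009080074108879561584267880114008753406848134801687298793581350004181381954729945657692671234840635852660774118020817251878325439109847003504499700540828462265005546442497051409624214449812494058159339308317944947456294434330971537525228636601120493471295536301949101766767794850267927372419403147472554537764184829012422605581735198657092781954383476494802035932352715184065237334994759792519242062131749630504364170238748993359095344079735522154379096150449073873780304638643211804861699489784010822668226741249255306122082696206923982528141110988054939757164913762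452884630962736422674838020453100188041695758514192685820524109953036148437219814044111556112252112102757101773872105359145380834277870596243144060823643480094407941199451409238021433615943026564197603678293394790708284163678417457518021776593893430301475461113547281833184658286844475614416627642673518162147431308375960836919714307708697146118318278693410787944275274024155772493744127256025212120637615433295744579299948976454369729850012735493753253470242984215615101181899470723586660597725033331641652526442742186078973270901638667191745730337289309348741404259934984100643480124971922422393350663779912767195057385942692871589491592004530809933236555215770807950076793760799086351077766610630966274573880474919418568400196682818189367057653532182475001489344314228476786236308831368686069665507123069399011696522296607297010985541386887894053357567037843723119213729165827284337241151379084568835530144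75811520864600976404571483401659382192382802900028934452570532361413655679498012062730772423768596329493961183095980240776989046633806643530300006776717620602116464048146651820221863552244612158984361173526522161753247125829790193693376851471309381315337791878203165581605581053025428339818898344780217105431158770252595990199740670146774703539907377434520774642302874514544184540811821521810116384579959325191300037247125779457392805034902053511809044687128729545738152629391602727817989242592702595757740567864131775082809264815185262977146083906393011129702107221546122915508864677496824671609031922456813605260970669089761613190429508627646709597878476187307559396681477529176834148683195381510812431784862309174437784037615712906728028062911589734462615402621784453927266345646261581955344053250919858817054649145494129280267898132761100327682420853303518789282593228821381561131343756265755354078470960525855370191297535185146285685229927621905840031493223410406772180879300424958127712191109750417152031366581647542543747767413925267175995280915540806198373242592592617514050097377627659435285397651483755085299712)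

noncomputable def cp1 : Nat := (nat_lit 261803285475271138417498020338282733384986265842213562965732272332790143464416795910632766630244554235901450472188635286187331121119984977873945305155247171989255661721887862645367682690908076875059637104208071701546502944180374643569065320434427317330213634802502767863697062331420102505695328491084035184443002294965281511515870149366979908424360076446872063768528966318992979309635941465952066081868790173358061919867369620189758609723923896875245660611297300007060634962363243684580361847030043527397903366393885989583557614298113652137825783810918057912311151780920827691972465231082458829933626086722135260030340135294527897070367932035449302953512325349121314698899431965855098712400302720371158491172551772595861493697454574808789466545054320232467317274983841894823470199534723724928504073042139096477181956218302595080932682758042448220053867529806460007645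879409597338477632608491716424930688341787457511310160416844455346416137355387406783109132592113606026511598145991788127133095304735066914060331311848133572411210668169209005275754189002781842986549544081369042503932136178331162975631626245068717100892010338288060676030772971022353470647132264562835774660993013190518625760675599540518642246119242772844394766863230650345944448654493478004686158164227838660718793972725586186013763770697111387435482662633369093443063313650179912068025573382247711615102751288858359340595726919230689679251929648909175344110373774217903205251917200339252683291157288281941444326263533016058521721636790930480364145758539855994773617379618087213934576605949018097456210430027899829810139916722926514384924998428478422498352184570563098760129110015490291294676312953094065678836167808679946617568038202455569507363709536216409696390902249009542378807413129282336184296171671432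825929035264175667479893824549025904457446495513667486858172848711419848809650230977525553807905675266379380753391193707427225906703483644407217926740592210771853574539060830657067775050898702800782834959469589116681265475588537890297859943184835085652948980978648414666998931481180586102965124010564083738804137106629392399811900416630874800302411791014840374534020571016455764603394671892432812099817063010133488518550329220830450282174811947129940362328914040624799795109154221699749487719839779719291048375886971629926816515922622516004703916558810275582577602448098598610890316624907883124647399385987254800196944645505437948556982387803549539425710413706897722033514508268155310817830870108035408806999767261854382054486049045781745803741060178854367927514435860278647113189018587397203483309268465198124033498071790419611838860405217981762241994772677752845513914948411450035351932440135500273154164486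038019287107028318659572200954478400697663921917187783123530740888617046359005301803361199694916380069685965419164503402560432014954907376253361040523169920548706949422333377257857663944876955109757061426616917925466467242551949754131584166165229210122835162470288354475437567500352217434960587107602077560686784144548170994755390706116020527130828206951218102233908766531631084154597060344122876290437516658980495327523814965239355923131496444321684021782380848775251080363400868939749254422627106379373267217052750832376412926639446072915638743438624064229117637607914525618184839702905813038352853343661972077563476986669767757386354876687163806475474251711350480004411959333077854522363723932876318622077253244105673903071843993489360434584290172104534793640422902786011315579056757341871868016908542024701402980827018780588267645088132555509291237215414966415574535568473396499006629762195767532947253464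104637144185922340518914935375760871260406651001379599056944841653819684774391339541556939700730724999904898786192664859697738831971265265716304629820379775070424402978085173392241737338665763617671690152076191233271027257860863076178190818974180275865238653493671852395411107839245487927146462695360609526015231047665706831025725994820291620799475685839389211932416038375132383285796053599819101164201796398242969362226493910899795373018063231850541857096373729428129454064891750054851501915269272934147420793226774783078856875108600530657458437771217718751998341913911475904693316679466434749801776991256999460075404663802636869592786955094685774041399147130713075749745042942985820630332872810938025225520626257191812894283182677678213699201920467174414154376192852351593438829620017731207909035191340391917802443519557500007455965226530516578396788562656013236361303596542205412224153873073279294158817717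13165164962355743032658461845190279235722160870415014053943309652914757354586987323842487805509706799511636780379520301203270828956772575309523378573785737045877946168162142036109977225782808995511668647168803990017985749252142258876563377382654189231660213328638637795076340169219975318509646642031841841376239800787127143597481527321497337415621363172179749691350373659358600536327651659492463845342112118751965961914893349297454985944120674433876832868860688313237896896821684848752236147677416741708133894003999320023716186577627553904373621269404695943782030582280971827600291269421364632883523339755303384886593847428905278003995566958727169630418394332169747051376746219645261315109593452178461661338878617253994347045381468319640407922500397712440337465573650417057596142583688728155537569145601323029469158678128574673601913440156938727539605504)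

noncomputable def rc0 : Nat := (nat_lit 196127160860873776610144242019153630529496977749088870167719347128511681786467034036079846471233536646277834166939377961551697703476921423926239266872796430509525541510617321287830772281986582108953910054595921643520712653325799196864330318828212424728510388256851282824661731661919945384470728181042238361670300320094928244944401319554893417349058655928171612749951864625191071251137585406099658523568242700408703345595286719011959625386239405774274378498697551375813194007446117992110773189200540837831010712461366736248383503418666907717356861060513090929156666985402725897797308152243424111148428465617400342521402852764789276687844321929410693528600164049532350628302210962439996651722253398126815976452396038968596423047656630259521899455961898924888754940992921647021372980372755067634802408885118292029427096177280454022213871548101712908779285213102574781638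595115004259032052700493027194443801604295958744763788774453190024516242664474385971331156142880994197383361009704594686233763856544018752265444154544379380717293149397023296190309743704214271293059376901910891322748945599195349551582114350845051107064649757380036175491147171684723134802813241309965345499492056448032705575808316748411996251644873246590717999359742673419570576588819683473708079903992694731481204156679663564996091732444526910491997404958106562433409699969622566014085204198861440480521301177003771826490942703141769898427999648448768280931579240342750292482333662650180170553663137568346268615951247723428107004252655047829737635341928159347541753603474354637130028827005758283109088039955875589705031277479731114417284206063628004871050447061723705331026933950399174667759771605683383588492968221162140992782892441477177293351208022787254388707184830830312648380777500547413385690573776018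286083637840293940441883034945763874505167092721218692199885094811273563959893315779195684258830048610726253531197706728968338831545651215572440155976827620771916965206938537254448415474057607680868338244498309980317710343234657510357817183486429167667899465445631370410747244992797861121714238999624599938872088891780718889440751038527540633170328896345179411414303294464315980466406695847569106852680870801632417723669058041734546838069725369601299457824606110934013758180817416143530360091586039116097495513563308664306008374266586451840244832936568691662488213989274263685530561229248757736446329275331307559640996156144161687974903455579521942660416669886358962238623163655880522317436893579543101919834297528153173425733162897703483243188387225585426100058336566997755035089536965349577559508173357741567346395186332396109852891358451385301162348018103867221284436771765046480049567022866263313677462479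367763838743955967415099838578017208131829578087530173347739045883847360807770365648165345086461293285362800890228212955516008446672120049872486277261375526710920106169482510949477753050658773394582213588623487914164323442310664119247993062429491063407650230844018097271346707543878125933491929579353956738562920045369686029261993209813439006788413771308579824723072835700566898908548086584733536629686580945639619130978347528299835265291420159967466705680497057692299963597035710939733316511811162953681934495010263601591730972626011249344435967338121972204937110169218567161895599349366617159848120576464581853294258570173129693484627448090240639349664572049405755768993307768058062977770819974883908472126748826023634125594327866012382530904633084424789199233555340517631514484150032516742809027572744001959934121912569450854598571397634161740473833462732810738989052871096240666581243996311134073112905904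156065237009642706976731697230604737447931439742531720808789536359214884482560605862556994577346104455656415125268446393414893256606909015076940268613553290080856368199433302682484725313447023561109141074066854646164285862936984586972434230627830466966053374753591232384260595952965514216235692721239201686298484575183264890036356342754268665781955028355258891080149768835403597380648368058685765996277987274439383130537045065796499468750191039546560873175079374700588384158753818183460455022836075134266013669406548965868412230902331959382720049340887820084911446446121640448191388474588359430873254196840767582892394106475595932125994639487036180119462647114143673855347105781803960430111193710234499534756965088370018731518529907613666445355973035220149400240693158320958773725160620203426330880258770311248168976137489533059141535065327952237620154175875461381301528198373897009529205241685959539302238568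11216720545298235684884075385592527151368579287339833639951557575533747099615352330751178354701818269740430942637305045751877310705366939184786035399329063164279465056127505195607965718563974849549360799649160338466898251522392611507902708709885549472139381658374433208510114235523250246111324348840718730469133301294090664087207672052184406944836837348195996967334040275762757263612679027698260577511121181577031423076684882019439887001142273222700560871611532358666290338088641815683416382254035418456577346547030611299749569790334611371694615721620290931430093330670814926129335249394801889958826164947976295316033979074248114309373547079073029904454286324964177172196527350653686287552770481085884079881018952368734084016841822865939990669087287182492678286635734406526649876368563840372088100477544656935911163765041397665978471968153338353243127808)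

noncomputable def rc1 : Nat := (nat_lit 239540237953341730906501198811946870827442472605786182033917160628819744699662071137285619858568012915676064270564602492874568241124322737771906564947448868185276420293630351163826468257432693531874095992663493842175279338610427720064554034462237429206069624544143489370673823982160883630301472831317944937713939058078894292478866702578555592662025233209456059318119369682360121214920807372345614159941138823300963765761855969390631346162212735466600335097467773587562287372176889570892026576718564197858006822069692294565022260417735689317599770584262546405621842386395332153228211213102133214200341212409739091302769227327015806700492509077703370081740940759721963325135227246891688849040397757940563361747187598993662575196963966347912622308867572669156659337888410286622224878115268590959435834847720015226565156781021729423651240039379716049016283347741193241787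692867566692416253551471635976287317900386967539678074708739192084067372035782560246323083830831140666436864825414206236251660085330831074204102588628095603640856021272333427269638104505013800156810773079054978557978400873234819560074651695838517537237859971450044727544821439456719444173715183043598781034640675291739995248114834060109499032468586694782120153558555793450985719579538260982775718706314744578703293830250250544713224386081187155797127486034338673503016775826738953532659052819427851709583268646218405086802461699660848376833752166379661273054873766022635105423535837749640246682262355577075718429608137882722411320158003748290928027980835289594004186260567534741926747820509414352511356679283251595373559519035192354546573498113425639296019993717685633182203867305087822258028303497921187545694988545141691972989106764905110635730055854103188741233919775950959447825972544160107495340661310021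801085344034630689499889840401224659262501867598942906420285800062882736940688253799098763406005452551871438834688980547362748266515239692757306472041754283199726957829124438263501298487358541535947736744689509178800114915965627977601218625693441622512321693004400219129198221404352748185204155000939139177437918277291787904294822268562320317823772973789218624474103185379940918341949148658281327934516196331050581453272185989603011240642625887152352809748861434732210765821034352989469120829894131266453239306109836038677298096308372545036316130580961767727191900283000709492200555483089888545302062779320060019481031248065384095115130498497413187568228937495493099874873666626223852159436941618668467162866071188993802144924610173986125891894215557520444259545557651787529210685781220556928211609060425478718408530688356533812422739047750216444994576695057675629042149538481820136207707918291308857414653388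867736372587223003469396543729140228291524680020026902058034479553648749972174474697178824368383738368867204302199581803309805776405220114874556366189839049205784230530417889908785557464275406711180721322726540635404903964987077475543121096960285075233989992221373634302905094311552975562176611430762596025909952978386004500511496091268521460869457258281809583670022801713459193975231770462880630981818396210247740898645037172894891389463058390435564426707333220340918071369288674575413975560953603253838782645516252739392133048517403539464699216815039974836665287262236489416123693004258201540310561484521088265690944080383060564138128748397461561376994175671059998372014004376672131968355662275795844289115047069887600245367075025656092035837092755759311176290365770070563077052336017809874128985035443549616621515089288542247469500474377507589942745343141465592161369834037994736700229367052182885174628234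364831459754912145205169525969124884247868727153200990142125637439241810465829015052860643991093128886351277483647037104445264074295765268371515154607844504949629298945816942741275012610941303283826519890281595305526611987741358094547260377828686144426517563728039572604168900613753658625815500358508304428246050148144775159888623724422660772375573792807355011902970279586734098615714807119157130774638214578490480711063184657738220525928691047530282762159275048722459124368818063505431123487191428058522480625759989037756344840627559111176213804878301370008633567023413567773492630247720441873600803772001356773030893793825503147477964617674325437905617579440425125294386332772603469286512179648779894417648823767682512653438479181038717161636702498971140562981368149332447794520377152547668946869944095418240962727387466429754799102964750430382363952997593043558134385549533725545404396581422228560307231993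05983765645170074818738982890657834690762053247263848660431014917807503035324708970607607054160573915971282091699598348205805511025692147244585880955011572812420473230022531255880442147556706692059689859443324421497122892133675077983599154176222585524650769640365647978915823028591511089219874540760207097876681262875986418947392649063541636890752319283062972791050527843334602572468099122191436119384871020498786116575161790818331199978001372515322878361253800617539960550769983283148750697219333461557056674179623524819470009531420162615636520893450488429878072010109270634065008606882381351991342365417871836974593260124282437890052301906285173160662269615095745062173727178563563612164954174976382216832103101368947518594449598653708841275604649187442132077309576989017297609555771692581486397175728187035938761326819141552310586434992354900244955136)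

noncomputable def rc2 : Nat := (nat_lit 261803285475271138417498020338282733384986265842213562965732272332790143464416795910632766630244554235901450472188635286187331121119984977873945305155247171989255661721887862645367682690908076875059637104208071701546502944180374643569065320434427317330213634802502767863697062331420102505695328491084035184443002294965281511515870149366979908424360076446872063768528966318992979309635941465952066081868790173358061919867369620189758609723923896875245660611297300007060634962363243684580361847030043527397903366393885989583557614298113652137825783810918057912311151780920827691972465231082458829933626086722135260030340135294527897070367932035449302953512325349121314698899431965855098712400302720371158491172551772595861493697454574808789466545054320232467317274983841894823470199534723724928504073042139096477181956218302595080932682758042448220053867529806460007645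879409597338477632608491716424930688341787457511310160416844455346416137355387406783109132592113606026511598145991788127133095304735066914060331311848133572411210668169209005275754189002781842986549544081369042503932136178331162975631626245068717100892010338288060676030772971022353470647132264562835774660993013190518625760675599540518642246119242772844394766863230650345944448654493478004686158164227838660718793972725586186013763770697111387435482662633369093443063313650179912068025573382247711615102751288858359340595726919230689679251929648909175344110373774217903205251917200339252683291157288281941444326263533016058521721636790930480364145758539855994773617379618087213934576605949018097456210430027899829810139916722926514384924998428478422498352184570563098760129110015490291294676312953094065678836167808679946617568038202455569507363709536216409696390902249009542378807413129282336184296171671432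825929035264175667479893824549025904457446495513667486858172848711419848809650230977525553807905675266379380753391193707427225906703483644407217926740592210771853574539060830657067775050898702800782834959469589116681265475588537890297859943184835085652948980978648414666998931481180586102965124010564083738804137106629392399811900416630874800302411791014840374534020571016455764603394671892432812099817063010133488518550329220830450282174811947129940362328914040624799795109154221699749487719839779719291048375886971629926816515922622516004703916558810275582577602448098598610890316624907883124647399385987254800196944645505437948556982387803549539425710413706897722033514508268155310817830870108035408806999767261854382054486049045781745803741060178854367927514435860278647113189018587397203483309268465198124033498071790419611838860405217981762241994772677752845513914948411450035351932440135500273154164486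038019287107028318659572200954478400697663921917187783123530740888617046359005301803361199694916380069685965419164503402560432014954907376253361040523169920548706949422333377257857663944876955109757061426616917925466467242551949754131584166165229210122835162470288354475437567500352217434960587107602077560686784144548170994755390706116020527130828206951218102233908766531631084154597060344122876290437516658980495327523814965239355923131496444321684021782380848775251080363400868939749254422627106379373267217052750832376412926639446072915638743438624064229117637607914525618184839702905813038352853343661972077563476986669767757386354876687163806475474251711350480004411959333077854522363723932876318622077253244105673903071843993489360434584290172104534793640422902786011315579056757341871868016908542024701402980827018780588267645088132555509291237215414966415574535568473396499006629762195767532947253464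104637144185922340518914935375760871260406651001379599056944841653819684774391339541556939700730724999904898786192664859697738831971265265716304629820379775070424402978085173392241737338665763617671690152076191233271027257860863076178190818974180275865238653493671852395411107839245487927146462695360609526015231047665706831025725994820291620799475685839389211932416038375132383285796053599819101164201796398242969362226493910899795373018063231850541857096373729428129454064891750054851501915269272934147420793226774783078856875108600530657458437771217718751998341913911475904693316679466434749801776991256999460075404663802636869592786955094685774041399147130713075749745042942985820630332872810938025225520626257191812894283182677678213699201920467174414154376192852351593438829620017731207909035191340391917802443519557500007455965226530516578396788562656013236361303596542205412224153873073279294158817717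13165164962355743032658461845190279235722160870415014053943309652914757354586987323842487805509706799511636780379520301203270828956772575309523378573785737045877946168162142036109977225782808995511668647168803990017985749252142258876563377382654189231660213328638637795076340169219975318509646642031841841376239800787127143597481527321497337415621363172179749691350373659358600536327651659492463845342112118751965961914893349297454985944120674433876832868860688313237896896821684848752236147677416741708133894003999320023716186577627553904373621269404695943782030582280971827600291269421364632883523339755303384886593847428905278003995566958727169630418394332169747051376746219645261315109593452178461661338878617253994347045381468319640407922500397712440337465573650417057596142583688728155537569145601323029469158678128574673601913440156938727539605504)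

end Vale.Agent.Lib.P154.Chain.D6.S2
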